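import Vale.Agent.Lib.P154.PChain.BA.R8_0

set_option linter.all false

namespace Vale.Agent.Lib.P154.PChain.BA.S9

open Vale.Agent.Lib.P154.Chain

noncomputable def pc0 : PT := (PT.nd (nat_lit 5005104) (PT.nd (nat_lit 4886310) (PT.nd (nat_lit 4767750) (PT.nd (nat_lit 4708470) (PT.nd (nat_lit 4708392) (PT.nd (nat_lit 4649112) PT.nil (PT.lf (nat_lit 760) (nat_lit 3) (nat_lit 10) (nat_lit 1) (nat_lit 246) (nat_lit 78) (nat_lit 246))) (PT.lf (nat_lit 836) (nat_lit 6) (nat_lit 11) (nat_lit 3) (nat_lit 245) (nat_lit 79) (nat_lit 246))) (PT.nd (nat_lit 59202) (PT.lf (nat_lit 836) (nat_lit 6) (nat_lit 11) (nat_lit 1) (nat_lit 246) (nat_lit 79) (nat_lit 245)) (PT.lf (nat_lit 912) (nat_lit 6) (nat_lit 12) (nat_lit 3) (nat_lit 244) (nat_lit 80) (nat_lit 246)))) (PT.nd (nat_lit 59280) (PT.nd (nat_lit 78) (PT.lf (nat_lit 988) (nat_lit 3) (nat_lit 13) (nat_lit 1) (nat_lit 245) (nat_lit 80) (nat_lit 245)) (PT.lf (nat_lit 912) (nat_lit 6) (nat_lit 12)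 (nat_lit 1) (nat_lit 246) (nat_lit 80) (nat_lit 244))) (PT.nd (nat_lit 78) (PT.lf (nat_lit 1140) (nat_lit 6) (nat_lit 15) (nat_lit 3) (nat_lit 244) (nat_lit 81) (nat_lit 245)) (PT.lf (nat_lit 1140) (nat_lit 6) (nat_lit 15) (nat_lit 1) (nat_lit 245) (nat_lit 81) (nat_lit 244))))) (PT.nd (nat_lit 59358) (PT.nd (nat_lit 156) (PT.nd (nat_lit 78) (PT.lf (nat_lit 1216) (nat_lit 6) (nat_lit 16) (nat_lit 3) (nat_lit 243) (nat_lit 82) (nat_lit 245)) (PT.lf (nat_lit 1292) (nat_lit 3) (nat_lit 17) (nat_lit 1) (nat_lit 244) (nat_lit 82) (nat_lit 244))) (PT.nd (nat_lit 59124) (PT.lf (nat_lit 1216) (nat_lit 6) (nat_lit 16) (nat_lit 1) (nat_lit 245) (nat_lit 82) (nat_lit 243)) (PT.lf (nat_lit 1368) (nat_lit 6) (nat_lit 18) (nat_lit 3) (nat_lit 242) (nat_lit 83) (nat_lit 245)))) (PT.nd (nat_lit 156) (PT.nd (nat_lit 78) (PT.lf (nat_lit 1444) (nat_lit 6) (nat_lit 19) (nat_lit 3) (nat_lit 243) (nat_lit 83) (nat_lit 244)) (PT.lf (nat_lit 1444) (nat_lit 6)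 (nat_lit 19) (nat_lit 1) (nat_lit 244) (nat_lit 83) (nat_lit 243))) (PT.nd (nat_lit 59124) (PT.lf (nat_lit 1368) (nat_lit 6) (nat_lit 18) (nat_lit 1) (nat_lit 245) (nat_lit 83) (nat_lit 242)) (PT.nd (nat_lit 78) (PT.lf (nat_lit 1520) (nat_lit 6) (nat_lit 20) (nat_lit 3) (nat_lit 242) (nat_lit 84) (nat_lit 244)) (PT.lf (nat_lit 1596) (nat_lit 3) (nat_lit 21) (nat_lit 1) (nat_lit 243) (nat_lit 84) (nat_lit 243))))))) (PT.nd (nat_lit 177840) (PT.nd (nat_lit 59358) (PT.nd (nat_lit 59202) (PT.nd (nat_lit 59124) (PT.lf (nat_lit 1520) (nat_lit 6) (nat_lit 20) (nat_lit 1) (nat_lit 244) (nat_lit 84) (nat_lit 242)) (PT.lf (nat_lit 1672) (nat_lit 6) (nat_lit 22) (nat_lit 3) (nat_lit 241) (nat_lit 85) (nat_lit 244))) (PT.nd (nat_lit 78) (PT.lf (nat_lit 1748) (nat_lit 6) (nat_lit 23) (nat_lit 3) (nat_lit 242) (nat_lit 85) (nat_lit 243)) (PT.lf (nat_lit 1748) (nat_lit 6) (nat_lit 23) (nat_lit 1) (nat_lit 243) (nat_lit 85) (nat_lit 242)))) (PT.nd (nat_lit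 59202) (PT.nd (nat_lit 59124) (PT.lf (nat_lit 1672) (nat_lit 6) (nat_lit 22) (nat_lit 1) (nat_lit 244) (nat_lit 85) (nat_lit 241)) (PT.lf (nat_lit 1900) (nat_lit 6) (nat_lit 25) (nat_lit 3) (nat_lit 241) (nat_lit 86) (nat_lit 243))) (PT.nd (nat_lit 78) (PT.lf (nat_lit 1976) (nat_lit 3) (nat_lit 26) (nat_lit 1) (nat_lit 242) (nat_lit 86) (nat_lit 242)) (PT.nd (nat_lit 59124) (PT.lf (nat_lit 1900) (nat_lit 6) (nat_lit 25) (nat_lit 1) (nat_lit 243) (nat_lit 86) (nat_lit 241)) (PT.lf (nat_lit 2052) (nat_lit 6) (nat_lit 27) (nat_lit 3) (nat_lit 240) (nat_lit 87) (nat_lit 243)))))) (PT.nd (nat_lit 59358) (PT.nd (nat_lit 156) (PT.nd (nat_lit 78) (PT.lf (nat_lit 2128) (nat_lit 6) (nat_lit 28) (nat_lit 3) (nat_lit 241) (nat_lit 87) (nat_lit 242)) (PT.lf (nat_lit 2128) (nat_lit 6) (nat_lit 28) (nat_lit 1) (nat_lit 242) (nat_lit 87) (nat_lit 241))) (PT.nd (nat_lit 59124) (PT.lf (nat_lit 2052) (nat_lit 6) (nat_lit 27) (nat_lit 1) (nat_lit 243) (nat_lit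 87) (nat_lit 240)) (PT.lf (nat_lit 2280) (nat_lit 6) (nat_lit 30) (nat_lit 3) (nat_lit 240) (nat_lit 88) (nat_lit 242)))) (PT.nd (nat_lit 59202) (PT.nd (nat_lit 78) (PT.lf (nat_lit 2356) (nat_lit 3) (nat_lit 31) (nat_lit 1) (nat_lit 241) (nat_lit 88) (nat_lit 241)) (PT.lf (nat_lit 2280) (nat_lit 6) (nat_lit 30) (nat_lit 1) (nat_lit 242) (nat_lit 88) (nat_lit 240))) (PT.nd (nat_lit 78) (PT.lf (nat_lit 2432) (nat_lit 6) (nat_lit 32) (nat_lit 3) (nat_lit 239) (nat_lit 89) (nat_lit 242)) (PT.nd (nat_lit 78) (PT.lf (nat_lit 2508) (nat_lit 6) (nat_lit 33) (nat_lit 3) (nat_lit 240) (nat_lit 89) (nat_lit 241)) (PT.lf (nat_lit 2508) (nat_lit 6) (nat_lit 33) (nat_lit 1) (nat_lit 241) (nat_lit 89) (nat_lit 240))))))))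
noncomputable def pc1 : PT := (PT.nd (nat_lit 237276) (PT.nd (nat_lit 118638) (PT.nd (nat_lit 59280) (PT.nd (nat_lit 59124) (PT.nd (nat_lit 59046) (PT.lf (nat_lit 2432) (nat_lit 6) (nat_lit 32) (nat_lit 1) (nat_lit 242) (nat_lit 89) (nat_lit 239)) (PT.lf (nat_lit 2584) (nat_lit 6) (nat_lit 34) (nat_lit 3) (nat_lit 238) (nat_lit 90) (nat_lit 242))) (PT.nd (nat_lit 78) (PT.lf (nat_lit 2660) (nat_lit 6) (nat_lit 35) (nat_lit 3) (nat_lit 239) (nat_lit 90) (nat_lit 241)) (PT.lf (nat_lit 2736) (nat_lit 3) (nat_lit 36) (nat_lit 1) (nat_lit 240) (nat_lit 90) (nat_lit 240)))) (PT.nd (nat_lit 59124) (PT.nd (nat_lit 78) (PT.lf (nat_lit 2660) (nat_lit 6) (nat_lit 35) (nat_lit 1) (nat_lit 241) (nat_lit 90) (nat_lit 239)) (PT.lf (nat_lit 2584) (nat_lit 6) (nat_lit 34) (nat_lit 1) (nat_lit 242) (nat_lit 90) (nat_lit 238))) (PT.nd (nat_lit 78) (PT.lf (nat_lit 2812) (nat_lit 6) (nat_lit 37) (nat_lit 3) (nat_lit 238) (nat_lit 91) (nat_lit 241)) (PT.nd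 (nat_lit 78) (PT.lf (nat_lit 2888) (nat_lit 6) (nat_lit 38) (nat_lit 3) (nat_lit 239) (nat_lit 91) (nat_lit 240)) (PT.lf (nat_lit 2888) (nat_lit 6) (nat_lit 38) (nat_lit 1) (nat_lit 240) (nat_lit 91) (nat_lit 239)))))) (PT.nd (nat_lit 59280) (PT.nd (nat_lit 59124) (PT.nd (nat_lit 59046) (PT.lf (nat_lit 2812) (nat_lit 6) (nat_lit 37) (nat_lit 1) (nat_lit 241) (nat_lit 91) (nat_lit 238)) (PT.lf (nat_lit 2964) (nat_lit 6) (nat_lit 39) (nat_lit 3) (nat_lit 237) (nat_lit 92) (nat_lit 241))) (PT.nd (nat_lit 78) (PT.lf (nat_lit 3040) (nat_lit 6) (nat_lit 40) (nat_lit 3) (nat_lit 238) (nat_lit 92) (nat_lit 240)) (PT.lf (nat_lit 3116) (nat_lit 3) (nat_lit 41) (nat_lit 1) (nat_lit 239) (nat_lit 92) (nat_lit 239)))) (PT.nd (nat_lit 59124) (PT.nd (nat_lit 78) (PT.lf (nat_lit 3040) (nat_lit 6) (nat_lit 40) (nat_lit 1) (nat_lit 240) (nat_lit 92) (nat_lit 238)) (PT.lf (nat_lit 2964) (nat_lit 6) (nat_lit 39) (nat_lit 1) (nat_lit 241) (nat_lit 92) (nat_lit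 237))) (PT.nd (nat_lit 78) (PT.lf (nat_lit 3192) (nat_lit 6) (nat_lit 42) (nat_lit 3) (nat_lit 237) (nat_lit 93) (nat_lit 240)) (PT.nd (nat_lit 78) (PT.lf (nat_lit 3268) (nat_lit 6) (nat_lit 43) (nat_lit 3) (nat_lit 238) (nat_lit 93) (nat_lit 239)) (PT.lf (nat_lit 3268) (nat_lit 6) (nat_lit 43) (nat_lit 1) (nat_lit 239) (nat_lit 93) (nat_lit 238))))))) (PT.nd (nat_lit 118638) (PT.nd (nat_lit 59280) (PT.nd (nat_lit 59124) (PT.nd (nat_lit 59046) (PT.lf (nat_lit 3192) (nat_lit 6) (nat_lit 42) (nat_lit 1) (nat_lit 240) (nat_lit 93) (nat_lit 237)) (PT.lf (nat_lit 3344) (nat_lit 6) (nat_lit 44) (nat_lit 3) (nat_lit 236) (nat_lit 94) (nat_lit 240))) (PT.nd (nat_lit 78) (PT.lf (nat_lit 3420) (nat_lit 6) (nat_lit 45) (nat_lit 3) (nat_lit 237) (nat_lit 94) (nat_lit 239)) (PT.lf (nat_lit 3496) (nat_lit 3) (nat_lit 46) (nat_lit 1) (nat_lit 238) (nat_lit 94) (nat_lit 238)))) (PT.nd (nat_lit 59124) (PT.nd (nat_lit 78) (PT.lf (nat_lit 3420) (nat_lit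 6) (nat_lit 45) (nat_lit 1) (nat_lit 239) (nat_lit 94) (nat_lit 237)) (PT.lf (nat_lit 3344) (nat_lit 6) (nat_lit 44) (nat_lit 1) (nat_lit 240) (nat_lit 94) (nat_lit 236))) (PT.nd (nat_lit 78) (PT.lf (nat_lit 3648) (nat_lit 6) (nat_lit 48) (nat_lit 3) (nat_lit 236) (nat_lit 95) (nat_lit 239)) (PT.nd (nat_lit 78) (PT.lf (nat_lit 3724) (nat_lit 6) (nat_lit 49) (nat_lit 3) (nat_lit 237) (nat_lit 95) (nat_lit 238)) (PT.lf (nat_lit 3724) (nat_lit 6) (nat_lit 49) (nat_lit 1) (nat_lit 238) (nat_lit 95) (nat_lit 237)))))) (PT.nd (nat_lit 59280) (PT.nd (nat_lit 59124) (PT.nd (nat_lit 59046) (PT.lf (nat_lit 3648) (nat_lit 6) (nat_lit 48) (nat_lit 1) (nat_lit 239) (nat_lit 95) (nat_lit 236)) (PT.lf (nat_lit 3800) (nat_lit 6) (nat_lit 50) (nat_lit 3) (nat_lit 235) (nat_lit 96) (nat_lit 239))) (PT.nd (nat_lit 78) (PT.lf (nat_lit 3876) (nat_lit 6) (nat_lit 51) (nat_lit 3) (nat_lit 236) (nat_lit 96) (nat_lit 238)) (PT.lf (nat_lit 3952) (nat_lit 3) (nat_lit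 52) (nat_lit 1) (nat_lit 237) (nat_lit 96) (nat_lit 237)))) (PT.nd (nat_lit 59046) (PT.nd (nat_lit 78) (PT.lf (nat_lit 3876) (nat_lit 6) (nat_lit 51) (nat_lit 1) (nat_lit 238) (nat_lit 96) (nat_lit 236)) (PT.lf (nat_lit 3800) (nat_lit 6) (nat_lit 50) (nat_lit 1) (nat_lit 239) (nat_lit 96) (nat_lit 235))) (PT.nd (nat_lit 78) (PT.lf (nat_lit 4028) (nat_lit 6) (nat_lit 53) (nat_lit 3) (nat_lit 234) (nat_lit 97) (nat_lit 239)) (PT.nd (nat_lit 78) (PT.lf (nat_lit 4104) (nat_lit 6) (nat_lit 54) (nat_lit 3) (nat_lit 235) (nat_lit 97) (nat_lit 238)) (PT.lf (nat_lit 4180) (nat_lit 6) (nat_lit 55) (nat_lit 3) (nat_lit 236) (nat_lit 97) (nat_lit 237))))))))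
noncomputable def pc2 : PT := (PT.nd (nat_lit 177996) (PT.nd (nat_lit 118404) (PT.nd (nat_lit 59202) (PT.nd (nat_lit 156) (PT.nd (nat_lit 78) (PT.lf (nat_lit 4180) (nat_lit 6) (nat_lit 55) (nat_lit 1) (nat_lit 237) (nat_lit 97) (nat_lit 236)) (PT.lf (nat_lit 4104) (nat_lit 6) (nat_lit 54) (nat_lit 1) (nat_lit 238) (nat_lit 97) (nat_lit 235))) (PT.nd (nat_lit 58968) (PT.lf (nat_lit 4028) (nat_lit 6) (nat_lit 53) (nat_lit 1) (nat_lit 239) (nat_lit 97) (nat_lit 234)) (PT.lf (nat_lit 4256) (nat_lit 6) (nat_lit 56) (nat_lit 3) (nat_lit 234) (nat_lit 98) (nat_lit 238)))) (PT.nd (nat_lit 156) (PT.nd (nat_lit 78) (PT.lf (nat_lit 4332) (nat_lit 6) (nat_lit 57) (nat_lit 3) (nat_lit 235) (nat_lit 98) (nat_lit 237)) (PT.lf (nat_lit 4408) (nat_lit 3) (nat_lit 58) (nat_lit 1) (nat_lit 236) (nat_lit 98) (nat_lit 236))) (PT.nd (nat_lit 78) (PT.lf (nat_lit 4332) (nat_lit 6) (nat_lit 57) (nat_lit 1) (nat_lit 237) (nat_lit 98) (nat_lit 235)) (PT.lf (nat_lit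 4256) (nat_lit 6) (nat_lit 56) (nat_lit 1) (nat_lit 238) (nat_lit 98) (nat_lit 234))))) (PT.nd (nat_lit 312) (PT.nd (nat_lit 156) (PT.nd (nat_lit 78) (PT.lf (nat_lit 4484) (nat_lit 6) (nat_lit 59) (nat_lit 3) (nat_lit 233) (nat_lit 99) (nat_lit 238)) (PT.lf (nat_lit 4560) (nat_lit 6) (nat_lit 60) (nat_lit 3) (nat_lit 234) (nat_lit 99) (nat_lit 237))) (PT.nd (nat_lit 78) (PT.lf (nat_lit 4636) (nat_lit 6) (nat_lit 61) (nat_lit 3) (nat_lit 235) (nat_lit 99) (nat_lit 236)) (PT.lf (nat_lit 4636) (nat_lit 6) (nat_lit 61) (nat_lit 1) (nat_lit 236) (nat_lit 99) (nat_lit 235)))) (PT.nd (nat_lit 59046) (PT.nd (nat_lit 78) (PT.lf (nat_lit 4560) (nat_lit 6) (nat_lit 60) (nat_lit 1) (nat_lit 237) (nat_lit 99) (nat_lit 234)) (PT.lf (nat_lit 4484) (nat_lit 6) (nat_lit 59) (nat_lit 1) (nat_lit 238) (nat_lit 99) (nat_lit 233))) (PT.nd (nat_lit 78) (PT.lf (nat_lit 4712) (nat_lit 6) (nat_lit 62) (nat_lit 3) (nat_lit 233) (nat_lit 100) (nat_lit 237)) (PT.nd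 (nat_lit 78) (PT.lf (nat_lit 4788) (nat_lit 6) (nat_lit 63) (nat_lit 3) (nat_lit 234) (nat_lit 100) (nat_lit 236)) (PT.lf (nat_lit 4864) (nat_lit 3) (nat_lit 64) (nat_lit 1) (nat_lit 235) (nat_lit 100) (nat_lit 235))))))) (PT.nd (nat_lit 118482) (PT.nd (nat_lit 59202) (PT.nd (nat_lit 59046) (PT.nd (nat_lit 78) (PT.lf (nat_lit 4788) (nat_lit 6) (nat_lit 63) (nat_lit 1) (nat_lit 236) (nat_lit 100) (nat_lit 234)) (PT.lf (nat_lit 4712) (nat_lit 6) (nat_lit 62) (nat_lit 1) (nat_lit 237) (nat_lit 100) (nat_lit 233))) (PT.nd (nat_lit 78) (PT.lf (nat_lit 4940) (nat_lit 6) (nat_lit 65) (nat_lit 3) (nat_lit 232) (nat_lit 101) (nat_lit 237)) (PT.lf (nat_lit 5016) (nat_lit 6) (nat_lit 66) (nat_lit 3) (nat_lit 233) (nat_lit 101) (nat_lit 236)))) (PT.nd (nat_lit 156) (PT.nd (nat_lit 78) (PT.lf (nat_lit 5092) (nat_lit 6) (nat_lit 67) (nat_lit 3) (nat_lit 234) (nat_lit 101) (nat_lit 235)) (PT.lf (nat_lit 5092) (nat_lit 6) (nat_lit 67) (nat_lit 1) (nat_lit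 235) (nat_lit 101) (nat_lit 234))) (PT.nd (nat_lit 78) (PT.lf (nat_lit 5016) (nat_lit 6) (nat_lit 66) (nat_lit 1) (nat_lit 236) (nat_lit 101) (nat_lit 233)) (PT.nd (nat_lit 58968) (PT.lf (nat_lit 4940) (nat_lit 6) (nat_lit 65) (nat_lit 1) (nat_lit 237) (nat_lit 101) (nat_lit 232)) (PT.lf (nat_lit 5168) (nat_lit 6) (nat_lit 68) (nat_lit 3) (nat_lit 232) (nat_lit 102) (nat_lit 236)))))) (PT.nd (nat_lit 59202) (PT.nd (nat_lit 156) (PT.nd (nat_lit 78) (PT.lf (nat_lit 5244) (nat_lit 6) (nat_lit 69) (nat_lit 3) (nat_lit 233) (nat_lit 102) (nat_lit 235)) (PT.lf (nat_lit 5320) (nat_lit 3) (nat_lit 70) (nat_lit 1) (nat_lit 234) (nat_lit 102) (nat_lit 234))) (PT.nd (nat_lit 78) (PT.lf (nat_lit 5244) (nat_lit 6) (nat_lit 69) (nat_lit 1) (nat_lit 235) (nat_lit 102) (nat_lit 233)) (PT.lf (nat_lit 5168) (nat_lit 6) (nat_lit 68) (nat_lit 1) (nat_lit 236) (nat_lit 102) (nat_lit 232)))) (PT.nd (nat_lit 156) (PT.nd (nat_lit 78) (PT.lf (nat_lit 5396) (nat_lit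 6) (nat_lit 71) (nat_lit 3) (nat_lit 231) (nat_lit 103) (nat_lit 236)) (PT.lf (nat_lit 5472) (nat_lit 6) (nat_lit 72) (nat_lit 3) (nat_lit 232) (nat_lit 103) (nat_lit 235))) (PT.nd (nat_lit 78) (PT.lf (nat_lit 5548) (nat_lit 6) (nat_lit 73) (nat_lit 3) (nat_lit 233) (nat_lit 103) (nat_lit 234)) (PT.nd (nat_lit 78) (PT.lf (nat_lit 5548) (nat_lit 6) (nat_lit 73) (nat_lit 1) (nat_lit 234) (nat_lit 103) (nat_lit 233)) (PT.lf (nat_lit 5472) (nat_lit 6) (nat_lit 72) (nat_lit 1) (nat_lit 235) (nat_lit 103) (nat_lit 232))))))))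
noncomputable def pc3 : PT := (PT.nd (nat_lit 177996) (PT.nd (nat_lit 118482) (PT.nd (nat_lit 59202) (PT.nd (nat_lit 59046) (PT.nd (nat_lit 58968) (PT.lf (nat_lit 5396) (nat_lit 6) (nat_lit 71) (nat_lit 1) (nat_lit 236) (nat_lit 103) (nat_lit 231)) (PT.lf (nat_lit 5624) (nat_lit 6) (nat_lit 74) (nat_lit 3) (nat_lit 231) (nat_lit 104) (nat_lit 235))) (PT.nd (nat_lit 78) (PT.lf (nat_lit 5700) (nat_lit 6) (nat_lit 75) (nat_lit 3) (nat_lit 232) (nat_lit 104) (nat_lit 234)) (PT.lf (nat_lit 5776) (nat_lit 3) (nat_lit 76) (nat_lit 1) (nat_lit 233) (nat_lit 104) (nat_lit 233)))) (PT.nd (nat_lit 59046) (PT.nd (nat_lit 78) (PT.lf (nat_lit 5700) (nat_lit 6) (nat_lit 75) (nat_lit 1) (nat_lit 234) (nat_lit 104) (nat_lit 232)) (PT.lf (nat_lit 5624) (nat_lit 6) (nat_lit 74) (nat_lit 1) (nat_lit 235) (nat_lit 104) (nat_lit 231))) (PT.nd (nat_lit 78) (PT.lf (nat_lit 5852) (nat_lit 6) (nat_lit 77) (nat_lit 3) (nat_lit 230) (nat_lit 105) (nat_lit 235))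 (PT.nd (nat_lit 78) (PT.lf (nat_lit 5928) (nat_lit 6) (nat_lit 78) (nat_lit 3) (nat_lit 231) (nat_lit 105) (nat_lit 234)) (PT.lf (nat_lit 6004) (nat_lit 6) (nat_lit 79) (nat_lit 3) (nat_lit 232) (nat_lit 105) (nat_lit 233)))))) (PT.nd (nat_lit 59124) (PT.nd (nat_lit 156) (PT.nd (nat_lit 78) (PT.lf (nat_lit 6004) (nat_lit 6) (nat_lit 79) (nat_lit 1) (nat_lit 233) (nat_lit 105) (nat_lit 232)) (PT.lf (nat_lit 5928) (nat_lit 6) (nat_lit 78) (nat_lit 1) (nat_lit 234) (nat_lit 105) (nat_lit 231))) (PT.nd (nat_lit 58890) (PT.lf (nat_lit 5852) (nat_lit 6) (nat_lit 77) (nat_lit 1) (nat_lit 235) (nat_lit 105) (nat_lit 230)) (PT.lf (nat_lit 6080) (nat_lit 6) (nat_lit 80) (nat_lit 3) (nat_lit 229) (nat_lit 106) (nat_lit 235)))) (PT.nd (nat_lit 156) (PT.nd (nat_lit 78) (PT.lf (nat_lit 6156) (nat_lit 6) (nat_lit 81) (nat_lit 3) (nat_lit 230) (nat_lit 106) (nat_lit 234)) (PT.lf (nat_lit 6232) (nat_lit 6) (nat_lit 82) (nat_lit 3) (nat_lit 231) (nat_lit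 106) (nat_lit 233))) (PT.nd (nat_lit 78) (PT.lf (nat_lit 6308) (nat_lit 3) (nat_lit 83) (nat_lit 1) (nat_lit 232) (nat_lit 106) (nat_lit 232)) (PT.nd (nat_lit 78) (PT.lf (nat_lit 6232) (nat_lit 6) (nat_lit 82) (nat_lit 1) (nat_lit 233) (nat_lit 106) (nat_lit 231)) (PT.lf (nat_lit 6156) (nat_lit 6) (nat_lit 81) (nat_lit 1) (nat_lit 234) (nat_lit 106) (nat_lit 230))))))) (PT.nd (nat_lit 118326) (PT.nd (nat_lit 59124) (PT.nd (nat_lit 58968) (PT.nd (nat_lit 58890) (PT.lf (nat_lit 6080) (nat_lit 6) (nat_lit 80) (nat_lit 1) (nat_lit 235) (nat_lit 106) (nat_lit 229)) (PT.lf (nat_lit 6384) (nat_lit 6) (nat_lit 84) (nat_lit 3) (nat_lit 229) (nat_lit 107) (nat_lit 234))) (PT.nd (nat_lit 78) (PT.lf (nat_lit 6460) (nat_lit 6) (nat_lit 85) (nat_lit 3) (nat_lit 230) (nat_lit 107) (nat_lit 233)) (PT.lf (nat_lit 6536) (nat_lit 6) (nat_lit 86) (nat_lit 3) (nat_lit 231) (nat_lit 107) (nat_lit 232)))) (PT.nd (nat_lit 156) (PT.nd (nat_lit 78) (PT.lf (nat_lit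 6536) (nat_lit 6) (nat_lit 86) (nat_lit 1) (nat_lit 232) (nat_lit 107) (nat_lit 231)) (PT.lf (nat_lit 6460) (nat_lit 6) (nat_lit 85) (nat_lit 1) (nat_lit 233) (nat_lit 107) (nat_lit 230))) (PT.nd (nat_lit 58890) (PT.lf (nat_lit 6384) (nat_lit 6) (nat_lit 84) (nat_lit 1) (nat_lit 234) (nat_lit 107) (nat_lit 229)) (PT.nd (nat_lit 78) (PT.lf (nat_lit 6612) (nat_lit 6) (nat_lit 87) (nat_lit 3) (nat_lit 228) (nat_lit 108) (nat_lit 234)) (PT.lf (nat_lit 6688) (nat_lit 6) (nat_lit 88) (nat_lit 3) (nat_lit 229) (nat_lit 108) (nat_lit 233)))))) (PT.nd (nat_lit 312) (PT.nd (nat_lit 156) (PT.nd (nat_lit 78) (PT.lf (nat_lit 6764) (nat_lit 6) (nat_lit 89) (nat_lit 3) (nat_lit 230) (nat_lit 108) (nat_lit 232)) (PT.lf (nat_lit 6840) (nat_lit 3) (nat_lit 90) (nat_lit 1) (nat_lit 231) (nat_lit 108) (nat_lit 231))) (PT.nd (nat_lit 78) (PT.lf (nat_lit 6764) (nat_lit 6) (nat_lit 89) (nat_lit 1) (nat_lit 232) (nat_lit 108) (nat_lit 230)) (PT.lf (nat_lit 6688)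 (nat_lit 6) (nat_lit 88) (nat_lit 1) (nat_lit 233) (nat_lit 108) (nat_lit 229)))) (PT.nd (nat_lit 58968) (PT.nd (nat_lit 58890) (PT.lf (nat_lit 6612) (nat_lit 6) (nat_lit 87) (nat_lit 1) (nat_lit 234) (nat_lit 108) (nat_lit 228)) (PT.lf (nat_lit 6916) (nat_lit 6) (nat_lit 91) (nat_lit 3) (nat_lit 228) (nat_lit 109) (nat_lit 233))) (PT.nd (nat_lit 78) (PT.lf (nat_lit 6992) (nat_lit 6) (nat_lit 92) (nat_lit 3) (nat_lit 229) (nat_lit 109) (nat_lit 232)) (PT.nd (nat_lit 78) (PT.lf (nat_lit 7068) (nat_lit 6) (nat_lit 93) (nat_lit 3) (nat_lit 230) (nat_lit 109) (nat_lit 231)) (PT.lf (nat_lit 7068) (nat_lit 6) (nat_lit 93) (nat_lit 1) (nat_lit 231) (nat_lit 109) (nat_lit 230))))))))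
noncomputable def pc4 : PT := (PT.nd (nat_lit 177762) (PT.nd (nat_lit 59436) (PT.nd (nat_lit 59124) (PT.nd (nat_lit 58968) (PT.nd (nat_lit 78) (PT.lf (nat_lit 6992) (nat_lit 6) (nat_lit 92) (nat_lit 1) (nat_lit 232) (nat_lit 109) (nat_lit 229)) (PT.lf (nat_lit 6916) (nat_lit 6) (nat_lit 91) (nat_lit 1) (nat_lit 233) (nat_lit 109) (nat_lit 228))) (PT.nd (nat_lit 78) (PT.lf (nat_lit 7144) (nat_lit 6) (nat_lit 94) (nat_lit 3) (nat_lit 227) (nat_lit 110) (nat_lit 233)) (PT.lf (nat_lit 7220) (nat_lit 6) (nat_lit 95) (nat_lit 3) (nat_lit 228) (nat_lit 110) (nat_lit 232)))) (PT.nd (nat_lit 156) (PT.nd (nat_lit 78) (PT.lf (nat_lit 7296) (nat_lit 6) (nat_lit 96) (nat_lit 3) (nat_lit 229) (nat_lit 110) (nat_lit 231)) (PT.lf (nat_lit 7372) (nat_lit 3) (nat_lit 97) (nat_lit 1) (nat_lit 230) (nat_lit 110) (nat_lit 230))) (PT.nd (nat_lit 78) (PT.lf (nat_lit 7296) (nat_lit 6) (nat_lit 96) (nat_lit 1) (nat_lit 231) (nat_lit 110) (nat_lit 229)) (PT.lf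 (nat_lit 7220) (nat_lit 6) (nat_lit 95) (nat_lit 1) (nat_lit 232) (nat_lit 110) (nat_lit 228))))) (PT.nd (nat_lit 59124) (PT.nd (nat_lit 58968) (PT.nd (nat_lit 58890) (PT.lf (nat_lit 7144) (nat_lit 6) (nat_lit 94) (nat_lit 1) (nat_lit 233) (nat_lit 110) (nat_lit 227)) (PT.lf (nat_lit 7448) (nat_lit 6) (nat_lit 98) (nat_lit 3) (nat_lit 227) (nat_lit 111) (nat_lit 232))) (PT.nd (nat_lit 78) (PT.lf (nat_lit 7524) (nat_lit 6) (nat_lit 99) (nat_lit 3) (nat_lit 228) (nat_lit 111) (nat_lit 231)) (PT.lf (nat_lit 7600) (nat_lit 6) (nat_lit 100) (nat_lit 3) (nat_lit 229) (nat_lit 111) (nat_lit 230)))) (PT.nd (nat_lit 156) (PT.nd (nat_lit 78) (PT.lf (nat_lit 7600) (nat_lit 6) (nat_lit 100) (nat_lit 1) (nat_lit 230) (nat_lit 111) (nat_lit 229)) (PT.lf (nat_lit 7524) (nat_lit 6) (nat_lit 99) (nat_lit 1) (nat_lit 231) (nat_lit 111) (nat_lit 228))) (PT.nd (nat_lit 58890) (PT.lf (nat_lit 7448) (nat_lit 6) (nat_lit 98) (nat_lit 1) (nat_lit 232) (nat_lit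 111) (nat_lit 227)) (PT.nd (nat_lit 78) (PT.lf (nat_lit 7676) (nat_lit 6) (nat_lit 101) (nat_lit 3) (nat_lit 226) (nat_lit 112) (nat_lit 232)) (PT.lf (nat_lit 7752) (nat_lit 6) (nat_lit 102) (nat_lit 3) (nat_lit 227) (nat_lit 112) (nat_lit 231))))))) (PT.nd (nat_lit 59436) (PT.nd (nat_lit 312) (PT.nd (nat_lit 156) (PT.nd (nat_lit 78) (PT.lf (nat_lit 7828) (nat_lit 6) (nat_lit 103) (nat_lit 3) (nat_lit 228) (nat_lit 112) (nat_lit 230)) (PT.lf (nat_lit 7904) (nat_lit 3) (nat_lit 104) (nat_lit 1) (nat_lit 229) (nat_lit 112) (nat_lit 229))) (PT.nd (nat_lit 78) (PT.lf (nat_lit 7828) (nat_lit 6) (nat_lit 103) (nat_lit 1) (nat_lit 230) (nat_lit 112) (nat_lit 228)) (PT.lf (nat_lit 7752) (nat_lit 6) (nat_lit 102) (nat_lit 1) (nat_lit 231) (nat_lit 112) (nat_lit 227)))) (PT.nd (nat_lit 58890) (PT.nd (nat_lit 58812) (PT.lf (nat_lit 7676) (nat_lit 6) (nat_lit 101) (nat_lit 1) (nat_lit 232) (nat_lit 112) (nat_lit 226)) (PT.lf (nat_lit 7980) (nat_lit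 6) (nat_lit 105) (nat_lit 3) (nat_lit 225) (nat_lit 113) (nat_lit 232))) (PT.nd (nat_lit 78) (PT.lf (nat_lit 8056) (nat_lit 6) (nat_lit 106) (nat_lit 3) (nat_lit 226) (nat_lit 113) (nat_lit 231)) (PT.nd (nat_lit 78) (PT.lf (nat_lit 8132) (nat_lit 6) (nat_lit 107) (nat_lit 3) (nat_lit 227) (nat_lit 113) (nat_lit 230)) (PT.lf (nat_lit 8208) (nat_lit 6) (nat_lit 108) (nat_lit 3) (nat_lit 228) (nat_lit 113) (nat_lit 229)))))) (PT.nd (nat_lit 59046) (PT.nd (nat_lit 156) (PT.nd (nat_lit 78) (PT.lf (nat_lit 8208) (nat_lit 6) (nat_lit 108) (nat_lit 1) (nat_lit 229) (nat_lit 113) (nat_lit 228)) (PT.lf (nat_lit 8132) (nat_lit 6) (nat_lit 107) (nat_lit 1) (nat_lit 230) (nat_lit 113) (nat_lit 227))) (PT.nd (nat_lit 78) (PT.lf (nat_lit 8056) (nat_lit 6) (nat_lit 106) (nat_lit 1) (nat_lit 231) (nat_lit 113) (nat_lit 226)) (PT.lf (nat_lit 7980) (nat_lit 6) (nat_lit 105) (nat_lit 1) (nat_lit 232) (nat_lit 113) (nat_lit 225)))) (PT.nd (nat_lit 156) (PT.nd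 (nat_lit 78) (PT.lf (nat_lit 8284) (nat_lit 6) (nat_lit 109) (nat_lit 3) (nat_lit 225) (nat_lit 114) (nat_lit 231)) (PT.lf (nat_lit 8360) (nat_lit 6) (nat_lit 110) (nat_lit 3) (nat_lit 226) (nat_lit 114) (nat_lit 230))) (PT.nd (nat_lit 78) (PT.lf (nat_lit 8436) (nat_lit 6) (nat_lit 111) (nat_lit 3) (nat_lit 227) (nat_lit 114) (nat_lit 229)) (PT.nd (nat_lit 78) (PT.lf (nat_lit 8512) (nat_lit 3) (nat_lit 112) (nat_lit 1) (nat_lit 228) (nat_lit 114) (nat_lit 228)) (PT.lf (nat_lit 8436) (nat_lit 6) (nat_lit 111) (nat_lit 1) (nat_lit 229) (nat_lit 114) (nat_lit 227))))))))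
noncomputable def pc5 : PT := (PT.nd (nat_lit 177606) (PT.nd (nat_lit 59436) (PT.nd (nat_lit 59046) (PT.nd (nat_lit 58890) (PT.nd (nat_lit 78) (PT.lf (nat_lit 8360) (nat_lit 6) (nat_lit 110) (nat_lit 1) (nat_lit 230) (nat_lit 114) (nat_lit 226)) (PT.lf (nat_lit 8284) (nat_lit 6) (nat_lit 109) (nat_lit 1) (nat_lit 231) (nat_lit 114) (nat_lit 225))) (PT.nd (nat_lit 78) (PT.lf (nat_lit 8588) (nat_lit 6) (nat_lit 113) (nat_lit 3) (nat_lit 224) (nat_lit 115) (nat_lit 231)) (PT.lf (nat_lit 8664) (nat_lit 6) (nat_lit 114) (nat_lit 3) (nat_lit 225) (nat_lit 115) (nat_lit 230)))) (PT.nd (nat_lit 156) (PT.nd (nat_lit 78) (PT.lf (nat_lit 8740) (nat_lit 6) (nat_lit 115) (nat_lit 3) (nat_lit 226) (nat_lit 115) (nat_lit 229)) (PT.lf (nat_lit 8816) (nat_lit 6) (nat_lit 116) (nat_lit 3) (nat_lit 227) (nat_lit 115) (nat_lit 228))) (PT.nd (nat_lit 78) (PT.lf (nat_lit 8816) (nat_lit 6) (nat_lit 116) (nat_lit 1) (nat_lit 228) (nat_lit 115) (nat_lit 227))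 (PT.nd (nat_lit 78) (PT.lf (nat_lit 8740) (nat_lit 6) (nat_lit 115) (nat_lit 1) (nat_lit 229) (nat_lit 115) (nat_lit 226)) (PT.lf (nat_lit 8664) (nat_lit 6) (nat_lit 114) (nat_lit 1) (nat_lit 230) (nat_lit 115) (nat_lit 225)))))) (PT.nd (nat_lit 59046) (PT.nd (nat_lit 58890) (PT.nd (nat_lit 58812) (PT.lf (nat_lit 8588) (nat_lit 6) (nat_lit 113) (nat_lit 1) (nat_lit 231) (nat_lit 115) (nat_lit 224)) (PT.lf (nat_lit 8892) (nat_lit 6) (nat_lit 117) (nat_lit 3) (nat_lit 224) (nat_lit 116) (nat_lit 230))) (PT.nd (nat_lit 78) (PT.lf (nat_lit 8968) (nat_lit 6) (nat_lit 118) (nat_lit 3) (nat_lit 225) (nat_lit 116) (nat_lit 229)) (PT.lf (nat_lit 9044) (nat_lit 6) (nat_lit 119) (nat_lit 3) (nat_lit 226) (nat_lit 116) (nat_lit 228)))) (PT.nd (nat_lit 156) (PT.nd (nat_lit 78) (PT.lf (nat_lit 9120) (nat_lit 3) (nat_lit 120) (nat_lit 1) (nat_lit 227) (nat_lit 116) (nat_lit 227)) (PT.lf (nat_lit 9044) (nat_lit 6) (nat_lit 119) (nat_lit 1) (nat_lit 228)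 (nat_lit 116) (nat_lit 226))) (PT.nd (nat_lit 78) (PT.lf (nat_lit 8968) (nat_lit 6) (nat_lit 118) (nat_lit 1) (nat_lit 229) (nat_lit 116) (nat_lit 225)) (PT.nd (nat_lit 58812) (PT.lf (nat_lit 8892) (nat_lit 6) (nat_lit 117) (nat_lit 1) (nat_lit 230) (nat_lit 116) (nat_lit 224)) (PT.lf (nat_lit 9196) (nat_lit 6) (nat_lit 121) (nat_lit 3) (nat_lit 223) (nat_lit 117) (nat_lit 230))))))) (PT.nd (nat_lit 59436) (PT.nd (nat_lit 312) (PT.nd (nat_lit 156) (PT.nd (nat_lit 78) (PT.lf (nat_lit 9272) (nat_lit 6) (nat_lit 122) (nat_lit 3) (nat_lit 224) (nat_lit 117) (nat_lit 229)) (PT.lf (nat_lit 9348) (nat_lit 6) (nat_lit 123) (nat_lit 3) (nat_lit 225) (nat_lit 117) (nat_lit 228))) (PT.nd (nat_lit 78) (PT.lf (nat_lit 9424) (nat_lit 6) (nat_lit 124) (nat_lit 3) (nat_lit 226) (nat_lit 117) (nat_lit 227)) (PT.lf (nat_lit 9424) (nat_lit 6) (nat_lit 124) (nat_lit 1) (nat_lit 227) (nat_lit 117) (nat_lit 226)))) (PT.nd (nat_lit 156) (PT.nd (nat_lit 78)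 (PT.lf (nat_lit 9348) (nat_lit 6) (nat_lit 123) (nat_lit 1) (nat_lit 228) (nat_lit 117) (nat_lit 225)) (PT.lf (nat_lit 9272) (nat_lit 6) (nat_lit 122) (nat_lit 1) (nat_lit 229) (nat_lit 117) (nat_lit 224))) (PT.nd (nat_lit 58812) (PT.lf (nat_lit 9196) (nat_lit 6) (nat_lit 121) (nat_lit 1) (nat_lit 230) (nat_lit 117) (nat_lit 223)) (PT.nd (nat_lit 78) (PT.lf (nat_lit 9500) (nat_lit 6) (nat_lit 125) (nat_lit 3) (nat_lit 223) (nat_lit 118) (nat_lit 229)) (PT.lf (nat_lit 9576) (nat_lit 6) (nat_lit 126) (nat_lit 3) (nat_lit 224) (nat_lit 118) (nat_lit 228)))))) (PT.nd (nat_lit 312) (PT.nd (nat_lit 156) (PT.nd (nat_lit 78) (PT.lf (nat_lit 9652) (nat_lit 6) (nat_lit 127) (nat_lit 3) (nat_lit 225) (nat_lit 118) (nat_lit 227)) (PT.lf (nat_lit 9728) (nat_lit 3) (nat_lit 128) (nat_lit 1) (nat_lit 226) (nat_lit 118) (nat_lit 226))) (PT.nd (nat_lit 78) (PT.lf (nat_lit 9652) (nat_lit 6) (nat_lit 127) (nat_lit 1) (nat_lit 227) (nat_lit 118) (nat_lit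 225)) (PT.lf (nat_lit 9576) (nat_lit 6) (nat_lit 126) (nat_lit 1) (nat_lit 228) (nat_lit 118) (nat_lit 224)))) (PT.nd (nat_lit 58890) (PT.nd (nat_lit 58812) (PT.lf (nat_lit 9500) (nat_lit 6) (nat_lit 125) (nat_lit 1) (nat_lit 229) (nat_lit 118) (nat_lit 223)) (PT.lf (nat_lit 9804) (nat_lit 6) (nat_lit 129) (nat_lit 3) (nat_lit 222) (nat_lit 119) (nat_lit 229))) (PT.nd (nat_lit 78) (PT.lf (nat_lit 9880) (nat_lit 6) (nat_lit 130) (nat_lit 3) (nat_lit 223) (nat_lit 119) (nat_lit 228)) (PT.nd (nat_lit 78) (PT.lf (nat_lit 9956) (nat_lit 6) (nat_lit 131) (nat_lit 3) (nat_lit 224) (nat_lit 119) (nat_lit 227)) (PT.lf (nat_lit 10032) (nat_lit 6) (nat_lit 132) (nat_lit 3) (nat_lit 225) (nat_lit 119) (nat_lit 226))))))))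
noncomputable def pc6 : PT := (PT.nd (nat_lit 118716) (PT.nd (nat_lit 59358) (PT.nd (nat_lit 58968) (PT.nd (nat_lit 156) (PT.nd (nat_lit 78) (PT.lf (nat_lit 10032) (nat_lit 6) (nat_lit 132) (nat_lit 1) (nat_lit 226) (nat_lit 119) (nat_lit 225)) (PT.lf (nat_lit 9956) (nat_lit 6) (nat_lit 131) (nat_lit 1) (nat_lit 227) (nat_lit 119) (nat_lit 224))) (PT.nd (nat_lit 78) (PT.lf (nat_lit 9880) (nat_lit 6) (nat_lit 130) (nat_lit 1) (nat_lit 228) (nat_lit 119) (nat_lit 223)) (PT.lf (nat_lit 9804) (nat_lit 6) (nat_lit 129) (nat_lit 1) (nat_lit 229) (nat_lit 119) (nat_lit 222)))) (PT.nd (nat_lit 156) (PT.nd (nat_lit 78) (PT.lf (nat_lit 10108) (nat_lit 6) (nat_lit 133) (nat_lit 3) (nat_lit 221) (nat_lit 120) (nat_lit 229)) (PT.lf (nat_lit 10184) (nat_lit 6) (nat_lit 134) (nat_lit 3) (nat_lit 222) (nat_lit 120) (nat_lit 228))) (PT.nd (nat_lit 78) (PT.lf (nat_lit 10260) (nat_lit 6) (nat_lit 135) (nat_lit 3) (nat_lit 223) (nat_lit 120) (nat_lit 227))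 (PT.nd (nat_lit 78) (PT.lf (nat_lit 10336) (nat_lit 6) (nat_lit 136) (nat_lit 3) (nat_lit 224) (nat_lit 120) (nat_lit 226)) (PT.lf (nat_lit 10412) (nat_lit 3) (nat_lit 137) (nat_lit 1) (nat_lit 225) (nat_lit 120) (nat_lit 225)))))) (PT.nd (nat_lit 58968) (PT.nd (nat_lit 156) (PT.nd (nat_lit 78) (PT.lf (nat_lit 10336) (nat_lit 6) (nat_lit 136) (nat_lit 1) (nat_lit 226) (nat_lit 120) (nat_lit 224)) (PT.lf (nat_lit 10260) (nat_lit 6) (nat_lit 135) (nat_lit 1) (nat_lit 227) (nat_lit 120) (nat_lit 223))) (PT.nd (nat_lit 78) (PT.lf (nat_lit 10184) (nat_lit 6) (nat_lit 134) (nat_lit 1) (nat_lit 228) (nat_lit 120) (nat_lit 222)) (PT.lf (nat_lit 10108) (nat_lit 6) (nat_lit 133) (nat_lit 1) (nat_lit 229) (nat_lit 120) (nat_lit 221)))) (PT.nd (nat_lit 156) (PT.nd (nat_lit 78) (PT.lf (nat_lit 10488) (nat_lit 6) (nat_lit 138) (nat_lit 3) (nat_lit 221) (nat_lit 121) (nat_lit 228)) (PT.lf (nat_lit 10564) (nat_lit 6) (nat_lit 139) (nat_lit 3) (nat_lit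 222) (nat_lit 121) (nat_lit 227))) (PT.nd (nat_lit 78) (PT.lf (nat_lit 10640) (nat_lit 6) (nat_lit 140) (nat_lit 3) (nat_lit 223) (nat_lit 121) (nat_lit 226)) (PT.nd (nat_lit 78) (PT.lf (nat_lit 10716) (nat_lit 6) (nat_lit 141) (nat_lit 3) (nat_lit 224) (nat_lit 121) (nat_lit 225)) (PT.lf (nat_lit 10716) (nat_lit 6) (nat_lit 141) (nat_lit 1) (nat_lit 225) (nat_lit 121) (nat_lit 224))))))) (PT.nd (nat_lit 59358) (PT.nd (nat_lit 58968) (PT.nd (nat_lit 156) (PT.nd (nat_lit 78) (PT.lf (nat_lit 10640) (nat_lit 6) (nat_lit 140) (nat_lit 1) (nat_lit 226) (nat_lit 121) (nat_lit 223)) (PT.lf (nat_lit 10564) (nat_lit 6) (nat_lit 139) (nat_lit 1) (nat_lit 227) (nat_lit 121) (nat_lit 222))) (PT.nd (nat_lit 58734) (PT.lf (nat_lit 10488) (nat_lit 6) (nat_lit 138) (nat_lit 1) (nat_lit 228) (nat_lit 121) (nat_lit 221)) (PT.lf (nat_lit 10792) (nat_lit 6) (nat_lit 142) (nat_lit 3) (nat_lit 220) (nat_lit 122) (nat_lit 228)))) (PT.nd (nat_lit 156) (PT.nd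 (nat_lit 78) (PT.lf (nat_lit 10868) (nat_lit 6) (nat_lit 143) (nat_lit 3) (nat_lit 221) (nat_lit 122) (nat_lit 227)) (PT.lf (nat_lit 10944) (nat_lit 6) (nat_lit 144) (nat_lit 3) (nat_lit 222) (nat_lit 122) (nat_lit 226))) (PT.nd (nat_lit 78) (PT.lf (nat_lit 11020) (nat_lit 6) (nat_lit 145) (nat_lit 3) (nat_lit 223) (nat_lit 122) (nat_lit 225)) (PT.nd (nat_lit 78) (PT.lf (nat_lit 11096) (nat_lit 3) (nat_lit 146) (nat_lit 1) (nat_lit 224) (nat_lit 122) (nat_lit 224)) (PT.lf (nat_lit 11020) (nat_lit 6) (nat_lit 145) (nat_lit 1) (nat_lit 225) (nat_lit 122) (nat_lit 223)))))) (PT.nd (nat_lit 58968) (PT.nd (nat_lit 156) (PT.nd (nat_lit 78) (PT.lf (nat_lit 10944) (nat_lit 6) (nat_lit 144) (nat_lit 1) (nat_lit 226) (nat_lit 122) (nat_lit 222)) (PT.lf (nat_lit 10868) (nat_lit 6) (nat_lit 143) (nat_lit 1) (nat_lit 227) (nat_lit 122) (nat_lit 221))) (PT.nd (nat_lit 58734) (PT.lf (nat_lit 10792) (nat_lit 6) (nat_lit 142) (nat_lit 1) (nat_lit 228)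 (nat_lit 122) (nat_lit 220)) (PT.lf (nat_lit 11172) (nat_lit 6) (nat_lit 147) (nat_lit 3) (nat_lit 220) (nat_lit 123) (nat_lit 227)))) (PT.nd (nat_lit 156) (PT.nd (nat_lit 78) (PT.lf (nat_lit 11248) (nat_lit 6) (nat_lit 148) (nat_lit 3) (nat_lit 221) (nat_lit 123) (nat_lit 226)) (PT.lf (nat_lit 11324) (nat_lit 6) (nat_lit 149) (nat_lit 3) (nat_lit 222) (nat_lit 123) (nat_lit 225))) (PT.nd (nat_lit 78) (PT.lf (nat_lit 11400) (nat_lit 6) (nat_lit 150) (nat_lit 3) (nat_lit 223) (nat_lit 123) (nat_lit 224)) (PT.nd (nat_lit 78) (PT.lf (nat_lit 11400) (nat_lit 6) (nat_lit 150) (nat_lit 1) (nat_lit 224) (nat_lit 123) (nat_lit 223)) (PT.lf (nat_lit 11324) (nat_lit 6) (nat_lit 149) (nat_lit 1) (nat_lit 225) (nat_lit 123) (nat_lit 222))))))))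
noncomputable def pc7 : PT := (PT.nd (nat_lit 118638) (PT.nd (nat_lit 59358) (PT.nd (nat_lit 58968) (PT.nd (nat_lit 58812) (PT.nd (nat_lit 78) (PT.lf (nat_lit 11248) (nat_lit 6) (nat_lit 148) (nat_lit 1) (nat_lit 226) (nat_lit 123) (nat_lit 221)) (PT.lf (nat_lit 11172) (nat_lit 6) (nat_lit 147) (nat_lit 1) (nat_lit 227) (nat_lit 123) (nat_lit 220))) (PT.nd (nat_lit 78) (PT.lf (nat_lit 11476) (nat_lit 6) (nat_lit 151) (nat_lit 3) (nat_lit 219) (nat_lit 124) (nat_lit 227)) (PT.lf (nat_lit 11552) (nat_lit 6) (nat_lit 152) (nat_lit 3) (nat_lit 220) (nat_lit 124) (nat_lit 226)))) (PT.nd (nat_lit 156) (PT.nd (nat_lit 78) (PT.lf (nat_lit 11628) (nat_lit 6) (nat_lit 153) (nat_lit 3) (nat_lit 221) (nat_lit 124) (nat_lit 225)) (PT.lf (nat_lit 11704) (nat_lit 6) (nat_lit 154) (nat_lit 3) (nat_lit 222) (nat_lit 124) (nat_lit 224))) (PT.nd (nat_lit 78) (PT.lf (nat_lit 11780) (nat_lit 3) (nat_lit 155) (nat_lit 1) (nat_lit 223) (nat_lit 124) (nat_lit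 223)) (PT.nd (nat_lit 78) (PT.lf (nat_lit 11704) (nat_lit 6) (nat_lit 154) (nat_lit 1) (nat_lit 224) (nat_lit 124) (nat_lit 222)) (PT.lf (nat_lit 11628) (nat_lit 6) (nat_lit 153) (nat_lit 1) (nat_lit 225) (nat_lit 124) (nat_lit 221)))))) (PT.nd (nat_lit 58890) (PT.nd (nat_lit 58734) (PT.nd (nat_lit 78) (PT.lf (nat_lit 11552) (nat_lit 6) (nat_lit 152) (nat_lit 1) (nat_lit 226) (nat_lit 124) (nat_lit 220)) (PT.lf (nat_lit 11476) (nat_lit 6) (nat_lit 151) (nat_lit 1) (nat_lit 227) (nat_lit 124) (nat_lit 219))) (PT.nd (nat_lit 78) (PT.lf (nat_lit 11856) (nat_lit 6) (nat_lit 156) (nat_lit 3) (nat_lit 218) (nat_lit 125) (nat_lit 227)) (PT.lf (nat_lit 11932) (nat_lit 6) (nat_lit 157) (nat_lit 3) (nat_lit 219) (nat_lit 125) (nat_lit 226)))) (PT.nd (nat_lit 156) (PT.nd (nat_lit 78) (PT.lf (nat_lit 12008) (nat_lit 6) (nat_lit 158) (nat_lit 3) (nat_lit 220) (nat_lit 125) (nat_lit 225)) (PT.lf (nat_lit 12084) (nat_lit 6) (nat_lit 159) (nat_lit 3)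 (nat_lit 221) (nat_lit 125) (nat_lit 224))) (PT.nd (nat_lit 78) (PT.lf (nat_lit 12160) (nat_lit 6) (nat_lit 160) (nat_lit 3) (nat_lit 222) (nat_lit 125) (nat_lit 223)) (PT.nd (nat_lit 78) (PT.lf (nat_lit 12160) (nat_lit 6) (nat_lit 160) (nat_lit 1) (nat_lit 223) (nat_lit 125) (nat_lit 222)) (PT.lf (nat_lit 12084) (nat_lit 6) (nat_lit 159) (nat_lit 1) (nat_lit 224) (nat_lit 125) (nat_lit 221))))))) (PT.nd (nat_lit 59280) (PT.nd (nat_lit 58890) (PT.nd (nat_lit 156) (PT.nd (nat_lit 78) (PT.lf (nat_lit 12008) (nat_lit 6) (nat_lit 158) (nat_lit 1) (nat_lit 225) (nat_lit 125) (nat_lit 220)) (PT.lf (nat_lit 11932) (nat_lit 6) (nat_lit 157) (nat_lit 1) (nat_lit 226) (nat_lit 125) (nat_lit 219))) (PT.nd (nat_lit 58656) (PT.lf (nat_lit 11856) (nat_lit 6) (nat_lit 156) (nat_lit 1) (nat_lit 227) (nat_lit 125) (nat_lit 218)) (PT.lf (nat_lit 12236) (nat_lit 6) (nat_lit 161) (nat_lit 3) (nat_lit 218) (nat_lit 126) (nat_lit 226)))) (PT.nd (nat_lit 156)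 (PT.nd (nat_lit 78) (PT.lf (nat_lit 12312) (nat_lit 6) (nat_lit 162) (nat_lit 3) (nat_lit 219) (nat_lit 126) (nat_lit 225)) (PT.lf (nat_lit 12388) (nat_lit 6) (nat_lit 163) (nat_lit 3) (nat_lit 220) (nat_lit 126) (nat_lit 224))) (PT.nd (nat_lit 78) (PT.lf (nat_lit 12464) (nat_lit 6) (nat_lit 164) (nat_lit 3) (nat_lit 221) (nat_lit 126) (nat_lit 223)) (PT.nd (nat_lit 78) (PT.lf (nat_lit 12540) (nat_lit 3) (nat_lit 165) (nat_lit 1) (nat_lit 222) (nat_lit 126) (nat_lit 222)) (PT.lf (nat_lit 12464) (nat_lit 6) (nat_lit 164) (nat_lit 1) (nat_lit 223) (nat_lit 126) (nat_lit 221)))))) (PT.nd (nat_lit 58890) (PT.nd (nat_lit 156) (PT.nd (nat_lit 78) (PT.lf (nat_lit 12388) (nat_lit 6) (nat_lit 163) (nat_lit 1) (nat_lit 224) (nat_lit 126) (nat_lit 220)) (PT.lf (nat_lit 12312) (nat_lit 6) (nat_lit 162) (nat_lit 1) (nat_lit 225) (nat_lit 126) (nat_lit 219))) (PT.nd (nat_lit 58656) (PT.lf (nat_lit 12236) (nat_lit 6) (nat_lit 161) (nat_lit 1) (nat_lit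 226) (nat_lit 126) (nat_lit 218)) (PT.lf (nat_lit 12616) (nat_lit 6) (nat_lit 166) (nat_lit 3) (nat_lit 217) (nat_lit 127) (nat_lit 226)))) (PT.nd (nat_lit 156) (PT.nd (nat_lit 78) (PT.lf (nat_lit 12692) (nat_lit 6) (nat_lit 167) (nat_lit 3) (nat_lit 218) (nat_lit 127) (nat_lit 225)) (PT.lf (nat_lit 12768) (nat_lit 6) (nat_lit 168) (nat_lit 3) (nat_lit 219) (nat_lit 127) (nat_lit 224))) (PT.nd (nat_lit 78) (PT.lf (nat_lit 12844) (nat_lit 6) (nat_lit 169) (nat_lit 3) (nat_lit 220) (nat_lit 127) (nat_lit 223)) (PT.nd (nat_lit 78) (PT.lf (nat_lit 12920) (nat_lit 6) (nat_lit 170) (nat_lit 3) (nat_lit 221) (nat_lit 127) (nat_lit 222)) (PT.lf (nat_lit 12920) (nat_lit 6) (nat_lit 170) (nat_lit 1) (nat_lit 222) (nat_lit 127) (nat_lit 221))))))))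
noncomputable def pc8 : PT := (PT.nd (nat_lit 118482) (PT.nd (nat_lit 59202) (PT.nd (nat_lit 58890) (PT.nd (nat_lit 156) (PT.nd (nat_lit 78) (PT.lf (nat_lit 12844) (nat_lit 6) (nat_lit 169) (nat_lit 1) (nat_lit 223) (nat_lit 127) (nat_lit 220)) (PT.lf (nat_lit 12768) (nat_lit 6) (nat_lit 168) (nat_lit 1) (nat_lit 224) (nat_lit 127) (nat_lit 219))) (PT.nd (nat_lit 78) (PT.lf (nat_lit 12692) (nat_lit 6) (nat_lit 167) (nat_lit 1) (nat_lit 225) (nat_lit 127) (nat_lit 218)) (PT.lf (nat_lit 12616) (nat_lit 6) (nat_lit 166) (nat_lit 1) (nat_lit 226) (nat_lit 127) (nat_lit 217)))) (PT.nd (nat_lit 156) (PT.nd (nat_lit 78) (PT.lf (nat_lit 12996) (nat_lit 6) (nat_lit 171) (nat_lit 3) (nat_lit 217) (nat_lit 128) (nat_lit 225)) (PT.lf (nat_lit 13072) (nat_lit 6) (nat_lit 172) (nat_lit 3) (nat_lit 218) (nat_lit 128) (nat_lit 224))) (PT.nd (nat_lit 78) (PT.lf (nat_lit 13148) (nat_lit 6) (nat_lit 173) (nat_lit 3) (nat_lit 219) (nat_lit 128) (nat_lit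 223)) (PT.lf (nat_lit 13224) (nat_lit 6) (nat_lit 174) (nat_lit 3) (nat_lit 220) (nat_lit 128) (nat_lit 222))))) (PT.nd (nat_lit 312) (PT.nd (nat_lit 156) (PT.nd (nat_lit 78) (PT.lf (nat_lit 13300) (nat_lit 3) (nat_lit 175) (nat_lit 1) (nat_lit 221) (nat_lit 128) (nat_lit 221)) (PT.lf (nat_lit 13224) (nat_lit 6) (nat_lit 174) (nat_lit 1) (nat_lit 222) (nat_lit 128) (nat_lit 220))) (PT.nd (nat_lit 78) (PT.lf (nat_lit 13148) (nat_lit 6) (nat_lit 173) (nat_lit 1) (nat_lit 223) (nat_lit 128) (nat_lit 219)) (PT.lf (nat_lit 13072) (nat_lit 6) (nat_lit 172) (nat_lit 1) (nat_lit 224) (nat_lit 128) (nat_lit 218)))) (PT.nd (nat_lit 58734) (PT.nd (nat_lit 58656) (PT.lf (nat_lit 12996) (nat_lit 6) (nat_lit 171) (nat_lit 1) (nat_lit 225) (nat_lit 128) (nat_lit 217)) (PT.lf (nat_lit 13376) (nat_lit 6) (nat_lit 176) (nat_lit 3) (nat_lit 216) (nat_lit 129) (nat_lit 225))) (PT.nd (nat_lit 78) (PT.lf (nat_lit 13452) (nat_lit 6) (nat_lit 177) (nat_lit 3)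 (nat_lit 217) (nat_lit 129) (nat_lit 224)) (PT.nd (nat_lit 78) (PT.lf (nat_lit 13528) (nat_lit 6) (nat_lit 178) (nat_lit 3) (nat_lit 218) (nat_lit 129) (nat_lit 223)) (PT.lf (nat_lit 13604) (nat_lit 6) (nat_lit 179) (nat_lit 3) (nat_lit 219) (nat_lit 129) (nat_lit 222))))))) (PT.nd (nat_lit 59202) (PT.nd (nat_lit 312) (PT.nd (nat_lit 156) (PT.nd (nat_lit 78) (PT.lf (nat_lit 13680) (nat_lit 6) (nat_lit 180) (nat_lit 3) (nat_lit 220) (nat_lit 129) (nat_lit 221)) (PT.lf (nat_lit 13680) (nat_lit 6) (nat_lit 180) (nat_lit 1) (nat_lit 221) (nat_lit 129) (nat_lit 220))) (PT.nd (nat_lit 78) (PT.lf (nat_lit 13604) (nat_lit 6) (nat_lit 179) (nat_lit 1) (nat_lit 222) (nat_lit 129) (nat_lit 219)) (PT.lf (nat_lit 13528) (nat_lit 6) (nat_lit 178) (nat_lit 1) (nat_lit 223) (nat_lit 129) (nat_lit 218)))) (PT.nd (nat_lit 58656) (PT.nd (nat_lit 78) (PT.lf (nat_lit 13452) (nat_lit 6) (nat_lit 177) (nat_lit 1) (nat_lit 224) (nat_lit 129) (nat_lit 217)) (PT.lf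 (nat_lit 13376) (nat_lit 6) (nat_lit 176) (nat_lit 1) (nat_lit 225) (nat_lit 129) (nat_lit 216))) (PT.nd (nat_lit 78) (PT.lf (nat_lit 13756) (nat_lit 6) (nat_lit 181) (nat_lit 3) (nat_lit 215) (nat_lit 130) (nat_lit 225)) (PT.nd (nat_lit 78) (PT.lf (nat_lit 13832) (nat_lit 6) (nat_lit 182) (nat_lit 3) (nat_lit 216) (nat_lit 130) (nat_lit 224)) (PT.lf (nat_lit 13908) (nat_lit 6) (nat_lit 183) (nat_lit 3) (nat_lit 217) (nat_lit 130) (nat_lit 223)))))) (PT.nd (nat_lit 312) (PT.nd (nat_lit 156) (PT.nd (nat_lit 78) (PT.lf (nat_lit 13984) (nat_lit 6) (nat_lit 184) (nat_lit 3) (nat_lit 218) (nat_lit 130) (nat_lit 222)) (PT.lf (nat_lit 14060) (nat_lit 6) (nat_lit 185) (nat_lit 3) (nat_lit 219) (nat_lit 130) (nat_lit 221))) (PT.nd (nat_lit 78) (PT.lf (nat_lit 14136) (nat_lit 3) (nat_lit 186) (nat_lit 1) (nat_lit 220) (nat_lit 130) (nat_lit 220)) (PT.lf (nat_lit 14060) (nat_lit 6) (nat_lit 185) (nat_lit 1) (nat_lit 221) (nat_lit 130) (nat_lit 219))))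 (PT.nd (nat_lit 156) (PT.nd (nat_lit 78) (PT.lf (nat_lit 13984) (nat_lit 6) (nat_lit 184) (nat_lit 1) (nat_lit 222) (nat_lit 130) (nat_lit 218)) (PT.lf (nat_lit 13908) (nat_lit 6) (nat_lit 183) (nat_lit 1) (nat_lit 223) (nat_lit 130) (nat_lit 217))) (PT.nd (nat_lit 78) (PT.lf (nat_lit 13832) (nat_lit 6) (nat_lit 182) (nat_lit 1) (nat_lit 224) (nat_lit 130) (nat_lit 216)) (PT.nd (nat_lit 58578) (PT.lf (nat_lit 13756) (nat_lit 6) (nat_lit 181) (nat_lit 1) (nat_lit 225) (nat_lit 130) (nat_lit 215)) (PT.lf (nat_lit 14212) (nat_lit 6) (nat_lit 187) (nat_lit 3) (nat_lit 215) (nat_lit 131) (nat_lit 224))))))))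
noncomputable def pc9 : PT := (PT.nd (nat_lit 59904) (PT.nd (nat_lit 59202) (PT.nd (nat_lit 312) (PT.nd (nat_lit 156) (PT.nd (nat_lit 78) (PT.lf (nat_lit 14288) (nat_lit 6) (nat_lit 188) (nat_lit 3) (nat_lit 216) (nat_lit 131) (nat_lit 223)) (PT.lf (nat_lit 14364) (nat_lit 6) (nat_lit 189) (nat_lit 3) (nat_lit 217) (nat_lit 131) (nat_lit 222))) (PT.nd (nat_lit 78) (PT.lf (nat_lit 14440) (nat_lit 6) (nat_lit 190) (nat_lit 3) (nat_lit 218) (nat_lit 131) (nat_lit 221)) (PT.lf (nat_lit 14516) (nat_lit 6) (nat_lit 191) (nat_lit 3) (nat_lit 219) (nat_lit 131) (nat_lit 220)))) (PT.nd (nat_lit 156) (PT.nd (nat_lit 78) (PT.lf (nat_lit 14516) (nat_lit 6) (nat_lit 191) (nat_lit 1) (nat_lit 220) (nat_lit 131) (nat_lit 219)) (PT.lf (nat_lit 14440) (nat_lit 6) (nat_lit 190) (nat_lit 1) (nat_lit 221) (nat_lit 131) (nat_lit 218))) (PT.nd (nat_lit 78) (PT.lf (nat_lit 14364) (nat_lit 6) (nat_lit 189) (nat_lit 1) (nat_lit 222) (nat_lit 131) (nat_lit 217))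 (PT.nd (nat_lit 78) (PT.lf (nat_lit 14288) (nat_lit 6) (nat_lit 188) (nat_lit 1) (nat_lit 223) (nat_lit 131) (nat_lit 216)) (PT.lf (nat_lit 14212) (nat_lit 6) (nat_lit 187) (nat_lit 1) (nat_lit 224) (nat_lit 131) (nat_lit 215)))))) (PT.nd (nat_lit 312) (PT.nd (nat_lit 156) (PT.nd (nat_lit 78) (PT.lf (nat_lit 14592) (nat_lit 6) (nat_lit 192) (nat_lit 3) (nat_lit 214) (nat_lit 132) (nat_lit 224)) (PT.lf (nat_lit 14668) (nat_lit 6) (nat_lit 193) (nat_lit 3) (nat_lit 215) (nat_lit 132) (nat_lit 223))) (PT.nd (nat_lit 78) (PT.lf (nat_lit 14744) (nat_lit 6) (nat_lit 194) (nat_lit 3) (nat_lit 216) (nat_lit 132) (nat_lit 222)) (PT.lf (nat_lit 14820) (nat_lit 6) (nat_lit 195) (nat_lit 3) (nat_lit 217) (nat_lit 132) (nat_lit 221)))) (PT.nd (nat_lit 156) (PT.nd (nat_lit 78) (PT.lf (nat_lit 14896) (nat_lit 6) (nat_lit 196) (nat_lit 3) (nat_lit 218) (nat_lit 132) (nat_lit 220)) (PT.lf (nat_lit 14972) (nat_lit 3) (nat_lit 197) (nat_lit 1) (nat_lit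 219) (nat_lit 132) (nat_lit 219))) (PT.nd (nat_lit 78) (PT.lf (nat_lit 14896) (nat_lit 6) (nat_lit 196) (nat_lit 1) (nat_lit 220) (nat_lit 132) (nat_lit 218)) (PT.nd (nat_lit 78) (PT.lf (nat_lit 14820) (nat_lit 6) (nat_lit 195) (nat_lit 1) (nat_lit 221) (nat_lit 132) (nat_lit 217)) (PT.lf (nat_lit 14744) (nat_lit 6) (nat_lit 194) (nat_lit 1) (nat_lit 222) (nat_lit 132) (nat_lit 216))))))) (PT.nd (nat_lit 59124) (PT.nd (nat_lit 58734) (PT.nd (nat_lit 58578) (PT.nd (nat_lit 78) (PT.lf (nat_lit 14668) (nat_lit 6) (nat_lit 193) (nat_lit 1) (nat_lit 223) (nat_lit 132) (nat_lit 215)) (PT.lf (nat_lit 14592) (nat_lit 6) (nat_lit 192) (nat_lit 1) (nat_lit 224) (nat_lit 132) (nat_lit 214))) (PT.nd (nat_lit 78) (PT.lf (nat_lit 15048) (nat_lit 6) (nat_lit 198) (nat_lit 3) (nat_lit 213) (nat_lit 133) (nat_lit 224)) (PT.lf (nat_lit 15124) (nat_lit 6) (nat_lit 199) (nat_lit 3) (nat_lit 214) (nat_lit 133) (nat_lit 223)))) (PT.nd (nat_lit 156) (PT.nd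 (nat_lit 78) (PT.lf (nat_lit 15200) (nat_lit 6) (nat_lit 200) (nat_lit 3) (nat_lit 215) (nat_lit 133) (nat_lit 222)) (PT.lf (nat_lit 15276) (nat_lit 6) (nat_lit 201) (nat_lit 3) (nat_lit 216) (nat_lit 133) (nat_lit 221))) (PT.nd (nat_lit 78) (PT.lf (nat_lit 15352) (nat_lit 6) (nat_lit 202) (nat_lit 3) (nat_lit 217) (nat_lit 133) (nat_lit 220)) (PT.nd (nat_lit 78) (PT.lf (nat_lit 15428) (nat_lit 6) (nat_lit 203) (nat_lit 3) (nat_lit 218) (nat_lit 133) (nat_lit 219)) (PT.lf (nat_lit 15428) (nat_lit 6) (nat_lit 203) (nat_lit 1) (nat_lit 219) (nat_lit 133) (nat_lit 218)))))) (PT.nd (nat_lit 312) (PT.nd (nat_lit 156) (PT.nd (nat_lit 78) (PT.lf (nat_lit 15352) (nat_lit 6) (nat_lit 202) (nat_lit 1) (nat_lit 220) (nat_lit 133) (nat_lit 217)) (PT.lf (nat_lit 15276) (nat_lit 6) (nat_lit 201) (nat_lit 1) (nat_lit 221) (nat_lit 133) (nat_lit 216))) (PT.nd (nat_lit 78) (PT.lf (nat_lit 15200) (nat_lit 6) (nat_lit 200) (nat_lit 1) (nat_lit 222) (nat_lit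 133) (nat_lit 215)) (PT.lf (nat_lit 15124) (nat_lit 6) (nat_lit 199) (nat_lit 1) (nat_lit 223) (nat_lit 133) (nat_lit 214)))) (PT.nd (nat_lit 58578) (PT.nd (nat_lit 58500) (PT.lf (nat_lit 15048) (nat_lit 6) (nat_lit 198) (nat_lit 1) (nat_lit 224) (nat_lit 133) (nat_lit 213)) (PT.lf (nat_lit 15504) (nat_lit 6) (nat_lit 204) (nat_lit 3) (nat_lit 213) (nat_lit 134) (nat_lit 223))) (PT.nd (nat_lit 78) (PT.lf (nat_lit 15580) (nat_lit 6) (nat_lit 205) (nat_lit 3) (nat_lit 214) (nat_lit 134) (nat_lit 222)) (PT.nd (nat_lit 78) (PT.lf (nat_lit 15656) (nat_lit 6) (nat_lit 206) (nat_lit 3) (nat_lit 215) (nat_lit 134) (nat_lit 221)) (PT.lf (nat_lit 15732) (nat_lit 6) (nat_lit 207) (nat_lit 3) (nat_lit 216) (nat_lit 134) (nat_lit 220))))))))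
noncomputable def pc10 : PT := (PT.nd (nat_lit 59748) (PT.nd (nat_lit 59046) (PT.nd (nat_lit 312) (PT.nd (nat_lit 156) (PT.nd (nat_lit 78) (PT.lf (nat_lit 15808) (nat_lit 6) (nat_lit 208) (nat_lit 3) (nat_lit 217) (nat_lit 134) (nat_lit 219)) (PT.lf (nat_lit 15884) (nat_lit 3) (nat_lit 209) (nat_lit 1) (nat_lit 218) (nat_lit 134) (nat_lit 218))) (PT.nd (nat_lit 78) (PT.lf (nat_lit 15808) (nat_lit 6) (nat_lit 208) (nat_lit 1) (nat_lit 219) (nat_lit 134) (nat_lit 217)) (PT.lf (nat_lit 15732) (nat_lit 6) (nat_lit 207) (nat_lit 1) (nat_lit 220) (nat_lit 134) (nat_lit 216)))) (PT.nd (nat_lit 156) (PT.nd (nat_lit 78) (PT.lf (nat_lit 15656) (nat_lit 6) (nat_lit 206) (nat_lit 1) (nat_lit 221) (nat_lit 134) (nat_lit 215)) (PT.lf (nat_lit 15580) (nat_lit 6) (nat_lit 205) (nat_lit 1) (nat_lit 222) (nat_lit 134) (nat_lit 214))) (PT.nd (nat_lit 58500) (PT.lf (nat_lit 15504) (nat_lit 6) (nat_lit 204) (nat_lit 1) (nat_lit 223) (nat_lit 134) (nat_lit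 213)) (PT.lf (nat_lit 15960) (nat_lit 6) (nat_lit 210) (nat_lit 3) (nat_lit 212) (nat_lit 135) (nat_lit 223))))) (PT.nd (nat_lit 312) (PT.nd (nat_lit 156) (PT.nd (nat_lit 78) (PT.lf (nat_lit 16036) (nat_lit 6) (nat_lit 211) (nat_lit 3) (nat_lit 213) (nat_lit 135) (nat_lit 222)) (PT.lf (nat_lit 16112) (nat_lit 6) (nat_lit 212) (nat_lit 3) (nat_lit 214) (nat_lit 135) (nat_lit 221))) (PT.nd (nat_lit 78) (PT.lf (nat_lit 16188) (nat_lit 6) (nat_lit 213) (nat_lit 3) (nat_lit 215) (nat_lit 135) (nat_lit 220)) (PT.lf (nat_lit 16264) (nat_lit 6) (nat_lit 214) (nat_lit 3) (nat_lit 216) (nat_lit 135) (nat_lit 219)))) (PT.nd (nat_lit 156) (PT.nd (nat_lit 78) (PT.lf (nat_lit 16340) (nat_lit 6) (nat_lit 215) (nat_lit 3) (nat_lit 217) (nat_lit 135) (nat_lit 218)) (PT.lf (nat_lit 16340) (nat_lit 6) (nat_lit 215) (nat_lit 1) (nat_lit 218) (nat_lit 135) (nat_lit 217))) (PT.nd (nat_lit 78) (PT.lf (nat_lit 16264) (nat_lit 6) (nat_lit 214) (nat_lit 1) (nat_lit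 219) (nat_lit 135) (nat_lit 216)) (PT.nd (nat_lit 78) (PT.lf (nat_lit 16188) (nat_lit 6) (nat_lit 213) (nat_lit 1) (nat_lit 220) (nat_lit 135) (nat_lit 215)) (PT.lf (nat_lit 16112) (nat_lit 6) (nat_lit 212) (nat_lit 1) (nat_lit 221) (nat_lit 135) (nat_lit 214))))))) (PT.nd (nat_lit 59046) (PT.nd (nat_lit 58656) (PT.nd (nat_lit 58500) (PT.nd (nat_lit 78) (PT.lf (nat_lit 16036) (nat_lit 6) (nat_lit 211) (nat_lit 1) (nat_lit 222) (nat_lit 135) (nat_lit 213)) (PT.lf (nat_lit 15960) (nat_lit 6) (nat_lit 210) (nat_lit 1) (nat_lit 223) (nat_lit 135) (nat_lit 212))) (PT.nd (nat_lit 78) (PT.lf (nat_lit 16416) (nat_lit 6) (nat_lit 216) (nat_lit 3) (nat_lit 211) (nat_lit 136) (nat_lit 223)) (PT.lf (nat_lit 16492) (nat_lit 6) (nat_lit 217) (nat_lit 3) (nat_lit 212) (nat_lit 136) (nat_lit 222)))) (PT.nd (nat_lit 156) (PT.nd (nat_lit 78) (PT.lf (nat_lit 16568) (nat_lit 6) (nat_lit 218) (nat_lit 3) (nat_lit 213) (nat_lit 136) (nat_lit 221)) (PT.lf (nat_lit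 16644) (nat_lit 6) (nat_lit 219) (nat_lit 3) (nat_lit 214) (nat_lit 136) (nat_lit 220))) (PT.nd (nat_lit 78) (PT.lf (nat_lit 16720) (nat_lit 6) (nat_lit 220) (nat_lit 3) (nat_lit 215) (nat_lit 136) (nat_lit 219)) (PT.nd (nat_lit 78) (PT.lf (nat_lit 16796) (nat_lit 6) (nat_lit 221) (nat_lit 3) (nat_lit 216) (nat_lit 136) (nat_lit 218)) (PT.lf (nat_lit 16872) (nat_lit 3) (nat_lit 222) (nat_lit 1) (nat_lit 217) (nat_lit 136) (nat_lit 217)))))) (PT.nd (nat_lit 312) (PT.nd (nat_lit 156) (PT.nd (nat_lit 78) (PT.lf (nat_lit 16796) (nat_lit 6) (nat_lit 221) (nat_lit 1) (nat_lit 218) (nat_lit 136) (nat_lit 216)) (PT.lf (nat_lit 16720) (nat_lit 6) (nat_lit 220) (nat_lit 1) (nat_lit 219) (nat_lit 136) (nat_lit 215))) (PT.nd (nat_lit 78) (PT.lf (nat_lit 16644) (nat_lit 6) (nat_lit 219) (nat_lit 1) (nat_lit 220) (nat_lit 136) (nat_lit 214)) (PT.lf (nat_lit 16568) (nat_lit 6) (nat_lit 218) (nat_lit 1) (nat_lit 221) (nat_lit 136) (nat_lit 213)))) (PT.nd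 (nat_lit 58500) (PT.nd (nat_lit 78) (PT.lf (nat_lit 16492) (nat_lit 6) (nat_lit 217) (nat_lit 1) (nat_lit 222) (nat_lit 136) (nat_lit 212)) (PT.lf (nat_lit 16416) (nat_lit 6) (nat_lit 216) (nat_lit 1) (nat_lit 223) (nat_lit 136) (nat_lit 211))) (PT.nd (nat_lit 78) (PT.lf (nat_lit 16948) (nat_lit 6) (nat_lit 223) (nat_lit 3) (nat_lit 211) (nat_lit 137) (nat_lit 222)) (PT.nd (nat_lit 78) (PT.lf (nat_lit 17024) (nat_lit 6) (nat_lit 224) (nat_lit 3) (nat_lit 212) (nat_lit 137) (nat_lit 221)) (PT.lf (nat_lit 17100) (nat_lit 6) (nat_lit 225) (nat_lit 3) (nat_lit 213) (nat_lit 137) (nat_lit 220))))))))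
noncomputable def pc11 : PT := (PT.nd (nat_lit 59748) (PT.nd (nat_lit 59046) (PT.nd (nat_lit 312) (PT.nd (nat_lit 156) (PT.nd (nat_lit 78) (PT.lf (nat_lit 17176) (nat_lit 6) (nat_lit 226) (nat_lit 3) (nat_lit 214) (nat_lit 137) (nat_lit 219)) (PT.lf (nat_lit 17252) (nat_lit 6) (nat_lit 227) (nat_lit 3) (nat_lit 215) (nat_lit 137) (nat_lit 218))) (PT.nd (nat_lit 78) (PT.lf (nat_lit 17328) (nat_lit 6) (nat_lit 228) (nat_lit 3) (nat_lit 216) (nat_lit 137) (nat_lit 217)) (PT.lf (nat_lit 17328) (nat_lit 6) (nat_lit 228) (nat_lit 1) (nat_lit 217) (nat_lit 137) (nat_lit 216)))) (PT.nd (nat_lit 156) (PT.nd (nat_lit 78) (PT.lf (nat_lit 17252) (nat_lit 6) (nat_lit 227) (nat_lit 1) (nat_lit 218) (nat_lit 137) (nat_lit 215)) (PT.lf (nat_lit 17176) (nat_lit 6) (nat_lit 226) (nat_lit 1) (nat_lit 219) (nat_lit 137) (nat_lit 214))) (PT.nd (nat_lit 78) (PT.lf (nat_lit 17100) (nat_lit 6) (nat_lit 225) (nat_lit 1) (nat_lit 220) (nat_lit 137) (nat_lit 213))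 (PT.nd (nat_lit 78) (PT.lf (nat_lit 17024) (nat_lit 6) (nat_lit 224) (nat_lit 1) (nat_lit 221) (nat_lit 137) (nat_lit 212)) (PT.lf (nat_lit 16948) (nat_lit 6) (nat_lit 223) (nat_lit 1) (nat_lit 222) (nat_lit 137) (nat_lit 211)))))) (PT.nd (nat_lit 312) (PT.nd (nat_lit 156) (PT.nd (nat_lit 78) (PT.lf (nat_lit 17404) (nat_lit 6) (nat_lit 229) (nat_lit 3) (nat_lit 210) (nat_lit 138) (nat_lit 222)) (PT.lf (nat_lit 17480) (nat_lit 6) (nat_lit 230) (nat_lit 3) (nat_lit 211) (nat_lit 138) (nat_lit 221))) (PT.nd (nat_lit 78) (PT.lf (nat_lit 17556) (nat_lit 6) (nat_lit 231) (nat_lit 3) (nat_lit 212) (nat_lit 138) (nat_lit 220)) (PT.lf (nat_lit 17632) (nat_lit 6) (nat_lit 232) (nat_lit 3) (nat_lit 213) (nat_lit 138) (nat_lit 219)))) (PT.nd (nat_lit 156) (PT.nd (nat_lit 78) (PT.lf (nat_lit 17708) (nat_lit 6) (nat_lit 233) (nat_lit 3) (nat_lit 214) (nat_lit 138) (nat_lit 218)) (PT.lf (nat_lit 17784) (nat_lit 6) (nat_lit 234) (nat_lit 3) (nat_lit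 215) (nat_lit 138) (nat_lit 217))) (PT.nd (nat_lit 78) (PT.lf (nat_lit 17860) (nat_lit 3) (nat_lit 235) (nat_lit 1) (nat_lit 216) (nat_lit 138) (nat_lit 216)) (PT.nd (nat_lit 78) (PT.lf (nat_lit 17784) (nat_lit 6) (nat_lit 234) (nat_lit 1) (nat_lit 217) (nat_lit 138) (nat_lit 215)) (PT.lf (nat_lit 17708) (nat_lit 6) (nat_lit 233) (nat_lit 1) (nat_lit 218) (nat_lit 138) (nat_lit 214))))))) (PT.nd (nat_lit 58968) (PT.nd (nat_lit 58578) (PT.nd (nat_lit 156) (PT.nd (nat_lit 78) (PT.lf (nat_lit 17632) (nat_lit 6) (nat_lit 232) (nat_lit 1) (nat_lit 219) (nat_lit 138) (nat_lit 213)) (PT.lf (nat_lit 17556) (nat_lit 6) (nat_lit 231) (nat_lit 1) (nat_lit 220) (nat_lit 138) (nat_lit 212))) (PT.nd (nat_lit 78) (PT.lf (nat_lit 17480) (nat_lit 6) (nat_lit 230) (nat_lit 1) (nat_lit 221) (nat_lit 138) (nat_lit 211)) (PT.lf (nat_lit 17404) (nat_lit 6) (nat_lit 229) (nat_lit 1) (nat_lit 222) (nat_lit 138) (nat_lit 210)))) (PT.nd (nat_lit 156) (PT.nd (nat_lit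 78) (PT.lf (nat_lit 17936) (nat_lit 6) (nat_lit 236) (nat_lit 3) (nat_lit 209) (nat_lit 139) (nat_lit 222)) (PT.lf (nat_lit 18012) (nat_lit 6) (nat_lit 237) (nat_lit 3) (nat_lit 210) (nat_lit 139) (nat_lit 221))) (PT.nd (nat_lit 78) (PT.lf (nat_lit 18088) (nat_lit 6) (nat_lit 238) (nat_lit 3) (nat_lit 211) (nat_lit 139) (nat_lit 220)) (PT.nd (nat_lit 78) (PT.lf (nat_lit 18164) (nat_lit 6) (nat_lit 239) (nat_lit 3) (nat_lit 212) (nat_lit 139) (nat_lit 219)) (PT.lf (nat_lit 18240) (nat_lit 6) (nat_lit 240) (nat_lit 3) (nat_lit 213) (nat_lit 139) (nat_lit 218)))))) (PT.nd (nat_lit 312) (PT.nd (nat_lit 156) (PT.nd (nat_lit 78) (PT.lf (nat_lit 18316) (nat_lit 6) (nat_lit 241) (nat_lit 3) (nat_lit 214) (nat_lit 139) (nat_lit 217)) (PT.lf (nat_lit 18392) (nat_lit 6) (nat_lit 242) (nat_lit 3) (nat_lit 215) (nat_lit 139) (nat_lit 216))) (PT.nd (nat_lit 78) (PT.lf (nat_lit 18392) (nat_lit 6) (nat_lit 242) (nat_lit 1) (nat_lit 216) (nat_lit 139)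 (nat_lit 215)) (PT.lf (nat_lit 18316) (nat_lit 6) (nat_lit 241) (nat_lit 1) (nat_lit 217) (nat_lit 139) (nat_lit 214)))) (PT.nd (nat_lit 156) (PT.nd (nat_lit 78) (PT.lf (nat_lit 18240) (nat_lit 6) (nat_lit 240) (nat_lit 1) (nat_lit 218) (nat_lit 139) (nat_lit 213)) (PT.lf (nat_lit 18164) (nat_lit 6) (nat_lit 239) (nat_lit 1) (nat_lit 219) (nat_lit 139) (nat_lit 212))) (PT.nd (nat_lit 78) (PT.lf (nat_lit 18088) (nat_lit 6) (nat_lit 238) (nat_lit 1) (nat_lit 220) (nat_lit 139) (nat_lit 211)) (PT.nd (nat_lit 78) (PT.lf (nat_lit 18012) (nat_lit 6) (nat_lit 237) (nat_lit 1) (nat_lit 221) (nat_lit 139) (nat_lit 210)) (PT.lf (nat_lit 17936) (nat_lit 6) (nat_lit 236) (nat_lit 1) (nat_lit 222) (nat_lit 139) (nat_lit 209))))))))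
noncomputable def pc12 : PT := (PT.nd (nat_lit 59592) (PT.nd (nat_lit 624) (PT.nd (nat_lit 312) (PT.nd (nat_lit 156) (PT.nd (nat_lit 78) (PT.lf (nat_lit 18468) (nat_lit 6) (nat_lit 243) (nat_lit 3) (nat_lit 209) (nat_lit 140) (nat_lit 221)) (PT.lf (nat_lit 18544) (nat_lit 6) (nat_lit 244) (nat_lit 3) (nat_lit 210) (nat_lit 140) (nat_lit 220))) (PT.nd (nat_lit 78) (PT.lf (nat_lit 18620) (nat_lit 6) (nat_lit 245) (nat_lit 3) (nat_lit 211) (nat_lit 140) (nat_lit 219)) (PT.lf (nat_lit 18696) (nat_lit 6) (nat_lit 246) (nat_lit 3) (nat_lit 212) (nat_lit 140) (nat_lit 218)))) (PT.nd (nat_lit 156) (PT.nd (nat_lit 78) (PT.lf (nat_lit 18772) (nat_lit 6) (nat_lit 247) (nat_lit 3) (nat_lit 213) (nat_lit 140) (nat_lit 217)) (PT.lf (nat_lit 18848) (nat_lit 6) (nat_lit 248) (nat_lit 3) (nat_lit 214) (nat_lit 140) (nat_lit 216))) (PT.nd (nat_lit 78) (PT.lf (nat_lit 18924) (nat_lit 3) (nat_lit 249) (nat_lit 1) (nat_lit 215) (nat_lit 140) (nat_lit 215))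 (PT.lf (nat_lit 18848) (nat_lit 6) (nat_lit 248) (nat_lit 1) (nat_lit 216) (nat_lit 140) (nat_lit 214))))) (PT.nd (nat_lit 312) (PT.nd (nat_lit 156) (PT.nd (nat_lit 78) (PT.lf (nat_lit 18772) (nat_lit 6) (nat_lit 247) (nat_lit 1) (nat_lit 217) (nat_lit 140) (nat_lit 213)) (PT.lf (nat_lit 18696) (nat_lit 6) (nat_lit 246) (nat_lit 1) (nat_lit 218) (nat_lit 140) (nat_lit 212))) (PT.nd (nat_lit 78) (PT.lf (nat_lit 18620) (nat_lit 6) (nat_lit 245) (nat_lit 1) (nat_lit 219) (nat_lit 140) (nat_lit 211)) (PT.lf (nat_lit 18544) (nat_lit 6) (nat_lit 244) (nat_lit 1) (nat_lit 220) (nat_lit 140) (nat_lit 210)))) (PT.nd (nat_lit 58422) (PT.nd (nat_lit 58344) (PT.lf (nat_lit 18468) (nat_lit 6) (nat_lit 243) (nat_lit 1) (nat_lit 221) (nat_lit 140) (nat_lit 209)) (PT.lf (nat_lit 19000) (nat_lit 6) (nat_lit 250) (nat_lit 3) (nat_lit 208) (nat_lit 141) (nat_lit 221))) (PT.nd (nat_lit 78) (PT.lf (nat_lit 19076) (nat_lit 6) (nat_lit 251) (nat_lit 3) (nat_lit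 209) (nat_lit 141) (nat_lit 220)) (PT.nd (nat_lit 78) (PT.lf (nat_lit 19152) (nat_lit 6) (nat_lit 252) (nat_lit 3) (nat_lit 210) (nat_lit 141) (nat_lit 219)) (PT.lf (nat_lit 19228) (nat_lit 6) (nat_lit 253) (nat_lit 3) (nat_lit 211) (nat_lit 141) (nat_lit 218))))))) (PT.nd (nat_lit 702) (PT.nd (nat_lit 312) (PT.nd (nat_lit 156) (PT.nd (nat_lit 78) (PT.lf (nat_lit 19304) (nat_lit 6) (nat_lit 254) (nat_lit 3) (nat_lit 212) (nat_lit 141) (nat_lit 217)) (PT.lf (nat_lit 19380) (nat_lit 6) (nat_lit 255) (nat_lit 3) (nat_lit 213) (nat_lit 141) (nat_lit 216))) (PT.nd (nat_lit 78) (PT.lf (nat_lit 19456) (nat_lit 6) (nat_lit 256) (nat_lit 3) (nat_lit 214) (nat_lit 141) (nat_lit 215)) (PT.lf (nat_lit 19456) (nat_lit 6) (nat_lit 256) (nat_lit 1) (nat_lit 215) (nat_lit 141) (nat_lit 214)))) (PT.nd (nat_lit 156) (PT.nd (nat_lit 78) (PT.lf (nat_lit 19380) (nat_lit 6) (nat_lit 255) (nat_lit 1) (nat_lit 216) (nat_lit 141) (nat_lit 213)) (PT.lf (nat_lit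 19304) (nat_lit 6) (nat_lit 254) (nat_lit 1) (nat_lit 217) (nat_lit 141) (nat_lit 212))) (PT.nd (nat_lit 78) (PT.lf (nat_lit 19228) (nat_lit 6) (nat_lit 253) (nat_lit 1) (nat_lit 218) (nat_lit 141) (nat_lit 211)) (PT.nd (nat_lit 78) (PT.lf (nat_lit 19152) (nat_lit 6) (nat_lit 252) (nat_lit 1) (nat_lit 219) (nat_lit 141) (nat_lit 210)) (PT.lf (nat_lit 19076) (nat_lit 6) (nat_lit 251) (nat_lit 1) (nat_lit 220) (nat_lit 141) (nat_lit 209)))))) (PT.nd (nat_lit 58500) (PT.nd (nat_lit 58344) (PT.nd (nat_lit 58266) (PT.lf (nat_lit 19000) (nat_lit 6) (nat_lit 250) (nat_lit 1) (nat_lit 221) (nat_lit 141) (nat_lit 208)) (PT.lf (nat_lit 19532) (nat_lit 6) (nat_lit 257) (nat_lit 3) (nat_lit 207) (nat_lit 142) (nat_lit 221))) (PT.nd (nat_lit 78) (PT.lf (nat_lit 19608) (nat_lit 6) (nat_lit 258) (nat_lit 3) (nat_lit 208) (nat_lit 142) (nat_lit 220)) (PT.lf (nat_lit 19684) (nat_lit 6) (nat_lit 259) (nat_lit 3) (nat_lit 209) (nat_lit 142) (nat_lit 219))))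 (PT.nd (nat_lit 156) (PT.nd (nat_lit 78) (PT.lf (nat_lit 19760) (nat_lit 6) (nat_lit 260) (nat_lit 3) (nat_lit 210) (nat_lit 142) (nat_lit 218)) (PT.lf (nat_lit 19836) (nat_lit 6) (nat_lit 261) (nat_lit 3) (nat_lit 211) (nat_lit 142) (nat_lit 217))) (PT.nd (nat_lit 78) (PT.lf (nat_lit 19912) (nat_lit 6) (nat_lit 262) (nat_lit 3) (nat_lit 212) (nat_lit 142) (nat_lit 216)) (PT.nd (nat_lit 78) (PT.lf (nat_lit 19988) (nat_lit 6) (nat_lit 263) (nat_lit 3) (nat_lit 213) (nat_lit 142) (nat_lit 215)) (PT.lf (nat_lit 20064) (nat_lit 3) (nat_lit 264) (nat_lit 1) (nat_lit 214) (nat_lit 142) (nat_lit 214))))))))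
noncomputable def pc13 : PT := (PT.nd (nat_lit 59592) (PT.nd (nat_lit 58890) (PT.nd (nat_lit 312) (PT.nd (nat_lit 156) (PT.nd (nat_lit 78) (PT.lf (nat_lit 19988) (nat_lit 6) (nat_lit 263) (nat_lit 1) (nat_lit 215) (nat_lit 142) (nat_lit 213)) (PT.lf (nat_lit 19912) (nat_lit 6) (nat_lit 262) (nat_lit 1) (nat_lit 216) (nat_lit 142) (nat_lit 212))) (PT.nd (nat_lit 78) (PT.lf (nat_lit 19836) (nat_lit 6) (nat_lit 261) (nat_lit 1) (nat_lit 217) (nat_lit 142) (nat_lit 211)) (PT.lf (nat_lit 19760) (nat_lit 6) (nat_lit 260) (nat_lit 1) (nat_lit 218) (nat_lit 142) (nat_lit 210)))) (PT.nd (nat_lit 156) (PT.nd (nat_lit 78) (PT.lf (nat_lit 19684) (nat_lit 6) (nat_lit 259) (nat_lit 1) (nat_lit 219) (nat_lit 142) (nat_lit 209)) (PT.lf (nat_lit 19608) (nat_lit 6) (nat_lit 258) (nat_lit 1) (nat_lit 220) (nat_lit 142) (nat_lit 208))) (PT.nd (nat_lit 58266) (PT.lf (nat_lit 19532) (nat_lit 6) (nat_lit 257) (nat_lit 1) (nat_lit 221) (nat_lit 142) (nat_lit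 207)) (PT.nd (nat_lit 78) (PT.lf (nat_lit 20140) (nat_lit 6) (nat_lit 265) (nat_lit 3) (nat_lit 207) (nat_lit 143) (nat_lit 220)) (PT.lf (nat_lit 20216) (nat_lit 6) (nat_lit 266) (nat_lit 3) (nat_lit 208) (nat_lit 143) (nat_lit 219)))))) (PT.nd (nat_lit 312) (PT.nd (nat_lit 156) (PT.nd (nat_lit 78) (PT.lf (nat_lit 20292) (nat_lit 6) (nat_lit 267) (nat_lit 3) (nat_lit 209) (nat_lit 143) (nat_lit 218)) (PT.lf (nat_lit 20368) (nat_lit 6) (nat_lit 268) (nat_lit 3) (nat_lit 210) (nat_lit 143) (nat_lit 217))) (PT.nd (nat_lit 78) (PT.lf (nat_lit 20444) (nat_lit 6) (nat_lit 269) (nat_lit 3) (nat_lit 211) (nat_lit 143) (nat_lit 216)) (PT.lf (nat_lit 20520) (nat_lit 6) (nat_lit 270) (nat_lit 3) (nat_lit 212) (nat_lit 143) (nat_lit 215)))) (PT.nd (nat_lit 156) (PT.nd (nat_lit 78) (PT.lf (nat_lit 20596) (nat_lit 6) (nat_lit 271) (nat_lit 3) (nat_lit 213) (nat_lit 143) (nat_lit 214)) (PT.lf (nat_lit 20596) (nat_lit 6) (nat_lit 271) (nat_lit 1) (nat_lit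 214) (nat_lit 143) (nat_lit 213))) (PT.nd (nat_lit 78) (PT.lf (nat_lit 20520) (nat_lit 6) (nat_lit 270) (nat_lit 1) (nat_lit 215) (nat_lit 143) (nat_lit 212)) (PT.nd (nat_lit 78) (PT.lf (nat_lit 20444) (nat_lit 6) (nat_lit 269) (nat_lit 1) (nat_lit 216) (nat_lit 143) (nat_lit 211)) (PT.lf (nat_lit 20368) (nat_lit 6) (nat_lit 268) (nat_lit 1) (nat_lit 217) (nat_lit 143) (nat_lit 210))))))) (PT.nd (nat_lit 58890) (PT.nd (nat_lit 58500) (PT.nd (nat_lit 156) (PT.nd (nat_lit 78) (PT.lf (nat_lit 20292) (nat_lit 6) (nat_lit 267) (nat_lit 1) (nat_lit 218) (nat_lit 143) (nat_lit 209)) (PT.lf (nat_lit 20216) (nat_lit 6) (nat_lit 266) (nat_lit 1) (nat_lit 219) (nat_lit 143) (nat_lit 208))) (PT.nd (nat_lit 58266) (PT.lf (nat_lit 20140) (nat_lit 6) (nat_lit 265) (nat_lit 1) (nat_lit 220) (nat_lit 143) (nat_lit 207)) (PT.lf (nat_lit 20672) (nat_lit 6) (nat_lit 272) (nat_lit 3) (nat_lit 206) (nat_lit 144) (nat_lit 220)))) (PT.nd (nat_lit 156) (PT.nd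 (nat_lit 78) (PT.lf (nat_lit 20748) (nat_lit 6) (nat_lit 273) (nat_lit 3) (nat_lit 207) (nat_lit 144) (nat_lit 219)) (PT.lf (nat_lit 20824) (nat_lit 6) (nat_lit 274) (nat_lit 3) (nat_lit 208) (nat_lit 144) (nat_lit 218))) (PT.nd (nat_lit 78) (PT.lf (nat_lit 20900) (nat_lit 6) (nat_lit 275) (nat_lit 3) (nat_lit 209) (nat_lit 144) (nat_lit 217)) (PT.nd (nat_lit 78) (PT.lf (nat_lit 20976) (nat_lit 6) (nat_lit 276) (nat_lit 3) (nat_lit 210) (nat_lit 144) (nat_lit 216)) (PT.lf (nat_lit 21052) (nat_lit 6) (nat_lit 277) (nat_lit 3) (nat_lit 211) (nat_lit 144) (nat_lit 215)))))) (PT.nd (nat_lit 312) (PT.nd (nat_lit 156) (PT.nd (nat_lit 78) (PT.lf (nat_lit 21128) (nat_lit 6) (nat_lit 278) (nat_lit 3) (nat_lit 212) (nat_lit 144) (nat_lit 214)) (PT.lf (nat_lit 21204) (nat_lit 3) (nat_lit 279) (nat_lit 1) (nat_lit 213) (nat_lit 144) (nat_lit 213))) (PT.nd (nat_lit 78) (PT.lf (nat_lit 21128) (nat_lit 6) (nat_lit 278) (nat_lit 1) (nat_lit 214) (nat_lit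 144) (nat_lit 212)) (PT.lf (nat_lit 21052) (nat_lit 6) (nat_lit 277) (nat_lit 1) (nat_lit 215) (nat_lit 144) (nat_lit 211)))) (PT.nd (nat_lit 156) (PT.nd (nat_lit 78) (PT.lf (nat_lit 20976) (nat_lit 6) (nat_lit 276) (nat_lit 1) (nat_lit 216) (nat_lit 144) (nat_lit 210)) (PT.lf (nat_lit 20900) (nat_lit 6) (nat_lit 275) (nat_lit 1) (nat_lit 217) (nat_lit 144) (nat_lit 209))) (PT.nd (nat_lit 78) (PT.lf (nat_lit 20824) (nat_lit 6) (nat_lit 274) (nat_lit 1) (nat_lit 218) (nat_lit 144) (nat_lit 208)) (PT.nd (nat_lit 78) (PT.lf (nat_lit 20748) (nat_lit 6) (nat_lit 273) (nat_lit 1) (nat_lit 219) (nat_lit 144) (nat_lit 207)) (PT.lf (nat_lit 20672) (nat_lit 6) (nat_lit 272) (nat_lit 1) (nat_lit 220) (nat_lit 144) (nat_lit 206))))))))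
noncomputable def pc14 : PT := (PT.nd (nat_lit 59514) (PT.nd (nat_lit 702) (PT.nd (nat_lit 312) (PT.nd (nat_lit 156) (PT.nd (nat_lit 78) (PT.lf (nat_lit 21280) (nat_lit 6) (nat_lit 280) (nat_lit 3) (nat_lit 205) (nat_lit 145) (nat_lit 220)) (PT.lf (nat_lit 21356) (nat_lit 6) (nat_lit 281) (nat_lit 3) (nat_lit 206) (nat_lit 145) (nat_lit 219))) (PT.nd (nat_lit 78) (PT.lf (nat_lit 21432) (nat_lit 6) (nat_lit 282) (nat_lit 3) (nat_lit 207) (nat_lit 145) (nat_lit 218)) (PT.lf (nat_lit 21508) (nat_lit 6) (nat_lit 283) (nat_lit 3) (nat_lit 208) (nat_lit 145) (nat_lit 217)))) (PT.nd (nat_lit 156) (PT.nd (nat_lit 78) (PT.lf (nat_lit 21584) (nat_lit 6) (nat_lit 284) (nat_lit 3) (nat_lit 209) (nat_lit 145) (nat_lit 216)) (PT.lf (nat_lit 21660) (nat_lit 6) (nat_lit 285) (nat_lit 3) (nat_lit 210) (nat_lit 145) (nat_lit 215))) (PT.nd (nat_lit 78) (PT.lf (nat_lit 21736) (nat_lit 6) (nat_lit 286) (nat_lit 3) (nat_lit 211) (nat_lit 145) (nat_lit 214))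 (PT.nd (nat_lit 78) (PT.lf (nat_lit 21812) (nat_lit 6) (nat_lit 287) (nat_lit 3) (nat_lit 212) (nat_lit 145) (nat_lit 213)) (PT.lf (nat_lit 21812) (nat_lit 6) (nat_lit 287) (nat_lit 1) (nat_lit 213) (nat_lit 145) (nat_lit 212)))))) (PT.nd (nat_lit 312) (PT.nd (nat_lit 156) (PT.nd (nat_lit 78) (PT.lf (nat_lit 21736) (nat_lit 6) (nat_lit 286) (nat_lit 1) (nat_lit 214) (nat_lit 145) (nat_lit 211)) (PT.lf (nat_lit 21660) (nat_lit 6) (nat_lit 285) (nat_lit 1) (nat_lit 215) (nat_lit 145) (nat_lit 210))) (PT.nd (nat_lit 78) (PT.lf (nat_lit 21584) (nat_lit 6) (nat_lit 284) (nat_lit 1) (nat_lit 216) (nat_lit 145) (nat_lit 209)) (PT.lf (nat_lit 21508) (nat_lit 6) (nat_lit 283) (nat_lit 1) (nat_lit 217) (nat_lit 145) (nat_lit 208)))) (PT.nd (nat_lit 156) (PT.nd (nat_lit 78) (PT.lf (nat_lit 21432) (nat_lit 6) (nat_lit 282) (nat_lit 1) (nat_lit 218) (nat_lit 145) (nat_lit 207)) (PT.lf (nat_lit 21356) (nat_lit 6) (nat_lit 281) (nat_lit 1) (nat_lit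 219) (nat_lit 145) (nat_lit 206))) (PT.nd (nat_lit 58188) (PT.lf (nat_lit 21280) (nat_lit 6) (nat_lit 280) (nat_lit 1) (nat_lit 220) (nat_lit 145) (nat_lit 205)) (PT.nd (nat_lit 78) (PT.lf (nat_lit 21888) (nat_lit 6) (nat_lit 288) (nat_lit 3) (nat_lit 205) (nat_lit 146) (nat_lit 219)) (PT.lf (nat_lit 21964) (nat_lit 6) (nat_lit 289) (nat_lit 3) (nat_lit 206) (nat_lit 146) (nat_lit 218))))))) (PT.nd (nat_lit 702) (PT.nd (nat_lit 312) (PT.nd (nat_lit 156) (PT.nd (nat_lit 78) (PT.lf (nat_lit 22040) (nat_lit 6) (nat_lit 290) (nat_lit 3) (nat_lit 207) (nat_lit 146) (nat_lit 217)) (PT.lf (nat_lit 22116) (nat_lit 6) (nat_lit 291) (nat_lit 3) (nat_lit 208) (nat_lit 146) (nat_lit 216))) (PT.nd (nat_lit 78) (PT.lf (nat_lit 22192) (nat_lit 6) (nat_lit 292) (nat_lit 3) (nat_lit 209) (nat_lit 146) (nat_lit 215)) (PT.lf (nat_lit 22268) (nat_lit 6) (nat_lit 293) (nat_lit 3) (nat_lit 210) (nat_lit 146) (nat_lit 214)))) (PT.nd (nat_lit 156) (PT.nd (nat_lit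 78) (PT.lf (nat_lit 22344) (nat_lit 6) (nat_lit 294) (nat_lit 3) (nat_lit 211) (nat_lit 146) (nat_lit 213)) (PT.lf (nat_lit 22420) (nat_lit 3) (nat_lit 295) (nat_lit 1) (nat_lit 212) (nat_lit 146) (nat_lit 212))) (PT.nd (nat_lit 78) (PT.lf (nat_lit 22344) (nat_lit 6) (nat_lit 294) (nat_lit 1) (nat_lit 213) (nat_lit 146) (nat_lit 211)) (PT.nd (nat_lit 78) (PT.lf (nat_lit 22268) (nat_lit 6) (nat_lit 293) (nat_lit 1) (nat_lit 214) (nat_lit 146) (nat_lit 210)) (PT.lf (nat_lit 22192) (nat_lit 6) (nat_lit 292) (nat_lit 1) (nat_lit 215) (nat_lit 146) (nat_lit 209)))))) (PT.nd (nat_lit 58422) (PT.nd (nat_lit 156) (PT.nd (nat_lit 78) (PT.lf (nat_lit 22116) (nat_lit 6) (nat_lit 291) (nat_lit 1) (nat_lit 216) (nat_lit 146) (nat_lit 208)) (PT.lf (nat_lit 22040) (nat_lit 6) (nat_lit 290) (nat_lit 1) (nat_lit 217) (nat_lit 146) (nat_lit 207))) (PT.nd (nat_lit 78) (PT.lf (nat_lit 21964) (nat_lit 6) (nat_lit 289) (nat_lit 1) (nat_lit 218) (nat_lit 146)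 (nat_lit 206)) (PT.lf (nat_lit 21888) (nat_lit 6) (nat_lit 288) (nat_lit 1) (nat_lit 219) (nat_lit 146) (nat_lit 205)))) (PT.nd (nat_lit 156) (PT.nd (nat_lit 78) (PT.lf (nat_lit 22496) (nat_lit 6) (nat_lit 296) (nat_lit 3) (nat_lit 204) (nat_lit 147) (nat_lit 219)) (PT.lf (nat_lit 22572) (nat_lit 6) (nat_lit 297) (nat_lit 3) (nat_lit 205) (nat_lit 147) (nat_lit 218))) (PT.nd (nat_lit 78) (PT.lf (nat_lit 22648) (nat_lit 6) (nat_lit 298) (nat_lit 3) (nat_lit 206) (nat_lit 147) (nat_lit 217)) (PT.nd (nat_lit 78) (PT.lf (nat_lit 22724) (nat_lit 6) (nat_lit 299) (nat_lit 3) (nat_lit 207) (nat_lit 147) (nat_lit 216)) (PT.lf (nat_lit 22800) (nat_lit 6) (nat_lit 300) (nat_lit 3) (nat_lit 208) (nat_lit 147) (nat_lit 215))))))))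
noncomputable def pc15 : PT := (PT.nd (nat_lit 59436) (PT.nd (nat_lit 702) (PT.nd (nat_lit 312) (PT.nd (nat_lit 156) (PT.nd (nat_lit 78) (PT.lf (nat_lit 22876) (nat_lit 6) (nat_lit 301) (nat_lit 3) (nat_lit 209) (nat_lit 147) (nat_lit 214)) (PT.lf (nat_lit 22952) (nat_lit 6) (nat_lit 302) (nat_lit 3) (nat_lit 210) (nat_lit 147) (nat_lit 213))) (PT.nd (nat_lit 78) (PT.lf (nat_lit 23028) (nat_lit 6) (nat_lit 303) (nat_lit 3) (nat_lit 211) (nat_lit 147) (nat_lit 212)) (PT.lf (nat_lit 23028) (nat_lit 6) (nat_lit 303) (nat_lit 1) (nat_lit 212) (nat_lit 147) (nat_lit 211)))) (PT.nd (nat_lit 156) (PT.nd (nat_lit 78) (PT.lf (nat_lit 22952) (nat_lit 6) (nat_lit 302) (nat_lit 1) (nat_lit 213) (nat_lit 147) (nat_lit 210)) (PT.lf (nat_lit 22876) (nat_lit 6) (nat_lit 301) (nat_lit 1) (nat_lit 214) (nat_lit 147) (nat_lit 209))) (PT.nd (nat_lit 78) (PT.lf (nat_lit 22800) (nat_lit 6) (nat_lit 300) (nat_lit 1) (nat_lit 215) (nat_lit 147) (nat_lit 208))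 (PT.nd (nat_lit 78) (PT.lf (nat_lit 22724) (nat_lit 6) (nat_lit 299) (nat_lit 1) (nat_lit 216) (nat_lit 147) (nat_lit 207)) (PT.lf (nat_lit 22648) (nat_lit 6) (nat_lit 298) (nat_lit 1) (nat_lit 217) (nat_lit 147) (nat_lit 206)))))) (PT.nd (nat_lit 58344) (PT.nd (nat_lit 58188) (PT.nd (nat_lit 78) (PT.lf (nat_lit 22572) (nat_lit 6) (nat_lit 297) (nat_lit 1) (nat_lit 218) (nat_lit 147) (nat_lit 205)) (PT.lf (nat_lit 22496) (nat_lit 6) (nat_lit 296) (nat_lit 1) (nat_lit 219) (nat_lit 147) (nat_lit 204))) (PT.nd (nat_lit 78) (PT.lf (nat_lit 23104) (nat_lit 6) (nat_lit 304) (nat_lit 3) (nat_lit 203) (nat_lit 148) (nat_lit 219)) (PT.lf (nat_lit 23180) (nat_lit 6) (nat_lit 305) (nat_lit 3) (nat_lit 204) (nat_lit 148) (nat_lit 218)))) (PT.nd (nat_lit 156) (PT.nd (nat_lit 78) (PT.lf (nat_lit 23256) (nat_lit 6) (nat_lit 306) (nat_lit 3) (nat_lit 205) (nat_lit 148) (nat_lit 217)) (PT.lf (nat_lit 23332) (nat_lit 6) (nat_lit 307) (nat_lit 3) (nat_lit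 206) (nat_lit 148) (nat_lit 216))) (PT.nd (nat_lit 78) (PT.lf (nat_lit 23408) (nat_lit 6) (nat_lit 308) (nat_lit 3) (nat_lit 207) (nat_lit 148) (nat_lit 215)) (PT.nd (nat_lit 78) (PT.lf (nat_lit 23484) (nat_lit 6) (nat_lit 309) (nat_lit 3) (nat_lit 208) (nat_lit 148) (nat_lit 214)) (PT.lf (nat_lit 23560) (nat_lit 6) (nat_lit 310) (nat_lit 3) (nat_lit 209) (nat_lit 148) (nat_lit 213))))))) (PT.nd (nat_lit 702) (PT.nd (nat_lit 312) (PT.nd (nat_lit 156) (PT.nd (nat_lit 78) (PT.lf (nat_lit 23636) (nat_lit 6) (nat_lit 311) (nat_lit 3) (nat_lit 210) (nat_lit 148) (nat_lit 212)) (PT.lf (nat_lit 23712) (nat_lit 3) (nat_lit 312) (nat_lit 1) (nat_lit 211) (nat_lit 148) (nat_lit 211))) (PT.nd (nat_lit 78) (PT.lf (nat_lit 23636) (nat_lit 6) (nat_lit 311) (nat_lit 1) (nat_lit 212) (nat_lit 148) (nat_lit 210)) (PT.lf (nat_lit 23560) (nat_lit 6) (nat_lit 310) (nat_lit 1) (nat_lit 213) (nat_lit 148) (nat_lit 209)))) (PT.nd (nat_lit 156) (PT.nd (nat_lit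 78) (PT.lf (nat_lit 23484) (nat_lit 6) (nat_lit 309) (nat_lit 1) (nat_lit 214) (nat_lit 148) (nat_lit 208)) (PT.lf (nat_lit 23408) (nat_lit 6) (nat_lit 308) (nat_lit 1) (nat_lit 215) (nat_lit 148) (nat_lit 207))) (PT.nd (nat_lit 78) (PT.lf (nat_lit 23332) (nat_lit 6) (nat_lit 307) (nat_lit 1) (nat_lit 216) (nat_lit 148) (nat_lit 206)) (PT.nd (nat_lit 78) (PT.lf (nat_lit 23256) (nat_lit 6) (nat_lit 306) (nat_lit 1) (nat_lit 217) (nat_lit 148) (nat_lit 205)) (PT.lf (nat_lit 23180) (nat_lit 6) (nat_lit 305) (nat_lit 1) (nat_lit 218) (nat_lit 148) (nat_lit 204)))))) (PT.nd (nat_lit 58344) (PT.nd (nat_lit 58188) (PT.nd (nat_lit 58110) (PT.lf (nat_lit 23104) (nat_lit 6) (nat_lit 304) (nat_lit 1) (nat_lit 219) (nat_lit 148) (nat_lit 203)) (PT.lf (nat_lit 23788) (nat_lit 6) (nat_lit 313) (nat_lit 3) (nat_lit 203) (nat_lit 149) (nat_lit 218))) (PT.nd (nat_lit 78) (PT.lf (nat_lit 23864) (nat_lit 6) (nat_lit 314) (nat_lit 3) (nat_lit 204) (nat_lit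 149) (nat_lit 217)) (PT.lf (nat_lit 23940) (nat_lit 6) (nat_lit 315) (nat_lit 3) (nat_lit 205) (nat_lit 149) (nat_lit 216)))) (PT.nd (nat_lit 156) (PT.nd (nat_lit 78) (PT.lf (nat_lit 24016) (nat_lit 6) (nat_lit 316) (nat_lit 3) (nat_lit 206) (nat_lit 149) (nat_lit 215)) (PT.lf (nat_lit 24092) (nat_lit 6) (nat_lit 317) (nat_lit 3) (nat_lit 207) (nat_lit 149) (nat_lit 214))) (PT.nd (nat_lit 78) (PT.lf (nat_lit 24168) (nat_lit 6) (nat_lit 318) (nat_lit 3) (nat_lit 208) (nat_lit 149) (nat_lit 213)) (PT.nd (nat_lit 78) (PT.lf (nat_lit 24244) (nat_lit 6) (nat_lit 319) (nat_lit 3) (nat_lit 209) (nat_lit 149) (nat_lit 212)) (PT.lf (nat_lit 24320) (nat_lit 6) (nat_lit 320) (nat_lit 3) (nat_lit 210) (nat_lit 149) (nat_lit 211))))))))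
noncomputable def pc16 : PT := (PT.nd (nat_lit 59358) (PT.nd (nat_lit 58656) (PT.nd (nat_lit 312) (PT.nd (nat_lit 156) (PT.nd (nat_lit 78) (PT.lf (nat_lit 24320) (nat_lit 6) (nat_lit 320) (nat_lit 1) (nat_lit 211) (nat_lit 149) (nat_lit 210)) (PT.lf (nat_lit 24244) (nat_lit 6) (nat_lit 319) (nat_lit 1) (nat_lit 212) (nat_lit 149) (nat_lit 209))) (PT.nd (nat_lit 78) (PT.lf (nat_lit 24168) (nat_lit 6) (nat_lit 318) (nat_lit 1) (nat_lit 213) (nat_lit 149) (nat_lit 208)) (PT.lf (nat_lit 24092) (nat_lit 6) (nat_lit 317) (nat_lit 1) (nat_lit 214) (nat_lit 149) (nat_lit 207)))) (PT.nd (nat_lit 156) (PT.nd (nat_lit 78) (PT.lf (nat_lit 24016) (nat_lit 6) (nat_lit 316) (nat_lit 1) (nat_lit 215) (nat_lit 149) (nat_lit 206)) (PT.lf (nat_lit 23940) (nat_lit 6) (nat_lit 315) (nat_lit 1) (nat_lit 216) (nat_lit 149) (nat_lit 205))) (PT.nd (nat_lit 78) (PT.lf (nat_lit 23864) (nat_lit 6) (nat_lit 314) (nat_lit 1) (nat_lit 217) (nat_lit 149) (nat_lit 204))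 (PT.lf (nat_lit 23788) (nat_lit 6) (nat_lit 313) (nat_lit 1) (nat_lit 218) (nat_lit 149) (nat_lit 203))))) (PT.nd (nat_lit 312) (PT.nd (nat_lit 156) (PT.nd (nat_lit 78) (PT.lf (nat_lit 24396) (nat_lit 6) (nat_lit 321) (nat_lit 3) (nat_lit 202) (nat_lit 150) (nat_lit 218)) (PT.lf (nat_lit 24472) (nat_lit 6) (nat_lit 322) (nat_lit 3) (nat_lit 203) (nat_lit 150) (nat_lit 217))) (PT.nd (nat_lit 78) (PT.lf (nat_lit 24548) (nat_lit 6) (nat_lit 323) (nat_lit 3) (nat_lit 204) (nat_lit 150) (nat_lit 216)) (PT.lf (nat_lit 24624) (nat_lit 6) (nat_lit 324) (nat_lit 3) (nat_lit 205) (nat_lit 150) (nat_lit 215)))) (PT.nd (nat_lit 156) (PT.nd (nat_lit 78) (PT.lf (nat_lit 24700) (nat_lit 6) (nat_lit 325) (nat_lit 3) (nat_lit 206) (nat_lit 150) (nat_lit 214)) (PT.lf (nat_lit 24776) (nat_lit 6) (nat_lit 326) (nat_lit 3) (nat_lit 207) (nat_lit 150) (nat_lit 213))) (PT.nd (nat_lit 78) (PT.lf (nat_lit 24852) (nat_lit 6) (nat_lit 327) (nat_lit 3) (nat_lit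 208) (nat_lit 150) (nat_lit 212)) (PT.nd (nat_lit 78) (PT.lf (nat_lit 24928) (nat_lit 6) (nat_lit 328) (nat_lit 3) (nat_lit 209) (nat_lit 150) (nat_lit 211)) (PT.lf (nat_lit 25004) (nat_lit 3) (nat_lit 329) (nat_lit 1) (nat_lit 210) (nat_lit 150) (nat_lit 210))))))) (PT.nd (nat_lit 58656) (PT.nd (nat_lit 312) (PT.nd (nat_lit 156) (PT.nd (nat_lit 78) (PT.lf (nat_lit 24928) (nat_lit 6) (nat_lit 328) (nat_lit 1) (nat_lit 211) (nat_lit 150) (nat_lit 209)) (PT.lf (nat_lit 24852) (nat_lit 6) (nat_lit 327) (nat_lit 1) (nat_lit 212) (nat_lit 150) (nat_lit 208))) (PT.nd (nat_lit 78) (PT.lf (nat_lit 24776) (nat_lit 6) (nat_lit 326) (nat_lit 1) (nat_lit 213) (nat_lit 150) (nat_lit 207)) (PT.lf (nat_lit 24700) (nat_lit 6) (nat_lit 325) (nat_lit 1) (nat_lit 214) (nat_lit 150) (nat_lit 206)))) (PT.nd (nat_lit 156) (PT.nd (nat_lit 78) (PT.lf (nat_lit 24624) (nat_lit 6) (nat_lit 324) (nat_lit 1) (nat_lit 215) (nat_lit 150) (nat_lit 205)) (PT.lf (nat_lit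 24548) (nat_lit 6) (nat_lit 323) (nat_lit 1) (nat_lit 216) (nat_lit 150) (nat_lit 204))) (PT.nd (nat_lit 78) (PT.lf (nat_lit 24472) (nat_lit 6) (nat_lit 322) (nat_lit 1) (nat_lit 217) (nat_lit 150) (nat_lit 203)) (PT.nd (nat_lit 58032) (PT.lf (nat_lit 24396) (nat_lit 6) (nat_lit 321) (nat_lit 1) (nat_lit 218) (nat_lit 150) (nat_lit 202)) (PT.lf (nat_lit 25080) (nat_lit 6) (nat_lit 330) (nat_lit 3) (nat_lit 201) (nat_lit 151) (nat_lit 218)))))) (PT.nd (nat_lit 312) (PT.nd (nat_lit 156) (PT.nd (nat_lit 78) (PT.lf (nat_lit 25156) (nat_lit 6) (nat_lit 331) (nat_lit 3) (nat_lit 202) (nat_lit 151) (nat_lit 217)) (PT.lf (nat_lit 25232) (nat_lit 6) (nat_lit 332) (nat_lit 3) (nat_lit 203) (nat_lit 151) (nat_lit 216))) (PT.nd (nat_lit 78) (PT.lf (nat_lit 25308) (nat_lit 6) (nat_lit 333) (nat_lit 3) (nat_lit 204) (nat_lit 151) (nat_lit 215)) (PT.lf (nat_lit 25384) (nat_lit 6) (nat_lit 334) (nat_lit 3) (nat_lit 205) (nat_lit 151) (nat_lit 214))))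 (PT.nd (nat_lit 156) (PT.nd (nat_lit 78) (PT.lf (nat_lit 25460) (nat_lit 6) (nat_lit 335) (nat_lit 3) (nat_lit 206) (nat_lit 151) (nat_lit 213)) (PT.lf (nat_lit 25536) (nat_lit 6) (nat_lit 336) (nat_lit 3) (nat_lit 207) (nat_lit 151) (nat_lit 212))) (PT.nd (nat_lit 78) (PT.lf (nat_lit 25612) (nat_lit 6) (nat_lit 337) (nat_lit 3) (nat_lit 208) (nat_lit 151) (nat_lit 211)) (PT.nd (nat_lit 78) (PT.lf (nat_lit 25688) (nat_lit 6) (nat_lit 338) (nat_lit 3) (nat_lit 209) (nat_lit 151) (nat_lit 210)) (PT.lf (nat_lit 25688) (nat_lit 6) (nat_lit 338) (nat_lit 1) (nat_lit 210) (nat_lit 151) (nat_lit 209))))))))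
noncomputable def pc17 : PT := (PT.nd (nat_lit 59280) (PT.nd (nat_lit 58578) (PT.nd (nat_lit 312) (PT.nd (nat_lit 156) (PT.nd (nat_lit 78) (PT.lf (nat_lit 25612) (nat_lit 6) (nat_lit 337) (nat_lit 1) (nat_lit 211) (nat_lit 151) (nat_lit 208)) (PT.lf (nat_lit 25536) (nat_lit 6) (nat_lit 336) (nat_lit 1) (nat_lit 212) (nat_lit 151) (nat_lit 207))) (PT.nd (nat_lit 78) (PT.lf (nat_lit 25460) (nat_lit 6) (nat_lit 335) (nat_lit 1) (nat_lit 213) (nat_lit 151) (nat_lit 206)) (PT.lf (nat_lit 25384) (nat_lit 6) (nat_lit 334) (nat_lit 1) (nat_lit 214) (nat_lit 151) (nat_lit 205)))) (PT.nd (nat_lit 156) (PT.nd (nat_lit 78) (PT.lf (nat_lit 25308) (nat_lit 6) (nat_lit 333) (nat_lit 1) (nat_lit 215) (nat_lit 151) (nat_lit 204)) (PT.lf (nat_lit 25232) (nat_lit 6) (nat_lit 332) (nat_lit 1) (nat_lit 216) (nat_lit 151) (nat_lit 203))) (PT.nd (nat_lit 78) (PT.lf (nat_lit 25156) (nat_lit 6) (nat_lit 331) (nat_lit 1) (nat_lit 217) (nat_lit 151) (nat_lit 202))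 (PT.nd (nat_lit 57954) (PT.lf (nat_lit 25080) (nat_lit 6) (nat_lit 330) (nat_lit 1) (nat_lit 218) (nat_lit 151) (nat_lit 201)) (PT.lf (nat_lit 25764) (nat_lit 6) (nat_lit 339) (nat_lit 3) (nat_lit 200) (nat_lit 152) (nat_lit 218)))))) (PT.nd (nat_lit 312) (PT.nd (nat_lit 156) (PT.nd (nat_lit 78) (PT.lf (nat_lit 25840) (nat_lit 6) (nat_lit 340) (nat_lit 3) (nat_lit 201) (nat_lit 152) (nat_lit 217)) (PT.lf (nat_lit 25916) (nat_lit 6) (nat_lit 341) (nat_lit 3) (nat_lit 202) (nat_lit 152) (nat_lit 216))) (PT.nd (nat_lit 78) (PT.lf (nat_lit 25992) (nat_lit 6) (nat_lit 342) (nat_lit 3) (nat_lit 203) (nat_lit 152) (nat_lit 215)) (PT.lf (nat_lit 26068) (nat_lit 6) (nat_lit 343) (nat_lit 3) (nat_lit 204) (nat_lit 152) (nat_lit 214)))) (PT.nd (nat_lit 156) (PT.nd (nat_lit 78) (PT.lf (nat_lit 26144) (nat_lit 6) (nat_lit 344) (nat_lit 3) (nat_lit 205) (nat_lit 152) (nat_lit 213)) (PT.lf (nat_lit 26220) (nat_lit 6) (nat_lit 345) (nat_lit 3) (nat_lit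 206) (nat_lit 152) (nat_lit 212))) (PT.nd (nat_lit 78) (PT.lf (nat_lit 26296) (nat_lit 6) (nat_lit 346) (nat_lit 3) (nat_lit 207) (nat_lit 152) (nat_lit 211)) (PT.nd (nat_lit 78) (PT.lf (nat_lit 26372) (nat_lit 6) (nat_lit 347) (nat_lit 3) (nat_lit 208) (nat_lit 152) (nat_lit 210)) (PT.lf (nat_lit 26448) (nat_lit 3) (nat_lit 348) (nat_lit 1) (nat_lit 209) (nat_lit 152) (nat_lit 209))))))) (PT.nd (nat_lit 58578) (PT.nd (nat_lit 312) (PT.nd (nat_lit 156) (PT.nd (nat_lit 78) (PT.lf (nat_lit 26372) (nat_lit 6) (nat_lit 347) (nat_lit 1) (nat_lit 210) (nat_lit 152) (nat_lit 208)) (PT.lf (nat_lit 26296) (nat_lit 6) (nat_lit 346) (nat_lit 1) (nat_lit 211) (nat_lit 152) (nat_lit 207))) (PT.nd (nat_lit 78) (PT.lf (nat_lit 26220) (nat_lit 6) (nat_lit 345) (nat_lit 1) (nat_lit 212) (nat_lit 152) (nat_lit 206)) (PT.lf (nat_lit 26144) (nat_lit 6) (nat_lit 344) (nat_lit 1) (nat_lit 213) (nat_lit 152) (nat_lit 205)))) (PT.nd (nat_lit 156) (PT.nd (nat_lit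 78) (PT.lf (nat_lit 26068) (nat_lit 6) (nat_lit 343) (nat_lit 1) (nat_lit 214) (nat_lit 152) (nat_lit 204)) (PT.lf (nat_lit 25992) (nat_lit 6) (nat_lit 342) (nat_lit 1) (nat_lit 215) (nat_lit 152) (nat_lit 203))) (PT.nd (nat_lit 78) (PT.lf (nat_lit 25916) (nat_lit 6) (nat_lit 341) (nat_lit 1) (nat_lit 216) (nat_lit 152) (nat_lit 202)) (PT.nd (nat_lit 78) (PT.lf (nat_lit 25840) (nat_lit 6) (nat_lit 340) (nat_lit 1) (nat_lit 217) (nat_lit 152) (nat_lit 201)) (PT.lf (nat_lit 25764) (nat_lit 6) (nat_lit 339) (nat_lit 1) (nat_lit 218) (nat_lit 152) (nat_lit 200)))))) (PT.nd (nat_lit 312) (PT.nd (nat_lit 156) (PT.nd (nat_lit 78) (PT.lf (nat_lit 26524) (nat_lit 6) (nat_lit 349) (nat_lit 3) (nat_lit 200) (nat_lit 153) (nat_lit 217)) (PT.lf (nat_lit 26600) (nat_lit 6) (nat_lit 350) (nat_lit 3) (nat_lit 201) (nat_lit 153) (nat_lit 216))) (PT.nd (nat_lit 78) (PT.lf (nat_lit 26676) (nat_lit 6) (nat_lit 351) (nat_lit 3) (nat_lit 202) (nat_lit 153)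 (nat_lit 215)) (PT.lf (nat_lit 26752) (nat_lit 6) (nat_lit 352) (nat_lit 3) (nat_lit 203) (nat_lit 153) (nat_lit 214)))) (PT.nd (nat_lit 156) (PT.nd (nat_lit 78) (PT.lf (nat_lit 26828) (nat_lit 6) (nat_lit 353) (nat_lit 3) (nat_lit 204) (nat_lit 153) (nat_lit 213)) (PT.lf (nat_lit 26904) (nat_lit 6) (nat_lit 354) (nat_lit 3) (nat_lit 205) (nat_lit 153) (nat_lit 212))) (PT.nd (nat_lit 78) (PT.lf (nat_lit 26980) (nat_lit 6) (nat_lit 355) (nat_lit 3) (nat_lit 206) (nat_lit 153) (nat_lit 211)) (PT.nd (nat_lit 78) (PT.lf (nat_lit 27056) (nat_lit 6) (nat_lit 356) (nat_lit 3) (nat_lit 207) (nat_lit 153) (nat_lit 210)) (PT.lf (nat_lit 27132) (nat_lit 6) (nat_lit 357) (nat_lit 3) (nat_lit 208) (nat_lit 153) (nat_lit 209))))))))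
noncomputable def pc18 : PT := (PT.nd (nat_lit 59202) (PT.nd (nat_lit 624) (PT.nd (nat_lit 312) (PT.nd (nat_lit 156) (PT.nd (nat_lit 78) (PT.lf (nat_lit 27132) (nat_lit 6) (nat_lit 357) (nat_lit 1) (nat_lit 209) (nat_lit 153) (nat_lit 208)) (PT.lf (nat_lit 27056) (nat_lit 6) (nat_lit 356) (nat_lit 1) (nat_lit 210) (nat_lit 153) (nat_lit 207))) (PT.nd (nat_lit 78) (PT.lf (nat_lit 26980) (nat_lit 6) (nat_lit 355) (nat_lit 1) (nat_lit 211) (nat_lit 153) (nat_lit 206)) (PT.lf (nat_lit 26904) (nat_lit 6) (nat_lit 354) (nat_lit 1) (nat_lit 212) (nat_lit 153) (nat_lit 205)))) (PT.nd (nat_lit 156) (PT.nd (nat_lit 78) (PT.lf (nat_lit 26828) (nat_lit 6) (nat_lit 353) (nat_lit 1) (nat_lit 213) (nat_lit 153) (nat_lit 204)) (PT.lf (nat_lit 26752) (nat_lit 6) (nat_lit 352) (nat_lit 1) (nat_lit 214) (nat_lit 153) (nat_lit 203))) (PT.nd (nat_lit 78) (PT.lf (nat_lit 26676) (nat_lit 6) (nat_lit 351) (nat_lit 1) (nat_lit 215) (nat_lit 153) (nat_lit 202))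 (PT.lf (nat_lit 26600) (nat_lit 6) (nat_lit 350) (nat_lit 1) (nat_lit 216) (nat_lit 153) (nat_lit 201))))) (PT.nd (nat_lit 58188) (PT.nd (nat_lit 58032) (PT.nd (nat_lit 57954) (PT.lf (nat_lit 26524) (nat_lit 6) (nat_lit 349) (nat_lit 1) (nat_lit 217) (nat_lit 153) (nat_lit 200)) (PT.lf (nat_lit 27208) (nat_lit 6) (nat_lit 358) (nat_lit 3) (nat_lit 199) (nat_lit 154) (nat_lit 217))) (PT.nd (nat_lit 78) (PT.lf (nat_lit 27284) (nat_lit 6) (nat_lit 359) (nat_lit 3) (nat_lit 200) (nat_lit 154) (nat_lit 216)) (PT.lf (nat_lit 27360) (nat_lit 6) (nat_lit 360) (nat_lit 3) (nat_lit 201) (nat_lit 154) (nat_lit 215)))) (PT.nd (nat_lit 156) (PT.nd (nat_lit 78) (PT.lf (nat_lit 27436) (nat_lit 6) (nat_lit 361) (nat_lit 3) (nat_lit 202) (nat_lit 154) (nat_lit 214)) (PT.lf (nat_lit 27512) (nat_lit 6) (nat_lit 362) (nat_lit 3) (nat_lit 203) (nat_lit 154) (nat_lit 213))) (PT.nd (nat_lit 78) (PT.lf (nat_lit 27588) (nat_lit 6) (nat_lit 363) (nat_lit 3) (nat_lit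 204) (nat_lit 154) (nat_lit 212)) (PT.nd (nat_lit 78) (PT.lf (nat_lit 27664) (nat_lit 6) (nat_lit 364) (nat_lit 3) (nat_lit 205) (nat_lit 154) (nat_lit 211)) (PT.lf (nat_lit 27740) (nat_lit 6) (nat_lit 365) (nat_lit 3) (nat_lit 206) (nat_lit 154) (nat_lit 210))))))) (PT.nd (nat_lit 702) (PT.nd (nat_lit 312) (PT.nd (nat_lit 156) (PT.nd (nat_lit 78) (PT.lf (nat_lit 27816) (nat_lit 6) (nat_lit 366) (nat_lit 3) (nat_lit 207) (nat_lit 154) (nat_lit 209)) (PT.lf (nat_lit 27892) (nat_lit 3) (nat_lit 367) (nat_lit 1) (nat_lit 208) (nat_lit 154) (nat_lit 208))) (PT.nd (nat_lit 78) (PT.lf (nat_lit 27816) (nat_lit 6) (nat_lit 366) (nat_lit 1) (nat_lit 209) (nat_lit 154) (nat_lit 207)) (PT.lf (nat_lit 27740) (nat_lit 6) (nat_lit 365) (nat_lit 1) (nat_lit 210) (nat_lit 154) (nat_lit 206)))) (PT.nd (nat_lit 156) (PT.nd (nat_lit 78) (PT.lf (nat_lit 27664) (nat_lit 6) (nat_lit 364) (nat_lit 1) (nat_lit 211) (nat_lit 154) (nat_lit 205)) (PT.lf (nat_lit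 27588) (nat_lit 6) (nat_lit 363) (nat_lit 1) (nat_lit 212) (nat_lit 154) (nat_lit 204))) (PT.nd (nat_lit 78) (PT.lf (nat_lit 27512) (nat_lit 6) (nat_lit 362) (nat_lit 1) (nat_lit 213) (nat_lit 154) (nat_lit 203)) (PT.nd (nat_lit 78) (PT.lf (nat_lit 27436) (nat_lit 6) (nat_lit 361) (nat_lit 1) (nat_lit 214) (nat_lit 154) (nat_lit 202)) (PT.lf (nat_lit 27360) (nat_lit 6) (nat_lit 360) (nat_lit 1) (nat_lit 215) (nat_lit 154) (nat_lit 201)))))) (PT.nd (nat_lit 58110) (PT.nd (nat_lit 57954) (PT.nd (nat_lit 78) (PT.lf (nat_lit 27284) (nat_lit 6) (nat_lit 359) (nat_lit 1) (nat_lit 216) (nat_lit 154) (nat_lit 200)) (PT.lf (nat_lit 27208) (nat_lit 6) (nat_lit 358) (nat_lit 1) (nat_lit 217) (nat_lit 154) (nat_lit 199))) (PT.nd (nat_lit 78) (PT.lf (nat_lit 27968) (nat_lit 6) (nat_lit 368) (nat_lit 3) (nat_lit 198) (nat_lit 155) (nat_lit 217)) (PT.lf (nat_lit 28044) (nat_lit 6) (nat_lit 369) (nat_lit 3) (nat_lit 199) (nat_lit 155) (nat_lit 216))))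 (PT.nd (nat_lit 156) (PT.nd (nat_lit 78) (PT.lf (nat_lit 28120) (nat_lit 6) (nat_lit 370) (nat_lit 3) (nat_lit 200) (nat_lit 155) (nat_lit 215)) (PT.lf (nat_lit 28196) (nat_lit 6) (nat_lit 371) (nat_lit 3) (nat_lit 201) (nat_lit 155) (nat_lit 214))) (PT.nd (nat_lit 78) (PT.lf (nat_lit 28272) (nat_lit 6) (nat_lit 372) (nat_lit 3) (nat_lit 202) (nat_lit 155) (nat_lit 213)) (PT.nd (nat_lit 78) (PT.lf (nat_lit 28348) (nat_lit 6) (nat_lit 373) (nat_lit 3) (nat_lit 203) (nat_lit 155) (nat_lit 212)) (PT.lf (nat_lit 28424) (nat_lit 6) (nat_lit 374) (nat_lit 3) (nat_lit 204) (nat_lit 155) (nat_lit 211))))))))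
noncomputable def pc19 : PT := (PT.nd (nat_lit 59124) (PT.nd (nat_lit 702) (PT.nd (nat_lit 312) (PT.nd (nat_lit 156) (PT.nd (nat_lit 78) (PT.lf (nat_lit 28500) (nat_lit 6) (nat_lit 375) (nat_lit 3) (nat_lit 205) (nat_lit 155) (nat_lit 210)) (PT.lf (nat_lit 28576) (nat_lit 6) (nat_lit 376) (nat_lit 3) (nat_lit 206) (nat_lit 155) (nat_lit 209))) (PT.nd (nat_lit 78) (PT.lf (nat_lit 28652) (nat_lit 6) (nat_lit 377) (nat_lit 3) (nat_lit 207) (nat_lit 155) (nat_lit 208)) (PT.lf (nat_lit 28652) (nat_lit 6) (nat_lit 377) (nat_lit 1) (nat_lit 208) (nat_lit 155) (nat_lit 207)))) (PT.nd (nat_lit 156) (PT.nd (nat_lit 78) (PT.lf (nat_lit 28576) (nat_lit 6) (nat_lit 376) (nat_lit 1) (nat_lit 209) (nat_lit 155) (nat_lit 206)) (PT.lf (nat_lit 28500) (nat_lit 6) (nat_lit 375) (nat_lit 1) (nat_lit 210) (nat_lit 155) (nat_lit 205))) (PT.nd (nat_lit 78) (PT.lf (nat_lit 28424) (nat_lit 6) (nat_lit 374) (nat_lit 1) (nat_lit 211) (nat_lit 155) (nat_lit 204))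 (PT.nd (nat_lit 78) (PT.lf (nat_lit 28348) (nat_lit 6) (nat_lit 373) (nat_lit 1) (nat_lit 212) (nat_lit 155) (nat_lit 203)) (PT.lf (nat_lit 28272) (nat_lit 6) (nat_lit 372) (nat_lit 1) (nat_lit 213) (nat_lit 155) (nat_lit 202)))))) (PT.nd (nat_lit 58032) (PT.nd (nat_lit 156) (PT.nd (nat_lit 78) (PT.lf (nat_lit 28196) (nat_lit 6) (nat_lit 371) (nat_lit 1) (nat_lit 214) (nat_lit 155) (nat_lit 201)) (PT.lf (nat_lit 28120) (nat_lit 6) (nat_lit 370) (nat_lit 1) (nat_lit 215) (nat_lit 155) (nat_lit 200))) (PT.nd (nat_lit 78) (PT.lf (nat_lit 28044) (nat_lit 6) (nat_lit 369) (nat_lit 1) (nat_lit 216) (nat_lit 155) (nat_lit 199)) (PT.lf (nat_lit 27968) (nat_lit 6) (nat_lit 368) (nat_lit 1) (nat_lit 217) (nat_lit 155) (nat_lit 198)))) (PT.nd (nat_lit 156) (PT.nd (nat_lit 78) (PT.lf (nat_lit 28728) (nat_lit 6) (nat_lit 378) (nat_lit 3) (nat_lit 197) (nat_lit 156) (nat_lit 217)) (PT.lf (nat_lit 28804) (nat_lit 6) (nat_lit 379) (nat_lit 3) (nat_lit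 198) (nat_lit 156) (nat_lit 216))) (PT.nd (nat_lit 78) (PT.lf (nat_lit 28880) (nat_lit 6) (nat_lit 380) (nat_lit 3) (nat_lit 199) (nat_lit 156) (nat_lit 215)) (PT.nd (nat_lit 78) (PT.lf (nat_lit 28956) (nat_lit 6) (nat_lit 381) (nat_lit 3) (nat_lit 200) (nat_lit 156) (nat_lit 214)) (PT.lf (nat_lit 29032) (nat_lit 6) (nat_lit 382) (nat_lit 3) (nat_lit 201) (nat_lit 156) (nat_lit 213))))))) (PT.nd (nat_lit 702) (PT.nd (nat_lit 312) (PT.nd (nat_lit 156) (PT.nd (nat_lit 78) (PT.lf (nat_lit 29108) (nat_lit 6) (nat_lit 383) (nat_lit 3) (nat_lit 202) (nat_lit 156) (nat_lit 212)) (PT.lf (nat_lit 29184) (nat_lit 6) (nat_lit 384) (nat_lit 3) (nat_lit 203) (nat_lit 156) (nat_lit 211))) (PT.nd (nat_lit 78) (PT.lf (nat_lit 29260) (nat_lit 6) (nat_lit 385) (nat_lit 3) (nat_lit 204) (nat_lit 156) (nat_lit 210)) (PT.lf (nat_lit 29336) (nat_lit 6) (nat_lit 386) (nat_lit 3) (nat_lit 205) (nat_lit 156) (nat_lit 209)))) (PT.nd (nat_lit 156) (PT.nd (nat_lit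 78) (PT.lf (nat_lit 29412) (nat_lit 6) (nat_lit 387) (nat_lit 3) (nat_lit 206) (nat_lit 156) (nat_lit 208)) (PT.lf (nat_lit 29488) (nat_lit 3) (nat_lit 388) (nat_lit 1) (nat_lit 207) (nat_lit 156) (nat_lit 207))) (PT.nd (nat_lit 78) (PT.lf (nat_lit 29412) (nat_lit 6) (nat_lit 387) (nat_lit 1) (nat_lit 208) (nat_lit 156) (nat_lit 206)) (PT.nd (nat_lit 78) (PT.lf (nat_lit 29336) (nat_lit 6) (nat_lit 386) (nat_lit 1) (nat_lit 209) (nat_lit 156) (nat_lit 205)) (PT.lf (nat_lit 29260) (nat_lit 6) (nat_lit 385) (nat_lit 1) (nat_lit 210) (nat_lit 156) (nat_lit 204)))))) (PT.nd (nat_lit 312) (PT.nd (nat_lit 156) (PT.nd (nat_lit 78) (PT.lf (nat_lit 29184) (nat_lit 6) (nat_lit 384) (nat_lit 1) (nat_lit 211) (nat_lit 156) (nat_lit 203)) (PT.lf (nat_lit 29108) (nat_lit 6) (nat_lit 383) (nat_lit 1) (nat_lit 212) (nat_lit 156) (nat_lit 202))) (PT.nd (nat_lit 78) (PT.lf (nat_lit 29032) (nat_lit 6) (nat_lit 382) (nat_lit 1) (nat_lit 213) (nat_lit 156)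 (nat_lit 201)) (PT.lf (nat_lit 28956) (nat_lit 6) (nat_lit 381) (nat_lit 1) (nat_lit 214) (nat_lit 156) (nat_lit 200)))) (PT.nd (nat_lit 156) (PT.nd (nat_lit 78) (PT.lf (nat_lit 28880) (nat_lit 6) (nat_lit 380) (nat_lit 1) (nat_lit 215) (nat_lit 156) (nat_lit 199)) (PT.lf (nat_lit 28804) (nat_lit 6) (nat_lit 379) (nat_lit 1) (nat_lit 216) (nat_lit 156) (nat_lit 198))) (PT.nd (nat_lit 57798) (PT.lf (nat_lit 28728) (nat_lit 6) (nat_lit 378) (nat_lit 1) (nat_lit 217) (nat_lit 156) (nat_lit 197)) (PT.nd (nat_lit 78) (PT.lf (nat_lit 29564) (nat_lit 6) (nat_lit 389) (nat_lit 3) (nat_lit 197) (nat_lit 157) (nat_lit 216)) (PT.lf (nat_lit 29640) (nat_lit 6) (nat_lit 390) (nat_lit 3) (nat_lit 198) (nat_lit 157) (nat_lit 215))))))))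
noncomputable def pc20 : PT := (PT.nd (nat_lit 1326) (PT.nd (nat_lit 624) (PT.nd (nat_lit 312) (PT.nd (nat_lit 156) (PT.nd (nat_lit 78) (PT.lf (nat_lit 29716) (nat_lit 6) (nat_lit 391) (nat_lit 3) (nat_lit 199) (nat_lit 157) (nat_lit 214)) (PT.lf (nat_lit 29792) (nat_lit 6) (nat_lit 392) (nat_lit 3) (nat_lit 200) (nat_lit 157) (nat_lit 213))) (PT.nd (nat_lit 78) (PT.lf (nat_lit 29868) (nat_lit 6) (nat_lit 393) (nat_lit 3) (nat_lit 201) (nat_lit 157) (nat_lit 212)) (PT.lf (nat_lit 29944) (nat_lit 6) (nat_lit 394) (nat_lit 3) (nat_lit 202) (nat_lit 157) (nat_lit 211)))) (PT.nd (nat_lit 156) (PT.nd (nat_lit 78) (PT.lf (nat_lit 30020) (nat_lit 6) (nat_lit 395) (nat_lit 3) (nat_lit 203) (nat_lit 157) (nat_lit 210)) (PT.lf (nat_lit 30096) (nat_lit 6) (nat_lit 396) (nat_lit 3) (nat_lit 204) (nat_lit 157) (nat_lit 209))) (PT.nd (nat_lit 78) (PT.lf (nat_lit 30172) (nat_lit 6) (nat_lit 397) (nat_lit 3) (nat_lit 205) (nat_lit 157) (nat_lit 208))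 (PT.lf (nat_lit 30248) (nat_lit 6) (nat_lit 398) (nat_lit 3) (nat_lit 206) (nat_lit 157) (nat_lit 207))))) (PT.nd (nat_lit 312) (PT.nd (nat_lit 156) (PT.nd (nat_lit 78) (PT.lf (nat_lit 30248) (nat_lit 6) (nat_lit 398) (nat_lit 1) (nat_lit 207) (nat_lit 157) (nat_lit 206)) (PT.lf (nat_lit 30172) (nat_lit 6) (nat_lit 397) (nat_lit 1) (nat_lit 208) (nat_lit 157) (nat_lit 205))) (PT.nd (nat_lit 78) (PT.lf (nat_lit 30096) (nat_lit 6) (nat_lit 396) (nat_lit 1) (nat_lit 209) (nat_lit 157) (nat_lit 204)) (PT.lf (nat_lit 30020) (nat_lit 6) (nat_lit 395) (nat_lit 1) (nat_lit 210) (nat_lit 157) (nat_lit 203)))) (PT.nd (nat_lit 156) (PT.nd (nat_lit 78) (PT.lf (nat_lit 29944) (nat_lit 6) (nat_lit 394) (nat_lit 1) (nat_lit 211) (nat_lit 157) (nat_lit 202)) (PT.lf (nat_lit 29868) (nat_lit 6) (nat_lit 393) (nat_lit 1) (nat_lit 212) (nat_lit 157) (nat_lit 201))) (PT.nd (nat_lit 78) (PT.lf (nat_lit 29792) (nat_lit 6) (nat_lit 392) (nat_lit 1) (nat_lit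 213) (nat_lit 157) (nat_lit 200)) (PT.nd (nat_lit 78) (PT.lf (nat_lit 29716) (nat_lit 6) (nat_lit 391) (nat_lit 1) (nat_lit 214) (nat_lit 157) (nat_lit 199)) (PT.lf (nat_lit 29640) (nat_lit 6) (nat_lit 390) (nat_lit 1) (nat_lit 215) (nat_lit 157) (nat_lit 198))))))) (PT.nd (nat_lit 58422) (PT.nd (nat_lit 58032) (PT.nd (nat_lit 57876) (PT.nd (nat_lit 57798) (PT.lf (nat_lit 29564) (nat_lit 6) (nat_lit 389) (nat_lit 1) (nat_lit 216) (nat_lit 157) (nat_lit 197)) (PT.lf (nat_lit 30324) (nat_lit 6) (nat_lit 399) (nat_lit 3) (nat_lit 196) (nat_lit 158) (nat_lit 216))) (PT.nd (nat_lit 78) (PT.lf (nat_lit 30400) (nat_lit 6) (nat_lit 400) (nat_lit 3) (nat_lit 197) (nat_lit 158) (nat_lit 215)) (PT.lf (nat_lit 30476) (nat_lit 6) (nat_lit 401) (nat_lit 3) (nat_lit 198) (nat_lit 158) (nat_lit 214)))) (PT.nd (nat_lit 156) (PT.nd (nat_lit 78) (PT.lf (nat_lit 30552) (nat_lit 6) (nat_lit 402) (nat_lit 3) (nat_lit 199) (nat_lit 158) (nat_lit 213)) (PT.lf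 (nat_lit 30628) (nat_lit 6) (nat_lit 403) (nat_lit 3) (nat_lit 200) (nat_lit 158) (nat_lit 212))) (PT.nd (nat_lit 78) (PT.lf (nat_lit 30704) (nat_lit 6) (nat_lit 404) (nat_lit 3) (nat_lit 201) (nat_lit 158) (nat_lit 211)) (PT.nd (nat_lit 78) (PT.lf (nat_lit 30780) (nat_lit 6) (nat_lit 405) (nat_lit 3) (nat_lit 202) (nat_lit 158) (nat_lit 210)) (PT.lf (nat_lit 30856) (nat_lit 6) (nat_lit 406) (nat_lit 3) (nat_lit 203) (nat_lit 158) (nat_lit 209)))))) (PT.nd (nat_lit 312) (PT.nd (nat_lit 156) (PT.nd (nat_lit 78) (PT.lf (nat_lit 30932) (nat_lit 6) (nat_lit 407) (nat_lit 3) (nat_lit 204) (nat_lit 158) (nat_lit 208)) (PT.lf (nat_lit 31008) (nat_lit 6) (nat_lit 408) (nat_lit 3) (nat_lit 205) (nat_lit 158) (nat_lit 207))) (PT.nd (nat_lit 78) (PT.lf (nat_lit 31084) (nat_lit 3) (nat_lit 409) (nat_lit 1) (nat_lit 206) (nat_lit 158) (nat_lit 206)) (PT.lf (nat_lit 31008) (nat_lit 6) (nat_lit 408) (nat_lit 1) (nat_lit 207) (nat_lit 158) (nat_lit 205))))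 (PT.nd (nat_lit 156) (PT.nd (nat_lit 78) (PT.lf (nat_lit 30932) (nat_lit 6) (nat_lit 407) (nat_lit 1) (nat_lit 208) (nat_lit 158) (nat_lit 204)) (PT.lf (nat_lit 30856) (nat_lit 6) (nat_lit 406) (nat_lit 1) (nat_lit 209) (nat_lit 158) (nat_lit 203))) (PT.nd (nat_lit 78) (PT.lf (nat_lit 30780) (nat_lit 6) (nat_lit 405) (nat_lit 1) (nat_lit 210) (nat_lit 158) (nat_lit 202)) (PT.nd (nat_lit 78) (PT.lf (nat_lit 30704) (nat_lit 6) (nat_lit 404) (nat_lit 1) (nat_lit 211) (nat_lit 158) (nat_lit 201)) (PT.lf (nat_lit 30628) (nat_lit 6) (nat_lit 403) (nat_lit 1) (nat_lit 212) (nat_lit 158) (nat_lit 200))))))))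
noncomputable def pc21 : PT := (PT.nd (nat_lit 59046) (PT.nd (nat_lit 58344) (PT.nd (nat_lit 57954) (PT.nd (nat_lit 156) (PT.nd (nat_lit 78) (PT.lf (nat_lit 30552) (nat_lit 6) (nat_lit 402) (nat_lit 1) (nat_lit 213) (nat_lit 158) (nat_lit 199)) (PT.lf (nat_lit 30476) (nat_lit 6) (nat_lit 401) (nat_lit 1) (nat_lit 214) (nat_lit 158) (nat_lit 198))) (PT.nd (nat_lit 78) (PT.lf (nat_lit 30400) (nat_lit 6) (nat_lit 400) (nat_lit 1) (nat_lit 215) (nat_lit 158) (nat_lit 197)) (PT.lf (nat_lit 30324) (nat_lit 6) (nat_lit 399) (nat_lit 1) (nat_lit 216) (nat_lit 158) (nat_lit 196)))) (PT.nd (nat_lit 156) (PT.nd (nat_lit 78) (PT.lf (nat_lit 31160) (nat_lit 6) (nat_lit 410) (nat_lit 3) (nat_lit 195) (nat_lit 159) (nat_lit 216)) (PT.lf (nat_lit 31236) (nat_lit 6) (nat_lit 411) (nat_lit 3) (nat_lit 196) (nat_lit 159) (nat_lit 215))) (PT.nd (nat_lit 78) (PT.lf (nat_lit 31312) (nat_lit 6) (nat_lit 412) (nat_lit 3) (nat_lit 197) (nat_lit 159) (nat_lit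 214)) (PT.nd (nat_lit 78) (PT.lf (nat_lit 31388) (nat_lit 6) (nat_lit 413) (nat_lit 3) (nat_lit 198) (nat_lit 159) (nat_lit 213)) (PT.lf (nat_lit 31464) (nat_lit 6) (nat_lit 414) (nat_lit 3) (nat_lit 199) (nat_lit 159) (nat_lit 212)))))) (PT.nd (nat_lit 312) (PT.nd (nat_lit 156) (PT.nd (nat_lit 78) (PT.lf (nat_lit 31540) (nat_lit 6) (nat_lit 415) (nat_lit 3) (nat_lit 200) (nat_lit 159) (nat_lit 211)) (PT.lf (nat_lit 31616) (nat_lit 6) (nat_lit 416) (nat_lit 3) (nat_lit 201) (nat_lit 159) (nat_lit 210))) (PT.nd (nat_lit 78) (PT.lf (nat_lit 31692) (nat_lit 6) (nat_lit 417) (nat_lit 3) (nat_lit 202) (nat_lit 159) (nat_lit 209)) (PT.lf (nat_lit 31768) (nat_lit 6) (nat_lit 418) (nat_lit 3) (nat_lit 203) (nat_lit 159) (nat_lit 208)))) (PT.nd (nat_lit 156) (PT.nd (nat_lit 78) (PT.lf (nat_lit 31844) (nat_lit 6) (nat_lit 419) (nat_lit 3) (nat_lit 204) (nat_lit 159) (nat_lit 207)) (PT.lf (nat_lit 31920) (nat_lit 6) (nat_lit 420) (nat_lit 3) (nat_lit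 205) (nat_lit 159) (nat_lit 206))) (PT.nd (nat_lit 78) (PT.lf (nat_lit 31920) (nat_lit 6) (nat_lit 420) (nat_lit 1) (nat_lit 206) (nat_lit 159) (nat_lit 205)) (PT.nd (nat_lit 78) (PT.lf (nat_lit 31844) (nat_lit 6) (nat_lit 419) (nat_lit 1) (nat_lit 207) (nat_lit 159) (nat_lit 204)) (PT.lf (nat_lit 31768) (nat_lit 6) (nat_lit 418) (nat_lit 1) (nat_lit 208) (nat_lit 159) (nat_lit 203))))))) (PT.nd (nat_lit 58266) (PT.nd (nat_lit 312) (PT.nd (nat_lit 156) (PT.nd (nat_lit 78) (PT.lf (nat_lit 31692) (nat_lit 6) (nat_lit 417) (nat_lit 1) (nat_lit 209) (nat_lit 159) (nat_lit 202)) (PT.lf (nat_lit 31616) (nat_lit 6) (nat_lit 416) (nat_lit 1) (nat_lit 210) (nat_lit 159) (nat_lit 201))) (PT.nd (nat_lit 78) (PT.lf (nat_lit 31540) (nat_lit 6) (nat_lit 415) (nat_lit 1) (nat_lit 211) (nat_lit 159) (nat_lit 200)) (PT.lf (nat_lit 31464) (nat_lit 6) (nat_lit 414) (nat_lit 1) (nat_lit 212) (nat_lit 159) (nat_lit 199)))) (PT.nd (nat_lit 156) (PT.nd (nat_lit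 78) (PT.lf (nat_lit 31388) (nat_lit 6) (nat_lit 413) (nat_lit 1) (nat_lit 213) (nat_lit 159) (nat_lit 198)) (PT.lf (nat_lit 31312) (nat_lit 6) (nat_lit 412) (nat_lit 1) (nat_lit 214) (nat_lit 159) (nat_lit 197))) (PT.nd (nat_lit 78) (PT.lf (nat_lit 31236) (nat_lit 6) (nat_lit 411) (nat_lit 1) (nat_lit 215) (nat_lit 159) (nat_lit 196)) (PT.nd (nat_lit 57642) (PT.lf (nat_lit 31160) (nat_lit 6) (nat_lit 410) (nat_lit 1) (nat_lit 216) (nat_lit 159) (nat_lit 195)) (PT.lf (nat_lit 31996) (nat_lit 6) (nat_lit 421) (nat_lit 3) (nat_lit 194) (nat_lit 160) (nat_lit 216)))))) (PT.nd (nat_lit 312) (PT.nd (nat_lit 156) (PT.nd (nat_lit 78) (PT.lf (nat_lit 32072) (nat_lit 6) (nat_lit 422) (nat_lit 3) (nat_lit 195) (nat_lit 160) (nat_lit 215)) (PT.lf (nat_lit 32148) (nat_lit 6) (nat_lit 423) (nat_lit 3) (nat_lit 196) (nat_lit 160) (nat_lit 214))) (PT.nd (nat_lit 78) (PT.lf (nat_lit 32224) (nat_lit 6) (nat_lit 424) (nat_lit 3) (nat_lit 197) (nat_lit 160)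 (nat_lit 213)) (PT.lf (nat_lit 32300) (nat_lit 6) (nat_lit 425) (nat_lit 3) (nat_lit 198) (nat_lit 160) (nat_lit 212)))) (PT.nd (nat_lit 156) (PT.nd (nat_lit 78) (PT.lf (nat_lit 32376) (nat_lit 6) (nat_lit 426) (nat_lit 3) (nat_lit 199) (nat_lit 160) (nat_lit 211)) (PT.lf (nat_lit 32452) (nat_lit 6) (nat_lit 427) (nat_lit 3) (nat_lit 200) (nat_lit 160) (nat_lit 210))) (PT.nd (nat_lit 78) (PT.lf (nat_lit 32528) (nat_lit 6) (nat_lit 428) (nat_lit 3) (nat_lit 201) (nat_lit 160) (nat_lit 209)) (PT.nd (nat_lit 78) (PT.lf (nat_lit 32604) (nat_lit 6) (nat_lit 429) (nat_lit 3) (nat_lit 202) (nat_lit 160) (nat_lit 208)) (PT.lf (nat_lit 32680) (nat_lit 6) (nat_lit 430) (nat_lit 3) (nat_lit 203) (nat_lit 160) (nat_lit 207))))))))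
noncomputable def pc22 : PT := (PT.nd (nat_lit 58890) (PT.nd (nat_lit 702) (PT.nd (nat_lit 312) (PT.nd (nat_lit 156) (PT.nd (nat_lit 78) (PT.lf (nat_lit 32756) (nat_lit 6) (nat_lit 431) (nat_lit 3) (nat_lit 204) (nat_lit 160) (nat_lit 206)) (PT.lf (nat_lit 32832) (nat_lit 3) (nat_lit 432) (nat_lit 1) (nat_lit 205) (nat_lit 160) (nat_lit 205))) (PT.nd (nat_lit 78) (PT.lf (nat_lit 32756) (nat_lit 6) (nat_lit 431) (nat_lit 1) (nat_lit 206) (nat_lit 160) (nat_lit 204)) (PT.lf (nat_lit 32680) (nat_lit 6) (nat_lit 430) (nat_lit 1) (nat_lit 207) (nat_lit 160) (nat_lit 203)))) (PT.nd (nat_lit 156) (PT.nd (nat_lit 78) (PT.lf (nat_lit 32604) (nat_lit 6) (nat_lit 429) (nat_lit 1) (nat_lit 208) (nat_lit 160) (nat_lit 202)) (PT.lf (nat_lit 32528) (nat_lit 6) (nat_lit 428) (nat_lit 1) (nat_lit 209) (nat_lit 160) (nat_lit 201))) (PT.nd (nat_lit 78) (PT.lf (nat_lit 32452) (nat_lit 6) (nat_lit 427) (nat_lit 1) (nat_lit 210) (nat_lit 160) (nat_lit 200))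 (PT.nd (nat_lit 78) (PT.lf (nat_lit 32376) (nat_lit 6) (nat_lit 426) (nat_lit 1) (nat_lit 211) (nat_lit 160) (nat_lit 199)) (PT.lf (nat_lit 32300) (nat_lit 6) (nat_lit 425) (nat_lit 1) (nat_lit 212) (nat_lit 160) (nat_lit 198)))))) (PT.nd (nat_lit 57798) (PT.nd (nat_lit 156) (PT.nd (nat_lit 78) (PT.lf (nat_lit 32224) (nat_lit 6) (nat_lit 424) (nat_lit 1) (nat_lit 213) (nat_lit 160) (nat_lit 197)) (PT.lf (nat_lit 32148) (nat_lit 6) (nat_lit 423) (nat_lit 1) (nat_lit 214) (nat_lit 160) (nat_lit 196))) (PT.nd (nat_lit 78) (PT.lf (nat_lit 32072) (nat_lit 6) (nat_lit 422) (nat_lit 1) (nat_lit 215) (nat_lit 160) (nat_lit 195)) (PT.lf (nat_lit 31996) (nat_lit 6) (nat_lit 421) (nat_lit 1) (nat_lit 216) (nat_lit 160) (nat_lit 194)))) (PT.nd (nat_lit 156) (PT.nd (nat_lit 78) (PT.lf (nat_lit 32908) (nat_lit 6) (nat_lit 433) (nat_lit 3) (nat_lit 193) (nat_lit 161) (nat_lit 216)) (PT.lf (nat_lit 32984) (nat_lit 6) (nat_lit 434) (nat_lit 3) (nat_lit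 194) (nat_lit 161) (nat_lit 215))) (PT.nd (nat_lit 78) (PT.lf (nat_lit 33060) (nat_lit 6) (nat_lit 435) (nat_lit 3) (nat_lit 195) (nat_lit 161) (nat_lit 214)) (PT.nd (nat_lit 78) (PT.lf (nat_lit 33136) (nat_lit 6) (nat_lit 436) (nat_lit 3) (nat_lit 196) (nat_lit 161) (nat_lit 213)) (PT.lf (nat_lit 33212) (nat_lit 6) (nat_lit 437) (nat_lit 3) (nat_lit 197) (nat_lit 161) (nat_lit 212))))))) (PT.nd (nat_lit 702) (PT.nd (nat_lit 312) (PT.nd (nat_lit 156) (PT.nd (nat_lit 78) (PT.lf (nat_lit 33288) (nat_lit 6) (nat_lit 438) (nat_lit 3) (nat_lit 198) (nat_lit 161) (nat_lit 211)) (PT.lf (nat_lit 33364) (nat_lit 6) (nat_lit 439) (nat_lit 3) (nat_lit 199) (nat_lit 161) (nat_lit 210))) (PT.nd (nat_lit 78) (PT.lf (nat_lit 33440) (nat_lit 6) (nat_lit 440) (nat_lit 3) (nat_lit 200) (nat_lit 161) (nat_lit 209)) (PT.lf (nat_lit 33516) (nat_lit 6) (nat_lit 441) (nat_lit 3) (nat_lit 201) (nat_lit 161) (nat_lit 208)))) (PT.nd (nat_lit 156) (PT.nd (nat_lit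 78) (PT.lf (nat_lit 33592) (nat_lit 6) (nat_lit 442) (nat_lit 3) (nat_lit 202) (nat_lit 161) (nat_lit 207)) (PT.lf (nat_lit 33668) (nat_lit 6) (nat_lit 443) (nat_lit 3) (nat_lit 203) (nat_lit 161) (nat_lit 206))) (PT.nd (nat_lit 78) (PT.lf (nat_lit 33744) (nat_lit 6) (nat_lit 444) (nat_lit 3) (nat_lit 204) (nat_lit 161) (nat_lit 205)) (PT.nd (nat_lit 78) (PT.lf (nat_lit 33744) (nat_lit 6) (nat_lit 444) (nat_lit 1) (nat_lit 205) (nat_lit 161) (nat_lit 204)) (PT.lf (nat_lit 33668) (nat_lit 6) (nat_lit 443) (nat_lit 1) (nat_lit 206) (nat_lit 161) (nat_lit 203)))))) (PT.nd (nat_lit 312) (PT.nd (nat_lit 156) (PT.nd (nat_lit 78) (PT.lf (nat_lit 33592) (nat_lit 6) (nat_lit 442) (nat_lit 1) (nat_lit 207) (nat_lit 161) (nat_lit 202)) (PT.lf (nat_lit 33516) (nat_lit 6) (nat_lit 441) (nat_lit 1) (nat_lit 208) (nat_lit 161) (nat_lit 201))) (PT.nd (nat_lit 78) (PT.lf (nat_lit 33440) (nat_lit 6) (nat_lit 440) (nat_lit 1) (nat_lit 209) (nat_lit 161)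 (nat_lit 200)) (PT.lf (nat_lit 33364) (nat_lit 6) (nat_lit 439) (nat_lit 1) (nat_lit 210) (nat_lit 161) (nat_lit 199)))) (PT.nd (nat_lit 156) (PT.nd (nat_lit 78) (PT.lf (nat_lit 33288) (nat_lit 6) (nat_lit 438) (nat_lit 1) (nat_lit 211) (nat_lit 161) (nat_lit 198)) (PT.lf (nat_lit 33212) (nat_lit 6) (nat_lit 437) (nat_lit 1) (nat_lit 212) (nat_lit 161) (nat_lit 197))) (PT.nd (nat_lit 78) (PT.lf (nat_lit 33136) (nat_lit 6) (nat_lit 436) (nat_lit 1) (nat_lit 213) (nat_lit 161) (nat_lit 196)) (PT.nd (nat_lit 78) (PT.lf (nat_lit 33060) (nat_lit 6) (nat_lit 435) (nat_lit 1) (nat_lit 214) (nat_lit 161) (nat_lit 195)) (PT.lf (nat_lit 32984) (nat_lit 6) (nat_lit 434) (nat_lit 1) (nat_lit 215) (nat_lit 161) (nat_lit 194))))))))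
noncomputable def pc23 : PT := (PT.nd (nat_lit 58890) (PT.nd (nat_lit 58188) (PT.nd (nat_lit 57798) (PT.nd (nat_lit 57642) (PT.nd (nat_lit 57564) (PT.lf (nat_lit 32908) (nat_lit 6) (nat_lit 433) (nat_lit 1) (nat_lit 216) (nat_lit 161) (nat_lit 193)) (PT.lf (nat_lit 33820) (nat_lit 6) (nat_lit 445) (nat_lit 3) (nat_lit 193) (nat_lit 162) (nat_lit 215))) (PT.nd (nat_lit 78) (PT.lf (nat_lit 33896) (nat_lit 6) (nat_lit 446) (nat_lit 3) (nat_lit 194) (nat_lit 162) (nat_lit 214)) (PT.lf (nat_lit 33972) (nat_lit 6) (nat_lit 447) (nat_lit 3) (nat_lit 195) (nat_lit 162) (nat_lit 213)))) (PT.nd (nat_lit 156) (PT.nd (nat_lit 78) (PT.lf (nat_lit 34048) (nat_lit 6) (nat_lit 448) (nat_lit 3) (nat_lit 196) (nat_lit 162) (nat_lit 212)) (PT.lf (nat_lit 34124) (nat_lit 6) (nat_lit 449) (nat_lit 3) (nat_lit 197) (nat_lit 162) (nat_lit 211))) (PT.nd (nat_lit 78) (PT.lf (nat_lit 34200) (nat_lit 6) (nat_lit 450) (nat_lit 3) (nat_lit 198) (nat_lit 162) (nat_lit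 210)) (PT.nd (nat_lit 78) (PT.lf (nat_lit 34276) (nat_lit 6) (nat_lit 451) (nat_lit 3) (nat_lit 199) (nat_lit 162) (nat_lit 209)) (PT.lf (nat_lit 34352) (nat_lit 6) (nat_lit 452) (nat_lit 3) (nat_lit 200) (nat_lit 162) (nat_lit 208)))))) (PT.nd (nat_lit 312) (PT.nd (nat_lit 156) (PT.nd (nat_lit 78) (PT.lf (nat_lit 34428) (nat_lit 6) (nat_lit 453) (nat_lit 3) (nat_lit 201) (nat_lit 162) (nat_lit 207)) (PT.lf (nat_lit 34504) (nat_lit 6) (nat_lit 454) (nat_lit 3) (nat_lit 202) (nat_lit 162) (nat_lit 206))) (PT.nd (nat_lit 78) (PT.lf (nat_lit 34580) (nat_lit 6) (nat_lit 455) (nat_lit 3) (nat_lit 203) (nat_lit 162) (nat_lit 205)) (PT.lf (nat_lit 34656) (nat_lit 3) (nat_lit 456) (nat_lit 1) (nat_lit 204) (nat_lit 162) (nat_lit 204)))) (PT.nd (nat_lit 156) (PT.nd (nat_lit 78) (PT.lf (nat_lit 34580) (nat_lit 6) (nat_lit 455) (nat_lit 1) (nat_lit 205) (nat_lit 162) (nat_lit 203)) (PT.lf (nat_lit 34504) (nat_lit 6) (nat_lit 454) (nat_lit 1) (nat_lit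 206) (nat_lit 162) (nat_lit 202))) (PT.nd (nat_lit 78) (PT.lf (nat_lit 34428) (nat_lit 6) (nat_lit 453) (nat_lit 1) (nat_lit 207) (nat_lit 162) (nat_lit 201)) (PT.nd (nat_lit 78) (PT.lf (nat_lit 34352) (nat_lit 6) (nat_lit 452) (nat_lit 1) (nat_lit 208) (nat_lit 162) (nat_lit 200)) (PT.lf (nat_lit 34276) (nat_lit 6) (nat_lit 451) (nat_lit 1) (nat_lit 209) (nat_lit 162) (nat_lit 199))))))) (PT.nd (nat_lit 58188) (PT.nd (nat_lit 312) (PT.nd (nat_lit 156) (PT.nd (nat_lit 78) (PT.lf (nat_lit 34200) (nat_lit 6) (nat_lit 450) (nat_lit 1) (nat_lit 210) (nat_lit 162) (nat_lit 198)) (PT.lf (nat_lit 34124) (nat_lit 6) (nat_lit 449) (nat_lit 1) (nat_lit 211) (nat_lit 162) (nat_lit 197))) (PT.nd (nat_lit 78) (PT.lf (nat_lit 34048) (nat_lit 6) (nat_lit 448) (nat_lit 1) (nat_lit 212) (nat_lit 162) (nat_lit 196)) (PT.lf (nat_lit 33972) (nat_lit 6) (nat_lit 447) (nat_lit 1) (nat_lit 213) (nat_lit 162) (nat_lit 195)))) (PT.nd (nat_lit 57642) (PT.nd (nat_lit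 78) (PT.lf (nat_lit 33896) (nat_lit 6) (nat_lit 446) (nat_lit 1) (nat_lit 214) (nat_lit 162) (nat_lit 194)) (PT.lf (nat_lit 33820) (nat_lit 6) (nat_lit 445) (nat_lit 1) (nat_lit 215) (nat_lit 162) (nat_lit 193))) (PT.nd (nat_lit 78) (PT.lf (nat_lit 34732) (nat_lit 6) (nat_lit 457) (nat_lit 3) (nat_lit 192) (nat_lit 163) (nat_lit 215)) (PT.nd (nat_lit 78) (PT.lf (nat_lit 34808) (nat_lit 6) (nat_lit 458) (nat_lit 3) (nat_lit 193) (nat_lit 163) (nat_lit 214)) (PT.lf (nat_lit 34884) (nat_lit 6) (nat_lit 459) (nat_lit 3) (nat_lit 194) (nat_lit 163) (nat_lit 213)))))) (PT.nd (nat_lit 312) (PT.nd (nat_lit 156) (PT.nd (nat_lit 78) (PT.lf (nat_lit 34960) (nat_lit 6) (nat_lit 460) (nat_lit 3) (nat_lit 195) (nat_lit 163) (nat_lit 212)) (PT.lf (nat_lit 35036) (nat_lit 6) (nat_lit 461) (nat_lit 3) (nat_lit 196) (nat_lit 163) (nat_lit 211))) (PT.nd (nat_lit 78) (PT.lf (nat_lit 35112) (nat_lit 6) (nat_lit 462) (nat_lit 3) (nat_lit 197) (nat_lit 163)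 (nat_lit 210)) (PT.lf (nat_lit 35188) (nat_lit 6) (nat_lit 463) (nat_lit 3) (nat_lit 198) (nat_lit 163) (nat_lit 209)))) (PT.nd (nat_lit 156) (PT.nd (nat_lit 78) (PT.lf (nat_lit 35264) (nat_lit 6) (nat_lit 464) (nat_lit 3) (nat_lit 199) (nat_lit 163) (nat_lit 208)) (PT.lf (nat_lit 35340) (nat_lit 6) (nat_lit 465) (nat_lit 3) (nat_lit 200) (nat_lit 163) (nat_lit 207))) (PT.nd (nat_lit 78) (PT.lf (nat_lit 35416) (nat_lit 6) (nat_lit 466) (nat_lit 3) (nat_lit 201) (nat_lit 163) (nat_lit 206)) (PT.nd (nat_lit 78) (PT.lf (nat_lit 35492) (nat_lit 6) (nat_lit 467) (nat_lit 3) (nat_lit 202) (nat_lit 163) (nat_lit 205)) (PT.lf (nat_lit 35568) (nat_lit 6) (nat_lit 468) (nat_lit 3) (nat_lit 203) (nat_lit 163) (nat_lit 204))))))))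
noncomputable def pc24 : PT := (PT.nd (nat_lit 58734) (PT.nd (nat_lit 624) (PT.nd (nat_lit 312) (PT.nd (nat_lit 156) (PT.nd (nat_lit 78) (PT.lf (nat_lit 35568) (nat_lit 6) (nat_lit 468) (nat_lit 1) (nat_lit 204) (nat_lit 163) (nat_lit 203)) (PT.lf (nat_lit 35492) (nat_lit 6) (nat_lit 467) (nat_lit 1) (nat_lit 205) (nat_lit 163) (nat_lit 202))) (PT.nd (nat_lit 78) (PT.lf (nat_lit 35416) (nat_lit 6) (nat_lit 466) (nat_lit 1) (nat_lit 206) (nat_lit 163) (nat_lit 201)) (PT.lf (nat_lit 35340) (nat_lit 6) (nat_lit 465) (nat_lit 1) (nat_lit 207) (nat_lit 163) (nat_lit 200)))) (PT.nd (nat_lit 156) (PT.nd (nat_lit 78) (PT.lf (nat_lit 35264) (nat_lit 6) (nat_lit 464) (nat_lit 1) (nat_lit 208) (nat_lit 163) (nat_lit 199)) (PT.lf (nat_lit 35188) (nat_lit 6) (nat_lit 463) (nat_lit 1) (nat_lit 209) (nat_lit 163) (nat_lit 198))) (PT.nd (nat_lit 78) (PT.lf (nat_lit 35112) (nat_lit 6) (nat_lit 462) (nat_lit 1) (nat_lit 210) (nat_lit 163) (nat_lit 197))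 (PT.lf (nat_lit 35036) (nat_lit 6) (nat_lit 461) (nat_lit 1) (nat_lit 211) (nat_lit 163) (nat_lit 196))))) (PT.nd (nat_lit 57720) (PT.nd (nat_lit 156) (PT.nd (nat_lit 78) (PT.lf (nat_lit 34960) (nat_lit 6) (nat_lit 460) (nat_lit 1) (nat_lit 212) (nat_lit 163) (nat_lit 195)) (PT.lf (nat_lit 34884) (nat_lit 6) (nat_lit 459) (nat_lit 1) (nat_lit 213) (nat_lit 163) (nat_lit 194))) (PT.nd (nat_lit 78) (PT.lf (nat_lit 34808) (nat_lit 6) (nat_lit 458) (nat_lit 1) (nat_lit 214) (nat_lit 163) (nat_lit 193)) (PT.lf (nat_lit 34732) (nat_lit 6) (nat_lit 457) (nat_lit 1) (nat_lit 215) (nat_lit 163) (nat_lit 192)))) (PT.nd (nat_lit 156) (PT.nd (nat_lit 78) (PT.lf (nat_lit 35644) (nat_lit 6) (nat_lit 469) (nat_lit 3) (nat_lit 191) (nat_lit 164) (nat_lit 215)) (PT.lf (nat_lit 35720) (nat_lit 6) (nat_lit 470) (nat_lit 3) (nat_lit 192) (nat_lit 164) (nat_lit 214))) (PT.nd (nat_lit 78) (PT.lf (nat_lit 35796) (nat_lit 6) (nat_lit 471) (nat_lit 3) (nat_lit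 193) (nat_lit 164) (nat_lit 213)) (PT.nd (nat_lit 78) (PT.lf (nat_lit 35872) (nat_lit 6) (nat_lit 472) (nat_lit 3) (nat_lit 194) (nat_lit 164) (nat_lit 212)) (PT.lf (nat_lit 35948) (nat_lit 6) (nat_lit 473) (nat_lit 3) (nat_lit 195) (nat_lit 164) (nat_lit 211))))))) (PT.nd (nat_lit 702) (PT.nd (nat_lit 312) (PT.nd (nat_lit 156) (PT.nd (nat_lit 78) (PT.lf (nat_lit 36024) (nat_lit 6) (nat_lit 474) (nat_lit 3) (nat_lit 196) (nat_lit 164) (nat_lit 210)) (PT.lf (nat_lit 36100) (nat_lit 6) (nat_lit 475) (nat_lit 3) (nat_lit 197) (nat_lit 164) (nat_lit 209))) (PT.nd (nat_lit 78) (PT.lf (nat_lit 36176) (nat_lit 6) (nat_lit 476) (nat_lit 3) (nat_lit 198) (nat_lit 164) (nat_lit 208)) (PT.lf (nat_lit 36252) (nat_lit 6) (nat_lit 477) (nat_lit 3) (nat_lit 199) (nat_lit 164) (nat_lit 207)))) (PT.nd (nat_lit 156) (PT.nd (nat_lit 78) (PT.lf (nat_lit 36328) (nat_lit 6) (nat_lit 478) (nat_lit 3) (nat_lit 200) (nat_lit 164) (nat_lit 206)) (PT.lf (nat_lit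 36404) (nat_lit 6) (nat_lit 479) (nat_lit 3) (nat_lit 201) (nat_lit 164) (nat_lit 205))) (PT.nd (nat_lit 78) (PT.lf (nat_lit 36480) (nat_lit 6) (nat_lit 480) (nat_lit 3) (nat_lit 202) (nat_lit 164) (nat_lit 204)) (PT.nd (nat_lit 78) (PT.lf (nat_lit 36556) (nat_lit 3) (nat_lit 481) (nat_lit 1) (nat_lit 203) (nat_lit 164) (nat_lit 203)) (PT.lf (nat_lit 36480) (nat_lit 6) (nat_lit 480) (nat_lit 1) (nat_lit 204) (nat_lit 164) (nat_lit 202)))))) (PT.nd (nat_lit 312) (PT.nd (nat_lit 156) (PT.nd (nat_lit 78) (PT.lf (nat_lit 36404) (nat_lit 6) (nat_lit 479) (nat_lit 1) (nat_lit 205) (nat_lit 164) (nat_lit 201)) (PT.lf (nat_lit 36328) (nat_lit 6) (nat_lit 478) (nat_lit 1) (nat_lit 206) (nat_lit 164) (nat_lit 200))) (PT.nd (nat_lit 78) (PT.lf (nat_lit 36252) (nat_lit 6) (nat_lit 477) (nat_lit 1) (nat_lit 207) (nat_lit 164) (nat_lit 199)) (PT.lf (nat_lit 36176) (nat_lit 6) (nat_lit 476) (nat_lit 1) (nat_lit 208) (nat_lit 164) (nat_lit 198)))) (PT.nd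 (nat_lit 156) (PT.nd (nat_lit 78) (PT.lf (nat_lit 36100) (nat_lit 6) (nat_lit 475) (nat_lit 1) (nat_lit 209) (nat_lit 164) (nat_lit 197)) (PT.lf (nat_lit 36024) (nat_lit 6) (nat_lit 474) (nat_lit 1) (nat_lit 210) (nat_lit 164) (nat_lit 196))) (PT.nd (nat_lit 78) (PT.lf (nat_lit 35948) (nat_lit 6) (nat_lit 473) (nat_lit 1) (nat_lit 211) (nat_lit 164) (nat_lit 195)) (PT.nd (nat_lit 78) (PT.lf (nat_lit 35872) (nat_lit 6) (nat_lit 472) (nat_lit 1) (nat_lit 212) (nat_lit 164) (nat_lit 194)) (PT.lf (nat_lit 35796) (nat_lit 6) (nat_lit 471) (nat_lit 1) (nat_lit 213) (nat_lit 164) (nat_lit 193))))))))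
noncomputable def pc25 : PT := (PT.nd (nat_lit 58734) (PT.nd (nat_lit 58032) (PT.nd (nat_lit 57642) (PT.nd (nat_lit 57486) (PT.nd (nat_lit 78) (PT.lf (nat_lit 35720) (nat_lit 6) (nat_lit 470) (nat_lit 1) (nat_lit 214) (nat_lit 164) (nat_lit 192)) (PT.lf (nat_lit 35644) (nat_lit 6) (nat_lit 469) (nat_lit 1) (nat_lit 215) (nat_lit 164) (nat_lit 191))) (PT.nd (nat_lit 78) (PT.lf (nat_lit 36784) (nat_lit 6) (nat_lit 484) (nat_lit 3) (nat_lit 190) (nat_lit 165) (nat_lit 215)) (PT.lf (nat_lit 36860) (nat_lit 6) (nat_lit 485) (nat_lit 3) (nat_lit 191) (nat_lit 165) (nat_lit 214)))) (PT.nd (nat_lit 156) (PT.nd (nat_lit 78) (PT.lf (nat_lit 36936) (nat_lit 6) (nat_lit 486) (nat_lit 3) (nat_lit 192) (nat_lit 165) (nat_lit 213)) (PT.lf (nat_lit 37012) (nat_lit 6) (nat_lit 487) (nat_lit 3) (nat_lit 193) (nat_lit 165) (nat_lit 212))) (PT.nd (nat_lit 78) (PT.lf (nat_lit 37088) (nat_lit 6) (nat_lit 488) (nat_lit 3) (nat_lit 194) (nat_lit 165) (nat_lit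 211)) (PT.nd (nat_lit 78) (PT.lf (nat_lit 37164) (nat_lit 6) (nat_lit 489) (nat_lit 3) (nat_lit 195) (nat_lit 165) (nat_lit 210)) (PT.lf (nat_lit 37240) (nat_lit 6) (nat_lit 490) (nat_lit 3) (nat_lit 196) (nat_lit 165) (nat_lit 209)))))) (PT.nd (nat_lit 312) (PT.nd (nat_lit 156) (PT.nd (nat_lit 78) (PT.lf (nat_lit 37316) (nat_lit 6) (nat_lit 491) (nat_lit 3) (nat_lit 197) (nat_lit 165) (nat_lit 208)) (PT.lf (nat_lit 37392) (nat_lit 6) (nat_lit 492) (nat_lit 3) (nat_lit 198) (nat_lit 165) (nat_lit 207))) (PT.nd (nat_lit 78) (PT.lf (nat_lit 37468) (nat_lit 6) (nat_lit 493) (nat_lit 3) (nat_lit 199) (nat_lit 165) (nat_lit 206)) (PT.lf (nat_lit 37544) (nat_lit 6) (nat_lit 494) (nat_lit 3) (nat_lit 200) (nat_lit 165) (nat_lit 205)))) (PT.nd (nat_lit 156) (PT.nd (nat_lit 78) (PT.lf (nat_lit 37620) (nat_lit 6) (nat_lit 495) (nat_lit 3) (nat_lit 201) (nat_lit 165) (nat_lit 204)) (PT.lf (nat_lit 37696) (nat_lit 6) (nat_lit 496) (nat_lit 3) (nat_lit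 202) (nat_lit 165) (nat_lit 203))) (PT.nd (nat_lit 78) (PT.lf (nat_lit 37696) (nat_lit 6) (nat_lit 496) (nat_lit 1) (nat_lit 203) (nat_lit 165) (nat_lit 202)) (PT.nd (nat_lit 78) (PT.lf (nat_lit 37620) (nat_lit 6) (nat_lit 495) (nat_lit 1) (nat_lit 204) (nat_lit 165) (nat_lit 201)) (PT.lf (nat_lit 37544) (nat_lit 6) (nat_lit 494) (nat_lit 1) (nat_lit 205) (nat_lit 165) (nat_lit 200))))))) (PT.nd (nat_lit 702) (PT.nd (nat_lit 312) (PT.nd (nat_lit 156) (PT.nd (nat_lit 78) (PT.lf (nat_lit 37468) (nat_lit 6) (nat_lit 493) (nat_lit 1) (nat_lit 206) (nat_lit 165) (nat_lit 199)) (PT.lf (nat_lit 37392) (nat_lit 6) (nat_lit 492) (nat_lit 1) (nat_lit 207) (nat_lit 165) (nat_lit 198))) (PT.nd (nat_lit 78) (PT.lf (nat_lit 37316) (nat_lit 6) (nat_lit 491) (nat_lit 1) (nat_lit 208) (nat_lit 165) (nat_lit 197)) (PT.lf (nat_lit 37240) (nat_lit 6) (nat_lit 490) (nat_lit 1) (nat_lit 209) (nat_lit 165) (nat_lit 196)))) (PT.nd (nat_lit 156) (PT.nd (nat_lit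 78) (PT.lf (nat_lit 37164) (nat_lit 6) (nat_lit 489) (nat_lit 1) (nat_lit 210) (nat_lit 165) (nat_lit 195)) (PT.lf (nat_lit 37088) (nat_lit 6) (nat_lit 488) (nat_lit 1) (nat_lit 211) (nat_lit 165) (nat_lit 194))) (PT.nd (nat_lit 78) (PT.lf (nat_lit 37012) (nat_lit 6) (nat_lit 487) (nat_lit 1) (nat_lit 212) (nat_lit 165) (nat_lit 193)) (PT.nd (nat_lit 78) (PT.lf (nat_lit 36936) (nat_lit 6) (nat_lit 486) (nat_lit 1) (nat_lit 213) (nat_lit 165) (nat_lit 192)) (PT.lf (nat_lit 36860) (nat_lit 6) (nat_lit 485) (nat_lit 1) (nat_lit 214) (nat_lit 165) (nat_lit 191)))))) (PT.nd (nat_lit 57564) (PT.nd (nat_lit 57408) (PT.nd (nat_lit 57330) (PT.lf (nat_lit 36784) (nat_lit 6) (nat_lit 484) (nat_lit 1) (nat_lit 215) (nat_lit 165) (nat_lit 190)) (PT.lf (nat_lit 36708) (nat_lit 6) (nat_lit 483) (nat_lit 3) (nat_lit 189) (nat_lit 166) (nat_lit 215))) (PT.nd (nat_lit 78) (PT.lf (nat_lit 38684) (nat_lit 6) (nat_lit 509) (nat_lit 3) (nat_lit 190) (nat_lit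 166) (nat_lit 214)) (PT.lf (nat_lit 38760) (nat_lit 6) (nat_lit 510) (nat_lit 3) (nat_lit 191) (nat_lit 166) (nat_lit 213)))) (PT.nd (nat_lit 156) (PT.nd (nat_lit 78) (PT.lf (nat_lit 38836) (nat_lit 6) (nat_lit 511) (nat_lit 3) (nat_lit 192) (nat_lit 166) (nat_lit 212)) (PT.lf (nat_lit 38912) (nat_lit 6) (nat_lit 512) (nat_lit 3) (nat_lit 193) (nat_lit 166) (nat_lit 211))) (PT.nd (nat_lit 78) (PT.lf (nat_lit 38988) (nat_lit 6) (nat_lit 513) (nat_lit 3) (nat_lit 194) (nat_lit 166) (nat_lit 210)) (PT.nd (nat_lit 78) (PT.lf (nat_lit 39064) (nat_lit 6) (nat_lit 514) (nat_lit 3) (nat_lit 195) (nat_lit 166) (nat_lit 209)) (PT.lf (nat_lit 39140) (nat_lit 6) (nat_lit 515) (nat_lit 3) (nat_lit 196) (nat_lit 166) (nat_lit 208))))))))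
noncomputable def pc26 : PT := (PT.nd (nat_lit 1404) (PT.nd (nat_lit 702) (PT.nd (nat_lit 312) (PT.nd (nat_lit 156) (PT.nd (nat_lit 78) (PT.lf (nat_lit 39216) (nat_lit 6) (nat_lit 516) (nat_lit 3) (nat_lit 197) (nat_lit 166) (nat_lit 207)) (PT.lf (nat_lit 39292) (nat_lit 6) (nat_lit 517) (nat_lit 3) (nat_lit 198) (nat_lit 166) (nat_lit 206))) (PT.nd (nat_lit 78) (PT.lf (nat_lit 39368) (nat_lit 6) (nat_lit 518) (nat_lit 3) (nat_lit 199) (nat_lit 166) (nat_lit 205)) (PT.lf (nat_lit 39444) (nat_lit 6) (nat_lit 519) (nat_lit 3) (nat_lit 200) (nat_lit 166) (nat_lit 204)))) (PT.nd (nat_lit 156) (PT.nd (nat_lit 78) (PT.lf (nat_lit 39520) (nat_lit 6) (nat_lit 520) (nat_lit 3) (nat_lit 201) (nat_lit 166) (nat_lit 203)) (PT.lf (nat_lit 39596) (nat_lit 3) (nat_lit 521) (nat_lit 1) (nat_lit 202) (nat_lit 166) (nat_lit 202))) (PT.nd (nat_lit 78) (PT.lf (nat_lit 39520) (nat_lit 6) (nat_lit 520) (nat_lit 1) (nat_lit 203) (nat_lit 166) (nat_lit 201))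 (PT.nd (nat_lit 78) (PT.lf (nat_lit 39444) (nat_lit 6) (nat_lit 519) (nat_lit 1) (nat_lit 204) (nat_lit 166) (nat_lit 200)) (PT.lf (nat_lit 39368) (nat_lit 6) (nat_lit 518) (nat_lit 1) (nat_lit 205) (nat_lit 166) (nat_lit 199)))))) (PT.nd (nat_lit 312) (PT.nd (nat_lit 156) (PT.nd (nat_lit 78) (PT.lf (nat_lit 39292) (nat_lit 6) (nat_lit 517) (nat_lit 1) (nat_lit 206) (nat_lit 166) (nat_lit 198)) (PT.lf (nat_lit 39216) (nat_lit 6) (nat_lit 516) (nat_lit 1) (nat_lit 207) (nat_lit 166) (nat_lit 197))) (PT.nd (nat_lit 78) (PT.lf (nat_lit 39140) (nat_lit 6) (nat_lit 515) (nat_lit 1) (nat_lit 208) (nat_lit 166) (nat_lit 196)) (PT.lf (nat_lit 39064) (nat_lit 6) (nat_lit 514) (nat_lit 1) (nat_lit 209) (nat_lit 166) (nat_lit 195)))) (PT.nd (nat_lit 156) (PT.nd (nat_lit 78) (PT.lf (nat_lit 38988) (nat_lit 6) (nat_lit 513) (nat_lit 1) (nat_lit 210) (nat_lit 166) (nat_lit 194)) (PT.lf (nat_lit 38912) (nat_lit 6) (nat_lit 512) (nat_lit 1) (nat_lit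 211) (nat_lit 166) (nat_lit 193))) (PT.nd (nat_lit 78) (PT.lf (nat_lit 38836) (nat_lit 6) (nat_lit 511) (nat_lit 1) (nat_lit 212) (nat_lit 166) (nat_lit 192)) (PT.nd (nat_lit 78) (PT.lf (nat_lit 38760) (nat_lit 6) (nat_lit 510) (nat_lit 1) (nat_lit 213) (nat_lit 166) (nat_lit 191)) (PT.lf (nat_lit 38684) (nat_lit 6) (nat_lit 509) (nat_lit 1) (nat_lit 214) (nat_lit 166) (nat_lit 190))))))) (PT.nd (nat_lit 57876) (PT.nd (nat_lit 57486) (PT.nd (nat_lit 57330) (PT.nd (nat_lit 57252) (PT.lf (nat_lit 36708) (nat_lit 6) (nat_lit 483) (nat_lit 1) (nat_lit 215) (nat_lit 166) (nat_lit 189)) (PT.lf (nat_lit 36632) (nat_lit 6) (nat_lit 482) (nat_lit 3) (nat_lit 188) (nat_lit 167) (nat_lit 215))) (PT.nd (nat_lit 78) (PT.lf (nat_lit 38608) (nat_lit 6) (nat_lit 508) (nat_lit 3) (nat_lit 189) (nat_lit 167) (nat_lit 214)) (PT.lf (nat_lit 40508) (nat_lit 6) (nat_lit 533) (nat_lit 3) (nat_lit 190) (nat_lit 167) (nat_lit 213)))) (PT.nd (nat_lit 156) (PT.nd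 (nat_lit 78) (PT.lf (nat_lit 40584) (nat_lit 6) (nat_lit 534) (nat_lit 3) (nat_lit 191) (nat_lit 167) (nat_lit 212)) (PT.lf (nat_lit 40660) (nat_lit 6) (nat_lit 535) (nat_lit 3) (nat_lit 192) (nat_lit 167) (nat_lit 211))) (PT.nd (nat_lit 78) (PT.lf (nat_lit 40736) (nat_lit 6) (nat_lit 536) (nat_lit 3) (nat_lit 193) (nat_lit 167) (nat_lit 210)) (PT.nd (nat_lit 78) (PT.lf (nat_lit 40812) (nat_lit 6) (nat_lit 537) (nat_lit 3) (nat_lit 194) (nat_lit 167) (nat_lit 209)) (PT.lf (nat_lit 40888) (nat_lit 6) (nat_lit 538) (nat_lit 3) (nat_lit 195) (nat_lit 167) (nat_lit 208)))))) (PT.nd (nat_lit 312) (PT.nd (nat_lit 156) (PT.nd (nat_lit 78) (PT.lf (nat_lit 40964) (nat_lit 6) (nat_lit 539) (nat_lit 3) (nat_lit 196) (nat_lit 167) (nat_lit 207)) (PT.lf (nat_lit 41040) (nat_lit 6) (nat_lit 540) (nat_lit 3) (nat_lit 197) (nat_lit 167) (nat_lit 206))) (PT.nd (nat_lit 78) (PT.lf (nat_lit 41116) (nat_lit 6) (nat_lit 541) (nat_lit 3) (nat_lit 198) (nat_lit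 167) (nat_lit 205)) (PT.lf (nat_lit 41192) (nat_lit 6) (nat_lit 542) (nat_lit 3) (nat_lit 199) (nat_lit 167) (nat_lit 204)))) (PT.nd (nat_lit 156) (PT.nd (nat_lit 78) (PT.lf (nat_lit 41268) (nat_lit 6) (nat_lit 543) (nat_lit 3) (nat_lit 200) (nat_lit 167) (nat_lit 203)) (PT.lf (nat_lit 41344) (nat_lit 6) (nat_lit 544) (nat_lit 3) (nat_lit 201) (nat_lit 167) (nat_lit 202))) (PT.nd (nat_lit 78) (PT.lf (nat_lit 41344) (nat_lit 6) (nat_lit 544) (nat_lit 1) (nat_lit 202) (nat_lit 167) (nat_lit 201)) (PT.nd (nat_lit 78) (PT.lf (nat_lit 41268) (nat_lit 6) (nat_lit 543) (nat_lit 1) (nat_lit 203) (nat_lit 167) (nat_lit 200)) (PT.lf (nat_lit 41192) (nat_lit 6) (nat_lit 542) (nat_lit 1) (nat_lit 204) (nat_lit 167) (nat_lit 199))))))))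
noncomputable def pc27 : PT := (PT.nd (nat_lit 58578) (PT.nd (nat_lit 702) (PT.nd (nat_lit 312) (PT.nd (nat_lit 156) (PT.nd (nat_lit 78) (PT.lf (nat_lit 41116) (nat_lit 6) (nat_lit 541) (nat_lit 1) (nat_lit 205) (nat_lit 167) (nat_lit 198)) (PT.lf (nat_lit 41040) (nat_lit 6) (nat_lit 540) (nat_lit 1) (nat_lit 206) (nat_lit 167) (nat_lit 197))) (PT.nd (nat_lit 78) (PT.lf (nat_lit 40964) (nat_lit 6) (nat_lit 539) (nat_lit 1) (nat_lit 207) (nat_lit 167) (nat_lit 196)) (PT.lf (nat_lit 40888) (nat_lit 6) (nat_lit 538) (nat_lit 1) (nat_lit 208) (nat_lit 167) (nat_lit 195)))) (PT.nd (nat_lit 156) (PT.nd (nat_lit 78) (PT.lf (nat_lit 40812) (nat_lit 6) (nat_lit 537) (nat_lit 1) (nat_lit 209) (nat_lit 167) (nat_lit 194)) (PT.lf (nat_lit 40736) (nat_lit 6) (nat_lit 536) (nat_lit 1) (nat_lit 210) (nat_lit 167) (nat_lit 193))) (PT.nd (nat_lit 78) (PT.lf (nat_lit 40660) (nat_lit 6) (nat_lit 535) (nat_lit 1) (nat_lit 211) (nat_lit 167) (nat_lit 192))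 (PT.nd (nat_lit 78) (PT.lf (nat_lit 40584) (nat_lit 6) (nat_lit 534) (nat_lit 1) (nat_lit 212) (nat_lit 167) (nat_lit 191)) (PT.lf (nat_lit 40508) (nat_lit 6) (nat_lit 533) (nat_lit 1) (nat_lit 213) (nat_lit 167) (nat_lit 190)))))) (PT.nd (nat_lit 57486) (PT.nd (nat_lit 57330) (PT.nd (nat_lit 78) (PT.lf (nat_lit 38608) (nat_lit 6) (nat_lit 508) (nat_lit 1) (nat_lit 214) (nat_lit 167) (nat_lit 189)) (PT.lf (nat_lit 36632) (nat_lit 6) (nat_lit 482) (nat_lit 1) (nat_lit 215) (nat_lit 167) (nat_lit 188))) (PT.nd (nat_lit 78) (PT.lf (nat_lit 38532) (nat_lit 6) (nat_lit 507) (nat_lit 3) (nat_lit 188) (nat_lit 168) (nat_lit 214)) (PT.lf (nat_lit 40432) (nat_lit 6) (nat_lit 532) (nat_lit 3) (nat_lit 189) (nat_lit 168) (nat_lit 213)))) (PT.nd (nat_lit 156) (PT.nd (nat_lit 78) (PT.lf (nat_lit 42256) (nat_lit 6) (nat_lit 556) (nat_lit 3) (nat_lit 190) (nat_lit 168) (nat_lit 212)) (PT.lf (nat_lit 42332) (nat_lit 6) (nat_lit 557) (nat_lit 3) (nat_lit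 191) (nat_lit 168) (nat_lit 211))) (PT.nd (nat_lit 78) (PT.lf (nat_lit 42408) (nat_lit 6) (nat_lit 558) (nat_lit 3) (nat_lit 192) (nat_lit 168) (nat_lit 210)) (PT.nd (nat_lit 78) (PT.lf (nat_lit 42484) (nat_lit 6) (nat_lit 559) (nat_lit 3) (nat_lit 193) (nat_lit 168) (nat_lit 209)) (PT.lf (nat_lit 42560) (nat_lit 6) (nat_lit 560) (nat_lit 3) (nat_lit 194) (nat_lit 168) (nat_lit 208))))))) (PT.nd (nat_lit 702) (PT.nd (nat_lit 312) (PT.nd (nat_lit 156) (PT.nd (nat_lit 78) (PT.lf (nat_lit 42636) (nat_lit 6) (nat_lit 561) (nat_lit 3) (nat_lit 195) (nat_lit 168) (nat_lit 207)) (PT.lf (nat_lit 42712) (nat_lit 6) (nat_lit 562) (nat_lit 3) (nat_lit 196) (nat_lit 168) (nat_lit 206))) (PT.nd (nat_lit 78) (PT.lf (nat_lit 42788) (nat_lit 6) (nat_lit 563) (nat_lit 3) (nat_lit 197) (nat_lit 168) (nat_lit 205)) (PT.lf (nat_lit 42864) (nat_lit 6) (nat_lit 564) (nat_lit 3) (nat_lit 198) (nat_lit 168) (nat_lit 204)))) (PT.nd (nat_lit 156) (PT.nd (nat_lit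 78) (PT.lf (nat_lit 42940) (nat_lit 6) (nat_lit 565) (nat_lit 3) (nat_lit 199) (nat_lit 168) (nat_lit 203)) (PT.lf (nat_lit 43016) (nat_lit 6) (nat_lit 566) (nat_lit 3) (nat_lit 200) (nat_lit 168) (nat_lit 202))) (PT.nd (nat_lit 78) (PT.lf (nat_lit 43092) (nat_lit 3) (nat_lit 567) (nat_lit 1) (nat_lit 201) (nat_lit 168) (nat_lit 201)) (PT.nd (nat_lit 78) (PT.lf (nat_lit 43016) (nat_lit 6) (nat_lit 566) (nat_lit 1) (nat_lit 202) (nat_lit 168) (nat_lit 200)) (PT.lf (nat_lit 42940) (nat_lit 6) (nat_lit 565) (nat_lit 1) (nat_lit 203) (nat_lit 168) (nat_lit 199)))))) (PT.nd (nat_lit 312) (PT.nd (nat_lit 156) (PT.nd (nat_lit 78) (PT.lf (nat_lit 42864) (nat_lit 6) (nat_lit 564) (nat_lit 1) (nat_lit 204) (nat_lit 168) (nat_lit 198)) (PT.lf (nat_lit 42788) (nat_lit 6) (nat_lit 563) (nat_lit 1) (nat_lit 205) (nat_lit 168) (nat_lit 197))) (PT.nd (nat_lit 78) (PT.lf (nat_lit 42712) (nat_lit 6) (nat_lit 562) (nat_lit 1) (nat_lit 206) (nat_lit 168)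 (nat_lit 196)) (PT.lf (nat_lit 42636) (nat_lit 6) (nat_lit 561) (nat_lit 1) (nat_lit 207) (nat_lit 168) (nat_lit 195)))) (PT.nd (nat_lit 156) (PT.nd (nat_lit 78) (PT.lf (nat_lit 42560) (nat_lit 6) (nat_lit 560) (nat_lit 1) (nat_lit 208) (nat_lit 168) (nat_lit 194)) (PT.lf (nat_lit 42484) (nat_lit 6) (nat_lit 559) (nat_lit 1) (nat_lit 209) (nat_lit 168) (nat_lit 193))) (PT.nd (nat_lit 78) (PT.lf (nat_lit 42408) (nat_lit 6) (nat_lit 558) (nat_lit 1) (nat_lit 210) (nat_lit 168) (nat_lit 192)) (PT.nd (nat_lit 78) (PT.lf (nat_lit 42332) (nat_lit 6) (nat_lit 557) (nat_lit 1) (nat_lit 211) (nat_lit 168) (nat_lit 191)) (PT.lf (nat_lit 42256) (nat_lit 6) (nat_lit 556) (nat_lit 1) (nat_lit 212) (nat_lit 168) (nat_lit 190))))))))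
noncomputable def pc28 : PT := (PT.nd (nat_lit 58500) (PT.nd (nat_lit 57798) (PT.nd (nat_lit 57486) (PT.nd (nat_lit 57330) (PT.nd (nat_lit 78) (PT.lf (nat_lit 40432) (nat_lit 6) (nat_lit 532) (nat_lit 1) (nat_lit 213) (nat_lit 168) (nat_lit 189)) (PT.lf (nat_lit 38532) (nat_lit 6) (nat_lit 507) (nat_lit 1) (nat_lit 214) (nat_lit 168) (nat_lit 188))) (PT.nd (nat_lit 78) (PT.lf (nat_lit 38456) (nat_lit 6) (nat_lit 506) (nat_lit 3) (nat_lit 187) (nat_lit 169) (nat_lit 214)) (PT.lf (nat_lit 40356) (nat_lit 6) (nat_lit 531) (nat_lit 3) (nat_lit 188) (nat_lit 169) (nat_lit 213)))) (PT.nd (nat_lit 156) (PT.nd (nat_lit 78) (PT.lf (nat_lit 42180) (nat_lit 6) (nat_lit 555) (nat_lit 3) (nat_lit 189) (nat_lit 169) (nat_lit 212)) (PT.lf (nat_lit 43928) (nat_lit 6) (nat_lit 578) (nat_lit 3) (nat_lit 190) (nat_lit 169) (nat_lit 211))) (PT.nd (nat_lit 78) (PT.lf (nat_lit 44004) (nat_lit 6) (nat_lit 579) (nat_lit 3) (nat_lit 191) (nat_lit 169) (nat_lit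 210)) (PT.lf (nat_lit 44080) (nat_lit 6) (nat_lit 580) (nat_lit 3) (nat_lit 192) (nat_lit 169) (nat_lit 209))))) (PT.nd (nat_lit 312) (PT.nd (nat_lit 156) (PT.nd (nat_lit 78) (PT.lf (nat_lit 44156) (nat_lit 6) (nat_lit 581) (nat_lit 3) (nat_lit 193) (nat_lit 169) (nat_lit 208)) (PT.lf (nat_lit 44232) (nat_lit 6) (nat_lit 582) (nat_lit 3) (nat_lit 194) (nat_lit 169) (nat_lit 207))) (PT.nd (nat_lit 78) (PT.lf (nat_lit 44308) (nat_lit 6) (nat_lit 583) (nat_lit 3) (nat_lit 195) (nat_lit 169) (nat_lit 206)) (PT.lf (nat_lit 44384) (nat_lit 6) (nat_lit 584) (nat_lit 3) (nat_lit 196) (nat_lit 169) (nat_lit 205)))) (PT.nd (nat_lit 156) (PT.nd (nat_lit 78) (PT.lf (nat_lit 44460) (nat_lit 6) (nat_lit 585) (nat_lit 3) (nat_lit 197) (nat_lit 169) (nat_lit 204)) (PT.lf (nat_lit 44536) (nat_lit 6) (nat_lit 586) (nat_lit 3) (nat_lit 198) (nat_lit 169) (nat_lit 203))) (PT.nd (nat_lit 78) (PT.lf (nat_lit 44612) (nat_lit 6) (nat_lit 587) (nat_lit 3) (nat_lit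 199) (nat_lit 169) (nat_lit 202)) (PT.nd (nat_lit 78) (PT.lf (nat_lit 44688) (nat_lit 6) (nat_lit 588) (nat_lit 3) (nat_lit 200) (nat_lit 169) (nat_lit 201)) (PT.lf (nat_lit 44688) (nat_lit 6) (nat_lit 588) (nat_lit 1) (nat_lit 201) (nat_lit 169) (nat_lit 200))))))) (PT.nd (nat_lit 702) (PT.nd (nat_lit 312) (PT.nd (nat_lit 156) (PT.nd (nat_lit 78) (PT.lf (nat_lit 44612) (nat_lit 6) (nat_lit 587) (nat_lit 1) (nat_lit 202) (nat_lit 169) (nat_lit 199)) (PT.lf (nat_lit 44536) (nat_lit 6) (nat_lit 586) (nat_lit 1) (nat_lit 203) (nat_lit 169) (nat_lit 198))) (PT.nd (nat_lit 78) (PT.lf (nat_lit 44460) (nat_lit 6) (nat_lit 585) (nat_lit 1) (nat_lit 204) (nat_lit 169) (nat_lit 197)) (PT.lf (nat_lit 44384) (nat_lit 6) (nat_lit 584) (nat_lit 1) (nat_lit 205) (nat_lit 169) (nat_lit 196)))) (PT.nd (nat_lit 156) (PT.nd (nat_lit 78) (PT.lf (nat_lit 44308) (nat_lit 6) (nat_lit 583) (nat_lit 1) (nat_lit 206) (nat_lit 169) (nat_lit 195)) (PT.lf (nat_lit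 44232) (nat_lit 6) (nat_lit 582) (nat_lit 1) (nat_lit 207) (nat_lit 169) (nat_lit 194))) (PT.nd (nat_lit 78) (PT.lf (nat_lit 44156) (nat_lit 6) (nat_lit 581) (nat_lit 1) (nat_lit 208) (nat_lit 169) (nat_lit 193)) (PT.nd (nat_lit 78) (PT.lf (nat_lit 44080) (nat_lit 6) (nat_lit 580) (nat_lit 1) (nat_lit 209) (nat_lit 169) (nat_lit 192)) (PT.lf (nat_lit 44004) (nat_lit 6) (nat_lit 579) (nat_lit 1) (nat_lit 210) (nat_lit 169) (nat_lit 191)))))) (PT.nd (nat_lit 57408) (PT.nd (nat_lit 156) (PT.nd (nat_lit 78) (PT.lf (nat_lit 43928) (nat_lit 6) (nat_lit 578) (nat_lit 1) (nat_lit 211) (nat_lit 169) (nat_lit 190)) (PT.lf (nat_lit 42180) (nat_lit 6) (nat_lit 555) (nat_lit 1) (nat_lit 212) (nat_lit 169) (nat_lit 189))) (PT.nd (nat_lit 78) (PT.lf (nat_lit 40356) (nat_lit 6) (nat_lit 531) (nat_lit 1) (nat_lit 213) (nat_lit 169) (nat_lit 188)) (PT.lf (nat_lit 38456) (nat_lit 6) (nat_lit 506) (nat_lit 1) (nat_lit 214) (nat_lit 169) (nat_lit 187))))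 (PT.nd (nat_lit 156) (PT.nd (nat_lit 78) (PT.lf (nat_lit 38380) (nat_lit 6) (nat_lit 505) (nat_lit 3) (nat_lit 186) (nat_lit 170) (nat_lit 214)) (PT.lf (nat_lit 40280) (nat_lit 6) (nat_lit 530) (nat_lit 3) (nat_lit 187) (nat_lit 170) (nat_lit 213))) (PT.nd (nat_lit 78) (PT.lf (nat_lit 42104) (nat_lit 6) (nat_lit 554) (nat_lit 3) (nat_lit 188) (nat_lit 170) (nat_lit 212)) (PT.nd (nat_lit 78) (PT.lf (nat_lit 43852) (nat_lit 6) (nat_lit 577) (nat_lit 3) (nat_lit 189) (nat_lit 170) (nat_lit 211)) (PT.lf (nat_lit 45524) (nat_lit 6) (nat_lit 599) (nat_lit 3) (nat_lit 190) (nat_lit 170) (nat_lit 210))))))))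
noncomputable def pc29 : PT := (PT.nd (nat_lit 1404) (PT.nd (nat_lit 702) (PT.nd (nat_lit 312) (PT.nd (nat_lit 156) (PT.nd (nat_lit 78) (PT.lf (nat_lit 45600) (nat_lit 6) (nat_lit 600) (nat_lit 3) (nat_lit 191) (nat_lit 170) (nat_lit 209)) (PT.lf (nat_lit 45676) (nat_lit 6) (nat_lit 601) (nat_lit 3) (nat_lit 192) (nat_lit 170) (nat_lit 208))) (PT.nd (nat_lit 78) (PT.lf (nat_lit 45752) (nat_lit 6) (nat_lit 602) (nat_lit 3) (nat_lit 193) (nat_lit 170) (nat_lit 207)) (PT.lf (nat_lit 45828) (nat_lit 6) (nat_lit 603) (nat_lit 3) (nat_lit 194) (nat_lit 170) (nat_lit 206)))) (PT.nd (nat_lit 156) (PT.nd (nat_lit 78) (PT.lf (nat_lit 45904) (nat_lit 6) (nat_lit 604) (nat_lit 3) (nat_lit 195) (nat_lit 170) (nat_lit 205)) (PT.lf (nat_lit 45980) (nat_lit 6) (nat_lit 605) (nat_lit 3) (nat_lit 196) (nat_lit 170) (nat_lit 204))) (PT.nd (nat_lit 78) (PT.lf (nat_lit 46056) (nat_lit 6) (nat_lit 606) (nat_lit 3) (nat_lit 197) (nat_lit 170) (nat_lit 203))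 (PT.nd (nat_lit 78) (PT.lf (nat_lit 46132) (nat_lit 6) (nat_lit 607) (nat_lit 3) (nat_lit 198) (nat_lit 170) (nat_lit 202)) (PT.lf (nat_lit 46208) (nat_lit 6) (nat_lit 608) (nat_lit 3) (nat_lit 199) (nat_lit 170) (nat_lit 201)))))) (PT.nd (nat_lit 312) (PT.nd (nat_lit 156) (PT.nd (nat_lit 78) (PT.lf (nat_lit 46284) (nat_lit 3) (nat_lit 609) (nat_lit 1) (nat_lit 200) (nat_lit 170) (nat_lit 200)) (PT.lf (nat_lit 46208) (nat_lit 6) (nat_lit 608) (nat_lit 1) (nat_lit 201) (nat_lit 170) (nat_lit 199))) (PT.nd (nat_lit 78) (PT.lf (nat_lit 46132) (nat_lit 6) (nat_lit 607) (nat_lit 1) (nat_lit 202) (nat_lit 170) (nat_lit 198)) (PT.lf (nat_lit 46056) (nat_lit 6) (nat_lit 606) (nat_lit 1) (nat_lit 203) (nat_lit 170) (nat_lit 197)))) (PT.nd (nat_lit 156) (PT.nd (nat_lit 78) (PT.lf (nat_lit 45980) (nat_lit 6) (nat_lit 605) (nat_lit 1) (nat_lit 204) (nat_lit 170) (nat_lit 196)) (PT.lf (nat_lit 45904) (nat_lit 6) (nat_lit 604) (nat_lit 1) (nat_lit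 205) (nat_lit 170) (nat_lit 195))) (PT.nd (nat_lit 78) (PT.lf (nat_lit 45828) (nat_lit 6) (nat_lit 603) (nat_lit 1) (nat_lit 206) (nat_lit 170) (nat_lit 194)) (PT.nd (nat_lit 78) (PT.lf (nat_lit 45752) (nat_lit 6) (nat_lit 602) (nat_lit 1) (nat_lit 207) (nat_lit 170) (nat_lit 193)) (PT.lf (nat_lit 45676) (nat_lit 6) (nat_lit 601) (nat_lit 1) (nat_lit 208) (nat_lit 170) (nat_lit 192))))))) (PT.nd (nat_lit 57720) (PT.nd (nat_lit 312) (PT.nd (nat_lit 156) (PT.nd (nat_lit 78) (PT.lf (nat_lit 45600) (nat_lit 6) (nat_lit 600) (nat_lit 1) (nat_lit 209) (nat_lit 170) (nat_lit 191)) (PT.lf (nat_lit 45524) (nat_lit 6) (nat_lit 599) (nat_lit 1) (nat_lit 210) (nat_lit 170) (nat_lit 190))) (PT.nd (nat_lit 78) (PT.lf (nat_lit 43852) (nat_lit 6) (nat_lit 577) (nat_lit 1) (nat_lit 211) (nat_lit 170) (nat_lit 189)) (PT.lf (nat_lit 42104) (nat_lit 6) (nat_lit 554) (nat_lit 1) (nat_lit 212) (nat_lit 170) (nat_lit 188)))) (PT.nd (nat_lit 57174) (PT.nd (nat_lit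 78) (PT.lf (nat_lit 40280) (nat_lit 6) (nat_lit 530) (nat_lit 1) (nat_lit 213) (nat_lit 170) (nat_lit 187)) (PT.lf (nat_lit 38380) (nat_lit 6) (nat_lit 505) (nat_lit 1) (nat_lit 214) (nat_lit 170) (nat_lit 186))) (PT.nd (nat_lit 78) (PT.lf (nat_lit 38304) (nat_lit 6) (nat_lit 504) (nat_lit 3) (nat_lit 185) (nat_lit 171) (nat_lit 214)) (PT.nd (nat_lit 78) (PT.lf (nat_lit 40204) (nat_lit 6) (nat_lit 529) (nat_lit 3) (nat_lit 186) (nat_lit 171) (nat_lit 213)) (PT.lf (nat_lit 42028) (nat_lit 6) (nat_lit 553) (nat_lit 3) (nat_lit 187) (nat_lit 171) (nat_lit 212)))))) (PT.nd (nat_lit 312) (PT.nd (nat_lit 156) (PT.nd (nat_lit 78) (PT.lf (nat_lit 43776) (nat_lit 6) (nat_lit 576) (nat_lit 3) (nat_lit 188) (nat_lit 171) (nat_lit 211)) (PT.lf (nat_lit 45448) (nat_lit 6) (nat_lit 598) (nat_lit 3) (nat_lit 189) (nat_lit 171) (nat_lit 210))) (PT.nd (nat_lit 78) (PT.lf (nat_lit 47044) (nat_lit 6) (nat_lit 619) (nat_lit 3) (nat_lit 190) (nat_lit 171)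 (nat_lit 209)) (PT.lf (nat_lit 47120) (nat_lit 6) (nat_lit 620) (nat_lit 3) (nat_lit 191) (nat_lit 171) (nat_lit 208)))) (PT.nd (nat_lit 156) (PT.nd (nat_lit 78) (PT.lf (nat_lit 47196) (nat_lit 6) (nat_lit 621) (nat_lit 3) (nat_lit 192) (nat_lit 171) (nat_lit 207)) (PT.lf (nat_lit 47272) (nat_lit 6) (nat_lit 622) (nat_lit 3) (nat_lit 193) (nat_lit 171) (nat_lit 206))) (PT.nd (nat_lit 78) (PT.lf (nat_lit 47348) (nat_lit 6) (nat_lit 623) (nat_lit 3) (nat_lit 194) (nat_lit 171) (nat_lit 205)) (PT.nd (nat_lit 78) (PT.lf (nat_lit 47424) (nat_lit 6) (nat_lit 624) (nat_lit 3) (nat_lit 195) (nat_lit 171) (nat_lit 204)) (PT.lf (nat_lit 47500) (nat_lit 6) (nat_lit 625) (nat_lit 3) (nat_lit 196) (nat_lit 171) (nat_lit 203))))))))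
noncomputable def pc30 : PT := (PT.nd (nat_lit 58344) (PT.nd (nat_lit 702) (PT.nd (nat_lit 312) (PT.nd (nat_lit 156) (PT.nd (nat_lit 78) (PT.lf (nat_lit 47576) (nat_lit 6) (nat_lit 626) (nat_lit 3) (nat_lit 197) (nat_lit 171) (nat_lit 202)) (PT.lf (nat_lit 47652) (nat_lit 6) (nat_lit 627) (nat_lit 3) (nat_lit 198) (nat_lit 171) (nat_lit 201))) (PT.nd (nat_lit 78) (PT.lf (nat_lit 47728) (nat_lit 6) (nat_lit 628) (nat_lit 3) (nat_lit 199) (nat_lit 171) (nat_lit 200)) (PT.lf (nat_lit 47728) (nat_lit 6) (nat_lit 628) (nat_lit 1) (nat_lit 200) (nat_lit 171) (nat_lit 199)))) (PT.nd (nat_lit 156) (PT.nd (nat_lit 78) (PT.lf (nat_lit 47652) (nat_lit 6) (nat_lit 627) (nat_lit 1) (nat_lit 201) (nat_lit 171) (nat_lit 198)) (PT.lf (nat_lit 47576) (nat_lit 6) (nat_lit 626) (nat_lit 1) (nat_lit 202) (nat_lit 171) (nat_lit 197))) (PT.nd (nat_lit 78) (PT.lf (nat_lit 47500) (nat_lit 6) (nat_lit 625) (nat_lit 1) (nat_lit 203) (nat_lit 171) (nat_lit 196))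 (PT.nd (nat_lit 78) (PT.lf (nat_lit 47424) (nat_lit 6) (nat_lit 624) (nat_lit 1) (nat_lit 204) (nat_lit 171) (nat_lit 195)) (PT.lf (nat_lit 47348) (nat_lit 6) (nat_lit 623) (nat_lit 1) (nat_lit 205) (nat_lit 171) (nat_lit 194)))))) (PT.nd (nat_lit 312) (PT.nd (nat_lit 156) (PT.nd (nat_lit 78) (PT.lf (nat_lit 47272) (nat_lit 6) (nat_lit 622) (nat_lit 1) (nat_lit 206) (nat_lit 171) (nat_lit 193)) (PT.lf (nat_lit 47196) (nat_lit 6) (nat_lit 621) (nat_lit 1) (nat_lit 207) (nat_lit 171) (nat_lit 192))) (PT.nd (nat_lit 78) (PT.lf (nat_lit 47120) (nat_lit 6) (nat_lit 620) (nat_lit 1) (nat_lit 208) (nat_lit 171) (nat_lit 191)) (PT.lf (nat_lit 47044) (nat_lit 6) (nat_lit 619) (nat_lit 1) (nat_lit 209) (nat_lit 171) (nat_lit 190)))) (PT.nd (nat_lit 156) (PT.nd (nat_lit 78) (PT.lf (nat_lit 45448) (nat_lit 6) (nat_lit 598) (nat_lit 1) (nat_lit 210) (nat_lit 171) (nat_lit 189)) (PT.lf (nat_lit 43776) (nat_lit 6) (nat_lit 576) (nat_lit 1) (nat_lit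 211) (nat_lit 171) (nat_lit 188))) (PT.nd (nat_lit 78) (PT.lf (nat_lit 42028) (nat_lit 6) (nat_lit 553) (nat_lit 1) (nat_lit 212) (nat_lit 171) (nat_lit 187)) (PT.nd (nat_lit 78) (PT.lf (nat_lit 40204) (nat_lit 6) (nat_lit 529) (nat_lit 1) (nat_lit 213) (nat_lit 171) (nat_lit 186)) (PT.lf (nat_lit 38304) (nat_lit 6) (nat_lit 504) (nat_lit 1) (nat_lit 214) (nat_lit 171) (nat_lit 185))))))) (PT.nd (nat_lit 702) (PT.nd (nat_lit 312) (PT.nd (nat_lit 156) (PT.nd (nat_lit 78) (PT.lf (nat_lit 38228) (nat_lit 6) (nat_lit 503) (nat_lit 3) (nat_lit 184) (nat_lit 172) (nat_lit 214)) (PT.lf (nat_lit 40128) (nat_lit 6) (nat_lit 528) (nat_lit 3) (nat_lit 185) (nat_lit 172) (nat_lit 213))) (PT.nd (nat_lit 78) (PT.lf (nat_lit 41952) (nat_lit 6) (nat_lit 552) (nat_lit 3) (nat_lit 186) (nat_lit 172) (nat_lit 212)) (PT.lf (nat_lit 43700) (nat_lit 6) (nat_lit 575) (nat_lit 3) (nat_lit 187) (nat_lit 172) (nat_lit 211)))) (PT.nd (nat_lit 156) (PT.nd (nat_lit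 78) (PT.lf (nat_lit 45372) (nat_lit 6) (nat_lit 597) (nat_lit 3) (nat_lit 188) (nat_lit 172) (nat_lit 210)) (PT.lf (nat_lit 46968) (nat_lit 6) (nat_lit 618) (nat_lit 3) (nat_lit 189) (nat_lit 172) (nat_lit 209))) (PT.nd (nat_lit 78) (PT.lf (nat_lit 48488) (nat_lit 6) (nat_lit 638) (nat_lit 3) (nat_lit 190) (nat_lit 172) (nat_lit 208)) (PT.nd (nat_lit 78) (PT.lf (nat_lit 48564) (nat_lit 6) (nat_lit 639) (nat_lit 3) (nat_lit 191) (nat_lit 172) (nat_lit 207)) (PT.lf (nat_lit 48640) (nat_lit 6) (nat_lit 640) (nat_lit 3) (nat_lit 192) (nat_lit 172) (nat_lit 206)))))) (PT.nd (nat_lit 312) (PT.nd (nat_lit 156) (PT.nd (nat_lit 78) (PT.lf (nat_lit 48716) (nat_lit 6) (nat_lit 641) (nat_lit 3) (nat_lit 193) (nat_lit 172) (nat_lit 205)) (PT.lf (nat_lit 48792) (nat_lit 6) (nat_lit 642) (nat_lit 3) (nat_lit 194) (nat_lit 172) (nat_lit 204))) (PT.nd (nat_lit 78) (PT.lf (nat_lit 48868) (nat_lit 6) (nat_lit 643) (nat_lit 3) (nat_lit 195) (nat_lit 172)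 (nat_lit 203)) (PT.lf (nat_lit 48944) (nat_lit 6) (nat_lit 644) (nat_lit 3) (nat_lit 196) (nat_lit 172) (nat_lit 202)))) (PT.nd (nat_lit 156) (PT.nd (nat_lit 78) (PT.lf (nat_lit 49020) (nat_lit 6) (nat_lit 645) (nat_lit 3) (nat_lit 197) (nat_lit 172) (nat_lit 201)) (PT.lf (nat_lit 49096) (nat_lit 6) (nat_lit 646) (nat_lit 3) (nat_lit 198) (nat_lit 172) (nat_lit 200))) (PT.nd (nat_lit 78) (PT.lf (nat_lit 49172) (nat_lit 3) (nat_lit 647) (nat_lit 1) (nat_lit 199) (nat_lit 172) (nat_lit 199)) (PT.nd (nat_lit 78) (PT.lf (nat_lit 49096) (nat_lit 6) (nat_lit 646) (nat_lit 1) (nat_lit 200) (nat_lit 172) (nat_lit 198)) (PT.lf (nat_lit 49020) (nat_lit 6) (nat_lit 645) (nat_lit 1) (nat_lit 201) (nat_lit 172) (nat_lit 197))))))))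
noncomputable def pc31 : PT := (PT.nd (nat_lit 58266) (PT.nd (nat_lit 702) (PT.nd (nat_lit 312) (PT.nd (nat_lit 156) (PT.nd (nat_lit 78) (PT.lf (nat_lit 48944) (nat_lit 6) (nat_lit 644) (nat_lit 1) (nat_lit 202) (nat_lit 172) (nat_lit 196)) (PT.lf (nat_lit 48868) (nat_lit 6) (nat_lit 643) (nat_lit 1) (nat_lit 203) (nat_lit 172) (nat_lit 195))) (PT.nd (nat_lit 78) (PT.lf (nat_lit 48792) (nat_lit 6) (nat_lit 642) (nat_lit 1) (nat_lit 204) (nat_lit 172) (nat_lit 194)) (PT.lf (nat_lit 48716) (nat_lit 6) (nat_lit 641) (nat_lit 1) (nat_lit 205) (nat_lit 172) (nat_lit 193)))) (PT.nd (nat_lit 156) (PT.nd (nat_lit 78) (PT.lf (nat_lit 48640) (nat_lit 6) (nat_lit 640) (nat_lit 1) (nat_lit 206) (nat_lit 172) (nat_lit 192)) (PT.lf (nat_lit 48564) (nat_lit 6) (nat_lit 639) (nat_lit 1) (nat_lit 207) (nat_lit 172) (nat_lit 191))) (PT.nd (nat_lit 78) (PT.lf (nat_lit 48488) (nat_lit 6) (nat_lit 638) (nat_lit 1) (nat_lit 208) (nat_lit 172) (nat_lit 190))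 (PT.nd (nat_lit 78) (PT.lf (nat_lit 46968) (nat_lit 6) (nat_lit 618) (nat_lit 1) (nat_lit 209) (nat_lit 172) (nat_lit 189)) (PT.lf (nat_lit 45372) (nat_lit 6) (nat_lit 597) (nat_lit 1) (nat_lit 210) (nat_lit 172) (nat_lit 188)))))) (PT.nd (nat_lit 57174) (PT.nd (nat_lit 156) (PT.nd (nat_lit 78) (PT.lf (nat_lit 43700) (nat_lit 6) (nat_lit 575) (nat_lit 1) (nat_lit 211) (nat_lit 172) (nat_lit 187)) (PT.lf (nat_lit 41952) (nat_lit 6) (nat_lit 552) (nat_lit 1) (nat_lit 212) (nat_lit 172) (nat_lit 186))) (PT.nd (nat_lit 78) (PT.lf (nat_lit 40128) (nat_lit 6) (nat_lit 528) (nat_lit 1) (nat_lit 213) (nat_lit 172) (nat_lit 185)) (PT.lf (nat_lit 38228) (nat_lit 6) (nat_lit 503) (nat_lit 1) (nat_lit 214) (nat_lit 172) (nat_lit 184)))) (PT.nd (nat_lit 156) (PT.nd (nat_lit 78) (PT.lf (nat_lit 38152) (nat_lit 6) (nat_lit 502) (nat_lit 3) (nat_lit 183) (nat_lit 173) (nat_lit 214)) (PT.lf (nat_lit 40052) (nat_lit 6) (nat_lit 527) (nat_lit 3) (nat_lit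 184) (nat_lit 173) (nat_lit 213))) (PT.nd (nat_lit 78) (PT.lf (nat_lit 41876) (nat_lit 6) (nat_lit 551) (nat_lit 3) (nat_lit 185) (nat_lit 173) (nat_lit 212)) (PT.nd (nat_lit 78) (PT.lf (nat_lit 43624) (nat_lit 6) (nat_lit 574) (nat_lit 3) (nat_lit 186) (nat_lit 173) (nat_lit 211)) (PT.lf (nat_lit 45296) (nat_lit 6) (nat_lit 596) (nat_lit 3) (nat_lit 187) (nat_lit 173) (nat_lit 210))))))) (PT.nd (nat_lit 702) (PT.nd (nat_lit 312) (PT.nd (nat_lit 156) (PT.nd (nat_lit 78) (PT.lf (nat_lit 46892) (nat_lit 6) (nat_lit 617) (nat_lit 3) (nat_lit 188) (nat_lit 173) (nat_lit 209)) (PT.lf (nat_lit 48412) (nat_lit 6) (nat_lit 637) (nat_lit 3) (nat_lit 189) (nat_lit 173) (nat_lit 208))) (PT.nd (nat_lit 78) (PT.lf (nat_lit 49856) (nat_lit 6) (nat_lit 656) (nat_lit 3) (nat_lit 190) (nat_lit 173) (nat_lit 207)) (PT.lf (nat_lit 49932) (nat_lit 6) (nat_lit 657) (nat_lit 3) (nat_lit 191) (nat_lit 173) (nat_lit 206)))) (PT.nd (nat_lit 156) (PT.nd (nat_lit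 78) (PT.lf (nat_lit 50008) (nat_lit 6) (nat_lit 658) (nat_lit 3) (nat_lit 192) (nat_lit 173) (nat_lit 205)) (PT.lf (nat_lit 50084) (nat_lit 6) (nat_lit 659) (nat_lit 3) (nat_lit 193) (nat_lit 173) (nat_lit 204))) (PT.nd (nat_lit 78) (PT.lf (nat_lit 50160) (nat_lit 6) (nat_lit 660) (nat_lit 3) (nat_lit 194) (nat_lit 173) (nat_lit 203)) (PT.nd (nat_lit 78) (PT.lf (nat_lit 50236) (nat_lit 6) (nat_lit 661) (nat_lit 3) (nat_lit 195) (nat_lit 173) (nat_lit 202)) (PT.lf (nat_lit 50312) (nat_lit 6) (nat_lit 662) (nat_lit 3) (nat_lit 196) (nat_lit 173) (nat_lit 201)))))) (PT.nd (nat_lit 312) (PT.nd (nat_lit 156) (PT.nd (nat_lit 78) (PT.lf (nat_lit 50388) (nat_lit 6) (nat_lit 663) (nat_lit 3) (nat_lit 197) (nat_lit 173) (nat_lit 200)) (PT.lf (nat_lit 50464) (nat_lit 6) (nat_lit 664) (nat_lit 3) (nat_lit 198) (nat_lit 173) (nat_lit 199))) (PT.nd (nat_lit 78) (PT.lf (nat_lit 50464) (nat_lit 6) (nat_lit 664) (nat_lit 1) (nat_lit 199) (nat_lit 173)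 (nat_lit 198)) (PT.lf (nat_lit 50388) (nat_lit 6) (nat_lit 663) (nat_lit 1) (nat_lit 200) (nat_lit 173) (nat_lit 197)))) (PT.nd (nat_lit 156) (PT.nd (nat_lit 78) (PT.lf (nat_lit 50312) (nat_lit 6) (nat_lit 662) (nat_lit 1) (nat_lit 201) (nat_lit 173) (nat_lit 196)) (PT.lf (nat_lit 50236) (nat_lit 6) (nat_lit 661) (nat_lit 1) (nat_lit 202) (nat_lit 173) (nat_lit 195))) (PT.nd (nat_lit 78) (PT.lf (nat_lit 50160) (nat_lit 6) (nat_lit 660) (nat_lit 1) (nat_lit 203) (nat_lit 173) (nat_lit 194)) (PT.nd (nat_lit 78) (PT.lf (nat_lit 50084) (nat_lit 6) (nat_lit 659) (nat_lit 1) (nat_lit 204) (nat_lit 173) (nat_lit 193)) (PT.lf (nat_lit 50008) (nat_lit 6) (nat_lit 658) (nat_lit 1) (nat_lit 205) (nat_lit 173) (nat_lit 192))))))))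
noncomputable def pc32 : PT := (PT.nd (nat_lit 58110) (PT.nd (nat_lit 624) (PT.nd (nat_lit 312) (PT.nd (nat_lit 156) (PT.nd (nat_lit 78) (PT.lf (nat_lit 49932) (nat_lit 6) (nat_lit 657) (nat_lit 1) (nat_lit 206) (nat_lit 173) (nat_lit 191)) (PT.lf (nat_lit 49856) (nat_lit 6) (nat_lit 656) (nat_lit 1) (nat_lit 207) (nat_lit 173) (nat_lit 190))) (PT.nd (nat_lit 78) (PT.lf (nat_lit 48412) (nat_lit 6) (nat_lit 637) (nat_lit 1) (nat_lit 208) (nat_lit 173) (nat_lit 189)) (PT.lf (nat_lit 46892) (nat_lit 6) (nat_lit 617) (nat_lit 1) (nat_lit 209) (nat_lit 173) (nat_lit 188)))) (PT.nd (nat_lit 156) (PT.nd (nat_lit 78) (PT.lf (nat_lit 45296) (nat_lit 6) (nat_lit 596) (nat_lit 1) (nat_lit 210) (nat_lit 173) (nat_lit 187)) (PT.lf (nat_lit 43624) (nat_lit 6) (nat_lit 574) (nat_lit 1) (nat_lit 211) (nat_lit 173) (nat_lit 186))) (PT.nd (nat_lit 78) (PT.lf (nat_lit 41876) (nat_lit 6) (nat_lit 551) (nat_lit 1) (nat_lit 212) (nat_lit 173) (nat_lit 185))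 (PT.lf (nat_lit 40052) (nat_lit 6) (nat_lit 527) (nat_lit 1) (nat_lit 213) (nat_lit 173) (nat_lit 184))))) (PT.nd (nat_lit 57096) (PT.nd (nat_lit 56940) (PT.nd (nat_lit 56862) (PT.lf (nat_lit 38152) (nat_lit 6) (nat_lit 502) (nat_lit 1) (nat_lit 214) (nat_lit 173) (nat_lit 183)) (PT.lf (nat_lit 38076) (nat_lit 6) (nat_lit 501) (nat_lit 3) (nat_lit 182) (nat_lit 174) (nat_lit 214))) (PT.nd (nat_lit 78) (PT.lf (nat_lit 39976) (nat_lit 6) (nat_lit 526) (nat_lit 3) (nat_lit 183) (nat_lit 174) (nat_lit 213)) (PT.lf (nat_lit 41800) (nat_lit 6) (nat_lit 550) (nat_lit 3) (nat_lit 184) (nat_lit 174) (nat_lit 212)))) (PT.nd (nat_lit 156) (PT.nd (nat_lit 78) (PT.lf (nat_lit 43548) (nat_lit 6) (nat_lit 573) (nat_lit 3) (nat_lit 185) (nat_lit 174) (nat_lit 211)) (PT.lf (nat_lit 45220) (nat_lit 6) (nat_lit 595) (nat_lit 3) (nat_lit 186) (nat_lit 174) (nat_lit 210))) (PT.nd (nat_lit 78) (PT.lf (nat_lit 46816) (nat_lit 6) (nat_lit 616) (nat_lit 3) (nat_lit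 187) (nat_lit 174) (nat_lit 209)) (PT.nd (nat_lit 78) (PT.lf (nat_lit 48336) (nat_lit 6) (nat_lit 636) (nat_lit 3) (nat_lit 188) (nat_lit 174) (nat_lit 208)) (PT.lf (nat_lit 49780) (nat_lit 6) (nat_lit 655) (nat_lit 3) (nat_lit 189) (nat_lit 174) (nat_lit 207))))))) (PT.nd (nat_lit 702) (PT.nd (nat_lit 312) (PT.nd (nat_lit 156) (PT.nd (nat_lit 78) (PT.lf (nat_lit 51148) (nat_lit 6) (nat_lit 673) (nat_lit 3) (nat_lit 190) (nat_lit 174) (nat_lit 206)) (PT.lf (nat_lit 51224) (nat_lit 6) (nat_lit 674) (nat_lit 3) (nat_lit 191) (nat_lit 174) (nat_lit 205))) (PT.nd (nat_lit 78) (PT.lf (nat_lit 51300) (nat_lit 6) (nat_lit 675) (nat_lit 3) (nat_lit 192) (nat_lit 174) (nat_lit 204)) (PT.lf (nat_lit 51376) (nat_lit 6) (nat_lit 676) (nat_lit 3) (nat_lit 193) (nat_lit 174) (nat_lit 203)))) (PT.nd (nat_lit 156) (PT.nd (nat_lit 78) (PT.lf (nat_lit 51452) (nat_lit 6) (nat_lit 677) (nat_lit 3) (nat_lit 194) (nat_lit 174) (nat_lit 202)) (PT.lf (nat_lit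 51528) (nat_lit 6) (nat_lit 678) (nat_lit 3) (nat_lit 195) (nat_lit 174) (nat_lit 201))) (PT.nd (nat_lit 78) (PT.lf (nat_lit 51604) (nat_lit 6) (nat_lit 679) (nat_lit 3) (nat_lit 196) (nat_lit 174) (nat_lit 200)) (PT.nd (nat_lit 78) (PT.lf (nat_lit 51680) (nat_lit 6) (nat_lit 680) (nat_lit 3) (nat_lit 197) (nat_lit 174) (nat_lit 199)) (PT.lf (nat_lit 51756) (nat_lit 3) (nat_lit 681) (nat_lit 1) (nat_lit 198) (nat_lit 174) (nat_lit 198)))))) (PT.nd (nat_lit 312) (PT.nd (nat_lit 156) (PT.nd (nat_lit 78) (PT.lf (nat_lit 51680) (nat_lit 6) (nat_lit 680) (nat_lit 1) (nat_lit 199) (nat_lit 174) (nat_lit 197)) (PT.lf (nat_lit 51604) (nat_lit 6) (nat_lit 679) (nat_lit 1) (nat_lit 200) (nat_lit 174) (nat_lit 196))) (PT.nd (nat_lit 78) (PT.lf (nat_lit 51528) (nat_lit 6) (nat_lit 678) (nat_lit 1) (nat_lit 201) (nat_lit 174) (nat_lit 195)) (PT.lf (nat_lit 51452) (nat_lit 6) (nat_lit 677) (nat_lit 1) (nat_lit 202) (nat_lit 174) (nat_lit 194)))) (PT.nd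 (nat_lit 156) (PT.nd (nat_lit 78) (PT.lf (nat_lit 51376) (nat_lit 6) (nat_lit 676) (nat_lit 1) (nat_lit 203) (nat_lit 174) (nat_lit 193)) (PT.lf (nat_lit 51300) (nat_lit 6) (nat_lit 675) (nat_lit 1) (nat_lit 204) (nat_lit 174) (nat_lit 192))) (PT.nd (nat_lit 78) (PT.lf (nat_lit 51224) (nat_lit 6) (nat_lit 674) (nat_lit 1) (nat_lit 205) (nat_lit 174) (nat_lit 191)) (PT.nd (nat_lit 78) (PT.lf (nat_lit 51148) (nat_lit 6) (nat_lit 673) (nat_lit 1) (nat_lit 206) (nat_lit 174) (nat_lit 190)) (PT.lf (nat_lit 49780) (nat_lit 6) (nat_lit 655) (nat_lit 1) (nat_lit 207) (nat_lit 174) (nat_lit 189))))))))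
noncomputable def pc33 : PT := (PT.nd (nat_lit 58110) (PT.nd (nat_lit 57408) (PT.nd (nat_lit 312) (PT.nd (nat_lit 156) (PT.nd (nat_lit 78) (PT.lf (nat_lit 48336) (nat_lit 6) (nat_lit 636) (nat_lit 1) (nat_lit 208) (nat_lit 174) (nat_lit 188)) (PT.lf (nat_lit 46816) (nat_lit 6) (nat_lit 616) (nat_lit 1) (nat_lit 209) (nat_lit 174) (nat_lit 187))) (PT.nd (nat_lit 78) (PT.lf (nat_lit 45220) (nat_lit 6) (nat_lit 595) (nat_lit 1) (nat_lit 210) (nat_lit 174) (nat_lit 186)) (PT.lf (nat_lit 43548) (nat_lit 6) (nat_lit 573) (nat_lit 1) (nat_lit 211) (nat_lit 174) (nat_lit 185)))) (PT.nd (nat_lit 156) (PT.nd (nat_lit 78) (PT.lf (nat_lit 41800) (nat_lit 6) (nat_lit 550) (nat_lit 1) (nat_lit 212) (nat_lit 174) (nat_lit 184)) (PT.lf (nat_lit 39976) (nat_lit 6) (nat_lit 526) (nat_lit 1) (nat_lit 213) (nat_lit 174) (nat_lit 183))) (PT.nd (nat_lit 56784) (PT.lf (nat_lit 38076) (nat_lit 6) (nat_lit 501) (nat_lit 1) (nat_lit 214) (nat_lit 174) (nat_lit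 182)) (PT.nd (nat_lit 78) (PT.lf (nat_lit 38000) (nat_lit 6) (nat_lit 500) (nat_lit 3) (nat_lit 181) (nat_lit 175) (nat_lit 214)) (PT.lf (nat_lit 39900) (nat_lit 6) (nat_lit 525) (nat_lit 3) (nat_lit 182) (nat_lit 175) (nat_lit 213)))))) (PT.nd (nat_lit 312) (PT.nd (nat_lit 156) (PT.nd (nat_lit 78) (PT.lf (nat_lit 41724) (nat_lit 6) (nat_lit 549) (nat_lit 3) (nat_lit 183) (nat_lit 175) (nat_lit 212)) (PT.lf (nat_lit 43472) (nat_lit 6) (nat_lit 572) (nat_lit 3) (nat_lit 184) (nat_lit 175) (nat_lit 211))) (PT.nd (nat_lit 78) (PT.lf (nat_lit 45144) (nat_lit 6) (nat_lit 594) (nat_lit 3) (nat_lit 185) (nat_lit 175) (nat_lit 210)) (PT.lf (nat_lit 46740) (nat_lit 6) (nat_lit 615) (nat_lit 3) (nat_lit 186) (nat_lit 175) (nat_lit 209)))) (PT.nd (nat_lit 156) (PT.nd (nat_lit 78) (PT.lf (nat_lit 48260) (nat_lit 6) (nat_lit 635) (nat_lit 3) (nat_lit 187) (nat_lit 175) (nat_lit 208)) (PT.lf (nat_lit 49704) (nat_lit 6) (nat_lit 654) (nat_lit 3) (nat_lit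 188) (nat_lit 175) (nat_lit 207))) (PT.nd (nat_lit 78) (PT.lf (nat_lit 51072) (nat_lit 6) (nat_lit 672) (nat_lit 3) (nat_lit 189) (nat_lit 175) (nat_lit 206)) (PT.nd (nat_lit 78) (PT.lf (nat_lit 52364) (nat_lit 6) (nat_lit 689) (nat_lit 3) (nat_lit 190) (nat_lit 175) (nat_lit 205)) (PT.lf (nat_lit 52440) (nat_lit 6) (nat_lit 690) (nat_lit 3) (nat_lit 191) (nat_lit 175) (nat_lit 204))))))) (PT.nd (nat_lit 702) (PT.nd (nat_lit 312) (PT.nd (nat_lit 156) (PT.nd (nat_lit 78) (PT.lf (nat_lit 52516) (nat_lit 6) (nat_lit 691) (nat_lit 3) (nat_lit 192) (nat_lit 175) (nat_lit 203)) (PT.lf (nat_lit 52592) (nat_lit 6) (nat_lit 692) (nat_lit 3) (nat_lit 193) (nat_lit 175) (nat_lit 202))) (PT.nd (nat_lit 78) (PT.lf (nat_lit 52668) (nat_lit 6) (nat_lit 693) (nat_lit 3) (nat_lit 194) (nat_lit 175) (nat_lit 201)) (PT.lf (nat_lit 52744) (nat_lit 6) (nat_lit 694) (nat_lit 3) (nat_lit 195) (nat_lit 175) (nat_lit 200)))) (PT.nd (nat_lit 156) (PT.nd (nat_lit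 78) (PT.lf (nat_lit 52820) (nat_lit 6) (nat_lit 695) (nat_lit 3) (nat_lit 196) (nat_lit 175) (nat_lit 199)) (PT.lf (nat_lit 52896) (nat_lit 6) (nat_lit 696) (nat_lit 3) (nat_lit 197) (nat_lit 175) (nat_lit 198))) (PT.nd (nat_lit 78) (PT.lf (nat_lit 52896) (nat_lit 6) (nat_lit 696) (nat_lit 1) (nat_lit 198) (nat_lit 175) (nat_lit 197)) (PT.nd (nat_lit 78) (PT.lf (nat_lit 52820) (nat_lit 6) (nat_lit 695) (nat_lit 1) (nat_lit 199) (nat_lit 175) (nat_lit 196)) (PT.lf (nat_lit 52744) (nat_lit 6) (nat_lit 694) (nat_lit 1) (nat_lit 200) (nat_lit 175) (nat_lit 195)))))) (PT.nd (nat_lit 312) (PT.nd (nat_lit 156) (PT.nd (nat_lit 78) (PT.lf (nat_lit 52668) (nat_lit 6) (nat_lit 693) (nat_lit 1) (nat_lit 201) (nat_lit 175) (nat_lit 194)) (PT.lf (nat_lit 52592) (nat_lit 6) (nat_lit 692) (nat_lit 1) (nat_lit 202) (nat_lit 175) (nat_lit 193))) (PT.nd (nat_lit 78) (PT.lf (nat_lit 52516) (nat_lit 6) (nat_lit 691) (nat_lit 1) (nat_lit 203) (nat_lit 175)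 (nat_lit 192)) (PT.lf (nat_lit 52440) (nat_lit 6) (nat_lit 690) (nat_lit 1) (nat_lit 204) (nat_lit 175) (nat_lit 191)))) (PT.nd (nat_lit 156) (PT.nd (nat_lit 78) (PT.lf (nat_lit 52364) (nat_lit 6) (nat_lit 689) (nat_lit 1) (nat_lit 205) (nat_lit 175) (nat_lit 190)) (PT.lf (nat_lit 51072) (nat_lit 6) (nat_lit 672) (nat_lit 1) (nat_lit 206) (nat_lit 175) (nat_lit 189))) (PT.nd (nat_lit 78) (PT.lf (nat_lit 49704) (nat_lit 6) (nat_lit 654) (nat_lit 1) (nat_lit 207) (nat_lit 175) (nat_lit 188)) (PT.nd (nat_lit 78) (PT.lf (nat_lit 48260) (nat_lit 6) (nat_lit 635) (nat_lit 1) (nat_lit 208) (nat_lit 175) (nat_lit 187)) (PT.lf (nat_lit 46740) (nat_lit 6) (nat_lit 615) (nat_lit 1) (nat_lit 209) (nat_lit 175) (nat_lit 186))))))))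
noncomputable def pc34 : PT := (PT.nd (nat_lit 57954) (PT.nd (nat_lit 57252) (PT.nd (nat_lit 312) (PT.nd (nat_lit 156) (PT.nd (nat_lit 78) (PT.lf (nat_lit 45144) (nat_lit 6) (nat_lit 594) (nat_lit 1) (nat_lit 210) (nat_lit 175) (nat_lit 185)) (PT.lf (nat_lit 43472) (nat_lit 6) (nat_lit 572) (nat_lit 1) (nat_lit 211) (nat_lit 175) (nat_lit 184))) (PT.nd (nat_lit 78) (PT.lf (nat_lit 41724) (nat_lit 6) (nat_lit 549) (nat_lit 1) (nat_lit 212) (nat_lit 175) (nat_lit 183)) (PT.lf (nat_lit 39900) (nat_lit 6) (nat_lit 525) (nat_lit 1) (nat_lit 213) (nat_lit 175) (nat_lit 182)))) (PT.nd (nat_lit 56784) (PT.nd (nat_lit 56706) (PT.lf (nat_lit 38000) (nat_lit 6) (nat_lit 500) (nat_lit 1) (nat_lit 214) (nat_lit 175) (nat_lit 181)) (PT.lf (nat_lit 37924) (nat_lit 6) (nat_lit 499) (nat_lit 3) (nat_lit 180) (nat_lit 176) (nat_lit 214))) (PT.nd (nat_lit 78) (PT.lf (nat_lit 39824) (nat_lit 6) (nat_lit 524) (nat_lit 3) (nat_lit 181) (nat_lit 176) (nat_lit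 213)) (PT.lf (nat_lit 41648) (nat_lit 6) (nat_lit 548) (nat_lit 3) (nat_lit 182) (nat_lit 176) (nat_lit 212))))) (PT.nd (nat_lit 312) (PT.nd (nat_lit 156) (PT.nd (nat_lit 78) (PT.lf (nat_lit 43396) (nat_lit 6) (nat_lit 571) (nat_lit 3) (nat_lit 183) (nat_lit 176) (nat_lit 211)) (PT.lf (nat_lit 45068) (nat_lit 6) (nat_lit 593) (nat_lit 3) (nat_lit 184) (nat_lit 176) (nat_lit 210))) (PT.nd (nat_lit 78) (PT.lf (nat_lit 46664) (nat_lit 6) (nat_lit 614) (nat_lit 3) (nat_lit 185) (nat_lit 176) (nat_lit 209)) (PT.lf (nat_lit 48184) (nat_lit 6) (nat_lit 634) (nat_lit 3) (nat_lit 186) (nat_lit 176) (nat_lit 208)))) (PT.nd (nat_lit 156) (PT.nd (nat_lit 78) (PT.lf (nat_lit 49628) (nat_lit 6) (nat_lit 653) (nat_lit 3) (nat_lit 187) (nat_lit 176) (nat_lit 207)) (PT.lf (nat_lit 50996) (nat_lit 6) (nat_lit 671) (nat_lit 3) (nat_lit 188) (nat_lit 176) (nat_lit 206))) (PT.nd (nat_lit 78) (PT.lf (nat_lit 52288) (nat_lit 6) (nat_lit 688) (nat_lit 3) (nat_lit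 189) (nat_lit 176) (nat_lit 205)) (PT.nd (nat_lit 78) (PT.lf (nat_lit 53504) (nat_lit 6) (nat_lit 704) (nat_lit 3) (nat_lit 190) (nat_lit 176) (nat_lit 204)) (PT.lf (nat_lit 53580) (nat_lit 6) (nat_lit 705) (nat_lit 3) (nat_lit 191) (nat_lit 176) (nat_lit 203))))))) (PT.nd (nat_lit 702) (PT.nd (nat_lit 312) (PT.nd (nat_lit 156) (PT.nd (nat_lit 78) (PT.lf (nat_lit 53656) (nat_lit 6) (nat_lit 706) (nat_lit 3) (nat_lit 192) (nat_lit 176) (nat_lit 202)) (PT.lf (nat_lit 53732) (nat_lit 6) (nat_lit 707) (nat_lit 3) (nat_lit 193) (nat_lit 176) (nat_lit 201))) (PT.nd (nat_lit 78) (PT.lf (nat_lit 53808) (nat_lit 6) (nat_lit 708) (nat_lit 3) (nat_lit 194) (nat_lit 176) (nat_lit 200)) (PT.lf (nat_lit 53884) (nat_lit 6) (nat_lit 709) (nat_lit 3) (nat_lit 195) (nat_lit 176) (nat_lit 199)))) (PT.nd (nat_lit 156) (PT.nd (nat_lit 78) (PT.lf (nat_lit 53960) (nat_lit 6) (nat_lit 710) (nat_lit 3) (nat_lit 196) (nat_lit 176) (nat_lit 198)) (PT.lf (nat_lit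 54036) (nat_lit 3) (nat_lit 711) (nat_lit 1) (nat_lit 197) (nat_lit 176) (nat_lit 197))) (PT.nd (nat_lit 78) (PT.lf (nat_lit 53960) (nat_lit 6) (nat_lit 710) (nat_lit 1) (nat_lit 198) (nat_lit 176) (nat_lit 196)) (PT.nd (nat_lit 78) (PT.lf (nat_lit 53884) (nat_lit 6) (nat_lit 709) (nat_lit 1) (nat_lit 199) (nat_lit 176) (nat_lit 195)) (PT.lf (nat_lit 53808) (nat_lit 6) (nat_lit 708) (nat_lit 1) (nat_lit 200) (nat_lit 176) (nat_lit 194)))))) (PT.nd (nat_lit 312) (PT.nd (nat_lit 156) (PT.nd (nat_lit 78) (PT.lf (nat_lit 53732) (nat_lit 6) (nat_lit 707) (nat_lit 1) (nat_lit 201) (nat_lit 176) (nat_lit 193)) (PT.lf (nat_lit 53656) (nat_lit 6) (nat_lit 706) (nat_lit 1) (nat_lit 202) (nat_lit 176) (nat_lit 192))) (PT.nd (nat_lit 78) (PT.lf (nat_lit 53580) (nat_lit 6) (nat_lit 705) (nat_lit 1) (nat_lit 203) (nat_lit 176) (nat_lit 191)) (PT.lf (nat_lit 53504) (nat_lit 6) (nat_lit 704) (nat_lit 1) (nat_lit 204) (nat_lit 176) (nat_lit 190)))) (PT.nd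 (nat_lit 156) (PT.nd (nat_lit 78) (PT.lf (nat_lit 52288) (nat_lit 6) (nat_lit 688) (nat_lit 1) (nat_lit 205) (nat_lit 176) (nat_lit 189)) (PT.lf (nat_lit 50996) (nat_lit 6) (nat_lit 671) (nat_lit 1) (nat_lit 206) (nat_lit 176) (nat_lit 188))) (PT.nd (nat_lit 78) (PT.lf (nat_lit 49628) (nat_lit 6) (nat_lit 653) (nat_lit 1) (nat_lit 207) (nat_lit 176) (nat_lit 187)) (PT.nd (nat_lit 78) (PT.lf (nat_lit 48184) (nat_lit 6) (nat_lit 634) (nat_lit 1) (nat_lit 208) (nat_lit 176) (nat_lit 186)) (PT.lf (nat_lit 46664) (nat_lit 6) (nat_lit 614) (nat_lit 1) (nat_lit 209) (nat_lit 176) (nat_lit 185))))))))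
noncomputable def pc35 : PT := (PT.nd (nat_lit 57954) (PT.nd (nat_lit 57252) (PT.nd (nat_lit 312) (PT.nd (nat_lit 156) (PT.nd (nat_lit 78) (PT.lf (nat_lit 45068) (nat_lit 6) (nat_lit 593) (nat_lit 1) (nat_lit 210) (nat_lit 176) (nat_lit 184)) (PT.lf (nat_lit 43396) (nat_lit 6) (nat_lit 571) (nat_lit 1) (nat_lit 211) (nat_lit 176) (nat_lit 183))) (PT.nd (nat_lit 78) (PT.lf (nat_lit 41648) (nat_lit 6) (nat_lit 548) (nat_lit 1) (nat_lit 212) (nat_lit 176) (nat_lit 182)) (PT.lf (nat_lit 39824) (nat_lit 6) (nat_lit 524) (nat_lit 1) (nat_lit 213) (nat_lit 176) (nat_lit 181)))) (PT.nd (nat_lit 56706) (PT.nd (nat_lit 56628) (PT.lf (nat_lit 37924) (nat_lit 6) (nat_lit 499) (nat_lit 1) (nat_lit 214) (nat_lit 176) (nat_lit 180)) (PT.lf (nat_lit 37848) (nat_lit 6) (nat_lit 498) (nat_lit 3) (nat_lit 179) (nat_lit 177) (nat_lit 214))) (PT.nd (nat_lit 78) (PT.lf (nat_lit 39748) (nat_lit 6) (nat_lit 523) (nat_lit 3) (nat_lit 180) (nat_lit 177) (nat_lit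 213)) (PT.nd (nat_lit 78) (PT.lf (nat_lit 41572) (nat_lit 6) (nat_lit 547) (nat_lit 3) (nat_lit 181) (nat_lit 177) (nat_lit 212)) (PT.lf (nat_lit 43320) (nat_lit 6) (nat_lit 570) (nat_lit 3) (nat_lit 182) (nat_lit 177) (nat_lit 211)))))) (PT.nd (nat_lit 312) (PT.nd (nat_lit 156) (PT.nd (nat_lit 78) (PT.lf (nat_lit 44992) (nat_lit 6) (nat_lit 592) (nat_lit 3) (nat_lit 183) (nat_lit 177) (nat_lit 210)) (PT.lf (nat_lit 46588) (nat_lit 6) (nat_lit 613) (nat_lit 3) (nat_lit 184) (nat_lit 177) (nat_lit 209))) (PT.nd (nat_lit 78) (PT.lf (nat_lit 48108) (nat_lit 6) (nat_lit 633) (nat_lit 3) (nat_lit 185) (nat_lit 177) (nat_lit 208)) (PT.lf (nat_lit 49552) (nat_lit 6) (nat_lit 652) (nat_lit 3) (nat_lit 186) (nat_lit 177) (nat_lit 207)))) (PT.nd (nat_lit 156) (PT.nd (nat_lit 78) (PT.lf (nat_lit 50920) (nat_lit 6) (nat_lit 670) (nat_lit 3) (nat_lit 187) (nat_lit 177) (nat_lit 206)) (PT.lf (nat_lit 52212) (nat_lit 6) (nat_lit 687) (nat_lit 3) (nat_lit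 188) (nat_lit 177) (nat_lit 205))) (PT.nd (nat_lit 78) (PT.lf (nat_lit 53428) (nat_lit 6) (nat_lit 703) (nat_lit 3) (nat_lit 189) (nat_lit 177) (nat_lit 204)) (PT.nd (nat_lit 78) (PT.lf (nat_lit 54568) (nat_lit 6) (nat_lit 718) (nat_lit 3) (nat_lit 190) (nat_lit 177) (nat_lit 203)) (PT.lf (nat_lit 54644) (nat_lit 6) (nat_lit 719) (nat_lit 3) (nat_lit 191) (nat_lit 177) (nat_lit 202))))))) (PT.nd (nat_lit 702) (PT.nd (nat_lit 312) (PT.nd (nat_lit 156) (PT.nd (nat_lit 78) (PT.lf (nat_lit 54720) (nat_lit 6) (nat_lit 720) (nat_lit 3) (nat_lit 192) (nat_lit 177) (nat_lit 201)) (PT.lf (nat_lit 54796) (nat_lit 6) (nat_lit 721) (nat_lit 3) (nat_lit 193) (nat_lit 177) (nat_lit 200))) (PT.nd (nat_lit 78) (PT.lf (nat_lit 54872) (nat_lit 6) (nat_lit 722) (nat_lit 3) (nat_lit 194) (nat_lit 177) (nat_lit 199)) (PT.lf (nat_lit 54948) (nat_lit 6) (nat_lit 723) (nat_lit 3) (nat_lit 195) (nat_lit 177) (nat_lit 198)))) (PT.nd (nat_lit 156) (PT.nd (nat_lit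 78) (PT.lf (nat_lit 55024) (nat_lit 6) (nat_lit 724) (nat_lit 3) (nat_lit 196) (nat_lit 177) (nat_lit 197)) (PT.lf (nat_lit 55024) (nat_lit 6) (nat_lit 724) (nat_lit 1) (nat_lit 197) (nat_lit 177) (nat_lit 196))) (PT.nd (nat_lit 78) (PT.lf (nat_lit 54948) (nat_lit 6) (nat_lit 723) (nat_lit 1) (nat_lit 198) (nat_lit 177) (nat_lit 195)) (PT.nd (nat_lit 78) (PT.lf (nat_lit 54872) (nat_lit 6) (nat_lit 722) (nat_lit 1) (nat_lit 199) (nat_lit 177) (nat_lit 194)) (PT.lf (nat_lit 54796) (nat_lit 6) (nat_lit 721) (nat_lit 1) (nat_lit 200) (nat_lit 177) (nat_lit 193)))))) (PT.nd (nat_lit 312) (PT.nd (nat_lit 156) (PT.nd (nat_lit 78) (PT.lf (nat_lit 54720) (nat_lit 6) (nat_lit 720) (nat_lit 1) (nat_lit 201) (nat_lit 177) (nat_lit 192)) (PT.lf (nat_lit 54644) (nat_lit 6) (nat_lit 719) (nat_lit 1) (nat_lit 202) (nat_lit 177) (nat_lit 191))) (PT.nd (nat_lit 78) (PT.lf (nat_lit 54568) (nat_lit 6) (nat_lit 718) (nat_lit 1) (nat_lit 203) (nat_lit 177)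 (nat_lit 190)) (PT.lf (nat_lit 53428) (nat_lit 6) (nat_lit 703) (nat_lit 1) (nat_lit 204) (nat_lit 177) (nat_lit 189)))) (PT.nd (nat_lit 156) (PT.nd (nat_lit 78) (PT.lf (nat_lit 52212) (nat_lit 6) (nat_lit 687) (nat_lit 1) (nat_lit 205) (nat_lit 177) (nat_lit 188)) (PT.lf (nat_lit 50920) (nat_lit 6) (nat_lit 670) (nat_lit 1) (nat_lit 206) (nat_lit 177) (nat_lit 187))) (PT.nd (nat_lit 78) (PT.lf (nat_lit 49552) (nat_lit 6) (nat_lit 652) (nat_lit 1) (nat_lit 207) (nat_lit 177) (nat_lit 186)) (PT.nd (nat_lit 78) (PT.lf (nat_lit 48108) (nat_lit 6) (nat_lit 633) (nat_lit 1) (nat_lit 208) (nat_lit 177) (nat_lit 185)) (PT.lf (nat_lit 46588) (nat_lit 6) (nat_lit 613) (nat_lit 1) (nat_lit 209) (nat_lit 177) (nat_lit 184))))))))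
noncomputable def pc36 : PT := (PT.nd (nat_lit 57798) (PT.nd (nat_lit 57096) (PT.nd (nat_lit 312) (PT.nd (nat_lit 156) (PT.nd (nat_lit 78) (PT.lf (nat_lit 44992) (nat_lit 6) (nat_lit 592) (nat_lit 1) (nat_lit 210) (nat_lit 177) (nat_lit 183)) (PT.lf (nat_lit 43320) (nat_lit 6) (nat_lit 570) (nat_lit 1) (nat_lit 211) (nat_lit 177) (nat_lit 182))) (PT.nd (nat_lit 78) (PT.lf (nat_lit 41572) (nat_lit 6) (nat_lit 547) (nat_lit 1) (nat_lit 212) (nat_lit 177) (nat_lit 181)) (PT.lf (nat_lit 39748) (nat_lit 6) (nat_lit 523) (nat_lit 1) (nat_lit 213) (nat_lit 177) (nat_lit 180)))) (PT.nd (nat_lit 56628) (PT.nd (nat_lit 56550) (PT.lf (nat_lit 37848) (nat_lit 6) (nat_lit 498) (nat_lit 1) (nat_lit 214) (nat_lit 177) (nat_lit 179)) (PT.lf (nat_lit 37772) (nat_lit 3) (nat_lit 497) (nat_lit 3) (nat_lit 178) (nat_lit 178) (nat_lit 214))) (PT.nd (nat_lit 78) (PT.lf (nat_lit 39672) (nat_lit 6) (nat_lit 522) (nat_lit 3) (nat_lit 179) (nat_lit 178) (nat_lit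 213)) (PT.lf (nat_lit 41496) (nat_lit 6) (nat_lit 546) (nat_lit 3) (nat_lit 180) (nat_lit 178) (nat_lit 212))))) (PT.nd (nat_lit 312) (PT.nd (nat_lit 156) (PT.nd (nat_lit 78) (PT.lf (nat_lit 43244) (nat_lit 6) (nat_lit 569) (nat_lit 3) (nat_lit 181) (nat_lit 178) (nat_lit 211)) (PT.lf (nat_lit 44916) (nat_lit 6) (nat_lit 591) (nat_lit 3) (nat_lit 182) (nat_lit 178) (nat_lit 210))) (PT.nd (nat_lit 78) (PT.lf (nat_lit 46512) (nat_lit 6) (nat_lit 612) (nat_lit 3) (nat_lit 183) (nat_lit 178) (nat_lit 209)) (PT.lf (nat_lit 48032) (nat_lit 6) (nat_lit 632) (nat_lit 3) (nat_lit 184) (nat_lit 178) (nat_lit 208)))) (PT.nd (nat_lit 156) (PT.nd (nat_lit 78) (PT.lf (nat_lit 49476) (nat_lit 6) (nat_lit 651) (nat_lit 3) (nat_lit 185) (nat_lit 178) (nat_lit 207)) (PT.lf (nat_lit 50844) (nat_lit 6) (nat_lit 669) (nat_lit 3) (nat_lit 186) (nat_lit 178) (nat_lit 206))) (PT.nd (nat_lit 78) (PT.lf (nat_lit 52136) (nat_lit 6) (nat_lit 686) (nat_lit 3) (nat_lit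 187) (nat_lit 178) (nat_lit 205)) (PT.nd (nat_lit 78) (PT.lf (nat_lit 53352) (nat_lit 6) (nat_lit 702) (nat_lit 3) (nat_lit 188) (nat_lit 178) (nat_lit 204)) (PT.lf (nat_lit 54492) (nat_lit 6) (nat_lit 717) (nat_lit 3) (nat_lit 189) (nat_lit 178) (nat_lit 203))))))) (PT.nd (nat_lit 702) (PT.nd (nat_lit 312) (PT.nd (nat_lit 156) (PT.nd (nat_lit 78) (PT.lf (nat_lit 55556) (nat_lit 6) (nat_lit 731) (nat_lit 3) (nat_lit 190) (nat_lit 178) (nat_lit 202)) (PT.lf (nat_lit 55632) (nat_lit 6) (nat_lit 732) (nat_lit 3) (nat_lit 191) (nat_lit 178) (nat_lit 201))) (PT.nd (nat_lit 78) (PT.lf (nat_lit 55708) (nat_lit 6) (nat_lit 733) (nat_lit 3) (nat_lit 192) (nat_lit 178) (nat_lit 200)) (PT.lf (nat_lit 55784) (nat_lit 6) (nat_lit 734) (nat_lit 3) (nat_lit 193) (nat_lit 178) (nat_lit 199)))) (PT.nd (nat_lit 156) (PT.nd (nat_lit 78) (PT.lf (nat_lit 55860) (nat_lit 6) (nat_lit 735) (nat_lit 3) (nat_lit 194) (nat_lit 178) (nat_lit 198)) (PT.lf (nat_lit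 55936) (nat_lit 6) (nat_lit 736) (nat_lit 3) (nat_lit 195) (nat_lit 178) (nat_lit 197))) (PT.nd (nat_lit 78) (PT.lf (nat_lit 56012) (nat_lit 3) (nat_lit 737) (nat_lit 1) (nat_lit 196) (nat_lit 178) (nat_lit 196)) (PT.nd (nat_lit 78) (PT.lf (nat_lit 55936) (nat_lit 6) (nat_lit 736) (nat_lit 1) (nat_lit 197) (nat_lit 178) (nat_lit 195)) (PT.lf (nat_lit 55860) (nat_lit 6) (nat_lit 735) (nat_lit 1) (nat_lit 198) (nat_lit 178) (nat_lit 194)))))) (PT.nd (nat_lit 312) (PT.nd (nat_lit 156) (PT.nd (nat_lit 78) (PT.lf (nat_lit 55784) (nat_lit 6) (nat_lit 734) (nat_lit 1) (nat_lit 199) (nat_lit 178) (nat_lit 193)) (PT.lf (nat_lit 55708) (nat_lit 6) (nat_lit 733) (nat_lit 1) (nat_lit 200) (nat_lit 178) (nat_lit 192))) (PT.nd (nat_lit 78) (PT.lf (nat_lit 55632) (nat_lit 6) (nat_lit 732) (nat_lit 1) (nat_lit 201) (nat_lit 178) (nat_lit 191)) (PT.lf (nat_lit 55556) (nat_lit 6) (nat_lit 731) (nat_lit 1) (nat_lit 202) (nat_lit 178) (nat_lit 190)))) (PT.nd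 (nat_lit 156) (PT.nd (nat_lit 78) (PT.lf (nat_lit 54492) (nat_lit 6) (nat_lit 717) (nat_lit 1) (nat_lit 203) (nat_lit 178) (nat_lit 189)) (PT.lf (nat_lit 53352) (nat_lit 6) (nat_lit 702) (nat_lit 1) (nat_lit 204) (nat_lit 178) (nat_lit 188))) (PT.nd (nat_lit 78) (PT.lf (nat_lit 52136) (nat_lit 6) (nat_lit 686) (nat_lit 1) (nat_lit 205) (nat_lit 178) (nat_lit 187)) (PT.nd (nat_lit 78) (PT.lf (nat_lit 50844) (nat_lit 6) (nat_lit 669) (nat_lit 1) (nat_lit 206) (nat_lit 178) (nat_lit 186)) (PT.lf (nat_lit 49476) (nat_lit 6) (nat_lit 651) (nat_lit 1) (nat_lit 207) (nat_lit 178) (nat_lit 185))))))))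
noncomputable def pc37 : PT := (PT.nd (nat_lit 57798) (PT.nd (nat_lit 57096) (PT.nd (nat_lit 312) (PT.nd (nat_lit 156) (PT.nd (nat_lit 78) (PT.lf (nat_lit 48032) (nat_lit 6) (nat_lit 632) (nat_lit 1) (nat_lit 208) (nat_lit 178) (nat_lit 184)) (PT.lf (nat_lit 46512) (nat_lit 6) (nat_lit 612) (nat_lit 1) (nat_lit 209) (nat_lit 178) (nat_lit 183))) (PT.nd (nat_lit 78) (PT.lf (nat_lit 44916) (nat_lit 6) (nat_lit 591) (nat_lit 1) (nat_lit 210) (nat_lit 178) (nat_lit 182)) (PT.lf (nat_lit 43244) (nat_lit 6) (nat_lit 569) (nat_lit 1) (nat_lit 211) (nat_lit 178) (nat_lit 181)))) (PT.nd (nat_lit 156) (PT.nd (nat_lit 78) (PT.lf (nat_lit 41496) (nat_lit 6) (nat_lit 546) (nat_lit 1) (nat_lit 212) (nat_lit 178) (nat_lit 180)) (PT.lf (nat_lit 39672) (nat_lit 6) (nat_lit 522) (nat_lit 1) (nat_lit 213) (nat_lit 178) (nat_lit 179))) (PT.nd (nat_lit 56472) (PT.lf (nat_lit 37772) (nat_lit 3) (nat_lit 497) (nat_lit 0) (nat_lit 214) (nat_lit 178) (nat_lit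 178)) (PT.nd (nat_lit 78) (PT.lf (nat_lit 37848) (nat_lit 6) (nat_lit 498) (nat_lit 5) (nat_lit 177) (nat_lit 179) (nat_lit 214)) (PT.lf (nat_lit 39672) (nat_lit 6) (nat_lit 522) (nat_lit 5) (nat_lit 178) (nat_lit 179) (nat_lit 213)))))) (PT.nd (nat_lit 312) (PT.nd (nat_lit 156) (PT.nd (nat_lit 78) (PT.lf (nat_lit 41420) (nat_lit 3) (nat_lit 545) (nat_lit 3) (nat_lit 179) (nat_lit 179) (nat_lit 212)) (PT.lf (nat_lit 43168) (nat_lit 6) (nat_lit 568) (nat_lit 3) (nat_lit 180) (nat_lit 179) (nat_lit 211))) (PT.nd (nat_lit 78) (PT.lf (nat_lit 44840) (nat_lit 6) (nat_lit 590) (nat_lit 3) (nat_lit 181) (nat_lit 179) (nat_lit 210)) (PT.lf (nat_lit 46436) (nat_lit 6) (nat_lit 611) (nat_lit 3) (nat_lit 182) (nat_lit 179) (nat_lit 209)))) (PT.nd (nat_lit 156) (PT.nd (nat_lit 78) (PT.lf (nat_lit 47956) (nat_lit 6) (nat_lit 631) (nat_lit 3) (nat_lit 183) (nat_lit 179) (nat_lit 208)) (PT.lf (nat_lit 49400) (nat_lit 6) (nat_lit 650) (nat_lit 3) (nat_lit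 184) (nat_lit 179) (nat_lit 207))) (PT.nd (nat_lit 78) (PT.lf (nat_lit 50768) (nat_lit 6) (nat_lit 668) (nat_lit 3) (nat_lit 185) (nat_lit 179) (nat_lit 206)) (PT.nd (nat_lit 78) (PT.lf (nat_lit 52060) (nat_lit 6) (nat_lit 685) (nat_lit 3) (nat_lit 186) (nat_lit 179) (nat_lit 205)) (PT.lf (nat_lit 53276) (nat_lit 6) (nat_lit 701) (nat_lit 3) (nat_lit 187) (nat_lit 179) (nat_lit 204))))))) (PT.nd (nat_lit 702) (PT.nd (nat_lit 312) (PT.nd (nat_lit 156) (PT.nd (nat_lit 78) (PT.lf (nat_lit 54416) (nat_lit 6) (nat_lit 716) (nat_lit 3) (nat_lit 188) (nat_lit 179) (nat_lit 203)) (PT.lf (nat_lit 55480) (nat_lit 6) (nat_lit 730) (nat_lit 3) (nat_lit 189) (nat_lit 179) (nat_lit 202))) (PT.nd (nat_lit 78) (PT.lf (nat_lit 56468) (nat_lit 6) (nat_lit 743) (nat_lit 3) (nat_lit 190) (nat_lit 179) (nat_lit 201)) (PT.lf (nat_lit 56544) (nat_lit 6) (nat_lit 744) (nat_lit 3) (nat_lit 191) (nat_lit 179) (nat_lit 200)))) (PT.nd (nat_lit 156) (PT.nd (nat_lit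 78) (PT.lf (nat_lit 56620) (nat_lit 6) (nat_lit 745) (nat_lit 3) (nat_lit 192) (nat_lit 179) (nat_lit 199)) (PT.lf (nat_lit 56696) (nat_lit 6) (nat_lit 746) (nat_lit 3) (nat_lit 193) (nat_lit 179) (nat_lit 198))) (PT.nd (nat_lit 78) (PT.lf (nat_lit 56772) (nat_lit 6) (nat_lit 747) (nat_lit 3) (nat_lit 194) (nat_lit 179) (nat_lit 197)) (PT.nd (nat_lit 78) (PT.lf (nat_lit 56848) (nat_lit 6) (nat_lit 748) (nat_lit 3) (nat_lit 195) (nat_lit 179) (nat_lit 196)) (PT.lf (nat_lit 56848) (nat_lit 6) (nat_lit 748) (nat_lit 1) (nat_lit 196) (nat_lit 179) (nat_lit 195)))))) (PT.nd (nat_lit 312) (PT.nd (nat_lit 156) (PT.nd (nat_lit 78) (PT.lf (nat_lit 56772) (nat_lit 6) (nat_lit 747) (nat_lit 1) (nat_lit 197) (nat_lit 179) (nat_lit 194)) (PT.lf (nat_lit 56696) (nat_lit 6) (nat_lit 746) (nat_lit 1) (nat_lit 198) (nat_lit 179) (nat_lit 193))) (PT.nd (nat_lit 78) (PT.lf (nat_lit 56620) (nat_lit 6) (nat_lit 745) (nat_lit 1) (nat_lit 199) (nat_lit 179)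 (nat_lit 192)) (PT.lf (nat_lit 56544) (nat_lit 6) (nat_lit 744) (nat_lit 1) (nat_lit 200) (nat_lit 179) (nat_lit 191)))) (PT.nd (nat_lit 156) (PT.nd (nat_lit 78) (PT.lf (nat_lit 56468) (nat_lit 6) (nat_lit 743) (nat_lit 1) (nat_lit 201) (nat_lit 179) (nat_lit 190)) (PT.lf (nat_lit 55480) (nat_lit 6) (nat_lit 730) (nat_lit 1) (nat_lit 202) (nat_lit 179) (nat_lit 189))) (PT.nd (nat_lit 78) (PT.lf (nat_lit 54416) (nat_lit 6) (nat_lit 716) (nat_lit 1) (nat_lit 203) (nat_lit 179) (nat_lit 188)) (PT.nd (nat_lit 78) (PT.lf (nat_lit 53276) (nat_lit 6) (nat_lit 701) (nat_lit 1) (nat_lit 204) (nat_lit 179) (nat_lit 187)) (PT.lf (nat_lit 52060) (nat_lit 6) (nat_lit 685) (nat_lit 1) (nat_lit 205) (nat_lit 179) (nat_lit 186))))))))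
noncomputable def pc38 : PT := (PT.nd (nat_lit 57720) (PT.nd (nat_lit 57018) (PT.nd (nat_lit 312) (PT.nd (nat_lit 156) (PT.nd (nat_lit 78) (PT.lf (nat_lit 50768) (nat_lit 6) (nat_lit 668) (nat_lit 1) (nat_lit 206) (nat_lit 179) (nat_lit 185)) (PT.lf (nat_lit 49400) (nat_lit 6) (nat_lit 650) (nat_lit 1) (nat_lit 207) (nat_lit 179) (nat_lit 184))) (PT.nd (nat_lit 78) (PT.lf (nat_lit 47956) (nat_lit 6) (nat_lit 631) (nat_lit 1) (nat_lit 208) (nat_lit 179) (nat_lit 183)) (PT.lf (nat_lit 46436) (nat_lit 6) (nat_lit 611) (nat_lit 1) (nat_lit 209) (nat_lit 179) (nat_lit 182)))) (PT.nd (nat_lit 156) (PT.nd (nat_lit 78) (PT.lf (nat_lit 44840) (nat_lit 6) (nat_lit 590) (nat_lit 1) (nat_lit 210) (nat_lit 179) (nat_lit 181)) (PT.lf (nat_lit 43168) (nat_lit 6) (nat_lit 568) (nat_lit 1) (nat_lit 211) (nat_lit 179) (nat_lit 180))) (PT.nd (nat_lit 78) (PT.lf (nat_lit 41420) (nat_lit 3) (nat_lit 545) (nat_lit 0) (nat_lit 212) (nat_lit 179) (nat_lit 179))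 (PT.nd (nat_lit 78) (PT.lf (nat_lit 39672) (nat_lit 6) (nat_lit 522) (nat_lit 0) (nat_lit 213) (nat_lit 179) (nat_lit 178)) (PT.lf (nat_lit 37848) (nat_lit 6) (nat_lit 498) (nat_lit 0) (nat_lit 214) (nat_lit 179) (nat_lit 177)))))) (PT.nd (nat_lit 312) (PT.nd (nat_lit 156) (PT.nd (nat_lit 78) (PT.lf (nat_lit 37924) (nat_lit 6) (nat_lit 499) (nat_lit 5) (nat_lit 176) (nat_lit 180) (nat_lit 214)) (PT.lf (nat_lit 39748) (nat_lit 6) (nat_lit 523) (nat_lit 5) (nat_lit 177) (nat_lit 180) (nat_lit 213))) (PT.nd (nat_lit 78) (PT.lf (nat_lit 41496) (nat_lit 6) (nat_lit 546) (nat_lit 5) (nat_lit 178) (nat_lit 180) (nat_lit 212)) (PT.lf (nat_lit 43168) (nat_lit 6) (nat_lit 568) (nat_lit 5) (nat_lit 179) (nat_lit 180) (nat_lit 211)))) (PT.nd (nat_lit 156) (PT.nd (nat_lit 78) (PT.lf (nat_lit 44764) (nat_lit 3) (nat_lit 589) (nat_lit 3) (nat_lit 180) (nat_lit 180) (nat_lit 210)) (PT.lf (nat_lit 46360) (nat_lit 6) (nat_lit 610) (nat_lit 3) (nat_lit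 181) (nat_lit 180) (nat_lit 209))) (PT.nd (nat_lit 78) (PT.lf (nat_lit 47880) (nat_lit 6) (nat_lit 630) (nat_lit 3) (nat_lit 182) (nat_lit 180) (nat_lit 208)) (PT.nd (nat_lit 78) (PT.lf (nat_lit 49324) (nat_lit 6) (nat_lit 649) (nat_lit 3) (nat_lit 183) (nat_lit 180) (nat_lit 207)) (PT.lf (nat_lit 50692) (nat_lit 6) (nat_lit 667) (nat_lit 3) (nat_lit 184) (nat_lit 180) (nat_lit 206))))))) (PT.nd (nat_lit 702) (PT.nd (nat_lit 312) (PT.nd (nat_lit 156) (PT.nd (nat_lit 78) (PT.lf (nat_lit 51984) (nat_lit 6) (nat_lit 684) (nat_lit 3) (nat_lit 185) (nat_lit 180) (nat_lit 205)) (PT.lf (nat_lit 53200) (nat_lit 6) (nat_lit 700) (nat_lit 3) (nat_lit 186) (nat_lit 180) (nat_lit 204))) (PT.nd (nat_lit 78) (PT.lf (nat_lit 54340) (nat_lit 6) (nat_lit 715) (nat_lit 3) (nat_lit 187) (nat_lit 180) (nat_lit 203)) (PT.lf (nat_lit 55404) (nat_lit 6) (nat_lit 729) (nat_lit 3) (nat_lit 188) (nat_lit 180) (nat_lit 202)))) (PT.nd (nat_lit 156) (PT.nd (nat_lit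 78) (PT.lf (nat_lit 56392) (nat_lit 6) (nat_lit 742) (nat_lit 3) (nat_lit 189) (nat_lit 180) (nat_lit 201)) (PT.lf (nat_lit 57304) (nat_lit 6) (nat_lit 754) (nat_lit 3) (nat_lit 190) (nat_lit 180) (nat_lit 200))) (PT.nd (nat_lit 78) (PT.lf (nat_lit 57380) (nat_lit 6) (nat_lit 755) (nat_lit 3) (nat_lit 191) (nat_lit 180) (nat_lit 199)) (PT.nd (nat_lit 78) (PT.lf (nat_lit 57456) (nat_lit 6) (nat_lit 756) (nat_lit 3) (nat_lit 192) (nat_lit 180) (nat_lit 198)) (PT.lf (nat_lit 57532) (nat_lit 6) (nat_lit 757) (nat_lit 3) (nat_lit 193) (nat_lit 180) (nat_lit 197)))))) (PT.nd (nat_lit 312) (PT.nd (nat_lit 156) (PT.nd (nat_lit 78) (PT.lf (nat_lit 57608) (nat_lit 6) (nat_lit 758) (nat_lit 3) (nat_lit 194) (nat_lit 180) (nat_lit 196)) (PT.lf (nat_lit 57684) (nat_lit 3) (nat_lit 759) (nat_lit 1) (nat_lit 195) (nat_lit 180) (nat_lit 195))) (PT.nd (nat_lit 78) (PT.lf (nat_lit 57608) (nat_lit 6) (nat_lit 758) (nat_lit 1) (nat_lit 196) (nat_lit 180)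 (nat_lit 194)) (PT.lf (nat_lit 57532) (nat_lit 6) (nat_lit 757) (nat_lit 1) (nat_lit 197) (nat_lit 180) (nat_lit 193)))) (PT.nd (nat_lit 156) (PT.nd (nat_lit 78) (PT.lf (nat_lit 57456) (nat_lit 6) (nat_lit 756) (nat_lit 1) (nat_lit 198) (nat_lit 180) (nat_lit 192)) (PT.lf (nat_lit 57380) (nat_lit 6) (nat_lit 755) (nat_lit 1) (nat_lit 199) (nat_lit 180) (nat_lit 191))) (PT.nd (nat_lit 78) (PT.lf (nat_lit 57304) (nat_lit 6) (nat_lit 754) (nat_lit 1) (nat_lit 200) (nat_lit 180) (nat_lit 190)) (PT.nd (nat_lit 78) (PT.lf (nat_lit 56392) (nat_lit 6) (nat_lit 742) (nat_lit 1) (nat_lit 201) (nat_lit 180) (nat_lit 189)) (PT.lf (nat_lit 55404) (nat_lit 6) (nat_lit 729) (nat_lit 1) (nat_lit 202) (nat_lit 180) (nat_lit 188))))))))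
noncomputable def pc39 : PT := (PT.nd (nat_lit 57642) (PT.nd (nat_lit 702) (PT.nd (nat_lit 312) (PT.nd (nat_lit 156) (PT.nd (nat_lit 78) (PT.lf (nat_lit 54340) (nat_lit 6) (nat_lit 715) (nat_lit 1) (nat_lit 203) (nat_lit 180) (nat_lit 187)) (PT.lf (nat_lit 53200) (nat_lit 6) (nat_lit 700) (nat_lit 1) (nat_lit 204) (nat_lit 180) (nat_lit 186))) (PT.nd (nat_lit 78) (PT.lf (nat_lit 51984) (nat_lit 6) (nat_lit 684) (nat_lit 1) (nat_lit 205) (nat_lit 180) (nat_lit 185)) (PT.lf (nat_lit 50692) (nat_lit 6) (nat_lit 667) (nat_lit 1) (nat_lit 206) (nat_lit 180) (nat_lit 184)))) (PT.nd (nat_lit 156) (PT.nd (nat_lit 78) (PT.lf (nat_lit 49324) (nat_lit 6) (nat_lit 649) (nat_lit 1) (nat_lit 207) (nat_lit 180) (nat_lit 183)) (PT.lf (nat_lit 47880) (nat_lit 6) (nat_lit 630) (nat_lit 1) (nat_lit 208) (nat_lit 180) (nat_lit 182))) (PT.nd (nat_lit 78) (PT.lf (nat_lit 46360) (nat_lit 6) (nat_lit 610) (nat_lit 1) (nat_lit 209) (nat_lit 180) (nat_lit 181))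 (PT.nd (nat_lit 78) (PT.lf (nat_lit 44764) (nat_lit 3) (nat_lit 589) (nat_lit 0) (nat_lit 210) (nat_lit 180) (nat_lit 180)) (PT.lf (nat_lit 43168) (nat_lit 6) (nat_lit 568) (nat_lit 0) (nat_lit 211) (nat_lit 180) (nat_lit 179)))))) (PT.nd (nat_lit 56550) (PT.nd (nat_lit 156) (PT.nd (nat_lit 78) (PT.lf (nat_lit 41496) (nat_lit 6) (nat_lit 546) (nat_lit 0) (nat_lit 212) (nat_lit 180) (nat_lit 178)) (PT.lf (nat_lit 39748) (nat_lit 6) (nat_lit 523) (nat_lit 0) (nat_lit 213) (nat_lit 180) (nat_lit 177))) (PT.nd (nat_lit 56316) (PT.lf (nat_lit 37924) (nat_lit 6) (nat_lit 499) (nat_lit 0) (nat_lit 214) (nat_lit 180) (nat_lit 176)) (PT.lf (nat_lit 38000) (nat_lit 6) (nat_lit 500) (nat_lit 5) (nat_lit 175) (nat_lit 181) (nat_lit 214)))) (PT.nd (nat_lit 156) (PT.nd (nat_lit 78) (PT.lf (nat_lit 39824) (nat_lit 6) (nat_lit 524) (nat_lit 5) (nat_lit 176) (nat_lit 181) (nat_lit 213)) (PT.lf (nat_lit 41572) (nat_lit 6) (nat_lit 547) (nat_lit 5) (nat_lit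 177) (nat_lit 181) (nat_lit 212))) (PT.nd (nat_lit 78) (PT.lf (nat_lit 43244) (nat_lit 6) (nat_lit 569) (nat_lit 5) (nat_lit 178) (nat_lit 181) (nat_lit 211)) (PT.nd (nat_lit 78) (PT.lf (nat_lit 44840) (nat_lit 6) (nat_lit 590) (nat_lit 5) (nat_lit 179) (nat_lit 181) (nat_lit 210)) (PT.lf (nat_lit 46360) (nat_lit 6) (nat_lit 610) (nat_lit 5) (nat_lit 180) (nat_lit 181) (nat_lit 209))))))) (PT.nd (nat_lit 702) (PT.nd (nat_lit 312) (PT.nd (nat_lit 156) (PT.nd (nat_lit 78) (PT.lf (nat_lit 47804) (nat_lit 3) (nat_lit 629) (nat_lit 3) (nat_lit 181) (nat_lit 181) (nat_lit 208)) (PT.lf (nat_lit 49248) (nat_lit 6) (nat_lit 648) (nat_lit 3) (nat_lit 182) (nat_lit 181) (nat_lit 207))) (PT.nd (nat_lit 78) (PT.lf (nat_lit 50616) (nat_lit 6) (nat_lit 666) (nat_lit 3) (nat_lit 183) (nat_lit 181) (nat_lit 206)) (PT.lf (nat_lit 51908) (nat_lit 6) (nat_lit 683) (nat_lit 3) (nat_lit 184) (nat_lit 181) (nat_lit 205)))) (PT.nd (nat_lit 156) (PT.nd (nat_lit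 78) (PT.lf (nat_lit 53124) (nat_lit 6) (nat_lit 699) (nat_lit 3) (nat_lit 185) (nat_lit 181) (nat_lit 204)) (PT.lf (nat_lit 54264) (nat_lit 6) (nat_lit 714) (nat_lit 3) (nat_lit 186) (nat_lit 181) (nat_lit 203))) (PT.nd (nat_lit 78) (PT.lf (nat_lit 55328) (nat_lit 6) (nat_lit 728) (nat_lit 3) (nat_lit 187) (nat_lit 181) (nat_lit 202)) (PT.nd (nat_lit 78) (PT.lf (nat_lit 56316) (nat_lit 6) (nat_lit 741) (nat_lit 3) (nat_lit 188) (nat_lit 181) (nat_lit 201)) (PT.lf (nat_lit 57228) (nat_lit 6) (nat_lit 753) (nat_lit 3) (nat_lit 189) (nat_lit 181) (nat_lit 200)))))) (PT.nd (nat_lit 312) (PT.nd (nat_lit 156) (PT.nd (nat_lit 78) (PT.lf (nat_lit 58064) (nat_lit 6) (nat_lit 764) (nat_lit 3) (nat_lit 190) (nat_lit 181) (nat_lit 199)) (PT.lf (nat_lit 58140) (nat_lit 6) (nat_lit 765) (nat_lit 3) (nat_lit 191) (nat_lit 181) (nat_lit 198))) (PT.nd (nat_lit 78) (PT.lf (nat_lit 58216) (nat_lit 6) (nat_lit 766) (nat_lit 3) (nat_lit 192) (nat_lit 181)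 (nat_lit 197)) (PT.lf (nat_lit 58292) (nat_lit 6) (nat_lit 767) (nat_lit 3) (nat_lit 193) (nat_lit 181) (nat_lit 196)))) (PT.nd (nat_lit 156) (PT.nd (nat_lit 78) (PT.lf (nat_lit 58368) (nat_lit 6) (nat_lit 768) (nat_lit 3) (nat_lit 194) (nat_lit 181) (nat_lit 195)) (PT.lf (nat_lit 58368) (nat_lit 6) (nat_lit 768) (nat_lit 1) (nat_lit 195) (nat_lit 181) (nat_lit 194))) (PT.nd (nat_lit 78) (PT.lf (nat_lit 58292) (nat_lit 6) (nat_lit 767) (nat_lit 1) (nat_lit 196) (nat_lit 181) (nat_lit 193)) (PT.nd (nat_lit 78) (PT.lf (nat_lit 58216) (nat_lit 6) (nat_lit 766) (nat_lit 1) (nat_lit 197) (nat_lit 181) (nat_lit 192)) (PT.lf (nat_lit 58140) (nat_lit 6) (nat_lit 765) (nat_lit 1) (nat_lit 198) (nat_lit 181) (nat_lit 191))))))))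
noncomputable def pc40 : PT := (PT.nd (nat_lit 57486) (PT.nd (nat_lit 624) (PT.nd (nat_lit 312) (PT.nd (nat_lit 156) (PT.nd (nat_lit 78) (PT.lf (nat_lit 58064) (nat_lit 6) (nat_lit 764) (nat_lit 1) (nat_lit 199) (nat_lit 181) (nat_lit 190)) (PT.lf (nat_lit 57228) (nat_lit 6) (nat_lit 753) (nat_lit 1) (nat_lit 200) (nat_lit 181) (nat_lit 189))) (PT.nd (nat_lit 78) (PT.lf (nat_lit 56316) (nat_lit 6) (nat_lit 741) (nat_lit 1) (nat_lit 201) (nat_lit 181) (nat_lit 188)) (PT.lf (nat_lit 55328) (nat_lit 6) (nat_lit 728) (nat_lit 1) (nat_lit 202) (nat_lit 181) (nat_lit 187)))) (PT.nd (nat_lit 156) (PT.nd (nat_lit 78) (PT.lf (nat_lit 54264) (nat_lit 6) (nat_lit 714) (nat_lit 1) (nat_lit 203) (nat_lit 181) (nat_lit 186)) (PT.lf (nat_lit 53124) (nat_lit 6) (nat_lit 699) (nat_lit 1) (nat_lit 204) (nat_lit 181) (nat_lit 185))) (PT.nd (nat_lit 78) (PT.lf (nat_lit 51908) (nat_lit 6) (nat_lit 683) (nat_lit 1) (nat_lit 205) (nat_lit 181) (nat_lit 184))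 (PT.lf (nat_lit 50616) (nat_lit 6) (nat_lit 666) (nat_lit 1) (nat_lit 206) (nat_lit 181) (nat_lit 183))))) (PT.nd (nat_lit 312) (PT.nd (nat_lit 156) (PT.nd (nat_lit 78) (PT.lf (nat_lit 49248) (nat_lit 6) (nat_lit 648) (nat_lit 1) (nat_lit 207) (nat_lit 181) (nat_lit 182)) (PT.lf (nat_lit 47804) (nat_lit 3) (nat_lit 629) (nat_lit 0) (nat_lit 208) (nat_lit 181) (nat_lit 181))) (PT.nd (nat_lit 78) (PT.lf (nat_lit 46360) (nat_lit 6) (nat_lit 610) (nat_lit 0) (nat_lit 209) (nat_lit 181) (nat_lit 180)) (PT.lf (nat_lit 44840) (nat_lit 6) (nat_lit 590) (nat_lit 0) (nat_lit 210) (nat_lit 181) (nat_lit 179)))) (PT.nd (nat_lit 156) (PT.nd (nat_lit 78) (PT.lf (nat_lit 43244) (nat_lit 6) (nat_lit 569) (nat_lit 0) (nat_lit 211) (nat_lit 181) (nat_lit 178)) (PT.lf (nat_lit 41572) (nat_lit 6) (nat_lit 547) (nat_lit 0) (nat_lit 212) (nat_lit 181) (nat_lit 177))) (PT.nd (nat_lit 78) (PT.lf (nat_lit 39824) (nat_lit 6) (nat_lit 524) (nat_lit 0) (nat_lit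 213) (nat_lit 181) (nat_lit 176)) (PT.nd (nat_lit 56238) (PT.lf (nat_lit 38000) (nat_lit 6) (nat_lit 500) (nat_lit 0) (nat_lit 214) (nat_lit 181) (nat_lit 175)) (PT.lf (nat_lit 38076) (nat_lit 6) (nat_lit 501) (nat_lit 5) (nat_lit 174) (nat_lit 182) (nat_lit 214))))))) (PT.nd (nat_lit 702) (PT.nd (nat_lit 312) (PT.nd (nat_lit 156) (PT.nd (nat_lit 78) (PT.lf (nat_lit 39900) (nat_lit 6) (nat_lit 525) (nat_lit 5) (nat_lit 175) (nat_lit 182) (nat_lit 213)) (PT.lf (nat_lit 41648) (nat_lit 6) (nat_lit 548) (nat_lit 5) (nat_lit 176) (nat_lit 182) (nat_lit 212))) (PT.nd (nat_lit 78) (PT.lf (nat_lit 43320) (nat_lit 6) (nat_lit 570) (nat_lit 5) (nat_lit 177) (nat_lit 182) (nat_lit 211)) (PT.lf (nat_lit 44916) (nat_lit 6) (nat_lit 591) (nat_lit 5) (nat_lit 178) (nat_lit 182) (nat_lit 210)))) (PT.nd (nat_lit 156) (PT.nd (nat_lit 78) (PT.lf (nat_lit 46436) (nat_lit 6) (nat_lit 611) (nat_lit 5) (nat_lit 179) (nat_lit 182) (nat_lit 209)) (PT.lf (nat_lit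 47880) (nat_lit 6) (nat_lit 630) (nat_lit 5) (nat_lit 180) (nat_lit 182) (nat_lit 208))) (PT.nd (nat_lit 78) (PT.lf (nat_lit 49248) (nat_lit 6) (nat_lit 648) (nat_lit 5) (nat_lit 181) (nat_lit 182) (nat_lit 207)) (PT.nd (nat_lit 78) (PT.lf (nat_lit 50540) (nat_lit 3) (nat_lit 665) (nat_lit 3) (nat_lit 182) (nat_lit 182) (nat_lit 206)) (PT.lf (nat_lit 51832) (nat_lit 6) (nat_lit 682) (nat_lit 3) (nat_lit 183) (nat_lit 182) (nat_lit 205)))))) (PT.nd (nat_lit 312) (PT.nd (nat_lit 156) (PT.nd (nat_lit 78) (PT.lf (nat_lit 53048) (nat_lit 6) (nat_lit 698) (nat_lit 3) (nat_lit 184) (nat_lit 182) (nat_lit 204)) (PT.lf (nat_lit 54188) (nat_lit 6) (nat_lit 713) (nat_lit 3) (nat_lit 185) (nat_lit 182) (nat_lit 203))) (PT.nd (nat_lit 78) (PT.lf (nat_lit 55252) (nat_lit 6) (nat_lit 727) (nat_lit 3) (nat_lit 186) (nat_lit 182) (nat_lit 202)) (PT.lf (nat_lit 56240) (nat_lit 6) (nat_lit 740) (nat_lit 3) (nat_lit 187) (nat_lit 182) (nat_lit 201)))) (PT.nd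 (nat_lit 156) (PT.nd (nat_lit 78) (PT.lf (nat_lit 57152) (nat_lit 6) (nat_lit 752) (nat_lit 3) (nat_lit 188) (nat_lit 182) (nat_lit 200)) (PT.lf (nat_lit 57988) (nat_lit 6) (nat_lit 763) (nat_lit 3) (nat_lit 189) (nat_lit 182) (nat_lit 199))) (PT.nd (nat_lit 78) (PT.lf (nat_lit 58748) (nat_lit 6) (nat_lit 773) (nat_lit 3) (nat_lit 190) (nat_lit 182) (nat_lit 198)) (PT.nd (nat_lit 78) (PT.lf (nat_lit 58824) (nat_lit 6) (nat_lit 774) (nat_lit 3) (nat_lit 191) (nat_lit 182) (nat_lit 197)) (PT.lf (nat_lit 58900) (nat_lit 6) (nat_lit 775) (nat_lit 3) (nat_lit 192) (nat_lit 182) (nat_lit 196))))))))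
noncomputable def pc41 : PT := (PT.nd (nat_lit 1404) (PT.nd (nat_lit 702) (PT.nd (nat_lit 312) (PT.nd (nat_lit 156) (PT.nd (nat_lit 78) (PT.lf (nat_lit 58976) (nat_lit 6) (nat_lit 776) (nat_lit 3) (nat_lit 193) (nat_lit 182) (nat_lit 195)) (PT.lf (nat_lit 59052) (nat_lit 3) (nat_lit 777) (nat_lit 1) (nat_lit 194) (nat_lit 182) (nat_lit 194))) (PT.nd (nat_lit 78) (PT.lf (nat_lit 58976) (nat_lit 6) (nat_lit 776) (nat_lit 1) (nat_lit 195) (nat_lit 182) (nat_lit 193)) (PT.lf (nat_lit 58900) (nat_lit 6) (nat_lit 775) (nat_lit 1) (nat_lit 196) (nat_lit 182) (nat_lit 192)))) (PT.nd (nat_lit 156) (PT.nd (nat_lit 78) (PT.lf (nat_lit 58824) (nat_lit 6) (nat_lit 774) (nat_lit 1) (nat_lit 197) (nat_lit 182) (nat_lit 191)) (PT.lf (nat_lit 58748) (nat_lit 6) (nat_lit 773) (nat_lit 1) (nat_lit 198) (nat_lit 182) (nat_lit 190))) (PT.nd (nat_lit 78) (PT.lf (nat_lit 57988) (nat_lit 6) (nat_lit 763) (nat_lit 1) (nat_lit 199) (nat_lit 182) (nat_lit 189))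 (PT.nd (nat_lit 78) (PT.lf (nat_lit 57152) (nat_lit 6) (nat_lit 752) (nat_lit 1) (nat_lit 200) (nat_lit 182) (nat_lit 188)) (PT.lf (nat_lit 56240) (nat_lit 6) (nat_lit 740) (nat_lit 1) (nat_lit 201) (nat_lit 182) (nat_lit 187)))))) (PT.nd (nat_lit 312) (PT.nd (nat_lit 156) (PT.nd (nat_lit 78) (PT.lf (nat_lit 55252) (nat_lit 6) (nat_lit 727) (nat_lit 1) (nat_lit 202) (nat_lit 182) (nat_lit 186)) (PT.lf (nat_lit 54188) (nat_lit 6) (nat_lit 713) (nat_lit 1) (nat_lit 203) (nat_lit 182) (nat_lit 185))) (PT.nd (nat_lit 78) (PT.lf (nat_lit 53048) (nat_lit 6) (nat_lit 698) (nat_lit 1) (nat_lit 204) (nat_lit 182) (nat_lit 184)) (PT.lf (nat_lit 51832) (nat_lit 6) (nat_lit 682) (nat_lit 1) (nat_lit 205) (nat_lit 182) (nat_lit 183)))) (PT.nd (nat_lit 156) (PT.nd (nat_lit 78) (PT.lf (nat_lit 50540) (nat_lit 3) (nat_lit 665) (nat_lit 0) (nat_lit 206) (nat_lit 182) (nat_lit 182)) (PT.lf (nat_lit 49248) (nat_lit 6) (nat_lit 648) (nat_lit 0) (nat_lit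 207) (nat_lit 182) (nat_lit 181))) (PT.nd (nat_lit 78) (PT.lf (nat_lit 47880) (nat_lit 6) (nat_lit 630) (nat_lit 0) (nat_lit 208) (nat_lit 182) (nat_lit 180)) (PT.nd (nat_lit 78) (PT.lf (nat_lit 46436) (nat_lit 6) (nat_lit 611) (nat_lit 0) (nat_lit 209) (nat_lit 182) (nat_lit 179)) (PT.lf (nat_lit 44916) (nat_lit 6) (nat_lit 591) (nat_lit 0) (nat_lit 210) (nat_lit 182) (nat_lit 178))))))) (PT.nd (nat_lit 56784) (PT.nd (nat_lit 56394) (PT.nd (nat_lit 156) (PT.nd (nat_lit 78) (PT.lf (nat_lit 43320) (nat_lit 6) (nat_lit 570) (nat_lit 0) (nat_lit 211) (nat_lit 182) (nat_lit 177)) (PT.lf (nat_lit 41648) (nat_lit 6) (nat_lit 548) (nat_lit 0) (nat_lit 212) (nat_lit 182) (nat_lit 176))) (PT.nd (nat_lit 78) (PT.lf (nat_lit 39900) (nat_lit 6) (nat_lit 525) (nat_lit 0) (nat_lit 213) (nat_lit 182) (nat_lit 175)) (PT.lf (nat_lit 38076) (nat_lit 6) (nat_lit 501) (nat_lit 0) (nat_lit 214) (nat_lit 182) (nat_lit 174)))) (PT.nd (nat_lit 156) (PT.nd (nat_lit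 78) (PT.lf (nat_lit 38152) (nat_lit 6) (nat_lit 502) (nat_lit 5) (nat_lit 173) (nat_lit 183) (nat_lit 214)) (PT.lf (nat_lit 39976) (nat_lit 6) (nat_lit 526) (nat_lit 5) (nat_lit 174) (nat_lit 183) (nat_lit 213))) (PT.nd (nat_lit 78) (PT.lf (nat_lit 41724) (nat_lit 6) (nat_lit 549) (nat_lit 5) (nat_lit 175) (nat_lit 183) (nat_lit 212)) (PT.nd (nat_lit 78) (PT.lf (nat_lit 43396) (nat_lit 6) (nat_lit 571) (nat_lit 5) (nat_lit 176) (nat_lit 183) (nat_lit 211)) (PT.lf (nat_lit 44992) (nat_lit 6) (nat_lit 592) (nat_lit 5) (nat_lit 177) (nat_lit 183) (nat_lit 210)))))) (PT.nd (nat_lit 312) (PT.nd (nat_lit 156) (PT.nd (nat_lit 78) (PT.lf (nat_lit 46512) (nat_lit 6) (nat_lit 612) (nat_lit 5) (nat_lit 178) (nat_lit 183) (nat_lit 209)) (PT.lf (nat_lit 47956) (nat_lit 6) (nat_lit 631) (nat_lit 5) (nat_lit 179) (nat_lit 183) (nat_lit 208))) (PT.nd (nat_lit 78) (PT.lf (nat_lit 49324) (nat_lit 6) (nat_lit 649) (nat_lit 5) (nat_lit 180) (nat_lit 183)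 (nat_lit 207)) (PT.lf (nat_lit 50616) (nat_lit 6) (nat_lit 666) (nat_lit 5) (nat_lit 181) (nat_lit 183) (nat_lit 206)))) (PT.nd (nat_lit 156) (PT.nd (nat_lit 78) (PT.lf (nat_lit 51832) (nat_lit 6) (nat_lit 682) (nat_lit 5) (nat_lit 182) (nat_lit 183) (nat_lit 205)) (PT.lf (nat_lit 52972) (nat_lit 3) (nat_lit 697) (nat_lit 3) (nat_lit 183) (nat_lit 183) (nat_lit 204))) (PT.nd (nat_lit 78) (PT.lf (nat_lit 54112) (nat_lit 6) (nat_lit 712) (nat_lit 3) (nat_lit 184) (nat_lit 183) (nat_lit 203)) (PT.nd (nat_lit 78) (PT.lf (nat_lit 55176) (nat_lit 6) (nat_lit 726) (nat_lit 3) (nat_lit 185) (nat_lit 183) (nat_lit 202)) (PT.lf (nat_lit 56164) (nat_lit 6) (nat_lit 739) (nat_lit 3) (nat_lit 186) (nat_lit 183) (nat_lit 201))))))))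
noncomputable def pc42 : PT := (PT.nd (nat_lit 1404) (PT.nd (nat_lit 702) (PT.nd (nat_lit 312) (PT.nd (nat_lit 156) (PT.nd (nat_lit 78) (PT.lf (nat_lit 57076) (nat_lit 6) (nat_lit 751) (nat_lit 3) (nat_lit 187) (nat_lit 183) (nat_lit 200)) (PT.lf (nat_lit 57912) (nat_lit 6) (nat_lit 762) (nat_lit 3) (nat_lit 188) (nat_lit 183) (nat_lit 199))) (PT.nd (nat_lit 78) (PT.lf (nat_lit 58672) (nat_lit 6) (nat_lit 772) (nat_lit 3) (nat_lit 189) (nat_lit 183) (nat_lit 198)) (PT.lf (nat_lit 59356) (nat_lit 6) (nat_lit 781) (nat_lit 3) (nat_lit 190) (nat_lit 183) (nat_lit 197)))) (PT.nd (nat_lit 156) (PT.nd (nat_lit 78) (PT.lf (nat_lit 59432) (nat_lit 6) (nat_lit 782) (nat_lit 3) (nat_lit 191) (nat_lit 183) (nat_lit 196)) (PT.lf (nat_lit 59508) (nat_lit 6) (nat_lit 783) (nat_lit 3) (nat_lit 192) (nat_lit 183) (nat_lit 195))) (PT.nd (nat_lit 78) (PT.lf (nat_lit 59584) (nat_lit 6) (nat_lit 784) (nat_lit 3) (nat_lit 193) (nat_lit 183) (nat_lit 194))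 (PT.nd (nat_lit 78) (PT.lf (nat_lit 59584) (nat_lit 6) (nat_lit 784) (nat_lit 1) (nat_lit 194) (nat_lit 183) (nat_lit 193)) (PT.lf (nat_lit 59508) (nat_lit 6) (nat_lit 783) (nat_lit 1) (nat_lit 195) (nat_lit 183) (nat_lit 192)))))) (PT.nd (nat_lit 312) (PT.nd (nat_lit 156) (PT.nd (nat_lit 78) (PT.lf (nat_lit 59432) (nat_lit 6) (nat_lit 782) (nat_lit 1) (nat_lit 196) (nat_lit 183) (nat_lit 191)) (PT.lf (nat_lit 59356) (nat_lit 6) (nat_lit 781) (nat_lit 1) (nat_lit 197) (nat_lit 183) (nat_lit 190))) (PT.nd (nat_lit 78) (PT.lf (nat_lit 58672) (nat_lit 6) (nat_lit 772) (nat_lit 1) (nat_lit 198) (nat_lit 183) (nat_lit 189)) (PT.lf (nat_lit 57912) (nat_lit 6) (nat_lit 762) (nat_lit 1) (nat_lit 199) (nat_lit 183) (nat_lit 188)))) (PT.nd (nat_lit 156) (PT.nd (nat_lit 78) (PT.lf (nat_lit 57076) (nat_lit 6) (nat_lit 751) (nat_lit 1) (nat_lit 200) (nat_lit 183) (nat_lit 187)) (PT.lf (nat_lit 56164) (nat_lit 6) (nat_lit 739) (nat_lit 1) (nat_lit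 201) (nat_lit 183) (nat_lit 186))) (PT.nd (nat_lit 78) (PT.lf (nat_lit 55176) (nat_lit 6) (nat_lit 726) (nat_lit 1) (nat_lit 202) (nat_lit 183) (nat_lit 185)) (PT.nd (nat_lit 78) (PT.lf (nat_lit 54112) (nat_lit 6) (nat_lit 712) (nat_lit 1) (nat_lit 203) (nat_lit 183) (nat_lit 184)) (PT.lf (nat_lit 52972) (nat_lit 3) (nat_lit 697) (nat_lit 0) (nat_lit 204) (nat_lit 183) (nat_lit 183))))))) (PT.nd (nat_lit 702) (PT.nd (nat_lit 312) (PT.nd (nat_lit 156) (PT.nd (nat_lit 78) (PT.lf (nat_lit 51832) (nat_lit 6) (nat_lit 682) (nat_lit 0) (nat_lit 205) (nat_lit 183) (nat_lit 182)) (PT.lf (nat_lit 50616) (nat_lit 6) (nat_lit 666) (nat_lit 0) (nat_lit 206) (nat_lit 183) (nat_lit 181))) (PT.nd (nat_lit 78) (PT.lf (nat_lit 49324) (nat_lit 6) (nat_lit 649) (nat_lit 0) (nat_lit 207) (nat_lit 183) (nat_lit 180)) (PT.lf (nat_lit 47956) (nat_lit 6) (nat_lit 631) (nat_lit 0) (nat_lit 208) (nat_lit 183) (nat_lit 179)))) (PT.nd (nat_lit 156) (PT.nd (nat_lit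 78) (PT.lf (nat_lit 46512) (nat_lit 6) (nat_lit 612) (nat_lit 0) (nat_lit 209) (nat_lit 183) (nat_lit 178)) (PT.lf (nat_lit 44992) (nat_lit 6) (nat_lit 592) (nat_lit 0) (nat_lit 210) (nat_lit 183) (nat_lit 177))) (PT.nd (nat_lit 78) (PT.lf (nat_lit 43396) (nat_lit 6) (nat_lit 571) (nat_lit 0) (nat_lit 211) (nat_lit 183) (nat_lit 176)) (PT.nd (nat_lit 78) (PT.lf (nat_lit 41724) (nat_lit 6) (nat_lit 549) (nat_lit 0) (nat_lit 212) (nat_lit 183) (nat_lit 175)) (PT.lf (nat_lit 39976) (nat_lit 6) (nat_lit 526) (nat_lit 0) (nat_lit 213) (nat_lit 183) (nat_lit 174)))))) (PT.nd (nat_lit 56316) (PT.nd (nat_lit 56160) (PT.nd (nat_lit 56082) (PT.lf (nat_lit 38152) (nat_lit 6) (nat_lit 502) (nat_lit 0) (nat_lit 214) (nat_lit 183) (nat_lit 173)) (PT.lf (nat_lit 38228) (nat_lit 6) (nat_lit 503) (nat_lit 5) (nat_lit 172) (nat_lit 184) (nat_lit 214))) (PT.nd (nat_lit 78) (PT.lf (nat_lit 40052) (nat_lit 6) (nat_lit 527) (nat_lit 5) (nat_lit 173) (nat_lit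 184) (nat_lit 213)) (PT.lf (nat_lit 41800) (nat_lit 6) (nat_lit 550) (nat_lit 5) (nat_lit 174) (nat_lit 184) (nat_lit 212)))) (PT.nd (nat_lit 156) (PT.nd (nat_lit 78) (PT.lf (nat_lit 43472) (nat_lit 6) (nat_lit 572) (nat_lit 5) (nat_lit 175) (nat_lit 184) (nat_lit 211)) (PT.lf (nat_lit 45068) (nat_lit 6) (nat_lit 593) (nat_lit 5) (nat_lit 176) (nat_lit 184) (nat_lit 210))) (PT.nd (nat_lit 78) (PT.lf (nat_lit 46588) (nat_lit 6) (nat_lit 613) (nat_lit 5) (nat_lit 177) (nat_lit 184) (nat_lit 209)) (PT.nd (nat_lit 78) (PT.lf (nat_lit 48032) (nat_lit 6) (nat_lit 632) (nat_lit 5) (nat_lit 178) (nat_lit 184) (nat_lit 208)) (PT.lf (nat_lit 49400) (nat_lit 6) (nat_lit 650) (nat_lit 5) (nat_lit 179) (nat_lit 184) (nat_lit 207))))))))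
noncomputable def pc43 : PT := (PT.nd (nat_lit 1404) (PT.nd (nat_lit 702) (PT.nd (nat_lit 312) (PT.nd (nat_lit 156) (PT.nd (nat_lit 78) (PT.lf (nat_lit 50692) (nat_lit 6) (nat_lit 667) (nat_lit 5) (nat_lit 180) (nat_lit 184) (nat_lit 206)) (PT.lf (nat_lit 51908) (nat_lit 6) (nat_lit 683) (nat_lit 5) (nat_lit 181) (nat_lit 184) (nat_lit 205))) (PT.nd (nat_lit 78) (PT.lf (nat_lit 53048) (nat_lit 6) (nat_lit 698) (nat_lit 5) (nat_lit 182) (nat_lit 184) (nat_lit 204)) (PT.lf (nat_lit 54112) (nat_lit 6) (nat_lit 712) (nat_lit 5) (nat_lit 183) (nat_lit 184) (nat_lit 203)))) (PT.nd (nat_lit 156) (PT.nd (nat_lit 78) (PT.lf (nat_lit 55100) (nat_lit 3) (nat_lit 725) (nat_lit 3) (nat_lit 184) (nat_lit 184) (nat_lit 202)) (PT.lf (nat_lit 56088) (nat_lit 6) (nat_lit 738) (nat_lit 3) (nat_lit 185) (nat_lit 184) (nat_lit 201))) (PT.nd (nat_lit 78) (PT.lf (nat_lit 57000) (nat_lit 6) (nat_lit 750) (nat_lit 3) (nat_lit 186) (nat_lit 184) (nat_lit 200))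 (PT.nd (nat_lit 78) (PT.lf (nat_lit 57836) (nat_lit 6) (nat_lit 761) (nat_lit 3) (nat_lit 187) (nat_lit 184) (nat_lit 199)) (PT.lf (nat_lit 58596) (nat_lit 6) (nat_lit 771) (nat_lit 3) (nat_lit 188) (nat_lit 184) (nat_lit 198)))))) (PT.nd (nat_lit 312) (PT.nd (nat_lit 156) (PT.nd (nat_lit 78) (PT.lf (nat_lit 59280) (nat_lit 6) (nat_lit 780) (nat_lit 3) (nat_lit 189) (nat_lit 184) (nat_lit 197)) (PT.lf (nat_lit 59888) (nat_lit 6) (nat_lit 788) (nat_lit 3) (nat_lit 190) (nat_lit 184) (nat_lit 196))) (PT.nd (nat_lit 78) (PT.lf (nat_lit 59964) (nat_lit 6) (nat_lit 789) (nat_lit 3) (nat_lit 191) (nat_lit 184) (nat_lit 195)) (PT.lf (nat_lit 60040) (nat_lit 6) (nat_lit 790) (nat_lit 3) (nat_lit 192) (nat_lit 184) (nat_lit 194)))) (PT.nd (nat_lit 156) (PT.nd (nat_lit 78) (PT.lf (nat_lit 60116) (nat_lit 3) (nat_lit 791) (nat_lit 1) (nat_lit 193) (nat_lit 184) (nat_lit 193)) (PT.lf (nat_lit 60040) (nat_lit 6) (nat_lit 790) (nat_lit 1) (nat_lit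 194) (nat_lit 184) (nat_lit 192))) (PT.nd (nat_lit 78) (PT.lf (nat_lit 59964) (nat_lit 6) (nat_lit 789) (nat_lit 1) (nat_lit 195) (nat_lit 184) (nat_lit 191)) (PT.nd (nat_lit 78) (PT.lf (nat_lit 59888) (nat_lit 6) (nat_lit 788) (nat_lit 1) (nat_lit 196) (nat_lit 184) (nat_lit 190)) (PT.lf (nat_lit 59280) (nat_lit 6) (nat_lit 780) (nat_lit 1) (nat_lit 197) (nat_lit 184) (nat_lit 189))))))) (PT.nd (nat_lit 702) (PT.nd (nat_lit 312) (PT.nd (nat_lit 156) (PT.nd (nat_lit 78) (PT.lf (nat_lit 58596) (nat_lit 6) (nat_lit 771) (nat_lit 1) (nat_lit 198) (nat_lit 184) (nat_lit 188)) (PT.lf (nat_lit 57836) (nat_lit 6) (nat_lit 761) (nat_lit 1) (nat_lit 199) (nat_lit 184) (nat_lit 187))) (PT.nd (nat_lit 78) (PT.lf (nat_lit 57000) (nat_lit 6) (nat_lit 750) (nat_lit 1) (nat_lit 200) (nat_lit 184) (nat_lit 186)) (PT.lf (nat_lit 56088) (nat_lit 6) (nat_lit 738) (nat_lit 1) (nat_lit 201) (nat_lit 184) (nat_lit 185)))) (PT.nd (nat_lit 156) (PT.nd (nat_lit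 78) (PT.lf (nat_lit 55100) (nat_lit 3) (nat_lit 725) (nat_lit 0) (nat_lit 202) (nat_lit 184) (nat_lit 184)) (PT.lf (nat_lit 54112) (nat_lit 6) (nat_lit 712) (nat_lit 0) (nat_lit 203) (nat_lit 184) (nat_lit 183))) (PT.nd (nat_lit 78) (PT.lf (nat_lit 53048) (nat_lit 6) (nat_lit 698) (nat_lit 0) (nat_lit 204) (nat_lit 184) (nat_lit 182)) (PT.nd (nat_lit 78) (PT.lf (nat_lit 51908) (nat_lit 6) (nat_lit 683) (nat_lit 0) (nat_lit 205) (nat_lit 184) (nat_lit 181)) (PT.lf (nat_lit 50692) (nat_lit 6) (nat_lit 667) (nat_lit 0) (nat_lit 206) (nat_lit 184) (nat_lit 180)))))) (PT.nd (nat_lit 312) (PT.nd (nat_lit 156) (PT.nd (nat_lit 78) (PT.lf (nat_lit 49400) (nat_lit 6) (nat_lit 650) (nat_lit 0) (nat_lit 207) (nat_lit 184) (nat_lit 179)) (PT.lf (nat_lit 48032) (nat_lit 6) (nat_lit 632) (nat_lit 0) (nat_lit 208) (nat_lit 184) (nat_lit 178))) (PT.nd (nat_lit 78) (PT.lf (nat_lit 46588) (nat_lit 6) (nat_lit 613) (nat_lit 0) (nat_lit 209) (nat_lit 184)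 (nat_lit 177)) (PT.lf (nat_lit 45068) (nat_lit 6) (nat_lit 593) (nat_lit 0) (nat_lit 210) (nat_lit 184) (nat_lit 176)))) (PT.nd (nat_lit 156) (PT.nd (nat_lit 78) (PT.lf (nat_lit 43472) (nat_lit 6) (nat_lit 572) (nat_lit 0) (nat_lit 211) (nat_lit 184) (nat_lit 175)) (PT.lf (nat_lit 41800) (nat_lit 6) (nat_lit 550) (nat_lit 0) (nat_lit 212) (nat_lit 184) (nat_lit 174))) (PT.nd (nat_lit 78) (PT.lf (nat_lit 40052) (nat_lit 6) (nat_lit 527) (nat_lit 0) (nat_lit 213) (nat_lit 184) (nat_lit 173)) (PT.nd (nat_lit 56004) (PT.lf (nat_lit 38228) (nat_lit 6) (nat_lit 503) (nat_lit 0) (nat_lit 214) (nat_lit 184) (nat_lit 172)) (PT.lf (nat_lit 38304) (nat_lit 6) (nat_lit 504) (nat_lit 5) (nat_lit 171) (nat_lit 185) (nat_lit 214))))))))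
noncomputable def pc44 : PT := (PT.nd (nat_lit 1326) (PT.nd (nat_lit 624) (PT.nd (nat_lit 312) (PT.nd (nat_lit 156) (PT.nd (nat_lit 78) (PT.lf (nat_lit 40128) (nat_lit 6) (nat_lit 528) (nat_lit 5) (nat_lit 172) (nat_lit 185) (nat_lit 213)) (PT.lf (nat_lit 41876) (nat_lit 6) (nat_lit 551) (nat_lit 5) (nat_lit 173) (nat_lit 185) (nat_lit 212))) (PT.nd (nat_lit 78) (PT.lf (nat_lit 43548) (nat_lit 6) (nat_lit 573) (nat_lit 5) (nat_lit 174) (nat_lit 185) (nat_lit 211)) (PT.lf (nat_lit 45144) (nat_lit 6) (nat_lit 594) (nat_lit 5) (nat_lit 175) (nat_lit 185) (nat_lit 210)))) (PT.nd (nat_lit 156) (PT.nd (nat_lit 78) (PT.lf (nat_lit 46664) (nat_lit 6) (nat_lit 614) (nat_lit 5) (nat_lit 176) (nat_lit 185) (nat_lit 209)) (PT.lf (nat_lit 48108) (nat_lit 6) (nat_lit 633) (nat_lit 5) (nat_lit 177) (nat_lit 185) (nat_lit 208))) (PT.nd (nat_lit 78) (PT.lf (nat_lit 49476) (nat_lit 6) (nat_lit 651) (nat_lit 5) (nat_lit 178) (nat_lit 185) (nat_lit 207))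 (PT.lf (nat_lit 50768) (nat_lit 6) (nat_lit 668) (nat_lit 5) (nat_lit 179) (nat_lit 185) (nat_lit 206))))) (PT.nd (nat_lit 312) (PT.nd (nat_lit 156) (PT.nd (nat_lit 78) (PT.lf (nat_lit 51984) (nat_lit 6) (nat_lit 684) (nat_lit 5) (nat_lit 180) (nat_lit 185) (nat_lit 205)) (PT.lf (nat_lit 53124) (nat_lit 6) (nat_lit 699) (nat_lit 5) (nat_lit 181) (nat_lit 185) (nat_lit 204))) (PT.nd (nat_lit 78) (PT.lf (nat_lit 54188) (nat_lit 6) (nat_lit 713) (nat_lit 5) (nat_lit 182) (nat_lit 185) (nat_lit 203)) (PT.lf (nat_lit 55176) (nat_lit 6) (nat_lit 726) (nat_lit 5) (nat_lit 183) (nat_lit 185) (nat_lit 202)))) (PT.nd (nat_lit 156) (PT.nd (nat_lit 78) (PT.lf (nat_lit 56088) (nat_lit 6) (nat_lit 738) (nat_lit 5) (nat_lit 184) (nat_lit 185) (nat_lit 201)) (PT.lf (nat_lit 56924) (nat_lit 3) (nat_lit 749) (nat_lit 3) (nat_lit 185) (nat_lit 185) (nat_lit 200))) (PT.nd (nat_lit 78) (PT.lf (nat_lit 57760) (nat_lit 6) (nat_lit 760) (nat_lit 3) (nat_lit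 186) (nat_lit 185) (nat_lit 199)) (PT.nd (nat_lit 78) (PT.lf (nat_lit 58520) (nat_lit 6) (nat_lit 770) (nat_lit 3) (nat_lit 187) (nat_lit 185) (nat_lit 198)) (PT.lf (nat_lit 59204) (nat_lit 6) (nat_lit 779) (nat_lit 3) (nat_lit 188) (nat_lit 185) (nat_lit 197))))))) (PT.nd (nat_lit 702) (PT.nd (nat_lit 312) (PT.nd (nat_lit 156) (PT.nd (nat_lit 78) (PT.lf (nat_lit 59812) (nat_lit 6) (nat_lit 787) (nat_lit 3) (nat_lit 189) (nat_lit 185) (nat_lit 196)) (PT.lf (nat_lit 60344) (nat_lit 6) (nat_lit 794) (nat_lit 3) (nat_lit 190) (nat_lit 185) (nat_lit 195))) (PT.nd (nat_lit 78) (PT.lf (nat_lit 60420) (nat_lit 6) (nat_lit 795) (nat_lit 3) (nat_lit 191) (nat_lit 185) (nat_lit 194)) (PT.lf (nat_lit 60496) (nat_lit 6) (nat_lit 796) (nat_lit 3) (nat_lit 192) (nat_lit 185) (nat_lit 193)))) (PT.nd (nat_lit 156) (PT.nd (nat_lit 78) (PT.lf (nat_lit 60496) (nat_lit 6) (nat_lit 796) (nat_lit 1) (nat_lit 193) (nat_lit 185) (nat_lit 192)) (PT.lf (nat_lit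 60420) (nat_lit 6) (nat_lit 795) (nat_lit 1) (nat_lit 194) (nat_lit 185) (nat_lit 191))) (PT.nd (nat_lit 78) (PT.lf (nat_lit 60344) (nat_lit 6) (nat_lit 794) (nat_lit 1) (nat_lit 195) (nat_lit 185) (nat_lit 190)) (PT.nd (nat_lit 78) (PT.lf (nat_lit 59812) (nat_lit 6) (nat_lit 787) (nat_lit 1) (nat_lit 196) (nat_lit 185) (nat_lit 189)) (PT.lf (nat_lit 59204) (nat_lit 6) (nat_lit 779) (nat_lit 1) (nat_lit 197) (nat_lit 185) (nat_lit 188)))))) (PT.nd (nat_lit 312) (PT.nd (nat_lit 156) (PT.nd (nat_lit 78) (PT.lf (nat_lit 58520) (nat_lit 6) (nat_lit 770) (nat_lit 1) (nat_lit 198) (nat_lit 185) (nat_lit 187)) (PT.lf (nat_lit 57760) (nat_lit 6) (nat_lit 760) (nat_lit 1) (nat_lit 199) (nat_lit 185) (nat_lit 186))) (PT.nd (nat_lit 78) (PT.lf (nat_lit 56924) (nat_lit 3) (nat_lit 749) (nat_lit 0) (nat_lit 200) (nat_lit 185) (nat_lit 185)) (PT.lf (nat_lit 56088) (nat_lit 6) (nat_lit 738) (nat_lit 0) (nat_lit 201) (nat_lit 185) (nat_lit 184)))) (PT.nd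 (nat_lit 156) (PT.nd (nat_lit 78) (PT.lf (nat_lit 55176) (nat_lit 6) (nat_lit 726) (nat_lit 0) (nat_lit 202) (nat_lit 185) (nat_lit 183)) (PT.lf (nat_lit 54188) (nat_lit 6) (nat_lit 713) (nat_lit 0) (nat_lit 203) (nat_lit 185) (nat_lit 182))) (PT.nd (nat_lit 78) (PT.lf (nat_lit 53124) (nat_lit 6) (nat_lit 699) (nat_lit 0) (nat_lit 204) (nat_lit 185) (nat_lit 181)) (PT.nd (nat_lit 78) (PT.lf (nat_lit 51984) (nat_lit 6) (nat_lit 684) (nat_lit 0) (nat_lit 205) (nat_lit 185) (nat_lit 180)) (PT.lf (nat_lit 50768) (nat_lit 6) (nat_lit 668) (nat_lit 0) (nat_lit 206) (nat_lit 185) (nat_lit 179))))))))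
noncomputable def pc45 : PT := (PT.nd (nat_lit 57252) (PT.nd (nat_lit 56550) (PT.nd (nat_lit 312) (PT.nd (nat_lit 156) (PT.nd (nat_lit 78) (PT.lf (nat_lit 49476) (nat_lit 6) (nat_lit 651) (nat_lit 0) (nat_lit 207) (nat_lit 185) (nat_lit 178)) (PT.lf (nat_lit 48108) (nat_lit 6) (nat_lit 633) (nat_lit 0) (nat_lit 208) (nat_lit 185) (nat_lit 177))) (PT.nd (nat_lit 78) (PT.lf (nat_lit 46664) (nat_lit 6) (nat_lit 614) (nat_lit 0) (nat_lit 209) (nat_lit 185) (nat_lit 176)) (PT.lf (nat_lit 45144) (nat_lit 6) (nat_lit 594) (nat_lit 0) (nat_lit 210) (nat_lit 185) (nat_lit 175)))) (PT.nd (nat_lit 156) (PT.nd (nat_lit 78) (PT.lf (nat_lit 43548) (nat_lit 6) (nat_lit 573) (nat_lit 0) (nat_lit 211) (nat_lit 185) (nat_lit 174)) (PT.lf (nat_lit 41876) (nat_lit 6) (nat_lit 551) (nat_lit 0) (nat_lit 212) (nat_lit 185) (nat_lit 173))) (PT.nd (nat_lit 78) (PT.lf (nat_lit 40128) (nat_lit 6) (nat_lit 528) (nat_lit 0) (nat_lit 213) (nat_lit 185) (nat_lit 172))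 (PT.nd (nat_lit 55926) (PT.lf (nat_lit 38304) (nat_lit 6) (nat_lit 504) (nat_lit 0) (nat_lit 214) (nat_lit 185) (nat_lit 171)) (PT.lf (nat_lit 38380) (nat_lit 6) (nat_lit 505) (nat_lit 5) (nat_lit 170) (nat_lit 186) (nat_lit 214)))))) (PT.nd (nat_lit 312) (PT.nd (nat_lit 156) (PT.nd (nat_lit 78) (PT.lf (nat_lit 40204) (nat_lit 6) (nat_lit 529) (nat_lit 5) (nat_lit 171) (nat_lit 186) (nat_lit 213)) (PT.lf (nat_lit 41952) (nat_lit 6) (nat_lit 552) (nat_lit 5) (nat_lit 172) (nat_lit 186) (nat_lit 212))) (PT.nd (nat_lit 78) (PT.lf (nat_lit 43624) (nat_lit 6) (nat_lit 574) (nat_lit 5) (nat_lit 173) (nat_lit 186) (nat_lit 211)) (PT.lf (nat_lit 45220) (nat_lit 6) (nat_lit 595) (nat_lit 5) (nat_lit 174) (nat_lit 186) (nat_lit 210)))) (PT.nd (nat_lit 156) (PT.nd (nat_lit 78) (PT.lf (nat_lit 46740) (nat_lit 6) (nat_lit 615) (nat_lit 5) (nat_lit 175) (nat_lit 186) (nat_lit 209)) (PT.lf (nat_lit 48184) (nat_lit 6) (nat_lit 634) (nat_lit 5) (nat_lit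 176) (nat_lit 186) (nat_lit 208))) (PT.nd (nat_lit 78) (PT.lf (nat_lit 49552) (nat_lit 6) (nat_lit 652) (nat_lit 5) (nat_lit 177) (nat_lit 186) (nat_lit 207)) (PT.nd (nat_lit 78) (PT.lf (nat_lit 50844) (nat_lit 6) (nat_lit 669) (nat_lit 5) (nat_lit 178) (nat_lit 186) (nat_lit 206)) (PT.lf (nat_lit 52060) (nat_lit 6) (nat_lit 685) (nat_lit 5) (nat_lit 179) (nat_lit 186) (nat_lit 205))))))) (PT.nd (nat_lit 702) (PT.nd (nat_lit 312) (PT.nd (nat_lit 156) (PT.nd (nat_lit 78) (PT.lf (nat_lit 53200) (nat_lit 6) (nat_lit 700) (nat_lit 5) (nat_lit 180) (nat_lit 186) (nat_lit 204)) (PT.lf (nat_lit 54264) (nat_lit 6) (nat_lit 714) (nat_lit 5) (nat_lit 181) (nat_lit 186) (nat_lit 203))) (PT.nd (nat_lit 78) (PT.lf (nat_lit 55252) (nat_lit 6) (nat_lit 727) (nat_lit 5) (nat_lit 182) (nat_lit 186) (nat_lit 202)) (PT.lf (nat_lit 56164) (nat_lit 6) (nat_lit 739) (nat_lit 5) (nat_lit 183) (nat_lit 186) (nat_lit 201)))) (PT.nd (nat_lit 156) (PT.nd (nat_lit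 78) (PT.lf (nat_lit 57000) (nat_lit 6) (nat_lit 750) (nat_lit 5) (nat_lit 184) (nat_lit 186) (nat_lit 200)) (PT.lf (nat_lit 57760) (nat_lit 6) (nat_lit 760) (nat_lit 5) (nat_lit 185) (nat_lit 186) (nat_lit 199))) (PT.nd (nat_lit 78) (PT.lf (nat_lit 58444) (nat_lit 3) (nat_lit 769) (nat_lit 3) (nat_lit 186) (nat_lit 186) (nat_lit 198)) (PT.nd (nat_lit 78) (PT.lf (nat_lit 59128) (nat_lit 6) (nat_lit 778) (nat_lit 3) (nat_lit 187) (nat_lit 186) (nat_lit 197)) (PT.lf (nat_lit 59736) (nat_lit 6) (nat_lit 786) (nat_lit 3) (nat_lit 188) (nat_lit 186) (nat_lit 196)))))) (PT.nd (nat_lit 312) (PT.nd (nat_lit 156) (PT.nd (nat_lit 78) (PT.lf (nat_lit 60268) (nat_lit 6) (nat_lit 793) (nat_lit 3) (nat_lit 189) (nat_lit 186) (nat_lit 195)) (PT.lf (nat_lit 60724) (nat_lit 6) (nat_lit 799) (nat_lit 3) (nat_lit 190) (nat_lit 186) (nat_lit 194))) (PT.nd (nat_lit 78) (PT.lf (nat_lit 60800) (nat_lit 6) (nat_lit 800) (nat_lit 3) (nat_lit 191) (nat_lit 186)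 (nat_lit 193)) (PT.lf (nat_lit 60876) (nat_lit 3) (nat_lit 801) (nat_lit 1) (nat_lit 192) (nat_lit 186) (nat_lit 192)))) (PT.nd (nat_lit 156) (PT.nd (nat_lit 78) (PT.lf (nat_lit 60800) (nat_lit 6) (nat_lit 800) (nat_lit 1) (nat_lit 193) (nat_lit 186) (nat_lit 191)) (PT.lf (nat_lit 60724) (nat_lit 6) (nat_lit 799) (nat_lit 1) (nat_lit 194) (nat_lit 186) (nat_lit 190))) (PT.nd (nat_lit 78) (PT.lf (nat_lit 60268) (nat_lit 6) (nat_lit 793) (nat_lit 1) (nat_lit 195) (nat_lit 186) (nat_lit 189)) (PT.nd (nat_lit 78) (PT.lf (nat_lit 59736) (nat_lit 6) (nat_lit 786) (nat_lit 1) (nat_lit 196) (nat_lit 186) (nat_lit 188)) (PT.lf (nat_lit 59128) (nat_lit 6) (nat_lit 778) (nat_lit 1) (nat_lit 197) (nat_lit 186) (nat_lit 187))))))))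
noncomputable def pc46 : PT := (PT.nd (nat_lit 57174) (PT.nd (nat_lit 702) (PT.nd (nat_lit 312) (PT.nd (nat_lit 156) (PT.nd (nat_lit 78) (PT.lf (nat_lit 58444) (nat_lit 3) (nat_lit 769) (nat_lit 0) (nat_lit 198) (nat_lit 186) (nat_lit 186)) (PT.lf (nat_lit 57760) (nat_lit 6) (nat_lit 760) (nat_lit 0) (nat_lit 199) (nat_lit 186) (nat_lit 185))) (PT.nd (nat_lit 78) (PT.lf (nat_lit 57000) (nat_lit 6) (nat_lit 750) (nat_lit 0) (nat_lit 200) (nat_lit 186) (nat_lit 184)) (PT.lf (nat_lit 56164) (nat_lit 6) (nat_lit 739) (nat_lit 0) (nat_lit 201) (nat_lit 186) (nat_lit 183)))) (PT.nd (nat_lit 156) (PT.nd (nat_lit 78) (PT.lf (nat_lit 55252) (nat_lit 6) (nat_lit 727) (nat_lit 0) (nat_lit 202) (nat_lit 186) (nat_lit 182)) (PT.lf (nat_lit 54264) (nat_lit 6) (nat_lit 714) (nat_lit 0) (nat_lit 203) (nat_lit 186) (nat_lit 181))) (PT.nd (nat_lit 78) (PT.lf (nat_lit 53200) (nat_lit 6) (nat_lit 700) (nat_lit 0) (nat_lit 204) (nat_lit 186) (nat_lit 180))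 (PT.nd (nat_lit 78) (PT.lf (nat_lit 52060) (nat_lit 6) (nat_lit 685) (nat_lit 0) (nat_lit 205) (nat_lit 186) (nat_lit 179)) (PT.lf (nat_lit 50844) (nat_lit 6) (nat_lit 669) (nat_lit 0) (nat_lit 206) (nat_lit 186) (nat_lit 178)))))) (PT.nd (nat_lit 312) (PT.nd (nat_lit 156) (PT.nd (nat_lit 78) (PT.lf (nat_lit 49552) (nat_lit 6) (nat_lit 652) (nat_lit 0) (nat_lit 207) (nat_lit 186) (nat_lit 177)) (PT.lf (nat_lit 48184) (nat_lit 6) (nat_lit 634) (nat_lit 0) (nat_lit 208) (nat_lit 186) (nat_lit 176))) (PT.nd (nat_lit 78) (PT.lf (nat_lit 46740) (nat_lit 6) (nat_lit 615) (nat_lit 0) (nat_lit 209) (nat_lit 186) (nat_lit 175)) (PT.lf (nat_lit 45220) (nat_lit 6) (nat_lit 595) (nat_lit 0) (nat_lit 210) (nat_lit 186) (nat_lit 174)))) (PT.nd (nat_lit 156) (PT.nd (nat_lit 78) (PT.lf (nat_lit 43624) (nat_lit 6) (nat_lit 574) (nat_lit 0) (nat_lit 211) (nat_lit 186) (nat_lit 173)) (PT.lf (nat_lit 41952) (nat_lit 6) (nat_lit 552) (nat_lit 0) (nat_lit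 212) (nat_lit 186) (nat_lit 172))) (PT.nd (nat_lit 78) (PT.lf (nat_lit 40204) (nat_lit 6) (nat_lit 529) (nat_lit 0) (nat_lit 213) (nat_lit 186) (nat_lit 171)) (PT.nd (nat_lit 55848) (PT.lf (nat_lit 38380) (nat_lit 6) (nat_lit 505) (nat_lit 0) (nat_lit 214) (nat_lit 186) (nat_lit 170)) (PT.lf (nat_lit 38456) (nat_lit 6) (nat_lit 506) (nat_lit 5) (nat_lit 169) (nat_lit 187) (nat_lit 214))))))) (PT.nd (nat_lit 702) (PT.nd (nat_lit 312) (PT.nd (nat_lit 156) (PT.nd (nat_lit 78) (PT.lf (nat_lit 40280) (nat_lit 6) (nat_lit 530) (nat_lit 5) (nat_lit 170) (nat_lit 187) (nat_lit 213)) (PT.lf (nat_lit 42028) (nat_lit 6) (nat_lit 553) (nat_lit 5) (nat_lit 171) (nat_lit 187) (nat_lit 212))) (PT.nd (nat_lit 78) (PT.lf (nat_lit 43700) (nat_lit 6) (nat_lit 575) (nat_lit 5) (nat_lit 172) (nat_lit 187) (nat_lit 211)) (PT.lf (nat_lit 45296) (nat_lit 6) (nat_lit 596) (nat_lit 5) (nat_lit 173) (nat_lit 187) (nat_lit 210)))) (PT.nd (nat_lit 156) (PT.nd (nat_lit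 78) (PT.lf (nat_lit 46816) (nat_lit 6) (nat_lit 616) (nat_lit 5) (nat_lit 174) (nat_lit 187) (nat_lit 209)) (PT.lf (nat_lit 48260) (nat_lit 6) (nat_lit 635) (nat_lit 5) (nat_lit 175) (nat_lit 187) (nat_lit 208))) (PT.nd (nat_lit 78) (PT.lf (nat_lit 49628) (nat_lit 6) (nat_lit 653) (nat_lit 5) (nat_lit 176) (nat_lit 187) (nat_lit 207)) (PT.nd (nat_lit 78) (PT.lf (nat_lit 50920) (nat_lit 6) (nat_lit 670) (nat_lit 5) (nat_lit 177) (nat_lit 187) (nat_lit 206)) (PT.lf (nat_lit 52136) (nat_lit 6) (nat_lit 686) (nat_lit 5) (nat_lit 178) (nat_lit 187) (nat_lit 205)))))) (PT.nd (nat_lit 312) (PT.nd (nat_lit 156) (PT.nd (nat_lit 78) (PT.lf (nat_lit 53276) (nat_lit 6) (nat_lit 701) (nat_lit 5) (nat_lit 179) (nat_lit 187) (nat_lit 204)) (PT.lf (nat_lit 54340) (nat_lit 6) (nat_lit 715) (nat_lit 5) (nat_lit 180) (nat_lit 187) (nat_lit 203))) (PT.nd (nat_lit 78) (PT.lf (nat_lit 55328) (nat_lit 6) (nat_lit 728) (nat_lit 5) (nat_lit 181) (nat_lit 187)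 (nat_lit 202)) (PT.lf (nat_lit 56240) (nat_lit 6) (nat_lit 740) (nat_lit 5) (nat_lit 182) (nat_lit 187) (nat_lit 201)))) (PT.nd (nat_lit 156) (PT.nd (nat_lit 78) (PT.lf (nat_lit 57076) (nat_lit 6) (nat_lit 751) (nat_lit 5) (nat_lit 183) (nat_lit 187) (nat_lit 200)) (PT.lf (nat_lit 57836) (nat_lit 6) (nat_lit 761) (nat_lit 5) (nat_lit 184) (nat_lit 187) (nat_lit 199))) (PT.nd (nat_lit 78) (PT.lf (nat_lit 58520) (nat_lit 6) (nat_lit 770) (nat_lit 5) (nat_lit 185) (nat_lit 187) (nat_lit 198)) (PT.nd (nat_lit 78) (PT.lf (nat_lit 59128) (nat_lit 6) (nat_lit 778) (nat_lit 5) (nat_lit 186) (nat_lit 187) (nat_lit 197)) (PT.lf (nat_lit 59660) (nat_lit 3) (nat_lit 785) (nat_lit 3) (nat_lit 187) (nat_lit 187) (nat_lit 196))))))))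
noncomputable def pc47 : PT := (PT.nd (nat_lit 1404) (PT.nd (nat_lit 702) (PT.nd (nat_lit 312) (PT.nd (nat_lit 156) (PT.nd (nat_lit 78) (PT.lf (nat_lit 60192) (nat_lit 6) (nat_lit 792) (nat_lit 3) (nat_lit 188) (nat_lit 187) (nat_lit 195)) (PT.lf (nat_lit 60648) (nat_lit 6) (nat_lit 798) (nat_lit 3) (nat_lit 189) (nat_lit 187) (nat_lit 194))) (PT.nd (nat_lit 78) (PT.lf (nat_lit 61028) (nat_lit 6) (nat_lit 803) (nat_lit 3) (nat_lit 190) (nat_lit 187) (nat_lit 193)) (PT.lf (nat_lit 61104) (nat_lit 6) (nat_lit 804) (nat_lit 3) (nat_lit 191) (nat_lit 187) (nat_lit 192)))) (PT.nd (nat_lit 156) (PT.nd (nat_lit 78) (PT.lf (nat_lit 61104) (nat_lit 6) (nat_lit 804) (nat_lit 1) (nat_lit 192) (nat_lit 187) (nat_lit 191)) (PT.lf (nat_lit 61028) (nat_lit 6) (nat_lit 803) (nat_lit 1) (nat_lit 193) (nat_lit 187) (nat_lit 190))) (PT.nd (nat_lit 78) (PT.lf (nat_lit 60648) (nat_lit 6) (nat_lit 798) (nat_lit 1) (nat_lit 194) (nat_lit 187) (nat_lit 189))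 (PT.nd (nat_lit 78) (PT.lf (nat_lit 60192) (nat_lit 6) (nat_lit 792) (nat_lit 1) (nat_lit 195) (nat_lit 187) (nat_lit 188)) (PT.lf (nat_lit 59660) (nat_lit 3) (nat_lit 785) (nat_lit 0) (nat_lit 196) (nat_lit 187) (nat_lit 187)))))) (PT.nd (nat_lit 312) (PT.nd (nat_lit 156) (PT.nd (nat_lit 78) (PT.lf (nat_lit 59128) (nat_lit 6) (nat_lit 778) (nat_lit 0) (nat_lit 197) (nat_lit 187) (nat_lit 186)) (PT.lf (nat_lit 58520) (nat_lit 6) (nat_lit 770) (nat_lit 0) (nat_lit 198) (nat_lit 187) (nat_lit 185))) (PT.nd (nat_lit 78) (PT.lf (nat_lit 57836) (nat_lit 6) (nat_lit 761) (nat_lit 0) (nat_lit 199) (nat_lit 187) (nat_lit 184)) (PT.lf (nat_lit 57076) (nat_lit 6) (nat_lit 751) (nat_lit 0) (nat_lit 200) (nat_lit 187) (nat_lit 183)))) (PT.nd (nat_lit 156) (PT.nd (nat_lit 78) (PT.lf (nat_lit 56240) (nat_lit 6) (nat_lit 740) (nat_lit 0) (nat_lit 201) (nat_lit 187) (nat_lit 182)) (PT.lf (nat_lit 55328) (nat_lit 6) (nat_lit 728) (nat_lit 0) (nat_lit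 202) (nat_lit 187) (nat_lit 181))) (PT.nd (nat_lit 78) (PT.lf (nat_lit 54340) (nat_lit 6) (nat_lit 715) (nat_lit 0) (nat_lit 203) (nat_lit 187) (nat_lit 180)) (PT.nd (nat_lit 78) (PT.lf (nat_lit 53276) (nat_lit 6) (nat_lit 701) (nat_lit 0) (nat_lit 204) (nat_lit 187) (nat_lit 179)) (PT.lf (nat_lit 52136) (nat_lit 6) (nat_lit 686) (nat_lit 0) (nat_lit 205) (nat_lit 187) (nat_lit 178))))))) (PT.nd (nat_lit 56316) (PT.nd (nat_lit 312) (PT.nd (nat_lit 156) (PT.nd (nat_lit 78) (PT.lf (nat_lit 50920) (nat_lit 6) (nat_lit 670) (nat_lit 0) (nat_lit 206) (nat_lit 187) (nat_lit 177)) (PT.lf (nat_lit 49628) (nat_lit 6) (nat_lit 653) (nat_lit 0) (nat_lit 207) (nat_lit 187) (nat_lit 176))) (PT.nd (nat_lit 78) (PT.lf (nat_lit 48260) (nat_lit 6) (nat_lit 635) (nat_lit 0) (nat_lit 208) (nat_lit 187) (nat_lit 175)) (PT.lf (nat_lit 46816) (nat_lit 6) (nat_lit 616) (nat_lit 0) (nat_lit 209) (nat_lit 187) (nat_lit 174)))) (PT.nd (nat_lit 156) (PT.nd (nat_lit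 78) (PT.lf (nat_lit 45296) (nat_lit 6) (nat_lit 596) (nat_lit 0) (nat_lit 210) (nat_lit 187) (nat_lit 173)) (PT.lf (nat_lit 43700) (nat_lit 6) (nat_lit 575) (nat_lit 0) (nat_lit 211) (nat_lit 187) (nat_lit 172))) (PT.nd (nat_lit 78) (PT.lf (nat_lit 42028) (nat_lit 6) (nat_lit 553) (nat_lit 0) (nat_lit 212) (nat_lit 187) (nat_lit 171)) (PT.nd (nat_lit 78) (PT.lf (nat_lit 40280) (nat_lit 6) (nat_lit 530) (nat_lit 0) (nat_lit 213) (nat_lit 187) (nat_lit 170)) (PT.lf (nat_lit 38456) (nat_lit 6) (nat_lit 506) (nat_lit 0) (nat_lit 214) (nat_lit 187) (nat_lit 169)))))) (PT.nd (nat_lit 312) (PT.nd (nat_lit 156) (PT.nd (nat_lit 78) (PT.lf (nat_lit 36632) (nat_lit 6) (nat_lit 482) (nat_lit 5) (nat_lit 167) (nat_lit 188) (nat_lit 215)) (PT.lf (nat_lit 38532) (nat_lit 6) (nat_lit 507) (nat_lit 5) (nat_lit 168) (nat_lit 188) (nat_lit 214))) (PT.nd (nat_lit 78) (PT.lf (nat_lit 40356) (nat_lit 6) (nat_lit 531) (nat_lit 5) (nat_lit 169) (nat_lit 188)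 (nat_lit 213)) (PT.lf (nat_lit 42104) (nat_lit 6) (nat_lit 554) (nat_lit 5) (nat_lit 170) (nat_lit 188) (nat_lit 212)))) (PT.nd (nat_lit 156) (PT.nd (nat_lit 78) (PT.lf (nat_lit 43776) (nat_lit 6) (nat_lit 576) (nat_lit 5) (nat_lit 171) (nat_lit 188) (nat_lit 211)) (PT.lf (nat_lit 45372) (nat_lit 6) (nat_lit 597) (nat_lit 5) (nat_lit 172) (nat_lit 188) (nat_lit 210))) (PT.nd (nat_lit 78) (PT.lf (nat_lit 46892) (nat_lit 6) (nat_lit 617) (nat_lit 5) (nat_lit 173) (nat_lit 188) (nat_lit 209)) (PT.nd (nat_lit 78) (PT.lf (nat_lit 48336) (nat_lit 6) (nat_lit 636) (nat_lit 5) (nat_lit 174) (nat_lit 188) (nat_lit 208)) (PT.lf (nat_lit 49704) (nat_lit 6) (nat_lit 654) (nat_lit 5) (nat_lit 175) (nat_lit 188) (nat_lit 207))))))))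
noncomputable def pc48 : PT := (PT.nd (nat_lit 1326) (PT.nd (nat_lit 624) (PT.nd (nat_lit 312) (PT.nd (nat_lit 156) (PT.nd (nat_lit 78) (PT.lf (nat_lit 50996) (nat_lit 6) (nat_lit 671) (nat_lit 5) (nat_lit 176) (nat_lit 188) (nat_lit 206)) (PT.lf (nat_lit 52212) (nat_lit 6) (nat_lit 687) (nat_lit 5) (nat_lit 177) (nat_lit 188) (nat_lit 205))) (PT.nd (nat_lit 78) (PT.lf (nat_lit 53352) (nat_lit 6) (nat_lit 702) (nat_lit 5) (nat_lit 178) (nat_lit 188) (nat_lit 204)) (PT.lf (nat_lit 54416) (nat_lit 6) (nat_lit 716) (nat_lit 5) (nat_lit 179) (nat_lit 188) (nat_lit 203)))) (PT.nd (nat_lit 156) (PT.nd (nat_lit 78) (PT.lf (nat_lit 55404) (nat_lit 6) (nat_lit 729) (nat_lit 5) (nat_lit 180) (nat_lit 188) (nat_lit 202)) (PT.lf (nat_lit 56316) (nat_lit 6) (nat_lit 741) (nat_lit 5) (nat_lit 181) (nat_lit 188) (nat_lit 201))) (PT.nd (nat_lit 78) (PT.lf (nat_lit 57152) (nat_lit 6) (nat_lit 752) (nat_lit 5) (nat_lit 182) (nat_lit 188) (nat_lit 200))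 (PT.lf (nat_lit 57912) (nat_lit 6) (nat_lit 762) (nat_lit 5) (nat_lit 183) (nat_lit 188) (nat_lit 199))))) (PT.nd (nat_lit 312) (PT.nd (nat_lit 156) (PT.nd (nat_lit 78) (PT.lf (nat_lit 58596) (nat_lit 6) (nat_lit 771) (nat_lit 5) (nat_lit 184) (nat_lit 188) (nat_lit 198)) (PT.lf (nat_lit 59204) (nat_lit 6) (nat_lit 779) (nat_lit 5) (nat_lit 185) (nat_lit 188) (nat_lit 197))) (PT.nd (nat_lit 78) (PT.lf (nat_lit 59736) (nat_lit 6) (nat_lit 786) (nat_lit 5) (nat_lit 186) (nat_lit 188) (nat_lit 196)) (PT.lf (nat_lit 60192) (nat_lit 6) (nat_lit 792) (nat_lit 5) (nat_lit 187) (nat_lit 188) (nat_lit 195)))) (PT.nd (nat_lit 156) (PT.nd (nat_lit 78) (PT.lf (nat_lit 60572) (nat_lit 3) (nat_lit 797) (nat_lit 3) (nat_lit 188) (nat_lit 188) (nat_lit 194)) (PT.lf (nat_lit 60952) (nat_lit 6) (nat_lit 802) (nat_lit 3) (nat_lit 189) (nat_lit 188) (nat_lit 193))) (PT.nd (nat_lit 78) (PT.lf (nat_lit 61256) (nat_lit 6) (nat_lit 806) (nat_lit 3) (nat_lit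 190) (nat_lit 188) (nat_lit 192)) (PT.nd (nat_lit 78) (PT.lf (nat_lit 61332) (nat_lit 3) (nat_lit 807) (nat_lit 1) (nat_lit 191) (nat_lit 188) (nat_lit 191)) (PT.lf (nat_lit 61256) (nat_lit 6) (nat_lit 806) (nat_lit 1) (nat_lit 192) (nat_lit 188) (nat_lit 190))))))) (PT.nd (nat_lit 702) (PT.nd (nat_lit 312) (PT.nd (nat_lit 156) (PT.nd (nat_lit 78) (PT.lf (nat_lit 60952) (nat_lit 6) (nat_lit 802) (nat_lit 1) (nat_lit 193) (nat_lit 188) (nat_lit 189)) (PT.lf (nat_lit 60572) (nat_lit 3) (nat_lit 797) (nat_lit 0) (nat_lit 194) (nat_lit 188) (nat_lit 188))) (PT.nd (nat_lit 78) (PT.lf (nat_lit 60192) (nat_lit 6) (nat_lit 792) (nat_lit 0) (nat_lit 195) (nat_lit 188) (nat_lit 187)) (PT.lf (nat_lit 59736) (nat_lit 6) (nat_lit 786) (nat_lit 0) (nat_lit 196) (nat_lit 188) (nat_lit 186)))) (PT.nd (nat_lit 156) (PT.nd (nat_lit 78) (PT.lf (nat_lit 59204) (nat_lit 6) (nat_lit 779) (nat_lit 0) (nat_lit 197) (nat_lit 188) (nat_lit 185)) (PT.lf (nat_lit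 58596) (nat_lit 6) (nat_lit 771) (nat_lit 0) (nat_lit 198) (nat_lit 188) (nat_lit 184))) (PT.nd (nat_lit 78) (PT.lf (nat_lit 57912) (nat_lit 6) (nat_lit 762) (nat_lit 0) (nat_lit 199) (nat_lit 188) (nat_lit 183)) (PT.nd (nat_lit 78) (PT.lf (nat_lit 57152) (nat_lit 6) (nat_lit 752) (nat_lit 0) (nat_lit 200) (nat_lit 188) (nat_lit 182)) (PT.lf (nat_lit 56316) (nat_lit 6) (nat_lit 741) (nat_lit 0) (nat_lit 201) (nat_lit 188) (nat_lit 181)))))) (PT.nd (nat_lit 312) (PT.nd (nat_lit 156) (PT.nd (nat_lit 78) (PT.lf (nat_lit 55404) (nat_lit 6) (nat_lit 729) (nat_lit 0) (nat_lit 202) (nat_lit 188) (nat_lit 180)) (PT.lf (nat_lit 54416) (nat_lit 6) (nat_lit 716) (nat_lit 0) (nat_lit 203) (nat_lit 188) (nat_lit 179))) (PT.nd (nat_lit 78) (PT.lf (nat_lit 53352) (nat_lit 6) (nat_lit 702) (nat_lit 0) (nat_lit 204) (nat_lit 188) (nat_lit 178)) (PT.lf (nat_lit 52212) (nat_lit 6) (nat_lit 687) (nat_lit 0) (nat_lit 205) (nat_lit 188) (nat_lit 177)))) (PT.nd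 (nat_lit 156) (PT.nd (nat_lit 78) (PT.lf (nat_lit 50996) (nat_lit 6) (nat_lit 671) (nat_lit 0) (nat_lit 206) (nat_lit 188) (nat_lit 176)) (PT.lf (nat_lit 49704) (nat_lit 6) (nat_lit 654) (nat_lit 0) (nat_lit 207) (nat_lit 188) (nat_lit 175))) (PT.nd (nat_lit 78) (PT.lf (nat_lit 48336) (nat_lit 6) (nat_lit 636) (nat_lit 0) (nat_lit 208) (nat_lit 188) (nat_lit 174)) (PT.nd (nat_lit 78) (PT.lf (nat_lit 46892) (nat_lit 6) (nat_lit 617) (nat_lit 0) (nat_lit 209) (nat_lit 188) (nat_lit 173)) (PT.lf (nat_lit 45372) (nat_lit 6) (nat_lit 597) (nat_lit 0) (nat_lit 210) (nat_lit 188) (nat_lit 172))))))))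
noncomputable def pc49 : PT := (PT.nd (nat_lit 56862) (PT.nd (nat_lit 56160) (PT.nd (nat_lit 312) (PT.nd (nat_lit 156) (PT.nd (nat_lit 78) (PT.lf (nat_lit 43776) (nat_lit 6) (nat_lit 576) (nat_lit 0) (nat_lit 211) (nat_lit 188) (nat_lit 171)) (PT.lf (nat_lit 42104) (nat_lit 6) (nat_lit 554) (nat_lit 0) (nat_lit 212) (nat_lit 188) (nat_lit 170))) (PT.nd (nat_lit 78) (PT.lf (nat_lit 40356) (nat_lit 6) (nat_lit 531) (nat_lit 0) (nat_lit 213) (nat_lit 188) (nat_lit 169)) (PT.lf (nat_lit 38532) (nat_lit 6) (nat_lit 507) (nat_lit 0) (nat_lit 214) (nat_lit 188) (nat_lit 168)))) (PT.nd (nat_lit 55614) (PT.nd (nat_lit 55536) (PT.lf (nat_lit 36632) (nat_lit 6) (nat_lit 482) (nat_lit 0) (nat_lit 215) (nat_lit 188) (nat_lit 167)) (PT.lf (nat_lit 36708) (nat_lit 6) (nat_lit 483) (nat_lit 5) (nat_lit 166) (nat_lit 189) (nat_lit 215))) (PT.nd (nat_lit 78) (PT.lf (nat_lit 38608) (nat_lit 6) (nat_lit 508) (nat_lit 5) (nat_lit 167) (nat_lit 189) (nat_lit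 214)) (PT.nd (nat_lit 78) (PT.lf (nat_lit 40432) (nat_lit 6) (nat_lit 532) (nat_lit 5) (nat_lit 168) (nat_lit 189) (nat_lit 213)) (PT.lf (nat_lit 42180) (nat_lit 6) (nat_lit 555) (nat_lit 5) (nat_lit 169) (nat_lit 189) (nat_lit 212)))))) (PT.nd (nat_lit 312) (PT.nd (nat_lit 156) (PT.nd (nat_lit 78) (PT.lf (nat_lit 43852) (nat_lit 6) (nat_lit 577) (nat_lit 5) (nat_lit 170) (nat_lit 189) (nat_lit 211)) (PT.lf (nat_lit 45448) (nat_lit 6) (nat_lit 598) (nat_lit 5) (nat_lit 171) (nat_lit 189) (nat_lit 210))) (PT.nd (nat_lit 78) (PT.lf (nat_lit 46968) (nat_lit 6) (nat_lit 618) (nat_lit 5) (nat_lit 172) (nat_lit 189) (nat_lit 209)) (PT.lf (nat_lit 48412) (nat_lit 6) (nat_lit 637) (nat_lit 5) (nat_lit 173) (nat_lit 189) (nat_lit 208)))) (PT.nd (nat_lit 156) (PT.nd (nat_lit 78) (PT.lf (nat_lit 49780) (nat_lit 6) (nat_lit 655) (nat_lit 5) (nat_lit 174) (nat_lit 189) (nat_lit 207)) (PT.lf (nat_lit 51072) (nat_lit 6) (nat_lit 672) (nat_lit 5) (nat_lit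 175) (nat_lit 189) (nat_lit 206))) (PT.nd (nat_lit 78) (PT.lf (nat_lit 52288) (nat_lit 6) (nat_lit 688) (nat_lit 5) (nat_lit 176) (nat_lit 189) (nat_lit 205)) (PT.nd (nat_lit 78) (PT.lf (nat_lit 53428) (nat_lit 6) (nat_lit 703) (nat_lit 5) (nat_lit 177) (nat_lit 189) (nat_lit 204)) (PT.lf (nat_lit 54492) (nat_lit 6) (nat_lit 717) (nat_lit 5) (nat_lit 178) (nat_lit 189) (nat_lit 203))))))) (PT.nd (nat_lit 702) (PT.nd (nat_lit 312) (PT.nd (nat_lit 156) (PT.nd (nat_lit 78) (PT.lf (nat_lit 55480) (nat_lit 6) (nat_lit 730) (nat_lit 5) (nat_lit 179) (nat_lit 189) (nat_lit 202)) (PT.lf (nat_lit 56392) (nat_lit 6) (nat_lit 742) (nat_lit 5) (nat_lit 180) (nat_lit 189) (nat_lit 201))) (PT.nd (nat_lit 78) (PT.lf (nat_lit 57228) (nat_lit 6) (nat_lit 753) (nat_lit 5) (nat_lit 181) (nat_lit 189) (nat_lit 200)) (PT.lf (nat_lit 57988) (nat_lit 6) (nat_lit 763) (nat_lit 5) (nat_lit 182) (nat_lit 189) (nat_lit 199)))) (PT.nd (nat_lit 156) (PT.nd (nat_lit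 78) (PT.lf (nat_lit 58672) (nat_lit 6) (nat_lit 772) (nat_lit 5) (nat_lit 183) (nat_lit 189) (nat_lit 198)) (PT.lf (nat_lit 59280) (nat_lit 6) (nat_lit 780) (nat_lit 5) (nat_lit 184) (nat_lit 189) (nat_lit 197))) (PT.nd (nat_lit 78) (PT.lf (nat_lit 59812) (nat_lit 6) (nat_lit 787) (nat_lit 5) (nat_lit 185) (nat_lit 189) (nat_lit 196)) (PT.nd (nat_lit 78) (PT.lf (nat_lit 60268) (nat_lit 6) (nat_lit 793) (nat_lit 5) (nat_lit 186) (nat_lit 189) (nat_lit 195)) (PT.lf (nat_lit 60648) (nat_lit 6) (nat_lit 798) (nat_lit 5) (nat_lit 187) (nat_lit 189) (nat_lit 194)))))) (PT.nd (nat_lit 312) (PT.nd (nat_lit 156) (PT.nd (nat_lit 78) (PT.lf (nat_lit 60952) (nat_lit 6) (nat_lit 802) (nat_lit 5) (nat_lit 188) (nat_lit 189) (nat_lit 193)) (PT.lf (nat_lit 61180) (nat_lit 3) (nat_lit 805) (nat_lit 3) (nat_lit 189) (nat_lit 189) (nat_lit 192))) (PT.nd (nat_lit 78) (PT.lf (nat_lit 61408) (nat_lit 6) (nat_lit 808) (nat_lit 3) (nat_lit 190) (nat_lit 189)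 (nat_lit 191)) (PT.lf (nat_lit 61408) (nat_lit 6) (nat_lit 808) (nat_lit 1) (nat_lit 191) (nat_lit 189) (nat_lit 190)))) (PT.nd (nat_lit 156) (PT.nd (nat_lit 78) (PT.lf (nat_lit 61180) (nat_lit 3) (nat_lit 805) (nat_lit 0) (nat_lit 192) (nat_lit 189) (nat_lit 189)) (PT.lf (nat_lit 60952) (nat_lit 6) (nat_lit 802) (nat_lit 0) (nat_lit 193) (nat_lit 189) (nat_lit 188))) (PT.nd (nat_lit 78) (PT.lf (nat_lit 60648) (nat_lit 6) (nat_lit 798) (nat_lit 0) (nat_lit 194) (nat_lit 189) (nat_lit 187)) (PT.nd (nat_lit 78) (PT.lf (nat_lit 60268) (nat_lit 6) (nat_lit 793) (nat_lit 0) (nat_lit 195) (nat_lit 189) (nat_lit 186)) (PT.lf (nat_lit 59812) (nat_lit 6) (nat_lit 787) (nat_lit 0) (nat_lit 196) (nat_lit 189) (nat_lit 185))))))))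
noncomputable def pc50 : PT := (PT.nd (nat_lit 1326) (PT.nd (nat_lit 624) (PT.nd (nat_lit 312) (PT.nd (nat_lit 156) (PT.nd (nat_lit 78) (PT.lf (nat_lit 59280) (nat_lit 6) (nat_lit 780) (nat_lit 0) (nat_lit 197) (nat_lit 189) (nat_lit 184)) (PT.lf (nat_lit 58672) (nat_lit 6) (nat_lit 772) (nat_lit 0) (nat_lit 198) (nat_lit 189) (nat_lit 183))) (PT.nd (nat_lit 78) (PT.lf (nat_lit 57988) (nat_lit 6) (nat_lit 763) (nat_lit 0) (nat_lit 199) (nat_lit 189) (nat_lit 182)) (PT.lf (nat_lit 57228) (nat_lit 6) (nat_lit 753) (nat_lit 0) (nat_lit 200) (nat_lit 189) (nat_lit 181)))) (PT.nd (nat_lit 156) (PT.nd (nat_lit 78) (PT.lf (nat_lit 56392) (nat_lit 6) (nat_lit 742) (nat_lit 0) (nat_lit 201) (nat_lit 189) (nat_lit 180)) (PT.lf (nat_lit 55480) (nat_lit 6) (nat_lit 730) (nat_lit 0) (nat_lit 202) (nat_lit 189) (nat_lit 179))) (PT.nd (nat_lit 78) (PT.lf (nat_lit 54492) (nat_lit 6) (nat_lit 717) (nat_lit 0) (nat_lit 203) (nat_lit 189) (nat_lit 178))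 (PT.lf (nat_lit 53428) (nat_lit 6) (nat_lit 703) (nat_lit 0) (nat_lit 204) (nat_lit 189) (nat_lit 177))))) (PT.nd (nat_lit 312) (PT.nd (nat_lit 156) (PT.nd (nat_lit 78) (PT.lf (nat_lit 52288) (nat_lit 6) (nat_lit 688) (nat_lit 0) (nat_lit 205) (nat_lit 189) (nat_lit 176)) (PT.lf (nat_lit 51072) (nat_lit 6) (nat_lit 672) (nat_lit 0) (nat_lit 206) (nat_lit 189) (nat_lit 175))) (PT.nd (nat_lit 78) (PT.lf (nat_lit 49780) (nat_lit 6) (nat_lit 655) (nat_lit 0) (nat_lit 207) (nat_lit 189) (nat_lit 174)) (PT.lf (nat_lit 48412) (nat_lit 6) (nat_lit 637) (nat_lit 0) (nat_lit 208) (nat_lit 189) (nat_lit 173)))) (PT.nd (nat_lit 156) (PT.nd (nat_lit 78) (PT.lf (nat_lit 46968) (nat_lit 6) (nat_lit 618) (nat_lit 0) (nat_lit 209) (nat_lit 189) (nat_lit 172)) (PT.lf (nat_lit 45448) (nat_lit 6) (nat_lit 598) (nat_lit 0) (nat_lit 210) (nat_lit 189) (nat_lit 171))) (PT.nd (nat_lit 78) (PT.lf (nat_lit 43852) (nat_lit 6) (nat_lit 577) (nat_lit 0) (nat_lit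 211) (nat_lit 189) (nat_lit 170)) (PT.nd (nat_lit 78) (PT.lf (nat_lit 42180) (nat_lit 6) (nat_lit 555) (nat_lit 0) (nat_lit 212) (nat_lit 189) (nat_lit 169)) (PT.lf (nat_lit 40432) (nat_lit 6) (nat_lit 532) (nat_lit 0) (nat_lit 213) (nat_lit 189) (nat_lit 168))))))) (PT.nd (nat_lit 56082) (PT.nd (nat_lit 55692) (PT.nd (nat_lit 55536) (PT.nd (nat_lit 78) (PT.lf (nat_lit 38608) (nat_lit 6) (nat_lit 508) (nat_lit 0) (nat_lit 214) (nat_lit 189) (nat_lit 167)) (PT.lf (nat_lit 36708) (nat_lit 6) (nat_lit 483) (nat_lit 0) (nat_lit 215) (nat_lit 189) (nat_lit 166))) (PT.nd (nat_lit 78) (PT.lf (nat_lit 36784) (nat_lit 6) (nat_lit 484) (nat_lit 5) (nat_lit 165) (nat_lit 190) (nat_lit 215)) (PT.lf (nat_lit 38684) (nat_lit 6) (nat_lit 509) (nat_lit 5) (nat_lit 166) (nat_lit 190) (nat_lit 214)))) (PT.nd (nat_lit 156) (PT.nd (nat_lit 78) (PT.lf (nat_lit 40508) (nat_lit 6) (nat_lit 533) (nat_lit 5) (nat_lit 167) (nat_lit 190) (nat_lit 213)) (PT.lf (nat_lit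 42256) (nat_lit 6) (nat_lit 556) (nat_lit 5) (nat_lit 168) (nat_lit 190) (nat_lit 212))) (PT.nd (nat_lit 78) (PT.lf (nat_lit 43928) (nat_lit 6) (nat_lit 578) (nat_lit 5) (nat_lit 169) (nat_lit 190) (nat_lit 211)) (PT.nd (nat_lit 78) (PT.lf (nat_lit 45524) (nat_lit 6) (nat_lit 599) (nat_lit 5) (nat_lit 170) (nat_lit 190) (nat_lit 210)) (PT.lf (nat_lit 47044) (nat_lit 6) (nat_lit 619) (nat_lit 5) (nat_lit 171) (nat_lit 190) (nat_lit 209)))))) (PT.nd (nat_lit 312) (PT.nd (nat_lit 156) (PT.nd (nat_lit 78) (PT.lf (nat_lit 48488) (nat_lit 6) (nat_lit 638) (nat_lit 5) (nat_lit 172) (nat_lit 190) (nat_lit 208)) (PT.lf (nat_lit 49856) (nat_lit 6) (nat_lit 656) (nat_lit 5) (nat_lit 173) (nat_lit 190) (nat_lit 207))) (PT.nd (nat_lit 78) (PT.lf (nat_lit 51148) (nat_lit 6) (nat_lit 673) (nat_lit 5) (nat_lit 174) (nat_lit 190) (nat_lit 206)) (PT.lf (nat_lit 52364) (nat_lit 6) (nat_lit 689) (nat_lit 5) (nat_lit 175) (nat_lit 190) (nat_lit 205)))) (PT.nd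 (nat_lit 156) (PT.nd (nat_lit 78) (PT.lf (nat_lit 53504) (nat_lit 6) (nat_lit 704) (nat_lit 5) (nat_lit 176) (nat_lit 190) (nat_lit 204)) (PT.lf (nat_lit 54568) (nat_lit 6) (nat_lit 718) (nat_lit 5) (nat_lit 177) (nat_lit 190) (nat_lit 203))) (PT.nd (nat_lit 78) (PT.lf (nat_lit 55556) (nat_lit 6) (nat_lit 731) (nat_lit 5) (nat_lit 178) (nat_lit 190) (nat_lit 202)) (PT.nd (nat_lit 78) (PT.lf (nat_lit 56468) (nat_lit 6) (nat_lit 743) (nat_lit 5) (nat_lit 179) (nat_lit 190) (nat_lit 201)) (PT.lf (nat_lit 57304) (nat_lit 6) (nat_lit 754) (nat_lit 5) (nat_lit 180) (nat_lit 190) (nat_lit 200))))))))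
noncomputable def pc51 : PT := (PT.nd (nat_lit 1404) (PT.nd (nat_lit 702) (PT.nd (nat_lit 312) (PT.nd (nat_lit 156) (PT.nd (nat_lit 78) (PT.lf (nat_lit 58064) (nat_lit 6) (nat_lit 764) (nat_lit 5) (nat_lit 181) (nat_lit 190) (nat_lit 199)) (PT.lf (nat_lit 58748) (nat_lit 6) (nat_lit 773) (nat_lit 5) (nat_lit 182) (nat_lit 190) (nat_lit 198))) (PT.nd (nat_lit 78) (PT.lf (nat_lit 59356) (nat_lit 6) (nat_lit 781) (nat_lit 5) (nat_lit 183) (nat_lit 190) (nat_lit 197)) (PT.lf (nat_lit 59888) (nat_lit 6) (nat_lit 788) (nat_lit 5) (nat_lit 184) (nat_lit 190) (nat_lit 196)))) (PT.nd (nat_lit 156) (PT.nd (nat_lit 78) (PT.lf (nat_lit 60344) (nat_lit 6) (nat_lit 794) (nat_lit 5) (nat_lit 185) (nat_lit 190) (nat_lit 195)) (PT.lf (nat_lit 60724) (nat_lit 6) (nat_lit 799) (nat_lit 5) (nat_lit 186) (nat_lit 190) (nat_lit 194))) (PT.nd (nat_lit 78) (PT.lf (nat_lit 61028) (nat_lit 6) (nat_lit 803) (nat_lit 5) (nat_lit 187) (nat_lit 190) (nat_lit 193))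 (PT.nd (nat_lit 78) (PT.lf (nat_lit 61256) (nat_lit 6) (nat_lit 806) (nat_lit 5) (nat_lit 188) (nat_lit 190) (nat_lit 192)) (PT.lf (nat_lit 61408) (nat_lit 6) (nat_lit 808) (nat_lit 5) (nat_lit 189) (nat_lit 190) (nat_lit 191)))))) (PT.nd (nat_lit 312) (PT.nd (nat_lit 156) (PT.nd (nat_lit 78) (PT.lf (nat_lit 61484) (nat_lit 1) (nat_lit 809) (nat_lit 0) (nat_lit 190) (nat_lit 190) (nat_lit 190)) (PT.lf (nat_lit 61408) (nat_lit 6) (nat_lit 808) (nat_lit 0) (nat_lit 191) (nat_lit 190) (nat_lit 189))) (PT.nd (nat_lit 78) (PT.lf (nat_lit 61256) (nat_lit 6) (nat_lit 806) (nat_lit 0) (nat_lit 192) (nat_lit 190) (nat_lit 188)) (PT.lf (nat_lit 61028) (nat_lit 6) (nat_lit 803) (nat_lit 0) (nat_lit 193) (nat_lit 190) (nat_lit 187)))) (PT.nd (nat_lit 156) (PT.nd (nat_lit 78) (PT.lf (nat_lit 60724) (nat_lit 6) (nat_lit 799) (nat_lit 0) (nat_lit 194) (nat_lit 190) (nat_lit 186)) (PT.lf (nat_lit 60344) (nat_lit 6) (nat_lit 794) (nat_lit 0) (nat_lit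 195) (nat_lit 190) (nat_lit 185))) (PT.nd (nat_lit 78) (PT.lf (nat_lit 59888) (nat_lit 6) (nat_lit 788) (nat_lit 0) (nat_lit 196) (nat_lit 190) (nat_lit 184)) (PT.nd (nat_lit 78) (PT.lf (nat_lit 59356) (nat_lit 6) (nat_lit 781) (nat_lit 0) (nat_lit 197) (nat_lit 190) (nat_lit 183)) (PT.lf (nat_lit 58748) (nat_lit 6) (nat_lit 773) (nat_lit 0) (nat_lit 198) (nat_lit 190) (nat_lit 182))))))) (PT.nd (nat_lit 702) (PT.nd (nat_lit 312) (PT.nd (nat_lit 156) (PT.nd (nat_lit 78) (PT.lf (nat_lit 58064) (nat_lit 6) (nat_lit 764) (nat_lit 0) (nat_lit 199) (nat_lit 190) (nat_lit 181)) (PT.lf (nat_lit 57304) (nat_lit 6) (nat_lit 754) (nat_lit 0) (nat_lit 200) (nat_lit 190) (nat_lit 180))) (PT.nd (nat_lit 78) (PT.lf (nat_lit 56468) (nat_lit 6) (nat_lit 743) (nat_lit 0) (nat_lit 201) (nat_lit 190) (nat_lit 179)) (PT.lf (nat_lit 55556) (nat_lit 6) (nat_lit 731) (nat_lit 0) (nat_lit 202) (nat_lit 190) (nat_lit 178)))) (PT.nd (nat_lit 156) (PT.nd (nat_lit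 78) (PT.lf (nat_lit 54568) (nat_lit 6) (nat_lit 718) (nat_lit 0) (nat_lit 203) (nat_lit 190) (nat_lit 177)) (PT.lf (nat_lit 53504) (nat_lit 6) (nat_lit 704) (nat_lit 0) (nat_lit 204) (nat_lit 190) (nat_lit 176))) (PT.nd (nat_lit 78) (PT.lf (nat_lit 52364) (nat_lit 6) (nat_lit 689) (nat_lit 0) (nat_lit 205) (nat_lit 190) (nat_lit 175)) (PT.nd (nat_lit 78) (PT.lf (nat_lit 51148) (nat_lit 6) (nat_lit 673) (nat_lit 0) (nat_lit 206) (nat_lit 190) (nat_lit 174)) (PT.lf (nat_lit 49856) (nat_lit 6) (nat_lit 656) (nat_lit 0) (nat_lit 207) (nat_lit 190) (nat_lit 173)))))) (PT.nd (nat_lit 312) (PT.nd (nat_lit 156) (PT.nd (nat_lit 78) (PT.lf (nat_lit 48488) (nat_lit 6) (nat_lit 638) (nat_lit 0) (nat_lit 208) (nat_lit 190) (nat_lit 172)) (PT.lf (nat_lit 47044) (nat_lit 6) (nat_lit 619) (nat_lit 0) (nat_lit 209) (nat_lit 190) (nat_lit 171))) (PT.nd (nat_lit 78) (PT.lf (nat_lit 45524) (nat_lit 6) (nat_lit 599) (nat_lit 0) (nat_lit 210) (nat_lit 190)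 (nat_lit 170)) (PT.lf (nat_lit 43928) (nat_lit 6) (nat_lit 578) (nat_lit 0) (nat_lit 211) (nat_lit 190) (nat_lit 169)))) (PT.nd (nat_lit 156) (PT.nd (nat_lit 78) (PT.lf (nat_lit 42256) (nat_lit 6) (nat_lit 556) (nat_lit 0) (nat_lit 212) (nat_lit 190) (nat_lit 168)) (PT.lf (nat_lit 40508) (nat_lit 6) (nat_lit 533) (nat_lit 0) (nat_lit 213) (nat_lit 190) (nat_lit 167))) (PT.nd (nat_lit 78) (PT.lf (nat_lit 38684) (nat_lit 6) (nat_lit 509) (nat_lit 0) (nat_lit 214) (nat_lit 190) (nat_lit 166)) (PT.nd (nat_lit 55380) (PT.lf (nat_lit 36784) (nat_lit 6) (nat_lit 484) (nat_lit 0) (nat_lit 215) (nat_lit 190) (nat_lit 165)) (PT.lf (nat_lit 35644) (nat_lit 6) (nat_lit 469) (nat_lit 5) (nat_lit 164) (nat_lit 191) (nat_lit 215))))))))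
noncomputable def pc52 : PT := (PT.nd (nat_lit 1326) (PT.nd (nat_lit 624) (PT.nd (nat_lit 312) (PT.nd (nat_lit 156) (PT.nd (nat_lit 78) (PT.lf (nat_lit 36860) (nat_lit 6) (nat_lit 485) (nat_lit 5) (nat_lit 165) (nat_lit 191) (nat_lit 214)) (PT.lf (nat_lit 38760) (nat_lit 6) (nat_lit 510) (nat_lit 5) (nat_lit 166) (nat_lit 191) (nat_lit 213))) (PT.nd (nat_lit 78) (PT.lf (nat_lit 40584) (nat_lit 6) (nat_lit 534) (nat_lit 5) (nat_lit 167) (nat_lit 191) (nat_lit 212)) (PT.lf (nat_lit 42332) (nat_lit 6) (nat_lit 557) (nat_lit 5) (nat_lit 168) (nat_lit 191) (nat_lit 211)))) (PT.nd (nat_lit 156) (PT.nd (nat_lit 78) (PT.lf (nat_lit 44004) (nat_lit 6) (nat_lit 579) (nat_lit 5) (nat_lit 169) (nat_lit 191) (nat_lit 210)) (PT.lf (nat_lit 45600) (nat_lit 6) (nat_lit 600) (nat_lit 5) (nat_lit 170) (nat_lit 191) (nat_lit 209))) (PT.nd (nat_lit 78) (PT.lf (nat_lit 47120) (nat_lit 6) (nat_lit 620) (nat_lit 5) (nat_lit 171) (nat_lit 191) (nat_lit 208))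 (PT.lf (nat_lit 48564) (nat_lit 6) (nat_lit 639) (nat_lit 5) (nat_lit 172) (nat_lit 191) (nat_lit 207))))) (PT.nd (nat_lit 312) (PT.nd (nat_lit 156) (PT.nd (nat_lit 78) (PT.lf (nat_lit 49932) (nat_lit 6) (nat_lit 657) (nat_lit 5) (nat_lit 173) (nat_lit 191) (nat_lit 206)) (PT.lf (nat_lit 51224) (nat_lit 6) (nat_lit 674) (nat_lit 5) (nat_lit 174) (nat_lit 191) (nat_lit 205))) (PT.nd (nat_lit 78) (PT.lf (nat_lit 52440) (nat_lit 6) (nat_lit 690) (nat_lit 5) (nat_lit 175) (nat_lit 191) (nat_lit 204)) (PT.lf (nat_lit 53580) (nat_lit 6) (nat_lit 705) (nat_lit 5) (nat_lit 176) (nat_lit 191) (nat_lit 203)))) (PT.nd (nat_lit 156) (PT.nd (nat_lit 78) (PT.lf (nat_lit 54644) (nat_lit 6) (nat_lit 719) (nat_lit 5) (nat_lit 177) (nat_lit 191) (nat_lit 202)) (PT.lf (nat_lit 55632) (nat_lit 6) (nat_lit 732) (nat_lit 5) (nat_lit 178) (nat_lit 191) (nat_lit 201))) (PT.nd (nat_lit 78) (PT.lf (nat_lit 56544) (nat_lit 6) (nat_lit 744) (nat_lit 5) (nat_lit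 179) (nat_lit 191) (nat_lit 200)) (PT.nd (nat_lit 78) (PT.lf (nat_lit 57380) (nat_lit 6) (nat_lit 755) (nat_lit 5) (nat_lit 180) (nat_lit 191) (nat_lit 199)) (PT.lf (nat_lit 58140) (nat_lit 6) (nat_lit 765) (nat_lit 5) (nat_lit 181) (nat_lit 191) (nat_lit 198))))))) (PT.nd (nat_lit 702) (PT.nd (nat_lit 312) (PT.nd (nat_lit 156) (PT.nd (nat_lit 78) (PT.lf (nat_lit 58824) (nat_lit 6) (nat_lit 774) (nat_lit 5) (nat_lit 182) (nat_lit 191) (nat_lit 197)) (PT.lf (nat_lit 59432) (nat_lit 6) (nat_lit 782) (nat_lit 5) (nat_lit 183) (nat_lit 191) (nat_lit 196))) (PT.nd (nat_lit 78) (PT.lf (nat_lit 59964) (nat_lit 6) (nat_lit 789) (nat_lit 5) (nat_lit 184) (nat_lit 191) (nat_lit 195)) (PT.lf (nat_lit 60420) (nat_lit 6) (nat_lit 795) (nat_lit 5) (nat_lit 185) (nat_lit 191) (nat_lit 194)))) (PT.nd (nat_lit 156) (PT.nd (nat_lit 78) (PT.lf (nat_lit 60800) (nat_lit 6) (nat_lit 800) (nat_lit 5) (nat_lit 186) (nat_lit 191) (nat_lit 193)) (PT.lf (nat_lit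 61104) (nat_lit 6) (nat_lit 804) (nat_lit 5) (nat_lit 187) (nat_lit 191) (nat_lit 192))) (PT.nd (nat_lit 78) (PT.lf (nat_lit 61332) (nat_lit 3) (nat_lit 807) (nat_lit 4) (nat_lit 188) (nat_lit 191) (nat_lit 191)) (PT.nd (nat_lit 78) (PT.lf (nat_lit 61408) (nat_lit 6) (nat_lit 808) (nat_lit 4) (nat_lit 189) (nat_lit 191) (nat_lit 190)) (PT.lf (nat_lit 61408) (nat_lit 6) (nat_lit 808) (nat_lit 2) (nat_lit 190) (nat_lit 191) (nat_lit 189)))))) (PT.nd (nat_lit 312) (PT.nd (nat_lit 156) (PT.nd (nat_lit 78) (PT.lf (nat_lit 61332) (nat_lit 3) (nat_lit 807) (nat_lit 0) (nat_lit 191) (nat_lit 191) (nat_lit 188)) (PT.lf (nat_lit 61104) (nat_lit 6) (nat_lit 804) (nat_lit 0) (nat_lit 192) (nat_lit 191) (nat_lit 187))) (PT.nd (nat_lit 78) (PT.lf (nat_lit 60800) (nat_lit 6) (nat_lit 800) (nat_lit 0) (nat_lit 193) (nat_lit 191) (nat_lit 186)) (PT.lf (nat_lit 60420) (nat_lit 6) (nat_lit 795) (nat_lit 0) (nat_lit 194) (nat_lit 191) (nat_lit 185)))) (PT.nd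 (nat_lit 156) (PT.nd (nat_lit 78) (PT.lf (nat_lit 59964) (nat_lit 6) (nat_lit 789) (nat_lit 0) (nat_lit 195) (nat_lit 191) (nat_lit 184)) (PT.lf (nat_lit 59432) (nat_lit 6) (nat_lit 782) (nat_lit 0) (nat_lit 196) (nat_lit 191) (nat_lit 183))) (PT.nd (nat_lit 78) (PT.lf (nat_lit 58824) (nat_lit 6) (nat_lit 774) (nat_lit 0) (nat_lit 197) (nat_lit 191) (nat_lit 182)) (PT.nd (nat_lit 78) (PT.lf (nat_lit 58140) (nat_lit 6) (nat_lit 765) (nat_lit 0) (nat_lit 198) (nat_lit 191) (nat_lit 181)) (PT.lf (nat_lit 57380) (nat_lit 6) (nat_lit 755) (nat_lit 0) (nat_lit 199) (nat_lit 191) (nat_lit 180))))))))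
noncomputable def pc53 : PT := (PT.nd (nat_lit 56628) (PT.nd (nat_lit 702) (PT.nd (nat_lit 312) (PT.nd (nat_lit 156) (PT.nd (nat_lit 78) (PT.lf (nat_lit 56544) (nat_lit 6) (nat_lit 744) (nat_lit 0) (nat_lit 200) (nat_lit 191) (nat_lit 179)) (PT.lf (nat_lit 55632) (nat_lit 6) (nat_lit 732) (nat_lit 0) (nat_lit 201) (nat_lit 191) (nat_lit 178))) (PT.nd (nat_lit 78) (PT.lf (nat_lit 54644) (nat_lit 6) (nat_lit 719) (nat_lit 0) (nat_lit 202) (nat_lit 191) (nat_lit 177)) (PT.lf (nat_lit 53580) (nat_lit 6) (nat_lit 705) (nat_lit 0) (nat_lit 203) (nat_lit 191) (nat_lit 176)))) (PT.nd (nat_lit 156) (PT.nd (nat_lit 78) (PT.lf (nat_lit 52440) (nat_lit 6) (nat_lit 690) (nat_lit 0) (nat_lit 204) (nat_lit 191) (nat_lit 175)) (PT.lf (nat_lit 51224) (nat_lit 6) (nat_lit 674) (nat_lit 0) (nat_lit 205) (nat_lit 191) (nat_lit 174))) (PT.nd (nat_lit 78) (PT.lf (nat_lit 49932) (nat_lit 6) (nat_lit 657) (nat_lit 0) (nat_lit 206) (nat_lit 191) (nat_lit 173))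 (PT.nd (nat_lit 78) (PT.lf (nat_lit 48564) (nat_lit 6) (nat_lit 639) (nat_lit 0) (nat_lit 207) (nat_lit 191) (nat_lit 172)) (PT.lf (nat_lit 47120) (nat_lit 6) (nat_lit 620) (nat_lit 0) (nat_lit 208) (nat_lit 191) (nat_lit 171)))))) (PT.nd (nat_lit 312) (PT.nd (nat_lit 156) (PT.nd (nat_lit 78) (PT.lf (nat_lit 45600) (nat_lit 6) (nat_lit 600) (nat_lit 0) (nat_lit 209) (nat_lit 191) (nat_lit 170)) (PT.lf (nat_lit 44004) (nat_lit 6) (nat_lit 579) (nat_lit 0) (nat_lit 210) (nat_lit 191) (nat_lit 169))) (PT.nd (nat_lit 78) (PT.lf (nat_lit 42332) (nat_lit 6) (nat_lit 557) (nat_lit 0) (nat_lit 211) (nat_lit 191) (nat_lit 168)) (PT.lf (nat_lit 40584) (nat_lit 6) (nat_lit 534) (nat_lit 0) (nat_lit 212) (nat_lit 191) (nat_lit 167)))) (PT.nd (nat_lit 156) (PT.nd (nat_lit 78) (PT.lf (nat_lit 38760) (nat_lit 6) (nat_lit 510) (nat_lit 0) (nat_lit 213) (nat_lit 191) (nat_lit 166)) (PT.lf (nat_lit 36860) (nat_lit 6) (nat_lit 485) (nat_lit 0) (nat_lit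 214) (nat_lit 191) (nat_lit 165))) (PT.nd (nat_lit 55302) (PT.lf (nat_lit 35644) (nat_lit 6) (nat_lit 469) (nat_lit 0) (nat_lit 215) (nat_lit 191) (nat_lit 164)) (PT.nd (nat_lit 78) (PT.lf (nat_lit 34732) (nat_lit 6) (nat_lit 457) (nat_lit 5) (nat_lit 163) (nat_lit 192) (nat_lit 215)) (PT.lf (nat_lit 35720) (nat_lit 6) (nat_lit 470) (nat_lit 5) (nat_lit 164) (nat_lit 192) (nat_lit 214))))))) (PT.nd (nat_lit 702) (PT.nd (nat_lit 312) (PT.nd (nat_lit 156) (PT.nd (nat_lit 78) (PT.lf (nat_lit 36936) (nat_lit 6) (nat_lit 486) (nat_lit 5) (nat_lit 165) (nat_lit 192) (nat_lit 213)) (PT.lf (nat_lit 38836) (nat_lit 6) (nat_lit 511) (nat_lit 5) (nat_lit 166) (nat_lit 192) (nat_lit 212))) (PT.nd (nat_lit 78) (PT.lf (nat_lit 40660) (nat_lit 6) (nat_lit 535) (nat_lit 5) (nat_lit 167) (nat_lit 192) (nat_lit 211)) (PT.lf (nat_lit 42408) (nat_lit 6) (nat_lit 558) (nat_lit 5) (nat_lit 168) (nat_lit 192) (nat_lit 210)))) (PT.nd (nat_lit 156) (PT.nd (nat_lit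 78) (PT.lf (nat_lit 44080) (nat_lit 6) (nat_lit 580) (nat_lit 5) (nat_lit 169) (nat_lit 192) (nat_lit 209)) (PT.lf (nat_lit 45676) (nat_lit 6) (nat_lit 601) (nat_lit 5) (nat_lit 170) (nat_lit 192) (nat_lit 208))) (PT.nd (nat_lit 78) (PT.lf (nat_lit 47196) (nat_lit 6) (nat_lit 621) (nat_lit 5) (nat_lit 171) (nat_lit 192) (nat_lit 207)) (PT.nd (nat_lit 78) (PT.lf (nat_lit 48640) (nat_lit 6) (nat_lit 640) (nat_lit 5) (nat_lit 172) (nat_lit 192) (nat_lit 206)) (PT.lf (nat_lit 50008) (nat_lit 6) (nat_lit 658) (nat_lit 5) (nat_lit 173) (nat_lit 192) (nat_lit 205)))))) (PT.nd (nat_lit 312) (PT.nd (nat_lit 156) (PT.nd (nat_lit 78) (PT.lf (nat_lit 51300) (nat_lit 6) (nat_lit 675) (nat_lit 5) (nat_lit 174) (nat_lit 192) (nat_lit 204)) (PT.lf (nat_lit 52516) (nat_lit 6) (nat_lit 691) (nat_lit 5) (nat_lit 175) (nat_lit 192) (nat_lit 203))) (PT.nd (nat_lit 78) (PT.lf (nat_lit 53656) (nat_lit 6) (nat_lit 706) (nat_lit 5) (nat_lit 176) (nat_lit 192)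 (nat_lit 202)) (PT.lf (nat_lit 54720) (nat_lit 6) (nat_lit 720) (nat_lit 5) (nat_lit 177) (nat_lit 192) (nat_lit 201)))) (PT.nd (nat_lit 156) (PT.nd (nat_lit 78) (PT.lf (nat_lit 55708) (nat_lit 6) (nat_lit 733) (nat_lit 5) (nat_lit 178) (nat_lit 192) (nat_lit 200)) (PT.lf (nat_lit 56620) (nat_lit 6) (nat_lit 745) (nat_lit 5) (nat_lit 179) (nat_lit 192) (nat_lit 199))) (PT.nd (nat_lit 78) (PT.lf (nat_lit 57456) (nat_lit 6) (nat_lit 756) (nat_lit 5) (nat_lit 180) (nat_lit 192) (nat_lit 198)) (PT.nd (nat_lit 78) (PT.lf (nat_lit 58216) (nat_lit 6) (nat_lit 766) (nat_lit 5) (nat_lit 181) (nat_lit 192) (nat_lit 197)) (PT.lf (nat_lit 58900) (nat_lit 6) (nat_lit 775) (nat_lit 5) (nat_lit 182) (nat_lit 192) (nat_lit 196))))))))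
noncomputable def pc54 : PT := (PT.nd (nat_lit 1404) (PT.nd (nat_lit 702) (PT.nd (nat_lit 312) (PT.nd (nat_lit 156) (PT.nd (nat_lit 78) (PT.lf (nat_lit 59508) (nat_lit 6) (nat_lit 783) (nat_lit 5) (nat_lit 183) (nat_lit 192) (nat_lit 195)) (PT.lf (nat_lit 60040) (nat_lit 6) (nat_lit 790) (nat_lit 5) (nat_lit 184) (nat_lit 192) (nat_lit 194))) (PT.nd (nat_lit 78) (PT.lf (nat_lit 60496) (nat_lit 6) (nat_lit 796) (nat_lit 5) (nat_lit 185) (nat_lit 192) (nat_lit 193)) (PT.lf (nat_lit 60876) (nat_lit 3) (nat_lit 801) (nat_lit 4) (nat_lit 186) (nat_lit 192) (nat_lit 192)))) (PT.nd (nat_lit 156) (PT.nd (nat_lit 78) (PT.lf (nat_lit 61104) (nat_lit 6) (nat_lit 804) (nat_lit 4) (nat_lit 187) (nat_lit 192) (nat_lit 191)) (PT.lf (nat_lit 61256) (nat_lit 6) (nat_lit 806) (nat_lit 4) (nat_lit 188) (nat_lit 192) (nat_lit 190))) (PT.nd (nat_lit 78) (PT.lf (nat_lit 61180) (nat_lit 3) (nat_lit 805) (nat_lit 2) (nat_lit 189) (nat_lit 192) (nat_lit 189))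 (PT.nd (nat_lit 78) (PT.lf (nat_lit 61256) (nat_lit 6) (nat_lit 806) (nat_lit 2) (nat_lit 190) (nat_lit 192) (nat_lit 188)) (PT.lf (nat_lit 61104) (nat_lit 6) (nat_lit 804) (nat_lit 2) (nat_lit 191) (nat_lit 192) (nat_lit 187)))))) (PT.nd (nat_lit 312) (PT.nd (nat_lit 156) (PT.nd (nat_lit 78) (PT.lf (nat_lit 60876) (nat_lit 3) (nat_lit 801) (nat_lit 0) (nat_lit 192) (nat_lit 192) (nat_lit 186)) (PT.lf (nat_lit 60496) (nat_lit 6) (nat_lit 796) (nat_lit 0) (nat_lit 193) (nat_lit 192) (nat_lit 185))) (PT.nd (nat_lit 78) (PT.lf (nat_lit 60040) (nat_lit 6) (nat_lit 790) (nat_lit 0) (nat_lit 194) (nat_lit 192) (nat_lit 184)) (PT.lf (nat_lit 59508) (nat_lit 6) (nat_lit 783) (nat_lit 0) (nat_lit 195) (nat_lit 192) (nat_lit 183)))) (PT.nd (nat_lit 156) (PT.nd (nat_lit 78) (PT.lf (nat_lit 58900) (nat_lit 6) (nat_lit 775) (nat_lit 0) (nat_lit 196) (nat_lit 192) (nat_lit 182)) (PT.lf (nat_lit 58216) (nat_lit 6) (nat_lit 766) (nat_lit 0) (nat_lit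 197) (nat_lit 192) (nat_lit 181))) (PT.nd (nat_lit 78) (PT.lf (nat_lit 57456) (nat_lit 6) (nat_lit 756) (nat_lit 0) (nat_lit 198) (nat_lit 192) (nat_lit 180)) (PT.nd (nat_lit 78) (PT.lf (nat_lit 56620) (nat_lit 6) (nat_lit 745) (nat_lit 0) (nat_lit 199) (nat_lit 192) (nat_lit 179)) (PT.lf (nat_lit 55708) (nat_lit 6) (nat_lit 733) (nat_lit 0) (nat_lit 200) (nat_lit 192) (nat_lit 178))))))) (PT.nd (nat_lit 702) (PT.nd (nat_lit 312) (PT.nd (nat_lit 156) (PT.nd (nat_lit 78) (PT.lf (nat_lit 54720) (nat_lit 6) (nat_lit 720) (nat_lit 0) (nat_lit 201) (nat_lit 192) (nat_lit 177)) (PT.lf (nat_lit 53656) (nat_lit 6) (nat_lit 706) (nat_lit 0) (nat_lit 202) (nat_lit 192) (nat_lit 176))) (PT.nd (nat_lit 78) (PT.lf (nat_lit 52516) (nat_lit 6) (nat_lit 691) (nat_lit 0) (nat_lit 203) (nat_lit 192) (nat_lit 175)) (PT.lf (nat_lit 51300) (nat_lit 6) (nat_lit 675) (nat_lit 0) (nat_lit 204) (nat_lit 192) (nat_lit 174)))) (PT.nd (nat_lit 156) (PT.nd (nat_lit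 78) (PT.lf (nat_lit 50008) (nat_lit 6) (nat_lit 658) (nat_lit 0) (nat_lit 205) (nat_lit 192) (nat_lit 173)) (PT.lf (nat_lit 48640) (nat_lit 6) (nat_lit 640) (nat_lit 0) (nat_lit 206) (nat_lit 192) (nat_lit 172))) (PT.nd (nat_lit 78) (PT.lf (nat_lit 47196) (nat_lit 6) (nat_lit 621) (nat_lit 0) (nat_lit 207) (nat_lit 192) (nat_lit 171)) (PT.nd (nat_lit 78) (PT.lf (nat_lit 45676) (nat_lit 6) (nat_lit 601) (nat_lit 0) (nat_lit 208) (nat_lit 192) (nat_lit 170)) (PT.lf (nat_lit 44080) (nat_lit 6) (nat_lit 580) (nat_lit 0) (nat_lit 209) (nat_lit 192) (nat_lit 169)))))) (PT.nd (nat_lit 312) (PT.nd (nat_lit 156) (PT.nd (nat_lit 78) (PT.lf (nat_lit 42408) (nat_lit 6) (nat_lit 558) (nat_lit 0) (nat_lit 210) (nat_lit 192) (nat_lit 168)) (PT.lf (nat_lit 40660) (nat_lit 6) (nat_lit 535) (nat_lit 0) (nat_lit 211) (nat_lit 192) (nat_lit 167))) (PT.nd (nat_lit 78) (PT.lf (nat_lit 38836) (nat_lit 6) (nat_lit 511) (nat_lit 0) (nat_lit 212) (nat_lit 192)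 (nat_lit 166)) (PT.lf (nat_lit 36936) (nat_lit 6) (nat_lit 486) (nat_lit 0) (nat_lit 213) (nat_lit 192) (nat_lit 165)))) (PT.nd (nat_lit 55224) (PT.nd (nat_lit 78) (PT.lf (nat_lit 35720) (nat_lit 6) (nat_lit 470) (nat_lit 0) (nat_lit 214) (nat_lit 192) (nat_lit 164)) (PT.lf (nat_lit 34732) (nat_lit 6) (nat_lit 457) (nat_lit 0) (nat_lit 215) (nat_lit 192) (nat_lit 163))) (PT.nd (nat_lit 78) (PT.lf (nat_lit 32908) (nat_lit 6) (nat_lit 433) (nat_lit 5) (nat_lit 161) (nat_lit 193) (nat_lit 216)) (PT.nd (nat_lit 78) (PT.lf (nat_lit 33820) (nat_lit 6) (nat_lit 445) (nat_lit 5) (nat_lit 162) (nat_lit 193) (nat_lit 215)) (PT.lf (nat_lit 34808) (nat_lit 6) (nat_lit 458) (nat_lit 5) (nat_lit 163) (nat_lit 193) (nat_lit 214))))))))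
noncomputable def pc55 : PT := (PT.nd (nat_lit 1404) (PT.nd (nat_lit 702) (PT.nd (nat_lit 312) (PT.nd (nat_lit 156) (PT.nd (nat_lit 78) (PT.lf (nat_lit 35796) (nat_lit 6) (nat_lit 471) (nat_lit 5) (nat_lit 164) (nat_lit 193) (nat_lit 213)) (PT.lf (nat_lit 37012) (nat_lit 6) (nat_lit 487) (nat_lit 5) (nat_lit 165) (nat_lit 193) (nat_lit 212))) (PT.nd (nat_lit 78) (PT.lf (nat_lit 38912) (nat_lit 6) (nat_lit 512) (nat_lit 5) (nat_lit 166) (nat_lit 193) (nat_lit 211)) (PT.lf (nat_lit 40736) (nat_lit 6) (nat_lit 536) (nat_lit 5) (nat_lit 167) (nat_lit 193) (nat_lit 210)))) (PT.nd (nat_lit 156) (PT.nd (nat_lit 78) (PT.lf (nat_lit 42484) (nat_lit 6) (nat_lit 559) (nat_lit 5) (nat_lit 168) (nat_lit 193) (nat_lit 209)) (PT.lf (nat_lit 44156) (nat_lit 6) (nat_lit 581) (nat_lit 5) (nat_lit 169) (nat_lit 193) (nat_lit 208))) (PT.nd (nat_lit 78) (PT.lf (nat_lit 45752) (nat_lit 6) (nat_lit 602) (nat_lit 5) (nat_lit 170) (nat_lit 193) (nat_lit 207))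 (PT.nd (nat_lit 78) (PT.lf (nat_lit 47272) (nat_lit 6) (nat_lit 622) (nat_lit 5) (nat_lit 171) (nat_lit 193) (nat_lit 206)) (PT.lf (nat_lit 48716) (nat_lit 6) (nat_lit 641) (nat_lit 5) (nat_lit 172) (nat_lit 193) (nat_lit 205)))))) (PT.nd (nat_lit 312) (PT.nd (nat_lit 156) (PT.nd (nat_lit 78) (PT.lf (nat_lit 50084) (nat_lit 6) (nat_lit 659) (nat_lit 5) (nat_lit 173) (nat_lit 193) (nat_lit 204)) (PT.lf (nat_lit 51376) (nat_lit 6) (nat_lit 676) (nat_lit 5) (nat_lit 174) (nat_lit 193) (nat_lit 203))) (PT.nd (nat_lit 78) (PT.lf (nat_lit 52592) (nat_lit 6) (nat_lit 692) (nat_lit 5) (nat_lit 175) (nat_lit 193) (nat_lit 202)) (PT.lf (nat_lit 53732) (nat_lit 6) (nat_lit 707) (nat_lit 5) (nat_lit 176) (nat_lit 193) (nat_lit 201)))) (PT.nd (nat_lit 156) (PT.nd (nat_lit 78) (PT.lf (nat_lit 54796) (nat_lit 6) (nat_lit 721) (nat_lit 5) (nat_lit 177) (nat_lit 193) (nat_lit 200)) (PT.lf (nat_lit 55784) (nat_lit 6) (nat_lit 734) (nat_lit 5) (nat_lit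 178) (nat_lit 193) (nat_lit 199))) (PT.nd (nat_lit 78) (PT.lf (nat_lit 56696) (nat_lit 6) (nat_lit 746) (nat_lit 5) (nat_lit 179) (nat_lit 193) (nat_lit 198)) (PT.nd (nat_lit 78) (PT.lf (nat_lit 57532) (nat_lit 6) (nat_lit 757) (nat_lit 5) (nat_lit 180) (nat_lit 193) (nat_lit 197)) (PT.lf (nat_lit 58292) (nat_lit 6) (nat_lit 767) (nat_lit 5) (nat_lit 181) (nat_lit 193) (nat_lit 196))))))) (PT.nd (nat_lit 702) (PT.nd (nat_lit 312) (PT.nd (nat_lit 156) (PT.nd (nat_lit 78) (PT.lf (nat_lit 58976) (nat_lit 6) (nat_lit 776) (nat_lit 5) (nat_lit 182) (nat_lit 193) (nat_lit 195)) (PT.lf (nat_lit 59584) (nat_lit 6) (nat_lit 784) (nat_lit 5) (nat_lit 183) (nat_lit 193) (nat_lit 194))) (PT.nd (nat_lit 78) (PT.lf (nat_lit 60116) (nat_lit 3) (nat_lit 791) (nat_lit 4) (nat_lit 184) (nat_lit 193) (nat_lit 193)) (PT.lf (nat_lit 60496) (nat_lit 6) (nat_lit 796) (nat_lit 4) (nat_lit 185) (nat_lit 193) (nat_lit 192)))) (PT.nd (nat_lit 156) (PT.nd (nat_lit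 78) (PT.lf (nat_lit 60800) (nat_lit 6) (nat_lit 800) (nat_lit 4) (nat_lit 186) (nat_lit 193) (nat_lit 191)) (PT.lf (nat_lit 61028) (nat_lit 6) (nat_lit 803) (nat_lit 4) (nat_lit 187) (nat_lit 193) (nat_lit 190))) (PT.nd (nat_lit 78) (PT.lf (nat_lit 60952) (nat_lit 6) (nat_lit 802) (nat_lit 4) (nat_lit 188) (nat_lit 193) (nat_lit 189)) (PT.nd (nat_lit 78) (PT.lf (nat_lit 60952) (nat_lit 6) (nat_lit 802) (nat_lit 2) (nat_lit 189) (nat_lit 193) (nat_lit 188)) (PT.lf (nat_lit 61028) (nat_lit 6) (nat_lit 803) (nat_lit 2) (nat_lit 190) (nat_lit 193) (nat_lit 187)))))) (PT.nd (nat_lit 312) (PT.nd (nat_lit 156) (PT.nd (nat_lit 78) (PT.lf (nat_lit 60800) (nat_lit 6) (nat_lit 800) (nat_lit 2) (nat_lit 191) (nat_lit 193) (nat_lit 186)) (PT.lf (nat_lit 60496) (nat_lit 6) (nat_lit 796) (nat_lit 2) (nat_lit 192) (nat_lit 193) (nat_lit 185))) (PT.nd (nat_lit 78) (PT.lf (nat_lit 60116) (nat_lit 3) (nat_lit 791) (nat_lit 0) (nat_lit 193) (nat_lit 193)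 (nat_lit 184)) (PT.lf (nat_lit 59584) (nat_lit 6) (nat_lit 784) (nat_lit 0) (nat_lit 194) (nat_lit 193) (nat_lit 183)))) (PT.nd (nat_lit 156) (PT.nd (nat_lit 78) (PT.lf (nat_lit 58976) (nat_lit 6) (nat_lit 776) (nat_lit 0) (nat_lit 195) (nat_lit 193) (nat_lit 182)) (PT.lf (nat_lit 58292) (nat_lit 6) (nat_lit 767) (nat_lit 0) (nat_lit 196) (nat_lit 193) (nat_lit 181))) (PT.nd (nat_lit 78) (PT.lf (nat_lit 57532) (nat_lit 6) (nat_lit 757) (nat_lit 0) (nat_lit 197) (nat_lit 193) (nat_lit 180)) (PT.nd (nat_lit 78) (PT.lf (nat_lit 56696) (nat_lit 6) (nat_lit 746) (nat_lit 0) (nat_lit 198) (nat_lit 193) (nat_lit 179)) (PT.lf (nat_lit 55784) (nat_lit 6) (nat_lit 734) (nat_lit 0) (nat_lit 199) (nat_lit 193) (nat_lit 178))))))))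
noncomputable def pc56 : PT := (PT.nd (nat_lit 56238) (PT.nd (nat_lit 624) (PT.nd (nat_lit 312) (PT.nd (nat_lit 156) (PT.nd (nat_lit 78) (PT.lf (nat_lit 54796) (nat_lit 6) (nat_lit 721) (nat_lit 0) (nat_lit 200) (nat_lit 193) (nat_lit 177)) (PT.lf (nat_lit 53732) (nat_lit 6) (nat_lit 707) (nat_lit 0) (nat_lit 201) (nat_lit 193) (nat_lit 176))) (PT.nd (nat_lit 78) (PT.lf (nat_lit 52592) (nat_lit 6) (nat_lit 692) (nat_lit 0) (nat_lit 202) (nat_lit 193) (nat_lit 175)) (PT.lf (nat_lit 51376) (nat_lit 6) (nat_lit 676) (nat_lit 0) (nat_lit 203) (nat_lit 193) (nat_lit 174)))) (PT.nd (nat_lit 156) (PT.nd (nat_lit 78) (PT.lf (nat_lit 50084) (nat_lit 6) (nat_lit 659) (nat_lit 0) (nat_lit 204) (nat_lit 193) (nat_lit 173)) (PT.lf (nat_lit 48716) (nat_lit 6) (nat_lit 641) (nat_lit 0) (nat_lit 205) (nat_lit 193) (nat_lit 172))) (PT.nd (nat_lit 78) (PT.lf (nat_lit 47272) (nat_lit 6) (nat_lit 622) (nat_lit 0) (nat_lit 206) (nat_lit 193) (nat_lit 171))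 (PT.lf (nat_lit 45752) (nat_lit 6) (nat_lit 602) (nat_lit 0) (nat_lit 207) (nat_lit 193) (nat_lit 170))))) (PT.nd (nat_lit 312) (PT.nd (nat_lit 156) (PT.nd (nat_lit 78) (PT.lf (nat_lit 44156) (nat_lit 6) (nat_lit 581) (nat_lit 0) (nat_lit 208) (nat_lit 193) (nat_lit 169)) (PT.lf (nat_lit 42484) (nat_lit 6) (nat_lit 559) (nat_lit 0) (nat_lit 209) (nat_lit 193) (nat_lit 168))) (PT.nd (nat_lit 78) (PT.lf (nat_lit 40736) (nat_lit 6) (nat_lit 536) (nat_lit 0) (nat_lit 210) (nat_lit 193) (nat_lit 167)) (PT.lf (nat_lit 38912) (nat_lit 6) (nat_lit 512) (nat_lit 0) (nat_lit 211) (nat_lit 193) (nat_lit 166)))) (PT.nd (nat_lit 156) (PT.nd (nat_lit 78) (PT.lf (nat_lit 37012) (nat_lit 6) (nat_lit 487) (nat_lit 0) (nat_lit 212) (nat_lit 193) (nat_lit 165)) (PT.lf (nat_lit 35796) (nat_lit 6) (nat_lit 471) (nat_lit 0) (nat_lit 213) (nat_lit 193) (nat_lit 164))) (PT.nd (nat_lit 78) (PT.lf (nat_lit 34808) (nat_lit 6) (nat_lit 458) (nat_lit 0) (nat_lit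 214) (nat_lit 193) (nat_lit 163)) (PT.nd (nat_lit 78) (PT.lf (nat_lit 33820) (nat_lit 6) (nat_lit 445) (nat_lit 0) (nat_lit 215) (nat_lit 193) (nat_lit 162)) (PT.lf (nat_lit 32908) (nat_lit 6) (nat_lit 433) (nat_lit 0) (nat_lit 216) (nat_lit 193) (nat_lit 161))))))) (PT.nd (nat_lit 702) (PT.nd (nat_lit 312) (PT.nd (nat_lit 156) (PT.nd (nat_lit 78) (PT.lf (nat_lit 31996) (nat_lit 6) (nat_lit 421) (nat_lit 5) (nat_lit 160) (nat_lit 194) (nat_lit 216)) (PT.lf (nat_lit 32984) (nat_lit 6) (nat_lit 434) (nat_lit 5) (nat_lit 161) (nat_lit 194) (nat_lit 215))) (PT.nd (nat_lit 78) (PT.lf (nat_lit 33896) (nat_lit 6) (nat_lit 446) (nat_lit 5) (nat_lit 162) (nat_lit 194) (nat_lit 214)) (PT.lf (nat_lit 34884) (nat_lit 6) (nat_lit 459) (nat_lit 5) (nat_lit 163) (nat_lit 194) (nat_lit 213)))) (PT.nd (nat_lit 156) (PT.nd (nat_lit 78) (PT.lf (nat_lit 35872) (nat_lit 6) (nat_lit 472) (nat_lit 5) (nat_lit 164) (nat_lit 194) (nat_lit 212)) (PT.lf (nat_lit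 37088) (nat_lit 6) (nat_lit 488) (nat_lit 5) (nat_lit 165) (nat_lit 194) (nat_lit 211))) (PT.nd (nat_lit 78) (PT.lf (nat_lit 38988) (nat_lit 6) (nat_lit 513) (nat_lit 5) (nat_lit 166) (nat_lit 194) (nat_lit 210)) (PT.nd (nat_lit 78) (PT.lf (nat_lit 40812) (nat_lit 6) (nat_lit 537) (nat_lit 5) (nat_lit 167) (nat_lit 194) (nat_lit 209)) (PT.lf (nat_lit 42560) (nat_lit 6) (nat_lit 560) (nat_lit 5) (nat_lit 168) (nat_lit 194) (nat_lit 208)))))) (PT.nd (nat_lit 312) (PT.nd (nat_lit 156) (PT.nd (nat_lit 78) (PT.lf (nat_lit 44232) (nat_lit 6) (nat_lit 582) (nat_lit 5) (nat_lit 169) (nat_lit 194) (nat_lit 207)) (PT.lf (nat_lit 45828) (nat_lit 6) (nat_lit 603) (nat_lit 5) (nat_lit 170) (nat_lit 194) (nat_lit 206))) (PT.nd (nat_lit 78) (PT.lf (nat_lit 47348) (nat_lit 6) (nat_lit 623) (nat_lit 5) (nat_lit 171) (nat_lit 194) (nat_lit 205)) (PT.lf (nat_lit 48792) (nat_lit 6) (nat_lit 642) (nat_lit 5) (nat_lit 172) (nat_lit 194) (nat_lit 204)))) (PT.nd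 (nat_lit 156) (PT.nd (nat_lit 78) (PT.lf (nat_lit 50160) (nat_lit 6) (nat_lit 660) (nat_lit 5) (nat_lit 173) (nat_lit 194) (nat_lit 203)) (PT.lf (nat_lit 51452) (nat_lit 6) (nat_lit 677) (nat_lit 5) (nat_lit 174) (nat_lit 194) (nat_lit 202))) (PT.nd (nat_lit 78) (PT.lf (nat_lit 52668) (nat_lit 6) (nat_lit 693) (nat_lit 5) (nat_lit 175) (nat_lit 194) (nat_lit 201)) (PT.nd (nat_lit 78) (PT.lf (nat_lit 53808) (nat_lit 6) (nat_lit 708) (nat_lit 5) (nat_lit 176) (nat_lit 194) (nat_lit 200)) (PT.lf (nat_lit 54872) (nat_lit 6) (nat_lit 722) (nat_lit 5) (nat_lit 177) (nat_lit 194) (nat_lit 199))))))))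
noncomputable def pc57 : PT := (PT.nd (nat_lit 1404) (PT.nd (nat_lit 702) (PT.nd (nat_lit 312) (PT.nd (nat_lit 156) (PT.nd (nat_lit 78) (PT.lf (nat_lit 55860) (nat_lit 6) (nat_lit 735) (nat_lit 5) (nat_lit 178) (nat_lit 194) (nat_lit 198)) (PT.lf (nat_lit 56772) (nat_lit 6) (nat_lit 747) (nat_lit 5) (nat_lit 179) (nat_lit 194) (nat_lit 197))) (PT.nd (nat_lit 78) (PT.lf (nat_lit 57608) (nat_lit 6) (nat_lit 758) (nat_lit 5) (nat_lit 180) (nat_lit 194) (nat_lit 196)) (PT.lf (nat_lit 58368) (nat_lit 6) (nat_lit 768) (nat_lit 5) (nat_lit 181) (nat_lit 194) (nat_lit 195)))) (PT.nd (nat_lit 156) (PT.nd (nat_lit 78) (PT.lf (nat_lit 59052) (nat_lit 3) (nat_lit 777) (nat_lit 4) (nat_lit 182) (nat_lit 194) (nat_lit 194)) (PT.lf (nat_lit 59584) (nat_lit 6) (nat_lit 784) (nat_lit 4) (nat_lit 183) (nat_lit 194) (nat_lit 193))) (PT.nd (nat_lit 78) (PT.lf (nat_lit 60040) (nat_lit 6) (nat_lit 790) (nat_lit 4) (nat_lit 184) (nat_lit 194) (nat_lit 192))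 (PT.nd (nat_lit 78) (PT.lf (nat_lit 60420) (nat_lit 6) (nat_lit 795) (nat_lit 4) (nat_lit 185) (nat_lit 194) (nat_lit 191)) (PT.lf (nat_lit 60724) (nat_lit 6) (nat_lit 799) (nat_lit 4) (nat_lit 186) (nat_lit 194) (nat_lit 190)))))) (PT.nd (nat_lit 312) (PT.nd (nat_lit 156) (PT.nd (nat_lit 78) (PT.lf (nat_lit 60648) (nat_lit 6) (nat_lit 798) (nat_lit 4) (nat_lit 187) (nat_lit 194) (nat_lit 189)) (PT.lf (nat_lit 60572) (nat_lit 3) (nat_lit 797) (nat_lit 2) (nat_lit 188) (nat_lit 194) (nat_lit 188))) (PT.nd (nat_lit 78) (PT.lf (nat_lit 60648) (nat_lit 6) (nat_lit 798) (nat_lit 2) (nat_lit 189) (nat_lit 194) (nat_lit 187)) (PT.lf (nat_lit 60724) (nat_lit 6) (nat_lit 799) (nat_lit 2) (nat_lit 190) (nat_lit 194) (nat_lit 186)))) (PT.nd (nat_lit 156) (PT.nd (nat_lit 78) (PT.lf (nat_lit 60420) (nat_lit 6) (nat_lit 795) (nat_lit 2) (nat_lit 191) (nat_lit 194) (nat_lit 185)) (PT.lf (nat_lit 60040) (nat_lit 6) (nat_lit 790) (nat_lit 2) (nat_lit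 192) (nat_lit 194) (nat_lit 184))) (PT.nd (nat_lit 78) (PT.lf (nat_lit 59584) (nat_lit 6) (nat_lit 784) (nat_lit 2) (nat_lit 193) (nat_lit 194) (nat_lit 183)) (PT.nd (nat_lit 78) (PT.lf (nat_lit 59052) (nat_lit 3) (nat_lit 777) (nat_lit 0) (nat_lit 194) (nat_lit 194) (nat_lit 182)) (PT.lf (nat_lit 58368) (nat_lit 6) (nat_lit 768) (nat_lit 0) (nat_lit 195) (nat_lit 194) (nat_lit 181))))))) (PT.nd (nat_lit 702) (PT.nd (nat_lit 312) (PT.nd (nat_lit 156) (PT.nd (nat_lit 78) (PT.lf (nat_lit 57608) (nat_lit 6) (nat_lit 758) (nat_lit 0) (nat_lit 196) (nat_lit 194) (nat_lit 180)) (PT.lf (nat_lit 56772) (nat_lit 6) (nat_lit 747) (nat_lit 0) (nat_lit 197) (nat_lit 194) (nat_lit 179))) (PT.nd (nat_lit 78) (PT.lf (nat_lit 55860) (nat_lit 6) (nat_lit 735) (nat_lit 0) (nat_lit 198) (nat_lit 194) (nat_lit 178)) (PT.lf (nat_lit 54872) (nat_lit 6) (nat_lit 722) (nat_lit 0) (nat_lit 199) (nat_lit 194) (nat_lit 177)))) (PT.nd (nat_lit 156) (PT.nd (nat_lit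 78) (PT.lf (nat_lit 53808) (nat_lit 6) (nat_lit 708) (nat_lit 0) (nat_lit 200) (nat_lit 194) (nat_lit 176)) (PT.lf (nat_lit 52668) (nat_lit 6) (nat_lit 693) (nat_lit 0) (nat_lit 201) (nat_lit 194) (nat_lit 175))) (PT.nd (nat_lit 78) (PT.lf (nat_lit 51452) (nat_lit 6) (nat_lit 677) (nat_lit 0) (nat_lit 202) (nat_lit 194) (nat_lit 174)) (PT.nd (nat_lit 78) (PT.lf (nat_lit 50160) (nat_lit 6) (nat_lit 660) (nat_lit 0) (nat_lit 203) (nat_lit 194) (nat_lit 173)) (PT.lf (nat_lit 48792) (nat_lit 6) (nat_lit 642) (nat_lit 0) (nat_lit 204) (nat_lit 194) (nat_lit 172)))))) (PT.nd (nat_lit 312) (PT.nd (nat_lit 156) (PT.nd (nat_lit 78) (PT.lf (nat_lit 47348) (nat_lit 6) (nat_lit 623) (nat_lit 0) (nat_lit 205) (nat_lit 194) (nat_lit 171)) (PT.lf (nat_lit 45828) (nat_lit 6) (nat_lit 603) (nat_lit 0) (nat_lit 206) (nat_lit 194) (nat_lit 170))) (PT.nd (nat_lit 78) (PT.lf (nat_lit 44232) (nat_lit 6) (nat_lit 582) (nat_lit 0) (nat_lit 207) (nat_lit 194)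 (nat_lit 169)) (PT.lf (nat_lit 42560) (nat_lit 6) (nat_lit 560) (nat_lit 0) (nat_lit 208) (nat_lit 194) (nat_lit 168)))) (PT.nd (nat_lit 156) (PT.nd (nat_lit 78) (PT.lf (nat_lit 40812) (nat_lit 6) (nat_lit 537) (nat_lit 0) (nat_lit 209) (nat_lit 194) (nat_lit 167)) (PT.lf (nat_lit 38988) (nat_lit 6) (nat_lit 513) (nat_lit 0) (nat_lit 210) (nat_lit 194) (nat_lit 166))) (PT.nd (nat_lit 78) (PT.lf (nat_lit 37088) (nat_lit 6) (nat_lit 488) (nat_lit 0) (nat_lit 211) (nat_lit 194) (nat_lit 165)) (PT.nd (nat_lit 78) (PT.lf (nat_lit 35872) (nat_lit 6) (nat_lit 472) (nat_lit 0) (nat_lit 212) (nat_lit 194) (nat_lit 164)) (PT.lf (nat_lit 34884) (nat_lit 6) (nat_lit 459) (nat_lit 0) (nat_lit 213) (nat_lit 194) (nat_lit 163))))))))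
noncomputable def pc58 : PT := (PT.nd (nat_lit 56238) (PT.nd (nat_lit 55536) (PT.nd (nat_lit 55146) (PT.nd (nat_lit 156) (PT.nd (nat_lit 78) (PT.lf (nat_lit 33896) (nat_lit 6) (nat_lit 446) (nat_lit 0) (nat_lit 214) (nat_lit 194) (nat_lit 162)) (PT.lf (nat_lit 32984) (nat_lit 6) (nat_lit 434) (nat_lit 0) (nat_lit 215) (nat_lit 194) (nat_lit 161))) (PT.nd (nat_lit 54912) (PT.lf (nat_lit 31996) (nat_lit 6) (nat_lit 421) (nat_lit 0) (nat_lit 216) (nat_lit 194) (nat_lit 160)) (PT.lf (nat_lit 31160) (nat_lit 6) (nat_lit 410) (nat_lit 5) (nat_lit 159) (nat_lit 195) (nat_lit 216)))) (PT.nd (nat_lit 156) (PT.nd (nat_lit 78) (PT.lf (nat_lit 32072) (nat_lit 6) (nat_lit 422) (nat_lit 5) (nat_lit 160) (nat_lit 195) (nat_lit 215)) (PT.lf (nat_lit 33060) (nat_lit 6) (nat_lit 435) (nat_lit 5) (nat_lit 161) (nat_lit 195) (nat_lit 214))) (PT.nd (nat_lit 78) (PT.lf (nat_lit 33972) (nat_lit 6) (nat_lit 447) (nat_lit 5) (nat_lit 162) (nat_lit 195) (nat_lit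 213)) (PT.nd (nat_lit 78) (PT.lf (nat_lit 34960) (nat_lit 6) (nat_lit 460) (nat_lit 5) (nat_lit 163) (nat_lit 195) (nat_lit 212)) (PT.lf (nat_lit 35948) (nat_lit 6) (nat_lit 473) (nat_lit 5) (nat_lit 164) (nat_lit 195) (nat_lit 211)))))) (PT.nd (nat_lit 312) (PT.nd (nat_lit 156) (PT.nd (nat_lit 78) (PT.lf (nat_lit 37164) (nat_lit 6) (nat_lit 489) (nat_lit 5) (nat_lit 165) (nat_lit 195) (nat_lit 210)) (PT.lf (nat_lit 39064) (nat_lit 6) (nat_lit 514) (nat_lit 5) (nat_lit 166) (nat_lit 195) (nat_lit 209))) (PT.nd (nat_lit 78) (PT.lf (nat_lit 40888) (nat_lit 6) (nat_lit 538) (nat_lit 5) (nat_lit 167) (nat_lit 195) (nat_lit 208)) (PT.lf (nat_lit 42636) (nat_lit 6) (nat_lit 561) (nat_lit 5) (nat_lit 168) (nat_lit 195) (nat_lit 207)))) (PT.nd (nat_lit 156) (PT.nd (nat_lit 78) (PT.lf (nat_lit 44308) (nat_lit 6) (nat_lit 583) (nat_lit 5) (nat_lit 169) (nat_lit 195) (nat_lit 206)) (PT.lf (nat_lit 45904) (nat_lit 6) (nat_lit 604) (nat_lit 5) (nat_lit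 170) (nat_lit 195) (nat_lit 205))) (PT.nd (nat_lit 78) (PT.lf (nat_lit 47424) (nat_lit 6) (nat_lit 624) (nat_lit 5) (nat_lit 171) (nat_lit 195) (nat_lit 204)) (PT.nd (nat_lit 78) (PT.lf (nat_lit 48868) (nat_lit 6) (nat_lit 643) (nat_lit 5) (nat_lit 172) (nat_lit 195) (nat_lit 203)) (PT.lf (nat_lit 50236) (nat_lit 6) (nat_lit 661) (nat_lit 5) (nat_lit 173) (nat_lit 195) (nat_lit 202))))))) (PT.nd (nat_lit 702) (PT.nd (nat_lit 312) (PT.nd (nat_lit 156) (PT.nd (nat_lit 78) (PT.lf (nat_lit 51528) (nat_lit 6) (nat_lit 678) (nat_lit 5) (nat_lit 174) (nat_lit 195) (nat_lit 201)) (PT.lf (nat_lit 52744) (nat_lit 6) (nat_lit 694) (nat_lit 5) (nat_lit 175) (nat_lit 195) (nat_lit 200))) (PT.nd (nat_lit 78) (PT.lf (nat_lit 53884) (nat_lit 6) (nat_lit 709) (nat_lit 5) (nat_lit 176) (nat_lit 195) (nat_lit 199)) (PT.lf (nat_lit 54948) (nat_lit 6) (nat_lit 723) (nat_lit 5) (nat_lit 177) (nat_lit 195) (nat_lit 198)))) (PT.nd (nat_lit 156) (PT.nd (nat_lit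 78) (PT.lf (nat_lit 55936) (nat_lit 6) (nat_lit 736) (nat_lit 5) (nat_lit 178) (nat_lit 195) (nat_lit 197)) (PT.lf (nat_lit 56848) (nat_lit 6) (nat_lit 748) (nat_lit 5) (nat_lit 179) (nat_lit 195) (nat_lit 196))) (PT.nd (nat_lit 78) (PT.lf (nat_lit 57684) (nat_lit 3) (nat_lit 759) (nat_lit 4) (nat_lit 180) (nat_lit 195) (nat_lit 195)) (PT.nd (nat_lit 78) (PT.lf (nat_lit 58368) (nat_lit 6) (nat_lit 768) (nat_lit 4) (nat_lit 181) (nat_lit 195) (nat_lit 194)) (PT.lf (nat_lit 58976) (nat_lit 6) (nat_lit 776) (nat_lit 4) (nat_lit 182) (nat_lit 195) (nat_lit 193)))))) (PT.nd (nat_lit 312) (PT.nd (nat_lit 156) (PT.nd (nat_lit 78) (PT.lf (nat_lit 59508) (nat_lit 6) (nat_lit 783) (nat_lit 4) (nat_lit 183) (nat_lit 195) (nat_lit 192)) (PT.lf (nat_lit 59964) (nat_lit 6) (nat_lit 789) (nat_lit 4) (nat_lit 184) (nat_lit 195) (nat_lit 191))) (PT.nd (nat_lit 78) (PT.lf (nat_lit 60344) (nat_lit 6) (nat_lit 794) (nat_lit 4) (nat_lit 185) (nat_lit 195)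 (nat_lit 190)) (PT.lf (nat_lit 60268) (nat_lit 6) (nat_lit 793) (nat_lit 4) (nat_lit 186) (nat_lit 195) (nat_lit 189)))) (PT.nd (nat_lit 156) (PT.nd (nat_lit 78) (PT.lf (nat_lit 60192) (nat_lit 6) (nat_lit 792) (nat_lit 4) (nat_lit 187) (nat_lit 195) (nat_lit 188)) (PT.lf (nat_lit 60192) (nat_lit 6) (nat_lit 792) (nat_lit 2) (nat_lit 188) (nat_lit 195) (nat_lit 187))) (PT.nd (nat_lit 78) (PT.lf (nat_lit 60268) (nat_lit 6) (nat_lit 793) (nat_lit 2) (nat_lit 189) (nat_lit 195) (nat_lit 186)) (PT.nd (nat_lit 78) (PT.lf (nat_lit 60344) (nat_lit 6) (nat_lit 794) (nat_lit 2) (nat_lit 190) (nat_lit 195) (nat_lit 185)) (PT.lf (nat_lit 59964) (nat_lit 6) (nat_lit 789) (nat_lit 2) (nat_lit 191) (nat_lit 195) (nat_lit 184))))))))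
noncomputable def pc59 : PT := (PT.nd (nat_lit 1404) (PT.nd (nat_lit 702) (PT.nd (nat_lit 312) (PT.nd (nat_lit 156) (PT.nd (nat_lit 78) (PT.lf (nat_lit 59508) (nat_lit 6) (nat_lit 783) (nat_lit 2) (nat_lit 192) (nat_lit 195) (nat_lit 183)) (PT.lf (nat_lit 58976) (nat_lit 6) (nat_lit 776) (nat_lit 2) (nat_lit 193) (nat_lit 195) (nat_lit 182))) (PT.nd (nat_lit 78) (PT.lf (nat_lit 58368) (nat_lit 6) (nat_lit 768) (nat_lit 2) (nat_lit 194) (nat_lit 195) (nat_lit 181)) (PT.lf (nat_lit 57684) (nat_lit 3) (nat_lit 759) (nat_lit 0) (nat_lit 195) (nat_lit 195) (nat_lit 180)))) (PT.nd (nat_lit 156) (PT.nd (nat_lit 78) (PT.lf (nat_lit 56848) (nat_lit 6) (nat_lit 748) (nat_lit 0) (nat_lit 196) (nat_lit 195) (nat_lit 179)) (PT.lf (nat_lit 55936) (nat_lit 6) (nat_lit 736) (nat_lit 0) (nat_lit 197) (nat_lit 195) (nat_lit 178))) (PT.nd (nat_lit 78) (PT.lf (nat_lit 54948) (nat_lit 6) (nat_lit 723) (nat_lit 0) (nat_lit 198) (nat_lit 195) (nat_lit 177))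 (PT.nd (nat_lit 78) (PT.lf (nat_lit 53884) (nat_lit 6) (nat_lit 709) (nat_lit 0) (nat_lit 199) (nat_lit 195) (nat_lit 176)) (PT.lf (nat_lit 52744) (nat_lit 6) (nat_lit 694) (nat_lit 0) (nat_lit 200) (nat_lit 195) (nat_lit 175)))))) (PT.nd (nat_lit 312) (PT.nd (nat_lit 156) (PT.nd (nat_lit 78) (PT.lf (nat_lit 51528) (nat_lit 6) (nat_lit 678) (nat_lit 0) (nat_lit 201) (nat_lit 195) (nat_lit 174)) (PT.lf (nat_lit 50236) (nat_lit 6) (nat_lit 661) (nat_lit 0) (nat_lit 202) (nat_lit 195) (nat_lit 173))) (PT.nd (nat_lit 78) (PT.lf (nat_lit 48868) (nat_lit 6) (nat_lit 643) (nat_lit 0) (nat_lit 203) (nat_lit 195) (nat_lit 172)) (PT.lf (nat_lit 47424) (nat_lit 6) (nat_lit 624) (nat_lit 0) (nat_lit 204) (nat_lit 195) (nat_lit 171)))) (PT.nd (nat_lit 156) (PT.nd (nat_lit 78) (PT.lf (nat_lit 45904) (nat_lit 6) (nat_lit 604) (nat_lit 0) (nat_lit 205) (nat_lit 195) (nat_lit 170)) (PT.lf (nat_lit 44308) (nat_lit 6) (nat_lit 583) (nat_lit 0) (nat_lit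 206) (nat_lit 195) (nat_lit 169))) (PT.nd (nat_lit 78) (PT.lf (nat_lit 42636) (nat_lit 6) (nat_lit 561) (nat_lit 0) (nat_lit 207) (nat_lit 195) (nat_lit 168)) (PT.nd (nat_lit 78) (PT.lf (nat_lit 40888) (nat_lit 6) (nat_lit 538) (nat_lit 0) (nat_lit 208) (nat_lit 195) (nat_lit 167)) (PT.lf (nat_lit 39064) (nat_lit 6) (nat_lit 514) (nat_lit 0) (nat_lit 209) (nat_lit 195) (nat_lit 166))))))) (PT.nd (nat_lit 55458) (PT.nd (nat_lit 312) (PT.nd (nat_lit 156) (PT.nd (nat_lit 78) (PT.lf (nat_lit 37164) (nat_lit 6) (nat_lit 489) (nat_lit 0) (nat_lit 210) (nat_lit 195) (nat_lit 165)) (PT.lf (nat_lit 35948) (nat_lit 6) (nat_lit 473) (nat_lit 0) (nat_lit 211) (nat_lit 195) (nat_lit 164))) (PT.nd (nat_lit 78) (PT.lf (nat_lit 34960) (nat_lit 6) (nat_lit 460) (nat_lit 0) (nat_lit 212) (nat_lit 195) (nat_lit 163)) (PT.lf (nat_lit 33972) (nat_lit 6) (nat_lit 447) (nat_lit 0) (nat_lit 213) (nat_lit 195) (nat_lit 162)))) (PT.nd (nat_lit 156) (PT.nd (nat_lit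 78) (PT.lf (nat_lit 33060) (nat_lit 6) (nat_lit 435) (nat_lit 0) (nat_lit 214) (nat_lit 195) (nat_lit 161)) (PT.lf (nat_lit 32072) (nat_lit 6) (nat_lit 422) (nat_lit 0) (nat_lit 215) (nat_lit 195) (nat_lit 160))) (PT.nd (nat_lit 54834) (PT.lf (nat_lit 31160) (nat_lit 6) (nat_lit 410) (nat_lit 0) (nat_lit 216) (nat_lit 195) (nat_lit 159)) (PT.nd (nat_lit 78) (PT.lf (nat_lit 30324) (nat_lit 6) (nat_lit 399) (nat_lit 5) (nat_lit 158) (nat_lit 196) (nat_lit 216)) (PT.lf (nat_lit 31236) (nat_lit 6) (nat_lit 411) (nat_lit 5) (nat_lit 159) (nat_lit 196) (nat_lit 215)))))) (PT.nd (nat_lit 312) (PT.nd (nat_lit 156) (PT.nd (nat_lit 78) (PT.lf (nat_lit 32148) (nat_lit 6) (nat_lit 423) (nat_lit 5) (nat_lit 160) (nat_lit 196) (nat_lit 214)) (PT.lf (nat_lit 33136) (nat_lit 6) (nat_lit 436) (nat_lit 5) (nat_lit 161) (nat_lit 196) (nat_lit 213))) (PT.nd (nat_lit 78) (PT.lf (nat_lit 34048) (nat_lit 6) (nat_lit 448) (nat_lit 5) (nat_lit 162) (nat_lit 196)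 (nat_lit 212)) (PT.lf (nat_lit 35036) (nat_lit 6) (nat_lit 461) (nat_lit 5) (nat_lit 163) (nat_lit 196) (nat_lit 211)))) (PT.nd (nat_lit 156) (PT.nd (nat_lit 78) (PT.lf (nat_lit 36024) (nat_lit 6) (nat_lit 474) (nat_lit 5) (nat_lit 164) (nat_lit 196) (nat_lit 210)) (PT.lf (nat_lit 37240) (nat_lit 6) (nat_lit 490) (nat_lit 5) (nat_lit 165) (nat_lit 196) (nat_lit 209))) (PT.nd (nat_lit 78) (PT.lf (nat_lit 39140) (nat_lit 6) (nat_lit 515) (nat_lit 5) (nat_lit 166) (nat_lit 196) (nat_lit 208)) (PT.nd (nat_lit 78) (PT.lf (nat_lit 40964) (nat_lit 6) (nat_lit 539) (nat_lit 5) (nat_lit 167) (nat_lit 196) (nat_lit 207)) (PT.lf (nat_lit 42712) (nat_lit 6) (nat_lit 562) (nat_lit 5) (nat_lit 168) (nat_lit 196) (nat_lit 206))))))))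
noncomputable def pc60 : PT := (PT.nd (nat_lit 1326) (PT.nd (nat_lit 624) (PT.nd (nat_lit 312) (PT.nd (nat_lit 156) (PT.nd (nat_lit 78) (PT.lf (nat_lit 44384) (nat_lit 6) (nat_lit 584) (nat_lit 5) (nat_lit 169) (nat_lit 196) (nat_lit 205)) (PT.lf (nat_lit 45980) (nat_lit 6) (nat_lit 605) (nat_lit 5) (nat_lit 170) (nat_lit 196) (nat_lit 204))) (PT.nd (nat_lit 78) (PT.lf (nat_lit 47500) (nat_lit 6) (nat_lit 625) (nat_lit 5) (nat_lit 171) (nat_lit 196) (nat_lit 203)) (PT.lf (nat_lit 48944) (nat_lit 6) (nat_lit 644) (nat_lit 5) (nat_lit 172) (nat_lit 196) (nat_lit 202)))) (PT.nd (nat_lit 156) (PT.nd (nat_lit 78) (PT.lf (nat_lit 50312) (nat_lit 6) (nat_lit 662) (nat_lit 5) (nat_lit 173) (nat_lit 196) (nat_lit 201)) (PT.lf (nat_lit 51604) (nat_lit 6) (nat_lit 679) (nat_lit 5) (nat_lit 174) (nat_lit 196) (nat_lit 200))) (PT.nd (nat_lit 78) (PT.lf (nat_lit 52820) (nat_lit 6) (nat_lit 695) (nat_lit 5) (nat_lit 175) (nat_lit 196) (nat_lit 199))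 (PT.lf (nat_lit 53960) (nat_lit 6) (nat_lit 710) (nat_lit 5) (nat_lit 176) (nat_lit 196) (nat_lit 198))))) (PT.nd (nat_lit 312) (PT.nd (nat_lit 156) (PT.nd (nat_lit 78) (PT.lf (nat_lit 55024) (nat_lit 6) (nat_lit 724) (nat_lit 5) (nat_lit 177) (nat_lit 196) (nat_lit 197)) (PT.lf (nat_lit 56012) (nat_lit 3) (nat_lit 737) (nat_lit 4) (nat_lit 178) (nat_lit 196) (nat_lit 196))) (PT.nd (nat_lit 78) (PT.lf (nat_lit 56848) (nat_lit 6) (nat_lit 748) (nat_lit 4) (nat_lit 179) (nat_lit 196) (nat_lit 195)) (PT.lf (nat_lit 57608) (nat_lit 6) (nat_lit 758) (nat_lit 4) (nat_lit 180) (nat_lit 196) (nat_lit 194)))) (PT.nd (nat_lit 156) (PT.nd (nat_lit 78) (PT.lf (nat_lit 58292) (nat_lit 6) (nat_lit 767) (nat_lit 4) (nat_lit 181) (nat_lit 196) (nat_lit 193)) (PT.lf (nat_lit 58900) (nat_lit 6) (nat_lit 775) (nat_lit 4) (nat_lit 182) (nat_lit 196) (nat_lit 192))) (PT.nd (nat_lit 78) (PT.lf (nat_lit 59432) (nat_lit 6) (nat_lit 782) (nat_lit 4) (nat_lit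 183) (nat_lit 196) (nat_lit 191)) (PT.nd (nat_lit 78) (PT.lf (nat_lit 59888) (nat_lit 6) (nat_lit 788) (nat_lit 4) (nat_lit 184) (nat_lit 196) (nat_lit 190)) (PT.lf (nat_lit 59812) (nat_lit 6) (nat_lit 787) (nat_lit 4) (nat_lit 185) (nat_lit 196) (nat_lit 189))))))) (PT.nd (nat_lit 702) (PT.nd (nat_lit 312) (PT.nd (nat_lit 156) (PT.nd (nat_lit 78) (PT.lf (nat_lit 59736) (nat_lit 6) (nat_lit 786) (nat_lit 4) (nat_lit 186) (nat_lit 196) (nat_lit 188)) (PT.lf (nat_lit 59660) (nat_lit 3) (nat_lit 785) (nat_lit 2) (nat_lit 187) (nat_lit 196) (nat_lit 187))) (PT.nd (nat_lit 78) (PT.lf (nat_lit 59736) (nat_lit 6) (nat_lit 786) (nat_lit 2) (nat_lit 188) (nat_lit 196) (nat_lit 186)) (PT.lf (nat_lit 59812) (nat_lit 6) (nat_lit 787) (nat_lit 2) (nat_lit 189) (nat_lit 196) (nat_lit 185)))) (PT.nd (nat_lit 156) (PT.nd (nat_lit 78) (PT.lf (nat_lit 59888) (nat_lit 6) (nat_lit 788) (nat_lit 2) (nat_lit 190) (nat_lit 196) (nat_lit 184)) (PT.lf (nat_lit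 59432) (nat_lit 6) (nat_lit 782) (nat_lit 2) (nat_lit 191) (nat_lit 196) (nat_lit 183))) (PT.nd (nat_lit 78) (PT.lf (nat_lit 58900) (nat_lit 6) (nat_lit 775) (nat_lit 2) (nat_lit 192) (nat_lit 196) (nat_lit 182)) (PT.nd (nat_lit 78) (PT.lf (nat_lit 58292) (nat_lit 6) (nat_lit 767) (nat_lit 2) (nat_lit 193) (nat_lit 196) (nat_lit 181)) (PT.lf (nat_lit 57608) (nat_lit 6) (nat_lit 758) (nat_lit 2) (nat_lit 194) (nat_lit 196) (nat_lit 180)))))) (PT.nd (nat_lit 312) (PT.nd (nat_lit 156) (PT.nd (nat_lit 78) (PT.lf (nat_lit 56848) (nat_lit 6) (nat_lit 748) (nat_lit 2) (nat_lit 195) (nat_lit 196) (nat_lit 179)) (PT.lf (nat_lit 56012) (nat_lit 3) (nat_lit 737) (nat_lit 0) (nat_lit 196) (nat_lit 196) (nat_lit 178))) (PT.nd (nat_lit 78) (PT.lf (nat_lit 55024) (nat_lit 6) (nat_lit 724) (nat_lit 0) (nat_lit 197) (nat_lit 196) (nat_lit 177)) (PT.lf (nat_lit 53960) (nat_lit 6) (nat_lit 710) (nat_lit 0) (nat_lit 198) (nat_lit 196) (nat_lit 176)))) (PT.nd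 (nat_lit 156) (PT.nd (nat_lit 78) (PT.lf (nat_lit 52820) (nat_lit 6) (nat_lit 695) (nat_lit 0) (nat_lit 199) (nat_lit 196) (nat_lit 175)) (PT.lf (nat_lit 51604) (nat_lit 6) (nat_lit 679) (nat_lit 0) (nat_lit 200) (nat_lit 196) (nat_lit 174))) (PT.nd (nat_lit 78) (PT.lf (nat_lit 50312) (nat_lit 6) (nat_lit 662) (nat_lit 0) (nat_lit 201) (nat_lit 196) (nat_lit 173)) (PT.nd (nat_lit 78) (PT.lf (nat_lit 48944) (nat_lit 6) (nat_lit 644) (nat_lit 0) (nat_lit 202) (nat_lit 196) (nat_lit 172)) (PT.lf (nat_lit 47500) (nat_lit 6) (nat_lit 625) (nat_lit 0) (nat_lit 203) (nat_lit 196) (nat_lit 171))))))))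
noncomputable def pc61 : PT := (PT.nd (nat_lit 56004) (PT.nd (nat_lit 702) (PT.nd (nat_lit 312) (PT.nd (nat_lit 156) (PT.nd (nat_lit 78) (PT.lf (nat_lit 45980) (nat_lit 6) (nat_lit 605) (nat_lit 0) (nat_lit 204) (nat_lit 196) (nat_lit 170)) (PT.lf (nat_lit 44384) (nat_lit 6) (nat_lit 584) (nat_lit 0) (nat_lit 205) (nat_lit 196) (nat_lit 169))) (PT.nd (nat_lit 78) (PT.lf (nat_lit 42712) (nat_lit 6) (nat_lit 562) (nat_lit 0) (nat_lit 206) (nat_lit 196) (nat_lit 168)) (PT.lf (nat_lit 40964) (nat_lit 6) (nat_lit 539) (nat_lit 0) (nat_lit 207) (nat_lit 196) (nat_lit 167)))) (PT.nd (nat_lit 156) (PT.nd (nat_lit 78) (PT.lf (nat_lit 39140) (nat_lit 6) (nat_lit 515) (nat_lit 0) (nat_lit 208) (nat_lit 196) (nat_lit 166)) (PT.lf (nat_lit 37240) (nat_lit 6) (nat_lit 490) (nat_lit 0) (nat_lit 209) (nat_lit 196) (nat_lit 165))) (PT.nd (nat_lit 78) (PT.lf (nat_lit 36024) (nat_lit 6) (nat_lit 474) (nat_lit 0) (nat_lit 210) (nat_lit 196) (nat_lit 164))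 (PT.nd (nat_lit 78) (PT.lf (nat_lit 35036) (nat_lit 6) (nat_lit 461) (nat_lit 0) (nat_lit 211) (nat_lit 196) (nat_lit 163)) (PT.lf (nat_lit 34048) (nat_lit 6) (nat_lit 448) (nat_lit 0) (nat_lit 212) (nat_lit 196) (nat_lit 162)))))) (PT.nd (nat_lit 54912) (PT.nd (nat_lit 156) (PT.nd (nat_lit 78) (PT.lf (nat_lit 33136) (nat_lit 6) (nat_lit 436) (nat_lit 0) (nat_lit 213) (nat_lit 196) (nat_lit 161)) (PT.lf (nat_lit 32148) (nat_lit 6) (nat_lit 423) (nat_lit 0) (nat_lit 214) (nat_lit 196) (nat_lit 160))) (PT.nd (nat_lit 78) (PT.lf (nat_lit 31236) (nat_lit 6) (nat_lit 411) (nat_lit 0) (nat_lit 215) (nat_lit 196) (nat_lit 159)) (PT.lf (nat_lit 30324) (nat_lit 6) (nat_lit 399) (nat_lit 0) (nat_lit 216) (nat_lit 196) (nat_lit 158)))) (PT.nd (nat_lit 156) (PT.nd (nat_lit 78) (PT.lf (nat_lit 28728) (nat_lit 6) (nat_lit 378) (nat_lit 5) (nat_lit 156) (nat_lit 197) (nat_lit 217)) (PT.lf (nat_lit 29564) (nat_lit 6) (nat_lit 389) (nat_lit 5) (nat_lit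 157) (nat_lit 197) (nat_lit 216))) (PT.nd (nat_lit 78) (PT.lf (nat_lit 30400) (nat_lit 6) (nat_lit 400) (nat_lit 5) (nat_lit 158) (nat_lit 197) (nat_lit 215)) (PT.nd (nat_lit 78) (PT.lf (nat_lit 31312) (nat_lit 6) (nat_lit 412) (nat_lit 5) (nat_lit 159) (nat_lit 197) (nat_lit 214)) (PT.lf (nat_lit 32224) (nat_lit 6) (nat_lit 424) (nat_lit 5) (nat_lit 160) (nat_lit 197) (nat_lit 213))))))) (PT.nd (nat_lit 702) (PT.nd (nat_lit 312) (PT.nd (nat_lit 156) (PT.nd (nat_lit 78) (PT.lf (nat_lit 33212) (nat_lit 6) (nat_lit 437) (nat_lit 5) (nat_lit 161) (nat_lit 197) (nat_lit 212)) (PT.lf (nat_lit 34124) (nat_lit 6) (nat_lit 449) (nat_lit 5) (nat_lit 162) (nat_lit 197) (nat_lit 211))) (PT.nd (nat_lit 78) (PT.lf (nat_lit 35112) (nat_lit 6) (nat_lit 462) (nat_lit 5) (nat_lit 163) (nat_lit 197) (nat_lit 210)) (PT.lf (nat_lit 36100) (nat_lit 6) (nat_lit 475) (nat_lit 5) (nat_lit 164) (nat_lit 197) (nat_lit 209)))) (PT.nd (nat_lit 156) (PT.nd (nat_lit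 78) (PT.lf (nat_lit 37316) (nat_lit 6) (nat_lit 491) (nat_lit 5) (nat_lit 165) (nat_lit 197) (nat_lit 208)) (PT.lf (nat_lit 39216) (nat_lit 6) (nat_lit 516) (nat_lit 5) (nat_lit 166) (nat_lit 197) (nat_lit 207))) (PT.nd (nat_lit 78) (PT.lf (nat_lit 41040) (nat_lit 6) (nat_lit 540) (nat_lit 5) (nat_lit 167) (nat_lit 197) (nat_lit 206)) (PT.nd (nat_lit 78) (PT.lf (nat_lit 42788) (nat_lit 6) (nat_lit 563) (nat_lit 5) (nat_lit 168) (nat_lit 197) (nat_lit 205)) (PT.lf (nat_lit 44460) (nat_lit 6) (nat_lit 585) (nat_lit 5) (nat_lit 169) (nat_lit 197) (nat_lit 204)))))) (PT.nd (nat_lit 312) (PT.nd (nat_lit 156) (PT.nd (nat_lit 78) (PT.lf (nat_lit 46056) (nat_lit 6) (nat_lit 606) (nat_lit 5) (nat_lit 170) (nat_lit 197) (nat_lit 203)) (PT.lf (nat_lit 47576) (nat_lit 6) (nat_lit 626) (nat_lit 5) (nat_lit 171) (nat_lit 197) (nat_lit 202))) (PT.nd (nat_lit 78) (PT.lf (nat_lit 49020) (nat_lit 6) (nat_lit 645) (nat_lit 5) (nat_lit 172) (nat_lit 197)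 (nat_lit 201)) (PT.lf (nat_lit 50388) (nat_lit 6) (nat_lit 663) (nat_lit 5) (nat_lit 173) (nat_lit 197) (nat_lit 200)))) (PT.nd (nat_lit 156) (PT.nd (nat_lit 78) (PT.lf (nat_lit 51680) (nat_lit 6) (nat_lit 680) (nat_lit 5) (nat_lit 174) (nat_lit 197) (nat_lit 199)) (PT.lf (nat_lit 52896) (nat_lit 6) (nat_lit 696) (nat_lit 5) (nat_lit 175) (nat_lit 197) (nat_lit 198))) (PT.nd (nat_lit 78) (PT.lf (nat_lit 54036) (nat_lit 3) (nat_lit 711) (nat_lit 4) (nat_lit 176) (nat_lit 197) (nat_lit 197)) (PT.nd (nat_lit 78) (PT.lf (nat_lit 55024) (nat_lit 6) (nat_lit 724) (nat_lit 4) (nat_lit 177) (nat_lit 197) (nat_lit 196)) (PT.lf (nat_lit 55936) (nat_lit 6) (nat_lit 736) (nat_lit 4) (nat_lit 178) (nat_lit 197) (nat_lit 195))))))))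
noncomputable def pc62 : PT := (PT.nd (nat_lit 1404) (PT.nd (nat_lit 702) (PT.nd (nat_lit 312) (PT.nd (nat_lit 156) (PT.nd (nat_lit 78) (PT.lf (nat_lit 56772) (nat_lit 6) (nat_lit 747) (nat_lit 4) (nat_lit 179) (nat_lit 197) (nat_lit 194)) (PT.lf (nat_lit 57532) (nat_lit 6) (nat_lit 757) (nat_lit 4) (nat_lit 180) (nat_lit 197) (nat_lit 193))) (PT.nd (nat_lit 78) (PT.lf (nat_lit 58216) (nat_lit 6) (nat_lit 766) (nat_lit 4) (nat_lit 181) (nat_lit 197) (nat_lit 192)) (PT.lf (nat_lit 58824) (nat_lit 6) (nat_lit 774) (nat_lit 4) (nat_lit 182) (nat_lit 197) (nat_lit 191)))) (PT.nd (nat_lit 156) (PT.nd (nat_lit 78) (PT.lf (nat_lit 59356) (nat_lit 6) (nat_lit 781) (nat_lit 4) (nat_lit 183) (nat_lit 197) (nat_lit 190)) (PT.lf (nat_lit 59280) (nat_lit 6) (nat_lit 780) (nat_lit 4) (nat_lit 184) (nat_lit 197) (nat_lit 189))) (PT.nd (nat_lit 78) (PT.lf (nat_lit 59204) (nat_lit 6) (nat_lit 779) (nat_lit 4) (nat_lit 185) (nat_lit 197) (nat_lit 188))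 (PT.nd (nat_lit 78) (PT.lf (nat_lit 59128) (nat_lit 6) (nat_lit 778) (nat_lit 4) (nat_lit 186) (nat_lit 197) (nat_lit 187)) (PT.lf (nat_lit 59128) (nat_lit 6) (nat_lit 778) (nat_lit 2) (nat_lit 187) (nat_lit 197) (nat_lit 186)))))) (PT.nd (nat_lit 312) (PT.nd (nat_lit 156) (PT.nd (nat_lit 78) (PT.lf (nat_lit 59204) (nat_lit 6) (nat_lit 779) (nat_lit 2) (nat_lit 188) (nat_lit 197) (nat_lit 185)) (PT.lf (nat_lit 59280) (nat_lit 6) (nat_lit 780) (nat_lit 2) (nat_lit 189) (nat_lit 197) (nat_lit 184))) (PT.nd (nat_lit 78) (PT.lf (nat_lit 59356) (nat_lit 6) (nat_lit 781) (nat_lit 2) (nat_lit 190) (nat_lit 197) (nat_lit 183)) (PT.lf (nat_lit 58824) (nat_lit 6) (nat_lit 774) (nat_lit 2) (nat_lit 191) (nat_lit 197) (nat_lit 182)))) (PT.nd (nat_lit 156) (PT.nd (nat_lit 78) (PT.lf (nat_lit 58216) (nat_lit 6) (nat_lit 766) (nat_lit 2) (nat_lit 192) (nat_lit 197) (nat_lit 181)) (PT.lf (nat_lit 57532) (nat_lit 6) (nat_lit 757) (nat_lit 2) (nat_lit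 193) (nat_lit 197) (nat_lit 180))) (PT.nd (nat_lit 78) (PT.lf (nat_lit 56772) (nat_lit 6) (nat_lit 747) (nat_lit 2) (nat_lit 194) (nat_lit 197) (nat_lit 179)) (PT.nd (nat_lit 78) (PT.lf (nat_lit 55936) (nat_lit 6) (nat_lit 736) (nat_lit 2) (nat_lit 195) (nat_lit 197) (nat_lit 178)) (PT.lf (nat_lit 55024) (nat_lit 6) (nat_lit 724) (nat_lit 2) (nat_lit 196) (nat_lit 197) (nat_lit 177))))))) (PT.nd (nat_lit 702) (PT.nd (nat_lit 312) (PT.nd (nat_lit 156) (PT.nd (nat_lit 78) (PT.lf (nat_lit 54036) (nat_lit 3) (nat_lit 711) (nat_lit 0) (nat_lit 197) (nat_lit 197) (nat_lit 176)) (PT.lf (nat_lit 52896) (nat_lit 6) (nat_lit 696) (nat_lit 0) (nat_lit 198) (nat_lit 197) (nat_lit 175))) (PT.nd (nat_lit 78) (PT.lf (nat_lit 51680) (nat_lit 6) (nat_lit 680) (nat_lit 0) (nat_lit 199) (nat_lit 197) (nat_lit 174)) (PT.lf (nat_lit 50388) (nat_lit 6) (nat_lit 663) (nat_lit 0) (nat_lit 200) (nat_lit 197) (nat_lit 173)))) (PT.nd (nat_lit 156) (PT.nd (nat_lit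 78) (PT.lf (nat_lit 49020) (nat_lit 6) (nat_lit 645) (nat_lit 0) (nat_lit 201) (nat_lit 197) (nat_lit 172)) (PT.lf (nat_lit 47576) (nat_lit 6) (nat_lit 626) (nat_lit 0) (nat_lit 202) (nat_lit 197) (nat_lit 171))) (PT.nd (nat_lit 78) (PT.lf (nat_lit 46056) (nat_lit 6) (nat_lit 606) (nat_lit 0) (nat_lit 203) (nat_lit 197) (nat_lit 170)) (PT.nd (nat_lit 78) (PT.lf (nat_lit 44460) (nat_lit 6) (nat_lit 585) (nat_lit 0) (nat_lit 204) (nat_lit 197) (nat_lit 169)) (PT.lf (nat_lit 42788) (nat_lit 6) (nat_lit 563) (nat_lit 0) (nat_lit 205) (nat_lit 197) (nat_lit 168)))))) (PT.nd (nat_lit 312) (PT.nd (nat_lit 156) (PT.nd (nat_lit 78) (PT.lf (nat_lit 41040) (nat_lit 6) (nat_lit 540) (nat_lit 0) (nat_lit 206) (nat_lit 197) (nat_lit 167)) (PT.lf (nat_lit 39216) (nat_lit 6) (nat_lit 516) (nat_lit 0) (nat_lit 207) (nat_lit 197) (nat_lit 166))) (PT.nd (nat_lit 78) (PT.lf (nat_lit 37316) (nat_lit 6) (nat_lit 491) (nat_lit 0) (nat_lit 208) (nat_lit 197)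 (nat_lit 165)) (PT.lf (nat_lit 36100) (nat_lit 6) (nat_lit 475) (nat_lit 0) (nat_lit 209) (nat_lit 197) (nat_lit 164)))) (PT.nd (nat_lit 156) (PT.nd (nat_lit 78) (PT.lf (nat_lit 35112) (nat_lit 6) (nat_lit 462) (nat_lit 0) (nat_lit 210) (nat_lit 197) (nat_lit 163)) (PT.lf (nat_lit 34124) (nat_lit 6) (nat_lit 449) (nat_lit 0) (nat_lit 211) (nat_lit 197) (nat_lit 162))) (PT.nd (nat_lit 78) (PT.lf (nat_lit 33212) (nat_lit 6) (nat_lit 437) (nat_lit 0) (nat_lit 212) (nat_lit 197) (nat_lit 161)) (PT.nd (nat_lit 78) (PT.lf (nat_lit 32224) (nat_lit 6) (nat_lit 424) (nat_lit 0) (nat_lit 213) (nat_lit 197) (nat_lit 160)) (PT.lf (nat_lit 31312) (nat_lit 6) (nat_lit 412) (nat_lit 0) (nat_lit 214) (nat_lit 197) (nat_lit 159))))))))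
noncomputable def pc63 : PT := (PT.nd (nat_lit 55848) (PT.nd (nat_lit 55146) (PT.nd (nat_lit 54756) (PT.nd (nat_lit 156) (PT.nd (nat_lit 78) (PT.lf (nat_lit 30400) (nat_lit 6) (nat_lit 400) (nat_lit 0) (nat_lit 215) (nat_lit 197) (nat_lit 158)) (PT.lf (nat_lit 29564) (nat_lit 6) (nat_lit 389) (nat_lit 0) (nat_lit 216) (nat_lit 197) (nat_lit 157))) (PT.nd (nat_lit 54522) (PT.lf (nat_lit 28728) (nat_lit 6) (nat_lit 378) (nat_lit 0) (nat_lit 217) (nat_lit 197) (nat_lit 156)) (PT.lf (nat_lit 27968) (nat_lit 6) (nat_lit 368) (nat_lit 5) (nat_lit 155) (nat_lit 198) (nat_lit 217)))) (PT.nd (nat_lit 156) (PT.nd (nat_lit 78) (PT.lf (nat_lit 28804) (nat_lit 6) (nat_lit 379) (nat_lit 5) (nat_lit 156) (nat_lit 198) (nat_lit 216)) (PT.lf (nat_lit 29640) (nat_lit 6) (nat_lit 390) (nat_lit 5) (nat_lit 157) (nat_lit 198) (nat_lit 215))) (PT.nd (nat_lit 78) (PT.lf (nat_lit 30476) (nat_lit 6) (nat_lit 401) (nat_lit 5) (nat_lit 158) (nat_lit 198) (nat_lit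 214)) (PT.nd (nat_lit 78) (PT.lf (nat_lit 31388) (nat_lit 6) (nat_lit 413) (nat_lit 5) (nat_lit 159) (nat_lit 198) (nat_lit 213)) (PT.lf (nat_lit 32300) (nat_lit 6) (nat_lit 425) (nat_lit 5) (nat_lit 160) (nat_lit 198) (nat_lit 212)))))) (PT.nd (nat_lit 312) (PT.nd (nat_lit 156) (PT.nd (nat_lit 78) (PT.lf (nat_lit 33288) (nat_lit 6) (nat_lit 438) (nat_lit 5) (nat_lit 161) (nat_lit 198) (nat_lit 211)) (PT.lf (nat_lit 34200) (nat_lit 6) (nat_lit 450) (nat_lit 5) (nat_lit 162) (nat_lit 198) (nat_lit 210))) (PT.nd (nat_lit 78) (PT.lf (nat_lit 35188) (nat_lit 6) (nat_lit 463) (nat_lit 5) (nat_lit 163) (nat_lit 198) (nat_lit 209)) (PT.lf (nat_lit 36176) (nat_lit 6) (nat_lit 476) (nat_lit 5) (nat_lit 164) (nat_lit 198) (nat_lit 208)))) (PT.nd (nat_lit 156) (PT.nd (nat_lit 78) (PT.lf (nat_lit 37392) (nat_lit 6) (nat_lit 492) (nat_lit 5) (nat_lit 165) (nat_lit 198) (nat_lit 207)) (PT.lf (nat_lit 39292) (nat_lit 6) (nat_lit 517) (nat_lit 5) (nat_lit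 166) (nat_lit 198) (nat_lit 206))) (PT.nd (nat_lit 78) (PT.lf (nat_lit 41116) (nat_lit 6) (nat_lit 541) (nat_lit 5) (nat_lit 167) (nat_lit 198) (nat_lit 205)) (PT.nd (nat_lit 78) (PT.lf (nat_lit 42864) (nat_lit 6) (nat_lit 564) (nat_lit 5) (nat_lit 168) (nat_lit 198) (nat_lit 204)) (PT.lf (nat_lit 44536) (nat_lit 6) (nat_lit 586) (nat_lit 5) (nat_lit 169) (nat_lit 198) (nat_lit 203))))))) (PT.nd (nat_lit 702) (PT.nd (nat_lit 312) (PT.nd (nat_lit 156) (PT.nd (nat_lit 78) (PT.lf (nat_lit 46132) (nat_lit 6) (nat_lit 607) (nat_lit 5) (nat_lit 170) (nat_lit 198) (nat_lit 202)) (PT.lf (nat_lit 47652) (nat_lit 6) (nat_lit 627) (nat_lit 5) (nat_lit 171) (nat_lit 198) (nat_lit 201))) (PT.nd (nat_lit 78) (PT.lf (nat_lit 49096) (nat_lit 6) (nat_lit 646) (nat_lit 5) (nat_lit 172) (nat_lit 198) (nat_lit 200)) (PT.lf (nat_lit 50464) (nat_lit 6) (nat_lit 664) (nat_lit 5) (nat_lit 173) (nat_lit 198) (nat_lit 199)))) (PT.nd (nat_lit 156) (PT.nd (nat_lit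 78) (PT.lf (nat_lit 51756) (nat_lit 3) (nat_lit 681) (nat_lit 4) (nat_lit 174) (nat_lit 198) (nat_lit 198)) (PT.lf (nat_lit 52896) (nat_lit 6) (nat_lit 696) (nat_lit 4) (nat_lit 175) (nat_lit 198) (nat_lit 197))) (PT.nd (nat_lit 78) (PT.lf (nat_lit 53960) (nat_lit 6) (nat_lit 710) (nat_lit 4) (nat_lit 176) (nat_lit 198) (nat_lit 196)) (PT.nd (nat_lit 78) (PT.lf (nat_lit 54948) (nat_lit 6) (nat_lit 723) (nat_lit 4) (nat_lit 177) (nat_lit 198) (nat_lit 195)) (PT.lf (nat_lit 55860) (nat_lit 6) (nat_lit 735) (nat_lit 4) (nat_lit 178) (nat_lit 198) (nat_lit 194)))))) (PT.nd (nat_lit 312) (PT.nd (nat_lit 156) (PT.nd (nat_lit 78) (PT.lf (nat_lit 56696) (nat_lit 6) (nat_lit 746) (nat_lit 4) (nat_lit 179) (nat_lit 198) (nat_lit 193)) (PT.lf (nat_lit 57456) (nat_lit 6) (nat_lit 756) (nat_lit 4) (nat_lit 180) (nat_lit 198) (nat_lit 192))) (PT.nd (nat_lit 78) (PT.lf (nat_lit 58140) (nat_lit 6) (nat_lit 765) (nat_lit 4) (nat_lit 181) (nat_lit 198)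 (nat_lit 191)) (PT.lf (nat_lit 58748) (nat_lit 6) (nat_lit 773) (nat_lit 4) (nat_lit 182) (nat_lit 198) (nat_lit 190)))) (PT.nd (nat_lit 156) (PT.nd (nat_lit 78) (PT.lf (nat_lit 58672) (nat_lit 6) (nat_lit 772) (nat_lit 4) (nat_lit 183) (nat_lit 198) (nat_lit 189)) (PT.lf (nat_lit 58596) (nat_lit 6) (nat_lit 771) (nat_lit 4) (nat_lit 184) (nat_lit 198) (nat_lit 188))) (PT.nd (nat_lit 78) (PT.lf (nat_lit 58520) (nat_lit 6) (nat_lit 770) (nat_lit 4) (nat_lit 185) (nat_lit 198) (nat_lit 187)) (PT.nd (nat_lit 78) (PT.lf (nat_lit 58444) (nat_lit 3) (nat_lit 769) (nat_lit 2) (nat_lit 186) (nat_lit 198) (nat_lit 186)) (PT.lf (nat_lit 58520) (nat_lit 6) (nat_lit 770) (nat_lit 2) (nat_lit 187) (nat_lit 198) (nat_lit 185))))))))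
noncomputable def pc64 : PT := (PT.nd (nat_lit 1326) (PT.nd (nat_lit 624) (PT.nd (nat_lit 312) (PT.nd (nat_lit 156) (PT.nd (nat_lit 78) (PT.lf (nat_lit 58596) (nat_lit 6) (nat_lit 771) (nat_lit 2) (nat_lit 188) (nat_lit 198) (nat_lit 184)) (PT.lf (nat_lit 58672) (nat_lit 6) (nat_lit 772) (nat_lit 2) (nat_lit 189) (nat_lit 198) (nat_lit 183))) (PT.nd (nat_lit 78) (PT.lf (nat_lit 58748) (nat_lit 6) (nat_lit 773) (nat_lit 2) (nat_lit 190) (nat_lit 198) (nat_lit 182)) (PT.lf (nat_lit 58140) (nat_lit 6) (nat_lit 765) (nat_lit 2) (nat_lit 191) (nat_lit 198) (nat_lit 181)))) (PT.nd (nat_lit 156) (PT.nd (nat_lit 78) (PT.lf (nat_lit 57456) (nat_lit 6) (nat_lit 756) (nat_lit 2) (nat_lit 192) (nat_lit 198) (nat_lit 180)) (PT.lf (nat_lit 56696) (nat_lit 6) (nat_lit 746) (nat_lit 2) (nat_lit 193) (nat_lit 198) (nat_lit 179))) (PT.nd (nat_lit 78) (PT.lf (nat_lit 55860) (nat_lit 6) (nat_lit 735) (nat_lit 2) (nat_lit 194) (nat_lit 198) (nat_lit 178))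 (PT.lf (nat_lit 54948) (nat_lit 6) (nat_lit 723) (nat_lit 2) (nat_lit 195) (nat_lit 198) (nat_lit 177))))) (PT.nd (nat_lit 312) (PT.nd (nat_lit 156) (PT.nd (nat_lit 78) (PT.lf (nat_lit 53960) (nat_lit 6) (nat_lit 710) (nat_lit 2) (nat_lit 196) (nat_lit 198) (nat_lit 176)) (PT.lf (nat_lit 52896) (nat_lit 6) (nat_lit 696) (nat_lit 2) (nat_lit 197) (nat_lit 198) (nat_lit 175))) (PT.nd (nat_lit 78) (PT.lf (nat_lit 51756) (nat_lit 3) (nat_lit 681) (nat_lit 0) (nat_lit 198) (nat_lit 198) (nat_lit 174)) (PT.lf (nat_lit 50464) (nat_lit 6) (nat_lit 664) (nat_lit 0) (nat_lit 199) (nat_lit 198) (nat_lit 173)))) (PT.nd (nat_lit 156) (PT.nd (nat_lit 78) (PT.lf (nat_lit 49096) (nat_lit 6) (nat_lit 646) (nat_lit 0) (nat_lit 200) (nat_lit 198) (nat_lit 172)) (PT.lf (nat_lit 47652) (nat_lit 6) (nat_lit 627) (nat_lit 0) (nat_lit 201) (nat_lit 198) (nat_lit 171))) (PT.nd (nat_lit 78) (PT.lf (nat_lit 46132) (nat_lit 6) (nat_lit 607) (nat_lit 0) (nat_lit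 202) (nat_lit 198) (nat_lit 170)) (PT.nd (nat_lit 78) (PT.lf (nat_lit 44536) (nat_lit 6) (nat_lit 586) (nat_lit 0) (nat_lit 203) (nat_lit 198) (nat_lit 169)) (PT.lf (nat_lit 42864) (nat_lit 6) (nat_lit 564) (nat_lit 0) (nat_lit 204) (nat_lit 198) (nat_lit 168))))))) (PT.nd (nat_lit 702) (PT.nd (nat_lit 312) (PT.nd (nat_lit 156) (PT.nd (nat_lit 78) (PT.lf (nat_lit 41116) (nat_lit 6) (nat_lit 541) (nat_lit 0) (nat_lit 205) (nat_lit 198) (nat_lit 167)) (PT.lf (nat_lit 39292) (nat_lit 6) (nat_lit 517) (nat_lit 0) (nat_lit 206) (nat_lit 198) (nat_lit 166))) (PT.nd (nat_lit 78) (PT.lf (nat_lit 37392) (nat_lit 6) (nat_lit 492) (nat_lit 0) (nat_lit 207) (nat_lit 198) (nat_lit 165)) (PT.lf (nat_lit 36176) (nat_lit 6) (nat_lit 476) (nat_lit 0) (nat_lit 208) (nat_lit 198) (nat_lit 164)))) (PT.nd (nat_lit 156) (PT.nd (nat_lit 78) (PT.lf (nat_lit 35188) (nat_lit 6) (nat_lit 463) (nat_lit 0) (nat_lit 209) (nat_lit 198) (nat_lit 163)) (PT.lf (nat_lit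 34200) (nat_lit 6) (nat_lit 450) (nat_lit 0) (nat_lit 210) (nat_lit 198) (nat_lit 162))) (PT.nd (nat_lit 78) (PT.lf (nat_lit 33288) (nat_lit 6) (nat_lit 438) (nat_lit 0) (nat_lit 211) (nat_lit 198) (nat_lit 161)) (PT.nd (nat_lit 78) (PT.lf (nat_lit 32300) (nat_lit 6) (nat_lit 425) (nat_lit 0) (nat_lit 212) (nat_lit 198) (nat_lit 160)) (PT.lf (nat_lit 31388) (nat_lit 6) (nat_lit 413) (nat_lit 0) (nat_lit 213) (nat_lit 198) (nat_lit 159)))))) (PT.nd (nat_lit 54678) (PT.nd (nat_lit 156) (PT.nd (nat_lit 78) (PT.lf (nat_lit 30476) (nat_lit 6) (nat_lit 401) (nat_lit 0) (nat_lit 214) (nat_lit 198) (nat_lit 158)) (PT.lf (nat_lit 29640) (nat_lit 6) (nat_lit 390) (nat_lit 0) (nat_lit 215) (nat_lit 198) (nat_lit 157))) (PT.nd (nat_lit 78) (PT.lf (nat_lit 28804) (nat_lit 6) (nat_lit 379) (nat_lit 0) (nat_lit 216) (nat_lit 198) (nat_lit 156)) (PT.lf (nat_lit 27968) (nat_lit 6) (nat_lit 368) (nat_lit 0) (nat_lit 217) (nat_lit 198) (nat_lit 155))))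 (PT.nd (nat_lit 156) (PT.nd (nat_lit 78) (PT.lf (nat_lit 27208) (nat_lit 6) (nat_lit 358) (nat_lit 5) (nat_lit 154) (nat_lit 199) (nat_lit 217)) (PT.lf (nat_lit 28044) (nat_lit 6) (nat_lit 369) (nat_lit 5) (nat_lit 155) (nat_lit 199) (nat_lit 216))) (PT.nd (nat_lit 78) (PT.lf (nat_lit 28880) (nat_lit 6) (nat_lit 380) (nat_lit 5) (nat_lit 156) (nat_lit 199) (nat_lit 215)) (PT.nd (nat_lit 78) (PT.lf (nat_lit 29716) (nat_lit 6) (nat_lit 391) (nat_lit 5) (nat_lit 157) (nat_lit 199) (nat_lit 214)) (PT.lf (nat_lit 30552) (nat_lit 6) (nat_lit 402) (nat_lit 5) (nat_lit 158) (nat_lit 199) (nat_lit 213))))))))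
noncomputable def pc65 : PT := (PT.nd (nat_lit 1404) (PT.nd (nat_lit 702) (PT.nd (nat_lit 312) (PT.nd (nat_lit 156) (PT.nd (nat_lit 78) (PT.lf (nat_lit 31464) (nat_lit 6) (nat_lit 414) (nat_lit 5) (nat_lit 159) (nat_lit 199) (nat_lit 212)) (PT.lf (nat_lit 32376) (nat_lit 6) (nat_lit 426) (nat_lit 5) (nat_lit 160) (nat_lit 199) (nat_lit 211))) (PT.nd (nat_lit 78) (PT.lf (nat_lit 33364) (nat_lit 6) (nat_lit 439) (nat_lit 5) (nat_lit 161) (nat_lit 199) (nat_lit 210)) (PT.lf (nat_lit 34276) (nat_lit 6) (nat_lit 451) (nat_lit 5) (nat_lit 162) (nat_lit 199) (nat_lit 209)))) (PT.nd (nat_lit 156) (PT.nd (nat_lit 78) (PT.lf (nat_lit 35264) (nat_lit 6) (nat_lit 464) (nat_lit 5) (nat_lit 163) (nat_lit 199) (nat_lit 208)) (PT.lf (nat_lit 36252) (nat_lit 6) (nat_lit 477) (nat_lit 5) (nat_lit 164) (nat_lit 199) (nat_lit 207))) (PT.nd (nat_lit 78) (PT.lf (nat_lit 37468) (nat_lit 6) (nat_lit 493) (nat_lit 5) (nat_lit 165) (nat_lit 199) (nat_lit 206))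 (PT.nd (nat_lit 78) (PT.lf (nat_lit 39368) (nat_lit 6) (nat_lit 518) (nat_lit 5) (nat_lit 166) (nat_lit 199) (nat_lit 205)) (PT.lf (nat_lit 41192) (nat_lit 6) (nat_lit 542) (nat_lit 5) (nat_lit 167) (nat_lit 199) (nat_lit 204)))))) (PT.nd (nat_lit 312) (PT.nd (nat_lit 156) (PT.nd (nat_lit 78) (PT.lf (nat_lit 42940) (nat_lit 6) (nat_lit 565) (nat_lit 5) (nat_lit 168) (nat_lit 199) (nat_lit 203)) (PT.lf (nat_lit 44612) (nat_lit 6) (nat_lit 587) (nat_lit 5) (nat_lit 169) (nat_lit 199) (nat_lit 202))) (PT.nd (nat_lit 78) (PT.lf (nat_lit 46208) (nat_lit 6) (nat_lit 608) (nat_lit 5) (nat_lit 170) (nat_lit 199) (nat_lit 201)) (PT.lf (nat_lit 47728) (nat_lit 6) (nat_lit 628) (nat_lit 5) (nat_lit 171) (nat_lit 199) (nat_lit 200)))) (PT.nd (nat_lit 156) (PT.nd (nat_lit 78) (PT.lf (nat_lit 49172) (nat_lit 3) (nat_lit 647) (nat_lit 4) (nat_lit 172) (nat_lit 199) (nat_lit 199)) (PT.lf (nat_lit 50464) (nat_lit 6) (nat_lit 664) (nat_lit 4) (nat_lit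 173) (nat_lit 199) (nat_lit 198))) (PT.nd (nat_lit 78) (PT.lf (nat_lit 51680) (nat_lit 6) (nat_lit 680) (nat_lit 4) (nat_lit 174) (nat_lit 199) (nat_lit 197)) (PT.nd (nat_lit 78) (PT.lf (nat_lit 52820) (nat_lit 6) (nat_lit 695) (nat_lit 4) (nat_lit 175) (nat_lit 199) (nat_lit 196)) (PT.lf (nat_lit 53884) (nat_lit 6) (nat_lit 709) (nat_lit 4) (nat_lit 176) (nat_lit 199) (nat_lit 195))))))) (PT.nd (nat_lit 702) (PT.nd (nat_lit 312) (PT.nd (nat_lit 156) (PT.nd (nat_lit 78) (PT.lf (nat_lit 54872) (nat_lit 6) (nat_lit 722) (nat_lit 4) (nat_lit 177) (nat_lit 199) (nat_lit 194)) (PT.lf (nat_lit 55784) (nat_lit 6) (nat_lit 734) (nat_lit 4) (nat_lit 178) (nat_lit 199) (nat_lit 193))) (PT.nd (nat_lit 78) (PT.lf (nat_lit 56620) (nat_lit 6) (nat_lit 745) (nat_lit 4) (nat_lit 179) (nat_lit 199) (nat_lit 192)) (PT.lf (nat_lit 57380) (nat_lit 6) (nat_lit 755) (nat_lit 4) (nat_lit 180) (nat_lit 199) (nat_lit 191)))) (PT.nd (nat_lit 156) (PT.nd (nat_lit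 78) (PT.lf (nat_lit 58064) (nat_lit 6) (nat_lit 764) (nat_lit 4) (nat_lit 181) (nat_lit 199) (nat_lit 190)) (PT.lf (nat_lit 57988) (nat_lit 6) (nat_lit 763) (nat_lit 4) (nat_lit 182) (nat_lit 199) (nat_lit 189))) (PT.nd (nat_lit 78) (PT.lf (nat_lit 57912) (nat_lit 6) (nat_lit 762) (nat_lit 4) (nat_lit 183) (nat_lit 199) (nat_lit 188)) (PT.nd (nat_lit 78) (PT.lf (nat_lit 57836) (nat_lit 6) (nat_lit 761) (nat_lit 4) (nat_lit 184) (nat_lit 199) (nat_lit 187)) (PT.lf (nat_lit 57760) (nat_lit 6) (nat_lit 760) (nat_lit 4) (nat_lit 185) (nat_lit 199) (nat_lit 186)))))) (PT.nd (nat_lit 312) (PT.nd (nat_lit 156) (PT.nd (nat_lit 78) (PT.lf (nat_lit 57760) (nat_lit 6) (nat_lit 760) (nat_lit 2) (nat_lit 186) (nat_lit 199) (nat_lit 185)) (PT.lf (nat_lit 57836) (nat_lit 6) (nat_lit 761) (nat_lit 2) (nat_lit 187) (nat_lit 199) (nat_lit 184))) (PT.nd (nat_lit 78) (PT.lf (nat_lit 57912) (nat_lit 6) (nat_lit 762) (nat_lit 2) (nat_lit 188) (nat_lit 199)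 (nat_lit 183)) (PT.lf (nat_lit 57988) (nat_lit 6) (nat_lit 763) (nat_lit 2) (nat_lit 189) (nat_lit 199) (nat_lit 182)))) (PT.nd (nat_lit 156) (PT.nd (nat_lit 78) (PT.lf (nat_lit 58064) (nat_lit 6) (nat_lit 764) (nat_lit 2) (nat_lit 190) (nat_lit 199) (nat_lit 181)) (PT.lf (nat_lit 57380) (nat_lit 6) (nat_lit 755) (nat_lit 2) (nat_lit 191) (nat_lit 199) (nat_lit 180))) (PT.nd (nat_lit 78) (PT.lf (nat_lit 56620) (nat_lit 6) (nat_lit 745) (nat_lit 2) (nat_lit 192) (nat_lit 199) (nat_lit 179)) (PT.nd (nat_lit 78) (PT.lf (nat_lit 55784) (nat_lit 6) (nat_lit 734) (nat_lit 2) (nat_lit 193) (nat_lit 199) (nat_lit 178)) (PT.lf (nat_lit 54872) (nat_lit 6) (nat_lit 722) (nat_lit 2) (nat_lit 194) (nat_lit 199) (nat_lit 177))))))))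
noncomputable def pc66 : PT := (PT.nd (nat_lit 1326) (PT.nd (nat_lit 624) (PT.nd (nat_lit 312) (PT.nd (nat_lit 156) (PT.nd (nat_lit 78) (PT.lf (nat_lit 53884) (nat_lit 6) (nat_lit 709) (nat_lit 2) (nat_lit 195) (nat_lit 199) (nat_lit 176)) (PT.lf (nat_lit 52820) (nat_lit 6) (nat_lit 695) (nat_lit 2) (nat_lit 196) (nat_lit 199) (nat_lit 175))) (PT.nd (nat_lit 78) (PT.lf (nat_lit 51680) (nat_lit 6) (nat_lit 680) (nat_lit 2) (nat_lit 197) (nat_lit 199) (nat_lit 174)) (PT.lf (nat_lit 50464) (nat_lit 6) (nat_lit 664) (nat_lit 2) (nat_lit 198) (nat_lit 199) (nat_lit 173)))) (PT.nd (nat_lit 156) (PT.nd (nat_lit 78) (PT.lf (nat_lit 49172) (nat_lit 3) (nat_lit 647) (nat_lit 0) (nat_lit 199) (nat_lit 199) (nat_lit 172)) (PT.lf (nat_lit 47728) (nat_lit 6) (nat_lit 628) (nat_lit 0) (nat_lit 200) (nat_lit 199) (nat_lit 171))) (PT.nd (nat_lit 78) (PT.lf (nat_lit 46208) (nat_lit 6) (nat_lit 608) (nat_lit 0) (nat_lit 201) (nat_lit 199) (nat_lit 170))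 (PT.lf (nat_lit 44612) (nat_lit 6) (nat_lit 587) (nat_lit 0) (nat_lit 202) (nat_lit 199) (nat_lit 169))))) (PT.nd (nat_lit 312) (PT.nd (nat_lit 156) (PT.nd (nat_lit 78) (PT.lf (nat_lit 42940) (nat_lit 6) (nat_lit 565) (nat_lit 0) (nat_lit 203) (nat_lit 199) (nat_lit 168)) (PT.lf (nat_lit 41192) (nat_lit 6) (nat_lit 542) (nat_lit 0) (nat_lit 204) (nat_lit 199) (nat_lit 167))) (PT.nd (nat_lit 78) (PT.lf (nat_lit 39368) (nat_lit 6) (nat_lit 518) (nat_lit 0) (nat_lit 205) (nat_lit 199) (nat_lit 166)) (PT.lf (nat_lit 37468) (nat_lit 6) (nat_lit 493) (nat_lit 0) (nat_lit 206) (nat_lit 199) (nat_lit 165)))) (PT.nd (nat_lit 156) (PT.nd (nat_lit 78) (PT.lf (nat_lit 36252) (nat_lit 6) (nat_lit 477) (nat_lit 0) (nat_lit 207) (nat_lit 199) (nat_lit 164)) (PT.lf (nat_lit 35264) (nat_lit 6) (nat_lit 464) (nat_lit 0) (nat_lit 208) (nat_lit 199) (nat_lit 163))) (PT.nd (nat_lit 78) (PT.lf (nat_lit 34276) (nat_lit 6) (nat_lit 451) (nat_lit 0) (nat_lit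 209) (nat_lit 199) (nat_lit 162)) (PT.nd (nat_lit 78) (PT.lf (nat_lit 33364) (nat_lit 6) (nat_lit 439) (nat_lit 0) (nat_lit 210) (nat_lit 199) (nat_lit 161)) (PT.lf (nat_lit 32376) (nat_lit 6) (nat_lit 426) (nat_lit 0) (nat_lit 211) (nat_lit 199) (nat_lit 160))))))) (PT.nd (nat_lit 54912) (PT.nd (nat_lit 312) (PT.nd (nat_lit 156) (PT.nd (nat_lit 78) (PT.lf (nat_lit 31464) (nat_lit 6) (nat_lit 414) (nat_lit 0) (nat_lit 212) (nat_lit 199) (nat_lit 159)) (PT.lf (nat_lit 30552) (nat_lit 6) (nat_lit 402) (nat_lit 0) (nat_lit 213) (nat_lit 199) (nat_lit 158))) (PT.nd (nat_lit 78) (PT.lf (nat_lit 29716) (nat_lit 6) (nat_lit 391) (nat_lit 0) (nat_lit 214) (nat_lit 199) (nat_lit 157)) (PT.lf (nat_lit 28880) (nat_lit 6) (nat_lit 380) (nat_lit 0) (nat_lit 215) (nat_lit 199) (nat_lit 156)))) (PT.nd (nat_lit 54366) (PT.nd (nat_lit 78) (PT.lf (nat_lit 28044) (nat_lit 6) (nat_lit 369) (nat_lit 0) (nat_lit 216) (nat_lit 199) (nat_lit 155)) (PT.lf (nat_lit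 27208) (nat_lit 6) (nat_lit 358) (nat_lit 0) (nat_lit 217) (nat_lit 199) (nat_lit 154))) (PT.nd (nat_lit 78) (PT.lf (nat_lit 25764) (nat_lit 6) (nat_lit 339) (nat_lit 5) (nat_lit 152) (nat_lit 200) (nat_lit 218)) (PT.nd (nat_lit 78) (PT.lf (nat_lit 26524) (nat_lit 6) (nat_lit 349) (nat_lit 5) (nat_lit 153) (nat_lit 200) (nat_lit 217)) (PT.lf (nat_lit 27284) (nat_lit 6) (nat_lit 359) (nat_lit 5) (nat_lit 154) (nat_lit 200) (nat_lit 216)))))) (PT.nd (nat_lit 312) (PT.nd (nat_lit 156) (PT.nd (nat_lit 78) (PT.lf (nat_lit 28120) (nat_lit 6) (nat_lit 370) (nat_lit 5) (nat_lit 155) (nat_lit 200) (nat_lit 215)) (PT.lf (nat_lit 28956) (nat_lit 6) (nat_lit 381) (nat_lit 5) (nat_lit 156) (nat_lit 200) (nat_lit 214))) (PT.nd (nat_lit 78) (PT.lf (nat_lit 29792) (nat_lit 6) (nat_lit 392) (nat_lit 5) (nat_lit 157) (nat_lit 200) (nat_lit 213)) (PT.lf (nat_lit 30628) (nat_lit 6) (nat_lit 403) (nat_lit 5) (nat_lit 158) (nat_lit 200) (nat_lit 212)))) (PT.nd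 (nat_lit 156) (PT.nd (nat_lit 78) (PT.lf (nat_lit 31540) (nat_lit 6) (nat_lit 415) (nat_lit 5) (nat_lit 159) (nat_lit 200) (nat_lit 211)) (PT.lf (nat_lit 32452) (nat_lit 6) (nat_lit 427) (nat_lit 5) (nat_lit 160) (nat_lit 200) (nat_lit 210))) (PT.nd (nat_lit 78) (PT.lf (nat_lit 33440) (nat_lit 6) (nat_lit 440) (nat_lit 5) (nat_lit 161) (nat_lit 200) (nat_lit 209)) (PT.nd (nat_lit 78) (PT.lf (nat_lit 34352) (nat_lit 6) (nat_lit 452) (nat_lit 5) (nat_lit 162) (nat_lit 200) (nat_lit 208)) (PT.lf (nat_lit 35340) (nat_lit 6) (nat_lit 465) (nat_lit 5) (nat_lit 163) (nat_lit 200) (nat_lit 207))))))))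
noncomputable def pc67 : PT := (PT.nd (nat_lit 1404) (PT.nd (nat_lit 702) (PT.nd (nat_lit 312) (PT.nd (nat_lit 156) (PT.nd (nat_lit 78) (PT.lf (nat_lit 36328) (nat_lit 6) (nat_lit 478) (nat_lit 5) (nat_lit 164) (nat_lit 200) (nat_lit 206)) (PT.lf (nat_lit 37544) (nat_lit 6) (nat_lit 494) (nat_lit 5) (nat_lit 165) (nat_lit 200) (nat_lit 205))) (PT.nd (nat_lit 78) (PT.lf (nat_lit 39444) (nat_lit 6) (nat_lit 519) (nat_lit 5) (nat_lit 166) (nat_lit 200) (nat_lit 204)) (PT.lf (nat_lit 41268) (nat_lit 6) (nat_lit 543) (nat_lit 5) (nat_lit 167) (nat_lit 200) (nat_lit 203)))) (PT.nd (nat_lit 156) (PT.nd (nat_lit 78) (PT.lf (nat_lit 43016) (nat_lit 6) (nat_lit 566) (nat_lit 5) (nat_lit 168) (nat_lit 200) (nat_lit 202)) (PT.lf (nat_lit 44688) (nat_lit 6) (nat_lit 588) (nat_lit 5) (nat_lit 169) (nat_lit 200) (nat_lit 201))) (PT.nd (nat_lit 78) (PT.lf (nat_lit 46284) (nat_lit 3) (nat_lit 609) (nat_lit 4) (nat_lit 170) (nat_lit 200) (nat_lit 200))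 (PT.nd (nat_lit 78) (PT.lf (nat_lit 47728) (nat_lit 6) (nat_lit 628) (nat_lit 4) (nat_lit 171) (nat_lit 200) (nat_lit 199)) (PT.lf (nat_lit 49096) (nat_lit 6) (nat_lit 646) (nat_lit 4) (nat_lit 172) (nat_lit 200) (nat_lit 198)))))) (PT.nd (nat_lit 312) (PT.nd (nat_lit 156) (PT.nd (nat_lit 78) (PT.lf (nat_lit 50388) (nat_lit 6) (nat_lit 663) (nat_lit 4) (nat_lit 173) (nat_lit 200) (nat_lit 197)) (PT.lf (nat_lit 51604) (nat_lit 6) (nat_lit 679) (nat_lit 4) (nat_lit 174) (nat_lit 200) (nat_lit 196))) (PT.nd (nat_lit 78) (PT.lf (nat_lit 52744) (nat_lit 6) (nat_lit 694) (nat_lit 4) (nat_lit 175) (nat_lit 200) (nat_lit 195)) (PT.lf (nat_lit 53808) (nat_lit 6) (nat_lit 708) (nat_lit 4) (nat_lit 176) (nat_lit 200) (nat_lit 194)))) (PT.nd (nat_lit 156) (PT.nd (nat_lit 78) (PT.lf (nat_lit 54796) (nat_lit 6) (nat_lit 721) (nat_lit 4) (nat_lit 177) (nat_lit 200) (nat_lit 193)) (PT.lf (nat_lit 55708) (nat_lit 6) (nat_lit 733) (nat_lit 4) (nat_lit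 178) (nat_lit 200) (nat_lit 192))) (PT.nd (nat_lit 78) (PT.lf (nat_lit 56544) (nat_lit 6) (nat_lit 744) (nat_lit 4) (nat_lit 179) (nat_lit 200) (nat_lit 191)) (PT.nd (nat_lit 78) (PT.lf (nat_lit 57304) (nat_lit 6) (nat_lit 754) (nat_lit 4) (nat_lit 180) (nat_lit 200) (nat_lit 190)) (PT.lf (nat_lit 57228) (nat_lit 6) (nat_lit 753) (nat_lit 4) (nat_lit 181) (nat_lit 200) (nat_lit 189))))))) (PT.nd (nat_lit 702) (PT.nd (nat_lit 312) (PT.nd (nat_lit 156) (PT.nd (nat_lit 78) (PT.lf (nat_lit 57152) (nat_lit 6) (nat_lit 752) (nat_lit 4) (nat_lit 182) (nat_lit 200) (nat_lit 188)) (PT.lf (nat_lit 57076) (nat_lit 6) (nat_lit 751) (nat_lit 4) (nat_lit 183) (nat_lit 200) (nat_lit 187))) (PT.nd (nat_lit 78) (PT.lf (nat_lit 57000) (nat_lit 6) (nat_lit 750) (nat_lit 4) (nat_lit 184) (nat_lit 200) (nat_lit 186)) (PT.lf (nat_lit 56924) (nat_lit 3) (nat_lit 749) (nat_lit 2) (nat_lit 185) (nat_lit 200) (nat_lit 185)))) (PT.nd (nat_lit 156) (PT.nd (nat_lit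 78) (PT.lf (nat_lit 57000) (nat_lit 6) (nat_lit 750) (nat_lit 2) (nat_lit 186) (nat_lit 200) (nat_lit 184)) (PT.lf (nat_lit 57076) (nat_lit 6) (nat_lit 751) (nat_lit 2) (nat_lit 187) (nat_lit 200) (nat_lit 183))) (PT.nd (nat_lit 78) (PT.lf (nat_lit 57152) (nat_lit 6) (nat_lit 752) (nat_lit 2) (nat_lit 188) (nat_lit 200) (nat_lit 182)) (PT.nd (nat_lit 78) (PT.lf (nat_lit 57228) (nat_lit 6) (nat_lit 753) (nat_lit 2) (nat_lit 189) (nat_lit 200) (nat_lit 181)) (PT.lf (nat_lit 57304) (nat_lit 6) (nat_lit 754) (nat_lit 2) (nat_lit 190) (nat_lit 200) (nat_lit 180)))))) (PT.nd (nat_lit 312) (PT.nd (nat_lit 156) (PT.nd (nat_lit 78) (PT.lf (nat_lit 56544) (nat_lit 6) (nat_lit 744) (nat_lit 2) (nat_lit 191) (nat_lit 200) (nat_lit 179)) (PT.lf (nat_lit 55708) (nat_lit 6) (nat_lit 733) (nat_lit 2) (nat_lit 192) (nat_lit 200) (nat_lit 178))) (PT.nd (nat_lit 78) (PT.lf (nat_lit 54796) (nat_lit 6) (nat_lit 721) (nat_lit 2) (nat_lit 193) (nat_lit 200)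 (nat_lit 177)) (PT.lf (nat_lit 53808) (nat_lit 6) (nat_lit 708) (nat_lit 2) (nat_lit 194) (nat_lit 200) (nat_lit 176)))) (PT.nd (nat_lit 156) (PT.nd (nat_lit 78) (PT.lf (nat_lit 52744) (nat_lit 6) (nat_lit 694) (nat_lit 2) (nat_lit 195) (nat_lit 200) (nat_lit 175)) (PT.lf (nat_lit 51604) (nat_lit 6) (nat_lit 679) (nat_lit 2) (nat_lit 196) (nat_lit 200) (nat_lit 174))) (PT.nd (nat_lit 78) (PT.lf (nat_lit 50388) (nat_lit 6) (nat_lit 663) (nat_lit 2) (nat_lit 197) (nat_lit 200) (nat_lit 173)) (PT.nd (nat_lit 78) (PT.lf (nat_lit 49096) (nat_lit 6) (nat_lit 646) (nat_lit 2) (nat_lit 198) (nat_lit 200) (nat_lit 172)) (PT.lf (nat_lit 47728) (nat_lit 6) (nat_lit 628) (nat_lit 2) (nat_lit 199) (nat_lit 200) (nat_lit 171))))))))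
noncomputable def pc68 : PT := (PT.nd (nat_lit 1326) (PT.nd (nat_lit 624) (PT.nd (nat_lit 312) (PT.nd (nat_lit 156) (PT.nd (nat_lit 78) (PT.lf (nat_lit 46284) (nat_lit 3) (nat_lit 609) (nat_lit 0) (nat_lit 200) (nat_lit 200) (nat_lit 170)) (PT.lf (nat_lit 44688) (nat_lit 6) (nat_lit 588) (nat_lit 0) (nat_lit 201) (nat_lit 200) (nat_lit 169))) (PT.nd (nat_lit 78) (PT.lf (nat_lit 43016) (nat_lit 6) (nat_lit 566) (nat_lit 0) (nat_lit 202) (nat_lit 200) (nat_lit 168)) (PT.lf (nat_lit 41268) (nat_lit 6) (nat_lit 543) (nat_lit 0) (nat_lit 203) (nat_lit 200) (nat_lit 167)))) (PT.nd (nat_lit 156) (PT.nd (nat_lit 78) (PT.lf (nat_lit 39444) (nat_lit 6) (nat_lit 519) (nat_lit 0) (nat_lit 204) (nat_lit 200) (nat_lit 166)) (PT.lf (nat_lit 37544) (nat_lit 6) (nat_lit 494) (nat_lit 0) (nat_lit 205) (nat_lit 200) (nat_lit 165))) (PT.nd (nat_lit 78) (PT.lf (nat_lit 36328) (nat_lit 6) (nat_lit 478) (nat_lit 0) (nat_lit 206) (nat_lit 200) (nat_lit 164))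 (PT.lf (nat_lit 35340) (nat_lit 6) (nat_lit 465) (nat_lit 0) (nat_lit 207) (nat_lit 200) (nat_lit 163))))) (PT.nd (nat_lit 312) (PT.nd (nat_lit 156) (PT.nd (nat_lit 78) (PT.lf (nat_lit 34352) (nat_lit 6) (nat_lit 452) (nat_lit 0) (nat_lit 208) (nat_lit 200) (nat_lit 162)) (PT.lf (nat_lit 33440) (nat_lit 6) (nat_lit 440) (nat_lit 0) (nat_lit 209) (nat_lit 200) (nat_lit 161))) (PT.nd (nat_lit 78) (PT.lf (nat_lit 32452) (nat_lit 6) (nat_lit 427) (nat_lit 0) (nat_lit 210) (nat_lit 200) (nat_lit 160)) (PT.lf (nat_lit 31540) (nat_lit 6) (nat_lit 415) (nat_lit 0) (nat_lit 211) (nat_lit 200) (nat_lit 159)))) (PT.nd (nat_lit 156) (PT.nd (nat_lit 78) (PT.lf (nat_lit 30628) (nat_lit 6) (nat_lit 403) (nat_lit 0) (nat_lit 212) (nat_lit 200) (nat_lit 158)) (PT.lf (nat_lit 29792) (nat_lit 6) (nat_lit 392) (nat_lit 0) (nat_lit 213) (nat_lit 200) (nat_lit 157))) (PT.nd (nat_lit 78) (PT.lf (nat_lit 28956) (nat_lit 6) (nat_lit 381) (nat_lit 0) (nat_lit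 214) (nat_lit 200) (nat_lit 156)) (PT.nd (nat_lit 78) (PT.lf (nat_lit 28120) (nat_lit 6) (nat_lit 370) (nat_lit 0) (nat_lit 215) (nat_lit 200) (nat_lit 155)) (PT.lf (nat_lit 27284) (nat_lit 6) (nat_lit 359) (nat_lit 0) (nat_lit 216) (nat_lit 200) (nat_lit 154))))))) (PT.nd (nat_lit 54756) (PT.nd (nat_lit 54366) (PT.nd (nat_lit 54210) (PT.nd (nat_lit 78) (PT.lf (nat_lit 26524) (nat_lit 6) (nat_lit 349) (nat_lit 0) (nat_lit 217) (nat_lit 200) (nat_lit 153)) (PT.lf (nat_lit 25764) (nat_lit 6) (nat_lit 339) (nat_lit 0) (nat_lit 218) (nat_lit 200) (nat_lit 152))) (PT.nd (nat_lit 78) (PT.lf (nat_lit 25080) (nat_lit 6) (nat_lit 330) (nat_lit 5) (nat_lit 151) (nat_lit 201) (nat_lit 218)) (PT.lf (nat_lit 25840) (nat_lit 6) (nat_lit 340) (nat_lit 5) (nat_lit 152) (nat_lit 201) (nat_lit 217)))) (PT.nd (nat_lit 156) (PT.nd (nat_lit 78) (PT.lf (nat_lit 26600) (nat_lit 6) (nat_lit 350) (nat_lit 5) (nat_lit 153) (nat_lit 201) (nat_lit 216)) (PT.lf (nat_lit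 27360) (nat_lit 6) (nat_lit 360) (nat_lit 5) (nat_lit 154) (nat_lit 201) (nat_lit 215))) (PT.nd (nat_lit 78) (PT.lf (nat_lit 28196) (nat_lit 6) (nat_lit 371) (nat_lit 5) (nat_lit 155) (nat_lit 201) (nat_lit 214)) (PT.nd (nat_lit 78) (PT.lf (nat_lit 29032) (nat_lit 6) (nat_lit 382) (nat_lit 5) (nat_lit 156) (nat_lit 201) (nat_lit 213)) (PT.lf (nat_lit 29868) (nat_lit 6) (nat_lit 393) (nat_lit 5) (nat_lit 157) (nat_lit 201) (nat_lit 212)))))) (PT.nd (nat_lit 312) (PT.nd (nat_lit 156) (PT.nd (nat_lit 78) (PT.lf (nat_lit 30704) (nat_lit 6) (nat_lit 404) (nat_lit 5) (nat_lit 158) (nat_lit 201) (nat_lit 211)) (PT.lf (nat_lit 31616) (nat_lit 6) (nat_lit 416) (nat_lit 5) (nat_lit 159) (nat_lit 201) (nat_lit 210))) (PT.nd (nat_lit 78) (PT.lf (nat_lit 32528) (nat_lit 6) (nat_lit 428) (nat_lit 5) (nat_lit 160) (nat_lit 201) (nat_lit 209)) (PT.lf (nat_lit 33516) (nat_lit 6) (nat_lit 441) (nat_lit 5) (nat_lit 161) (nat_lit 201) (nat_lit 208)))) (PT.nd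 (nat_lit 156) (PT.nd (nat_lit 78) (PT.lf (nat_lit 34428) (nat_lit 6) (nat_lit 453) (nat_lit 5) (nat_lit 162) (nat_lit 201) (nat_lit 207)) (PT.lf (nat_lit 35416) (nat_lit 6) (nat_lit 466) (nat_lit 5) (nat_lit 163) (nat_lit 201) (nat_lit 206))) (PT.nd (nat_lit 78) (PT.lf (nat_lit 36404) (nat_lit 6) (nat_lit 479) (nat_lit 5) (nat_lit 164) (nat_lit 201) (nat_lit 205)) (PT.nd (nat_lit 78) (PT.lf (nat_lit 37620) (nat_lit 6) (nat_lit 495) (nat_lit 5) (nat_lit 165) (nat_lit 201) (nat_lit 204)) (PT.lf (nat_lit 39520) (nat_lit 6) (nat_lit 520) (nat_lit 5) (nat_lit 166) (nat_lit 201) (nat_lit 203))))))))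
noncomputable def pc69 : PT := (PT.nd (nat_lit 1404) (PT.nd (nat_lit 702) (PT.nd (nat_lit 312) (PT.nd (nat_lit 156) (PT.nd (nat_lit 78) (PT.lf (nat_lit 41344) (nat_lit 6) (nat_lit 544) (nat_lit 5) (nat_lit 167) (nat_lit 201) (nat_lit 202)) (PT.lf (nat_lit 43092) (nat_lit 3) (nat_lit 567) (nat_lit 4) (nat_lit 168) (nat_lit 201) (nat_lit 201))) (PT.nd (nat_lit 78) (PT.lf (nat_lit 44688) (nat_lit 6) (nat_lit 588) (nat_lit 4) (nat_lit 169) (nat_lit 201) (nat_lit 200)) (PT.lf (nat_lit 46208) (nat_lit 6) (nat_lit 608) (nat_lit 4) (nat_lit 170) (nat_lit 201) (nat_lit 199)))) (PT.nd (nat_lit 156) (PT.nd (nat_lit 78) (PT.lf (nat_lit 47652) (nat_lit 6) (nat_lit 627) (nat_lit 4) (nat_lit 171) (nat_lit 201) (nat_lit 198)) (PT.lf (nat_lit 49020) (nat_lit 6) (nat_lit 645) (nat_lit 4) (nat_lit 172) (nat_lit 201) (nat_lit 197))) (PT.nd (nat_lit 78) (PT.lf (nat_lit 50312) (nat_lit 6) (nat_lit 662) (nat_lit 4) (nat_lit 173) (nat_lit 201) (nat_lit 196))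 (PT.nd (nat_lit 78) (PT.lf (nat_lit 51528) (nat_lit 6) (nat_lit 678) (nat_lit 4) (nat_lit 174) (nat_lit 201) (nat_lit 195)) (PT.lf (nat_lit 52668) (nat_lit 6) (nat_lit 693) (nat_lit 4) (nat_lit 175) (nat_lit 201) (nat_lit 194)))))) (PT.nd (nat_lit 312) (PT.nd (nat_lit 156) (PT.nd (nat_lit 78) (PT.lf (nat_lit 53732) (nat_lit 6) (nat_lit 707) (nat_lit 4) (nat_lit 176) (nat_lit 201) (nat_lit 193)) (PT.lf (nat_lit 54720) (nat_lit 6) (nat_lit 720) (nat_lit 4) (nat_lit 177) (nat_lit 201) (nat_lit 192))) (PT.nd (nat_lit 78) (PT.lf (nat_lit 55632) (nat_lit 6) (nat_lit 732) (nat_lit 4) (nat_lit 178) (nat_lit 201) (nat_lit 191)) (PT.lf (nat_lit 56468) (nat_lit 6) (nat_lit 743) (nat_lit 4) (nat_lit 179) (nat_lit 201) (nat_lit 190)))) (PT.nd (nat_lit 156) (PT.nd (nat_lit 78) (PT.lf (nat_lit 56392) (nat_lit 6) (nat_lit 742) (nat_lit 4) (nat_lit 180) (nat_lit 201) (nat_lit 189)) (PT.lf (nat_lit 56316) (nat_lit 6) (nat_lit 741) (nat_lit 4) (nat_lit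 181) (nat_lit 201) (nat_lit 188))) (PT.nd (nat_lit 78) (PT.lf (nat_lit 56240) (nat_lit 6) (nat_lit 740) (nat_lit 4) (nat_lit 182) (nat_lit 201) (nat_lit 187)) (PT.nd (nat_lit 78) (PT.lf (nat_lit 56164) (nat_lit 6) (nat_lit 739) (nat_lit 4) (nat_lit 183) (nat_lit 201) (nat_lit 186)) (PT.lf (nat_lit 56088) (nat_lit 6) (nat_lit 738) (nat_lit 4) (nat_lit 184) (nat_lit 201) (nat_lit 185))))))) (PT.nd (nat_lit 702) (PT.nd (nat_lit 312) (PT.nd (nat_lit 156) (PT.nd (nat_lit 78) (PT.lf (nat_lit 56088) (nat_lit 6) (nat_lit 738) (nat_lit 2) (nat_lit 185) (nat_lit 201) (nat_lit 184)) (PT.lf (nat_lit 56164) (nat_lit 6) (nat_lit 739) (nat_lit 2) (nat_lit 186) (nat_lit 201) (nat_lit 183))) (PT.nd (nat_lit 78) (PT.lf (nat_lit 56240) (nat_lit 6) (nat_lit 740) (nat_lit 2) (nat_lit 187) (nat_lit 201) (nat_lit 182)) (PT.lf (nat_lit 56316) (nat_lit 6) (nat_lit 741) (nat_lit 2) (nat_lit 188) (nat_lit 201) (nat_lit 181)))) (PT.nd (nat_lit 156) (PT.nd (nat_lit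 78) (PT.lf (nat_lit 56392) (nat_lit 6) (nat_lit 742) (nat_lit 2) (nat_lit 189) (nat_lit 201) (nat_lit 180)) (PT.lf (nat_lit 56468) (nat_lit 6) (nat_lit 743) (nat_lit 2) (nat_lit 190) (nat_lit 201) (nat_lit 179))) (PT.nd (nat_lit 78) (PT.lf (nat_lit 55632) (nat_lit 6) (nat_lit 732) (nat_lit 2) (nat_lit 191) (nat_lit 201) (nat_lit 178)) (PT.nd (nat_lit 78) (PT.lf (nat_lit 54720) (nat_lit 6) (nat_lit 720) (nat_lit 2) (nat_lit 192) (nat_lit 201) (nat_lit 177)) (PT.lf (nat_lit 53732) (nat_lit 6) (nat_lit 707) (nat_lit 2) (nat_lit 193) (nat_lit 201) (nat_lit 176)))))) (PT.nd (nat_lit 312) (PT.nd (nat_lit 156) (PT.nd (nat_lit 78) (PT.lf (nat_lit 52668) (nat_lit 6) (nat_lit 693) (nat_lit 2) (nat_lit 194) (nat_lit 201) (nat_lit 175)) (PT.lf (nat_lit 51528) (nat_lit 6) (nat_lit 678) (nat_lit 2) (nat_lit 195) (nat_lit 201) (nat_lit 174))) (PT.nd (nat_lit 78) (PT.lf (nat_lit 50312) (nat_lit 6) (nat_lit 662) (nat_lit 2) (nat_lit 196) (nat_lit 201)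 (nat_lit 173)) (PT.lf (nat_lit 49020) (nat_lit 6) (nat_lit 645) (nat_lit 2) (nat_lit 197) (nat_lit 201) (nat_lit 172)))) (PT.nd (nat_lit 156) (PT.nd (nat_lit 78) (PT.lf (nat_lit 47652) (nat_lit 6) (nat_lit 627) (nat_lit 2) (nat_lit 198) (nat_lit 201) (nat_lit 171)) (PT.lf (nat_lit 46208) (nat_lit 6) (nat_lit 608) (nat_lit 2) (nat_lit 199) (nat_lit 201) (nat_lit 170))) (PT.nd (nat_lit 78) (PT.lf (nat_lit 44688) (nat_lit 6) (nat_lit 588) (nat_lit 2) (nat_lit 200) (nat_lit 201) (nat_lit 169)) (PT.nd (nat_lit 78) (PT.lf (nat_lit 43092) (nat_lit 3) (nat_lit 567) (nat_lit 0) (nat_lit 201) (nat_lit 201) (nat_lit 168)) (PT.lf (nat_lit 41344) (nat_lit 6) (nat_lit 544) (nat_lit 0) (nat_lit 202) (nat_lit 201) (nat_lit 167))))))))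
noncomputable def pc70 : PT := (PT.nd (nat_lit 55380) (PT.nd (nat_lit 702) (PT.nd (nat_lit 312) (PT.nd (nat_lit 156) (PT.nd (nat_lit 78) (PT.lf (nat_lit 39520) (nat_lit 6) (nat_lit 520) (nat_lit 0) (nat_lit 203) (nat_lit 201) (nat_lit 166)) (PT.lf (nat_lit 37620) (nat_lit 6) (nat_lit 495) (nat_lit 0) (nat_lit 204) (nat_lit 201) (nat_lit 165))) (PT.nd (nat_lit 78) (PT.lf (nat_lit 36404) (nat_lit 6) (nat_lit 479) (nat_lit 0) (nat_lit 205) (nat_lit 201) (nat_lit 164)) (PT.lf (nat_lit 35416) (nat_lit 6) (nat_lit 466) (nat_lit 0) (nat_lit 206) (nat_lit 201) (nat_lit 163)))) (PT.nd (nat_lit 156) (PT.nd (nat_lit 78) (PT.lf (nat_lit 34428) (nat_lit 6) (nat_lit 453) (nat_lit 0) (nat_lit 207) (nat_lit 201) (nat_lit 162)) (PT.lf (nat_lit 33516) (nat_lit 6) (nat_lit 441) (nat_lit 0) (nat_lit 208) (nat_lit 201) (nat_lit 161))) (PT.nd (nat_lit 78) (PT.lf (nat_lit 32528) (nat_lit 6) (nat_lit 428) (nat_lit 0) (nat_lit 209) (nat_lit 201) (nat_lit 160))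 (PT.nd (nat_lit 78) (PT.lf (nat_lit 31616) (nat_lit 6) (nat_lit 416) (nat_lit 0) (nat_lit 210) (nat_lit 201) (nat_lit 159)) (PT.lf (nat_lit 30704) (nat_lit 6) (nat_lit 404) (nat_lit 0) (nat_lit 211) (nat_lit 201) (nat_lit 158)))))) (PT.nd (nat_lit 312) (PT.nd (nat_lit 156) (PT.nd (nat_lit 78) (PT.lf (nat_lit 29868) (nat_lit 6) (nat_lit 393) (nat_lit 0) (nat_lit 212) (nat_lit 201) (nat_lit 157)) (PT.lf (nat_lit 29032) (nat_lit 6) (nat_lit 382) (nat_lit 0) (nat_lit 213) (nat_lit 201) (nat_lit 156))) (PT.nd (nat_lit 78) (PT.lf (nat_lit 28196) (nat_lit 6) (nat_lit 371) (nat_lit 0) (nat_lit 214) (nat_lit 201) (nat_lit 155)) (PT.lf (nat_lit 27360) (nat_lit 6) (nat_lit 360) (nat_lit 0) (nat_lit 215) (nat_lit 201) (nat_lit 154)))) (PT.nd (nat_lit 156) (PT.nd (nat_lit 78) (PT.lf (nat_lit 26600) (nat_lit 6) (nat_lit 350) (nat_lit 0) (nat_lit 216) (nat_lit 201) (nat_lit 153)) (PT.lf (nat_lit 25840) (nat_lit 6) (nat_lit 340) (nat_lit 0) (nat_lit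 217) (nat_lit 201) (nat_lit 152))) (PT.nd (nat_lit 54054) (PT.lf (nat_lit 25080) (nat_lit 6) (nat_lit 330) (nat_lit 0) (nat_lit 218) (nat_lit 201) (nat_lit 151)) (PT.nd (nat_lit 78) (PT.lf (nat_lit 24396) (nat_lit 6) (nat_lit 321) (nat_lit 5) (nat_lit 150) (nat_lit 202) (nat_lit 218)) (PT.lf (nat_lit 25156) (nat_lit 6) (nat_lit 331) (nat_lit 5) (nat_lit 151) (nat_lit 202) (nat_lit 217))))))) (PT.nd (nat_lit 702) (PT.nd (nat_lit 312) (PT.nd (nat_lit 156) (PT.nd (nat_lit 78) (PT.lf (nat_lit 25916) (nat_lit 6) (nat_lit 341) (nat_lit 5) (nat_lit 152) (nat_lit 202) (nat_lit 216)) (PT.lf (nat_lit 26676) (nat_lit 6) (nat_lit 351) (nat_lit 5) (nat_lit 153) (nat_lit 202) (nat_lit 215))) (PT.nd (nat_lit 78) (PT.lf (nat_lit 27436) (nat_lit 6) (nat_lit 361) (nat_lit 5) (nat_lit 154) (nat_lit 202) (nat_lit 214)) (PT.lf (nat_lit 28272) (nat_lit 6) (nat_lit 372) (nat_lit 5) (nat_lit 155) (nat_lit 202) (nat_lit 213)))) (PT.nd (nat_lit 156) (PT.nd (nat_lit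 78) (PT.lf (nat_lit 29108) (nat_lit 6) (nat_lit 383) (nat_lit 5) (nat_lit 156) (nat_lit 202) (nat_lit 212)) (PT.lf (nat_lit 29944) (nat_lit 6) (nat_lit 394) (nat_lit 5) (nat_lit 157) (nat_lit 202) (nat_lit 211))) (PT.nd (nat_lit 78) (PT.lf (nat_lit 30780) (nat_lit 6) (nat_lit 405) (nat_lit 5) (nat_lit 158) (nat_lit 202) (nat_lit 210)) (PT.nd (nat_lit 78) (PT.lf (nat_lit 31692) (nat_lit 6) (nat_lit 417) (nat_lit 5) (nat_lit 159) (nat_lit 202) (nat_lit 209)) (PT.lf (nat_lit 32604) (nat_lit 6) (nat_lit 429) (nat_lit 5) (nat_lit 160) (nat_lit 202) (nat_lit 208)))))) (PT.nd (nat_lit 312) (PT.nd (nat_lit 156) (PT.nd (nat_lit 78) (PT.lf (nat_lit 33592) (nat_lit 6) (nat_lit 442) (nat_lit 5) (nat_lit 161) (nat_lit 202) (nat_lit 207)) (PT.lf (nat_lit 34504) (nat_lit 6) (nat_lit 454) (nat_lit 5) (nat_lit 162) (nat_lit 202) (nat_lit 206))) (PT.nd (nat_lit 78) (PT.lf (nat_lit 35492) (nat_lit 6) (nat_lit 467) (nat_lit 5) (nat_lit 163) (nat_lit 202)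 (nat_lit 205)) (PT.lf (nat_lit 36480) (nat_lit 6) (nat_lit 480) (nat_lit 5) (nat_lit 164) (nat_lit 202) (nat_lit 204)))) (PT.nd (nat_lit 156) (PT.nd (nat_lit 78) (PT.lf (nat_lit 37696) (nat_lit 6) (nat_lit 496) (nat_lit 5) (nat_lit 165) (nat_lit 202) (nat_lit 203)) (PT.lf (nat_lit 39596) (nat_lit 3) (nat_lit 521) (nat_lit 4) (nat_lit 166) (nat_lit 202) (nat_lit 202))) (PT.nd (nat_lit 78) (PT.lf (nat_lit 41344) (nat_lit 6) (nat_lit 544) (nat_lit 4) (nat_lit 167) (nat_lit 202) (nat_lit 201)) (PT.nd (nat_lit 78) (PT.lf (nat_lit 43016) (nat_lit 6) (nat_lit 566) (nat_lit 4) (nat_lit 168) (nat_lit 202) (nat_lit 200)) (PT.lf (nat_lit 44612) (nat_lit 6) (nat_lit 587) (nat_lit 4) (nat_lit 169) (nat_lit 202) (nat_lit 199))))))))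
noncomputable def pc71 : PT := (PT.nd (nat_lit 1404) (PT.nd (nat_lit 702) (PT.nd (nat_lit 312) (PT.nd (nat_lit 156) (PT.nd (nat_lit 78) (PT.lf (nat_lit 46132) (nat_lit 6) (nat_lit 607) (nat_lit 4) (nat_lit 170) (nat_lit 202) (nat_lit 198)) (PT.lf (nat_lit 47576) (nat_lit 6) (nat_lit 626) (nat_lit 4) (nat_lit 171) (nat_lit 202) (nat_lit 197))) (PT.nd (nat_lit 78) (PT.lf (nat_lit 48944) (nat_lit 6) (nat_lit 644) (nat_lit 4) (nat_lit 172) (nat_lit 202) (nat_lit 196)) (PT.lf (nat_lit 50236) (nat_lit 6) (nat_lit 661) (nat_lit 4) (nat_lit 173) (nat_lit 202) (nat_lit 195)))) (PT.nd (nat_lit 156) (PT.nd (nat_lit 78) (PT.lf (nat_lit 51452) (nat_lit 6) (nat_lit 677) (nat_lit 4) (nat_lit 174) (nat_lit 202) (nat_lit 194)) (PT.lf (nat_lit 52592) (nat_lit 6) (nat_lit 692) (nat_lit 4) (nat_lit 175) (nat_lit 202) (nat_lit 193))) (PT.nd (nat_lit 78) (PT.lf (nat_lit 53656) (nat_lit 6) (nat_lit 706) (nat_lit 4) (nat_lit 176) (nat_lit 202) (nat_lit 192))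 (PT.nd (nat_lit 78) (PT.lf (nat_lit 54644) (nat_lit 6) (nat_lit 719) (nat_lit 4) (nat_lit 177) (nat_lit 202) (nat_lit 191)) (PT.lf (nat_lit 55556) (nat_lit 6) (nat_lit 731) (nat_lit 4) (nat_lit 178) (nat_lit 202) (nat_lit 190)))))) (PT.nd (nat_lit 312) (PT.nd (nat_lit 156) (PT.nd (nat_lit 78) (PT.lf (nat_lit 55480) (nat_lit 6) (nat_lit 730) (nat_lit 4) (nat_lit 179) (nat_lit 202) (nat_lit 189)) (PT.lf (nat_lit 55404) (nat_lit 6) (nat_lit 729) (nat_lit 4) (nat_lit 180) (nat_lit 202) (nat_lit 188))) (PT.nd (nat_lit 78) (PT.lf (nat_lit 55328) (nat_lit 6) (nat_lit 728) (nat_lit 4) (nat_lit 181) (nat_lit 202) (nat_lit 187)) (PT.lf (nat_lit 55252) (nat_lit 6) (nat_lit 727) (nat_lit 4) (nat_lit 182) (nat_lit 202) (nat_lit 186)))) (PT.nd (nat_lit 156) (PT.nd (nat_lit 78) (PT.lf (nat_lit 55176) (nat_lit 6) (nat_lit 726) (nat_lit 4) (nat_lit 183) (nat_lit 202) (nat_lit 185)) (PT.lf (nat_lit 55100) (nat_lit 3) (nat_lit 725) (nat_lit 2) (nat_lit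 184) (nat_lit 202) (nat_lit 184))) (PT.nd (nat_lit 78) (PT.lf (nat_lit 55176) (nat_lit 6) (nat_lit 726) (nat_lit 2) (nat_lit 185) (nat_lit 202) (nat_lit 183)) (PT.nd (nat_lit 78) (PT.lf (nat_lit 55252) (nat_lit 6) (nat_lit 727) (nat_lit 2) (nat_lit 186) (nat_lit 202) (nat_lit 182)) (PT.lf (nat_lit 55328) (nat_lit 6) (nat_lit 728) (nat_lit 2) (nat_lit 187) (nat_lit 202) (nat_lit 181))))))) (PT.nd (nat_lit 702) (PT.nd (nat_lit 312) (PT.nd (nat_lit 156) (PT.nd (nat_lit 78) (PT.lf (nat_lit 55404) (nat_lit 6) (nat_lit 729) (nat_lit 2) (nat_lit 188) (nat_lit 202) (nat_lit 180)) (PT.lf (nat_lit 55480) (nat_lit 6) (nat_lit 730) (nat_lit 2) (nat_lit 189) (nat_lit 202) (nat_lit 179))) (PT.nd (nat_lit 78) (PT.lf (nat_lit 55556) (nat_lit 6) (nat_lit 731) (nat_lit 2) (nat_lit 190) (nat_lit 202) (nat_lit 178)) (PT.lf (nat_lit 54644) (nat_lit 6) (nat_lit 719) (nat_lit 2) (nat_lit 191) (nat_lit 202) (nat_lit 177)))) (PT.nd (nat_lit 156) (PT.nd (nat_lit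 78) (PT.lf (nat_lit 53656) (nat_lit 6) (nat_lit 706) (nat_lit 2) (nat_lit 192) (nat_lit 202) (nat_lit 176)) (PT.lf (nat_lit 52592) (nat_lit 6) (nat_lit 692) (nat_lit 2) (nat_lit 193) (nat_lit 202) (nat_lit 175))) (PT.nd (nat_lit 78) (PT.lf (nat_lit 51452) (nat_lit 6) (nat_lit 677) (nat_lit 2) (nat_lit 194) (nat_lit 202) (nat_lit 174)) (PT.nd (nat_lit 78) (PT.lf (nat_lit 50236) (nat_lit 6) (nat_lit 661) (nat_lit 2) (nat_lit 195) (nat_lit 202) (nat_lit 173)) (PT.lf (nat_lit 48944) (nat_lit 6) (nat_lit 644) (nat_lit 2) (nat_lit 196) (nat_lit 202) (nat_lit 172)))))) (PT.nd (nat_lit 312) (PT.nd (nat_lit 156) (PT.nd (nat_lit 78) (PT.lf (nat_lit 47576) (nat_lit 6) (nat_lit 626) (nat_lit 2) (nat_lit 197) (nat_lit 202) (nat_lit 171)) (PT.lf (nat_lit 46132) (nat_lit 6) (nat_lit 607) (nat_lit 2) (nat_lit 198) (nat_lit 202) (nat_lit 170))) (PT.nd (nat_lit 78) (PT.lf (nat_lit 44612) (nat_lit 6) (nat_lit 587) (nat_lit 2) (nat_lit 199) (nat_lit 202)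 (nat_lit 169)) (PT.lf (nat_lit 43016) (nat_lit 6) (nat_lit 566) (nat_lit 2) (nat_lit 200) (nat_lit 202) (nat_lit 168)))) (PT.nd (nat_lit 156) (PT.nd (nat_lit 78) (PT.lf (nat_lit 41344) (nat_lit 6) (nat_lit 544) (nat_lit 2) (nat_lit 201) (nat_lit 202) (nat_lit 167)) (PT.lf (nat_lit 39596) (nat_lit 3) (nat_lit 521) (nat_lit 0) (nat_lit 202) (nat_lit 202) (nat_lit 166))) (PT.nd (nat_lit 78) (PT.lf (nat_lit 37696) (nat_lit 6) (nat_lit 496) (nat_lit 0) (nat_lit 203) (nat_lit 202) (nat_lit 165)) (PT.nd (nat_lit 78) (PT.lf (nat_lit 36480) (nat_lit 6) (nat_lit 480) (nat_lit 0) (nat_lit 204) (nat_lit 202) (nat_lit 164)) (PT.lf (nat_lit 35492) (nat_lit 6) (nat_lit 467) (nat_lit 0) (nat_lit 205) (nat_lit 202) (nat_lit 163))))))))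
noncomputable def pc72 : PT := (PT.nd (nat_lit 55146) (PT.nd (nat_lit 624) (PT.nd (nat_lit 312) (PT.nd (nat_lit 156) (PT.nd (nat_lit 78) (PT.lf (nat_lit 34504) (nat_lit 6) (nat_lit 454) (nat_lit 0) (nat_lit 206) (nat_lit 202) (nat_lit 162)) (PT.lf (nat_lit 33592) (nat_lit 6) (nat_lit 442) (nat_lit 0) (nat_lit 207) (nat_lit 202) (nat_lit 161))) (PT.nd (nat_lit 78) (PT.lf (nat_lit 32604) (nat_lit 6) (nat_lit 429) (nat_lit 0) (nat_lit 208) (nat_lit 202) (nat_lit 160)) (PT.lf (nat_lit 31692) (nat_lit 6) (nat_lit 417) (nat_lit 0) (nat_lit 209) (nat_lit 202) (nat_lit 159)))) (PT.nd (nat_lit 156) (PT.nd (nat_lit 78) (PT.lf (nat_lit 30780) (nat_lit 6) (nat_lit 405) (nat_lit 0) (nat_lit 210) (nat_lit 202) (nat_lit 158)) (PT.lf (nat_lit 29944) (nat_lit 6) (nat_lit 394) (nat_lit 0) (nat_lit 211) (nat_lit 202) (nat_lit 157))) (PT.nd (nat_lit 78) (PT.lf (nat_lit 29108) (nat_lit 6) (nat_lit 383) (nat_lit 0) (nat_lit 212) (nat_lit 202) (nat_lit 156))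 (PT.lf (nat_lit 28272) (nat_lit 6) (nat_lit 372) (nat_lit 0) (nat_lit 213) (nat_lit 202) (nat_lit 155))))) (PT.nd (nat_lit 312) (PT.nd (nat_lit 156) (PT.nd (nat_lit 78) (PT.lf (nat_lit 27436) (nat_lit 6) (nat_lit 361) (nat_lit 0) (nat_lit 214) (nat_lit 202) (nat_lit 154)) (PT.lf (nat_lit 26676) (nat_lit 6) (nat_lit 351) (nat_lit 0) (nat_lit 215) (nat_lit 202) (nat_lit 153))) (PT.nd (nat_lit 78) (PT.lf (nat_lit 25916) (nat_lit 6) (nat_lit 341) (nat_lit 0) (nat_lit 216) (nat_lit 202) (nat_lit 152)) (PT.lf (nat_lit 25156) (nat_lit 6) (nat_lit 331) (nat_lit 0) (nat_lit 217) (nat_lit 202) (nat_lit 151)))) (PT.nd (nat_lit 53976) (PT.nd (nat_lit 53898) (PT.lf (nat_lit 24396) (nat_lit 6) (nat_lit 321) (nat_lit 0) (nat_lit 218) (nat_lit 202) (nat_lit 150)) (PT.lf (nat_lit 23104) (nat_lit 6) (nat_lit 304) (nat_lit 5) (nat_lit 148) (nat_lit 203) (nat_lit 219))) (PT.nd (nat_lit 78) (PT.lf (nat_lit 23788) (nat_lit 6) (nat_lit 313) (nat_lit 5) (nat_lit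 149) (nat_lit 203) (nat_lit 218)) (PT.nd (nat_lit 78) (PT.lf (nat_lit 24472) (nat_lit 6) (nat_lit 322) (nat_lit 5) (nat_lit 150) (nat_lit 203) (nat_lit 217)) (PT.lf (nat_lit 25232) (nat_lit 6) (nat_lit 332) (nat_lit 5) (nat_lit 151) (nat_lit 203) (nat_lit 216))))))) (PT.nd (nat_lit 702) (PT.nd (nat_lit 312) (PT.nd (nat_lit 156) (PT.nd (nat_lit 78) (PT.lf (nat_lit 25992) (nat_lit 6) (nat_lit 342) (nat_lit 5) (nat_lit 152) (nat_lit 203) (nat_lit 215)) (PT.lf (nat_lit 26752) (nat_lit 6) (nat_lit 352) (nat_lit 5) (nat_lit 153) (nat_lit 203) (nat_lit 214))) (PT.nd (nat_lit 78) (PT.lf (nat_lit 27512) (nat_lit 6) (nat_lit 362) (nat_lit 5) (nat_lit 154) (nat_lit 203) (nat_lit 213)) (PT.lf (nat_lit 28348) (nat_lit 6) (nat_lit 373) (nat_lit 5) (nat_lit 155) (nat_lit 203) (nat_lit 212)))) (PT.nd (nat_lit 156) (PT.nd (nat_lit 78) (PT.lf (nat_lit 29184) (nat_lit 6) (nat_lit 384) (nat_lit 5) (nat_lit 156) (nat_lit 203) (nat_lit 211)) (PT.lf (nat_lit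 30020) (nat_lit 6) (nat_lit 395) (nat_lit 5) (nat_lit 157) (nat_lit 203) (nat_lit 210))) (PT.nd (nat_lit 78) (PT.lf (nat_lit 30856) (nat_lit 6) (nat_lit 406) (nat_lit 5) (nat_lit 158) (nat_lit 203) (nat_lit 209)) (PT.nd (nat_lit 78) (PT.lf (nat_lit 31768) (nat_lit 6) (nat_lit 418) (nat_lit 5) (nat_lit 159) (nat_lit 203) (nat_lit 208)) (PT.lf (nat_lit 32680) (nat_lit 6) (nat_lit 430) (nat_lit 5) (nat_lit 160) (nat_lit 203) (nat_lit 207)))))) (PT.nd (nat_lit 312) (PT.nd (nat_lit 156) (PT.nd (nat_lit 78) (PT.lf (nat_lit 33668) (nat_lit 6) (nat_lit 443) (nat_lit 5) (nat_lit 161) (nat_lit 203) (nat_lit 206)) (PT.lf (nat_lit 34580) (nat_lit 6) (nat_lit 455) (nat_lit 5) (nat_lit 162) (nat_lit 203) (nat_lit 205))) (PT.nd (nat_lit 78) (PT.lf (nat_lit 35568) (nat_lit 6) (nat_lit 468) (nat_lit 5) (nat_lit 163) (nat_lit 203) (nat_lit 204)) (PT.lf (nat_lit 36556) (nat_lit 3) (nat_lit 481) (nat_lit 4) (nat_lit 164) (nat_lit 203) (nat_lit 203)))) (PT.nd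 (nat_lit 156) (PT.nd (nat_lit 78) (PT.lf (nat_lit 37696) (nat_lit 6) (nat_lit 496) (nat_lit 4) (nat_lit 165) (nat_lit 203) (nat_lit 202)) (PT.lf (nat_lit 39520) (nat_lit 6) (nat_lit 520) (nat_lit 4) (nat_lit 166) (nat_lit 203) (nat_lit 201))) (PT.nd (nat_lit 78) (PT.lf (nat_lit 41268) (nat_lit 6) (nat_lit 543) (nat_lit 4) (nat_lit 167) (nat_lit 203) (nat_lit 200)) (PT.nd (nat_lit 78) (PT.lf (nat_lit 42940) (nat_lit 6) (nat_lit 565) (nat_lit 4) (nat_lit 168) (nat_lit 203) (nat_lit 199)) (PT.lf (nat_lit 44536) (nat_lit 6) (nat_lit 586) (nat_lit 4) (nat_lit 169) (nat_lit 203) (nat_lit 198))))))))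
noncomputable def pc73 : PT := (PT.nd (nat_lit 1404) (PT.nd (nat_lit 702) (PT.nd (nat_lit 312) (PT.nd (nat_lit 156) (PT.nd (nat_lit 78) (PT.lf (nat_lit 46056) (nat_lit 6) (nat_lit 606) (nat_lit 4) (nat_lit 170) (nat_lit 203) (nat_lit 197)) (PT.lf (nat_lit 47500) (nat_lit 6) (nat_lit 625) (nat_lit 4) (nat_lit 171) (nat_lit 203) (nat_lit 196))) (PT.nd (nat_lit 78) (PT.lf (nat_lit 48868) (nat_lit 6) (nat_lit 643) (nat_lit 4) (nat_lit 172) (nat_lit 203) (nat_lit 195)) (PT.lf (nat_lit 50160) (nat_lit 6) (nat_lit 660) (nat_lit 4) (nat_lit 173) (nat_lit 203) (nat_lit 194)))) (PT.nd (nat_lit 156) (PT.nd (nat_lit 78) (PT.lf (nat_lit 51376) (nat_lit 6) (nat_lit 676) (nat_lit 4) (nat_lit 174) (nat_lit 203) (nat_lit 193)) (PT.lf (nat_lit 52516) (nat_lit 6) (nat_lit 691) (nat_lit 4) (nat_lit 175) (nat_lit 203) (nat_lit 192))) (PT.nd (nat_lit 78) (PT.lf (nat_lit 53580) (nat_lit 6) (nat_lit 705) (nat_lit 4) (nat_lit 176) (nat_lit 203) (nat_lit 191))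 (PT.nd (nat_lit 78) (PT.lf (nat_lit 54568) (nat_lit 6) (nat_lit 718) (nat_lit 4) (nat_lit 177) (nat_lit 203) (nat_lit 190)) (PT.lf (nat_lit 54492) (nat_lit 6) (nat_lit 717) (nat_lit 4) (nat_lit 178) (nat_lit 203) (nat_lit 189)))))) (PT.nd (nat_lit 312) (PT.nd (nat_lit 156) (PT.nd (nat_lit 78) (PT.lf (nat_lit 54416) (nat_lit 6) (nat_lit 716) (nat_lit 4) (nat_lit 179) (nat_lit 203) (nat_lit 188)) (PT.lf (nat_lit 54340) (nat_lit 6) (nat_lit 715) (nat_lit 4) (nat_lit 180) (nat_lit 203) (nat_lit 187))) (PT.nd (nat_lit 78) (PT.lf (nat_lit 54264) (nat_lit 6) (nat_lit 714) (nat_lit 4) (nat_lit 181) (nat_lit 203) (nat_lit 186)) (PT.lf (nat_lit 54188) (nat_lit 6) (nat_lit 713) (nat_lit 4) (nat_lit 182) (nat_lit 203) (nat_lit 185)))) (PT.nd (nat_lit 156) (PT.nd (nat_lit 78) (PT.lf (nat_lit 54112) (nat_lit 6) (nat_lit 712) (nat_lit 4) (nat_lit 183) (nat_lit 203) (nat_lit 184)) (PT.lf (nat_lit 54112) (nat_lit 6) (nat_lit 712) (nat_lit 2) (nat_lit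 184) (nat_lit 203) (nat_lit 183))) (PT.nd (nat_lit 78) (PT.lf (nat_lit 54188) (nat_lit 6) (nat_lit 713) (nat_lit 2) (nat_lit 185) (nat_lit 203) (nat_lit 182)) (PT.nd (nat_lit 78) (PT.lf (nat_lit 54264) (nat_lit 6) (nat_lit 714) (nat_lit 2) (nat_lit 186) (nat_lit 203) (nat_lit 181)) (PT.lf (nat_lit 54340) (nat_lit 6) (nat_lit 715) (nat_lit 2) (nat_lit 187) (nat_lit 203) (nat_lit 180))))))) (PT.nd (nat_lit 702) (PT.nd (nat_lit 312) (PT.nd (nat_lit 156) (PT.nd (nat_lit 78) (PT.lf (nat_lit 54416) (nat_lit 6) (nat_lit 716) (nat_lit 2) (nat_lit 188) (nat_lit 203) (nat_lit 179)) (PT.lf (nat_lit 54492) (nat_lit 6) (nat_lit 717) (nat_lit 2) (nat_lit 189) (nat_lit 203) (nat_lit 178))) (PT.nd (nat_lit 78) (PT.lf (nat_lit 54568) (nat_lit 6) (nat_lit 718) (nat_lit 2) (nat_lit 190) (nat_lit 203) (nat_lit 177)) (PT.lf (nat_lit 53580) (nat_lit 6) (nat_lit 705) (nat_lit 2) (nat_lit 191) (nat_lit 203) (nat_lit 176)))) (PT.nd (nat_lit 156) (PT.nd (nat_lit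 78) (PT.lf (nat_lit 52516) (nat_lit 6) (nat_lit 691) (nat_lit 2) (nat_lit 192) (nat_lit 203) (nat_lit 175)) (PT.lf (nat_lit 51376) (nat_lit 6) (nat_lit 676) (nat_lit 2) (nat_lit 193) (nat_lit 203) (nat_lit 174))) (PT.nd (nat_lit 78) (PT.lf (nat_lit 50160) (nat_lit 6) (nat_lit 660) (nat_lit 2) (nat_lit 194) (nat_lit 203) (nat_lit 173)) (PT.nd (nat_lit 78) (PT.lf (nat_lit 48868) (nat_lit 6) (nat_lit 643) (nat_lit 2) (nat_lit 195) (nat_lit 203) (nat_lit 172)) (PT.lf (nat_lit 47500) (nat_lit 6) (nat_lit 625) (nat_lit 2) (nat_lit 196) (nat_lit 203) (nat_lit 171)))))) (PT.nd (nat_lit 312) (PT.nd (nat_lit 156) (PT.nd (nat_lit 78) (PT.lf (nat_lit 46056) (nat_lit 6) (nat_lit 606) (nat_lit 2) (nat_lit 197) (nat_lit 203) (nat_lit 170)) (PT.lf (nat_lit 44536) (nat_lit 6) (nat_lit 586) (nat_lit 2) (nat_lit 198) (nat_lit 203) (nat_lit 169))) (PT.nd (nat_lit 78) (PT.lf (nat_lit 42940) (nat_lit 6) (nat_lit 565) (nat_lit 2) (nat_lit 199) (nat_lit 203)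 (nat_lit 168)) (PT.lf (nat_lit 41268) (nat_lit 6) (nat_lit 543) (nat_lit 2) (nat_lit 200) (nat_lit 203) (nat_lit 167)))) (PT.nd (nat_lit 156) (PT.nd (nat_lit 78) (PT.lf (nat_lit 39520) (nat_lit 6) (nat_lit 520) (nat_lit 2) (nat_lit 201) (nat_lit 203) (nat_lit 166)) (PT.lf (nat_lit 37696) (nat_lit 6) (nat_lit 496) (nat_lit 2) (nat_lit 202) (nat_lit 203) (nat_lit 165))) (PT.nd (nat_lit 78) (PT.lf (nat_lit 36556) (nat_lit 3) (nat_lit 481) (nat_lit 0) (nat_lit 203) (nat_lit 203) (nat_lit 164)) (PT.nd (nat_lit 78) (PT.lf (nat_lit 35568) (nat_lit 6) (nat_lit 468) (nat_lit 0) (nat_lit 204) (nat_lit 203) (nat_lit 163)) (PT.lf (nat_lit 34580) (nat_lit 6) (nat_lit 455) (nat_lit 0) (nat_lit 205) (nat_lit 203) (nat_lit 162))))))))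
noncomputable def pc74 : PT := (PT.nd (nat_lit 55068) (PT.nd (nat_lit 702) (PT.nd (nat_lit 312) (PT.nd (nat_lit 156) (PT.nd (nat_lit 78) (PT.lf (nat_lit 33668) (nat_lit 6) (nat_lit 443) (nat_lit 0) (nat_lit 206) (nat_lit 203) (nat_lit 161)) (PT.lf (nat_lit 32680) (nat_lit 6) (nat_lit 430) (nat_lit 0) (nat_lit 207) (nat_lit 203) (nat_lit 160))) (PT.nd (nat_lit 78) (PT.lf (nat_lit 31768) (nat_lit 6) (nat_lit 418) (nat_lit 0) (nat_lit 208) (nat_lit 203) (nat_lit 159)) (PT.lf (nat_lit 30856) (nat_lit 6) (nat_lit 406) (nat_lit 0) (nat_lit 209) (nat_lit 203) (nat_lit 158)))) (PT.nd (nat_lit 156) (PT.nd (nat_lit 78) (PT.lf (nat_lit 30020) (nat_lit 6) (nat_lit 395) (nat_lit 0) (nat_lit 210) (nat_lit 203) (nat_lit 157)) (PT.lf (nat_lit 29184) (nat_lit 6) (nat_lit 384) (nat_lit 0) (nat_lit 211) (nat_lit 203) (nat_lit 156))) (PT.nd (nat_lit 78) (PT.lf (nat_lit 28348) (nat_lit 6) (nat_lit 373) (nat_lit 0) (nat_lit 212) (nat_lit 203) (nat_lit 155))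 (PT.nd (nat_lit 78) (PT.lf (nat_lit 27512) (nat_lit 6) (nat_lit 362) (nat_lit 0) (nat_lit 213) (nat_lit 203) (nat_lit 154)) (PT.lf (nat_lit 26752) (nat_lit 6) (nat_lit 352) (nat_lit 0) (nat_lit 214) (nat_lit 203) (nat_lit 153)))))) (PT.nd (nat_lit 312) (PT.nd (nat_lit 156) (PT.nd (nat_lit 78) (PT.lf (nat_lit 25992) (nat_lit 6) (nat_lit 342) (nat_lit 0) (nat_lit 215) (nat_lit 203) (nat_lit 152)) (PT.lf (nat_lit 25232) (nat_lit 6) (nat_lit 332) (nat_lit 0) (nat_lit 216) (nat_lit 203) (nat_lit 151))) (PT.nd (nat_lit 78) (PT.lf (nat_lit 24472) (nat_lit 6) (nat_lit 322) (nat_lit 0) (nat_lit 217) (nat_lit 203) (nat_lit 150)) (PT.lf (nat_lit 23788) (nat_lit 6) (nat_lit 313) (nat_lit 0) (nat_lit 218) (nat_lit 203) (nat_lit 149)))) (PT.nd (nat_lit 53820) (PT.nd (nat_lit 53742) (PT.lf (nat_lit 23104) (nat_lit 6) (nat_lit 304) (nat_lit 0) (nat_lit 219) (nat_lit 203) (nat_lit 148)) (PT.lf (nat_lit 22496) (nat_lit 6) (nat_lit 296) (nat_lit 5) (nat_lit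 147) (nat_lit 204) (nat_lit 219))) (PT.nd (nat_lit 78) (PT.lf (nat_lit 23180) (nat_lit 6) (nat_lit 305) (nat_lit 5) (nat_lit 148) (nat_lit 204) (nat_lit 218)) (PT.nd (nat_lit 78) (PT.lf (nat_lit 23864) (nat_lit 6) (nat_lit 314) (nat_lit 5) (nat_lit 149) (nat_lit 204) (nat_lit 217)) (PT.lf (nat_lit 24548) (nat_lit 6) (nat_lit 323) (nat_lit 5) (nat_lit 150) (nat_lit 204) (nat_lit 216))))))) (PT.nd (nat_lit 702) (PT.nd (nat_lit 312) (PT.nd (nat_lit 156) (PT.nd (nat_lit 78) (PT.lf (nat_lit 25308) (nat_lit 6) (nat_lit 333) (nat_lit 5) (nat_lit 151) (nat_lit 204) (nat_lit 215)) (PT.lf (nat_lit 26068) (nat_lit 6) (nat_lit 343) (nat_lit 5) (nat_lit 152) (nat_lit 204) (nat_lit 214))) (PT.nd (nat_lit 78) (PT.lf (nat_lit 26828) (nat_lit 6) (nat_lit 353) (nat_lit 5) (nat_lit 153) (nat_lit 204) (nat_lit 213)) (PT.lf (nat_lit 27588) (nat_lit 6) (nat_lit 363) (nat_lit 5) (nat_lit 154) (nat_lit 204) (nat_lit 212)))) (PT.nd (nat_lit 156) (PT.nd (nat_lit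 78) (PT.lf (nat_lit 28424) (nat_lit 6) (nat_lit 374) (nat_lit 5) (nat_lit 155) (nat_lit 204) (nat_lit 211)) (PT.lf (nat_lit 29260) (nat_lit 6) (nat_lit 385) (nat_lit 5) (nat_lit 156) (nat_lit 204) (nat_lit 210))) (PT.nd (nat_lit 78) (PT.lf (nat_lit 30096) (nat_lit 6) (nat_lit 396) (nat_lit 5) (nat_lit 157) (nat_lit 204) (nat_lit 209)) (PT.nd (nat_lit 78) (PT.lf (nat_lit 30932) (nat_lit 6) (nat_lit 407) (nat_lit 5) (nat_lit 158) (nat_lit 204) (nat_lit 208)) (PT.lf (nat_lit 31844) (nat_lit 6) (nat_lit 419) (nat_lit 5) (nat_lit 159) (nat_lit 204) (nat_lit 207)))))) (PT.nd (nat_lit 312) (PT.nd (nat_lit 156) (PT.nd (nat_lit 78) (PT.lf (nat_lit 32756) (nat_lit 6) (nat_lit 431) (nat_lit 5) (nat_lit 160) (nat_lit 204) (nat_lit 206)) (PT.lf (nat_lit 33744) (nat_lit 6) (nat_lit 444) (nat_lit 5) (nat_lit 161) (nat_lit 204) (nat_lit 205))) (PT.nd (nat_lit 78) (PT.lf (nat_lit 34656) (nat_lit 3) (nat_lit 456) (nat_lit 4) (nat_lit 162) (nat_lit 204)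 (nat_lit 204)) (PT.lf (nat_lit 35568) (nat_lit 6) (nat_lit 468) (nat_lit 4) (nat_lit 163) (nat_lit 204) (nat_lit 203)))) (PT.nd (nat_lit 156) (PT.nd (nat_lit 78) (PT.lf (nat_lit 36480) (nat_lit 6) (nat_lit 480) (nat_lit 4) (nat_lit 164) (nat_lit 204) (nat_lit 202)) (PT.lf (nat_lit 37620) (nat_lit 6) (nat_lit 495) (nat_lit 4) (nat_lit 165) (nat_lit 204) (nat_lit 201))) (PT.nd (nat_lit 78) (PT.lf (nat_lit 39444) (nat_lit 6) (nat_lit 519) (nat_lit 4) (nat_lit 166) (nat_lit 204) (nat_lit 200)) (PT.nd (nat_lit 78) (PT.lf (nat_lit 41192) (nat_lit 6) (nat_lit 542) (nat_lit 4) (nat_lit 167) (nat_lit 204) (nat_lit 199)) (PT.lf (nat_lit 42864) (nat_lit 6) (nat_lit 564) (nat_lit 4) (nat_lit 168) (nat_lit 204) (nat_lit 198))))))))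
noncomputable def pc75 : PT := (PT.nd (nat_lit 1404) (PT.nd (nat_lit 702) (PT.nd (nat_lit 312) (PT.nd (nat_lit 156) (PT.nd (nat_lit 78) (PT.lf (nat_lit 44460) (nat_lit 6) (nat_lit 585) (nat_lit 4) (nat_lit 169) (nat_lit 204) (nat_lit 197)) (PT.lf (nat_lit 45980) (nat_lit 6) (nat_lit 605) (nat_lit 4) (nat_lit 170) (nat_lit 204) (nat_lit 196))) (PT.nd (nat_lit 78) (PT.lf (nat_lit 47424) (nat_lit 6) (nat_lit 624) (nat_lit 4) (nat_lit 171) (nat_lit 204) (nat_lit 195)) (PT.lf (nat_lit 48792) (nat_lit 6) (nat_lit 642) (nat_lit 4) (nat_lit 172) (nat_lit 204) (nat_lit 194)))) (PT.nd (nat_lit 156) (PT.nd (nat_lit 78) (PT.lf (nat_lit 50084) (nat_lit 6) (nat_lit 659) (nat_lit 4) (nat_lit 173) (nat_lit 204) (nat_lit 193)) (PT.lf (nat_lit 51300) (nat_lit 6) (nat_lit 675) (nat_lit 4) (nat_lit 174) (nat_lit 204) (nat_lit 192))) (PT.nd (nat_lit 78) (PT.lf (nat_lit 52440) (nat_lit 6) (nat_lit 690) (nat_lit 4) (nat_lit 175) (nat_lit 204) (nat_lit 191))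 (PT.nd (nat_lit 78) (PT.lf (nat_lit 53504) (nat_lit 6) (nat_lit 704) (nat_lit 4) (nat_lit 176) (nat_lit 204) (nat_lit 190)) (PT.lf (nat_lit 53428) (nat_lit 6) (nat_lit 703) (nat_lit 4) (nat_lit 177) (nat_lit 204) (nat_lit 189)))))) (PT.nd (nat_lit 312) (PT.nd (nat_lit 156) (PT.nd (nat_lit 78) (PT.lf (nat_lit 53352) (nat_lit 6) (nat_lit 702) (nat_lit 4) (nat_lit 178) (nat_lit 204) (nat_lit 188)) (PT.lf (nat_lit 53276) (nat_lit 6) (nat_lit 701) (nat_lit 4) (nat_lit 179) (nat_lit 204) (nat_lit 187))) (PT.nd (nat_lit 78) (PT.lf (nat_lit 53200) (nat_lit 6) (nat_lit 700) (nat_lit 4) (nat_lit 180) (nat_lit 204) (nat_lit 186)) (PT.lf (nat_lit 53124) (nat_lit 6) (nat_lit 699) (nat_lit 4) (nat_lit 181) (nat_lit 204) (nat_lit 185)))) (PT.nd (nat_lit 156) (PT.nd (nat_lit 78) (PT.lf (nat_lit 53048) (nat_lit 6) (nat_lit 698) (nat_lit 4) (nat_lit 182) (nat_lit 204) (nat_lit 184)) (PT.lf (nat_lit 52972) (nat_lit 3) (nat_lit 697) (nat_lit 2) (nat_lit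 183) (nat_lit 204) (nat_lit 183))) (PT.nd (nat_lit 78) (PT.lf (nat_lit 53048) (nat_lit 6) (nat_lit 698) (nat_lit 2) (nat_lit 184) (nat_lit 204) (nat_lit 182)) (PT.nd (nat_lit 78) (PT.lf (nat_lit 53124) (nat_lit 6) (nat_lit 699) (nat_lit 2) (nat_lit 185) (nat_lit 204) (nat_lit 181)) (PT.lf (nat_lit 53200) (nat_lit 6) (nat_lit 700) (nat_lit 2) (nat_lit 186) (nat_lit 204) (nat_lit 180))))))) (PT.nd (nat_lit 702) (PT.nd (nat_lit 312) (PT.nd (nat_lit 156) (PT.nd (nat_lit 78) (PT.lf (nat_lit 53276) (nat_lit 6) (nat_lit 701) (nat_lit 2) (nat_lit 187) (nat_lit 204) (nat_lit 179)) (PT.lf (nat_lit 53352) (nat_lit 6) (nat_lit 702) (nat_lit 2) (nat_lit 188) (nat_lit 204) (nat_lit 178))) (PT.nd (nat_lit 78) (PT.lf (nat_lit 53428) (nat_lit 6) (nat_lit 703) (nat_lit 2) (nat_lit 189) (nat_lit 204) (nat_lit 177)) (PT.lf (nat_lit 53504) (nat_lit 6) (nat_lit 704) (nat_lit 2) (nat_lit 190) (nat_lit 204) (nat_lit 176)))) (PT.nd (nat_lit 156) (PT.nd (nat_lit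 78) (PT.lf (nat_lit 52440) (nat_lit 6) (nat_lit 690) (nat_lit 2) (nat_lit 191) (nat_lit 204) (nat_lit 175)) (PT.lf (nat_lit 51300) (nat_lit 6) (nat_lit 675) (nat_lit 2) (nat_lit 192) (nat_lit 204) (nat_lit 174))) (PT.nd (nat_lit 78) (PT.lf (nat_lit 50084) (nat_lit 6) (nat_lit 659) (nat_lit 2) (nat_lit 193) (nat_lit 204) (nat_lit 173)) (PT.nd (nat_lit 78) (PT.lf (nat_lit 48792) (nat_lit 6) (nat_lit 642) (nat_lit 2) (nat_lit 194) (nat_lit 204) (nat_lit 172)) (PT.lf (nat_lit 47424) (nat_lit 6) (nat_lit 624) (nat_lit 2) (nat_lit 195) (nat_lit 204) (nat_lit 171)))))) (PT.nd (nat_lit 312) (PT.nd (nat_lit 156) (PT.nd (nat_lit 78) (PT.lf (nat_lit 45980) (nat_lit 6) (nat_lit 605) (nat_lit 2) (nat_lit 196) (nat_lit 204) (nat_lit 170)) (PT.lf (nat_lit 44460) (nat_lit 6) (nat_lit 585) (nat_lit 2) (nat_lit 197) (nat_lit 204) (nat_lit 169))) (PT.nd (nat_lit 78) (PT.lf (nat_lit 42864) (nat_lit 6) (nat_lit 564) (nat_lit 2) (nat_lit 198) (nat_lit 204)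 (nat_lit 168)) (PT.lf (nat_lit 41192) (nat_lit 6) (nat_lit 542) (nat_lit 2) (nat_lit 199) (nat_lit 204) (nat_lit 167)))) (PT.nd (nat_lit 156) (PT.nd (nat_lit 78) (PT.lf (nat_lit 39444) (nat_lit 6) (nat_lit 519) (nat_lit 2) (nat_lit 200) (nat_lit 204) (nat_lit 166)) (PT.lf (nat_lit 37620) (nat_lit 6) (nat_lit 495) (nat_lit 2) (nat_lit 201) (nat_lit 204) (nat_lit 165))) (PT.nd (nat_lit 78) (PT.lf (nat_lit 36480) (nat_lit 6) (nat_lit 480) (nat_lit 2) (nat_lit 202) (nat_lit 204) (nat_lit 164)) (PT.nd (nat_lit 78) (PT.lf (nat_lit 35568) (nat_lit 6) (nat_lit 468) (nat_lit 2) (nat_lit 203) (nat_lit 204) (nat_lit 163)) (PT.lf (nat_lit 34656) (nat_lit 3) (nat_lit 456) (nat_lit 0) (nat_lit 204) (nat_lit 204) (nat_lit 162))))))))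
noncomputable def pc76 : PT := (PT.nd (nat_lit 54834) (PT.nd (nat_lit 624) (PT.nd (nat_lit 312) (PT.nd (nat_lit 156) (PT.nd (nat_lit 78) (PT.lf (nat_lit 33744) (nat_lit 6) (nat_lit 444) (nat_lit 0) (nat_lit 205) (nat_lit 204) (nat_lit 161)) (PT.lf (nat_lit 32756) (nat_lit 6) (nat_lit 431) (nat_lit 0) (nat_lit 206) (nat_lit 204) (nat_lit 160))) (PT.nd (nat_lit 78) (PT.lf (nat_lit 31844) (nat_lit 6) (nat_lit 419) (nat_lit 0) (nat_lit 207) (nat_lit 204) (nat_lit 159)) (PT.lf (nat_lit 30932) (nat_lit 6) (nat_lit 407) (nat_lit 0) (nat_lit 208) (nat_lit 204) (nat_lit 158)))) (PT.nd (nat_lit 156) (PT.nd (nat_lit 78) (PT.lf (nat_lit 30096) (nat_lit 6) (nat_lit 396) (nat_lit 0) (nat_lit 209) (nat_lit 204) (nat_lit 157)) (PT.lf (nat_lit 29260) (nat_lit 6) (nat_lit 385) (nat_lit 0) (nat_lit 210) (nat_lit 204) (nat_lit 156))) (PT.nd (nat_lit 78) (PT.lf (nat_lit 28424) (nat_lit 6) (nat_lit 374) (nat_lit 0) (nat_lit 211) (nat_lit 204) (nat_lit 155))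 (PT.lf (nat_lit 27588) (nat_lit 6) (nat_lit 363) (nat_lit 0) (nat_lit 212) (nat_lit 204) (nat_lit 154))))) (PT.nd (nat_lit 312) (PT.nd (nat_lit 156) (PT.nd (nat_lit 78) (PT.lf (nat_lit 26828) (nat_lit 6) (nat_lit 353) (nat_lit 0) (nat_lit 213) (nat_lit 204) (nat_lit 153)) (PT.lf (nat_lit 26068) (nat_lit 6) (nat_lit 343) (nat_lit 0) (nat_lit 214) (nat_lit 204) (nat_lit 152))) (PT.nd (nat_lit 78) (PT.lf (nat_lit 25308) (nat_lit 6) (nat_lit 333) (nat_lit 0) (nat_lit 215) (nat_lit 204) (nat_lit 151)) (PT.lf (nat_lit 24548) (nat_lit 6) (nat_lit 323) (nat_lit 0) (nat_lit 216) (nat_lit 204) (nat_lit 150)))) (PT.nd (nat_lit 156) (PT.nd (nat_lit 78) (PT.lf (nat_lit 23864) (nat_lit 6) (nat_lit 314) (nat_lit 0) (nat_lit 217) (nat_lit 204) (nat_lit 149)) (PT.lf (nat_lit 23180) (nat_lit 6) (nat_lit 305) (nat_lit 0) (nat_lit 218) (nat_lit 204) (nat_lit 148))) (PT.nd (nat_lit 53586) (PT.lf (nat_lit 22496) (nat_lit 6) (nat_lit 296) (nat_lit 0) (nat_lit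 219) (nat_lit 204) (nat_lit 147)) (PT.nd (nat_lit 78) (PT.lf (nat_lit 21280) (nat_lit 6) (nat_lit 280) (nat_lit 5) (nat_lit 145) (nat_lit 205) (nat_lit 220)) (PT.lf (nat_lit 21888) (nat_lit 6) (nat_lit 288) (nat_lit 5) (nat_lit 146) (nat_lit 205) (nat_lit 219))))))) (PT.nd (nat_lit 702) (PT.nd (nat_lit 312) (PT.nd (nat_lit 156) (PT.nd (nat_lit 78) (PT.lf (nat_lit 22572) (nat_lit 6) (nat_lit 297) (nat_lit 5) (nat_lit 147) (nat_lit 205) (nat_lit 218)) (PT.lf (nat_lit 23256) (nat_lit 6) (nat_lit 306) (nat_lit 5) (nat_lit 148) (nat_lit 205) (nat_lit 217))) (PT.nd (nat_lit 78) (PT.lf (nat_lit 23940) (nat_lit 6) (nat_lit 315) (nat_lit 5) (nat_lit 149) (nat_lit 205) (nat_lit 216)) (PT.lf (nat_lit 24624) (nat_lit 6) (nat_lit 324) (nat_lit 5) (nat_lit 150) (nat_lit 205) (nat_lit 215)))) (PT.nd (nat_lit 156) (PT.nd (nat_lit 78) (PT.lf (nat_lit 25384) (nat_lit 6) (nat_lit 334) (nat_lit 5) (nat_lit 151) (nat_lit 205) (nat_lit 214)) (PT.lf (nat_lit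 26144) (nat_lit 6) (nat_lit 344) (nat_lit 5) (nat_lit 152) (nat_lit 205) (nat_lit 213))) (PT.nd (nat_lit 78) (PT.lf (nat_lit 26904) (nat_lit 6) (nat_lit 354) (nat_lit 5) (nat_lit 153) (nat_lit 205) (nat_lit 212)) (PT.nd (nat_lit 78) (PT.lf (nat_lit 27664) (nat_lit 6) (nat_lit 364) (nat_lit 5) (nat_lit 154) (nat_lit 205) (nat_lit 211)) (PT.lf (nat_lit 28500) (nat_lit 6) (nat_lit 375) (nat_lit 5) (nat_lit 155) (nat_lit 205) (nat_lit 210)))))) (PT.nd (nat_lit 312) (PT.nd (nat_lit 156) (PT.nd (nat_lit 78) (PT.lf (nat_lit 29336) (nat_lit 6) (nat_lit 386) (nat_lit 5) (nat_lit 156) (nat_lit 205) (nat_lit 209)) (PT.lf (nat_lit 30172) (nat_lit 6) (nat_lit 397) (nat_lit 5) (nat_lit 157) (nat_lit 205) (nat_lit 208))) (PT.nd (nat_lit 78) (PT.lf (nat_lit 31008) (nat_lit 6) (nat_lit 408) (nat_lit 5) (nat_lit 158) (nat_lit 205) (nat_lit 207)) (PT.lf (nat_lit 31920) (nat_lit 6) (nat_lit 420) (nat_lit 5) (nat_lit 159) (nat_lit 205) (nat_lit 206)))) (PT.nd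 (nat_lit 156) (PT.nd (nat_lit 78) (PT.lf (nat_lit 32832) (nat_lit 3) (nat_lit 432) (nat_lit 4) (nat_lit 160) (nat_lit 205) (nat_lit 205)) (PT.lf (nat_lit 33744) (nat_lit 6) (nat_lit 444) (nat_lit 4) (nat_lit 161) (nat_lit 205) (nat_lit 204))) (PT.nd (nat_lit 78) (PT.lf (nat_lit 34580) (nat_lit 6) (nat_lit 455) (nat_lit 4) (nat_lit 162) (nat_lit 205) (nat_lit 203)) (PT.nd (nat_lit 78) (PT.lf (nat_lit 35492) (nat_lit 6) (nat_lit 467) (nat_lit 4) (nat_lit 163) (nat_lit 205) (nat_lit 202)) (PT.lf (nat_lit 36404) (nat_lit 6) (nat_lit 479) (nat_lit 4) (nat_lit 164) (nat_lit 205) (nat_lit 201))))))))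
noncomputable def pc77 : PT := (PT.nd (nat_lit 1404) (PT.nd (nat_lit 702) (PT.nd (nat_lit 312) (PT.nd (nat_lit 156) (PT.nd (nat_lit 78) (PT.lf (nat_lit 37544) (nat_lit 6) (nat_lit 494) (nat_lit 4) (nat_lit 165) (nat_lit 205) (nat_lit 200)) (PT.lf (nat_lit 39368) (nat_lit 6) (nat_lit 518) (nat_lit 4) (nat_lit 166) (nat_lit 205) (nat_lit 199))) (PT.nd (nat_lit 78) (PT.lf (nat_lit 41116) (nat_lit 6) (nat_lit 541) (nat_lit 4) (nat_lit 167) (nat_lit 205) (nat_lit 198)) (PT.lf (nat_lit 42788) (nat_lit 6) (nat_lit 563) (nat_lit 4) (nat_lit 168) (nat_lit 205) (nat_lit 197)))) (PT.nd (nat_lit 156) (PT.nd (nat_lit 78) (PT.lf (nat_lit 44384) (nat_lit 6) (nat_lit 584) (nat_lit 4) (nat_lit 169) (nat_lit 205) (nat_lit 196)) (PT.lf (nat_lit 45904) (nat_lit 6) (nat_lit 604) (nat_lit 4) (nat_lit 170) (nat_lit 205) (nat_lit 195))) (PT.nd (nat_lit 78) (PT.lf (nat_lit 47348) (nat_lit 6) (nat_lit 623) (nat_lit 4) (nat_lit 171) (nat_lit 205) (nat_lit 194))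 (PT.nd (nat_lit 78) (PT.lf (nat_lit 48716) (nat_lit 6) (nat_lit 641) (nat_lit 4) (nat_lit 172) (nat_lit 205) (nat_lit 193)) (PT.lf (nat_lit 50008) (nat_lit 6) (nat_lit 658) (nat_lit 4) (nat_lit 173) (nat_lit 205) (nat_lit 192)))))) (PT.nd (nat_lit 312) (PT.nd (nat_lit 156) (PT.nd (nat_lit 78) (PT.lf (nat_lit 51224) (nat_lit 6) (nat_lit 674) (nat_lit 4) (nat_lit 174) (nat_lit 205) (nat_lit 191)) (PT.lf (nat_lit 52364) (nat_lit 6) (nat_lit 689) (nat_lit 4) (nat_lit 175) (nat_lit 205) (nat_lit 190))) (PT.nd (nat_lit 78) (PT.lf (nat_lit 52288) (nat_lit 6) (nat_lit 688) (nat_lit 4) (nat_lit 176) (nat_lit 205) (nat_lit 189)) (PT.lf (nat_lit 52212) (nat_lit 6) (nat_lit 687) (nat_lit 4) (nat_lit 177) (nat_lit 205) (nat_lit 188)))) (PT.nd (nat_lit 156) (PT.nd (nat_lit 78) (PT.lf (nat_lit 52136) (nat_lit 6) (nat_lit 686) (nat_lit 4) (nat_lit 178) (nat_lit 205) (nat_lit 187)) (PT.lf (nat_lit 52060) (nat_lit 6) (nat_lit 685) (nat_lit 4) (nat_lit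 179) (nat_lit 205) (nat_lit 186))) (PT.nd (nat_lit 78) (PT.lf (nat_lit 51984) (nat_lit 6) (nat_lit 684) (nat_lit 4) (nat_lit 180) (nat_lit 205) (nat_lit 185)) (PT.nd (nat_lit 78) (PT.lf (nat_lit 51908) (nat_lit 6) (nat_lit 683) (nat_lit 4) (nat_lit 181) (nat_lit 205) (nat_lit 184)) (PT.lf (nat_lit 51832) (nat_lit 6) (nat_lit 682) (nat_lit 4) (nat_lit 182) (nat_lit 205) (nat_lit 183))))))) (PT.nd (nat_lit 702) (PT.nd (nat_lit 312) (PT.nd (nat_lit 156) (PT.nd (nat_lit 78) (PT.lf (nat_lit 51832) (nat_lit 6) (nat_lit 682) (nat_lit 2) (nat_lit 183) (nat_lit 205) (nat_lit 182)) (PT.lf (nat_lit 51908) (nat_lit 6) (nat_lit 683) (nat_lit 2) (nat_lit 184) (nat_lit 205) (nat_lit 181))) (PT.nd (nat_lit 78) (PT.lf (nat_lit 51984) (nat_lit 6) (nat_lit 684) (nat_lit 2) (nat_lit 185) (nat_lit 205) (nat_lit 180)) (PT.lf (nat_lit 52060) (nat_lit 6) (nat_lit 685) (nat_lit 2) (nat_lit 186) (nat_lit 205) (nat_lit 179)))) (PT.nd (nat_lit 156) (PT.nd (nat_lit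 78) (PT.lf (nat_lit 52136) (nat_lit 6) (nat_lit 686) (nat_lit 2) (nat_lit 187) (nat_lit 205) (nat_lit 178)) (PT.lf (nat_lit 52212) (nat_lit 6) (nat_lit 687) (nat_lit 2) (nat_lit 188) (nat_lit 205) (nat_lit 177))) (PT.nd (nat_lit 78) (PT.lf (nat_lit 52288) (nat_lit 6) (nat_lit 688) (nat_lit 2) (nat_lit 189) (nat_lit 205) (nat_lit 176)) (PT.nd (nat_lit 78) (PT.lf (nat_lit 52364) (nat_lit 6) (nat_lit 689) (nat_lit 2) (nat_lit 190) (nat_lit 205) (nat_lit 175)) (PT.lf (nat_lit 51224) (nat_lit 6) (nat_lit 674) (nat_lit 2) (nat_lit 191) (nat_lit 205) (nat_lit 174)))))) (PT.nd (nat_lit 312) (PT.nd (nat_lit 156) (PT.nd (nat_lit 78) (PT.lf (nat_lit 50008) (nat_lit 6) (nat_lit 658) (nat_lit 2) (nat_lit 192) (nat_lit 205) (nat_lit 173)) (PT.lf (nat_lit 48716) (nat_lit 6) (nat_lit 641) (nat_lit 2) (nat_lit 193) (nat_lit 205) (nat_lit 172))) (PT.nd (nat_lit 78) (PT.lf (nat_lit 47348) (nat_lit 6) (nat_lit 623) (nat_lit 2) (nat_lit 194) (nat_lit 205)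 (nat_lit 171)) (PT.lf (nat_lit 45904) (nat_lit 6) (nat_lit 604) (nat_lit 2) (nat_lit 195) (nat_lit 205) (nat_lit 170)))) (PT.nd (nat_lit 156) (PT.nd (nat_lit 78) (PT.lf (nat_lit 44384) (nat_lit 6) (nat_lit 584) (nat_lit 2) (nat_lit 196) (nat_lit 205) (nat_lit 169)) (PT.lf (nat_lit 42788) (nat_lit 6) (nat_lit 563) (nat_lit 2) (nat_lit 197) (nat_lit 205) (nat_lit 168))) (PT.nd (nat_lit 78) (PT.lf (nat_lit 41116) (nat_lit 6) (nat_lit 541) (nat_lit 2) (nat_lit 198) (nat_lit 205) (nat_lit 167)) (PT.nd (nat_lit 78) (PT.lf (nat_lit 39368) (nat_lit 6) (nat_lit 518) (nat_lit 2) (nat_lit 199) (nat_lit 205) (nat_lit 166)) (PT.lf (nat_lit 37544) (nat_lit 6) (nat_lit 494) (nat_lit 2) (nat_lit 200) (nat_lit 205) (nat_lit 165))))))))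
noncomputable def pc78 : PT := (PT.nd (nat_lit 1404) (PT.nd (nat_lit 702) (PT.nd (nat_lit 312) (PT.nd (nat_lit 156) (PT.nd (nat_lit 78) (PT.lf (nat_lit 36404) (nat_lit 6) (nat_lit 479) (nat_lit 2) (nat_lit 201) (nat_lit 205) (nat_lit 164)) (PT.lf (nat_lit 35492) (nat_lit 6) (nat_lit 467) (nat_lit 2) (nat_lit 202) (nat_lit 205) (nat_lit 163))) (PT.nd (nat_lit 78) (PT.lf (nat_lit 34580) (nat_lit 6) (nat_lit 455) (nat_lit 2) (nat_lit 203) (nat_lit 205) (nat_lit 162)) (PT.lf (nat_lit 33744) (nat_lit 6) (nat_lit 444) (nat_lit 2) (nat_lit 204) (nat_lit 205) (nat_lit 161)))) (PT.nd (nat_lit 156) (PT.nd (nat_lit 78) (PT.lf (nat_lit 32832) (nat_lit 3) (nat_lit 432) (nat_lit 0) (nat_lit 205) (nat_lit 205) (nat_lit 160)) (PT.lf (nat_lit 31920) (nat_lit 6) (nat_lit 420) (nat_lit 0) (nat_lit 206) (nat_lit 205) (nat_lit 159))) (PT.nd (nat_lit 78) (PT.lf (nat_lit 31008) (nat_lit 6) (nat_lit 408) (nat_lit 0) (nat_lit 207) (nat_lit 205) (nat_lit 158))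 (PT.nd (nat_lit 78) (PT.lf (nat_lit 30172) (nat_lit 6) (nat_lit 397) (nat_lit 0) (nat_lit 208) (nat_lit 205) (nat_lit 157)) (PT.lf (nat_lit 29336) (nat_lit 6) (nat_lit 386) (nat_lit 0) (nat_lit 209) (nat_lit 205) (nat_lit 156)))))) (PT.nd (nat_lit 312) (PT.nd (nat_lit 156) (PT.nd (nat_lit 78) (PT.lf (nat_lit 28500) (nat_lit 6) (nat_lit 375) (nat_lit 0) (nat_lit 210) (nat_lit 205) (nat_lit 155)) (PT.lf (nat_lit 27664) (nat_lit 6) (nat_lit 364) (nat_lit 0) (nat_lit 211) (nat_lit 205) (nat_lit 154))) (PT.nd (nat_lit 78) (PT.lf (nat_lit 26904) (nat_lit 6) (nat_lit 354) (nat_lit 0) (nat_lit 212) (nat_lit 205) (nat_lit 153)) (PT.lf (nat_lit 26144) (nat_lit 6) (nat_lit 344) (nat_lit 0) (nat_lit 213) (nat_lit 205) (nat_lit 152)))) (PT.nd (nat_lit 156) (PT.nd (nat_lit 78) (PT.lf (nat_lit 25384) (nat_lit 6) (nat_lit 334) (nat_lit 0) (nat_lit 214) (nat_lit 205) (nat_lit 151)) (PT.lf (nat_lit 24624) (nat_lit 6) (nat_lit 324) (nat_lit 0) (nat_lit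 215) (nat_lit 205) (nat_lit 150))) (PT.nd (nat_lit 78) (PT.lf (nat_lit 23940) (nat_lit 6) (nat_lit 315) (nat_lit 0) (nat_lit 216) (nat_lit 205) (nat_lit 149)) (PT.nd (nat_lit 78) (PT.lf (nat_lit 23256) (nat_lit 6) (nat_lit 306) (nat_lit 0) (nat_lit 217) (nat_lit 205) (nat_lit 148)) (PT.lf (nat_lit 22572) (nat_lit 6) (nat_lit 297) (nat_lit 0) (nat_lit 218) (nat_lit 205) (nat_lit 147))))))) (PT.nd (nat_lit 54054) (PT.nd (nat_lit 53664) (PT.nd (nat_lit 53508) (PT.nd (nat_lit 78) (PT.lf (nat_lit 21888) (nat_lit 6) (nat_lit 288) (nat_lit 0) (nat_lit 219) (nat_lit 205) (nat_lit 146)) (PT.lf (nat_lit 21280) (nat_lit 6) (nat_lit 280) (nat_lit 0) (nat_lit 220) (nat_lit 205) (nat_lit 145))) (PT.nd (nat_lit 78) (PT.lf (nat_lit 20672) (nat_lit 6) (nat_lit 272) (nat_lit 5) (nat_lit 144) (nat_lit 206) (nat_lit 220)) (PT.lf (nat_lit 21356) (nat_lit 6) (nat_lit 281) (nat_lit 5) (nat_lit 145) (nat_lit 206) (nat_lit 219)))) (PT.nd (nat_lit 156) (PT.nd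 (nat_lit 78) (PT.lf (nat_lit 21964) (nat_lit 6) (nat_lit 289) (nat_lit 5) (nat_lit 146) (nat_lit 206) (nat_lit 218)) (PT.lf (nat_lit 22648) (nat_lit 6) (nat_lit 298) (nat_lit 5) (nat_lit 147) (nat_lit 206) (nat_lit 217))) (PT.nd (nat_lit 78) (PT.lf (nat_lit 23332) (nat_lit 6) (nat_lit 307) (nat_lit 5) (nat_lit 148) (nat_lit 206) (nat_lit 216)) (PT.nd (nat_lit 78) (PT.lf (nat_lit 24016) (nat_lit 6) (nat_lit 316) (nat_lit 5) (nat_lit 149) (nat_lit 206) (nat_lit 215)) (PT.lf (nat_lit 24700) (nat_lit 6) (nat_lit 325) (nat_lit 5) (nat_lit 150) (nat_lit 206) (nat_lit 214)))))) (PT.nd (nat_lit 312) (PT.nd (nat_lit 156) (PT.nd (nat_lit 78) (PT.lf (nat_lit 25460) (nat_lit 6) (nat_lit 335) (nat_lit 5) (nat_lit 151) (nat_lit 206) (nat_lit 213)) (PT.lf (nat_lit 26220) (nat_lit 6) (nat_lit 345) (nat_lit 5) (nat_lit 152) (nat_lit 206) (nat_lit 212))) (PT.nd (nat_lit 78) (PT.lf (nat_lit 26980) (nat_lit 6) (nat_lit 355) (nat_lit 5) (nat_lit 153) (nat_lit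 206) (nat_lit 211)) (PT.lf (nat_lit 27740) (nat_lit 6) (nat_lit 365) (nat_lit 5) (nat_lit 154) (nat_lit 206) (nat_lit 210)))) (PT.nd (nat_lit 156) (PT.nd (nat_lit 78) (PT.lf (nat_lit 28576) (nat_lit 6) (nat_lit 376) (nat_lit 5) (nat_lit 155) (nat_lit 206) (nat_lit 209)) (PT.lf (nat_lit 29412) (nat_lit 6) (nat_lit 387) (nat_lit 5) (nat_lit 156) (nat_lit 206) (nat_lit 208))) (PT.nd (nat_lit 78) (PT.lf (nat_lit 30248) (nat_lit 6) (nat_lit 398) (nat_lit 5) (nat_lit 157) (nat_lit 206) (nat_lit 207)) (PT.nd (nat_lit 78) (PT.lf (nat_lit 31084) (nat_lit 3) (nat_lit 409) (nat_lit 4) (nat_lit 158) (nat_lit 206) (nat_lit 206)) (PT.lf (nat_lit 31920) (nat_lit 6) (nat_lit 420) (nat_lit 4) (nat_lit 159) (nat_lit 206) (nat_lit 205))))))))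
noncomputable def pc79 : PT := (PT.nd (nat_lit 1404) (PT.nd (nat_lit 702) (PT.nd (nat_lit 312) (PT.nd (nat_lit 156) (PT.nd (nat_lit 78) (PT.lf (nat_lit 32756) (nat_lit 6) (nat_lit 431) (nat_lit 4) (nat_lit 160) (nat_lit 206) (nat_lit 204)) (PT.lf (nat_lit 33668) (nat_lit 6) (nat_lit 443) (nat_lit 4) (nat_lit 161) (nat_lit 206) (nat_lit 203))) (PT.nd (nat_lit 78) (PT.lf (nat_lit 34504) (nat_lit 6) (nat_lit 454) (nat_lit 4) (nat_lit 162) (nat_lit 206) (nat_lit 202)) (PT.lf (nat_lit 35416) (nat_lit 6) (nat_lit 466) (nat_lit 4) (nat_lit 163) (nat_lit 206) (nat_lit 201)))) (PT.nd (nat_lit 156) (PT.nd (nat_lit 78) (PT.lf (nat_lit 36328) (nat_lit 6) (nat_lit 478) (nat_lit 4) (nat_lit 164) (nat_lit 206) (nat_lit 200)) (PT.lf (nat_lit 37468) (nat_lit 6) (nat_lit 493) (nat_lit 4) (nat_lit 165) (nat_lit 206) (nat_lit 199))) (PT.nd (nat_lit 78) (PT.lf (nat_lit 39292) (nat_lit 6) (nat_lit 517) (nat_lit 4) (nat_lit 166) (nat_lit 206) (nat_lit 198))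 (PT.nd (nat_lit 78) (PT.lf (nat_lit 41040) (nat_lit 6) (nat_lit 540) (nat_lit 4) (nat_lit 167) (nat_lit 206) (nat_lit 197)) (PT.lf (nat_lit 42712) (nat_lit 6) (nat_lit 562) (nat_lit 4) (nat_lit 168) (nat_lit 206) (nat_lit 196)))))) (PT.nd (nat_lit 312) (PT.nd (nat_lit 156) (PT.nd (nat_lit 78) (PT.lf (nat_lit 44308) (nat_lit 6) (nat_lit 583) (nat_lit 4) (nat_lit 169) (nat_lit 206) (nat_lit 195)) (PT.lf (nat_lit 45828) (nat_lit 6) (nat_lit 603) (nat_lit 4) (nat_lit 170) (nat_lit 206) (nat_lit 194))) (PT.nd (nat_lit 78) (PT.lf (nat_lit 47272) (nat_lit 6) (nat_lit 622) (nat_lit 4) (nat_lit 171) (nat_lit 206) (nat_lit 193)) (PT.lf (nat_lit 48640) (nat_lit 6) (nat_lit 640) (nat_lit 4) (nat_lit 172) (nat_lit 206) (nat_lit 192)))) (PT.nd (nat_lit 156) (PT.nd (nat_lit 78) (PT.lf (nat_lit 49932) (nat_lit 6) (nat_lit 657) (nat_lit 4) (nat_lit 173) (nat_lit 206) (nat_lit 191)) (PT.lf (nat_lit 51148) (nat_lit 6) (nat_lit 673) (nat_lit 4) (nat_lit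 174) (nat_lit 206) (nat_lit 190))) (PT.nd (nat_lit 78) (PT.lf (nat_lit 51072) (nat_lit 6) (nat_lit 672) (nat_lit 4) (nat_lit 175) (nat_lit 206) (nat_lit 189)) (PT.nd (nat_lit 78) (PT.lf (nat_lit 50996) (nat_lit 6) (nat_lit 671) (nat_lit 4) (nat_lit 176) (nat_lit 206) (nat_lit 188)) (PT.lf (nat_lit 50920) (nat_lit 6) (nat_lit 670) (nat_lit 4) (nat_lit 177) (nat_lit 206) (nat_lit 187))))))) (PT.nd (nat_lit 702) (PT.nd (nat_lit 312) (PT.nd (nat_lit 156) (PT.nd (nat_lit 78) (PT.lf (nat_lit 50844) (nat_lit 6) (nat_lit 669) (nat_lit 4) (nat_lit 178) (nat_lit 206) (nat_lit 186)) (PT.lf (nat_lit 50768) (nat_lit 6) (nat_lit 668) (nat_lit 4) (nat_lit 179) (nat_lit 206) (nat_lit 185))) (PT.nd (nat_lit 78) (PT.lf (nat_lit 50692) (nat_lit 6) (nat_lit 667) (nat_lit 4) (nat_lit 180) (nat_lit 206) (nat_lit 184)) (PT.lf (nat_lit 50616) (nat_lit 6) (nat_lit 666) (nat_lit 4) (nat_lit 181) (nat_lit 206) (nat_lit 183)))) (PT.nd (nat_lit 156) (PT.nd (nat_lit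 78) (PT.lf (nat_lit 50540) (nat_lit 3) (nat_lit 665) (nat_lit 2) (nat_lit 182) (nat_lit 206) (nat_lit 182)) (PT.lf (nat_lit 50616) (nat_lit 6) (nat_lit 666) (nat_lit 2) (nat_lit 183) (nat_lit 206) (nat_lit 181))) (PT.nd (nat_lit 78) (PT.lf (nat_lit 50692) (nat_lit 6) (nat_lit 667) (nat_lit 2) (nat_lit 184) (nat_lit 206) (nat_lit 180)) (PT.nd (nat_lit 78) (PT.lf (nat_lit 50768) (nat_lit 6) (nat_lit 668) (nat_lit 2) (nat_lit 185) (nat_lit 206) (nat_lit 179)) (PT.lf (nat_lit 50844) (nat_lit 6) (nat_lit 669) (nat_lit 2) (nat_lit 186) (nat_lit 206) (nat_lit 178)))))) (PT.nd (nat_lit 312) (PT.nd (nat_lit 156) (PT.nd (nat_lit 78) (PT.lf (nat_lit 50920) (nat_lit 6) (nat_lit 670) (nat_lit 2) (nat_lit 187) (nat_lit 206) (nat_lit 177)) (PT.lf (nat_lit 50996) (nat_lit 6) (nat_lit 671) (nat_lit 2) (nat_lit 188) (nat_lit 206) (nat_lit 176))) (PT.nd (nat_lit 78) (PT.lf (nat_lit 51072) (nat_lit 6) (nat_lit 672) (nat_lit 2) (nat_lit 189) (nat_lit 206)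 (nat_lit 175)) (PT.lf (nat_lit 51148) (nat_lit 6) (nat_lit 673) (nat_lit 2) (nat_lit 190) (nat_lit 206) (nat_lit 174)))) (PT.nd (nat_lit 156) (PT.nd (nat_lit 78) (PT.lf (nat_lit 49932) (nat_lit 6) (nat_lit 657) (nat_lit 2) (nat_lit 191) (nat_lit 206) (nat_lit 173)) (PT.lf (nat_lit 48640) (nat_lit 6) (nat_lit 640) (nat_lit 2) (nat_lit 192) (nat_lit 206) (nat_lit 172))) (PT.nd (nat_lit 78) (PT.lf (nat_lit 47272) (nat_lit 6) (nat_lit 622) (nat_lit 2) (nat_lit 193) (nat_lit 206) (nat_lit 171)) (PT.nd (nat_lit 78) (PT.lf (nat_lit 45828) (nat_lit 6) (nat_lit 603) (nat_lit 2) (nat_lit 194) (nat_lit 206) (nat_lit 170)) (PT.lf (nat_lit 44308) (nat_lit 6) (nat_lit 583) (nat_lit 2) (nat_lit 195) (nat_lit 206) (nat_lit 169))))))))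
noncomputable def pc80 : PT := (PT.nd (nat_lit 1326) (PT.nd (nat_lit 624) (PT.nd (nat_lit 312) (PT.nd (nat_lit 156) (PT.nd (nat_lit 78) (PT.lf (nat_lit 42712) (nat_lit 6) (nat_lit 562) (nat_lit 2) (nat_lit 196) (nat_lit 206) (nat_lit 168)) (PT.lf (nat_lit 41040) (nat_lit 6) (nat_lit 540) (nat_lit 2) (nat_lit 197) (nat_lit 206) (nat_lit 167))) (PT.nd (nat_lit 78) (PT.lf (nat_lit 39292) (nat_lit 6) (nat_lit 517) (nat_lit 2) (nat_lit 198) (nat_lit 206) (nat_lit 166)) (PT.lf (nat_lit 37468) (nat_lit 6) (nat_lit 493) (nat_lit 2) (nat_lit 199) (nat_lit 206) (nat_lit 165)))) (PT.nd (nat_lit 156) (PT.nd (nat_lit 78) (PT.lf (nat_lit 36328) (nat_lit 6) (nat_lit 478) (nat_lit 2) (nat_lit 200) (nat_lit 206) (nat_lit 164)) (PT.lf (nat_lit 35416) (nat_lit 6) (nat_lit 466) (nat_lit 2) (nat_lit 201) (nat_lit 206) (nat_lit 163))) (PT.nd (nat_lit 78) (PT.lf (nat_lit 34504) (nat_lit 6) (nat_lit 454) (nat_lit 2) (nat_lit 202) (nat_lit 206) (nat_lit 162))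 (PT.lf (nat_lit 33668) (nat_lit 6) (nat_lit 443) (nat_lit 2) (nat_lit 203) (nat_lit 206) (nat_lit 161))))) (PT.nd (nat_lit 312) (PT.nd (nat_lit 156) (PT.nd (nat_lit 78) (PT.lf (nat_lit 32756) (nat_lit 6) (nat_lit 431) (nat_lit 2) (nat_lit 204) (nat_lit 206) (nat_lit 160)) (PT.lf (nat_lit 31920) (nat_lit 6) (nat_lit 420) (nat_lit 2) (nat_lit 205) (nat_lit 206) (nat_lit 159))) (PT.nd (nat_lit 78) (PT.lf (nat_lit 31084) (nat_lit 3) (nat_lit 409) (nat_lit 0) (nat_lit 206) (nat_lit 206) (nat_lit 158)) (PT.lf (nat_lit 30248) (nat_lit 6) (nat_lit 398) (nat_lit 0) (nat_lit 207) (nat_lit 206) (nat_lit 157)))) (PT.nd (nat_lit 156) (PT.nd (nat_lit 78) (PT.lf (nat_lit 29412) (nat_lit 6) (nat_lit 387) (nat_lit 0) (nat_lit 208) (nat_lit 206) (nat_lit 156)) (PT.lf (nat_lit 28576) (nat_lit 6) (nat_lit 376) (nat_lit 0) (nat_lit 209) (nat_lit 206) (nat_lit 155))) (PT.nd (nat_lit 78) (PT.lf (nat_lit 27740) (nat_lit 6) (nat_lit 365) (nat_lit 0) (nat_lit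 210) (nat_lit 206) (nat_lit 154)) (PT.nd (nat_lit 78) (PT.lf (nat_lit 26980) (nat_lit 6) (nat_lit 355) (nat_lit 0) (nat_lit 211) (nat_lit 206) (nat_lit 153)) (PT.lf (nat_lit 26220) (nat_lit 6) (nat_lit 345) (nat_lit 0) (nat_lit 212) (nat_lit 206) (nat_lit 152))))))) (PT.nd (nat_lit 53898) (PT.nd (nat_lit 312) (PT.nd (nat_lit 156) (PT.nd (nat_lit 78) (PT.lf (nat_lit 25460) (nat_lit 6) (nat_lit 335) (nat_lit 0) (nat_lit 213) (nat_lit 206) (nat_lit 151)) (PT.lf (nat_lit 24700) (nat_lit 6) (nat_lit 325) (nat_lit 0) (nat_lit 214) (nat_lit 206) (nat_lit 150))) (PT.nd (nat_lit 78) (PT.lf (nat_lit 24016) (nat_lit 6) (nat_lit 316) (nat_lit 0) (nat_lit 215) (nat_lit 206) (nat_lit 149)) (PT.lf (nat_lit 23332) (nat_lit 6) (nat_lit 307) (nat_lit 0) (nat_lit 216) (nat_lit 206) (nat_lit 148)))) (PT.nd (nat_lit 156) (PT.nd (nat_lit 78) (PT.lf (nat_lit 22648) (nat_lit 6) (nat_lit 298) (nat_lit 0) (nat_lit 217) (nat_lit 206) (nat_lit 147)) (PT.lf (nat_lit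 21964) (nat_lit 6) (nat_lit 289) (nat_lit 0) (nat_lit 218) (nat_lit 206) (nat_lit 146))) (PT.nd (nat_lit 78) (PT.lf (nat_lit 21356) (nat_lit 6) (nat_lit 281) (nat_lit 0) (nat_lit 219) (nat_lit 206) (nat_lit 145)) (PT.nd (nat_lit 53274) (PT.lf (nat_lit 20672) (nat_lit 6) (nat_lit 272) (nat_lit 0) (nat_lit 220) (nat_lit 206) (nat_lit 144)) (PT.lf (nat_lit 19532) (nat_lit 6) (nat_lit 257) (nat_lit 5) (nat_lit 142) (nat_lit 207) (nat_lit 221)))))) (PT.nd (nat_lit 312) (PT.nd (nat_lit 156) (PT.nd (nat_lit 78) (PT.lf (nat_lit 20140) (nat_lit 6) (nat_lit 265) (nat_lit 5) (nat_lit 143) (nat_lit 207) (nat_lit 220)) (PT.lf (nat_lit 20748) (nat_lit 6) (nat_lit 273) (nat_lit 5) (nat_lit 144) (nat_lit 207) (nat_lit 219))) (PT.nd (nat_lit 78) (PT.lf (nat_lit 21432) (nat_lit 6) (nat_lit 282) (nat_lit 5) (nat_lit 145) (nat_lit 207) (nat_lit 218)) (PT.lf (nat_lit 22040) (nat_lit 6) (nat_lit 290) (nat_lit 5) (nat_lit 146) (nat_lit 207) (nat_lit 217))))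 (PT.nd (nat_lit 156) (PT.nd (nat_lit 78) (PT.lf (nat_lit 22724) (nat_lit 6) (nat_lit 299) (nat_lit 5) (nat_lit 147) (nat_lit 207) (nat_lit 216)) (PT.lf (nat_lit 23408) (nat_lit 6) (nat_lit 308) (nat_lit 5) (nat_lit 148) (nat_lit 207) (nat_lit 215))) (PT.nd (nat_lit 78) (PT.lf (nat_lit 24092) (nat_lit 6) (nat_lit 317) (nat_lit 5) (nat_lit 149) (nat_lit 207) (nat_lit 214)) (PT.nd (nat_lit 78) (PT.lf (nat_lit 24776) (nat_lit 6) (nat_lit 326) (nat_lit 5) (nat_lit 150) (nat_lit 207) (nat_lit 213)) (PT.lf (nat_lit 25536) (nat_lit 6) (nat_lit 336) (nat_lit 5) (nat_lit 151) (nat_lit 207) (nat_lit 212))))))))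
noncomputable def pc81 : PT := (PT.nd (nat_lit 1404) (PT.nd (nat_lit 702) (PT.nd (nat_lit 312) (PT.nd (nat_lit 156) (PT.nd (nat_lit 78) (PT.lf (nat_lit 26296) (nat_lit 6) (nat_lit 346) (nat_lit 5) (nat_lit 152) (nat_lit 207) (nat_lit 211)) (PT.lf (nat_lit 27056) (nat_lit 6) (nat_lit 356) (nat_lit 5) (nat_lit 153) (nat_lit 207) (nat_lit 210))) (PT.nd (nat_lit 78) (PT.lf (nat_lit 27816) (nat_lit 6) (nat_lit 366) (nat_lit 5) (nat_lit 154) (nat_lit 207) (nat_lit 209)) (PT.lf (nat_lit 28652) (nat_lit 6) (nat_lit 377) (nat_lit 5) (nat_lit 155) (nat_lit 207) (nat_lit 208)))) (PT.nd (nat_lit 156) (PT.nd (nat_lit 78) (PT.lf (nat_lit 29488) (nat_lit 3) (nat_lit 388) (nat_lit 4) (nat_lit 156) (nat_lit 207) (nat_lit 207)) (PT.lf (nat_lit 30248) (nat_lit 6) (nat_lit 398) (nat_lit 4) (nat_lit 157) (nat_lit 207) (nat_lit 206))) (PT.nd (nat_lit 78) (PT.lf (nat_lit 31008) (nat_lit 6) (nat_lit 408) (nat_lit 4) (nat_lit 158) (nat_lit 207) (nat_lit 205))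 (PT.nd (nat_lit 78) (PT.lf (nat_lit 31844) (nat_lit 6) (nat_lit 419) (nat_lit 4) (nat_lit 159) (nat_lit 207) (nat_lit 204)) (PT.lf (nat_lit 32680) (nat_lit 6) (nat_lit 430) (nat_lit 4) (nat_lit 160) (nat_lit 207) (nat_lit 203)))))) (PT.nd (nat_lit 312) (PT.nd (nat_lit 156) (PT.nd (nat_lit 78) (PT.lf (nat_lit 33592) (nat_lit 6) (nat_lit 442) (nat_lit 4) (nat_lit 161) (nat_lit 207) (nat_lit 202)) (PT.lf (nat_lit 34428) (nat_lit 6) (nat_lit 453) (nat_lit 4) (nat_lit 162) (nat_lit 207) (nat_lit 201))) (PT.nd (nat_lit 78) (PT.lf (nat_lit 35340) (nat_lit 6) (nat_lit 465) (nat_lit 4) (nat_lit 163) (nat_lit 207) (nat_lit 200)) (PT.lf (nat_lit 36252) (nat_lit 6) (nat_lit 477) (nat_lit 4) (nat_lit 164) (nat_lit 207) (nat_lit 199)))) (PT.nd (nat_lit 156) (PT.nd (nat_lit 78) (PT.lf (nat_lit 37392) (nat_lit 6) (nat_lit 492) (nat_lit 4) (nat_lit 165) (nat_lit 207) (nat_lit 198)) (PT.lf (nat_lit 39216) (nat_lit 6) (nat_lit 516) (nat_lit 4) (nat_lit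 166) (nat_lit 207) (nat_lit 197))) (PT.nd (nat_lit 78) (PT.lf (nat_lit 40964) (nat_lit 6) (nat_lit 539) (nat_lit 4) (nat_lit 167) (nat_lit 207) (nat_lit 196)) (PT.nd (nat_lit 78) (PT.lf (nat_lit 42636) (nat_lit 6) (nat_lit 561) (nat_lit 4) (nat_lit 168) (nat_lit 207) (nat_lit 195)) (PT.lf (nat_lit 44232) (nat_lit 6) (nat_lit 582) (nat_lit 4) (nat_lit 169) (nat_lit 207) (nat_lit 194))))))) (PT.nd (nat_lit 702) (PT.nd (nat_lit 312) (PT.nd (nat_lit 156) (PT.nd (nat_lit 78) (PT.lf (nat_lit 45752) (nat_lit 6) (nat_lit 602) (nat_lit 4) (nat_lit 170) (nat_lit 207) (nat_lit 193)) (PT.lf (nat_lit 47196) (nat_lit 6) (nat_lit 621) (nat_lit 4) (nat_lit 171) (nat_lit 207) (nat_lit 192))) (PT.nd (nat_lit 78) (PT.lf (nat_lit 48564) (nat_lit 6) (nat_lit 639) (nat_lit 4) (nat_lit 172) (nat_lit 207) (nat_lit 191)) (PT.lf (nat_lit 49856) (nat_lit 6) (nat_lit 656) (nat_lit 4) (nat_lit 173) (nat_lit 207) (nat_lit 190)))) (PT.nd (nat_lit 156) (PT.nd (nat_lit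 78) (PT.lf (nat_lit 49780) (nat_lit 6) (nat_lit 655) (nat_lit 4) (nat_lit 174) (nat_lit 207) (nat_lit 189)) (PT.lf (nat_lit 49704) (nat_lit 6) (nat_lit 654) (nat_lit 4) (nat_lit 175) (nat_lit 207) (nat_lit 188))) (PT.nd (nat_lit 78) (PT.lf (nat_lit 49628) (nat_lit 6) (nat_lit 653) (nat_lit 4) (nat_lit 176) (nat_lit 207) (nat_lit 187)) (PT.nd (nat_lit 78) (PT.lf (nat_lit 49552) (nat_lit 6) (nat_lit 652) (nat_lit 4) (nat_lit 177) (nat_lit 207) (nat_lit 186)) (PT.lf (nat_lit 49476) (nat_lit 6) (nat_lit 651) (nat_lit 4) (nat_lit 178) (nat_lit 207) (nat_lit 185)))))) (PT.nd (nat_lit 312) (PT.nd (nat_lit 156) (PT.nd (nat_lit 78) (PT.lf (nat_lit 49400) (nat_lit 6) (nat_lit 650) (nat_lit 4) (nat_lit 179) (nat_lit 207) (nat_lit 184)) (PT.lf (nat_lit 49324) (nat_lit 6) (nat_lit 649) (nat_lit 4) (nat_lit 180) (nat_lit 207) (nat_lit 183))) (PT.nd (nat_lit 78) (PT.lf (nat_lit 49248) (nat_lit 6) (nat_lit 648) (nat_lit 4) (nat_lit 181) (nat_lit 207)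 (nat_lit 182)) (PT.lf (nat_lit 49248) (nat_lit 6) (nat_lit 648) (nat_lit 2) (nat_lit 182) (nat_lit 207) (nat_lit 181)))) (PT.nd (nat_lit 156) (PT.nd (nat_lit 78) (PT.lf (nat_lit 49324) (nat_lit 6) (nat_lit 649) (nat_lit 2) (nat_lit 183) (nat_lit 207) (nat_lit 180)) (PT.lf (nat_lit 49400) (nat_lit 6) (nat_lit 650) (nat_lit 2) (nat_lit 184) (nat_lit 207) (nat_lit 179))) (PT.nd (nat_lit 78) (PT.lf (nat_lit 49476) (nat_lit 6) (nat_lit 651) (nat_lit 2) (nat_lit 185) (nat_lit 207) (nat_lit 178)) (PT.nd (nat_lit 78) (PT.lf (nat_lit 49552) (nat_lit 6) (nat_lit 652) (nat_lit 2) (nat_lit 186) (nat_lit 207) (nat_lit 177)) (PT.lf (nat_lit 49628) (nat_lit 6) (nat_lit 653) (nat_lit 2) (nat_lit 187) (nat_lit 207) (nat_lit 176))))))))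
noncomputable def pc82 : PT := (PT.nd (nat_lit 1326) (PT.nd (nat_lit 624) (PT.nd (nat_lit 312) (PT.nd (nat_lit 156) (PT.nd (nat_lit 78) (PT.lf (nat_lit 49704) (nat_lit 6) (nat_lit 654) (nat_lit 2) (nat_lit 188) (nat_lit 207) (nat_lit 175)) (PT.lf (nat_lit 49780) (nat_lit 6) (nat_lit 655) (nat_lit 2) (nat_lit 189) (nat_lit 207) (nat_lit 174))) (PT.nd (nat_lit 78) (PT.lf (nat_lit 49856) (nat_lit 6) (nat_lit 656) (nat_lit 2) (nat_lit 190) (nat_lit 207) (nat_lit 173)) (PT.lf (nat_lit 48564) (nat_lit 6) (nat_lit 639) (nat_lit 2) (nat_lit 191) (nat_lit 207) (nat_lit 172)))) (PT.nd (nat_lit 156) (PT.nd (nat_lit 78) (PT.lf (nat_lit 47196) (nat_lit 6) (nat_lit 621) (nat_lit 2) (nat_lit 192) (nat_lit 207) (nat_lit 171)) (PT.lf (nat_lit 45752) (nat_lit 6) (nat_lit 602) (nat_lit 2) (nat_lit 193) (nat_lit 207) (nat_lit 170))) (PT.nd (nat_lit 78) (PT.lf (nat_lit 44232) (nat_lit 6) (nat_lit 582) (nat_lit 2) (nat_lit 194) (nat_lit 207) (nat_lit 169))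 (PT.lf (nat_lit 42636) (nat_lit 6) (nat_lit 561) (nat_lit 2) (nat_lit 195) (nat_lit 207) (nat_lit 168))))) (PT.nd (nat_lit 312) (PT.nd (nat_lit 156) (PT.nd (nat_lit 78) (PT.lf (nat_lit 40964) (nat_lit 6) (nat_lit 539) (nat_lit 2) (nat_lit 196) (nat_lit 207) (nat_lit 167)) (PT.lf (nat_lit 39216) (nat_lit 6) (nat_lit 516) (nat_lit 2) (nat_lit 197) (nat_lit 207) (nat_lit 166))) (PT.nd (nat_lit 78) (PT.lf (nat_lit 37392) (nat_lit 6) (nat_lit 492) (nat_lit 2) (nat_lit 198) (nat_lit 207) (nat_lit 165)) (PT.lf (nat_lit 36252) (nat_lit 6) (nat_lit 477) (nat_lit 2) (nat_lit 199) (nat_lit 207) (nat_lit 164)))) (PT.nd (nat_lit 156) (PT.nd (nat_lit 78) (PT.lf (nat_lit 35340) (nat_lit 6) (nat_lit 465) (nat_lit 2) (nat_lit 200) (nat_lit 207) (nat_lit 163)) (PT.lf (nat_lit 34428) (nat_lit 6) (nat_lit 453) (nat_lit 2) (nat_lit 201) (nat_lit 207) (nat_lit 162))) (PT.nd (nat_lit 78) (PT.lf (nat_lit 33592) (nat_lit 6) (nat_lit 442) (nat_lit 2) (nat_lit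 202) (nat_lit 207) (nat_lit 161)) (PT.nd (nat_lit 78) (PT.lf (nat_lit 32680) (nat_lit 6) (nat_lit 430) (nat_lit 2) (nat_lit 203) (nat_lit 207) (nat_lit 160)) (PT.lf (nat_lit 31844) (nat_lit 6) (nat_lit 419) (nat_lit 2) (nat_lit 204) (nat_lit 207) (nat_lit 159))))))) (PT.nd (nat_lit 702) (PT.nd (nat_lit 312) (PT.nd (nat_lit 156) (PT.nd (nat_lit 78) (PT.lf (nat_lit 31008) (nat_lit 6) (nat_lit 408) (nat_lit 2) (nat_lit 205) (nat_lit 207) (nat_lit 158)) (PT.lf (nat_lit 30248) (nat_lit 6) (nat_lit 398) (nat_lit 2) (nat_lit 206) (nat_lit 207) (nat_lit 157))) (PT.nd (nat_lit 78) (PT.lf (nat_lit 29488) (nat_lit 3) (nat_lit 388) (nat_lit 0) (nat_lit 207) (nat_lit 207) (nat_lit 156)) (PT.lf (nat_lit 28652) (nat_lit 6) (nat_lit 377) (nat_lit 0) (nat_lit 208) (nat_lit 207) (nat_lit 155)))) (PT.nd (nat_lit 156) (PT.nd (nat_lit 78) (PT.lf (nat_lit 27816) (nat_lit 6) (nat_lit 366) (nat_lit 0) (nat_lit 209) (nat_lit 207) (nat_lit 154)) (PT.lf (nat_lit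 27056) (nat_lit 6) (nat_lit 356) (nat_lit 0) (nat_lit 210) (nat_lit 207) (nat_lit 153))) (PT.nd (nat_lit 78) (PT.lf (nat_lit 26296) (nat_lit 6) (nat_lit 346) (nat_lit 0) (nat_lit 211) (nat_lit 207) (nat_lit 152)) (PT.nd (nat_lit 78) (PT.lf (nat_lit 25536) (nat_lit 6) (nat_lit 336) (nat_lit 0) (nat_lit 212) (nat_lit 207) (nat_lit 151)) (PT.lf (nat_lit 24776) (nat_lit 6) (nat_lit 326) (nat_lit 0) (nat_lit 213) (nat_lit 207) (nat_lit 150)))))) (PT.nd (nat_lit 312) (PT.nd (nat_lit 156) (PT.nd (nat_lit 78) (PT.lf (nat_lit 24092) (nat_lit 6) (nat_lit 317) (nat_lit 0) (nat_lit 214) (nat_lit 207) (nat_lit 149)) (PT.lf (nat_lit 23408) (nat_lit 6) (nat_lit 308) (nat_lit 0) (nat_lit 215) (nat_lit 207) (nat_lit 148))) (PT.nd (nat_lit 78) (PT.lf (nat_lit 22724) (nat_lit 6) (nat_lit 299) (nat_lit 0) (nat_lit 216) (nat_lit 207) (nat_lit 147)) (PT.lf (nat_lit 22040) (nat_lit 6) (nat_lit 290) (nat_lit 0) (nat_lit 217) (nat_lit 207) (nat_lit 146)))) (PT.nd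 (nat_lit 156) (PT.nd (nat_lit 78) (PT.lf (nat_lit 21432) (nat_lit 6) (nat_lit 282) (nat_lit 0) (nat_lit 218) (nat_lit 207) (nat_lit 145)) (PT.lf (nat_lit 20748) (nat_lit 6) (nat_lit 273) (nat_lit 0) (nat_lit 219) (nat_lit 207) (nat_lit 144))) (PT.nd (nat_lit 78) (PT.lf (nat_lit 20140) (nat_lit 6) (nat_lit 265) (nat_lit 0) (nat_lit 220) (nat_lit 207) (nat_lit 143)) (PT.nd (nat_lit 53118) (PT.lf (nat_lit 19532) (nat_lit 6) (nat_lit 257) (nat_lit 0) (nat_lit 221) (nat_lit 207) (nat_lit 142)) (PT.lf (nat_lit 19000) (nat_lit 6) (nat_lit 250) (nat_lit 5) (nat_lit 141) (nat_lit 208) (nat_lit 221))))))))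
noncomputable def pc83 : PT := (PT.nd (nat_lit 1404) (PT.nd (nat_lit 702) (PT.nd (nat_lit 312) (PT.nd (nat_lit 156) (PT.nd (nat_lit 78) (PT.lf (nat_lit 19608) (nat_lit 6) (nat_lit 258) (nat_lit 5) (nat_lit 142) (nat_lit 208) (nat_lit 220)) (PT.lf (nat_lit 20216) (nat_lit 6) (nat_lit 266) (nat_lit 5) (nat_lit 143) (nat_lit 208) (nat_lit 219))) (PT.nd (nat_lit 78) (PT.lf (nat_lit 20824) (nat_lit 6) (nat_lit 274) (nat_lit 5) (nat_lit 144) (nat_lit 208) (nat_lit 218)) (PT.lf (nat_lit 21508) (nat_lit 6) (nat_lit 283) (nat_lit 5) (nat_lit 145) (nat_lit 208) (nat_lit 217)))) (PT.nd (nat_lit 156) (PT.nd (nat_lit 78) (PT.lf (nat_lit 22116) (nat_lit 6) (nat_lit 291) (nat_lit 5) (nat_lit 146) (nat_lit 208) (nat_lit 216)) (PT.lf (nat_lit 22800) (nat_lit 6) (nat_lit 300) (nat_lit 5) (nat_lit 147) (nat_lit 208) (nat_lit 215))) (PT.nd (nat_lit 78) (PT.lf (nat_lit 23484) (nat_lit 6) (nat_lit 309) (nat_lit 5) (nat_lit 148) (nat_lit 208) (nat_lit 214))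 (PT.nd (nat_lit 78) (PT.lf (nat_lit 24168) (nat_lit 6) (nat_lit 318) (nat_lit 5) (nat_lit 149) (nat_lit 208) (nat_lit 213)) (PT.lf (nat_lit 24852) (nat_lit 6) (nat_lit 327) (nat_lit 5) (nat_lit 150) (nat_lit 208) (nat_lit 212)))))) (PT.nd (nat_lit 312) (PT.nd (nat_lit 156) (PT.nd (nat_lit 78) (PT.lf (nat_lit 25612) (nat_lit 6) (nat_lit 337) (nat_lit 5) (nat_lit 151) (nat_lit 208) (nat_lit 211)) (PT.lf (nat_lit 26372) (nat_lit 6) (nat_lit 347) (nat_lit 5) (nat_lit 152) (nat_lit 208) (nat_lit 210))) (PT.nd (nat_lit 78) (PT.lf (nat_lit 27132) (nat_lit 6) (nat_lit 357) (nat_lit 5) (nat_lit 153) (nat_lit 208) (nat_lit 209)) (PT.lf (nat_lit 27892) (nat_lit 3) (nat_lit 367) (nat_lit 4) (nat_lit 154) (nat_lit 208) (nat_lit 208)))) (PT.nd (nat_lit 156) (PT.nd (nat_lit 78) (PT.lf (nat_lit 28652) (nat_lit 6) (nat_lit 377) (nat_lit 4) (nat_lit 155) (nat_lit 208) (nat_lit 207)) (PT.lf (nat_lit 29412) (nat_lit 6) (nat_lit 387) (nat_lit 4) (nat_lit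 156) (nat_lit 208) (nat_lit 206))) (PT.nd (nat_lit 78) (PT.lf (nat_lit 30172) (nat_lit 6) (nat_lit 397) (nat_lit 4) (nat_lit 157) (nat_lit 208) (nat_lit 205)) (PT.nd (nat_lit 78) (PT.lf (nat_lit 30932) (nat_lit 6) (nat_lit 407) (nat_lit 4) (nat_lit 158) (nat_lit 208) (nat_lit 204)) (PT.lf (nat_lit 31768) (nat_lit 6) (nat_lit 418) (nat_lit 4) (nat_lit 159) (nat_lit 208) (nat_lit 203))))))) (PT.nd (nat_lit 702) (PT.nd (nat_lit 312) (PT.nd (nat_lit 156) (PT.nd (nat_lit 78) (PT.lf (nat_lit 32604) (nat_lit 6) (nat_lit 429) (nat_lit 4) (nat_lit 160) (nat_lit 208) (nat_lit 202)) (PT.lf (nat_lit 33516) (nat_lit 6) (nat_lit 441) (nat_lit 4) (nat_lit 161) (nat_lit 208) (nat_lit 201))) (PT.nd (nat_lit 78) (PT.lf (nat_lit 34352) (nat_lit 6) (nat_lit 452) (nat_lit 4) (nat_lit 162) (nat_lit 208) (nat_lit 200)) (PT.lf (nat_lit 35264) (nat_lit 6) (nat_lit 464) (nat_lit 4) (nat_lit 163) (nat_lit 208) (nat_lit 199)))) (PT.nd (nat_lit 156) (PT.nd (nat_lit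 78) (PT.lf (nat_lit 36176) (nat_lit 6) (nat_lit 476) (nat_lit 4) (nat_lit 164) (nat_lit 208) (nat_lit 198)) (PT.lf (nat_lit 37316) (nat_lit 6) (nat_lit 491) (nat_lit 4) (nat_lit 165) (nat_lit 208) (nat_lit 197))) (PT.nd (nat_lit 78) (PT.lf (nat_lit 39140) (nat_lit 6) (nat_lit 515) (nat_lit 4) (nat_lit 166) (nat_lit 208) (nat_lit 196)) (PT.nd (nat_lit 78) (PT.lf (nat_lit 40888) (nat_lit 6) (nat_lit 538) (nat_lit 4) (nat_lit 167) (nat_lit 208) (nat_lit 195)) (PT.lf (nat_lit 42560) (nat_lit 6) (nat_lit 560) (nat_lit 4) (nat_lit 168) (nat_lit 208) (nat_lit 194)))))) (PT.nd (nat_lit 312) (PT.nd (nat_lit 156) (PT.nd (nat_lit 78) (PT.lf (nat_lit 44156) (nat_lit 6) (nat_lit 581) (nat_lit 4) (nat_lit 169) (nat_lit 208) (nat_lit 193)) (PT.lf (nat_lit 45676) (nat_lit 6) (nat_lit 601) (nat_lit 4) (nat_lit 170) (nat_lit 208) (nat_lit 192))) (PT.nd (nat_lit 78) (PT.lf (nat_lit 47120) (nat_lit 6) (nat_lit 620) (nat_lit 4) (nat_lit 171) (nat_lit 208)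 (nat_lit 191)) (PT.lf (nat_lit 48488) (nat_lit 6) (nat_lit 638) (nat_lit 4) (nat_lit 172) (nat_lit 208) (nat_lit 190)))) (PT.nd (nat_lit 156) (PT.nd (nat_lit 78) (PT.lf (nat_lit 48412) (nat_lit 6) (nat_lit 637) (nat_lit 4) (nat_lit 173) (nat_lit 208) (nat_lit 189)) (PT.lf (nat_lit 48336) (nat_lit 6) (nat_lit 636) (nat_lit 4) (nat_lit 174) (nat_lit 208) (nat_lit 188))) (PT.nd (nat_lit 78) (PT.lf (nat_lit 48260) (nat_lit 6) (nat_lit 635) (nat_lit 4) (nat_lit 175) (nat_lit 208) (nat_lit 187)) (PT.nd (nat_lit 78) (PT.lf (nat_lit 48184) (nat_lit 6) (nat_lit 634) (nat_lit 4) (nat_lit 176) (nat_lit 208) (nat_lit 186)) (PT.lf (nat_lit 48108) (nat_lit 6) (nat_lit 633) (nat_lit 4) (nat_lit 177) (nat_lit 208) (nat_lit 185))))))))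
noncomputable def pc84 : PT := (PT.nd (nat_lit 1326) (PT.nd (nat_lit 624) (PT.nd (nat_lit 312) (PT.nd (nat_lit 156) (PT.nd (nat_lit 78) (PT.lf (nat_lit 48032) (nat_lit 6) (nat_lit 632) (nat_lit 4) (nat_lit 178) (nat_lit 208) (nat_lit 184)) (PT.lf (nat_lit 47956) (nat_lit 6) (nat_lit 631) (nat_lit 4) (nat_lit 179) (nat_lit 208) (nat_lit 183))) (PT.nd (nat_lit 78) (PT.lf (nat_lit 47880) (nat_lit 6) (nat_lit 630) (nat_lit 4) (nat_lit 180) (nat_lit 208) (nat_lit 182)) (PT.lf (nat_lit 47804) (nat_lit 3) (nat_lit 629) (nat_lit 2) (nat_lit 181) (nat_lit 208) (nat_lit 181)))) (PT.nd (nat_lit 156) (PT.nd (nat_lit 78) (PT.lf (nat_lit 47880) (nat_lit 6) (nat_lit 630) (nat_lit 2) (nat_lit 182) (nat_lit 208) (nat_lit 180)) (PT.lf (nat_lit 47956) (nat_lit 6) (nat_lit 631) (nat_lit 2) (nat_lit 183) (nat_lit 208) (nat_lit 179))) (PT.nd (nat_lit 78) (PT.lf (nat_lit 48032) (nat_lit 6) (nat_lit 632) (nat_lit 2) (nat_lit 184) (nat_lit 208) (nat_lit 178))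 (PT.lf (nat_lit 48108) (nat_lit 6) (nat_lit 633) (nat_lit 2) (nat_lit 185) (nat_lit 208) (nat_lit 177))))) (PT.nd (nat_lit 312) (PT.nd (nat_lit 156) (PT.nd (nat_lit 78) (PT.lf (nat_lit 48184) (nat_lit 6) (nat_lit 634) (nat_lit 2) (nat_lit 186) (nat_lit 208) (nat_lit 176)) (PT.lf (nat_lit 48260) (nat_lit 6) (nat_lit 635) (nat_lit 2) (nat_lit 187) (nat_lit 208) (nat_lit 175))) (PT.nd (nat_lit 78) (PT.lf (nat_lit 48336) (nat_lit 6) (nat_lit 636) (nat_lit 2) (nat_lit 188) (nat_lit 208) (nat_lit 174)) (PT.lf (nat_lit 48412) (nat_lit 6) (nat_lit 637) (nat_lit 2) (nat_lit 189) (nat_lit 208) (nat_lit 173)))) (PT.nd (nat_lit 156) (PT.nd (nat_lit 78) (PT.lf (nat_lit 48488) (nat_lit 6) (nat_lit 638) (nat_lit 2) (nat_lit 190) (nat_lit 208) (nat_lit 172)) (PT.lf (nat_lit 47120) (nat_lit 6) (nat_lit 620) (nat_lit 2) (nat_lit 191) (nat_lit 208) (nat_lit 171))) (PT.nd (nat_lit 78) (PT.lf (nat_lit 45676) (nat_lit 6) (nat_lit 601) (nat_lit 2) (nat_lit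 192) (nat_lit 208) (nat_lit 170)) (PT.nd (nat_lit 78) (PT.lf (nat_lit 44156) (nat_lit 6) (nat_lit 581) (nat_lit 2) (nat_lit 193) (nat_lit 208) (nat_lit 169)) (PT.lf (nat_lit 42560) (nat_lit 6) (nat_lit 560) (nat_lit 2) (nat_lit 194) (nat_lit 208) (nat_lit 168))))))) (PT.nd (nat_lit 702) (PT.nd (nat_lit 312) (PT.nd (nat_lit 156) (PT.nd (nat_lit 78) (PT.lf (nat_lit 40888) (nat_lit 6) (nat_lit 538) (nat_lit 2) (nat_lit 195) (nat_lit 208) (nat_lit 167)) (PT.lf (nat_lit 39140) (nat_lit 6) (nat_lit 515) (nat_lit 2) (nat_lit 196) (nat_lit 208) (nat_lit 166))) (PT.nd (nat_lit 78) (PT.lf (nat_lit 37316) (nat_lit 6) (nat_lit 491) (nat_lit 2) (nat_lit 197) (nat_lit 208) (nat_lit 165)) (PT.lf (nat_lit 36176) (nat_lit 6) (nat_lit 476) (nat_lit 2) (nat_lit 198) (nat_lit 208) (nat_lit 164)))) (PT.nd (nat_lit 156) (PT.nd (nat_lit 78) (PT.lf (nat_lit 35264) (nat_lit 6) (nat_lit 464) (nat_lit 2) (nat_lit 199) (nat_lit 208) (nat_lit 163)) (PT.lf (nat_lit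 34352) (nat_lit 6) (nat_lit 452) (nat_lit 2) (nat_lit 200) (nat_lit 208) (nat_lit 162))) (PT.nd (nat_lit 78) (PT.lf (nat_lit 33516) (nat_lit 6) (nat_lit 441) (nat_lit 2) (nat_lit 201) (nat_lit 208) (nat_lit 161)) (PT.nd (nat_lit 78) (PT.lf (nat_lit 32604) (nat_lit 6) (nat_lit 429) (nat_lit 2) (nat_lit 202) (nat_lit 208) (nat_lit 160)) (PT.lf (nat_lit 31768) (nat_lit 6) (nat_lit 418) (nat_lit 2) (nat_lit 203) (nat_lit 208) (nat_lit 159)))))) (PT.nd (nat_lit 312) (PT.nd (nat_lit 156) (PT.nd (nat_lit 78) (PT.lf (nat_lit 30932) (nat_lit 6) (nat_lit 407) (nat_lit 2) (nat_lit 204) (nat_lit 208) (nat_lit 158)) (PT.lf (nat_lit 30172) (nat_lit 6) (nat_lit 397) (nat_lit 2) (nat_lit 205) (nat_lit 208) (nat_lit 157))) (PT.nd (nat_lit 78) (PT.lf (nat_lit 29412) (nat_lit 6) (nat_lit 387) (nat_lit 2) (nat_lit 206) (nat_lit 208) (nat_lit 156)) (PT.lf (nat_lit 28652) (nat_lit 6) (nat_lit 377) (nat_lit 2) (nat_lit 207) (nat_lit 208) (nat_lit 155)))) (PT.nd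 (nat_lit 156) (PT.nd (nat_lit 78) (PT.lf (nat_lit 27892) (nat_lit 3) (nat_lit 367) (nat_lit 0) (nat_lit 208) (nat_lit 208) (nat_lit 154)) (PT.lf (nat_lit 27132) (nat_lit 6) (nat_lit 357) (nat_lit 0) (nat_lit 209) (nat_lit 208) (nat_lit 153))) (PT.nd (nat_lit 78) (PT.lf (nat_lit 26372) (nat_lit 6) (nat_lit 347) (nat_lit 0) (nat_lit 210) (nat_lit 208) (nat_lit 152)) (PT.nd (nat_lit 78) (PT.lf (nat_lit 25612) (nat_lit 6) (nat_lit 337) (nat_lit 0) (nat_lit 211) (nat_lit 208) (nat_lit 151)) (PT.lf (nat_lit 24852) (nat_lit 6) (nat_lit 327) (nat_lit 0) (nat_lit 212) (nat_lit 208) (nat_lit 150))))))))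
noncomputable def pc85 : PT := (PT.nd (nat_lit 54288) (PT.nd (nat_lit 53586) (PT.nd (nat_lit 312) (PT.nd (nat_lit 156) (PT.nd (nat_lit 78) (PT.lf (nat_lit 24168) (nat_lit 6) (nat_lit 318) (nat_lit 0) (nat_lit 213) (nat_lit 208) (nat_lit 149)) (PT.lf (nat_lit 23484) (nat_lit 6) (nat_lit 309) (nat_lit 0) (nat_lit 214) (nat_lit 208) (nat_lit 148))) (PT.nd (nat_lit 78) (PT.lf (nat_lit 22800) (nat_lit 6) (nat_lit 300) (nat_lit 0) (nat_lit 215) (nat_lit 208) (nat_lit 147)) (PT.lf (nat_lit 22116) (nat_lit 6) (nat_lit 291) (nat_lit 0) (nat_lit 216) (nat_lit 208) (nat_lit 146)))) (PT.nd (nat_lit 156) (PT.nd (nat_lit 78) (PT.lf (nat_lit 21508) (nat_lit 6) (nat_lit 283) (nat_lit 0) (nat_lit 217) (nat_lit 208) (nat_lit 145)) (PT.lf (nat_lit 20824) (nat_lit 6) (nat_lit 274) (nat_lit 0) (nat_lit 218) (nat_lit 208) (nat_lit 144))) (PT.nd (nat_lit 78) (PT.lf (nat_lit 20216) (nat_lit 6) (nat_lit 266) (nat_lit 0) (nat_lit 219) (nat_lit 208) (nat_lit 143))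 (PT.nd (nat_lit 78) (PT.lf (nat_lit 19608) (nat_lit 6) (nat_lit 258) (nat_lit 0) (nat_lit 220) (nat_lit 208) (nat_lit 142)) (PT.lf (nat_lit 19000) (nat_lit 6) (nat_lit 250) (nat_lit 0) (nat_lit 221) (nat_lit 208) (nat_lit 141)))))) (PT.nd (nat_lit 312) (PT.nd (nat_lit 156) (PT.nd (nat_lit 78) (PT.lf (nat_lit 17936) (nat_lit 6) (nat_lit 236) (nat_lit 5) (nat_lit 139) (nat_lit 209) (nat_lit 222)) (PT.lf (nat_lit 18468) (nat_lit 6) (nat_lit 243) (nat_lit 5) (nat_lit 140) (nat_lit 209) (nat_lit 221))) (PT.nd (nat_lit 78) (PT.lf (nat_lit 19076) (nat_lit 6) (nat_lit 251) (nat_lit 5) (nat_lit 141) (nat_lit 209) (nat_lit 220)) (PT.lf (nat_lit 19684) (nat_lit 6) (nat_lit 259) (nat_lit 5) (nat_lit 142) (nat_lit 209) (nat_lit 219)))) (PT.nd (nat_lit 156) (PT.nd (nat_lit 78) (PT.lf (nat_lit 20292) (nat_lit 6) (nat_lit 267) (nat_lit 5) (nat_lit 143) (nat_lit 209) (nat_lit 218)) (PT.lf (nat_lit 20900) (nat_lit 6) (nat_lit 275) (nat_lit 5) (nat_lit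 144) (nat_lit 209) (nat_lit 217))) (PT.nd (nat_lit 78) (PT.lf (nat_lit 21584) (nat_lit 6) (nat_lit 284) (nat_lit 5) (nat_lit 145) (nat_lit 209) (nat_lit 216)) (PT.nd (nat_lit 78) (PT.lf (nat_lit 22192) (nat_lit 6) (nat_lit 292) (nat_lit 5) (nat_lit 146) (nat_lit 209) (nat_lit 215)) (PT.lf (nat_lit 22876) (nat_lit 6) (nat_lit 301) (nat_lit 5) (nat_lit 147) (nat_lit 209) (nat_lit 214))))))) (PT.nd (nat_lit 702) (PT.nd (nat_lit 312) (PT.nd (nat_lit 156) (PT.nd (nat_lit 78) (PT.lf (nat_lit 23560) (nat_lit 6) (nat_lit 310) (nat_lit 5) (nat_lit 148) (nat_lit 209) (nat_lit 213)) (PT.lf (nat_lit 24244) (nat_lit 6) (nat_lit 319) (nat_lit 5) (nat_lit 149) (nat_lit 209) (nat_lit 212))) (PT.nd (nat_lit 78) (PT.lf (nat_lit 24928) (nat_lit 6) (nat_lit 328) (nat_lit 5) (nat_lit 150) (nat_lit 209) (nat_lit 211)) (PT.lf (nat_lit 25688) (nat_lit 6) (nat_lit 338) (nat_lit 5) (nat_lit 151) (nat_lit 209) (nat_lit 210)))) (PT.nd (nat_lit 156) (PT.nd (nat_lit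 78) (PT.lf (nat_lit 26448) (nat_lit 3) (nat_lit 348) (nat_lit 4) (nat_lit 152) (nat_lit 209) (nat_lit 209)) (PT.lf (nat_lit 27132) (nat_lit 6) (nat_lit 357) (nat_lit 4) (nat_lit 153) (nat_lit 209) (nat_lit 208))) (PT.nd (nat_lit 78) (PT.lf (nat_lit 27816) (nat_lit 6) (nat_lit 366) (nat_lit 4) (nat_lit 154) (nat_lit 209) (nat_lit 207)) (PT.nd (nat_lit 78) (PT.lf (nat_lit 28576) (nat_lit 6) (nat_lit 376) (nat_lit 4) (nat_lit 155) (nat_lit 209) (nat_lit 206)) (PT.lf (nat_lit 29336) (nat_lit 6) (nat_lit 386) (nat_lit 4) (nat_lit 156) (nat_lit 209) (nat_lit 205)))))) (PT.nd (nat_lit 312) (PT.nd (nat_lit 156) (PT.nd (nat_lit 78) (PT.lf (nat_lit 30096) (nat_lit 6) (nat_lit 396) (nat_lit 4) (nat_lit 157) (nat_lit 209) (nat_lit 204)) (PT.lf (nat_lit 30856) (nat_lit 6) (nat_lit 406) (nat_lit 4) (nat_lit 158) (nat_lit 209) (nat_lit 203))) (PT.nd (nat_lit 78) (PT.lf (nat_lit 31692) (nat_lit 6) (nat_lit 417) (nat_lit 4) (nat_lit 159) (nat_lit 209)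 (nat_lit 202)) (PT.lf (nat_lit 32528) (nat_lit 6) (nat_lit 428) (nat_lit 4) (nat_lit 160) (nat_lit 209) (nat_lit 201)))) (PT.nd (nat_lit 156) (PT.nd (nat_lit 78) (PT.lf (nat_lit 33440) (nat_lit 6) (nat_lit 440) (nat_lit 4) (nat_lit 161) (nat_lit 209) (nat_lit 200)) (PT.lf (nat_lit 34276) (nat_lit 6) (nat_lit 451) (nat_lit 4) (nat_lit 162) (nat_lit 209) (nat_lit 199))) (PT.nd (nat_lit 78) (PT.lf (nat_lit 35188) (nat_lit 6) (nat_lit 463) (nat_lit 4) (nat_lit 163) (nat_lit 209) (nat_lit 198)) (PT.nd (nat_lit 78) (PT.lf (nat_lit 36100) (nat_lit 6) (nat_lit 475) (nat_lit 4) (nat_lit 164) (nat_lit 209) (nat_lit 197)) (PT.lf (nat_lit 37240) (nat_lit 6) (nat_lit 490) (nat_lit 4) (nat_lit 165) (nat_lit 209) (nat_lit 196))))))))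
noncomputable def pc86 : PT := (PT.nd (nat_lit 1404) (PT.nd (nat_lit 702) (PT.nd (nat_lit 312) (PT.nd (nat_lit 156) (PT.nd (nat_lit 78) (PT.lf (nat_lit 39064) (nat_lit 6) (nat_lit 514) (nat_lit 4) (nat_lit 166) (nat_lit 209) (nat_lit 195)) (PT.lf (nat_lit 40812) (nat_lit 6) (nat_lit 537) (nat_lit 4) (nat_lit 167) (nat_lit 209) (nat_lit 194))) (PT.nd (nat_lit 78) (PT.lf (nat_lit 42484) (nat_lit 6) (nat_lit 559) (nat_lit 4) (nat_lit 168) (nat_lit 209) (nat_lit 193)) (PT.lf (nat_lit 44080) (nat_lit 6) (nat_lit 580) (nat_lit 4) (nat_lit 169) (nat_lit 209) (nat_lit 192)))) (PT.nd (nat_lit 156) (PT.nd (nat_lit 78) (PT.lf (nat_lit 45600) (nat_lit 6) (nat_lit 600) (nat_lit 4) (nat_lit 170) (nat_lit 209) (nat_lit 191)) (PT.lf (nat_lit 47044) (nat_lit 6) (nat_lit 619) (nat_lit 4) (nat_lit 171) (nat_lit 209) (nat_lit 190))) (PT.nd (nat_lit 78) (PT.lf (nat_lit 46968) (nat_lit 6) (nat_lit 618) (nat_lit 4) (nat_lit 172) (nat_lit 209) (nat_lit 189))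 (PT.nd (nat_lit 78) (PT.lf (nat_lit 46892) (nat_lit 6) (nat_lit 617) (nat_lit 4) (nat_lit 173) (nat_lit 209) (nat_lit 188)) (PT.lf (nat_lit 46816) (nat_lit 6) (nat_lit 616) (nat_lit 4) (nat_lit 174) (nat_lit 209) (nat_lit 187)))))) (PT.nd (nat_lit 312) (PT.nd (nat_lit 156) (PT.nd (nat_lit 78) (PT.lf (nat_lit 46740) (nat_lit 6) (nat_lit 615) (nat_lit 4) (nat_lit 175) (nat_lit 209) (nat_lit 186)) (PT.lf (nat_lit 46664) (nat_lit 6) (nat_lit 614) (nat_lit 4) (nat_lit 176) (nat_lit 209) (nat_lit 185))) (PT.nd (nat_lit 78) (PT.lf (nat_lit 46588) (nat_lit 6) (nat_lit 613) (nat_lit 4) (nat_lit 177) (nat_lit 209) (nat_lit 184)) (PT.lf (nat_lit 46512) (nat_lit 6) (nat_lit 612) (nat_lit 4) (nat_lit 178) (nat_lit 209) (nat_lit 183)))) (PT.nd (nat_lit 156) (PT.nd (nat_lit 78) (PT.lf (nat_lit 46436) (nat_lit 6) (nat_lit 611) (nat_lit 4) (nat_lit 179) (nat_lit 209) (nat_lit 182)) (PT.lf (nat_lit 46360) (nat_lit 6) (nat_lit 610) (nat_lit 4) (nat_lit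 180) (nat_lit 209) (nat_lit 181))) (PT.nd (nat_lit 78) (PT.lf (nat_lit 46360) (nat_lit 6) (nat_lit 610) (nat_lit 2) (nat_lit 181) (nat_lit 209) (nat_lit 180)) (PT.nd (nat_lit 78) (PT.lf (nat_lit 46436) (nat_lit 6) (nat_lit 611) (nat_lit 2) (nat_lit 182) (nat_lit 209) (nat_lit 179)) (PT.lf (nat_lit 46512) (nat_lit 6) (nat_lit 612) (nat_lit 2) (nat_lit 183) (nat_lit 209) (nat_lit 178))))))) (PT.nd (nat_lit 702) (PT.nd (nat_lit 312) (PT.nd (nat_lit 156) (PT.nd (nat_lit 78) (PT.lf (nat_lit 46588) (nat_lit 6) (nat_lit 613) (nat_lit 2) (nat_lit 184) (nat_lit 209) (nat_lit 177)) (PT.lf (nat_lit 46664) (nat_lit 6) (nat_lit 614) (nat_lit 2) (nat_lit 185) (nat_lit 209) (nat_lit 176))) (PT.nd (nat_lit 78) (PT.lf (nat_lit 46740) (nat_lit 6) (nat_lit 615) (nat_lit 2) (nat_lit 186) (nat_lit 209) (nat_lit 175)) (PT.lf (nat_lit 46816) (nat_lit 6) (nat_lit 616) (nat_lit 2) (nat_lit 187) (nat_lit 209) (nat_lit 174)))) (PT.nd (nat_lit 156) (PT.nd (nat_lit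 78) (PT.lf (nat_lit 46892) (nat_lit 6) (nat_lit 617) (nat_lit 2) (nat_lit 188) (nat_lit 209) (nat_lit 173)) (PT.lf (nat_lit 46968) (nat_lit 6) (nat_lit 618) (nat_lit 2) (nat_lit 189) (nat_lit 209) (nat_lit 172))) (PT.nd (nat_lit 78) (PT.lf (nat_lit 47044) (nat_lit 6) (nat_lit 619) (nat_lit 2) (nat_lit 190) (nat_lit 209) (nat_lit 171)) (PT.nd (nat_lit 78) (PT.lf (nat_lit 45600) (nat_lit 6) (nat_lit 600) (nat_lit 2) (nat_lit 191) (nat_lit 209) (nat_lit 170)) (PT.lf (nat_lit 44080) (nat_lit 6) (nat_lit 580) (nat_lit 2) (nat_lit 192) (nat_lit 209) (nat_lit 169)))))) (PT.nd (nat_lit 312) (PT.nd (nat_lit 156) (PT.nd (nat_lit 78) (PT.lf (nat_lit 42484) (nat_lit 6) (nat_lit 559) (nat_lit 2) (nat_lit 193) (nat_lit 209) (nat_lit 168)) (PT.lf (nat_lit 40812) (nat_lit 6) (nat_lit 537) (nat_lit 2) (nat_lit 194) (nat_lit 209) (nat_lit 167))) (PT.nd (nat_lit 78) (PT.lf (nat_lit 39064) (nat_lit 6) (nat_lit 514) (nat_lit 2) (nat_lit 195) (nat_lit 209)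 (nat_lit 166)) (PT.lf (nat_lit 37240) (nat_lit 6) (nat_lit 490) (nat_lit 2) (nat_lit 196) (nat_lit 209) (nat_lit 165)))) (PT.nd (nat_lit 156) (PT.nd (nat_lit 78) (PT.lf (nat_lit 36100) (nat_lit 6) (nat_lit 475) (nat_lit 2) (nat_lit 197) (nat_lit 209) (nat_lit 164)) (PT.lf (nat_lit 35188) (nat_lit 6) (nat_lit 463) (nat_lit 2) (nat_lit 198) (nat_lit 209) (nat_lit 163))) (PT.nd (nat_lit 78) (PT.lf (nat_lit 34276) (nat_lit 6) (nat_lit 451) (nat_lit 2) (nat_lit 199) (nat_lit 209) (nat_lit 162)) (PT.nd (nat_lit 78) (PT.lf (nat_lit 33440) (nat_lit 6) (nat_lit 440) (nat_lit 2) (nat_lit 200) (nat_lit 209) (nat_lit 161)) (PT.lf (nat_lit 32528) (nat_lit 6) (nat_lit 428) (nat_lit 2) (nat_lit 201) (nat_lit 209) (nat_lit 160))))))))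
noncomputable def pc87 : PT := (PT.nd (nat_lit 1404) (PT.nd (nat_lit 702) (PT.nd (nat_lit 312) (PT.nd (nat_lit 156) (PT.nd (nat_lit 78) (PT.lf (nat_lit 31692) (nat_lit 6) (nat_lit 417) (nat_lit 2) (nat_lit 202) (nat_lit 209) (nat_lit 159)) (PT.lf (nat_lit 30856) (nat_lit 6) (nat_lit 406) (nat_lit 2) (nat_lit 203) (nat_lit 209) (nat_lit 158))) (PT.nd (nat_lit 78) (PT.lf (nat_lit 30096) (nat_lit 6) (nat_lit 396) (nat_lit 2) (nat_lit 204) (nat_lit 209) (nat_lit 157)) (PT.lf (nat_lit 29336) (nat_lit 6) (nat_lit 386) (nat_lit 2) (nat_lit 205) (nat_lit 209) (nat_lit 156)))) (PT.nd (nat_lit 156) (PT.nd (nat_lit 78) (PT.lf (nat_lit 28576) (nat_lit 6) (nat_lit 376) (nat_lit 2) (nat_lit 206) (nat_lit 209) (nat_lit 155)) (PT.lf (nat_lit 27816) (nat_lit 6) (nat_lit 366) (nat_lit 2) (nat_lit 207) (nat_lit 209) (nat_lit 154))) (PT.nd (nat_lit 78) (PT.lf (nat_lit 27132) (nat_lit 6) (nat_lit 357) (nat_lit 2) (nat_lit 208) (nat_lit 209) (nat_lit 153))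 (PT.nd (nat_lit 78) (PT.lf (nat_lit 26448) (nat_lit 3) (nat_lit 348) (nat_lit 0) (nat_lit 209) (nat_lit 209) (nat_lit 152)) (PT.lf (nat_lit 25688) (nat_lit 6) (nat_lit 338) (nat_lit 0) (nat_lit 210) (nat_lit 209) (nat_lit 151)))))) (PT.nd (nat_lit 312) (PT.nd (nat_lit 156) (PT.nd (nat_lit 78) (PT.lf (nat_lit 24928) (nat_lit 6) (nat_lit 328) (nat_lit 0) (nat_lit 211) (nat_lit 209) (nat_lit 150)) (PT.lf (nat_lit 24244) (nat_lit 6) (nat_lit 319) (nat_lit 0) (nat_lit 212) (nat_lit 209) (nat_lit 149))) (PT.nd (nat_lit 78) (PT.lf (nat_lit 23560) (nat_lit 6) (nat_lit 310) (nat_lit 0) (nat_lit 213) (nat_lit 209) (nat_lit 148)) (PT.lf (nat_lit 22876) (nat_lit 6) (nat_lit 301) (nat_lit 0) (nat_lit 214) (nat_lit 209) (nat_lit 147)))) (PT.nd (nat_lit 156) (PT.nd (nat_lit 78) (PT.lf (nat_lit 22192) (nat_lit 6) (nat_lit 292) (nat_lit 0) (nat_lit 215) (nat_lit 209) (nat_lit 146)) (PT.lf (nat_lit 21584) (nat_lit 6) (nat_lit 284) (nat_lit 0) (nat_lit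 216) (nat_lit 209) (nat_lit 145))) (PT.nd (nat_lit 78) (PT.lf (nat_lit 20900) (nat_lit 6) (nat_lit 275) (nat_lit 0) (nat_lit 217) (nat_lit 209) (nat_lit 144)) (PT.nd (nat_lit 78) (PT.lf (nat_lit 20292) (nat_lit 6) (nat_lit 267) (nat_lit 0) (nat_lit 218) (nat_lit 209) (nat_lit 143)) (PT.lf (nat_lit 19684) (nat_lit 6) (nat_lit 259) (nat_lit 0) (nat_lit 219) (nat_lit 209) (nat_lit 142))))))) (PT.nd (nat_lit 53430) (PT.nd (nat_lit 53040) (PT.nd (nat_lit 156) (PT.nd (nat_lit 78) (PT.lf (nat_lit 19076) (nat_lit 6) (nat_lit 251) (nat_lit 0) (nat_lit 220) (nat_lit 209) (nat_lit 141)) (PT.lf (nat_lit 18468) (nat_lit 6) (nat_lit 243) (nat_lit 0) (nat_lit 221) (nat_lit 209) (nat_lit 140))) (PT.nd (nat_lit 52806) (PT.lf (nat_lit 17936) (nat_lit 6) (nat_lit 236) (nat_lit 0) (nat_lit 222) (nat_lit 209) (nat_lit 139)) (PT.lf (nat_lit 17404) (nat_lit 6) (nat_lit 229) (nat_lit 5) (nat_lit 138) (nat_lit 210) (nat_lit 222)))) (PT.nd (nat_lit 156) (PT.nd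 (nat_lit 78) (PT.lf (nat_lit 18012) (nat_lit 6) (nat_lit 237) (nat_lit 5) (nat_lit 139) (nat_lit 210) (nat_lit 221)) (PT.lf (nat_lit 18544) (nat_lit 6) (nat_lit 244) (nat_lit 5) (nat_lit 140) (nat_lit 210) (nat_lit 220))) (PT.nd (nat_lit 78) (PT.lf (nat_lit 19152) (nat_lit 6) (nat_lit 252) (nat_lit 5) (nat_lit 141) (nat_lit 210) (nat_lit 219)) (PT.nd (nat_lit 78) (PT.lf (nat_lit 19760) (nat_lit 6) (nat_lit 260) (nat_lit 5) (nat_lit 142) (nat_lit 210) (nat_lit 218)) (PT.lf (nat_lit 20368) (nat_lit 6) (nat_lit 268) (nat_lit 5) (nat_lit 143) (nat_lit 210) (nat_lit 217)))))) (PT.nd (nat_lit 312) (PT.nd (nat_lit 156) (PT.nd (nat_lit 78) (PT.lf (nat_lit 20976) (nat_lit 6) (nat_lit 276) (nat_lit 5) (nat_lit 144) (nat_lit 210) (nat_lit 216)) (PT.lf (nat_lit 21660) (nat_lit 6) (nat_lit 285) (nat_lit 5) (nat_lit 145) (nat_lit 210) (nat_lit 215))) (PT.nd (nat_lit 78) (PT.lf (nat_lit 22268) (nat_lit 6) (nat_lit 293) (nat_lit 5) (nat_lit 146) (nat_lit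 210) (nat_lit 214)) (PT.lf (nat_lit 22952) (nat_lit 6) (nat_lit 302) (nat_lit 5) (nat_lit 147) (nat_lit 210) (nat_lit 213)))) (PT.nd (nat_lit 156) (PT.nd (nat_lit 78) (PT.lf (nat_lit 23636) (nat_lit 6) (nat_lit 311) (nat_lit 5) (nat_lit 148) (nat_lit 210) (nat_lit 212)) (PT.lf (nat_lit 24320) (nat_lit 6) (nat_lit 320) (nat_lit 5) (nat_lit 149) (nat_lit 210) (nat_lit 211))) (PT.nd (nat_lit 78) (PT.lf (nat_lit 25004) (nat_lit 3) (nat_lit 329) (nat_lit 4) (nat_lit 150) (nat_lit 210) (nat_lit 210)) (PT.nd (nat_lit 78) (PT.lf (nat_lit 25688) (nat_lit 6) (nat_lit 338) (nat_lit 4) (nat_lit 151) (nat_lit 210) (nat_lit 209)) (PT.lf (nat_lit 26372) (nat_lit 6) (nat_lit 347) (nat_lit 4) (nat_lit 152) (nat_lit 210) (nat_lit 208))))))))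
noncomputable def pc88 : PT := (PT.nd (nat_lit 1326) (PT.nd (nat_lit 624) (PT.nd (nat_lit 312) (PT.nd (nat_lit 156) (PT.nd (nat_lit 78) (PT.lf (nat_lit 27056) (nat_lit 6) (nat_lit 356) (nat_lit 4) (nat_lit 153) (nat_lit 210) (nat_lit 207)) (PT.lf (nat_lit 27740) (nat_lit 6) (nat_lit 365) (nat_lit 4) (nat_lit 154) (nat_lit 210) (nat_lit 206))) (PT.nd (nat_lit 78) (PT.lf (nat_lit 28500) (nat_lit 6) (nat_lit 375) (nat_lit 4) (nat_lit 155) (nat_lit 210) (nat_lit 205)) (PT.lf (nat_lit 29260) (nat_lit 6) (nat_lit 385) (nat_lit 4) (nat_lit 156) (nat_lit 210) (nat_lit 204)))) (PT.nd (nat_lit 156) (PT.nd (nat_lit 78) (PT.lf (nat_lit 30020) (nat_lit 6) (nat_lit 395) (nat_lit 4) (nat_lit 157) (nat_lit 210) (nat_lit 203)) (PT.lf (nat_lit 30780) (nat_lit 6) (nat_lit 405) (nat_lit 4) (nat_lit 158) (nat_lit 210) (nat_lit 202))) (PT.nd (nat_lit 78) (PT.lf (nat_lit 31616) (nat_lit 6) (nat_lit 416) (nat_lit 4) (nat_lit 159) (nat_lit 210) (nat_lit 201))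 (PT.lf (nat_lit 32452) (nat_lit 6) (nat_lit 427) (nat_lit 4) (nat_lit 160) (nat_lit 210) (nat_lit 200))))) (PT.nd (nat_lit 312) (PT.nd (nat_lit 156) (PT.nd (nat_lit 78) (PT.lf (nat_lit 33364) (nat_lit 6) (nat_lit 439) (nat_lit 4) (nat_lit 161) (nat_lit 210) (nat_lit 199)) (PT.lf (nat_lit 34200) (nat_lit 6) (nat_lit 450) (nat_lit 4) (nat_lit 162) (nat_lit 210) (nat_lit 198))) (PT.nd (nat_lit 78) (PT.lf (nat_lit 35112) (nat_lit 6) (nat_lit 462) (nat_lit 4) (nat_lit 163) (nat_lit 210) (nat_lit 197)) (PT.lf (nat_lit 36024) (nat_lit 6) (nat_lit 474) (nat_lit 4) (nat_lit 164) (nat_lit 210) (nat_lit 196)))) (PT.nd (nat_lit 156) (PT.nd (nat_lit 78) (PT.lf (nat_lit 37164) (nat_lit 6) (nat_lit 489) (nat_lit 4) (nat_lit 165) (nat_lit 210) (nat_lit 195)) (PT.lf (nat_lit 38988) (nat_lit 6) (nat_lit 513) (nat_lit 4) (nat_lit 166) (nat_lit 210) (nat_lit 194))) (PT.nd (nat_lit 78) (PT.lf (nat_lit 40736) (nat_lit 6) (nat_lit 536) (nat_lit 4) (nat_lit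 167) (nat_lit 210) (nat_lit 193)) (PT.nd (nat_lit 78) (PT.lf (nat_lit 42408) (nat_lit 6) (nat_lit 558) (nat_lit 4) (nat_lit 168) (nat_lit 210) (nat_lit 192)) (PT.lf (nat_lit 44004) (nat_lit 6) (nat_lit 579) (nat_lit 4) (nat_lit 169) (nat_lit 210) (nat_lit 191))))))) (PT.nd (nat_lit 702) (PT.nd (nat_lit 312) (PT.nd (nat_lit 156) (PT.nd (nat_lit 78) (PT.lf (nat_lit 45524) (nat_lit 6) (nat_lit 599) (nat_lit 4) (nat_lit 170) (nat_lit 210) (nat_lit 190)) (PT.lf (nat_lit 45448) (nat_lit 6) (nat_lit 598) (nat_lit 4) (nat_lit 171) (nat_lit 210) (nat_lit 189))) (PT.nd (nat_lit 78) (PT.lf (nat_lit 45372) (nat_lit 6) (nat_lit 597) (nat_lit 4) (nat_lit 172) (nat_lit 210) (nat_lit 188)) (PT.lf (nat_lit 45296) (nat_lit 6) (nat_lit 596) (nat_lit 4) (nat_lit 173) (nat_lit 210) (nat_lit 187)))) (PT.nd (nat_lit 156) (PT.nd (nat_lit 78) (PT.lf (nat_lit 45220) (nat_lit 6) (nat_lit 595) (nat_lit 4) (nat_lit 174) (nat_lit 210) (nat_lit 186)) (PT.lf (nat_lit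 45144) (nat_lit 6) (nat_lit 594) (nat_lit 4) (nat_lit 175) (nat_lit 210) (nat_lit 185))) (PT.nd (nat_lit 78) (PT.lf (nat_lit 45068) (nat_lit 6) (nat_lit 593) (nat_lit 4) (nat_lit 176) (nat_lit 210) (nat_lit 184)) (PT.nd (nat_lit 78) (PT.lf (nat_lit 44992) (nat_lit 6) (nat_lit 592) (nat_lit 4) (nat_lit 177) (nat_lit 210) (nat_lit 183)) (PT.lf (nat_lit 44916) (nat_lit 6) (nat_lit 591) (nat_lit 4) (nat_lit 178) (nat_lit 210) (nat_lit 182)))))) (PT.nd (nat_lit 312) (PT.nd (nat_lit 156) (PT.nd (nat_lit 78) (PT.lf (nat_lit 44840) (nat_lit 6) (nat_lit 590) (nat_lit 4) (nat_lit 179) (nat_lit 210) (nat_lit 181)) (PT.lf (nat_lit 44764) (nat_lit 3) (nat_lit 589) (nat_lit 2) (nat_lit 180) (nat_lit 210) (nat_lit 180))) (PT.nd (nat_lit 78) (PT.lf (nat_lit 44840) (nat_lit 6) (nat_lit 590) (nat_lit 2) (nat_lit 181) (nat_lit 210) (nat_lit 179)) (PT.lf (nat_lit 44916) (nat_lit 6) (nat_lit 591) (nat_lit 2) (nat_lit 182) (nat_lit 210) (nat_lit 178)))) (PT.nd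 (nat_lit 156) (PT.nd (nat_lit 78) (PT.lf (nat_lit 44992) (nat_lit 6) (nat_lit 592) (nat_lit 2) (nat_lit 183) (nat_lit 210) (nat_lit 177)) (PT.lf (nat_lit 45068) (nat_lit 6) (nat_lit 593) (nat_lit 2) (nat_lit 184) (nat_lit 210) (nat_lit 176))) (PT.nd (nat_lit 78) (PT.lf (nat_lit 45144) (nat_lit 6) (nat_lit 594) (nat_lit 2) (nat_lit 185) (nat_lit 210) (nat_lit 175)) (PT.nd (nat_lit 78) (PT.lf (nat_lit 45220) (nat_lit 6) (nat_lit 595) (nat_lit 2) (nat_lit 186) (nat_lit 210) (nat_lit 174)) (PT.lf (nat_lit 45296) (nat_lit 6) (nat_lit 596) (nat_lit 2) (nat_lit 187) (nat_lit 210) (nat_lit 173))))))))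
noncomputable def pc89 : PT := (PT.nd (nat_lit 1404) (PT.nd (nat_lit 702) (PT.nd (nat_lit 312) (PT.nd (nat_lit 156) (PT.nd (nat_lit 78) (PT.lf (nat_lit 45372) (nat_lit 6) (nat_lit 597) (nat_lit 2) (nat_lit 188) (nat_lit 210) (nat_lit 172)) (PT.lf (nat_lit 45448) (nat_lit 6) (nat_lit 598) (nat_lit 2) (nat_lit 189) (nat_lit 210) (nat_lit 171))) (PT.nd (nat_lit 78) (PT.lf (nat_lit 45524) (nat_lit 6) (nat_lit 599) (nat_lit 2) (nat_lit 190) (nat_lit 210) (nat_lit 170)) (PT.lf (nat_lit 44004) (nat_lit 6) (nat_lit 579) (nat_lit 2) (nat_lit 191) (nat_lit 210) (nat_lit 169)))) (PT.nd (nat_lit 156) (PT.nd (nat_lit 78) (PT.lf (nat_lit 42408) (nat_lit 6) (nat_lit 558) (nat_lit 2) (nat_lit 192) (nat_lit 210) (nat_lit 168)) (PT.lf (nat_lit 40736) (nat_lit 6) (nat_lit 536) (nat_lit 2) (nat_lit 193) (nat_lit 210) (nat_lit 167))) (PT.nd (nat_lit 78) (PT.lf (nat_lit 38988) (nat_lit 6) (nat_lit 513) (nat_lit 2) (nat_lit 194) (nat_lit 210) (nat_lit 166))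 (PT.nd (nat_lit 78) (PT.lf (nat_lit 37164) (nat_lit 6) (nat_lit 489) (nat_lit 2) (nat_lit 195) (nat_lit 210) (nat_lit 165)) (PT.lf (nat_lit 36024) (nat_lit 6) (nat_lit 474) (nat_lit 2) (nat_lit 196) (nat_lit 210) (nat_lit 164)))))) (PT.nd (nat_lit 312) (PT.nd (nat_lit 156) (PT.nd (nat_lit 78) (PT.lf (nat_lit 35112) (nat_lit 6) (nat_lit 462) (nat_lit 2) (nat_lit 197) (nat_lit 210) (nat_lit 163)) (PT.lf (nat_lit 34200) (nat_lit 6) (nat_lit 450) (nat_lit 2) (nat_lit 198) (nat_lit 210) (nat_lit 162))) (PT.nd (nat_lit 78) (PT.lf (nat_lit 33364) (nat_lit 6) (nat_lit 439) (nat_lit 2) (nat_lit 199) (nat_lit 210) (nat_lit 161)) (PT.lf (nat_lit 32452) (nat_lit 6) (nat_lit 427) (nat_lit 2) (nat_lit 200) (nat_lit 210) (nat_lit 160)))) (PT.nd (nat_lit 156) (PT.nd (nat_lit 78) (PT.lf (nat_lit 31616) (nat_lit 6) (nat_lit 416) (nat_lit 2) (nat_lit 201) (nat_lit 210) (nat_lit 159)) (PT.lf (nat_lit 30780) (nat_lit 6) (nat_lit 405) (nat_lit 2) (nat_lit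 202) (nat_lit 210) (nat_lit 158))) (PT.nd (nat_lit 78) (PT.lf (nat_lit 30020) (nat_lit 6) (nat_lit 395) (nat_lit 2) (nat_lit 203) (nat_lit 210) (nat_lit 157)) (PT.nd (nat_lit 78) (PT.lf (nat_lit 29260) (nat_lit 6) (nat_lit 385) (nat_lit 2) (nat_lit 204) (nat_lit 210) (nat_lit 156)) (PT.lf (nat_lit 28500) (nat_lit 6) (nat_lit 375) (nat_lit 2) (nat_lit 205) (nat_lit 210) (nat_lit 155))))))) (PT.nd (nat_lit 702) (PT.nd (nat_lit 312) (PT.nd (nat_lit 156) (PT.nd (nat_lit 78) (PT.lf (nat_lit 27740) (nat_lit 6) (nat_lit 365) (nat_lit 2) (nat_lit 206) (nat_lit 210) (nat_lit 154)) (PT.lf (nat_lit 27056) (nat_lit 6) (nat_lit 356) (nat_lit 2) (nat_lit 207) (nat_lit 210) (nat_lit 153))) (PT.nd (nat_lit 78) (PT.lf (nat_lit 26372) (nat_lit 6) (nat_lit 347) (nat_lit 2) (nat_lit 208) (nat_lit 210) (nat_lit 152)) (PT.lf (nat_lit 25688) (nat_lit 6) (nat_lit 338) (nat_lit 2) (nat_lit 209) (nat_lit 210) (nat_lit 151)))) (PT.nd (nat_lit 156) (PT.nd (nat_lit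 78) (PT.lf (nat_lit 25004) (nat_lit 3) (nat_lit 329) (nat_lit 0) (nat_lit 210) (nat_lit 210) (nat_lit 150)) (PT.lf (nat_lit 24320) (nat_lit 6) (nat_lit 320) (nat_lit 0) (nat_lit 211) (nat_lit 210) (nat_lit 149))) (PT.nd (nat_lit 78) (PT.lf (nat_lit 23636) (nat_lit 6) (nat_lit 311) (nat_lit 0) (nat_lit 212) (nat_lit 210) (nat_lit 148)) (PT.nd (nat_lit 78) (PT.lf (nat_lit 22952) (nat_lit 6) (nat_lit 302) (nat_lit 0) (nat_lit 213) (nat_lit 210) (nat_lit 147)) (PT.lf (nat_lit 22268) (nat_lit 6) (nat_lit 293) (nat_lit 0) (nat_lit 214) (nat_lit 210) (nat_lit 146)))))) (PT.nd (nat_lit 312) (PT.nd (nat_lit 156) (PT.nd (nat_lit 78) (PT.lf (nat_lit 21660) (nat_lit 6) (nat_lit 285) (nat_lit 0) (nat_lit 215) (nat_lit 210) (nat_lit 145)) (PT.lf (nat_lit 20976) (nat_lit 6) (nat_lit 276) (nat_lit 0) (nat_lit 216) (nat_lit 210) (nat_lit 144))) (PT.nd (nat_lit 78) (PT.lf (nat_lit 20368) (nat_lit 6) (nat_lit 268) (nat_lit 0) (nat_lit 217) (nat_lit 210)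 (nat_lit 143)) (PT.lf (nat_lit 19760) (nat_lit 6) (nat_lit 260) (nat_lit 0) (nat_lit 218) (nat_lit 210) (nat_lit 142)))) (PT.nd (nat_lit 156) (PT.nd (nat_lit 78) (PT.lf (nat_lit 19152) (nat_lit 6) (nat_lit 252) (nat_lit 0) (nat_lit 219) (nat_lit 210) (nat_lit 141)) (PT.lf (nat_lit 18544) (nat_lit 6) (nat_lit 244) (nat_lit 0) (nat_lit 220) (nat_lit 210) (nat_lit 140))) (PT.nd (nat_lit 78) (PT.lf (nat_lit 18012) (nat_lit 6) (nat_lit 237) (nat_lit 0) (nat_lit 221) (nat_lit 210) (nat_lit 139)) (PT.nd (nat_lit 52650) (PT.lf (nat_lit 17404) (nat_lit 6) (nat_lit 229) (nat_lit 0) (nat_lit 222) (nat_lit 210) (nat_lit 138)) (PT.lf (nat_lit 16416) (nat_lit 6) (nat_lit 216) (nat_lit 5) (nat_lit 136) (nat_lit 211) (nat_lit 223))))))))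
noncomputable def pc90 : PT := (PT.nd (nat_lit 1404) (PT.nd (nat_lit 702) (PT.nd (nat_lit 312) (PT.nd (nat_lit 156) (PT.nd (nat_lit 78) (PT.lf (nat_lit 16948) (nat_lit 6) (nat_lit 223) (nat_lit 5) (nat_lit 137) (nat_lit 211) (nat_lit 222)) (PT.lf (nat_lit 17480) (nat_lit 6) (nat_lit 230) (nat_lit 5) (nat_lit 138) (nat_lit 211) (nat_lit 221))) (PT.nd (nat_lit 78) (PT.lf (nat_lit 18088) (nat_lit 6) (nat_lit 238) (nat_lit 5) (nat_lit 139) (nat_lit 211) (nat_lit 220)) (PT.lf (nat_lit 18620) (nat_lit 6) (nat_lit 245) (nat_lit 5) (nat_lit 140) (nat_lit 211) (nat_lit 219)))) (PT.nd (nat_lit 156) (PT.nd (nat_lit 78) (PT.lf (nat_lit 19228) (nat_lit 6) (nat_lit 253) (nat_lit 5) (nat_lit 141) (nat_lit 211) (nat_lit 218)) (PT.lf (nat_lit 19836) (nat_lit 6) (nat_lit 261) (nat_lit 5) (nat_lit 142) (nat_lit 211) (nat_lit 217))) (PT.nd (nat_lit 78) (PT.lf (nat_lit 20444) (nat_lit 6) (nat_lit 269) (nat_lit 5) (nat_lit 143) (nat_lit 211) (nat_lit 216))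 (PT.nd (nat_lit 78) (PT.lf (nat_lit 21052) (nat_lit 6) (nat_lit 277) (nat_lit 5) (nat_lit 144) (nat_lit 211) (nat_lit 215)) (PT.lf (nat_lit 21736) (nat_lit 6) (nat_lit 286) (nat_lit 5) (nat_lit 145) (nat_lit 211) (nat_lit 214)))))) (PT.nd (nat_lit 312) (PT.nd (nat_lit 156) (PT.nd (nat_lit 78) (PT.lf (nat_lit 22344) (nat_lit 6) (nat_lit 294) (nat_lit 5) (nat_lit 146) (nat_lit 211) (nat_lit 213)) (PT.lf (nat_lit 23028) (nat_lit 6) (nat_lit 303) (nat_lit 5) (nat_lit 147) (nat_lit 211) (nat_lit 212))) (PT.nd (nat_lit 78) (PT.lf (nat_lit 23712) (nat_lit 3) (nat_lit 312) (nat_lit 4) (nat_lit 148) (nat_lit 211) (nat_lit 211)) (PT.lf (nat_lit 24320) (nat_lit 6) (nat_lit 320) (nat_lit 4) (nat_lit 149) (nat_lit 211) (nat_lit 210)))) (PT.nd (nat_lit 156) (PT.nd (nat_lit 78) (PT.lf (nat_lit 24928) (nat_lit 6) (nat_lit 328) (nat_lit 4) (nat_lit 150) (nat_lit 211) (nat_lit 209)) (PT.lf (nat_lit 25612) (nat_lit 6) (nat_lit 337) (nat_lit 4) (nat_lit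 151) (nat_lit 211) (nat_lit 208))) (PT.nd (nat_lit 78) (PT.lf (nat_lit 26296) (nat_lit 6) (nat_lit 346) (nat_lit 4) (nat_lit 152) (nat_lit 211) (nat_lit 207)) (PT.nd (nat_lit 78) (PT.lf (nat_lit 26980) (nat_lit 6) (nat_lit 355) (nat_lit 4) (nat_lit 153) (nat_lit 211) (nat_lit 206)) (PT.lf (nat_lit 27664) (nat_lit 6) (nat_lit 364) (nat_lit 4) (nat_lit 154) (nat_lit 211) (nat_lit 205))))))) (PT.nd (nat_lit 702) (PT.nd (nat_lit 312) (PT.nd (nat_lit 156) (PT.nd (nat_lit 78) (PT.lf (nat_lit 28424) (nat_lit 6) (nat_lit 374) (nat_lit 4) (nat_lit 155) (nat_lit 211) (nat_lit 204)) (PT.lf (nat_lit 29184) (nat_lit 6) (nat_lit 384) (nat_lit 4) (nat_lit 156) (nat_lit 211) (nat_lit 203))) (PT.nd (nat_lit 78) (PT.lf (nat_lit 29944) (nat_lit 6) (nat_lit 394) (nat_lit 4) (nat_lit 157) (nat_lit 211) (nat_lit 202)) (PT.lf (nat_lit 30704) (nat_lit 6) (nat_lit 404) (nat_lit 4) (nat_lit 158) (nat_lit 211) (nat_lit 201)))) (PT.nd (nat_lit 156) (PT.nd (nat_lit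 78) (PT.lf (nat_lit 31540) (nat_lit 6) (nat_lit 415) (nat_lit 4) (nat_lit 159) (nat_lit 211) (nat_lit 200)) (PT.lf (nat_lit 32376) (nat_lit 6) (nat_lit 426) (nat_lit 4) (nat_lit 160) (nat_lit 211) (nat_lit 199))) (PT.nd (nat_lit 78) (PT.lf (nat_lit 33288) (nat_lit 6) (nat_lit 438) (nat_lit 4) (nat_lit 161) (nat_lit 211) (nat_lit 198)) (PT.nd (nat_lit 78) (PT.lf (nat_lit 34124) (nat_lit 6) (nat_lit 449) (nat_lit 4) (nat_lit 162) (nat_lit 211) (nat_lit 197)) (PT.lf (nat_lit 35036) (nat_lit 6) (nat_lit 461) (nat_lit 4) (nat_lit 163) (nat_lit 211) (nat_lit 196)))))) (PT.nd (nat_lit 312) (PT.nd (nat_lit 156) (PT.nd (nat_lit 78) (PT.lf (nat_lit 35948) (nat_lit 6) (nat_lit 473) (nat_lit 4) (nat_lit 164) (nat_lit 211) (nat_lit 195)) (PT.lf (nat_lit 37088) (nat_lit 6) (nat_lit 488) (nat_lit 4) (nat_lit 165) (nat_lit 211) (nat_lit 194))) (PT.nd (nat_lit 78) (PT.lf (nat_lit 38912) (nat_lit 6) (nat_lit 512) (nat_lit 4) (nat_lit 166) (nat_lit 211)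 (nat_lit 193)) (PT.lf (nat_lit 40660) (nat_lit 6) (nat_lit 535) (nat_lit 4) (nat_lit 167) (nat_lit 211) (nat_lit 192)))) (PT.nd (nat_lit 156) (PT.nd (nat_lit 78) (PT.lf (nat_lit 42332) (nat_lit 6) (nat_lit 557) (nat_lit 4) (nat_lit 168) (nat_lit 211) (nat_lit 191)) (PT.lf (nat_lit 43928) (nat_lit 6) (nat_lit 578) (nat_lit 4) (nat_lit 169) (nat_lit 211) (nat_lit 190))) (PT.nd (nat_lit 78) (PT.lf (nat_lit 43852) (nat_lit 6) (nat_lit 577) (nat_lit 4) (nat_lit 170) (nat_lit 211) (nat_lit 189)) (PT.nd (nat_lit 78) (PT.lf (nat_lit 43776) (nat_lit 6) (nat_lit 576) (nat_lit 4) (nat_lit 171) (nat_lit 211) (nat_lit 188)) (PT.lf (nat_lit 43700) (nat_lit 6) (nat_lit 575) (nat_lit 4) (nat_lit 172) (nat_lit 211) (nat_lit 187))))))))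
noncomputable def pc91 : PT := (PT.nd (nat_lit 1404) (PT.nd (nat_lit 702) (PT.nd (nat_lit 312) (PT.nd (nat_lit 156) (PT.nd (nat_lit 78) (PT.lf (nat_lit 43624) (nat_lit 6) (nat_lit 574) (nat_lit 4) (nat_lit 173) (nat_lit 211) (nat_lit 186)) (PT.lf (nat_lit 43548) (nat_lit 6) (nat_lit 573) (nat_lit 4) (nat_lit 174) (nat_lit 211) (nat_lit 185))) (PT.nd (nat_lit 78) (PT.lf (nat_lit 43472) (nat_lit 6) (nat_lit 572) (nat_lit 4) (nat_lit 175) (nat_lit 211) (nat_lit 184)) (PT.lf (nat_lit 43396) (nat_lit 6) (nat_lit 571) (nat_lit 4) (nat_lit 176) (nat_lit 211) (nat_lit 183)))) (PT.nd (nat_lit 156) (PT.nd (nat_lit 78) (PT.lf (nat_lit 43320) (nat_lit 6) (nat_lit 570) (nat_lit 4) (nat_lit 177) (nat_lit 211) (nat_lit 182)) (PT.lf (nat_lit 43244) (nat_lit 6) (nat_lit 569) (nat_lit 4) (nat_lit 178) (nat_lit 211) (nat_lit 181))) (PT.nd (nat_lit 78) (PT.lf (nat_lit 43168) (nat_lit 6) (nat_lit 568) (nat_lit 4) (nat_lit 179) (nat_lit 211) (nat_lit 180))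 (PT.nd (nat_lit 78) (PT.lf (nat_lit 43168) (nat_lit 6) (nat_lit 568) (nat_lit 2) (nat_lit 180) (nat_lit 211) (nat_lit 179)) (PT.lf (nat_lit 43244) (nat_lit 6) (nat_lit 569) (nat_lit 2) (nat_lit 181) (nat_lit 211) (nat_lit 178)))))) (PT.nd (nat_lit 312) (PT.nd (nat_lit 156) (PT.nd (nat_lit 78) (PT.lf (nat_lit 43320) (nat_lit 6) (nat_lit 570) (nat_lit 2) (nat_lit 182) (nat_lit 211) (nat_lit 177)) (PT.lf (nat_lit 43396) (nat_lit 6) (nat_lit 571) (nat_lit 2) (nat_lit 183) (nat_lit 211) (nat_lit 176))) (PT.nd (nat_lit 78) (PT.lf (nat_lit 43472) (nat_lit 6) (nat_lit 572) (nat_lit 2) (nat_lit 184) (nat_lit 211) (nat_lit 175)) (PT.lf (nat_lit 43548) (nat_lit 6) (nat_lit 573) (nat_lit 2) (nat_lit 185) (nat_lit 211) (nat_lit 174)))) (PT.nd (nat_lit 156) (PT.nd (nat_lit 78) (PT.lf (nat_lit 43624) (nat_lit 6) (nat_lit 574) (nat_lit 2) (nat_lit 186) (nat_lit 211) (nat_lit 173)) (PT.lf (nat_lit 43700) (nat_lit 6) (nat_lit 575) (nat_lit 2) (nat_lit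 187) (nat_lit 211) (nat_lit 172))) (PT.nd (nat_lit 78) (PT.lf (nat_lit 43776) (nat_lit 6) (nat_lit 576) (nat_lit 2) (nat_lit 188) (nat_lit 211) (nat_lit 171)) (PT.nd (nat_lit 78) (PT.lf (nat_lit 43852) (nat_lit 6) (nat_lit 577) (nat_lit 2) (nat_lit 189) (nat_lit 211) (nat_lit 170)) (PT.lf (nat_lit 43928) (nat_lit 6) (nat_lit 578) (nat_lit 2) (nat_lit 190) (nat_lit 211) (nat_lit 169))))))) (PT.nd (nat_lit 702) (PT.nd (nat_lit 312) (PT.nd (nat_lit 156) (PT.nd (nat_lit 78) (PT.lf (nat_lit 42332) (nat_lit 6) (nat_lit 557) (nat_lit 2) (nat_lit 191) (nat_lit 211) (nat_lit 168)) (PT.lf (nat_lit 40660) (nat_lit 6) (nat_lit 535) (nat_lit 2) (nat_lit 192) (nat_lit 211) (nat_lit 167))) (PT.nd (nat_lit 78) (PT.lf (nat_lit 38912) (nat_lit 6) (nat_lit 512) (nat_lit 2) (nat_lit 193) (nat_lit 211) (nat_lit 166)) (PT.lf (nat_lit 37088) (nat_lit 6) (nat_lit 488) (nat_lit 2) (nat_lit 194) (nat_lit 211) (nat_lit 165)))) (PT.nd (nat_lit 156) (PT.nd (nat_lit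 78) (PT.lf (nat_lit 35948) (nat_lit 6) (nat_lit 473) (nat_lit 2) (nat_lit 195) (nat_lit 211) (nat_lit 164)) (PT.lf (nat_lit 35036) (nat_lit 6) (nat_lit 461) (nat_lit 2) (nat_lit 196) (nat_lit 211) (nat_lit 163))) (PT.nd (nat_lit 78) (PT.lf (nat_lit 34124) (nat_lit 6) (nat_lit 449) (nat_lit 2) (nat_lit 197) (nat_lit 211) (nat_lit 162)) (PT.nd (nat_lit 78) (PT.lf (nat_lit 33288) (nat_lit 6) (nat_lit 438) (nat_lit 2) (nat_lit 198) (nat_lit 211) (nat_lit 161)) (PT.lf (nat_lit 32376) (nat_lit 6) (nat_lit 426) (nat_lit 2) (nat_lit 199) (nat_lit 211) (nat_lit 160)))))) (PT.nd (nat_lit 312) (PT.nd (nat_lit 156) (PT.nd (nat_lit 78) (PT.lf (nat_lit 31540) (nat_lit 6) (nat_lit 415) (nat_lit 2) (nat_lit 200) (nat_lit 211) (nat_lit 159)) (PT.lf (nat_lit 30704) (nat_lit 6) (nat_lit 404) (nat_lit 2) (nat_lit 201) (nat_lit 211) (nat_lit 158))) (PT.nd (nat_lit 78) (PT.lf (nat_lit 29944) (nat_lit 6) (nat_lit 394) (nat_lit 2) (nat_lit 202) (nat_lit 211)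 (nat_lit 157)) (PT.lf (nat_lit 29184) (nat_lit 6) (nat_lit 384) (nat_lit 2) (nat_lit 203) (nat_lit 211) (nat_lit 156)))) (PT.nd (nat_lit 156) (PT.nd (nat_lit 78) (PT.lf (nat_lit 28424) (nat_lit 6) (nat_lit 374) (nat_lit 2) (nat_lit 204) (nat_lit 211) (nat_lit 155)) (PT.lf (nat_lit 27664) (nat_lit 6) (nat_lit 364) (nat_lit 2) (nat_lit 205) (nat_lit 211) (nat_lit 154))) (PT.nd (nat_lit 78) (PT.lf (nat_lit 26980) (nat_lit 6) (nat_lit 355) (nat_lit 2) (nat_lit 206) (nat_lit 211) (nat_lit 153)) (PT.nd (nat_lit 78) (PT.lf (nat_lit 26296) (nat_lit 6) (nat_lit 346) (nat_lit 2) (nat_lit 207) (nat_lit 211) (nat_lit 152)) (PT.lf (nat_lit 25612) (nat_lit 6) (nat_lit 337) (nat_lit 2) (nat_lit 208) (nat_lit 211) (nat_lit 151))))))))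
noncomputable def pc92 : PT := (PT.nd (nat_lit 53742) (PT.nd (nat_lit 624) (PT.nd (nat_lit 312) (PT.nd (nat_lit 156) (PT.nd (nat_lit 78) (PT.lf (nat_lit 24928) (nat_lit 6) (nat_lit 328) (nat_lit 2) (nat_lit 209) (nat_lit 211) (nat_lit 150)) (PT.lf (nat_lit 24320) (nat_lit 6) (nat_lit 320) (nat_lit 2) (nat_lit 210) (nat_lit 211) (nat_lit 149))) (PT.nd (nat_lit 78) (PT.lf (nat_lit 23712) (nat_lit 3) (nat_lit 312) (nat_lit 0) (nat_lit 211) (nat_lit 211) (nat_lit 148)) (PT.lf (nat_lit 23028) (nat_lit 6) (nat_lit 303) (nat_lit 0) (nat_lit 212) (nat_lit 211) (nat_lit 147)))) (PT.nd (nat_lit 156) (PT.nd (nat_lit 78) (PT.lf (nat_lit 22344) (nat_lit 6) (nat_lit 294) (nat_lit 0) (nat_lit 213) (nat_lit 211) (nat_lit 146)) (PT.lf (nat_lit 21736) (nat_lit 6) (nat_lit 286) (nat_lit 0) (nat_lit 214) (nat_lit 211) (nat_lit 145))) (PT.nd (nat_lit 78) (PT.lf (nat_lit 21052) (nat_lit 6) (nat_lit 277) (nat_lit 0) (nat_lit 215) (nat_lit 211) (nat_lit 144))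 (PT.lf (nat_lit 20444) (nat_lit 6) (nat_lit 269) (nat_lit 0) (nat_lit 216) (nat_lit 211) (nat_lit 143))))) (PT.nd (nat_lit 312) (PT.nd (nat_lit 156) (PT.nd (nat_lit 78) (PT.lf (nat_lit 19836) (nat_lit 6) (nat_lit 261) (nat_lit 0) (nat_lit 217) (nat_lit 211) (nat_lit 142)) (PT.lf (nat_lit 19228) (nat_lit 6) (nat_lit 253) (nat_lit 0) (nat_lit 218) (nat_lit 211) (nat_lit 141))) (PT.nd (nat_lit 78) (PT.lf (nat_lit 18620) (nat_lit 6) (nat_lit 245) (nat_lit 0) (nat_lit 219) (nat_lit 211) (nat_lit 140)) (PT.lf (nat_lit 18088) (nat_lit 6) (nat_lit 238) (nat_lit 0) (nat_lit 220) (nat_lit 211) (nat_lit 139)))) (PT.nd (nat_lit 156) (PT.nd (nat_lit 78) (PT.lf (nat_lit 17480) (nat_lit 6) (nat_lit 230) (nat_lit 0) (nat_lit 221) (nat_lit 211) (nat_lit 138)) (PT.lf (nat_lit 16948) (nat_lit 6) (nat_lit 223) (nat_lit 0) (nat_lit 222) (nat_lit 211) (nat_lit 137))) (PT.nd (nat_lit 52494) (PT.lf (nat_lit 16416) (nat_lit 6) (nat_lit 216) (nat_lit 0) (nat_lit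 223) (nat_lit 211) (nat_lit 136)) (PT.nd (nat_lit 78) (PT.lf (nat_lit 15960) (nat_lit 6) (nat_lit 210) (nat_lit 5) (nat_lit 135) (nat_lit 212) (nat_lit 223)) (PT.lf (nat_lit 16492) (nat_lit 6) (nat_lit 217) (nat_lit 5) (nat_lit 136) (nat_lit 212) (nat_lit 222))))))) (PT.nd (nat_lit 702) (PT.nd (nat_lit 312) (PT.nd (nat_lit 156) (PT.nd (nat_lit 78) (PT.lf (nat_lit 17024) (nat_lit 6) (nat_lit 224) (nat_lit 5) (nat_lit 137) (nat_lit 212) (nat_lit 221)) (PT.lf (nat_lit 17556) (nat_lit 6) (nat_lit 231) (nat_lit 5) (nat_lit 138) (nat_lit 212) (nat_lit 220))) (PT.nd (nat_lit 78) (PT.lf (nat_lit 18164) (nat_lit 6) (nat_lit 239) (nat_lit 5) (nat_lit 139) (nat_lit 212) (nat_lit 219)) (PT.lf (nat_lit 18696) (nat_lit 6) (nat_lit 246) (nat_lit 5) (nat_lit 140) (nat_lit 212) (nat_lit 218)))) (PT.nd (nat_lit 156) (PT.nd (nat_lit 78) (PT.lf (nat_lit 19304) (nat_lit 6) (nat_lit 254) (nat_lit 5) (nat_lit 141) (nat_lit 212) (nat_lit 217)) (PT.lf (nat_lit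 19912) (nat_lit 6) (nat_lit 262) (nat_lit 5) (nat_lit 142) (nat_lit 212) (nat_lit 216))) (PT.nd (nat_lit 78) (PT.lf (nat_lit 20520) (nat_lit 6) (nat_lit 270) (nat_lit 5) (nat_lit 143) (nat_lit 212) (nat_lit 215)) (PT.nd (nat_lit 78) (PT.lf (nat_lit 21128) (nat_lit 6) (nat_lit 278) (nat_lit 5) (nat_lit 144) (nat_lit 212) (nat_lit 214)) (PT.lf (nat_lit 21812) (nat_lit 6) (nat_lit 287) (nat_lit 5) (nat_lit 145) (nat_lit 212) (nat_lit 213)))))) (PT.nd (nat_lit 312) (PT.nd (nat_lit 156) (PT.nd (nat_lit 78) (PT.lf (nat_lit 22420) (nat_lit 3) (nat_lit 295) (nat_lit 4) (nat_lit 146) (nat_lit 212) (nat_lit 212)) (PT.lf (nat_lit 23028) (nat_lit 6) (nat_lit 303) (nat_lit 4) (nat_lit 147) (nat_lit 212) (nat_lit 211))) (PT.nd (nat_lit 78) (PT.lf (nat_lit 23636) (nat_lit 6) (nat_lit 311) (nat_lit 4) (nat_lit 148) (nat_lit 212) (nat_lit 210)) (PT.lf (nat_lit 24244) (nat_lit 6) (nat_lit 319) (nat_lit 4) (nat_lit 149) (nat_lit 212) (nat_lit 209)))) (PT.nd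 (nat_lit 156) (PT.nd (nat_lit 78) (PT.lf (nat_lit 24852) (nat_lit 6) (nat_lit 327) (nat_lit 4) (nat_lit 150) (nat_lit 212) (nat_lit 208)) (PT.lf (nat_lit 25536) (nat_lit 6) (nat_lit 336) (nat_lit 4) (nat_lit 151) (nat_lit 212) (nat_lit 207))) (PT.nd (nat_lit 78) (PT.lf (nat_lit 26220) (nat_lit 6) (nat_lit 345) (nat_lit 4) (nat_lit 152) (nat_lit 212) (nat_lit 206)) (PT.nd (nat_lit 78) (PT.lf (nat_lit 26904) (nat_lit 6) (nat_lit 354) (nat_lit 4) (nat_lit 153) (nat_lit 212) (nat_lit 205)) (PT.lf (nat_lit 27588) (nat_lit 6) (nat_lit 363) (nat_lit 4) (nat_lit 154) (nat_lit 212) (nat_lit 204))))))))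
noncomputable def pc93 : PT := (PT.nd (nat_lit 1404) (PT.nd (nat_lit 702) (PT.nd (nat_lit 312) (PT.nd (nat_lit 156) (PT.nd (nat_lit 78) (PT.lf (nat_lit 28348) (nat_lit 6) (nat_lit 373) (nat_lit 4) (nat_lit 155) (nat_lit 212) (nat_lit 203)) (PT.lf (nat_lit 29108) (nat_lit 6) (nat_lit 383) (nat_lit 4) (nat_lit 156) (nat_lit 212) (nat_lit 202))) (PT.nd (nat_lit 78) (PT.lf (nat_lit 29868) (nat_lit 6) (nat_lit 393) (nat_lit 4) (nat_lit 157) (nat_lit 212) (nat_lit 201)) (PT.lf (nat_lit 30628) (nat_lit 6) (nat_lit 403) (nat_lit 4) (nat_lit 158) (nat_lit 212) (nat_lit 200)))) (PT.nd (nat_lit 156) (PT.nd (nat_lit 78) (PT.lf (nat_lit 31464) (nat_lit 6) (nat_lit 414) (nat_lit 4) (nat_lit 159) (nat_lit 212) (nat_lit 199)) (PT.lf (nat_lit 32300) (nat_lit 6) (nat_lit 425) (nat_lit 4) (nat_lit 160) (nat_lit 212) (nat_lit 198))) (PT.nd (nat_lit 78) (PT.lf (nat_lit 33212) (nat_lit 6) (nat_lit 437) (nat_lit 4) (nat_lit 161) (nat_lit 212) (nat_lit 197))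 (PT.nd (nat_lit 78) (PT.lf (nat_lit 34048) (nat_lit 6) (nat_lit 448) (nat_lit 4) (nat_lit 162) (nat_lit 212) (nat_lit 196)) (PT.lf (nat_lit 34960) (nat_lit 6) (nat_lit 460) (nat_lit 4) (nat_lit 163) (nat_lit 212) (nat_lit 195)))))) (PT.nd (nat_lit 312) (PT.nd (nat_lit 156) (PT.nd (nat_lit 78) (PT.lf (nat_lit 35872) (nat_lit 6) (nat_lit 472) (nat_lit 4) (nat_lit 164) (nat_lit 212) (nat_lit 194)) (PT.lf (nat_lit 37012) (nat_lit 6) (nat_lit 487) (nat_lit 4) (nat_lit 165) (nat_lit 212) (nat_lit 193))) (PT.nd (nat_lit 78) (PT.lf (nat_lit 38836) (nat_lit 6) (nat_lit 511) (nat_lit 4) (nat_lit 166) (nat_lit 212) (nat_lit 192)) (PT.lf (nat_lit 40584) (nat_lit 6) (nat_lit 534) (nat_lit 4) (nat_lit 167) (nat_lit 212) (nat_lit 191)))) (PT.nd (nat_lit 156) (PT.nd (nat_lit 78) (PT.lf (nat_lit 42256) (nat_lit 6) (nat_lit 556) (nat_lit 4) (nat_lit 168) (nat_lit 212) (nat_lit 190)) (PT.lf (nat_lit 42180) (nat_lit 6) (nat_lit 555) (nat_lit 4) (nat_lit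 169) (nat_lit 212) (nat_lit 189))) (PT.nd (nat_lit 78) (PT.lf (nat_lit 42104) (nat_lit 6) (nat_lit 554) (nat_lit 4) (nat_lit 170) (nat_lit 212) (nat_lit 188)) (PT.nd (nat_lit 78) (PT.lf (nat_lit 42028) (nat_lit 6) (nat_lit 553) (nat_lit 4) (nat_lit 171) (nat_lit 212) (nat_lit 187)) (PT.lf (nat_lit 41952) (nat_lit 6) (nat_lit 552) (nat_lit 4) (nat_lit 172) (nat_lit 212) (nat_lit 186))))))) (PT.nd (nat_lit 702) (PT.nd (nat_lit 312) (PT.nd (nat_lit 156) (PT.nd (nat_lit 78) (PT.lf (nat_lit 41876) (nat_lit 6) (nat_lit 551) (nat_lit 4) (nat_lit 173) (nat_lit 212) (nat_lit 185)) (PT.lf (nat_lit 41800) (nat_lit 6) (nat_lit 550) (nat_lit 4) (nat_lit 174) (nat_lit 212) (nat_lit 184))) (PT.nd (nat_lit 78) (PT.lf (nat_lit 41724) (nat_lit 6) (nat_lit 549) (nat_lit 4) (nat_lit 175) (nat_lit 212) (nat_lit 183)) (PT.lf (nat_lit 41648) (nat_lit 6) (nat_lit 548) (nat_lit 4) (nat_lit 176) (nat_lit 212) (nat_lit 182)))) (PT.nd (nat_lit 156) (PT.nd (nat_lit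 78) (PT.lf (nat_lit 41572) (nat_lit 6) (nat_lit 547) (nat_lit 4) (nat_lit 177) (nat_lit 212) (nat_lit 181)) (PT.lf (nat_lit 41496) (nat_lit 6) (nat_lit 546) (nat_lit 4) (nat_lit 178) (nat_lit 212) (nat_lit 180))) (PT.nd (nat_lit 78) (PT.lf (nat_lit 41420) (nat_lit 3) (nat_lit 545) (nat_lit 2) (nat_lit 179) (nat_lit 212) (nat_lit 179)) (PT.nd (nat_lit 78) (PT.lf (nat_lit 41496) (nat_lit 6) (nat_lit 546) (nat_lit 2) (nat_lit 180) (nat_lit 212) (nat_lit 178)) (PT.lf (nat_lit 41572) (nat_lit 6) (nat_lit 547) (nat_lit 2) (nat_lit 181) (nat_lit 212) (nat_lit 177)))))) (PT.nd (nat_lit 312) (PT.nd (nat_lit 156) (PT.nd (nat_lit 78) (PT.lf (nat_lit 41648) (nat_lit 6) (nat_lit 548) (nat_lit 2) (nat_lit 182) (nat_lit 212) (nat_lit 176)) (PT.lf (nat_lit 41724) (nat_lit 6) (nat_lit 549) (nat_lit 2) (nat_lit 183) (nat_lit 212) (nat_lit 175))) (PT.nd (nat_lit 78) (PT.lf (nat_lit 41800) (nat_lit 6) (nat_lit 550) (nat_lit 2) (nat_lit 184) (nat_lit 212)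 (nat_lit 174)) (PT.lf (nat_lit 41876) (nat_lit 6) (nat_lit 551) (nat_lit 2) (nat_lit 185) (nat_lit 212) (nat_lit 173)))) (PT.nd (nat_lit 156) (PT.nd (nat_lit 78) (PT.lf (nat_lit 41952) (nat_lit 6) (nat_lit 552) (nat_lit 2) (nat_lit 186) (nat_lit 212) (nat_lit 172)) (PT.lf (nat_lit 42028) (nat_lit 6) (nat_lit 553) (nat_lit 2) (nat_lit 187) (nat_lit 212) (nat_lit 171))) (PT.nd (nat_lit 78) (PT.lf (nat_lit 42104) (nat_lit 6) (nat_lit 554) (nat_lit 2) (nat_lit 188) (nat_lit 212) (nat_lit 170)) (PT.nd (nat_lit 78) (PT.lf (nat_lit 42180) (nat_lit 6) (nat_lit 555) (nat_lit 2) (nat_lit 189) (nat_lit 212) (nat_lit 169)) (PT.lf (nat_lit 42256) (nat_lit 6) (nat_lit 556) (nat_lit 2) (nat_lit 190) (nat_lit 212) (nat_lit 168))))))))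
noncomputable def pc94 : PT := (PT.nd (nat_lit 1404) (PT.nd (nat_lit 702) (PT.nd (nat_lit 312) (PT.nd (nat_lit 156) (PT.nd (nat_lit 78) (PT.lf (nat_lit 40584) (nat_lit 6) (nat_lit 534) (nat_lit 2) (nat_lit 191) (nat_lit 212) (nat_lit 167)) (PT.lf (nat_lit 38836) (nat_lit 6) (nat_lit 511) (nat_lit 2) (nat_lit 192) (nat_lit 212) (nat_lit 166))) (PT.nd (nat_lit 78) (PT.lf (nat_lit 37012) (nat_lit 6) (nat_lit 487) (nat_lit 2) (nat_lit 193) (nat_lit 212) (nat_lit 165)) (PT.lf (nat_lit 35872) (nat_lit 6) (nat_lit 472) (nat_lit 2) (nat_lit 194) (nat_lit 212) (nat_lit 164)))) (PT.nd (nat_lit 156) (PT.nd (nat_lit 78) (PT.lf (nat_lit 34960) (nat_lit 6) (nat_lit 460) (nat_lit 2) (nat_lit 195) (nat_lit 212) (nat_lit 163)) (PT.lf (nat_lit 34048) (nat_lit 6) (nat_lit 448) (nat_lit 2) (nat_lit 196) (nat_lit 212) (nat_lit 162))) (PT.nd (nat_lit 78) (PT.lf (nat_lit 33212) (nat_lit 6) (nat_lit 437) (nat_lit 2) (nat_lit 197) (nat_lit 212) (nat_lit 161))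 (PT.nd (nat_lit 78) (PT.lf (nat_lit 32300) (nat_lit 6) (nat_lit 425) (nat_lit 2) (nat_lit 198) (nat_lit 212) (nat_lit 160)) (PT.lf (nat_lit 31464) (nat_lit 6) (nat_lit 414) (nat_lit 2) (nat_lit 199) (nat_lit 212) (nat_lit 159)))))) (PT.nd (nat_lit 312) (PT.nd (nat_lit 156) (PT.nd (nat_lit 78) (PT.lf (nat_lit 30628) (nat_lit 6) (nat_lit 403) (nat_lit 2) (nat_lit 200) (nat_lit 212) (nat_lit 158)) (PT.lf (nat_lit 29868) (nat_lit 6) (nat_lit 393) (nat_lit 2) (nat_lit 201) (nat_lit 212) (nat_lit 157))) (PT.nd (nat_lit 78) (PT.lf (nat_lit 29108) (nat_lit 6) (nat_lit 383) (nat_lit 2) (nat_lit 202) (nat_lit 212) (nat_lit 156)) (PT.lf (nat_lit 28348) (nat_lit 6) (nat_lit 373) (nat_lit 2) (nat_lit 203) (nat_lit 212) (nat_lit 155)))) (PT.nd (nat_lit 156) (PT.nd (nat_lit 78) (PT.lf (nat_lit 27588) (nat_lit 6) (nat_lit 363) (nat_lit 2) (nat_lit 204) (nat_lit 212) (nat_lit 154)) (PT.lf (nat_lit 26904) (nat_lit 6) (nat_lit 354) (nat_lit 2) (nat_lit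 205) (nat_lit 212) (nat_lit 153))) (PT.nd (nat_lit 78) (PT.lf (nat_lit 26220) (nat_lit 6) (nat_lit 345) (nat_lit 2) (nat_lit 206) (nat_lit 212) (nat_lit 152)) (PT.nd (nat_lit 78) (PT.lf (nat_lit 25536) (nat_lit 6) (nat_lit 336) (nat_lit 2) (nat_lit 207) (nat_lit 212) (nat_lit 151)) (PT.lf (nat_lit 24852) (nat_lit 6) (nat_lit 327) (nat_lit 2) (nat_lit 208) (nat_lit 212) (nat_lit 150))))))) (PT.nd (nat_lit 702) (PT.nd (nat_lit 312) (PT.nd (nat_lit 156) (PT.nd (nat_lit 78) (PT.lf (nat_lit 24244) (nat_lit 6) (nat_lit 319) (nat_lit 2) (nat_lit 209) (nat_lit 212) (nat_lit 149)) (PT.lf (nat_lit 23636) (nat_lit 6) (nat_lit 311) (nat_lit 2) (nat_lit 210) (nat_lit 212) (nat_lit 148))) (PT.nd (nat_lit 78) (PT.lf (nat_lit 23028) (nat_lit 6) (nat_lit 303) (nat_lit 2) (nat_lit 211) (nat_lit 212) (nat_lit 147)) (PT.lf (nat_lit 22420) (nat_lit 3) (nat_lit 295) (nat_lit 0) (nat_lit 212) (nat_lit 212) (nat_lit 146)))) (PT.nd (nat_lit 156) (PT.nd (nat_lit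 78) (PT.lf (nat_lit 21812) (nat_lit 6) (nat_lit 287) (nat_lit 0) (nat_lit 213) (nat_lit 212) (nat_lit 145)) (PT.lf (nat_lit 21128) (nat_lit 6) (nat_lit 278) (nat_lit 0) (nat_lit 214) (nat_lit 212) (nat_lit 144))) (PT.nd (nat_lit 78) (PT.lf (nat_lit 20520) (nat_lit 6) (nat_lit 270) (nat_lit 0) (nat_lit 215) (nat_lit 212) (nat_lit 143)) (PT.nd (nat_lit 78) (PT.lf (nat_lit 19912) (nat_lit 6) (nat_lit 262) (nat_lit 0) (nat_lit 216) (nat_lit 212) (nat_lit 142)) (PT.lf (nat_lit 19304) (nat_lit 6) (nat_lit 254) (nat_lit 0) (nat_lit 217) (nat_lit 212) (nat_lit 141)))))) (PT.nd (nat_lit 312) (PT.nd (nat_lit 156) (PT.nd (nat_lit 78) (PT.lf (nat_lit 18696) (nat_lit 6) (nat_lit 246) (nat_lit 0) (nat_lit 218) (nat_lit 212) (nat_lit 140)) (PT.lf (nat_lit 18164) (nat_lit 6) (nat_lit 239) (nat_lit 0) (nat_lit 219) (nat_lit 212) (nat_lit 139))) (PT.nd (nat_lit 78) (PT.lf (nat_lit 17556) (nat_lit 6) (nat_lit 231) (nat_lit 0) (nat_lit 220) (nat_lit 212)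 (nat_lit 138)) (PT.lf (nat_lit 17024) (nat_lit 6) (nat_lit 224) (nat_lit 0) (nat_lit 221) (nat_lit 212) (nat_lit 137)))) (PT.nd (nat_lit 52416) (PT.nd (nat_lit 78) (PT.lf (nat_lit 16492) (nat_lit 6) (nat_lit 217) (nat_lit 0) (nat_lit 222) (nat_lit 212) (nat_lit 136)) (PT.lf (nat_lit 15960) (nat_lit 6) (nat_lit 210) (nat_lit 0) (nat_lit 223) (nat_lit 212) (nat_lit 135))) (PT.nd (nat_lit 78) (PT.lf (nat_lit 15048) (nat_lit 6) (nat_lit 198) (nat_lit 5) (nat_lit 133) (nat_lit 213) (nat_lit 224)) (PT.nd (nat_lit 78) (PT.lf (nat_lit 15504) (nat_lit 6) (nat_lit 204) (nat_lit 5) (nat_lit 134) (nat_lit 213) (nat_lit 223)) (PT.lf (nat_lit 16036) (nat_lit 6) (nat_lit 211) (nat_lit 5) (nat_lit 135) (nat_lit 213) (nat_lit 222))))))))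
noncomputable def pc95 : PT := (PT.nd (nat_lit 1404) (PT.nd (nat_lit 702) (PT.nd (nat_lit 312) (PT.nd (nat_lit 156) (PT.nd (nat_lit 78) (PT.lf (nat_lit 16568) (nat_lit 6) (nat_lit 218) (nat_lit 5) (nat_lit 136) (nat_lit 213) (nat_lit 221)) (PT.lf (nat_lit 17100) (nat_lit 6) (nat_lit 225) (nat_lit 5) (nat_lit 137) (nat_lit 213) (nat_lit 220))) (PT.nd (nat_lit 78) (PT.lf (nat_lit 17632) (nat_lit 6) (nat_lit 232) (nat_lit 5) (nat_lit 138) (nat_lit 213) (nat_lit 219)) (PT.lf (nat_lit 18240) (nat_lit 6) (nat_lit 240) (nat_lit 5) (nat_lit 139) (nat_lit 213) (nat_lit 218)))) (PT.nd (nat_lit 156) (PT.nd (nat_lit 78) (PT.lf (nat_lit 18772) (nat_lit 6) (nat_lit 247) (nat_lit 5) (nat_lit 140) (nat_lit 213) (nat_lit 217)) (PT.lf (nat_lit 19380) (nat_lit 6) (nat_lit 255) (nat_lit 5) (nat_lit 141) (nat_lit 213) (nat_lit 216))) (PT.nd (nat_lit 78) (PT.lf (nat_lit 19988) (nat_lit 6) (nat_lit 263) (nat_lit 5) (nat_lit 142) (nat_lit 213) (nat_lit 215))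 (PT.nd (nat_lit 78) (PT.lf (nat_lit 20596) (nat_lit 6) (nat_lit 271) (nat_lit 5) (nat_lit 143) (nat_lit 213) (nat_lit 214)) (PT.lf (nat_lit 21204) (nat_lit 3) (nat_lit 279) (nat_lit 4) (nat_lit 144) (nat_lit 213) (nat_lit 213)))))) (PT.nd (nat_lit 312) (PT.nd (nat_lit 156) (PT.nd (nat_lit 78) (PT.lf (nat_lit 21812) (nat_lit 6) (nat_lit 287) (nat_lit 4) (nat_lit 145) (nat_lit 213) (nat_lit 212)) (PT.lf (nat_lit 22344) (nat_lit 6) (nat_lit 294) (nat_lit 4) (nat_lit 146) (nat_lit 213) (nat_lit 211))) (PT.nd (nat_lit 78) (PT.lf (nat_lit 22952) (nat_lit 6) (nat_lit 302) (nat_lit 4) (nat_lit 147) (nat_lit 213) (nat_lit 210)) (PT.lf (nat_lit 23560) (nat_lit 6) (nat_lit 310) (nat_lit 4) (nat_lit 148) (nat_lit 213) (nat_lit 209)))) (PT.nd (nat_lit 156) (PT.nd (nat_lit 78) (PT.lf (nat_lit 24168) (nat_lit 6) (nat_lit 318) (nat_lit 4) (nat_lit 149) (nat_lit 213) (nat_lit 208)) (PT.lf (nat_lit 24776) (nat_lit 6) (nat_lit 326) (nat_lit 4) (nat_lit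 150) (nat_lit 213) (nat_lit 207))) (PT.nd (nat_lit 78) (PT.lf (nat_lit 25460) (nat_lit 6) (nat_lit 335) (nat_lit 4) (nat_lit 151) (nat_lit 213) (nat_lit 206)) (PT.nd (nat_lit 78) (PT.lf (nat_lit 26144) (nat_lit 6) (nat_lit 344) (nat_lit 4) (nat_lit 152) (nat_lit 213) (nat_lit 205)) (PT.lf (nat_lit 26828) (nat_lit 6) (nat_lit 353) (nat_lit 4) (nat_lit 153) (nat_lit 213) (nat_lit 204))))))) (PT.nd (nat_lit 702) (PT.nd (nat_lit 312) (PT.nd (nat_lit 156) (PT.nd (nat_lit 78) (PT.lf (nat_lit 27512) (nat_lit 6) (nat_lit 362) (nat_lit 4) (nat_lit 154) (nat_lit 213) (nat_lit 203)) (PT.lf (nat_lit 28272) (nat_lit 6) (nat_lit 372) (nat_lit 4) (nat_lit 155) (nat_lit 213) (nat_lit 202))) (PT.nd (nat_lit 78) (PT.lf (nat_lit 29032) (nat_lit 6) (nat_lit 382) (nat_lit 4) (nat_lit 156) (nat_lit 213) (nat_lit 201)) (PT.lf (nat_lit 29792) (nat_lit 6) (nat_lit 392) (nat_lit 4) (nat_lit 157) (nat_lit 213) (nat_lit 200)))) (PT.nd (nat_lit 156) (PT.nd (nat_lit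 78) (PT.lf (nat_lit 30552) (nat_lit 6) (nat_lit 402) (nat_lit 4) (nat_lit 158) (nat_lit 213) (nat_lit 199)) (PT.lf (nat_lit 31388) (nat_lit 6) (nat_lit 413) (nat_lit 4) (nat_lit 159) (nat_lit 213) (nat_lit 198))) (PT.nd (nat_lit 78) (PT.lf (nat_lit 32224) (nat_lit 6) (nat_lit 424) (nat_lit 4) (nat_lit 160) (nat_lit 213) (nat_lit 197)) (PT.nd (nat_lit 78) (PT.lf (nat_lit 33136) (nat_lit 6) (nat_lit 436) (nat_lit 4) (nat_lit 161) (nat_lit 213) (nat_lit 196)) (PT.lf (nat_lit 33972) (nat_lit 6) (nat_lit 447) (nat_lit 4) (nat_lit 162) (nat_lit 213) (nat_lit 195)))))) (PT.nd (nat_lit 312) (PT.nd (nat_lit 156) (PT.nd (nat_lit 78) (PT.lf (nat_lit 34884) (nat_lit 6) (nat_lit 459) (nat_lit 4) (nat_lit 163) (nat_lit 213) (nat_lit 194)) (PT.lf (nat_lit 35796) (nat_lit 6) (nat_lit 471) (nat_lit 4) (nat_lit 164) (nat_lit 213) (nat_lit 193))) (PT.nd (nat_lit 78) (PT.lf (nat_lit 36936) (nat_lit 6) (nat_lit 486) (nat_lit 4) (nat_lit 165) (nat_lit 213)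 (nat_lit 192)) (PT.lf (nat_lit 38760) (nat_lit 6) (nat_lit 510) (nat_lit 4) (nat_lit 166) (nat_lit 213) (nat_lit 191)))) (PT.nd (nat_lit 156) (PT.nd (nat_lit 78) (PT.lf (nat_lit 40508) (nat_lit 6) (nat_lit 533) (nat_lit 4) (nat_lit 167) (nat_lit 213) (nat_lit 190)) (PT.lf (nat_lit 40432) (nat_lit 6) (nat_lit 532) (nat_lit 4) (nat_lit 168) (nat_lit 213) (nat_lit 189))) (PT.nd (nat_lit 78) (PT.lf (nat_lit 40356) (nat_lit 6) (nat_lit 531) (nat_lit 4) (nat_lit 169) (nat_lit 213) (nat_lit 188)) (PT.nd (nat_lit 78) (PT.lf (nat_lit 40280) (nat_lit 6) (nat_lit 530) (nat_lit 4) (nat_lit 170) (nat_lit 213) (nat_lit 187)) (PT.lf (nat_lit 40204) (nat_lit 6) (nat_lit 529) (nat_lit 4) (nat_lit 171) (nat_lit 213) (nat_lit 186))))))))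
noncomputable def pc96 : PT := (PT.nd (nat_lit 1326) (PT.nd (nat_lit 624) (PT.nd (nat_lit 312) (PT.nd (nat_lit 156) (PT.nd (nat_lit 78) (PT.lf (nat_lit 40128) (nat_lit 6) (nat_lit 528) (nat_lit 4) (nat_lit 172) (nat_lit 213) (nat_lit 185)) (PT.lf (nat_lit 40052) (nat_lit 6) (nat_lit 527) (nat_lit 4) (nat_lit 173) (nat_lit 213) (nat_lit 184))) (PT.nd (nat_lit 78) (PT.lf (nat_lit 39976) (nat_lit 6) (nat_lit 526) (nat_lit 4) (nat_lit 174) (nat_lit 213) (nat_lit 183)) (PT.lf (nat_lit 39900) (nat_lit 6) (nat_lit 525) (nat_lit 4) (nat_lit 175) (nat_lit 213) (nat_lit 182)))) (PT.nd (nat_lit 156) (PT.nd (nat_lit 78) (PT.lf (nat_lit 39824) (nat_lit 6) (nat_lit 524) (nat_lit 4) (nat_lit 176) (nat_lit 213) (nat_lit 181)) (PT.lf (nat_lit 39748) (nat_lit 6) (nat_lit 523) (nat_lit 4) (nat_lit 177) (nat_lit 213) (nat_lit 180))) (PT.nd (nat_lit 78) (PT.lf (nat_lit 39672) (nat_lit 6) (nat_lit 522) (nat_lit 4) (nat_lit 178) (nat_lit 213) (nat_lit 179))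 (PT.lf (nat_lit 39672) (nat_lit 6) (nat_lit 522) (nat_lit 2) (nat_lit 179) (nat_lit 213) (nat_lit 178))))) (PT.nd (nat_lit 312) (PT.nd (nat_lit 156) (PT.nd (nat_lit 78) (PT.lf (nat_lit 39748) (nat_lit 6) (nat_lit 523) (nat_lit 2) (nat_lit 180) (nat_lit 213) (nat_lit 177)) (PT.lf (nat_lit 39824) (nat_lit 6) (nat_lit 524) (nat_lit 2) (nat_lit 181) (nat_lit 213) (nat_lit 176))) (PT.nd (nat_lit 78) (PT.lf (nat_lit 39900) (nat_lit 6) (nat_lit 525) (nat_lit 2) (nat_lit 182) (nat_lit 213) (nat_lit 175)) (PT.lf (nat_lit 39976) (nat_lit 6) (nat_lit 526) (nat_lit 2) (nat_lit 183) (nat_lit 213) (nat_lit 174)))) (PT.nd (nat_lit 156) (PT.nd (nat_lit 78) (PT.lf (nat_lit 40052) (nat_lit 6) (nat_lit 527) (nat_lit 2) (nat_lit 184) (nat_lit 213) (nat_lit 173)) (PT.lf (nat_lit 40128) (nat_lit 6) (nat_lit 528) (nat_lit 2) (nat_lit 185) (nat_lit 213) (nat_lit 172))) (PT.nd (nat_lit 78) (PT.lf (nat_lit 40204) (nat_lit 6) (nat_lit 529) (nat_lit 2) (nat_lit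 186) (nat_lit 213) (nat_lit 171)) (PT.nd (nat_lit 78) (PT.lf (nat_lit 40280) (nat_lit 6) (nat_lit 530) (nat_lit 2) (nat_lit 187) (nat_lit 213) (nat_lit 170)) (PT.lf (nat_lit 40356) (nat_lit 6) (nat_lit 531) (nat_lit 2) (nat_lit 188) (nat_lit 213) (nat_lit 169))))))) (PT.nd (nat_lit 702) (PT.nd (nat_lit 312) (PT.nd (nat_lit 156) (PT.nd (nat_lit 78) (PT.lf (nat_lit 40432) (nat_lit 6) (nat_lit 532) (nat_lit 2) (nat_lit 189) (nat_lit 213) (nat_lit 168)) (PT.lf (nat_lit 40508) (nat_lit 6) (nat_lit 533) (nat_lit 2) (nat_lit 190) (nat_lit 213) (nat_lit 167))) (PT.nd (nat_lit 78) (PT.lf (nat_lit 38760) (nat_lit 6) (nat_lit 510) (nat_lit 2) (nat_lit 191) (nat_lit 213) (nat_lit 166)) (PT.lf (nat_lit 36936) (nat_lit 6) (nat_lit 486) (nat_lit 2) (nat_lit 192) (nat_lit 213) (nat_lit 165)))) (PT.nd (nat_lit 156) (PT.nd (nat_lit 78) (PT.lf (nat_lit 35796) (nat_lit 6) (nat_lit 471) (nat_lit 2) (nat_lit 193) (nat_lit 213) (nat_lit 164)) (PT.lf (nat_lit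 34884) (nat_lit 6) (nat_lit 459) (nat_lit 2) (nat_lit 194) (nat_lit 213) (nat_lit 163))) (PT.nd (nat_lit 78) (PT.lf (nat_lit 33972) (nat_lit 6) (nat_lit 447) (nat_lit 2) (nat_lit 195) (nat_lit 213) (nat_lit 162)) (PT.nd (nat_lit 78) (PT.lf (nat_lit 33136) (nat_lit 6) (nat_lit 436) (nat_lit 2) (nat_lit 196) (nat_lit 213) (nat_lit 161)) (PT.lf (nat_lit 32224) (nat_lit 6) (nat_lit 424) (nat_lit 2) (nat_lit 197) (nat_lit 213) (nat_lit 160)))))) (PT.nd (nat_lit 312) (PT.nd (nat_lit 156) (PT.nd (nat_lit 78) (PT.lf (nat_lit 31388) (nat_lit 6) (nat_lit 413) (nat_lit 2) (nat_lit 198) (nat_lit 213) (nat_lit 159)) (PT.lf (nat_lit 30552) (nat_lit 6) (nat_lit 402) (nat_lit 2) (nat_lit 199) (nat_lit 213) (nat_lit 158))) (PT.nd (nat_lit 78) (PT.lf (nat_lit 29792) (nat_lit 6) (nat_lit 392) (nat_lit 2) (nat_lit 200) (nat_lit 213) (nat_lit 157)) (PT.lf (nat_lit 29032) (nat_lit 6) (nat_lit 382) (nat_lit 2) (nat_lit 201) (nat_lit 213) (nat_lit 156)))) (PT.nd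 (nat_lit 156) (PT.nd (nat_lit 78) (PT.lf (nat_lit 28272) (nat_lit 6) (nat_lit 372) (nat_lit 2) (nat_lit 202) (nat_lit 213) (nat_lit 155)) (PT.lf (nat_lit 27512) (nat_lit 6) (nat_lit 362) (nat_lit 2) (nat_lit 203) (nat_lit 213) (nat_lit 154))) (PT.nd (nat_lit 78) (PT.lf (nat_lit 26828) (nat_lit 6) (nat_lit 353) (nat_lit 2) (nat_lit 204) (nat_lit 213) (nat_lit 153)) (PT.nd (nat_lit 78) (PT.lf (nat_lit 26144) (nat_lit 6) (nat_lit 344) (nat_lit 2) (nat_lit 205) (nat_lit 213) (nat_lit 152)) (PT.lf (nat_lit 25460) (nat_lit 6) (nat_lit 335) (nat_lit 2) (nat_lit 206) (nat_lit 213) (nat_lit 151))))))))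
noncomputable def pc97 : PT := (PT.nd (nat_lit 53508) (PT.nd (nat_lit 702) (PT.nd (nat_lit 312) (PT.nd (nat_lit 156) (PT.nd (nat_lit 78) (PT.lf (nat_lit 24776) (nat_lit 6) (nat_lit 326) (nat_lit 2) (nat_lit 207) (nat_lit 213) (nat_lit 150)) (PT.lf (nat_lit 24168) (nat_lit 6) (nat_lit 318) (nat_lit 2) (nat_lit 208) (nat_lit 213) (nat_lit 149))) (PT.nd (nat_lit 78) (PT.lf (nat_lit 23560) (nat_lit 6) (nat_lit 310) (nat_lit 2) (nat_lit 209) (nat_lit 213) (nat_lit 148)) (PT.lf (nat_lit 22952) (nat_lit 6) (nat_lit 302) (nat_lit 2) (nat_lit 210) (nat_lit 213) (nat_lit 147)))) (PT.nd (nat_lit 156) (PT.nd (nat_lit 78) (PT.lf (nat_lit 22344) (nat_lit 6) (nat_lit 294) (nat_lit 2) (nat_lit 211) (nat_lit 213) (nat_lit 146)) (PT.lf (nat_lit 21812) (nat_lit 6) (nat_lit 287) (nat_lit 2) (nat_lit 212) (nat_lit 213) (nat_lit 145))) (PT.nd (nat_lit 78) (PT.lf (nat_lit 21204) (nat_lit 3) (nat_lit 279) (nat_lit 0) (nat_lit 213) (nat_lit 213) (nat_lit 144))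 (PT.nd (nat_lit 78) (PT.lf (nat_lit 20596) (nat_lit 6) (nat_lit 271) (nat_lit 0) (nat_lit 214) (nat_lit 213) (nat_lit 143)) (PT.lf (nat_lit 19988) (nat_lit 6) (nat_lit 263) (nat_lit 0) (nat_lit 215) (nat_lit 213) (nat_lit 142)))))) (PT.nd (nat_lit 312) (PT.nd (nat_lit 156) (PT.nd (nat_lit 78) (PT.lf (nat_lit 19380) (nat_lit 6) (nat_lit 255) (nat_lit 0) (nat_lit 216) (nat_lit 213) (nat_lit 141)) (PT.lf (nat_lit 18772) (nat_lit 6) (nat_lit 247) (nat_lit 0) (nat_lit 217) (nat_lit 213) (nat_lit 140))) (PT.nd (nat_lit 78) (PT.lf (nat_lit 18240) (nat_lit 6) (nat_lit 240) (nat_lit 0) (nat_lit 218) (nat_lit 213) (nat_lit 139)) (PT.lf (nat_lit 17632) (nat_lit 6) (nat_lit 232) (nat_lit 0) (nat_lit 219) (nat_lit 213) (nat_lit 138)))) (PT.nd (nat_lit 156) (PT.nd (nat_lit 78) (PT.lf (nat_lit 17100) (nat_lit 6) (nat_lit 225) (nat_lit 0) (nat_lit 220) (nat_lit 213) (nat_lit 137)) (PT.lf (nat_lit 16568) (nat_lit 6) (nat_lit 218) (nat_lit 0) (nat_lit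 221) (nat_lit 213) (nat_lit 136))) (PT.nd (nat_lit 78) (PT.lf (nat_lit 16036) (nat_lit 6) (nat_lit 211) (nat_lit 0) (nat_lit 222) (nat_lit 213) (nat_lit 135)) (PT.nd (nat_lit 78) (PT.lf (nat_lit 15504) (nat_lit 6) (nat_lit 204) (nat_lit 0) (nat_lit 223) (nat_lit 213) (nat_lit 134)) (PT.lf (nat_lit 15048) (nat_lit 6) (nat_lit 198) (nat_lit 0) (nat_lit 224) (nat_lit 213) (nat_lit 133))))))) (PT.nd (nat_lit 702) (PT.nd (nat_lit 312) (PT.nd (nat_lit 156) (PT.nd (nat_lit 78) (PT.lf (nat_lit 14592) (nat_lit 6) (nat_lit 192) (nat_lit 5) (nat_lit 132) (nat_lit 214) (nat_lit 224)) (PT.lf (nat_lit 15124) (nat_lit 6) (nat_lit 199) (nat_lit 5) (nat_lit 133) (nat_lit 214) (nat_lit 223))) (PT.nd (nat_lit 78) (PT.lf (nat_lit 15580) (nat_lit 6) (nat_lit 205) (nat_lit 5) (nat_lit 134) (nat_lit 214) (nat_lit 222)) (PT.lf (nat_lit 16112) (nat_lit 6) (nat_lit 212) (nat_lit 5) (nat_lit 135) (nat_lit 214) (nat_lit 221)))) (PT.nd (nat_lit 156) (PT.nd (nat_lit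 78) (PT.lf (nat_lit 16644) (nat_lit 6) (nat_lit 219) (nat_lit 5) (nat_lit 136) (nat_lit 214) (nat_lit 220)) (PT.lf (nat_lit 17176) (nat_lit 6) (nat_lit 226) (nat_lit 5) (nat_lit 137) (nat_lit 214) (nat_lit 219))) (PT.nd (nat_lit 78) (PT.lf (nat_lit 17708) (nat_lit 6) (nat_lit 233) (nat_lit 5) (nat_lit 138) (nat_lit 214) (nat_lit 218)) (PT.nd (nat_lit 78) (PT.lf (nat_lit 18316) (nat_lit 6) (nat_lit 241) (nat_lit 5) (nat_lit 139) (nat_lit 214) (nat_lit 217)) (PT.lf (nat_lit 18848) (nat_lit 6) (nat_lit 248) (nat_lit 5) (nat_lit 140) (nat_lit 214) (nat_lit 216)))))) (PT.nd (nat_lit 312) (PT.nd (nat_lit 156) (PT.nd (nat_lit 78) (PT.lf (nat_lit 19456) (nat_lit 6) (nat_lit 256) (nat_lit 5) (nat_lit 141) (nat_lit 214) (nat_lit 215)) (PT.lf (nat_lit 20064) (nat_lit 3) (nat_lit 264) (nat_lit 4) (nat_lit 142) (nat_lit 214) (nat_lit 214))) (PT.nd (nat_lit 78) (PT.lf (nat_lit 20596) (nat_lit 6) (nat_lit 271) (nat_lit 4) (nat_lit 143) (nat_lit 214)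 (nat_lit 213)) (PT.lf (nat_lit 21128) (nat_lit 6) (nat_lit 278) (nat_lit 4) (nat_lit 144) (nat_lit 214) (nat_lit 212)))) (PT.nd (nat_lit 156) (PT.nd (nat_lit 78) (PT.lf (nat_lit 21736) (nat_lit 6) (nat_lit 286) (nat_lit 4) (nat_lit 145) (nat_lit 214) (nat_lit 211)) (PT.lf (nat_lit 22268) (nat_lit 6) (nat_lit 293) (nat_lit 4) (nat_lit 146) (nat_lit 214) (nat_lit 210))) (PT.nd (nat_lit 78) (PT.lf (nat_lit 22876) (nat_lit 6) (nat_lit 301) (nat_lit 4) (nat_lit 147) (nat_lit 214) (nat_lit 209)) (PT.nd (nat_lit 78) (PT.lf (nat_lit 23484) (nat_lit 6) (nat_lit 309) (nat_lit 4) (nat_lit 148) (nat_lit 214) (nat_lit 208)) (PT.lf (nat_lit 24092) (nat_lit 6) (nat_lit 317) (nat_lit 4) (nat_lit 149) (nat_lit 214) (nat_lit 207))))))))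
noncomputable def pc98 : PT := (PT.nd (nat_lit 1326) (PT.nd (nat_lit 624) (PT.nd (nat_lit 312) (PT.nd (nat_lit 156) (PT.nd (nat_lit 78) (PT.lf (nat_lit 24700) (nat_lit 6) (nat_lit 325) (nat_lit 4) (nat_lit 150) (nat_lit 214) (nat_lit 206)) (PT.lf (nat_lit 25384) (nat_lit 6) (nat_lit 334) (nat_lit 4) (nat_lit 151) (nat_lit 214) (nat_lit 205))) (PT.nd (nat_lit 78) (PT.lf (nat_lit 26068) (nat_lit 6) (nat_lit 343) (nat_lit 4) (nat_lit 152) (nat_lit 214) (nat_lit 204)) (PT.lf (nat_lit 26752) (nat_lit 6) (nat_lit 352) (nat_lit 4) (nat_lit 153) (nat_lit 214) (nat_lit 203)))) (PT.nd (nat_lit 156) (PT.nd (nat_lit 78) (PT.lf (nat_lit 27436) (nat_lit 6) (nat_lit 361) (nat_lit 4) (nat_lit 154) (nat_lit 214) (nat_lit 202)) (PT.lf (nat_lit 28196) (nat_lit 6) (nat_lit 371) (nat_lit 4) (nat_lit 155) (nat_lit 214) (nat_lit 201))) (PT.nd (nat_lit 78) (PT.lf (nat_lit 28956) (nat_lit 6) (nat_lit 381) (nat_lit 4) (nat_lit 156) (nat_lit 214) (nat_lit 200))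 (PT.lf (nat_lit 29716) (nat_lit 6) (nat_lit 391) (nat_lit 4) (nat_lit 157) (nat_lit 214) (nat_lit 199))))) (PT.nd (nat_lit 312) (PT.nd (nat_lit 156) (PT.nd (nat_lit 78) (PT.lf (nat_lit 30476) (nat_lit 6) (nat_lit 401) (nat_lit 4) (nat_lit 158) (nat_lit 214) (nat_lit 198)) (PT.lf (nat_lit 31312) (nat_lit 6) (nat_lit 412) (nat_lit 4) (nat_lit 159) (nat_lit 214) (nat_lit 197))) (PT.nd (nat_lit 78) (PT.lf (nat_lit 32148) (nat_lit 6) (nat_lit 423) (nat_lit 4) (nat_lit 160) (nat_lit 214) (nat_lit 196)) (PT.lf (nat_lit 33060) (nat_lit 6) (nat_lit 435) (nat_lit 4) (nat_lit 161) (nat_lit 214) (nat_lit 195)))) (PT.nd (nat_lit 156) (PT.nd (nat_lit 78) (PT.lf (nat_lit 33896) (nat_lit 6) (nat_lit 446) (nat_lit 4) (nat_lit 162) (nat_lit 214) (nat_lit 194)) (PT.lf (nat_lit 34808) (nat_lit 6) (nat_lit 458) (nat_lit 4) (nat_lit 163) (nat_lit 214) (nat_lit 193))) (PT.nd (nat_lit 78) (PT.lf (nat_lit 35720) (nat_lit 6) (nat_lit 470) (nat_lit 4) (nat_lit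 164) (nat_lit 214) (nat_lit 192)) (PT.nd (nat_lit 78) (PT.lf (nat_lit 36860) (nat_lit 6) (nat_lit 485) (nat_lit 4) (nat_lit 165) (nat_lit 214) (nat_lit 191)) (PT.lf (nat_lit 38684) (nat_lit 6) (nat_lit 509) (nat_lit 4) (nat_lit 166) (nat_lit 214) (nat_lit 190))))))) (PT.nd (nat_lit 702) (PT.nd (nat_lit 312) (PT.nd (nat_lit 156) (PT.nd (nat_lit 78) (PT.lf (nat_lit 38608) (nat_lit 6) (nat_lit 508) (nat_lit 4) (nat_lit 167) (nat_lit 214) (nat_lit 189)) (PT.lf (nat_lit 38532) (nat_lit 6) (nat_lit 507) (nat_lit 4) (nat_lit 168) (nat_lit 214) (nat_lit 188))) (PT.nd (nat_lit 78) (PT.lf (nat_lit 38456) (nat_lit 6) (nat_lit 506) (nat_lit 4) (nat_lit 169) (nat_lit 214) (nat_lit 187)) (PT.lf (nat_lit 38380) (nat_lit 6) (nat_lit 505) (nat_lit 4) (nat_lit 170) (nat_lit 214) (nat_lit 186)))) (PT.nd (nat_lit 156) (PT.nd (nat_lit 78) (PT.lf (nat_lit 38304) (nat_lit 6) (nat_lit 504) (nat_lit 4) (nat_lit 171) (nat_lit 214) (nat_lit 185)) (PT.lf (nat_lit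 38228) (nat_lit 6) (nat_lit 503) (nat_lit 4) (nat_lit 172) (nat_lit 214) (nat_lit 184))) (PT.nd (nat_lit 78) (PT.lf (nat_lit 38152) (nat_lit 6) (nat_lit 502) (nat_lit 4) (nat_lit 173) (nat_lit 214) (nat_lit 183)) (PT.nd (nat_lit 78) (PT.lf (nat_lit 38076) (nat_lit 6) (nat_lit 501) (nat_lit 4) (nat_lit 174) (nat_lit 214) (nat_lit 182)) (PT.lf (nat_lit 38000) (nat_lit 6) (nat_lit 500) (nat_lit 4) (nat_lit 175) (nat_lit 214) (nat_lit 181)))))) (PT.nd (nat_lit 312) (PT.nd (nat_lit 156) (PT.nd (nat_lit 78) (PT.lf (nat_lit 37924) (nat_lit 6) (nat_lit 499) (nat_lit 4) (nat_lit 176) (nat_lit 214) (nat_lit 180)) (PT.lf (nat_lit 37848) (nat_lit 6) (nat_lit 498) (nat_lit 4) (nat_lit 177) (nat_lit 214) (nat_lit 179))) (PT.nd (nat_lit 78) (PT.lf (nat_lit 37772) (nat_lit 3) (nat_lit 497) (nat_lit 2) (nat_lit 178) (nat_lit 214) (nat_lit 178)) (PT.lf (nat_lit 37848) (nat_lit 6) (nat_lit 498) (nat_lit 2) (nat_lit 179) (nat_lit 214) (nat_lit 177)))) (PT.nd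 (nat_lit 156) (PT.nd (nat_lit 78) (PT.lf (nat_lit 37924) (nat_lit 6) (nat_lit 499) (nat_lit 2) (nat_lit 180) (nat_lit 214) (nat_lit 176)) (PT.lf (nat_lit 38000) (nat_lit 6) (nat_lit 500) (nat_lit 2) (nat_lit 181) (nat_lit 214) (nat_lit 175))) (PT.nd (nat_lit 78) (PT.lf (nat_lit 38076) (nat_lit 6) (nat_lit 501) (nat_lit 2) (nat_lit 182) (nat_lit 214) (nat_lit 174)) (PT.nd (nat_lit 78) (PT.lf (nat_lit 38152) (nat_lit 6) (nat_lit 502) (nat_lit 2) (nat_lit 183) (nat_lit 214) (nat_lit 173)) (PT.lf (nat_lit 38228) (nat_lit 6) (nat_lit 503) (nat_lit 2) (nat_lit 184) (nat_lit 214) (nat_lit 172))))))))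
noncomputable def pc99 : PT := (PT.nd (nat_lit 1404) (PT.nd (nat_lit 702) (PT.nd (nat_lit 312) (PT.nd (nat_lit 156) (PT.nd (nat_lit 78) (PT.lf (nat_lit 38304) (nat_lit 6) (nat_lit 504) (nat_lit 2) (nat_lit 185) (nat_lit 214) (nat_lit 171)) (PT.lf (nat_lit 38380) (nat_lit 6) (nat_lit 505) (nat_lit 2) (nat_lit 186) (nat_lit 214) (nat_lit 170))) (PT.nd (nat_lit 78) (PT.lf (nat_lit 38456) (nat_lit 6) (nat_lit 506) (nat_lit 2) (nat_lit 187) (nat_lit 214) (nat_lit 169)) (PT.lf (nat_lit 38532) (nat_lit 6) (nat_lit 507) (nat_lit 2) (nat_lit 188) (nat_lit 214) (nat_lit 168)))) (PT.nd (nat_lit 156) (PT.nd (nat_lit 78) (PT.lf (nat_lit 38608) (nat_lit 6) (nat_lit 508) (nat_lit 2) (nat_lit 189) (nat_lit 214) (nat_lit 167)) (PT.lf (nat_lit 38684) (nat_lit 6) (nat_lit 509) (nat_lit 2) (nat_lit 190) (nat_lit 214) (nat_lit 166))) (PT.nd (nat_lit 78) (PT.lf (nat_lit 36860) (nat_lit 6) (nat_lit 485) (nat_lit 2) (nat_lit 191) (nat_lit 214) (nat_lit 165))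 (PT.nd (nat_lit 78) (PT.lf (nat_lit 35720) (nat_lit 6) (nat_lit 470) (nat_lit 2) (nat_lit 192) (nat_lit 214) (nat_lit 164)) (PT.lf (nat_lit 34808) (nat_lit 6) (nat_lit 458) (nat_lit 2) (nat_lit 193) (nat_lit 214) (nat_lit 163)))))) (PT.nd (nat_lit 312) (PT.nd (nat_lit 156) (PT.nd (nat_lit 78) (PT.lf (nat_lit 33896) (nat_lit 6) (nat_lit 446) (nat_lit 2) (nat_lit 194) (nat_lit 214) (nat_lit 162)) (PT.lf (nat_lit 33060) (nat_lit 6) (nat_lit 435) (nat_lit 2) (nat_lit 195) (nat_lit 214) (nat_lit 161))) (PT.nd (nat_lit 78) (PT.lf (nat_lit 32148) (nat_lit 6) (nat_lit 423) (nat_lit 2) (nat_lit 196) (nat_lit 214) (nat_lit 160)) (PT.lf (nat_lit 31312) (nat_lit 6) (nat_lit 412) (nat_lit 2) (nat_lit 197) (nat_lit 214) (nat_lit 159)))) (PT.nd (nat_lit 156) (PT.nd (nat_lit 78) (PT.lf (nat_lit 30476) (nat_lit 6) (nat_lit 401) (nat_lit 2) (nat_lit 198) (nat_lit 214) (nat_lit 158)) (PT.lf (nat_lit 29716) (nat_lit 6) (nat_lit 391) (nat_lit 2) (nat_lit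 199) (nat_lit 214) (nat_lit 157))) (PT.nd (nat_lit 78) (PT.lf (nat_lit 28956) (nat_lit 6) (nat_lit 381) (nat_lit 2) (nat_lit 200) (nat_lit 214) (nat_lit 156)) (PT.nd (nat_lit 78) (PT.lf (nat_lit 28196) (nat_lit 6) (nat_lit 371) (nat_lit 2) (nat_lit 201) (nat_lit 214) (nat_lit 155)) (PT.lf (nat_lit 27436) (nat_lit 6) (nat_lit 361) (nat_lit 2) (nat_lit 202) (nat_lit 214) (nat_lit 154))))))) (PT.nd (nat_lit 702) (PT.nd (nat_lit 312) (PT.nd (nat_lit 156) (PT.nd (nat_lit 78) (PT.lf (nat_lit 26752) (nat_lit 6) (nat_lit 352) (nat_lit 2) (nat_lit 203) (nat_lit 214) (nat_lit 153)) (PT.lf (nat_lit 26068) (nat_lit 6) (nat_lit 343) (nat_lit 2) (nat_lit 204) (nat_lit 214) (nat_lit 152))) (PT.nd (nat_lit 78) (PT.lf (nat_lit 25384) (nat_lit 6) (nat_lit 334) (nat_lit 2) (nat_lit 205) (nat_lit 214) (nat_lit 151)) (PT.lf (nat_lit 24700) (nat_lit 6) (nat_lit 325) (nat_lit 2) (nat_lit 206) (nat_lit 214) (nat_lit 150)))) (PT.nd (nat_lit 156) (PT.nd (nat_lit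 78) (PT.lf (nat_lit 24092) (nat_lit 6) (nat_lit 317) (nat_lit 2) (nat_lit 207) (nat_lit 214) (nat_lit 149)) (PT.lf (nat_lit 23484) (nat_lit 6) (nat_lit 309) (nat_lit 2) (nat_lit 208) (nat_lit 214) (nat_lit 148))) (PT.nd (nat_lit 78) (PT.lf (nat_lit 22876) (nat_lit 6) (nat_lit 301) (nat_lit 2) (nat_lit 209) (nat_lit 214) (nat_lit 147)) (PT.nd (nat_lit 78) (PT.lf (nat_lit 22268) (nat_lit 6) (nat_lit 293) (nat_lit 2) (nat_lit 210) (nat_lit 214) (nat_lit 146)) (PT.lf (nat_lit 21736) (nat_lit 6) (nat_lit 286) (nat_lit 2) (nat_lit 211) (nat_lit 214) (nat_lit 145)))))) (PT.nd (nat_lit 312) (PT.nd (nat_lit 156) (PT.nd (nat_lit 78) (PT.lf (nat_lit 21128) (nat_lit 6) (nat_lit 278) (nat_lit 2) (nat_lit 212) (nat_lit 214) (nat_lit 144)) (PT.lf (nat_lit 20596) (nat_lit 6) (nat_lit 271) (nat_lit 2) (nat_lit 213) (nat_lit 214) (nat_lit 143))) (PT.nd (nat_lit 78) (PT.lf (nat_lit 20064) (nat_lit 3) (nat_lit 264) (nat_lit 0) (nat_lit 214) (nat_lit 214)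 (nat_lit 142)) (PT.lf (nat_lit 19456) (nat_lit 6) (nat_lit 256) (nat_lit 0) (nat_lit 215) (nat_lit 214) (nat_lit 141)))) (PT.nd (nat_lit 156) (PT.nd (nat_lit 78) (PT.lf (nat_lit 18848) (nat_lit 6) (nat_lit 248) (nat_lit 0) (nat_lit 216) (nat_lit 214) (nat_lit 140)) (PT.lf (nat_lit 18316) (nat_lit 6) (nat_lit 241) (nat_lit 0) (nat_lit 217) (nat_lit 214) (nat_lit 139))) (PT.nd (nat_lit 78) (PT.lf (nat_lit 17708) (nat_lit 6) (nat_lit 233) (nat_lit 0) (nat_lit 218) (nat_lit 214) (nat_lit 138)) (PT.nd (nat_lit 78) (PT.lf (nat_lit 17176) (nat_lit 6) (nat_lit 226) (nat_lit 0) (nat_lit 219) (nat_lit 214) (nat_lit 137)) (PT.lf (nat_lit 16644) (nat_lit 6) (nat_lit 219) (nat_lit 0) (nat_lit 220) (nat_lit 214) (nat_lit 136))))))))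
noncomputable def pc100 : PT := (PT.nd (nat_lit 53274) (PT.nd (nat_lit 52572) (PT.nd (nat_lit 52260) (PT.nd (nat_lit 156) (PT.nd (nat_lit 78) (PT.lf (nat_lit 16112) (nat_lit 6) (nat_lit 212) (nat_lit 0) (nat_lit 221) (nat_lit 214) (nat_lit 135)) (PT.lf (nat_lit 15580) (nat_lit 6) (nat_lit 205) (nat_lit 0) (nat_lit 222) (nat_lit 214) (nat_lit 134))) (PT.nd (nat_lit 78) (PT.lf (nat_lit 15124) (nat_lit 6) (nat_lit 199) (nat_lit 0) (nat_lit 223) (nat_lit 214) (nat_lit 133)) (PT.lf (nat_lit 14592) (nat_lit 6) (nat_lit 192) (nat_lit 0) (nat_lit 224) (nat_lit 214) (nat_lit 132)))) (PT.nd (nat_lit 156) (PT.nd (nat_lit 78) (PT.lf (nat_lit 13756) (nat_lit 6) (nat_lit 181) (nat_lit 5) (nat_lit 130) (nat_lit 215) (nat_lit 225)) (PT.lf (nat_lit 14212) (nat_lit 6) (nat_lit 187) (nat_lit 5) (nat_lit 131) (nat_lit 215) (nat_lit 224))) (PT.nd (nat_lit 78) (PT.lf (nat_lit 14668) (nat_lit 6) (nat_lit 193) (nat_lit 5) (nat_lit 132) (nat_lit 215) (nat_lit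 223)) (PT.lf (nat_lit 15200) (nat_lit 6) (nat_lit 200) (nat_lit 5) (nat_lit 133) (nat_lit 215) (nat_lit 222))))) (PT.nd (nat_lit 312) (PT.nd (nat_lit 156) (PT.nd (nat_lit 78) (PT.lf (nat_lit 15656) (nat_lit 6) (nat_lit 206) (nat_lit 5) (nat_lit 134) (nat_lit 215) (nat_lit 221)) (PT.lf (nat_lit 16188) (nat_lit 6) (nat_lit 213) (nat_lit 5) (nat_lit 135) (nat_lit 215) (nat_lit 220))) (PT.nd (nat_lit 78) (PT.lf (nat_lit 16720) (nat_lit 6) (nat_lit 220) (nat_lit 5) (nat_lit 136) (nat_lit 215) (nat_lit 219)) (PT.lf (nat_lit 17252) (nat_lit 6) (nat_lit 227) (nat_lit 5) (nat_lit 137) (nat_lit 215) (nat_lit 218)))) (PT.nd (nat_lit 156) (PT.nd (nat_lit 78) (PT.lf (nat_lit 17784) (nat_lit 6) (nat_lit 234) (nat_lit 5) (nat_lit 138) (nat_lit 215) (nat_lit 217)) (PT.lf (nat_lit 18392) (nat_lit 6) (nat_lit 242) (nat_lit 5) (nat_lit 139) (nat_lit 215) (nat_lit 216))) (PT.nd (nat_lit 78) (PT.lf (nat_lit 18924) (nat_lit 3) (nat_lit 249) (nat_lit 4) (nat_lit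 140) (nat_lit 215) (nat_lit 215)) (PT.nd (nat_lit 78) (PT.lf (nat_lit 19456) (nat_lit 6) (nat_lit 256) (nat_lit 4) (nat_lit 141) (nat_lit 215) (nat_lit 214)) (PT.lf (nat_lit 19988) (nat_lit 6) (nat_lit 263) (nat_lit 4) (nat_lit 142) (nat_lit 215) (nat_lit 213))))))) (PT.nd (nat_lit 702) (PT.nd (nat_lit 312) (PT.nd (nat_lit 156) (PT.nd (nat_lit 78) (PT.lf (nat_lit 20520) (nat_lit 6) (nat_lit 270) (nat_lit 4) (nat_lit 143) (nat_lit 215) (nat_lit 212)) (PT.lf (nat_lit 21052) (nat_lit 6) (nat_lit 277) (nat_lit 4) (nat_lit 144) (nat_lit 215) (nat_lit 211))) (PT.nd (nat_lit 78) (PT.lf (nat_lit 21660) (nat_lit 6) (nat_lit 285) (nat_lit 4) (nat_lit 145) (nat_lit 215) (nat_lit 210)) (PT.lf (nat_lit 22192) (nat_lit 6) (nat_lit 292) (nat_lit 4) (nat_lit 146) (nat_lit 215) (nat_lit 209)))) (PT.nd (nat_lit 156) (PT.nd (nat_lit 78) (PT.lf (nat_lit 22800) (nat_lit 6) (nat_lit 300) (nat_lit 4) (nat_lit 147) (nat_lit 215) (nat_lit 208)) (PT.lf (nat_lit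 23408) (nat_lit 6) (nat_lit 308) (nat_lit 4) (nat_lit 148) (nat_lit 215) (nat_lit 207))) (PT.nd (nat_lit 78) (PT.lf (nat_lit 24016) (nat_lit 6) (nat_lit 316) (nat_lit 4) (nat_lit 149) (nat_lit 215) (nat_lit 206)) (PT.nd (nat_lit 78) (PT.lf (nat_lit 24624) (nat_lit 6) (nat_lit 324) (nat_lit 4) (nat_lit 150) (nat_lit 215) (nat_lit 205)) (PT.lf (nat_lit 25308) (nat_lit 6) (nat_lit 333) (nat_lit 4) (nat_lit 151) (nat_lit 215) (nat_lit 204)))))) (PT.nd (nat_lit 312) (PT.nd (nat_lit 156) (PT.nd (nat_lit 78) (PT.lf (nat_lit 25992) (nat_lit 6) (nat_lit 342) (nat_lit 4) (nat_lit 152) (nat_lit 215) (nat_lit 203)) (PT.lf (nat_lit 26676) (nat_lit 6) (nat_lit 351) (nat_lit 4) (nat_lit 153) (nat_lit 215) (nat_lit 202))) (PT.nd (nat_lit 78) (PT.lf (nat_lit 27360) (nat_lit 6) (nat_lit 360) (nat_lit 4) (nat_lit 154) (nat_lit 215) (nat_lit 201)) (PT.lf (nat_lit 28120) (nat_lit 6) (nat_lit 370) (nat_lit 4) (nat_lit 155) (nat_lit 215) (nat_lit 200)))) (PT.nd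 (nat_lit 156) (PT.nd (nat_lit 78) (PT.lf (nat_lit 28880) (nat_lit 6) (nat_lit 380) (nat_lit 4) (nat_lit 156) (nat_lit 215) (nat_lit 199)) (PT.lf (nat_lit 29640) (nat_lit 6) (nat_lit 390) (nat_lit 4) (nat_lit 157) (nat_lit 215) (nat_lit 198))) (PT.nd (nat_lit 78) (PT.lf (nat_lit 30400) (nat_lit 6) (nat_lit 400) (nat_lit 4) (nat_lit 158) (nat_lit 215) (nat_lit 197)) (PT.nd (nat_lit 78) (PT.lf (nat_lit 31236) (nat_lit 6) (nat_lit 411) (nat_lit 4) (nat_lit 159) (nat_lit 215) (nat_lit 196)) (PT.lf (nat_lit 32072) (nat_lit 6) (nat_lit 422) (nat_lit 4) (nat_lit 160) (nat_lit 215) (nat_lit 195))))))))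
noncomputable def pc101 : PT := (PT.nd (nat_lit 2964) (PT.nd (nat_lit 2262) (PT.nd (nat_lit 312) (PT.nd (nat_lit 156) (PT.nd (nat_lit 78) (PT.lf (nat_lit 32984) (nat_lit 6) (nat_lit 434) (nat_lit 4) (nat_lit 161) (nat_lit 215) (nat_lit 194)) (PT.lf (nat_lit 33820) (nat_lit 6) (nat_lit 445) (nat_lit 4) (nat_lit 162) (nat_lit 215) (nat_lit 193))) (PT.nd (nat_lit 78) (PT.lf (nat_lit 34732) (nat_lit 6) (nat_lit 457) (nat_lit 4) (nat_lit 163) (nat_lit 215) (nat_lit 192)) (PT.lf (nat_lit 35644) (nat_lit 6) (nat_lit 469) (nat_lit 4) (nat_lit 164) (nat_lit 215) (nat_lit 191)))) (PT.nd (nat_lit 156) (PT.nd (nat_lit 78) (PT.lf (nat_lit 36784) (nat_lit 6) (nat_lit 484) (nat_lit 4) (nat_lit 165) (nat_lit 215) (nat_lit 190)) (PT.lf (nat_lit 36708) (nat_lit 6) (nat_lit 483) (nat_lit 4) (nat_lit 166) (nat_lit 215) (nat_lit 189))) (PT.nd (nat_lit 1638) (PT.lf (nat_lit 36632) (nat_lit 6) (nat_lit 482) (nat_lit 4) (nat_lit 167) (nat_lit 215) (nat_lit 188))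 (PT.nd (nat_lit 78) (PT.lf (nat_lit 36632) (nat_lit 6) (nat_lit 482) (nat_lit 2) (nat_lit 188) (nat_lit 215) (nat_lit 167)) (PT.lf (nat_lit 36708) (nat_lit 6) (nat_lit 483) (nat_lit 2) (nat_lit 189) (nat_lit 215) (nat_lit 166)))))) (PT.nd (nat_lit 312) (PT.nd (nat_lit 156) (PT.nd (nat_lit 78) (PT.lf (nat_lit 36784) (nat_lit 6) (nat_lit 484) (nat_lit 2) (nat_lit 190) (nat_lit 215) (nat_lit 165)) (PT.lf (nat_lit 35644) (nat_lit 6) (nat_lit 469) (nat_lit 2) (nat_lit 191) (nat_lit 215) (nat_lit 164))) (PT.nd (nat_lit 78) (PT.lf (nat_lit 34732) (nat_lit 6) (nat_lit 457) (nat_lit 2) (nat_lit 192) (nat_lit 215) (nat_lit 163)) (PT.lf (nat_lit 33820) (nat_lit 6) (nat_lit 445) (nat_lit 2) (nat_lit 193) (nat_lit 215) (nat_lit 162)))) (PT.nd (nat_lit 156) (PT.nd (nat_lit 78) (PT.lf (nat_lit 32984) (nat_lit 6) (nat_lit 434) (nat_lit 2) (nat_lit 194) (nat_lit 215) (nat_lit 161)) (PT.lf (nat_lit 32072) (nat_lit 6) (nat_lit 422) (nat_lit 2) (nat_lit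 195) (nat_lit 215) (nat_lit 160))) (PT.nd (nat_lit 78) (PT.lf (nat_lit 31236) (nat_lit 6) (nat_lit 411) (nat_lit 2) (nat_lit 196) (nat_lit 215) (nat_lit 159)) (PT.nd (nat_lit 78) (PT.lf (nat_lit 30400) (nat_lit 6) (nat_lit 400) (nat_lit 2) (nat_lit 197) (nat_lit 215) (nat_lit 158)) (PT.lf (nat_lit 29640) (nat_lit 6) (nat_lit 390) (nat_lit 2) (nat_lit 198) (nat_lit 215) (nat_lit 157))))))) (PT.nd (nat_lit 702) (PT.nd (nat_lit 312) (PT.nd (nat_lit 156) (PT.nd (nat_lit 78) (PT.lf (nat_lit 28880) (nat_lit 6) (nat_lit 380) (nat_lit 2) (nat_lit 199) (nat_lit 215) (nat_lit 156)) (PT.lf (nat_lit 28120) (nat_lit 6) (nat_lit 370) (nat_lit 2) (nat_lit 200) (nat_lit 215) (nat_lit 155))) (PT.nd (nat_lit 78) (PT.lf (nat_lit 27360) (nat_lit 6) (nat_lit 360) (nat_lit 2) (nat_lit 201) (nat_lit 215) (nat_lit 154)) (PT.lf (nat_lit 26676) (nat_lit 6) (nat_lit 351) (nat_lit 2) (nat_lit 202) (nat_lit 215) (nat_lit 153)))) (PT.nd (nat_lit 156) (PT.nd (nat_lit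 78) (PT.lf (nat_lit 25992) (nat_lit 6) (nat_lit 342) (nat_lit 2) (nat_lit 203) (nat_lit 215) (nat_lit 152)) (PT.lf (nat_lit 25308) (nat_lit 6) (nat_lit 333) (nat_lit 2) (nat_lit 204) (nat_lit 215) (nat_lit 151))) (PT.nd (nat_lit 78) (PT.lf (nat_lit 24624) (nat_lit 6) (nat_lit 324) (nat_lit 2) (nat_lit 205) (nat_lit 215) (nat_lit 150)) (PT.nd (nat_lit 78) (PT.lf (nat_lit 24016) (nat_lit 6) (nat_lit 316) (nat_lit 2) (nat_lit 206) (nat_lit 215) (nat_lit 149)) (PT.lf (nat_lit 23408) (nat_lit 6) (nat_lit 308) (nat_lit 2) (nat_lit 207) (nat_lit 215) (nat_lit 148)))))) (PT.nd (nat_lit 312) (PT.nd (nat_lit 156) (PT.nd (nat_lit 78) (PT.lf (nat_lit 22800) (nat_lit 6) (nat_lit 300) (nat_lit 2) (nat_lit 208) (nat_lit 215) (nat_lit 147)) (PT.lf (nat_lit 22192) (nat_lit 6) (nat_lit 292) (nat_lit 2) (nat_lit 209) (nat_lit 215) (nat_lit 146))) (PT.nd (nat_lit 78) (PT.lf (nat_lit 21660) (nat_lit 6) (nat_lit 285) (nat_lit 2) (nat_lit 210) (nat_lit 215)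 (nat_lit 145)) (PT.lf (nat_lit 21052) (nat_lit 6) (nat_lit 277) (nat_lit 2) (nat_lit 211) (nat_lit 215) (nat_lit 144)))) (PT.nd (nat_lit 156) (PT.nd (nat_lit 78) (PT.lf (nat_lit 20520) (nat_lit 6) (nat_lit 270) (nat_lit 2) (nat_lit 212) (nat_lit 215) (nat_lit 143)) (PT.lf (nat_lit 19988) (nat_lit 6) (nat_lit 263) (nat_lit 2) (nat_lit 213) (nat_lit 215) (nat_lit 142))) (PT.nd (nat_lit 78) (PT.lf (nat_lit 19456) (nat_lit 6) (nat_lit 256) (nat_lit 2) (nat_lit 214) (nat_lit 215) (nat_lit 141)) (PT.nd (nat_lit 78) (PT.lf (nat_lit 18924) (nat_lit 3) (nat_lit 249) (nat_lit 0) (nat_lit 215) (nat_lit 215) (nat_lit 140)) (PT.lf (nat_lit 18392) (nat_lit 6) (nat_lit 242) (nat_lit 0) (nat_lit 216) (nat_lit 215) (nat_lit 139))))))))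
noncomputable def pc102 : PT := (PT.nd (nat_lit 53196) (PT.nd (nat_lit 52494) (PT.nd (nat_lit 312) (PT.nd (nat_lit 156) (PT.nd (nat_lit 78) (PT.lf (nat_lit 17784) (nat_lit 6) (nat_lit 234) (nat_lit 0) (nat_lit 217) (nat_lit 215) (nat_lit 138)) (PT.lf (nat_lit 17252) (nat_lit 6) (nat_lit 227) (nat_lit 0) (nat_lit 218) (nat_lit 215) (nat_lit 137))) (PT.nd (nat_lit 78) (PT.lf (nat_lit 16720) (nat_lit 6) (nat_lit 220) (nat_lit 0) (nat_lit 219) (nat_lit 215) (nat_lit 136)) (PT.lf (nat_lit 16188) (nat_lit 6) (nat_lit 213) (nat_lit 0) (nat_lit 220) (nat_lit 215) (nat_lit 135)))) (PT.nd (nat_lit 156) (PT.nd (nat_lit 78) (PT.lf (nat_lit 15656) (nat_lit 6) (nat_lit 206) (nat_lit 0) (nat_lit 221) (nat_lit 215) (nat_lit 134)) (PT.lf (nat_lit 15200) (nat_lit 6) (nat_lit 200) (nat_lit 0) (nat_lit 222) (nat_lit 215) (nat_lit 133))) (PT.nd (nat_lit 78) (PT.lf (nat_lit 14668) (nat_lit 6) (nat_lit 193) (nat_lit 0) (nat_lit 223) (nat_lit 215) (nat_lit 132))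 (PT.nd (nat_lit 78) (PT.lf (nat_lit 14212) (nat_lit 6) (nat_lit 187) (nat_lit 0) (nat_lit 224) (nat_lit 215) (nat_lit 131)) (PT.lf (nat_lit 13756) (nat_lit 6) (nat_lit 181) (nat_lit 0) (nat_lit 225) (nat_lit 215) (nat_lit 130)))))) (PT.nd (nat_lit 312) (PT.nd (nat_lit 156) (PT.nd (nat_lit 78) (PT.lf (nat_lit 13376) (nat_lit 6) (nat_lit 176) (nat_lit 5) (nat_lit 129) (nat_lit 216) (nat_lit 225)) (PT.lf (nat_lit 13832) (nat_lit 6) (nat_lit 182) (nat_lit 5) (nat_lit 130) (nat_lit 216) (nat_lit 224))) (PT.nd (nat_lit 78) (PT.lf (nat_lit 14288) (nat_lit 6) (nat_lit 188) (nat_lit 5) (nat_lit 131) (nat_lit 216) (nat_lit 223)) (PT.lf (nat_lit 14744) (nat_lit 6) (nat_lit 194) (nat_lit 5) (nat_lit 132) (nat_lit 216) (nat_lit 222)))) (PT.nd (nat_lit 156) (PT.nd (nat_lit 78) (PT.lf (nat_lit 15276) (nat_lit 6) (nat_lit 201) (nat_lit 5) (nat_lit 133) (nat_lit 216) (nat_lit 221)) (PT.lf (nat_lit 15732) (nat_lit 6) (nat_lit 207) (nat_lit 5) (nat_lit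 134) (nat_lit 216) (nat_lit 220))) (PT.nd (nat_lit 78) (PT.lf (nat_lit 16264) (nat_lit 6) (nat_lit 214) (nat_lit 5) (nat_lit 135) (nat_lit 216) (nat_lit 219)) (PT.nd (nat_lit 78) (PT.lf (nat_lit 16796) (nat_lit 6) (nat_lit 221) (nat_lit 5) (nat_lit 136) (nat_lit 216) (nat_lit 218)) (PT.lf (nat_lit 17328) (nat_lit 6) (nat_lit 228) (nat_lit 5) (nat_lit 137) (nat_lit 216) (nat_lit 217))))))) (PT.nd (nat_lit 702) (PT.nd (nat_lit 312) (PT.nd (nat_lit 156) (PT.nd (nat_lit 78) (PT.lf (nat_lit 17860) (nat_lit 3) (nat_lit 235) (nat_lit 4) (nat_lit 138) (nat_lit 216) (nat_lit 216)) (PT.lf (nat_lit 18392) (nat_lit 6) (nat_lit 242) (nat_lit 4) (nat_lit 139) (nat_lit 216) (nat_lit 215))) (PT.nd (nat_lit 78) (PT.lf (nat_lit 18848) (nat_lit 6) (nat_lit 248) (nat_lit 4) (nat_lit 140) (nat_lit 216) (nat_lit 214)) (PT.lf (nat_lit 19380) (nat_lit 6) (nat_lit 255) (nat_lit 4) (nat_lit 141) (nat_lit 216) (nat_lit 213)))) (PT.nd (nat_lit 156) (PT.nd (nat_lit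 78) (PT.lf (nat_lit 19912) (nat_lit 6) (nat_lit 262) (nat_lit 4) (nat_lit 142) (nat_lit 216) (nat_lit 212)) (PT.lf (nat_lit 20444) (nat_lit 6) (nat_lit 269) (nat_lit 4) (nat_lit 143) (nat_lit 216) (nat_lit 211))) (PT.nd (nat_lit 78) (PT.lf (nat_lit 20976) (nat_lit 6) (nat_lit 276) (nat_lit 4) (nat_lit 144) (nat_lit 216) (nat_lit 210)) (PT.nd (nat_lit 78) (PT.lf (nat_lit 21584) (nat_lit 6) (nat_lit 284) (nat_lit 4) (nat_lit 145) (nat_lit 216) (nat_lit 209)) (PT.lf (nat_lit 22116) (nat_lit 6) (nat_lit 291) (nat_lit 4) (nat_lit 146) (nat_lit 216) (nat_lit 208)))))) (PT.nd (nat_lit 312) (PT.nd (nat_lit 156) (PT.nd (nat_lit 78) (PT.lf (nat_lit 22724) (nat_lit 6) (nat_lit 299) (nat_lit 4) (nat_lit 147) (nat_lit 216) (nat_lit 207)) (PT.lf (nat_lit 23332) (nat_lit 6) (nat_lit 307) (nat_lit 4) (nat_lit 148) (nat_lit 216) (nat_lit 206))) (PT.nd (nat_lit 78) (PT.lf (nat_lit 23940) (nat_lit 6) (nat_lit 315) (nat_lit 4) (nat_lit 149) (nat_lit 216)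 (nat_lit 205)) (PT.lf (nat_lit 24548) (nat_lit 6) (nat_lit 323) (nat_lit 4) (nat_lit 150) (nat_lit 216) (nat_lit 204)))) (PT.nd (nat_lit 156) (PT.nd (nat_lit 78) (PT.lf (nat_lit 25232) (nat_lit 6) (nat_lit 332) (nat_lit 4) (nat_lit 151) (nat_lit 216) (nat_lit 203)) (PT.lf (nat_lit 25916) (nat_lit 6) (nat_lit 341) (nat_lit 4) (nat_lit 152) (nat_lit 216) (nat_lit 202))) (PT.nd (nat_lit 78) (PT.lf (nat_lit 26600) (nat_lit 6) (nat_lit 350) (nat_lit 4) (nat_lit 153) (nat_lit 216) (nat_lit 201)) (PT.nd (nat_lit 78) (PT.lf (nat_lit 27284) (nat_lit 6) (nat_lit 359) (nat_lit 4) (nat_lit 154) (nat_lit 216) (nat_lit 200)) (PT.lf (nat_lit 28044) (nat_lit 6) (nat_lit 369) (nat_lit 4) (nat_lit 155) (nat_lit 216) (nat_lit 199))))))))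
noncomputable def pc103 : PT := (PT.nd (nat_lit 3822) (PT.nd (nat_lit 3120) (PT.nd (nat_lit 312) (PT.nd (nat_lit 156) (PT.nd (nat_lit 78) (PT.lf (nat_lit 28804) (nat_lit 6) (nat_lit 379) (nat_lit 4) (nat_lit 156) (nat_lit 216) (nat_lit 198)) (PT.lf (nat_lit 29564) (nat_lit 6) (nat_lit 389) (nat_lit 4) (nat_lit 157) (nat_lit 216) (nat_lit 197))) (PT.nd (nat_lit 78) (PT.lf (nat_lit 30324) (nat_lit 6) (nat_lit 399) (nat_lit 4) (nat_lit 158) (nat_lit 216) (nat_lit 196)) (PT.lf (nat_lit 31160) (nat_lit 6) (nat_lit 410) (nat_lit 4) (nat_lit 159) (nat_lit 216) (nat_lit 195)))) (PT.nd (nat_lit 2574) (PT.nd (nat_lit 78) (PT.lf (nat_lit 31996) (nat_lit 6) (nat_lit 421) (nat_lit 4) (nat_lit 160) (nat_lit 216) (nat_lit 194)) (PT.lf (nat_lit 32908) (nat_lit 6) (nat_lit 433) (nat_lit 4) (nat_lit 161) (nat_lit 216) (nat_lit 193))) (PT.nd (nat_lit 78) (PT.lf (nat_lit 32908) (nat_lit 6) (nat_lit 433) (nat_lit 2) (nat_lit 193) (nat_lit 216) (nat_lit 161))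 (PT.nd (nat_lit 78) (PT.lf (nat_lit 31996) (nat_lit 6) (nat_lit 421) (nat_lit 2) (nat_lit 194) (nat_lit 216) (nat_lit 160)) (PT.lf (nat_lit 31160) (nat_lit 6) (nat_lit 410) (nat_lit 2) (nat_lit 195) (nat_lit 216) (nat_lit 159)))))) (PT.nd (nat_lit 312) (PT.nd (nat_lit 156) (PT.nd (nat_lit 78) (PT.lf (nat_lit 30324) (nat_lit 6) (nat_lit 399) (nat_lit 2) (nat_lit 196) (nat_lit 216) (nat_lit 158)) (PT.lf (nat_lit 29564) (nat_lit 6) (nat_lit 389) (nat_lit 2) (nat_lit 197) (nat_lit 216) (nat_lit 157))) (PT.nd (nat_lit 78) (PT.lf (nat_lit 28804) (nat_lit 6) (nat_lit 379) (nat_lit 2) (nat_lit 198) (nat_lit 216) (nat_lit 156)) (PT.lf (nat_lit 28044) (nat_lit 6) (nat_lit 369) (nat_lit 2) (nat_lit 199) (nat_lit 216) (nat_lit 155)))) (PT.nd (nat_lit 156) (PT.nd (nat_lit 78) (PT.lf (nat_lit 27284) (nat_lit 6) (nat_lit 359) (nat_lit 2) (nat_lit 200) (nat_lit 216) (nat_lit 154)) (PT.lf (nat_lit 26600) (nat_lit 6) (nat_lit 350) (nat_lit 2) (nat_lit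 201) (nat_lit 216) (nat_lit 153))) (PT.nd (nat_lit 78) (PT.lf (nat_lit 25916) (nat_lit 6) (nat_lit 341) (nat_lit 2) (nat_lit 202) (nat_lit 216) (nat_lit 152)) (PT.nd (nat_lit 78) (PT.lf (nat_lit 25232) (nat_lit 6) (nat_lit 332) (nat_lit 2) (nat_lit 203) (nat_lit 216) (nat_lit 151)) (PT.lf (nat_lit 24548) (nat_lit 6) (nat_lit 323) (nat_lit 2) (nat_lit 204) (nat_lit 216) (nat_lit 150))))))) (PT.nd (nat_lit 702) (PT.nd (nat_lit 312) (PT.nd (nat_lit 156) (PT.nd (nat_lit 78) (PT.lf (nat_lit 23940) (nat_lit 6) (nat_lit 315) (nat_lit 2) (nat_lit 205) (nat_lit 216) (nat_lit 149)) (PT.lf (nat_lit 23332) (nat_lit 6) (nat_lit 307) (nat_lit 2) (nat_lit 206) (nat_lit 216) (nat_lit 148))) (PT.nd (nat_lit 78) (PT.lf (nat_lit 22724) (nat_lit 6) (nat_lit 299) (nat_lit 2) (nat_lit 207) (nat_lit 216) (nat_lit 147)) (PT.lf (nat_lit 22116) (nat_lit 6) (nat_lit 291) (nat_lit 2) (nat_lit 208) (nat_lit 216) (nat_lit 146)))) (PT.nd (nat_lit 156) (PT.nd (nat_lit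 78) (PT.lf (nat_lit 21584) (nat_lit 6) (nat_lit 284) (nat_lit 2) (nat_lit 209) (nat_lit 216) (nat_lit 145)) (PT.lf (nat_lit 20976) (nat_lit 6) (nat_lit 276) (nat_lit 2) (nat_lit 210) (nat_lit 216) (nat_lit 144))) (PT.nd (nat_lit 78) (PT.lf (nat_lit 20444) (nat_lit 6) (nat_lit 269) (nat_lit 2) (nat_lit 211) (nat_lit 216) (nat_lit 143)) (PT.nd (nat_lit 78) (PT.lf (nat_lit 19912) (nat_lit 6) (nat_lit 262) (nat_lit 2) (nat_lit 212) (nat_lit 216) (nat_lit 142)) (PT.lf (nat_lit 19380) (nat_lit 6) (nat_lit 255) (nat_lit 2) (nat_lit 213) (nat_lit 216) (nat_lit 141)))))) (PT.nd (nat_lit 312) (PT.nd (nat_lit 156) (PT.nd (nat_lit 78) (PT.lf (nat_lit 18848) (nat_lit 6) (nat_lit 248) (nat_lit 2) (nat_lit 214) (nat_lit 216) (nat_lit 140)) (PT.lf (nat_lit 18392) (nat_lit 6) (nat_lit 242) (nat_lit 2) (nat_lit 215) (nat_lit 216) (nat_lit 139))) (PT.nd (nat_lit 78) (PT.lf (nat_lit 17860) (nat_lit 3) (nat_lit 235) (nat_lit 0) (nat_lit 216) (nat_lit 216)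 (nat_lit 138)) (PT.lf (nat_lit 17328) (nat_lit 6) (nat_lit 228) (nat_lit 0) (nat_lit 217) (nat_lit 216) (nat_lit 137)))) (PT.nd (nat_lit 156) (PT.nd (nat_lit 78) (PT.lf (nat_lit 16796) (nat_lit 6) (nat_lit 221) (nat_lit 0) (nat_lit 218) (nat_lit 216) (nat_lit 136)) (PT.lf (nat_lit 16264) (nat_lit 6) (nat_lit 214) (nat_lit 0) (nat_lit 219) (nat_lit 216) (nat_lit 135))) (PT.nd (nat_lit 78) (PT.lf (nat_lit 15732) (nat_lit 6) (nat_lit 207) (nat_lit 0) (nat_lit 220) (nat_lit 216) (nat_lit 134)) (PT.nd (nat_lit 78) (PT.lf (nat_lit 15276) (nat_lit 6) (nat_lit 201) (nat_lit 0) (nat_lit 221) (nat_lit 216) (nat_lit 133)) (PT.lf (nat_lit 14744) (nat_lit 6) (nat_lit 194) (nat_lit 0) (nat_lit 222) (nat_lit 216) (nat_lit 132))))))))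
noncomputable def pc104 : PT := (PT.nd (nat_lit 52962) (PT.nd (nat_lit 52260) (PT.nd (nat_lit 51948) (PT.nd (nat_lit 156) (PT.nd (nat_lit 78) (PT.lf (nat_lit 14288) (nat_lit 6) (nat_lit 188) (nat_lit 0) (nat_lit 223) (nat_lit 216) (nat_lit 131)) (PT.lf (nat_lit 13832) (nat_lit 6) (nat_lit 182) (nat_lit 0) (nat_lit 224) (nat_lit 216) (nat_lit 130))) (PT.nd (nat_lit 51714) (PT.lf (nat_lit 13376) (nat_lit 6) (nat_lit 176) (nat_lit 0) (nat_lit 225) (nat_lit 216) (nat_lit 129)) (PT.lf (nat_lit 12616) (nat_lit 6) (nat_lit 166) (nat_lit 5) (nat_lit 127) (nat_lit 217) (nat_lit 226)))) (PT.nd (nat_lit 156) (PT.nd (nat_lit 78) (PT.lf (nat_lit 12996) (nat_lit 6) (nat_lit 171) (nat_lit 5) (nat_lit 128) (nat_lit 217) (nat_lit 225)) (PT.lf (nat_lit 13452) (nat_lit 6) (nat_lit 177) (nat_lit 5) (nat_lit 129) (nat_lit 217) (nat_lit 224))) (PT.nd (nat_lit 78) (PT.lf (nat_lit 13908) (nat_lit 6) (nat_lit 183) (nat_lit 5) (nat_lit 130) (nat_lit 217) (nat_lit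 223)) (PT.lf (nat_lit 14364) (nat_lit 6) (nat_lit 189) (nat_lit 5) (nat_lit 131) (nat_lit 217) (nat_lit 222))))) (PT.nd (nat_lit 312) (PT.nd (nat_lit 156) (PT.nd (nat_lit 78) (PT.lf (nat_lit 14820) (nat_lit 6) (nat_lit 195) (nat_lit 5) (nat_lit 132) (nat_lit 217) (nat_lit 221)) (PT.lf (nat_lit 15352) (nat_lit 6) (nat_lit 202) (nat_lit 5) (nat_lit 133) (nat_lit 217) (nat_lit 220))) (PT.nd (nat_lit 78) (PT.lf (nat_lit 15808) (nat_lit 6) (nat_lit 208) (nat_lit 5) (nat_lit 134) (nat_lit 217) (nat_lit 219)) (PT.lf (nat_lit 16340) (nat_lit 6) (nat_lit 215) (nat_lit 5) (nat_lit 135) (nat_lit 217) (nat_lit 218)))) (PT.nd (nat_lit 156) (PT.nd (nat_lit 78) (PT.lf (nat_lit 16872) (nat_lit 3) (nat_lit 222) (nat_lit 4) (nat_lit 136) (nat_lit 217) (nat_lit 217)) (PT.lf (nat_lit 17328) (nat_lit 6) (nat_lit 228) (nat_lit 4) (nat_lit 137) (nat_lit 217) (nat_lit 216))) (PT.nd (nat_lit 78) (PT.lf (nat_lit 17784) (nat_lit 6) (nat_lit 234) (nat_lit 4) (nat_lit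 138) (nat_lit 217) (nat_lit 215)) (PT.nd (nat_lit 78) (PT.lf (nat_lit 18316) (nat_lit 6) (nat_lit 241) (nat_lit 4) (nat_lit 139) (nat_lit 217) (nat_lit 214)) (PT.lf (nat_lit 18772) (nat_lit 6) (nat_lit 247) (nat_lit 4) (nat_lit 140) (nat_lit 217) (nat_lit 213))))))) (PT.nd (nat_lit 702) (PT.nd (nat_lit 312) (PT.nd (nat_lit 156) (PT.nd (nat_lit 78) (PT.lf (nat_lit 19304) (nat_lit 6) (nat_lit 254) (nat_lit 4) (nat_lit 141) (nat_lit 217) (nat_lit 212)) (PT.lf (nat_lit 19836) (nat_lit 6) (nat_lit 261) (nat_lit 4) (nat_lit 142) (nat_lit 217) (nat_lit 211))) (PT.nd (nat_lit 78) (PT.lf (nat_lit 20368) (nat_lit 6) (nat_lit 268) (nat_lit 4) (nat_lit 143) (nat_lit 217) (nat_lit 210)) (PT.lf (nat_lit 20900) (nat_lit 6) (nat_lit 275) (nat_lit 4) (nat_lit 144) (nat_lit 217) (nat_lit 209)))) (PT.nd (nat_lit 156) (PT.nd (nat_lit 78) (PT.lf (nat_lit 21508) (nat_lit 6) (nat_lit 283) (nat_lit 4) (nat_lit 145) (nat_lit 217) (nat_lit 208)) (PT.lf (nat_lit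 22040) (nat_lit 6) (nat_lit 290) (nat_lit 4) (nat_lit 146) (nat_lit 217) (nat_lit 207))) (PT.nd (nat_lit 78) (PT.lf (nat_lit 22648) (nat_lit 6) (nat_lit 298) (nat_lit 4) (nat_lit 147) (nat_lit 217) (nat_lit 206)) (PT.nd (nat_lit 78) (PT.lf (nat_lit 23256) (nat_lit 6) (nat_lit 306) (nat_lit 4) (nat_lit 148) (nat_lit 217) (nat_lit 205)) (PT.lf (nat_lit 23864) (nat_lit 6) (nat_lit 314) (nat_lit 4) (nat_lit 149) (nat_lit 217) (nat_lit 204)))))) (PT.nd (nat_lit 312) (PT.nd (nat_lit 156) (PT.nd (nat_lit 78) (PT.lf (nat_lit 24472) (nat_lit 6) (nat_lit 322) (nat_lit 4) (nat_lit 150) (nat_lit 217) (nat_lit 203)) (PT.lf (nat_lit 25156) (nat_lit 6) (nat_lit 331) (nat_lit 4) (nat_lit 151) (nat_lit 217) (nat_lit 202))) (PT.nd (nat_lit 78) (PT.lf (nat_lit 25840) (nat_lit 6) (nat_lit 340) (nat_lit 4) (nat_lit 152) (nat_lit 217) (nat_lit 201)) (PT.lf (nat_lit 26524) (nat_lit 6) (nat_lit 349) (nat_lit 4) (nat_lit 153) (nat_lit 217) (nat_lit 200)))) (PT.nd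 (nat_lit 156) (PT.nd (nat_lit 78) (PT.lf (nat_lit 27208) (nat_lit 6) (nat_lit 358) (nat_lit 4) (nat_lit 154) (nat_lit 217) (nat_lit 199)) (PT.lf (nat_lit 27968) (nat_lit 6) (nat_lit 368) (nat_lit 4) (nat_lit 155) (nat_lit 217) (nat_lit 198))) (PT.nd (nat_lit 3198) (PT.lf (nat_lit 28728) (nat_lit 6) (nat_lit 378) (nat_lit 4) (nat_lit 156) (nat_lit 217) (nat_lit 197)) (PT.nd (nat_lit 78) (PT.lf (nat_lit 28728) (nat_lit 6) (nat_lit 378) (nat_lit 2) (nat_lit 197) (nat_lit 217) (nat_lit 156)) (PT.lf (nat_lit 27968) (nat_lit 6) (nat_lit 368) (nat_lit 2) (nat_lit 198) (nat_lit 217) (nat_lit 155))))))))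
noncomputable def pc105 : PT := (PT.nd (nat_lit 1404) (PT.nd (nat_lit 702) (PT.nd (nat_lit 312) (PT.nd (nat_lit 156) (PT.nd (nat_lit 78) (PT.lf (nat_lit 27208) (nat_lit 6) (nat_lit 358) (nat_lit 2) (nat_lit 199) (nat_lit 217) (nat_lit 154)) (PT.lf (nat_lit 26524) (nat_lit 6) (nat_lit 349) (nat_lit 2) (nat_lit 200) (nat_lit 217) (nat_lit 153))) (PT.nd (nat_lit 78) (PT.lf (nat_lit 25840) (nat_lit 6) (nat_lit 340) (nat_lit 2) (nat_lit 201) (nat_lit 217) (nat_lit 152)) (PT.lf (nat_lit 25156) (nat_lit 6) (nat_lit 331) (nat_lit 2) (nat_lit 202) (nat_lit 217) (nat_lit 151)))) (PT.nd (nat_lit 156) (PT.nd (nat_lit 78) (PT.lf (nat_lit 24472) (nat_lit 6) (nat_lit 322) (nat_lit 2) (nat_lit 203) (nat_lit 217) (nat_lit 150)) (PT.lf (nat_lit 23864) (nat_lit 6) (nat_lit 314) (nat_lit 2) (nat_lit 204) (nat_lit 217) (nat_lit 149))) (PT.nd (nat_lit 78) (PT.lf (nat_lit 23256) (nat_lit 6) (nat_lit 306) (nat_lit 2) (nat_lit 205) (nat_lit 217) (nat_lit 148))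 (PT.nd (nat_lit 78) (PT.lf (nat_lit 22648) (nat_lit 6) (nat_lit 298) (nat_lit 2) (nat_lit 206) (nat_lit 217) (nat_lit 147)) (PT.lf (nat_lit 22040) (nat_lit 6) (nat_lit 290) (nat_lit 2) (nat_lit 207) (nat_lit 217) (nat_lit 146)))))) (PT.nd (nat_lit 312) (PT.nd (nat_lit 156) (PT.nd (nat_lit 78) (PT.lf (nat_lit 21508) (nat_lit 6) (nat_lit 283) (nat_lit 2) (nat_lit 208) (nat_lit 217) (nat_lit 145)) (PT.lf (nat_lit 20900) (nat_lit 6) (nat_lit 275) (nat_lit 2) (nat_lit 209) (nat_lit 217) (nat_lit 144))) (PT.nd (nat_lit 78) (PT.lf (nat_lit 20368) (nat_lit 6) (nat_lit 268) (nat_lit 2) (nat_lit 210) (nat_lit 217) (nat_lit 143)) (PT.lf (nat_lit 19836) (nat_lit 6) (nat_lit 261) (nat_lit 2) (nat_lit 211) (nat_lit 217) (nat_lit 142)))) (PT.nd (nat_lit 156) (PT.nd (nat_lit 78) (PT.lf (nat_lit 19304) (nat_lit 6) (nat_lit 254) (nat_lit 2) (nat_lit 212) (nat_lit 217) (nat_lit 141)) (PT.lf (nat_lit 18772) (nat_lit 6) (nat_lit 247) (nat_lit 2) (nat_lit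 213) (nat_lit 217) (nat_lit 140))) (PT.nd (nat_lit 78) (PT.lf (nat_lit 18316) (nat_lit 6) (nat_lit 241) (nat_lit 2) (nat_lit 214) (nat_lit 217) (nat_lit 139)) (PT.nd (nat_lit 78) (PT.lf (nat_lit 17784) (nat_lit 6) (nat_lit 234) (nat_lit 2) (nat_lit 215) (nat_lit 217) (nat_lit 138)) (PT.lf (nat_lit 17328) (nat_lit 6) (nat_lit 228) (nat_lit 2) (nat_lit 216) (nat_lit 217) (nat_lit 137))))))) (PT.nd (nat_lit 702) (PT.nd (nat_lit 312) (PT.nd (nat_lit 156) (PT.nd (nat_lit 78) (PT.lf (nat_lit 16872) (nat_lit 3) (nat_lit 222) (nat_lit 0) (nat_lit 217) (nat_lit 217) (nat_lit 136)) (PT.lf (nat_lit 16340) (nat_lit 6) (nat_lit 215) (nat_lit 0) (nat_lit 218) (nat_lit 217) (nat_lit 135))) (PT.nd (nat_lit 78) (PT.lf (nat_lit 15808) (nat_lit 6) (nat_lit 208) (nat_lit 0) (nat_lit 219) (nat_lit 217) (nat_lit 134)) (PT.lf (nat_lit 15352) (nat_lit 6) (nat_lit 202) (nat_lit 0) (nat_lit 220) (nat_lit 217) (nat_lit 133)))) (PT.nd (nat_lit 156) (PT.nd (nat_lit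 78) (PT.lf (nat_lit 14820) (nat_lit 6) (nat_lit 195) (nat_lit 0) (nat_lit 221) (nat_lit 217) (nat_lit 132)) (PT.lf (nat_lit 14364) (nat_lit 6) (nat_lit 189) (nat_lit 0) (nat_lit 222) (nat_lit 217) (nat_lit 131))) (PT.nd (nat_lit 78) (PT.lf (nat_lit 13908) (nat_lit 6) (nat_lit 183) (nat_lit 0) (nat_lit 223) (nat_lit 217) (nat_lit 130)) (PT.nd (nat_lit 78) (PT.lf (nat_lit 13452) (nat_lit 6) (nat_lit 177) (nat_lit 0) (nat_lit 224) (nat_lit 217) (nat_lit 129)) (PT.lf (nat_lit 12996) (nat_lit 6) (nat_lit 171) (nat_lit 0) (nat_lit 225) (nat_lit 217) (nat_lit 128)))))) (PT.nd (nat_lit 51714) (PT.nd (nat_lit 51558) (PT.nd (nat_lit 51480) (PT.lf (nat_lit 12616) (nat_lit 6) (nat_lit 166) (nat_lit 0) (nat_lit 226) (nat_lit 217) (nat_lit 127)) (PT.lf (nat_lit 11856) (nat_lit 6) (nat_lit 156) (nat_lit 5) (nat_lit 125) (nat_lit 218) (nat_lit 227))) (PT.nd (nat_lit 78) (PT.lf (nat_lit 12236) (nat_lit 6) (nat_lit 161) (nat_lit 5) (nat_lit 126) (nat_lit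 218) (nat_lit 226)) (PT.lf (nat_lit 12692) (nat_lit 6) (nat_lit 167) (nat_lit 5) (nat_lit 127) (nat_lit 218) (nat_lit 225)))) (PT.nd (nat_lit 156) (PT.nd (nat_lit 78) (PT.lf (nat_lit 13072) (nat_lit 6) (nat_lit 172) (nat_lit 5) (nat_lit 128) (nat_lit 218) (nat_lit 224)) (PT.lf (nat_lit 13528) (nat_lit 6) (nat_lit 178) (nat_lit 5) (nat_lit 129) (nat_lit 218) (nat_lit 223))) (PT.nd (nat_lit 78) (PT.lf (nat_lit 13984) (nat_lit 6) (nat_lit 184) (nat_lit 5) (nat_lit 130) (nat_lit 218) (nat_lit 222)) (PT.nd (nat_lit 78) (PT.lf (nat_lit 14440) (nat_lit 6) (nat_lit 190) (nat_lit 5) (nat_lit 131) (nat_lit 218) (nat_lit 221)) (PT.lf (nat_lit 14896) (nat_lit 6) (nat_lit 196) (nat_lit 5) (nat_lit 132) (nat_lit 218) (nat_lit 220))))))))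
noncomputable def pc106 : PT := (PT.nd (nat_lit 1404) (PT.nd (nat_lit 702) (PT.nd (nat_lit 312) (PT.nd (nat_lit 156) (PT.nd (nat_lit 78) (PT.lf (nat_lit 15428) (nat_lit 6) (nat_lit 203) (nat_lit 5) (nat_lit 133) (nat_lit 218) (nat_lit 219)) (PT.lf (nat_lit 15884) (nat_lit 3) (nat_lit 209) (nat_lit 4) (nat_lit 134) (nat_lit 218) (nat_lit 218))) (PT.nd (nat_lit 78) (PT.lf (nat_lit 16340) (nat_lit 6) (nat_lit 215) (nat_lit 4) (nat_lit 135) (nat_lit 218) (nat_lit 217)) (PT.lf (nat_lit 16796) (nat_lit 6) (nat_lit 221) (nat_lit 4) (nat_lit 136) (nat_lit 218) (nat_lit 216)))) (PT.nd (nat_lit 156) (PT.nd (nat_lit 78) (PT.lf (nat_lit 17252) (nat_lit 6) (nat_lit 227) (nat_lit 4) (nat_lit 137) (nat_lit 218) (nat_lit 215)) (PT.lf (nat_lit 17708) (nat_lit 6) (nat_lit 233) (nat_lit 4) (nat_lit 138) (nat_lit 218) (nat_lit 214))) (PT.nd (nat_lit 78) (PT.lf (nat_lit 18240) (nat_lit 6) (nat_lit 240) (nat_lit 4) (nat_lit 139) (nat_lit 218) (nat_lit 213))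 (PT.nd (nat_lit 78) (PT.lf (nat_lit 18696) (nat_lit 6) (nat_lit 246) (nat_lit 4) (nat_lit 140) (nat_lit 218) (nat_lit 212)) (PT.lf (nat_lit 19228) (nat_lit 6) (nat_lit 253) (nat_lit 4) (nat_lit 141) (nat_lit 218) (nat_lit 211)))))) (PT.nd (nat_lit 312) (PT.nd (nat_lit 156) (PT.nd (nat_lit 78) (PT.lf (nat_lit 19760) (nat_lit 6) (nat_lit 260) (nat_lit 4) (nat_lit 142) (nat_lit 218) (nat_lit 210)) (PT.lf (nat_lit 20292) (nat_lit 6) (nat_lit 267) (nat_lit 4) (nat_lit 143) (nat_lit 218) (nat_lit 209))) (PT.nd (nat_lit 78) (PT.lf (nat_lit 20824) (nat_lit 6) (nat_lit 274) (nat_lit 4) (nat_lit 144) (nat_lit 218) (nat_lit 208)) (PT.lf (nat_lit 21432) (nat_lit 6) (nat_lit 282) (nat_lit 4) (nat_lit 145) (nat_lit 218) (nat_lit 207)))) (PT.nd (nat_lit 156) (PT.nd (nat_lit 78) (PT.lf (nat_lit 21964) (nat_lit 6) (nat_lit 289) (nat_lit 4) (nat_lit 146) (nat_lit 218) (nat_lit 206)) (PT.lf (nat_lit 22572) (nat_lit 6) (nat_lit 297) (nat_lit 4) (nat_lit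 147) (nat_lit 218) (nat_lit 205))) (PT.nd (nat_lit 78) (PT.lf (nat_lit 23180) (nat_lit 6) (nat_lit 305) (nat_lit 4) (nat_lit 148) (nat_lit 218) (nat_lit 204)) (PT.nd (nat_lit 78) (PT.lf (nat_lit 23788) (nat_lit 6) (nat_lit 313) (nat_lit 4) (nat_lit 149) (nat_lit 218) (nat_lit 203)) (PT.lf (nat_lit 24396) (nat_lit 6) (nat_lit 321) (nat_lit 4) (nat_lit 150) (nat_lit 218) (nat_lit 202))))))) (PT.nd (nat_lit 4368) (PT.nd (nat_lit 3978) (PT.nd (nat_lit 3822) (PT.nd (nat_lit 78) (PT.lf (nat_lit 25080) (nat_lit 6) (nat_lit 330) (nat_lit 4) (nat_lit 151) (nat_lit 218) (nat_lit 201)) (PT.lf (nat_lit 25764) (nat_lit 6) (nat_lit 339) (nat_lit 4) (nat_lit 152) (nat_lit 218) (nat_lit 200))) (PT.nd (nat_lit 78) (PT.lf (nat_lit 25764) (nat_lit 6) (nat_lit 339) (nat_lit 2) (nat_lit 200) (nat_lit 218) (nat_lit 152)) (PT.lf (nat_lit 25080) (nat_lit 6) (nat_lit 330) (nat_lit 2) (nat_lit 201) (nat_lit 218) (nat_lit 151)))) (PT.nd (nat_lit 156) (PT.nd (nat_lit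 78) (PT.lf (nat_lit 24396) (nat_lit 6) (nat_lit 321) (nat_lit 2) (nat_lit 202) (nat_lit 218) (nat_lit 150)) (PT.lf (nat_lit 23788) (nat_lit 6) (nat_lit 313) (nat_lit 2) (nat_lit 203) (nat_lit 218) (nat_lit 149))) (PT.nd (nat_lit 78) (PT.lf (nat_lit 23180) (nat_lit 6) (nat_lit 305) (nat_lit 2) (nat_lit 204) (nat_lit 218) (nat_lit 148)) (PT.nd (nat_lit 78) (PT.lf (nat_lit 22572) (nat_lit 6) (nat_lit 297) (nat_lit 2) (nat_lit 205) (nat_lit 218) (nat_lit 147)) (PT.lf (nat_lit 21964) (nat_lit 6) (nat_lit 289) (nat_lit 2) (nat_lit 206) (nat_lit 218) (nat_lit 146)))))) (PT.nd (nat_lit 312) (PT.nd (nat_lit 156) (PT.nd (nat_lit 78) (PT.lf (nat_lit 21432) (nat_lit 6) (nat_lit 282) (nat_lit 2) (nat_lit 207) (nat_lit 218) (nat_lit 145)) (PT.lf (nat_lit 20824) (nat_lit 6) (nat_lit 274) (nat_lit 2) (nat_lit 208) (nat_lit 218) (nat_lit 144))) (PT.nd (nat_lit 78) (PT.lf (nat_lit 20292) (nat_lit 6) (nat_lit 267) (nat_lit 2) (nat_lit 209) (nat_lit 218)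 (nat_lit 143)) (PT.lf (nat_lit 19760) (nat_lit 6) (nat_lit 260) (nat_lit 2) (nat_lit 210) (nat_lit 218) (nat_lit 142)))) (PT.nd (nat_lit 156) (PT.nd (nat_lit 78) (PT.lf (nat_lit 19228) (nat_lit 6) (nat_lit 253) (nat_lit 2) (nat_lit 211) (nat_lit 218) (nat_lit 141)) (PT.lf (nat_lit 18696) (nat_lit 6) (nat_lit 246) (nat_lit 2) (nat_lit 212) (nat_lit 218) (nat_lit 140))) (PT.nd (nat_lit 78) (PT.lf (nat_lit 18240) (nat_lit 6) (nat_lit 240) (nat_lit 2) (nat_lit 213) (nat_lit 218) (nat_lit 139)) (PT.nd (nat_lit 78) (PT.lf (nat_lit 17708) (nat_lit 6) (nat_lit 233) (nat_lit 2) (nat_lit 214) (nat_lit 218) (nat_lit 138)) (PT.lf (nat_lit 17252) (nat_lit 6) (nat_lit 227) (nat_lit 2) (nat_lit 215) (nat_lit 218) (nat_lit 137))))))))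
noncomputable def pc107 : PT := (PT.nd (nat_lit 52650) (PT.nd (nat_lit 702) (PT.nd (nat_lit 312) (PT.nd (nat_lit 156) (PT.nd (nat_lit 78) (PT.lf (nat_lit 16796) (nat_lit 6) (nat_lit 221) (nat_lit 2) (nat_lit 216) (nat_lit 218) (nat_lit 136)) (PT.lf (nat_lit 16340) (nat_lit 6) (nat_lit 215) (nat_lit 2) (nat_lit 217) (nat_lit 218) (nat_lit 135))) (PT.nd (nat_lit 78) (PT.lf (nat_lit 15884) (nat_lit 3) (nat_lit 209) (nat_lit 0) (nat_lit 218) (nat_lit 218) (nat_lit 134)) (PT.lf (nat_lit 15428) (nat_lit 6) (nat_lit 203) (nat_lit 0) (nat_lit 219) (nat_lit 218) (nat_lit 133)))) (PT.nd (nat_lit 156) (PT.nd (nat_lit 78) (PT.lf (nat_lit 14896) (nat_lit 6) (nat_lit 196) (nat_lit 0) (nat_lit 220) (nat_lit 218) (nat_lit 132)) (PT.lf (nat_lit 14440) (nat_lit 6) (nat_lit 190) (nat_lit 0) (nat_lit 221) (nat_lit 218) (nat_lit 131))) (PT.nd (nat_lit 78) (PT.lf (nat_lit 13984) (nat_lit 6) (nat_lit 184) (nat_lit 0) (nat_lit 222) (nat_lit 218) (nat_lit 130))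 (PT.nd (nat_lit 78) (PT.lf (nat_lit 13528) (nat_lit 6) (nat_lit 178) (nat_lit 0) (nat_lit 223) (nat_lit 218) (nat_lit 129)) (PT.lf (nat_lit 13072) (nat_lit 6) (nat_lit 172) (nat_lit 0) (nat_lit 224) (nat_lit 218) (nat_lit 128)))))) (PT.nd (nat_lit 51558) (PT.nd (nat_lit 156) (PT.nd (nat_lit 78) (PT.lf (nat_lit 12692) (nat_lit 6) (nat_lit 167) (nat_lit 0) (nat_lit 225) (nat_lit 218) (nat_lit 127)) (PT.lf (nat_lit 12236) (nat_lit 6) (nat_lit 161) (nat_lit 0) (nat_lit 226) (nat_lit 218) (nat_lit 126))) (PT.nd (nat_lit 51324) (PT.lf (nat_lit 11856) (nat_lit 6) (nat_lit 156) (nat_lit 0) (nat_lit 227) (nat_lit 218) (nat_lit 125)) (PT.lf (nat_lit 11476) (nat_lit 6) (nat_lit 151) (nat_lit 5) (nat_lit 124) (nat_lit 219) (nat_lit 227)))) (PT.nd (nat_lit 156) (PT.nd (nat_lit 78) (PT.lf (nat_lit 11932) (nat_lit 6) (nat_lit 157) (nat_lit 5) (nat_lit 125) (nat_lit 219) (nat_lit 226)) (PT.lf (nat_lit 12312) (nat_lit 6) (nat_lit 162) (nat_lit 5) (nat_lit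 126) (nat_lit 219) (nat_lit 225))) (PT.nd (nat_lit 78) (PT.lf (nat_lit 12768) (nat_lit 6) (nat_lit 168) (nat_lit 5) (nat_lit 127) (nat_lit 219) (nat_lit 224)) (PT.nd (nat_lit 78) (PT.lf (nat_lit 13148) (nat_lit 6) (nat_lit 173) (nat_lit 5) (nat_lit 128) (nat_lit 219) (nat_lit 223)) (PT.lf (nat_lit 13604) (nat_lit 6) (nat_lit 179) (nat_lit 5) (nat_lit 129) (nat_lit 219) (nat_lit 222))))))) (PT.nd (nat_lit 702) (PT.nd (nat_lit 312) (PT.nd (nat_lit 156) (PT.nd (nat_lit 78) (PT.lf (nat_lit 14060) (nat_lit 6) (nat_lit 185) (nat_lit 5) (nat_lit 130) (nat_lit 219) (nat_lit 221)) (PT.lf (nat_lit 14516) (nat_lit 6) (nat_lit 191) (nat_lit 5) (nat_lit 131) (nat_lit 219) (nat_lit 220))) (PT.nd (nat_lit 78) (PT.lf (nat_lit 14972) (nat_lit 3) (nat_lit 197) (nat_lit 4) (nat_lit 132) (nat_lit 219) (nat_lit 219)) (PT.lf (nat_lit 15428) (nat_lit 6) (nat_lit 203) (nat_lit 4) (nat_lit 133) (nat_lit 219) (nat_lit 218)))) (PT.nd (nat_lit 156) (PT.nd (nat_lit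 78) (PT.lf (nat_lit 15808) (nat_lit 6) (nat_lit 208) (nat_lit 4) (nat_lit 134) (nat_lit 219) (nat_lit 217)) (PT.lf (nat_lit 16264) (nat_lit 6) (nat_lit 214) (nat_lit 4) (nat_lit 135) (nat_lit 219) (nat_lit 216))) (PT.nd (nat_lit 78) (PT.lf (nat_lit 16720) (nat_lit 6) (nat_lit 220) (nat_lit 4) (nat_lit 136) (nat_lit 219) (nat_lit 215)) (PT.nd (nat_lit 78) (PT.lf (nat_lit 17176) (nat_lit 6) (nat_lit 226) (nat_lit 4) (nat_lit 137) (nat_lit 219) (nat_lit 214)) (PT.lf (nat_lit 17632) (nat_lit 6) (nat_lit 232) (nat_lit 4) (nat_lit 138) (nat_lit 219) (nat_lit 213)))))) (PT.nd (nat_lit 312) (PT.nd (nat_lit 156) (PT.nd (nat_lit 78) (PT.lf (nat_lit 18164) (nat_lit 6) (nat_lit 239) (nat_lit 4) (nat_lit 139) (nat_lit 219) (nat_lit 212)) (PT.lf (nat_lit 18620) (nat_lit 6) (nat_lit 245) (nat_lit 4) (nat_lit 140) (nat_lit 219) (nat_lit 211))) (PT.nd (nat_lit 78) (PT.lf (nat_lit 19152) (nat_lit 6) (nat_lit 252) (nat_lit 4) (nat_lit 141) (nat_lit 219)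 (nat_lit 210)) (PT.lf (nat_lit 19684) (nat_lit 6) (nat_lit 259) (nat_lit 4) (nat_lit 142) (nat_lit 219) (nat_lit 209)))) (PT.nd (nat_lit 156) (PT.nd (nat_lit 78) (PT.lf (nat_lit 20216) (nat_lit 6) (nat_lit 266) (nat_lit 4) (nat_lit 143) (nat_lit 219) (nat_lit 208)) (PT.lf (nat_lit 20748) (nat_lit 6) (nat_lit 273) (nat_lit 4) (nat_lit 144) (nat_lit 219) (nat_lit 207))) (PT.nd (nat_lit 78) (PT.lf (nat_lit 21356) (nat_lit 6) (nat_lit 281) (nat_lit 4) (nat_lit 145) (nat_lit 219) (nat_lit 206)) (PT.nd (nat_lit 78) (PT.lf (nat_lit 21888) (nat_lit 6) (nat_lit 288) (nat_lit 4) (nat_lit 146) (nat_lit 219) (nat_lit 205)) (PT.lf (nat_lit 22496) (nat_lit 6) (nat_lit 296) (nat_lit 4) (nat_lit 147) (nat_lit 219) (nat_lit 204))))))))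
noncomputable def pc108 : PT := (PT.nd (nat_lit 5538) (PT.nd (nat_lit 4836) (PT.nd (nat_lit 4524) (PT.nd (nat_lit 4368) (PT.nd (nat_lit 4290) (PT.lf (nat_lit 23104) (nat_lit 6) (nat_lit 304) (nat_lit 4) (nat_lit 148) (nat_lit 219) (nat_lit 203)) (PT.lf (nat_lit 23104) (nat_lit 6) (nat_lit 304) (nat_lit 2) (nat_lit 203) (nat_lit 219) (nat_lit 148))) (PT.nd (nat_lit 78) (PT.lf (nat_lit 22496) (nat_lit 6) (nat_lit 296) (nat_lit 2) (nat_lit 204) (nat_lit 219) (nat_lit 147)) (PT.lf (nat_lit 21888) (nat_lit 6) (nat_lit 288) (nat_lit 2) (nat_lit 205) (nat_lit 219) (nat_lit 146)))) (PT.nd (nat_lit 156) (PT.nd (nat_lit 78) (PT.lf (nat_lit 21356) (nat_lit 6) (nat_lit 281) (nat_lit 2) (nat_lit 206) (nat_lit 219) (nat_lit 145)) (PT.lf (nat_lit 20748) (nat_lit 6) (nat_lit 273) (nat_lit 2) (nat_lit 207) (nat_lit 219) (nat_lit 144))) (PT.nd (nat_lit 78) (PT.lf (nat_lit 20216) (nat_lit 6) (nat_lit 266) (nat_lit 2) (nat_lit 208) (nat_lit 219) (nat_lit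 143)) (PT.lf (nat_lit 19684) (nat_lit 6) (nat_lit 259) (nat_lit 2) (nat_lit 209) (nat_lit 219) (nat_lit 142))))) (PT.nd (nat_lit 312) (PT.nd (nat_lit 156) (PT.nd (nat_lit 78) (PT.lf (nat_lit 19152) (nat_lit 6) (nat_lit 252) (nat_lit 2) (nat_lit 210) (nat_lit 219) (nat_lit 141)) (PT.lf (nat_lit 18620) (nat_lit 6) (nat_lit 245) (nat_lit 2) (nat_lit 211) (nat_lit 219) (nat_lit 140))) (PT.nd (nat_lit 78) (PT.lf (nat_lit 18164) (nat_lit 6) (nat_lit 239) (nat_lit 2) (nat_lit 212) (nat_lit 219) (nat_lit 139)) (PT.lf (nat_lit 17632) (nat_lit 6) (nat_lit 232) (nat_lit 2) (nat_lit 213) (nat_lit 219) (nat_lit 138)))) (PT.nd (nat_lit 156) (PT.nd (nat_lit 78) (PT.lf (nat_lit 17176) (nat_lit 6) (nat_lit 226) (nat_lit 2) (nat_lit 214) (nat_lit 219) (nat_lit 137)) (PT.lf (nat_lit 16720) (nat_lit 6) (nat_lit 220) (nat_lit 2) (nat_lit 215) (nat_lit 219) (nat_lit 136))) (PT.nd (nat_lit 78) (PT.lf (nat_lit 16264) (nat_lit 6) (nat_lit 214) (nat_lit 2) (nat_lit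 216) (nat_lit 219) (nat_lit 135)) (PT.nd (nat_lit 78) (PT.lf (nat_lit 15808) (nat_lit 6) (nat_lit 208) (nat_lit 2) (nat_lit 217) (nat_lit 219) (nat_lit 134)) (PT.lf (nat_lit 15428) (nat_lit 6) (nat_lit 203) (nat_lit 2) (nat_lit 218) (nat_lit 219) (nat_lit 133))))))) (PT.nd (nat_lit 51792) (PT.nd (nat_lit 312) (PT.nd (nat_lit 156) (PT.nd (nat_lit 78) (PT.lf (nat_lit 14972) (nat_lit 3) (nat_lit 197) (nat_lit 0) (nat_lit 219) (nat_lit 219) (nat_lit 132)) (PT.lf (nat_lit 14516) (nat_lit 6) (nat_lit 191) (nat_lit 0) (nat_lit 220) (nat_lit 219) (nat_lit 131))) (PT.nd (nat_lit 78) (PT.lf (nat_lit 14060) (nat_lit 6) (nat_lit 185) (nat_lit 0) (nat_lit 221) (nat_lit 219) (nat_lit 130)) (PT.lf (nat_lit 13604) (nat_lit 6) (nat_lit 179) (nat_lit 0) (nat_lit 222) (nat_lit 219) (nat_lit 129)))) (PT.nd (nat_lit 156) (PT.nd (nat_lit 78) (PT.lf (nat_lit 13148) (nat_lit 6) (nat_lit 173) (nat_lit 0) (nat_lit 223) (nat_lit 219) (nat_lit 128)) (PT.lf (nat_lit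 12768) (nat_lit 6) (nat_lit 168) (nat_lit 0) (nat_lit 224) (nat_lit 219) (nat_lit 127))) (PT.nd (nat_lit 78) (PT.lf (nat_lit 12312) (nat_lit 6) (nat_lit 162) (nat_lit 0) (nat_lit 225) (nat_lit 219) (nat_lit 126)) (PT.nd (nat_lit 78) (PT.lf (nat_lit 11932) (nat_lit 6) (nat_lit 157) (nat_lit 0) (nat_lit 226) (nat_lit 219) (nat_lit 125)) (PT.lf (nat_lit 11476) (nat_lit 6) (nat_lit 151) (nat_lit 0) (nat_lit 227) (nat_lit 219) (nat_lit 124)))))) (PT.nd (nat_lit 312) (PT.nd (nat_lit 156) (PT.nd (nat_lit 78) (PT.lf (nat_lit 10792) (nat_lit 6) (nat_lit 142) (nat_lit 5) (nat_lit 122) (nat_lit 220) (nat_lit 228)) (PT.lf (nat_lit 11172) (nat_lit 6) (nat_lit 147) (nat_lit 5) (nat_lit 123) (nat_lit 220) (nat_lit 227))) (PT.nd (nat_lit 78) (PT.lf (nat_lit 11552) (nat_lit 6) (nat_lit 152) (nat_lit 5) (nat_lit 124) (nat_lit 220) (nat_lit 226)) (PT.lf (nat_lit 12008) (nat_lit 6) (nat_lit 158) (nat_lit 5) (nat_lit 125) (nat_lit 220) (nat_lit 225)))) (PT.nd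 (nat_lit 156) (PT.nd (nat_lit 78) (PT.lf (nat_lit 12388) (nat_lit 6) (nat_lit 163) (nat_lit 5) (nat_lit 126) (nat_lit 220) (nat_lit 224)) (PT.lf (nat_lit 12844) (nat_lit 6) (nat_lit 169) (nat_lit 5) (nat_lit 127) (nat_lit 220) (nat_lit 223))) (PT.nd (nat_lit 78) (PT.lf (nat_lit 13224) (nat_lit 6) (nat_lit 174) (nat_lit 5) (nat_lit 128) (nat_lit 220) (nat_lit 222)) (PT.nd (nat_lit 78) (PT.lf (nat_lit 13680) (nat_lit 6) (nat_lit 180) (nat_lit 5) (nat_lit 129) (nat_lit 220) (nat_lit 221)) (PT.lf (nat_lit 14136) (nat_lit 3) (nat_lit 186) (nat_lit 4) (nat_lit 130) (nat_lit 220) (nat_lit 220))))))))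
noncomputable def pc109 : PT := (PT.nd (nat_lit 6006) (PT.nd (nat_lit 702) (PT.nd (nat_lit 312) (PT.nd (nat_lit 156) (PT.nd (nat_lit 78) (PT.lf (nat_lit 14516) (nat_lit 6) (nat_lit 191) (nat_lit 4) (nat_lit 131) (nat_lit 220) (nat_lit 219)) (PT.lf (nat_lit 14896) (nat_lit 6) (nat_lit 196) (nat_lit 4) (nat_lit 132) (nat_lit 220) (nat_lit 218))) (PT.nd (nat_lit 78) (PT.lf (nat_lit 15352) (nat_lit 6) (nat_lit 202) (nat_lit 4) (nat_lit 133) (nat_lit 220) (nat_lit 217)) (PT.lf (nat_lit 15732) (nat_lit 6) (nat_lit 207) (nat_lit 4) (nat_lit 134) (nat_lit 220) (nat_lit 216)))) (PT.nd (nat_lit 156) (PT.nd (nat_lit 78) (PT.lf (nat_lit 16188) (nat_lit 6) (nat_lit 213) (nat_lit 4) (nat_lit 135) (nat_lit 220) (nat_lit 215)) (PT.lf (nat_lit 16644) (nat_lit 6) (nat_lit 219) (nat_lit 4) (nat_lit 136) (nat_lit 220) (nat_lit 214))) (PT.nd (nat_lit 78) (PT.lf (nat_lit 17100) (nat_lit 6) (nat_lit 225) (nat_lit 4) (nat_lit 137) (nat_lit 220) (nat_lit 213))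 (PT.nd (nat_lit 78) (PT.lf (nat_lit 17556) (nat_lit 6) (nat_lit 231) (nat_lit 4) (nat_lit 138) (nat_lit 220) (nat_lit 212)) (PT.lf (nat_lit 18088) (nat_lit 6) (nat_lit 238) (nat_lit 4) (nat_lit 139) (nat_lit 220) (nat_lit 211)))))) (PT.nd (nat_lit 312) (PT.nd (nat_lit 156) (PT.nd (nat_lit 78) (PT.lf (nat_lit 18544) (nat_lit 6) (nat_lit 244) (nat_lit 4) (nat_lit 140) (nat_lit 220) (nat_lit 210)) (PT.lf (nat_lit 19076) (nat_lit 6) (nat_lit 251) (nat_lit 4) (nat_lit 141) (nat_lit 220) (nat_lit 209))) (PT.nd (nat_lit 78) (PT.lf (nat_lit 19608) (nat_lit 6) (nat_lit 258) (nat_lit 4) (nat_lit 142) (nat_lit 220) (nat_lit 208)) (PT.lf (nat_lit 20140) (nat_lit 6) (nat_lit 265) (nat_lit 4) (nat_lit 143) (nat_lit 220) (nat_lit 207)))) (PT.nd (nat_lit 4758) (PT.nd (nat_lit 78) (PT.lf (nat_lit 20672) (nat_lit 6) (nat_lit 272) (nat_lit 4) (nat_lit 144) (nat_lit 220) (nat_lit 206)) (PT.lf (nat_lit 21280) (nat_lit 6) (nat_lit 280) (nat_lit 4) (nat_lit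 145) (nat_lit 220) (nat_lit 205))) (PT.nd (nat_lit 78) (PT.lf (nat_lit 21280) (nat_lit 6) (nat_lit 280) (nat_lit 2) (nat_lit 205) (nat_lit 220) (nat_lit 145)) (PT.nd (nat_lit 78) (PT.lf (nat_lit 20672) (nat_lit 6) (nat_lit 272) (nat_lit 2) (nat_lit 206) (nat_lit 220) (nat_lit 144)) (PT.lf (nat_lit 20140) (nat_lit 6) (nat_lit 265) (nat_lit 2) (nat_lit 207) (nat_lit 220) (nat_lit 143))))))) (PT.nd (nat_lit 702) (PT.nd (nat_lit 312) (PT.nd (nat_lit 156) (PT.nd (nat_lit 78) (PT.lf (nat_lit 19608) (nat_lit 6) (nat_lit 258) (nat_lit 2) (nat_lit 208) (nat_lit 220) (nat_lit 142)) (PT.lf (nat_lit 19076) (nat_lit 6) (nat_lit 251) (nat_lit 2) (nat_lit 209) (nat_lit 220) (nat_lit 141))) (PT.nd (nat_lit 78) (PT.lf (nat_lit 18544) (nat_lit 6) (nat_lit 244) (nat_lit 2) (nat_lit 210) (nat_lit 220) (nat_lit 140)) (PT.lf (nat_lit 18088) (nat_lit 6) (nat_lit 238) (nat_lit 2) (nat_lit 211) (nat_lit 220) (nat_lit 139)))) (PT.nd (nat_lit 156) (PT.nd (nat_lit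 78) (PT.lf (nat_lit 17556) (nat_lit 6) (nat_lit 231) (nat_lit 2) (nat_lit 212) (nat_lit 220) (nat_lit 138)) (PT.lf (nat_lit 17100) (nat_lit 6) (nat_lit 225) (nat_lit 2) (nat_lit 213) (nat_lit 220) (nat_lit 137))) (PT.nd (nat_lit 78) (PT.lf (nat_lit 16644) (nat_lit 6) (nat_lit 219) (nat_lit 2) (nat_lit 214) (nat_lit 220) (nat_lit 136)) (PT.nd (nat_lit 78) (PT.lf (nat_lit 16188) (nat_lit 6) (nat_lit 213) (nat_lit 2) (nat_lit 215) (nat_lit 220) (nat_lit 135)) (PT.lf (nat_lit 15732) (nat_lit 6) (nat_lit 207) (nat_lit 2) (nat_lit 216) (nat_lit 220) (nat_lit 134)))))) (PT.nd (nat_lit 312) (PT.nd (nat_lit 156) (PT.nd (nat_lit 78) (PT.lf (nat_lit 15352) (nat_lit 6) (nat_lit 202) (nat_lit 2) (nat_lit 217) (nat_lit 220) (nat_lit 133)) (PT.lf (nat_lit 14896) (nat_lit 6) (nat_lit 196) (nat_lit 2) (nat_lit 218) (nat_lit 220) (nat_lit 132))) (PT.nd (nat_lit 78) (PT.lf (nat_lit 14516) (nat_lit 6) (nat_lit 191) (nat_lit 2) (nat_lit 219) (nat_lit 220)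 (nat_lit 131)) (PT.lf (nat_lit 14136) (nat_lit 3) (nat_lit 186) (nat_lit 0) (nat_lit 220) (nat_lit 220) (nat_lit 130)))) (PT.nd (nat_lit 156) (PT.nd (nat_lit 78) (PT.lf (nat_lit 13680) (nat_lit 6) (nat_lit 180) (nat_lit 0) (nat_lit 221) (nat_lit 220) (nat_lit 129)) (PT.lf (nat_lit 13224) (nat_lit 6) (nat_lit 174) (nat_lit 0) (nat_lit 222) (nat_lit 220) (nat_lit 128))) (PT.nd (nat_lit 78) (PT.lf (nat_lit 12844) (nat_lit 6) (nat_lit 169) (nat_lit 0) (nat_lit 223) (nat_lit 220) (nat_lit 127)) (PT.nd (nat_lit 78) (PT.lf (nat_lit 12388) (nat_lit 6) (nat_lit 163) (nat_lit 0) (nat_lit 224) (nat_lit 220) (nat_lit 126)) (PT.lf (nat_lit 12008) (nat_lit 6) (nat_lit 158) (nat_lit 0) (nat_lit 225) (nat_lit 220) (nat_lit 125))))))))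
noncomputable def pc110 : PT := (PT.nd (nat_lit 52260) (PT.nd (nat_lit 51558) (PT.nd (nat_lit 51168) (PT.nd (nat_lit 156) (PT.nd (nat_lit 78) (PT.lf (nat_lit 11552) (nat_lit 6) (nat_lit 152) (nat_lit 0) (nat_lit 226) (nat_lit 220) (nat_lit 124)) (PT.lf (nat_lit 11172) (nat_lit 6) (nat_lit 147) (nat_lit 0) (nat_lit 227) (nat_lit 220) (nat_lit 123))) (PT.nd (nat_lit 50934) (PT.lf (nat_lit 10792) (nat_lit 6) (nat_lit 142) (nat_lit 0) (nat_lit 228) (nat_lit 220) (nat_lit 122)) (PT.lf (nat_lit 10108) (nat_lit 6) (nat_lit 133) (nat_lit 5) (nat_lit 120) (nat_lit 221) (nat_lit 229)))) (PT.nd (nat_lit 156) (PT.nd (nat_lit 78) (PT.lf (nat_lit 10488) (nat_lit 6) (nat_lit 138) (nat_lit 5) (nat_lit 121) (nat_lit 221) (nat_lit 228)) (PT.lf (nat_lit 10868) (nat_lit 6) (nat_lit 143) (nat_lit 5) (nat_lit 122) (nat_lit 221) (nat_lit 227))) (PT.nd (nat_lit 78) (PT.lf (nat_lit 11248) (nat_lit 6) (nat_lit 148) (nat_lit 5) (nat_lit 123) (nat_lit 221) (nat_lit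 226)) (PT.nd (nat_lit 78) (PT.lf (nat_lit 11628) (nat_lit 6) (nat_lit 153) (nat_lit 5) (nat_lit 124) (nat_lit 221) (nat_lit 225)) (PT.lf (nat_lit 12084) (nat_lit 6) (nat_lit 159) (nat_lit 5) (nat_lit 125) (nat_lit 221) (nat_lit 224)))))) (PT.nd (nat_lit 312) (PT.nd (nat_lit 156) (PT.nd (nat_lit 78) (PT.lf (nat_lit 12464) (nat_lit 6) (nat_lit 164) (nat_lit 5) (nat_lit 126) (nat_lit 221) (nat_lit 223)) (PT.lf (nat_lit 12920) (nat_lit 6) (nat_lit 170) (nat_lit 5) (nat_lit 127) (nat_lit 221) (nat_lit 222))) (PT.nd (nat_lit 78) (PT.lf (nat_lit 13300) (nat_lit 3) (nat_lit 175) (nat_lit 4) (nat_lit 128) (nat_lit 221) (nat_lit 221)) (PT.lf (nat_lit 13680) (nat_lit 6) (nat_lit 180) (nat_lit 4) (nat_lit 129) (nat_lit 221) (nat_lit 220)))) (PT.nd (nat_lit 156) (PT.nd (nat_lit 78) (PT.lf (nat_lit 14060) (nat_lit 6) (nat_lit 185) (nat_lit 4) (nat_lit 130) (nat_lit 221) (nat_lit 219)) (PT.lf (nat_lit 14440) (nat_lit 6) (nat_lit 190) (nat_lit 4) (nat_lit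 131) (nat_lit 221) (nat_lit 218))) (PT.nd (nat_lit 78) (PT.lf (nat_lit 14820) (nat_lit 6) (nat_lit 195) (nat_lit 4) (nat_lit 132) (nat_lit 221) (nat_lit 217)) (PT.nd (nat_lit 78) (PT.lf (nat_lit 15276) (nat_lit 6) (nat_lit 201) (nat_lit 4) (nat_lit 133) (nat_lit 221) (nat_lit 216)) (PT.lf (nat_lit 15656) (nat_lit 6) (nat_lit 206) (nat_lit 4) (nat_lit 134) (nat_lit 221) (nat_lit 215))))))) (PT.nd (nat_lit 5694) (PT.nd (nat_lit 312) (PT.nd (nat_lit 156) (PT.nd (nat_lit 78) (PT.lf (nat_lit 16112) (nat_lit 6) (nat_lit 212) (nat_lit 4) (nat_lit 135) (nat_lit 221) (nat_lit 214)) (PT.lf (nat_lit 16568) (nat_lit 6) (nat_lit 218) (nat_lit 4) (nat_lit 136) (nat_lit 221) (nat_lit 213))) (PT.nd (nat_lit 78) (PT.lf (nat_lit 17024) (nat_lit 6) (nat_lit 224) (nat_lit 4) (nat_lit 137) (nat_lit 221) (nat_lit 212)) (PT.lf (nat_lit 17480) (nat_lit 6) (nat_lit 230) (nat_lit 4) (nat_lit 138) (nat_lit 221) (nat_lit 211)))) (PT.nd (nat_lit 156) (PT.nd (nat_lit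 78) (PT.lf (nat_lit 18012) (nat_lit 6) (nat_lit 237) (nat_lit 4) (nat_lit 139) (nat_lit 221) (nat_lit 210)) (PT.lf (nat_lit 18468) (nat_lit 6) (nat_lit 243) (nat_lit 4) (nat_lit 140) (nat_lit 221) (nat_lit 209))) (PT.nd (nat_lit 78) (PT.lf (nat_lit 19000) (nat_lit 6) (nat_lit 250) (nat_lit 4) (nat_lit 141) (nat_lit 221) (nat_lit 208)) (PT.nd (nat_lit 5070) (PT.lf (nat_lit 19532) (nat_lit 6) (nat_lit 257) (nat_lit 4) (nat_lit 142) (nat_lit 221) (nat_lit 207)) (PT.lf (nat_lit 19532) (nat_lit 6) (nat_lit 257) (nat_lit 2) (nat_lit 207) (nat_lit 221) (nat_lit 142)))))) (PT.nd (nat_lit 312) (PT.nd (nat_lit 156) (PT.nd (nat_lit 78) (PT.lf (nat_lit 19000) (nat_lit 6) (nat_lit 250) (nat_lit 2) (nat_lit 208) (nat_lit 221) (nat_lit 141)) (PT.lf (nat_lit 18468) (nat_lit 6) (nat_lit 243) (nat_lit 2) (nat_lit 209) (nat_lit 221) (nat_lit 140))) (PT.nd (nat_lit 78) (PT.lf (nat_lit 18012) (nat_lit 6) (nat_lit 237) (nat_lit 2) (nat_lit 210) (nat_lit 221)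 (nat_lit 139)) (PT.lf (nat_lit 17480) (nat_lit 6) (nat_lit 230) (nat_lit 2) (nat_lit 211) (nat_lit 221) (nat_lit 138)))) (PT.nd (nat_lit 156) (PT.nd (nat_lit 78) (PT.lf (nat_lit 17024) (nat_lit 6) (nat_lit 224) (nat_lit 2) (nat_lit 212) (nat_lit 221) (nat_lit 137)) (PT.lf (nat_lit 16568) (nat_lit 6) (nat_lit 218) (nat_lit 2) (nat_lit 213) (nat_lit 221) (nat_lit 136))) (PT.nd (nat_lit 78) (PT.lf (nat_lit 16112) (nat_lit 6) (nat_lit 212) (nat_lit 2) (nat_lit 214) (nat_lit 221) (nat_lit 135)) (PT.nd (nat_lit 78) (PT.lf (nat_lit 15656) (nat_lit 6) (nat_lit 206) (nat_lit 2) (nat_lit 215) (nat_lit 221) (nat_lit 134)) (PT.lf (nat_lit 15276) (nat_lit 6) (nat_lit 201) (nat_lit 2) (nat_lit 216) (nat_lit 221) (nat_lit 133))))))))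
noncomputable def pc111 : PT := (PT.nd (nat_lit 52104) (PT.nd (nat_lit 702) (PT.nd (nat_lit 312) (PT.nd (nat_lit 156) (PT.nd (nat_lit 78) (PT.lf (nat_lit 14820) (nat_lit 6) (nat_lit 195) (nat_lit 2) (nat_lit 217) (nat_lit 221) (nat_lit 132)) (PT.lf (nat_lit 14440) (nat_lit 6) (nat_lit 190) (nat_lit 2) (nat_lit 218) (nat_lit 221) (nat_lit 131))) (PT.nd (nat_lit 78) (PT.lf (nat_lit 14060) (nat_lit 6) (nat_lit 185) (nat_lit 2) (nat_lit 219) (nat_lit 221) (nat_lit 130)) (PT.lf (nat_lit 13680) (nat_lit 6) (nat_lit 180) (nat_lit 2) (nat_lit 220) (nat_lit 221) (nat_lit 129)))) (PT.nd (nat_lit 156) (PT.nd (nat_lit 78) (PT.lf (nat_lit 13300) (nat_lit 3) (nat_lit 175) (nat_lit 0) (nat_lit 221) (nat_lit 221) (nat_lit 128)) (PT.lf (nat_lit 12920) (nat_lit 6) (nat_lit 170) (nat_lit 0) (nat_lit 222) (nat_lit 221) (nat_lit 127))) (PT.nd (nat_lit 78) (PT.lf (nat_lit 12464) (nat_lit 6) (nat_lit 164) (nat_lit 0) (nat_lit 223) (nat_lit 221) (nat_lit 126))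 (PT.nd (nat_lit 78) (PT.lf (nat_lit 12084) (nat_lit 6) (nat_lit 159) (nat_lit 0) (nat_lit 224) (nat_lit 221) (nat_lit 125)) (PT.lf (nat_lit 11628) (nat_lit 6) (nat_lit 153) (nat_lit 0) (nat_lit 225) (nat_lit 221) (nat_lit 124)))))) (PT.nd (nat_lit 51012) (PT.nd (nat_lit 156) (PT.nd (nat_lit 78) (PT.lf (nat_lit 11248) (nat_lit 6) (nat_lit 148) (nat_lit 0) (nat_lit 226) (nat_lit 221) (nat_lit 123)) (PT.lf (nat_lit 10868) (nat_lit 6) (nat_lit 143) (nat_lit 0) (nat_lit 227) (nat_lit 221) (nat_lit 122))) (PT.nd (nat_lit 78) (PT.lf (nat_lit 10488) (nat_lit 6) (nat_lit 138) (nat_lit 0) (nat_lit 228) (nat_lit 221) (nat_lit 121)) (PT.lf (nat_lit 10108) (nat_lit 6) (nat_lit 133) (nat_lit 0) (nat_lit 229) (nat_lit 221) (nat_lit 120)))) (PT.nd (nat_lit 156) (PT.nd (nat_lit 78) (PT.lf (nat_lit 9804) (nat_lit 6) (nat_lit 129) (nat_lit 5) (nat_lit 119) (nat_lit 222) (nat_lit 229)) (PT.lf (nat_lit 10184) (nat_lit 6) (nat_lit 134) (nat_lit 5) (nat_lit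 120) (nat_lit 222) (nat_lit 228))) (PT.nd (nat_lit 78) (PT.lf (nat_lit 10564) (nat_lit 6) (nat_lit 139) (nat_lit 5) (nat_lit 121) (nat_lit 222) (nat_lit 227)) (PT.nd (nat_lit 78) (PT.lf (nat_lit 10944) (nat_lit 6) (nat_lit 144) (nat_lit 5) (nat_lit 122) (nat_lit 222) (nat_lit 226)) (PT.lf (nat_lit 11324) (nat_lit 6) (nat_lit 149) (nat_lit 5) (nat_lit 123) (nat_lit 222) (nat_lit 225))))))) (PT.nd (nat_lit 702) (PT.nd (nat_lit 312) (PT.nd (nat_lit 156) (PT.nd (nat_lit 78) (PT.lf (nat_lit 11704) (nat_lit 6) (nat_lit 154) (nat_lit 5) (nat_lit 124) (nat_lit 222) (nat_lit 224)) (PT.lf (nat_lit 12160) (nat_lit 6) (nat_lit 160) (nat_lit 5) (nat_lit 125) (nat_lit 222) (nat_lit 223))) (PT.nd (nat_lit 78) (PT.lf (nat_lit 12540) (nat_lit 3) (nat_lit 165) (nat_lit 4) (nat_lit 126) (nat_lit 222) (nat_lit 222)) (PT.lf (nat_lit 12920) (nat_lit 6) (nat_lit 170) (nat_lit 4) (nat_lit 127) (nat_lit 222) (nat_lit 221)))) (PT.nd (nat_lit 156) (PT.nd (nat_lit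 78) (PT.lf (nat_lit 13224) (nat_lit 6) (nat_lit 174) (nat_lit 4) (nat_lit 128) (nat_lit 222) (nat_lit 220)) (PT.lf (nat_lit 13604) (nat_lit 6) (nat_lit 179) (nat_lit 4) (nat_lit 129) (nat_lit 222) (nat_lit 219))) (PT.nd (nat_lit 78) (PT.lf (nat_lit 13984) (nat_lit 6) (nat_lit 184) (nat_lit 4) (nat_lit 130) (nat_lit 222) (nat_lit 218)) (PT.nd (nat_lit 78) (PT.lf (nat_lit 14364) (nat_lit 6) (nat_lit 189) (nat_lit 4) (nat_lit 131) (nat_lit 222) (nat_lit 217)) (PT.lf (nat_lit 14744) (nat_lit 6) (nat_lit 194) (nat_lit 4) (nat_lit 132) (nat_lit 222) (nat_lit 216)))))) (PT.nd (nat_lit 312) (PT.nd (nat_lit 156) (PT.nd (nat_lit 78) (PT.lf (nat_lit 15200) (nat_lit 6) (nat_lit 200) (nat_lit 4) (nat_lit 133) (nat_lit 222) (nat_lit 215)) (PT.lf (nat_lit 15580) (nat_lit 6) (nat_lit 205) (nat_lit 4) (nat_lit 134) (nat_lit 222) (nat_lit 214))) (PT.nd (nat_lit 78) (PT.lf (nat_lit 16036) (nat_lit 6) (nat_lit 211) (nat_lit 4) (nat_lit 135) (nat_lit 222)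 (nat_lit 213)) (PT.lf (nat_lit 16492) (nat_lit 6) (nat_lit 217) (nat_lit 4) (nat_lit 136) (nat_lit 222) (nat_lit 212)))) (PT.nd (nat_lit 156) (PT.nd (nat_lit 78) (PT.lf (nat_lit 16948) (nat_lit 6) (nat_lit 223) (nat_lit 4) (nat_lit 137) (nat_lit 222) (nat_lit 211)) (PT.lf (nat_lit 17404) (nat_lit 6) (nat_lit 229) (nat_lit 4) (nat_lit 138) (nat_lit 222) (nat_lit 210))) (PT.nd (nat_lit 5460) (PT.lf (nat_lit 17936) (nat_lit 6) (nat_lit 236) (nat_lit 4) (nat_lit 139) (nat_lit 222) (nat_lit 209)) (PT.nd (nat_lit 78) (PT.lf (nat_lit 17936) (nat_lit 6) (nat_lit 236) (nat_lit 2) (nat_lit 209) (nat_lit 222) (nat_lit 139)) (PT.lf (nat_lit 17404) (nat_lit 6) (nat_lit 229) (nat_lit 2) (nat_lit 210) (nat_lit 222) (nat_lit 138))))))))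
noncomputable def pc112 : PT := (PT.nd (nat_lit 1326) (PT.nd (nat_lit 624) (PT.nd (nat_lit 312) (PT.nd (nat_lit 156) (PT.nd (nat_lit 78) (PT.lf (nat_lit 16948) (nat_lit 6) (nat_lit 223) (nat_lit 2) (nat_lit 211) (nat_lit 222) (nat_lit 137)) (PT.lf (nat_lit 16492) (nat_lit 6) (nat_lit 217) (nat_lit 2) (nat_lit 212) (nat_lit 222) (nat_lit 136))) (PT.nd (nat_lit 78) (PT.lf (nat_lit 16036) (nat_lit 6) (nat_lit 211) (nat_lit 2) (nat_lit 213) (nat_lit 222) (nat_lit 135)) (PT.lf (nat_lit 15580) (nat_lit 6) (nat_lit 205) (nat_lit 2) (nat_lit 214) (nat_lit 222) (nat_lit 134)))) (PT.nd (nat_lit 156) (PT.nd (nat_lit 78) (PT.lf (nat_lit 15200) (nat_lit 6) (nat_lit 200) (nat_lit 2) (nat_lit 215) (nat_lit 222) (nat_lit 133)) (PT.lf (nat_lit 14744) (nat_lit 6) (nat_lit 194) (nat_lit 2) (nat_lit 216) (nat_lit 222) (nat_lit 132))) (PT.nd (nat_lit 78) (PT.lf (nat_lit 14364) (nat_lit 6) (nat_lit 189) (nat_lit 2) (nat_lit 217) (nat_lit 222) (nat_lit 131))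 (PT.lf (nat_lit 13984) (nat_lit 6) (nat_lit 184) (nat_lit 2) (nat_lit 218) (nat_lit 222) (nat_lit 130))))) (PT.nd (nat_lit 312) (PT.nd (nat_lit 156) (PT.nd (nat_lit 78) (PT.lf (nat_lit 13604) (nat_lit 6) (nat_lit 179) (nat_lit 2) (nat_lit 219) (nat_lit 222) (nat_lit 129)) (PT.lf (nat_lit 13224) (nat_lit 6) (nat_lit 174) (nat_lit 2) (nat_lit 220) (nat_lit 222) (nat_lit 128))) (PT.nd (nat_lit 78) (PT.lf (nat_lit 12920) (nat_lit 6) (nat_lit 170) (nat_lit 2) (nat_lit 221) (nat_lit 222) (nat_lit 127)) (PT.lf (nat_lit 12540) (nat_lit 3) (nat_lit 165) (nat_lit 0) (nat_lit 222) (nat_lit 222) (nat_lit 126)))) (PT.nd (nat_lit 156) (PT.nd (nat_lit 78) (PT.lf (nat_lit 12160) (nat_lit 6) (nat_lit 160) (nat_lit 0) (nat_lit 223) (nat_lit 222) (nat_lit 125)) (PT.lf (nat_lit 11704) (nat_lit 6) (nat_lit 154) (nat_lit 0) (nat_lit 224) (nat_lit 222) (nat_lit 124))) (PT.nd (nat_lit 78) (PT.lf (nat_lit 11324) (nat_lit 6) (nat_lit 149) (nat_lit 0) (nat_lit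 225) (nat_lit 222) (nat_lit 123)) (PT.nd (nat_lit 78) (PT.lf (nat_lit 10944) (nat_lit 6) (nat_lit 144) (nat_lit 0) (nat_lit 226) (nat_lit 222) (nat_lit 122)) (PT.lf (nat_lit 10564) (nat_lit 6) (nat_lit 139) (nat_lit 0) (nat_lit 227) (nat_lit 222) (nat_lit 121))))))) (PT.nd (nat_lit 51246) (PT.nd (nat_lit 50856) (PT.nd (nat_lit 50700) (PT.nd (nat_lit 78) (PT.lf (nat_lit 10184) (nat_lit 6) (nat_lit 134) (nat_lit 0) (nat_lit 228) (nat_lit 222) (nat_lit 120)) (PT.lf (nat_lit 9804) (nat_lit 6) (nat_lit 129) (nat_lit 0) (nat_lit 229) (nat_lit 222) (nat_lit 119))) (PT.nd (nat_lit 78) (PT.lf (nat_lit 9196) (nat_lit 6) (nat_lit 121) (nat_lit 5) (nat_lit 117) (nat_lit 223) (nat_lit 230)) (PT.lf (nat_lit 9500) (nat_lit 6) (nat_lit 125) (nat_lit 5) (nat_lit 118) (nat_lit 223) (nat_lit 229)))) (PT.nd (nat_lit 156) (PT.nd (nat_lit 78) (PT.lf (nat_lit 9880) (nat_lit 6) (nat_lit 130) (nat_lit 5) (nat_lit 119) (nat_lit 223) (nat_lit 228)) (PT.lf (nat_lit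 10260) (nat_lit 6) (nat_lit 135) (nat_lit 5) (nat_lit 120) (nat_lit 223) (nat_lit 227))) (PT.nd (nat_lit 78) (PT.lf (nat_lit 10640) (nat_lit 6) (nat_lit 140) (nat_lit 5) (nat_lit 121) (nat_lit 223) (nat_lit 226)) (PT.nd (nat_lit 78) (PT.lf (nat_lit 11020) (nat_lit 6) (nat_lit 145) (nat_lit 5) (nat_lit 122) (nat_lit 223) (nat_lit 225)) (PT.lf (nat_lit 11400) (nat_lit 6) (nat_lit 150) (nat_lit 5) (nat_lit 123) (nat_lit 223) (nat_lit 224)))))) (PT.nd (nat_lit 312) (PT.nd (nat_lit 156) (PT.nd (nat_lit 78) (PT.lf (nat_lit 11780) (nat_lit 3) (nat_lit 155) (nat_lit 4) (nat_lit 124) (nat_lit 223) (nat_lit 223)) (PT.lf (nat_lit 12160) (nat_lit 6) (nat_lit 160) (nat_lit 4) (nat_lit 125) (nat_lit 223) (nat_lit 222))) (PT.nd (nat_lit 78) (PT.lf (nat_lit 12464) (nat_lit 6) (nat_lit 164) (nat_lit 4) (nat_lit 126) (nat_lit 223) (nat_lit 221)) (PT.lf (nat_lit 12844) (nat_lit 6) (nat_lit 169) (nat_lit 4) (nat_lit 127) (nat_lit 223) (nat_lit 220)))) (PT.nd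 (nat_lit 156) (PT.nd (nat_lit 78) (PT.lf (nat_lit 13148) (nat_lit 6) (nat_lit 173) (nat_lit 4) (nat_lit 128) (nat_lit 223) (nat_lit 219)) (PT.lf (nat_lit 13528) (nat_lit 6) (nat_lit 178) (nat_lit 4) (nat_lit 129) (nat_lit 223) (nat_lit 218))) (PT.nd (nat_lit 78) (PT.lf (nat_lit 13908) (nat_lit 6) (nat_lit 183) (nat_lit 4) (nat_lit 130) (nat_lit 223) (nat_lit 217)) (PT.nd (nat_lit 78) (PT.lf (nat_lit 14288) (nat_lit 6) (nat_lit 188) (nat_lit 4) (nat_lit 131) (nat_lit 223) (nat_lit 216)) (PT.lf (nat_lit 14668) (nat_lit 6) (nat_lit 193) (nat_lit 4) (nat_lit 132) (nat_lit 223) (nat_lit 215))))))))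
noncomputable def pc113 : PT := (PT.nd (nat_lit 7176) (PT.nd (nat_lit 6474) (PT.nd (nat_lit 6084) (PT.nd (nat_lit 156) (PT.nd (nat_lit 78) (PT.lf (nat_lit 15124) (nat_lit 6) (nat_lit 199) (nat_lit 4) (nat_lit 133) (nat_lit 223) (nat_lit 214)) (PT.lf (nat_lit 15504) (nat_lit 6) (nat_lit 204) (nat_lit 4) (nat_lit 134) (nat_lit 223) (nat_lit 213))) (PT.nd (nat_lit 78) (PT.lf (nat_lit 15960) (nat_lit 6) (nat_lit 210) (nat_lit 4) (nat_lit 135) (nat_lit 223) (nat_lit 212)) (PT.lf (nat_lit 16416) (nat_lit 6) (nat_lit 216) (nat_lit 4) (nat_lit 136) (nat_lit 223) (nat_lit 211)))) (PT.nd (nat_lit 156) (PT.nd (nat_lit 78) (PT.lf (nat_lit 16416) (nat_lit 6) (nat_lit 216) (nat_lit 2) (nat_lit 211) (nat_lit 223) (nat_lit 136)) (PT.lf (nat_lit 15960) (nat_lit 6) (nat_lit 210) (nat_lit 2) (nat_lit 212) (nat_lit 223) (nat_lit 135))) (PT.nd (nat_lit 78) (PT.lf (nat_lit 15504) (nat_lit 6) (nat_lit 204) (nat_lit 2) (nat_lit 213) (nat_lit 223) (nat_lit 134))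 (PT.nd (nat_lit 78) (PT.lf (nat_lit 15124) (nat_lit 6) (nat_lit 199) (nat_lit 2) (nat_lit 214) (nat_lit 223) (nat_lit 133)) (PT.lf (nat_lit 14668) (nat_lit 6) (nat_lit 193) (nat_lit 2) (nat_lit 215) (nat_lit 223) (nat_lit 132)))))) (PT.nd (nat_lit 312) (PT.nd (nat_lit 156) (PT.nd (nat_lit 78) (PT.lf (nat_lit 14288) (nat_lit 6) (nat_lit 188) (nat_lit 2) (nat_lit 216) (nat_lit 223) (nat_lit 131)) (PT.lf (nat_lit 13908) (nat_lit 6) (nat_lit 183) (nat_lit 2) (nat_lit 217) (nat_lit 223) (nat_lit 130))) (PT.nd (nat_lit 78) (PT.lf (nat_lit 13528) (nat_lit 6) (nat_lit 178) (nat_lit 2) (nat_lit 218) (nat_lit 223) (nat_lit 129)) (PT.lf (nat_lit 13148) (nat_lit 6) (nat_lit 173) (nat_lit 2) (nat_lit 219) (nat_lit 223) (nat_lit 128)))) (PT.nd (nat_lit 156) (PT.nd (nat_lit 78) (PT.lf (nat_lit 12844) (nat_lit 6) (nat_lit 169) (nat_lit 2) (nat_lit 220) (nat_lit 223) (nat_lit 127)) (PT.lf (nat_lit 12464) (nat_lit 6) (nat_lit 164) (nat_lit 2) (nat_lit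 221) (nat_lit 223) (nat_lit 126))) (PT.nd (nat_lit 78) (PT.lf (nat_lit 12160) (nat_lit 6) (nat_lit 160) (nat_lit 2) (nat_lit 222) (nat_lit 223) (nat_lit 125)) (PT.nd (nat_lit 78) (PT.lf (nat_lit 11780) (nat_lit 3) (nat_lit 155) (nat_lit 0) (nat_lit 223) (nat_lit 223) (nat_lit 124)) (PT.lf (nat_lit 11400) (nat_lit 6) (nat_lit 150) (nat_lit 0) (nat_lit 224) (nat_lit 223) (nat_lit 123))))))) (PT.nd (nat_lit 51012) (PT.nd (nat_lit 312) (PT.nd (nat_lit 156) (PT.nd (nat_lit 78) (PT.lf (nat_lit 11020) (nat_lit 6) (nat_lit 145) (nat_lit 0) (nat_lit 225) (nat_lit 223) (nat_lit 122)) (PT.lf (nat_lit 10640) (nat_lit 6) (nat_lit 140) (nat_lit 0) (nat_lit 226) (nat_lit 223) (nat_lit 121))) (PT.nd (nat_lit 78) (PT.lf (nat_lit 10260) (nat_lit 6) (nat_lit 135) (nat_lit 0) (nat_lit 227) (nat_lit 223) (nat_lit 120)) (PT.lf (nat_lit 9880) (nat_lit 6) (nat_lit 130) (nat_lit 0) (nat_lit 228) (nat_lit 223) (nat_lit 119)))) (PT.nd (nat_lit 50466) (PT.nd (nat_lit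 78) (PT.lf (nat_lit 9500) (nat_lit 6) (nat_lit 125) (nat_lit 0) (nat_lit 229) (nat_lit 223) (nat_lit 118)) (PT.lf (nat_lit 9196) (nat_lit 6) (nat_lit 121) (nat_lit 0) (nat_lit 230) (nat_lit 223) (nat_lit 117))) (PT.nd (nat_lit 78) (PT.lf (nat_lit 8588) (nat_lit 6) (nat_lit 113) (nat_lit 5) (nat_lit 115) (nat_lit 224) (nat_lit 231)) (PT.nd (nat_lit 78) (PT.lf (nat_lit 8892) (nat_lit 6) (nat_lit 117) (nat_lit 5) (nat_lit 116) (nat_lit 224) (nat_lit 230)) (PT.lf (nat_lit 9272) (nat_lit 6) (nat_lit 122) (nat_lit 5) (nat_lit 117) (nat_lit 224) (nat_lit 229)))))) (PT.nd (nat_lit 312) (PT.nd (nat_lit 156) (PT.nd (nat_lit 78) (PT.lf (nat_lit 9576) (nat_lit 6) (nat_lit 126) (nat_lit 5) (nat_lit 118) (nat_lit 224) (nat_lit 228)) (PT.lf (nat_lit 9956) (nat_lit 6) (nat_lit 131) (nat_lit 5) (nat_lit 119) (nat_lit 224) (nat_lit 227))) (PT.nd (nat_lit 78) (PT.lf (nat_lit 10336) (nat_lit 6) (nat_lit 136) (nat_lit 5) (nat_lit 120) (nat_lit 224) (nat_lit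 226)) (PT.lf (nat_lit 10716) (nat_lit 6) (nat_lit 141) (nat_lit 5) (nat_lit 121) (nat_lit 224) (nat_lit 225)))) (PT.nd (nat_lit 156) (PT.nd (nat_lit 78) (PT.lf (nat_lit 11096) (nat_lit 3) (nat_lit 146) (nat_lit 4) (nat_lit 122) (nat_lit 224) (nat_lit 224)) (PT.lf (nat_lit 11400) (nat_lit 6) (nat_lit 150) (nat_lit 4) (nat_lit 123) (nat_lit 224) (nat_lit 223))) (PT.nd (nat_lit 78) (PT.lf (nat_lit 11704) (nat_lit 6) (nat_lit 154) (nat_lit 4) (nat_lit 124) (nat_lit 224) (nat_lit 222)) (PT.nd (nat_lit 78) (PT.lf (nat_lit 12084) (nat_lit 6) (nat_lit 159) (nat_lit 4) (nat_lit 125) (nat_lit 224) (nat_lit 221)) (PT.lf (nat_lit 12388) (nat_lit 6) (nat_lit 163) (nat_lit 4) (nat_lit 126) (nat_lit 224) (nat_lit 220))))))))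
noncomputable def pc114 : PT := (PT.nd (nat_lit 7488) (PT.nd (nat_lit 6786) (PT.nd (nat_lit 312) (PT.nd (nat_lit 156) (PT.nd (nat_lit 78) (PT.lf (nat_lit 12768) (nat_lit 6) (nat_lit 168) (nat_lit 4) (nat_lit 127) (nat_lit 224) (nat_lit 219)) (PT.lf (nat_lit 13072) (nat_lit 6) (nat_lit 172) (nat_lit 4) (nat_lit 128) (nat_lit 224) (nat_lit 218))) (PT.nd (nat_lit 78) (PT.lf (nat_lit 13452) (nat_lit 6) (nat_lit 177) (nat_lit 4) (nat_lit 129) (nat_lit 224) (nat_lit 217)) (PT.lf (nat_lit 13832) (nat_lit 6) (nat_lit 182) (nat_lit 4) (nat_lit 130) (nat_lit 224) (nat_lit 216)))) (PT.nd (nat_lit 156) (PT.nd (nat_lit 78) (PT.lf (nat_lit 14212) (nat_lit 6) (nat_lit 187) (nat_lit 4) (nat_lit 131) (nat_lit 224) (nat_lit 215)) (PT.lf (nat_lit 14592) (nat_lit 6) (nat_lit 192) (nat_lit 4) (nat_lit 132) (nat_lit 224) (nat_lit 214))) (PT.nd (nat_lit 6240) (PT.lf (nat_lit 15048) (nat_lit 6) (nat_lit 198) (nat_lit 4) (nat_lit 133) (nat_lit 224) (nat_lit 213))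 (PT.lf (nat_lit 15048) (nat_lit 6) (nat_lit 198) (nat_lit 2) (nat_lit 213) (nat_lit 224) (nat_lit 133))))) (PT.nd (nat_lit 312) (PT.nd (nat_lit 156) (PT.nd (nat_lit 78) (PT.lf (nat_lit 14592) (nat_lit 6) (nat_lit 192) (nat_lit 2) (nat_lit 214) (nat_lit 224) (nat_lit 132)) (PT.lf (nat_lit 14212) (nat_lit 6) (nat_lit 187) (nat_lit 2) (nat_lit 215) (nat_lit 224) (nat_lit 131))) (PT.nd (nat_lit 78) (PT.lf (nat_lit 13832) (nat_lit 6) (nat_lit 182) (nat_lit 2) (nat_lit 216) (nat_lit 224) (nat_lit 130)) (PT.lf (nat_lit 13452) (nat_lit 6) (nat_lit 177) (nat_lit 2) (nat_lit 217) (nat_lit 224) (nat_lit 129)))) (PT.nd (nat_lit 156) (PT.nd (nat_lit 78) (PT.lf (nat_lit 13072) (nat_lit 6) (nat_lit 172) (nat_lit 2) (nat_lit 218) (nat_lit 224) (nat_lit 128)) (PT.lf (nat_lit 12768) (nat_lit 6) (nat_lit 168) (nat_lit 2) (nat_lit 219) (nat_lit 224) (nat_lit 127))) (PT.nd (nat_lit 78) (PT.lf (nat_lit 12388) (nat_lit 6) (nat_lit 163) (nat_lit 2) (nat_lit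 220) (nat_lit 224) (nat_lit 126)) (PT.nd (nat_lit 78) (PT.lf (nat_lit 12084) (nat_lit 6) (nat_lit 159) (nat_lit 2) (nat_lit 221) (nat_lit 224) (nat_lit 125)) (PT.lf (nat_lit 11704) (nat_lit 6) (nat_lit 154) (nat_lit 2) (nat_lit 222) (nat_lit 224) (nat_lit 124))))))) (PT.nd (nat_lit 50778) (PT.nd (nat_lit 312) (PT.nd (nat_lit 156) (PT.nd (nat_lit 78) (PT.lf (nat_lit 11400) (nat_lit 6) (nat_lit 150) (nat_lit 2) (nat_lit 223) (nat_lit 224) (nat_lit 123)) (PT.lf (nat_lit 11096) (nat_lit 3) (nat_lit 146) (nat_lit 0) (nat_lit 224) (nat_lit 224) (nat_lit 122))) (PT.nd (nat_lit 78) (PT.lf (nat_lit 10716) (nat_lit 6) (nat_lit 141) (nat_lit 0) (nat_lit 225) (nat_lit 224) (nat_lit 121)) (PT.lf (nat_lit 10336) (nat_lit 6) (nat_lit 136) (nat_lit 0) (nat_lit 226) (nat_lit 224) (nat_lit 120)))) (PT.nd (nat_lit 156) (PT.nd (nat_lit 78) (PT.lf (nat_lit 9956) (nat_lit 6) (nat_lit 131) (nat_lit 0) (nat_lit 227) (nat_lit 224) (nat_lit 119)) (PT.lf (nat_lit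 9576) (nat_lit 6) (nat_lit 126) (nat_lit 0) (nat_lit 228) (nat_lit 224) (nat_lit 118))) (PT.nd (nat_lit 78) (PT.lf (nat_lit 9272) (nat_lit 6) (nat_lit 122) (nat_lit 0) (nat_lit 229) (nat_lit 224) (nat_lit 117)) (PT.nd (nat_lit 78) (PT.lf (nat_lit 8892) (nat_lit 6) (nat_lit 117) (nat_lit 0) (nat_lit 230) (nat_lit 224) (nat_lit 116)) (PT.lf (nat_lit 8588) (nat_lit 6) (nat_lit 113) (nat_lit 0) (nat_lit 231) (nat_lit 224) (nat_lit 115)))))) (PT.nd (nat_lit 312) (PT.nd (nat_lit 156) (PT.nd (nat_lit 78) (PT.lf (nat_lit 7980) (nat_lit 6) (nat_lit 105) (nat_lit 5) (nat_lit 113) (nat_lit 225) (nat_lit 232)) (PT.lf (nat_lit 8284) (nat_lit 6) (nat_lit 109) (nat_lit 5) (nat_lit 114) (nat_lit 225) (nat_lit 231))) (PT.nd (nat_lit 78) (PT.lf (nat_lit 8664) (nat_lit 6) (nat_lit 114) (nat_lit 5) (nat_lit 115) (nat_lit 225) (nat_lit 230)) (PT.lf (nat_lit 8968) (nat_lit 6) (nat_lit 118) (nat_lit 5) (nat_lit 116) (nat_lit 225) (nat_lit 229)))) (PT.nd (nat_lit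 156) (PT.nd (nat_lit 78) (PT.lf (nat_lit 9348) (nat_lit 6) (nat_lit 123) (nat_lit 5) (nat_lit 117) (nat_lit 225) (nat_lit 228)) (PT.lf (nat_lit 9652) (nat_lit 6) (nat_lit 127) (nat_lit 5) (nat_lit 118) (nat_lit 225) (nat_lit 227))) (PT.nd (nat_lit 78) (PT.lf (nat_lit 10032) (nat_lit 6) (nat_lit 132) (nat_lit 5) (nat_lit 119) (nat_lit 225) (nat_lit 226)) (PT.nd (nat_lit 78) (PT.lf (nat_lit 10412) (nat_lit 3) (nat_lit 137) (nat_lit 4) (nat_lit 120) (nat_lit 225) (nat_lit 225)) (PT.lf (nat_lit 10716) (nat_lit 6) (nat_lit 141) (nat_lit 4) (nat_lit 121) (nat_lit 225) (nat_lit 224))))))))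
noncomputable def pc115 : PT := (PT.nd (nat_lit 7956) (PT.nd (nat_lit 7254) (PT.nd (nat_lit 312) (PT.nd (nat_lit 156) (PT.nd (nat_lit 78) (PT.lf (nat_lit 11020) (nat_lit 6) (nat_lit 145) (nat_lit 4) (nat_lit 122) (nat_lit 225) (nat_lit 223)) (PT.lf (nat_lit 11324) (nat_lit 6) (nat_lit 149) (nat_lit 4) (nat_lit 123) (nat_lit 225) (nat_lit 222))) (PT.nd (nat_lit 78) (PT.lf (nat_lit 11628) (nat_lit 6) (nat_lit 153) (nat_lit 4) (nat_lit 124) (nat_lit 225) (nat_lit 221)) (PT.lf (nat_lit 12008) (nat_lit 6) (nat_lit 158) (nat_lit 4) (nat_lit 125) (nat_lit 225) (nat_lit 220)))) (PT.nd (nat_lit 156) (PT.nd (nat_lit 78) (PT.lf (nat_lit 12312) (nat_lit 6) (nat_lit 162) (nat_lit 4) (nat_lit 126) (nat_lit 225) (nat_lit 219)) (PT.lf (nat_lit 12692) (nat_lit 6) (nat_lit 167) (nat_lit 4) (nat_lit 127) (nat_lit 225) (nat_lit 218))) (PT.nd (nat_lit 78) (PT.lf (nat_lit 12996) (nat_lit 6) (nat_lit 171) (nat_lit 4) (nat_lit 128) (nat_lit 225) (nat_lit 217))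 (PT.nd (nat_lit 78) (PT.lf (nat_lit 13376) (nat_lit 6) (nat_lit 176) (nat_lit 4) (nat_lit 129) (nat_lit 225) (nat_lit 216)) (PT.lf (nat_lit 13756) (nat_lit 6) (nat_lit 181) (nat_lit 4) (nat_lit 130) (nat_lit 225) (nat_lit 215)))))) (PT.nd (nat_lit 312) (PT.nd (nat_lit 156) (PT.nd (nat_lit 78) (PT.lf (nat_lit 13756) (nat_lit 6) (nat_lit 181) (nat_lit 2) (nat_lit 215) (nat_lit 225) (nat_lit 130)) (PT.lf (nat_lit 13376) (nat_lit 6) (nat_lit 176) (nat_lit 2) (nat_lit 216) (nat_lit 225) (nat_lit 129))) (PT.nd (nat_lit 78) (PT.lf (nat_lit 12996) (nat_lit 6) (nat_lit 171) (nat_lit 2) (nat_lit 217) (nat_lit 225) (nat_lit 128)) (PT.lf (nat_lit 12692) (nat_lit 6) (nat_lit 167) (nat_lit 2) (nat_lit 218) (nat_lit 225) (nat_lit 127)))) (PT.nd (nat_lit 156) (PT.nd (nat_lit 78) (PT.lf (nat_lit 12312) (nat_lit 6) (nat_lit 162) (nat_lit 2) (nat_lit 219) (nat_lit 225) (nat_lit 126)) (PT.lf (nat_lit 12008) (nat_lit 6) (nat_lit 158) (nat_lit 2) (nat_lit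 220) (nat_lit 225) (nat_lit 125))) (PT.nd (nat_lit 78) (PT.lf (nat_lit 11628) (nat_lit 6) (nat_lit 153) (nat_lit 2) (nat_lit 221) (nat_lit 225) (nat_lit 124)) (PT.nd (nat_lit 78) (PT.lf (nat_lit 11324) (nat_lit 6) (nat_lit 149) (nat_lit 2) (nat_lit 222) (nat_lit 225) (nat_lit 123)) (PT.lf (nat_lit 11020) (nat_lit 6) (nat_lit 145) (nat_lit 2) (nat_lit 223) (nat_lit 225) (nat_lit 122))))))) (PT.nd (nat_lit 50622) (PT.nd (nat_lit 312) (PT.nd (nat_lit 156) (PT.nd (nat_lit 78) (PT.lf (nat_lit 10716) (nat_lit 6) (nat_lit 141) (nat_lit 2) (nat_lit 224) (nat_lit 225) (nat_lit 121)) (PT.lf (nat_lit 10412) (nat_lit 3) (nat_lit 137) (nat_lit 0) (nat_lit 225) (nat_lit 225) (nat_lit 120))) (PT.nd (nat_lit 78) (PT.lf (nat_lit 10032) (nat_lit 6) (nat_lit 132) (nat_lit 0) (nat_lit 226) (nat_lit 225) (nat_lit 119)) (PT.lf (nat_lit 9652) (nat_lit 6) (nat_lit 127) (nat_lit 0) (nat_lit 227) (nat_lit 225) (nat_lit 118)))) (PT.nd (nat_lit 156) (PT.nd (nat_lit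 78) (PT.lf (nat_lit 9348) (nat_lit 6) (nat_lit 123) (nat_lit 0) (nat_lit 228) (nat_lit 225) (nat_lit 117)) (PT.lf (nat_lit 8968) (nat_lit 6) (nat_lit 118) (nat_lit 0) (nat_lit 229) (nat_lit 225) (nat_lit 116))) (PT.nd (nat_lit 78) (PT.lf (nat_lit 8664) (nat_lit 6) (nat_lit 114) (nat_lit 0) (nat_lit 230) (nat_lit 225) (nat_lit 115)) (PT.nd (nat_lit 78) (PT.lf (nat_lit 8284) (nat_lit 6) (nat_lit 109) (nat_lit 0) (nat_lit 231) (nat_lit 225) (nat_lit 114)) (PT.lf (nat_lit 7980) (nat_lit 6) (nat_lit 105) (nat_lit 0) (nat_lit 232) (nat_lit 225) (nat_lit 113)))))) (PT.nd (nat_lit 312) (PT.nd (nat_lit 156) (PT.nd (nat_lit 78) (PT.lf (nat_lit 7676) (nat_lit 6) (nat_lit 101) (nat_lit 5) (nat_lit 112) (nat_lit 226) (nat_lit 232)) (PT.lf (nat_lit 8056) (nat_lit 6) (nat_lit 106) (nat_lit 5) (nat_lit 113) (nat_lit 226) (nat_lit 231))) (PT.nd (nat_lit 78) (PT.lf (nat_lit 8360) (nat_lit 6) (nat_lit 110) (nat_lit 5) (nat_lit 114) (nat_lit 226) (nat_lit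 230)) (PT.lf (nat_lit 8740) (nat_lit 6) (nat_lit 115) (nat_lit 5) (nat_lit 115) (nat_lit 226) (nat_lit 229)))) (PT.nd (nat_lit 156) (PT.nd (nat_lit 78) (PT.lf (nat_lit 9044) (nat_lit 6) (nat_lit 119) (nat_lit 5) (nat_lit 116) (nat_lit 226) (nat_lit 228)) (PT.lf (nat_lit 9424) (nat_lit 6) (nat_lit 124) (nat_lit 5) (nat_lit 117) (nat_lit 226) (nat_lit 227))) (PT.nd (nat_lit 78) (PT.lf (nat_lit 9728) (nat_lit 3) (nat_lit 128) (nat_lit 4) (nat_lit 118) (nat_lit 226) (nat_lit 226)) (PT.nd (nat_lit 78) (PT.lf (nat_lit 10032) (nat_lit 6) (nat_lit 132) (nat_lit 4) (nat_lit 119) (nat_lit 226) (nat_lit 225)) (PT.lf (nat_lit 10336) (nat_lit 6) (nat_lit 136) (nat_lit 4) (nat_lit 120) (nat_lit 226) (nat_lit 224))))))))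
noncomputable def pc116 : PT := (PT.nd (nat_lit 8268) (PT.nd (nat_lit 7566) (PT.nd (nat_lit 312) (PT.nd (nat_lit 156) (PT.nd (nat_lit 78) (PT.lf (nat_lit 10640) (nat_lit 6) (nat_lit 140) (nat_lit 4) (nat_lit 121) (nat_lit 226) (nat_lit 223)) (PT.lf (nat_lit 10944) (nat_lit 6) (nat_lit 144) (nat_lit 4) (nat_lit 122) (nat_lit 226) (nat_lit 222))) (PT.nd (nat_lit 78) (PT.lf (nat_lit 11248) (nat_lit 6) (nat_lit 148) (nat_lit 4) (nat_lit 123) (nat_lit 226) (nat_lit 221)) (PT.lf (nat_lit 11552) (nat_lit 6) (nat_lit 152) (nat_lit 4) (nat_lit 124) (nat_lit 226) (nat_lit 220)))) (PT.nd (nat_lit 156) (PT.nd (nat_lit 78) (PT.lf (nat_lit 11932) (nat_lit 6) (nat_lit 157) (nat_lit 4) (nat_lit 125) (nat_lit 226) (nat_lit 219)) (PT.lf (nat_lit 12236) (nat_lit 6) (nat_lit 161) (nat_lit 4) (nat_lit 126) (nat_lit 226) (nat_lit 218))) (PT.nd (nat_lit 7020) (PT.lf (nat_lit 12616) (nat_lit 6) (nat_lit 166) (nat_lit 4) (nat_lit 127) (nat_lit 226) (nat_lit 217))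 (PT.lf (nat_lit 12616) (nat_lit 6) (nat_lit 166) (nat_lit 2) (nat_lit 217) (nat_lit 226) (nat_lit 127))))) (PT.nd (nat_lit 312) (PT.nd (nat_lit 156) (PT.nd (nat_lit 78) (PT.lf (nat_lit 12236) (nat_lit 6) (nat_lit 161) (nat_lit 2) (nat_lit 218) (nat_lit 226) (nat_lit 126)) (PT.lf (nat_lit 11932) (nat_lit 6) (nat_lit 157) (nat_lit 2) (nat_lit 219) (nat_lit 226) (nat_lit 125))) (PT.nd (nat_lit 78) (PT.lf (nat_lit 11552) (nat_lit 6) (nat_lit 152) (nat_lit 2) (nat_lit 220) (nat_lit 226) (nat_lit 124)) (PT.lf (nat_lit 11248) (nat_lit 6) (nat_lit 148) (nat_lit 2) (nat_lit 221) (nat_lit 226) (nat_lit 123)))) (PT.nd (nat_lit 156) (PT.nd (nat_lit 78) (PT.lf (nat_lit 10944) (nat_lit 6) (nat_lit 144) (nat_lit 2) (nat_lit 222) (nat_lit 226) (nat_lit 122)) (PT.lf (nat_lit 10640) (nat_lit 6) (nat_lit 140) (nat_lit 2) (nat_lit 223) (nat_lit 226) (nat_lit 121))) (PT.nd (nat_lit 78) (PT.lf (nat_lit 10336) (nat_lit 6) (nat_lit 136) (nat_lit 2) (nat_lit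 224) (nat_lit 226) (nat_lit 120)) (PT.nd (nat_lit 78) (PT.lf (nat_lit 10032) (nat_lit 6) (nat_lit 132) (nat_lit 2) (nat_lit 225) (nat_lit 226) (nat_lit 119)) (PT.lf (nat_lit 9728) (nat_lit 3) (nat_lit 128) (nat_lit 0) (nat_lit 226) (nat_lit 226) (nat_lit 118))))))) (PT.nd (nat_lit 50466) (PT.nd (nat_lit 312) (PT.nd (nat_lit 156) (PT.nd (nat_lit 78) (PT.lf (nat_lit 9424) (nat_lit 6) (nat_lit 124) (nat_lit 0) (nat_lit 227) (nat_lit 226) (nat_lit 117)) (PT.lf (nat_lit 9044) (nat_lit 6) (nat_lit 119) (nat_lit 0) (nat_lit 228) (nat_lit 226) (nat_lit 116))) (PT.nd (nat_lit 78) (PT.lf (nat_lit 8740) (nat_lit 6) (nat_lit 115) (nat_lit 0) (nat_lit 229) (nat_lit 226) (nat_lit 115)) (PT.lf (nat_lit 8360) (nat_lit 6) (nat_lit 110) (nat_lit 0) (nat_lit 230) (nat_lit 226) (nat_lit 114)))) (PT.nd (nat_lit 49920) (PT.nd (nat_lit 78) (PT.lf (nat_lit 8056) (nat_lit 6) (nat_lit 106) (nat_lit 0) (nat_lit 231) (nat_lit 226) (nat_lit 113)) (PT.lf (nat_lit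 7676) (nat_lit 6) (nat_lit 101) (nat_lit 0) (nat_lit 232) (nat_lit 226) (nat_lit 112))) (PT.nd (nat_lit 78) (PT.lf (nat_lit 7144) (nat_lit 6) (nat_lit 94) (nat_lit 5) (nat_lit 110) (nat_lit 227) (nat_lit 233)) (PT.nd (nat_lit 78) (PT.lf (nat_lit 7448) (nat_lit 6) (nat_lit 98) (nat_lit 5) (nat_lit 111) (nat_lit 227) (nat_lit 232)) (PT.lf (nat_lit 7752) (nat_lit 6) (nat_lit 102) (nat_lit 5) (nat_lit 112) (nat_lit 227) (nat_lit 231)))))) (PT.nd (nat_lit 312) (PT.nd (nat_lit 156) (PT.nd (nat_lit 78) (PT.lf (nat_lit 8132) (nat_lit 6) (nat_lit 107) (nat_lit 5) (nat_lit 113) (nat_lit 227) (nat_lit 230)) (PT.lf (nat_lit 8436) (nat_lit 6) (nat_lit 111) (nat_lit 5) (nat_lit 114) (nat_lit 227) (nat_lit 229))) (PT.nd (nat_lit 78) (PT.lf (nat_lit 8816) (nat_lit 6) (nat_lit 116) (nat_lit 5) (nat_lit 115) (nat_lit 227) (nat_lit 228)) (PT.lf (nat_lit 9120) (nat_lit 3) (nat_lit 120) (nat_lit 4) (nat_lit 116) (nat_lit 227) (nat_lit 227)))) (PT.nd (nat_lit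 156) (PT.nd (nat_lit 78) (PT.lf (nat_lit 9424) (nat_lit 6) (nat_lit 124) (nat_lit 4) (nat_lit 117) (nat_lit 227) (nat_lit 226)) (PT.lf (nat_lit 9652) (nat_lit 6) (nat_lit 127) (nat_lit 4) (nat_lit 118) (nat_lit 227) (nat_lit 225))) (PT.nd (nat_lit 78) (PT.lf (nat_lit 9956) (nat_lit 6) (nat_lit 131) (nat_lit 4) (nat_lit 119) (nat_lit 227) (nat_lit 224)) (PT.nd (nat_lit 78) (PT.lf (nat_lit 10260) (nat_lit 6) (nat_lit 135) (nat_lit 4) (nat_lit 120) (nat_lit 227) (nat_lit 223)) (PT.lf (nat_lit 10564) (nat_lit 6) (nat_lit 139) (nat_lit 4) (nat_lit 121) (nat_lit 227) (nat_lit 222))))))))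
noncomputable def pc117 : PT := (PT.nd (nat_lit 8580) (PT.nd (nat_lit 7878) (PT.nd (nat_lit 7488) (PT.nd (nat_lit 156) (PT.nd (nat_lit 78) (PT.lf (nat_lit 10868) (nat_lit 6) (nat_lit 143) (nat_lit 4) (nat_lit 122) (nat_lit 227) (nat_lit 221)) (PT.lf (nat_lit 11172) (nat_lit 6) (nat_lit 147) (nat_lit 4) (nat_lit 123) (nat_lit 227) (nat_lit 220))) (PT.nd (nat_lit 78) (PT.lf (nat_lit 11476) (nat_lit 6) (nat_lit 151) (nat_lit 4) (nat_lit 124) (nat_lit 227) (nat_lit 219)) (PT.lf (nat_lit 11856) (nat_lit 6) (nat_lit 156) (nat_lit 4) (nat_lit 125) (nat_lit 227) (nat_lit 218)))) (PT.nd (nat_lit 156) (PT.nd (nat_lit 78) (PT.lf (nat_lit 11856) (nat_lit 6) (nat_lit 156) (nat_lit 2) (nat_lit 218) (nat_lit 227) (nat_lit 125)) (PT.lf (nat_lit 11476) (nat_lit 6) (nat_lit 151) (nat_lit 2) (nat_lit 219) (nat_lit 227) (nat_lit 124))) (PT.nd (nat_lit 78) (PT.lf (nat_lit 11172) (nat_lit 6) (nat_lit 147) (nat_lit 2) (nat_lit 220) (nat_lit 227) (nat_lit 123))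 (PT.nd (nat_lit 78) (PT.lf (nat_lit 10868) (nat_lit 6) (nat_lit 143) (nat_lit 2) (nat_lit 221) (nat_lit 227) (nat_lit 122)) (PT.lf (nat_lit 10564) (nat_lit 6) (nat_lit 139) (nat_lit 2) (nat_lit 222) (nat_lit 227) (nat_lit 121)))))) (PT.nd (nat_lit 312) (PT.nd (nat_lit 156) (PT.nd (nat_lit 78) (PT.lf (nat_lit 10260) (nat_lit 6) (nat_lit 135) (nat_lit 2) (nat_lit 223) (nat_lit 227) (nat_lit 120)) (PT.lf (nat_lit 9956) (nat_lit 6) (nat_lit 131) (nat_lit 2) (nat_lit 224) (nat_lit 227) (nat_lit 119))) (PT.nd (nat_lit 78) (PT.lf (nat_lit 9652) (nat_lit 6) (nat_lit 127) (nat_lit 2) (nat_lit 225) (nat_lit 227) (nat_lit 118)) (PT.lf (nat_lit 9424) (nat_lit 6) (nat_lit 124) (nat_lit 2) (nat_lit 226) (nat_lit 227) (nat_lit 117)))) (PT.nd (nat_lit 156) (PT.nd (nat_lit 78) (PT.lf (nat_lit 9120) (nat_lit 3) (nat_lit 120) (nat_lit 0) (nat_lit 227) (nat_lit 227) (nat_lit 116)) (PT.lf (nat_lit 8816) (nat_lit 6) (nat_lit 116) (nat_lit 0) (nat_lit 228)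 (nat_lit 227) (nat_lit 115))) (PT.nd (nat_lit 78) (PT.lf (nat_lit 8436) (nat_lit 6) (nat_lit 111) (nat_lit 0) (nat_lit 229) (nat_lit 227) (nat_lit 114)) (PT.nd (nat_lit 78) (PT.lf (nat_lit 8132) (nat_lit 6) (nat_lit 107) (nat_lit 0) (nat_lit 230) (nat_lit 227) (nat_lit 113)) (PT.lf (nat_lit 7752) (nat_lit 6) (nat_lit 102) (nat_lit 0) (nat_lit 231) (nat_lit 227) (nat_lit 112))))))) (PT.nd (nat_lit 50232) (PT.nd (nat_lit 49842) (PT.nd (nat_lit 49686) (PT.nd (nat_lit 78) (PT.lf (nat_lit 7448) (nat_lit 6) (nat_lit 98) (nat_lit 0) (nat_lit 232) (nat_lit 227) (nat_lit 111)) (PT.lf (nat_lit 7144) (nat_lit 6) (nat_lit 94) (nat_lit 0) (nat_lit 233) (nat_lit 227) (nat_lit 110))) (PT.nd (nat_lit 78) (PT.lf (nat_lit 6612) (nat_lit 6) (nat_lit 87) (nat_lit 5) (nat_lit 108) (nat_lit 228) (nat_lit 234)) (PT.lf (nat_lit 6916) (nat_lit 6) (nat_lit 91) (nat_lit 5) (nat_lit 109) (nat_lit 228) (nat_lit 233)))) (PT.nd (nat_lit 156) (PT.nd (nat_lit 78) (PT.lf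 (nat_lit 7220) (nat_lit 6) (nat_lit 95) (nat_lit 5) (nat_lit 110) (nat_lit 228) (nat_lit 232)) (PT.lf (nat_lit 7524) (nat_lit 6) (nat_lit 99) (nat_lit 5) (nat_lit 111) (nat_lit 228) (nat_lit 231))) (PT.nd (nat_lit 78) (PT.lf (nat_lit 7828) (nat_lit 6) (nat_lit 103) (nat_lit 5) (nat_lit 112) (nat_lit 228) (nat_lit 230)) (PT.nd (nat_lit 78) (PT.lf (nat_lit 8208) (nat_lit 6) (nat_lit 108) (nat_lit 5) (nat_lit 113) (nat_lit 228) (nat_lit 229)) (PT.lf (nat_lit 8512) (nat_lit 3) (nat_lit 112) (nat_lit 4) (nat_lit 114) (nat_lit 228) (nat_lit 228)))))) (PT.nd (nat_lit 312) (PT.nd (nat_lit 156) (PT.nd (nat_lit 78) (PT.lf (nat_lit 8816) (nat_lit 6) (nat_lit 116) (nat_lit 4) (nat_lit 115) (nat_lit 228) (nat_lit 227)) (PT.lf (nat_lit 9044) (nat_lit 6) (nat_lit 119) (nat_lit 4) (nat_lit 116) (nat_lit 228) (nat_lit 226))) (PT.nd (nat_lit 78) (PT.lf (nat_lit 9348) (nat_lit 6) (nat_lit 123) (nat_lit 4) (nat_lit 117) (nat_lit 228) (nat_lit 225)) (PT.lf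 (nat_lit 9576) (nat_lit 6) (nat_lit 126) (nat_lit 4) (nat_lit 118) (nat_lit 228) (nat_lit 224)))) (PT.nd (nat_lit 156) (PT.nd (nat_lit 78) (PT.lf (nat_lit 9880) (nat_lit 6) (nat_lit 130) (nat_lit 4) (nat_lit 119) (nat_lit 228) (nat_lit 223)) (PT.lf (nat_lit 10184) (nat_lit 6) (nat_lit 134) (nat_lit 4) (nat_lit 120) (nat_lit 228) (nat_lit 222))) (PT.nd (nat_lit 78) (PT.lf (nat_lit 10488) (nat_lit 6) (nat_lit 138) (nat_lit 4) (nat_lit 121) (nat_lit 228) (nat_lit 221)) (PT.nd (nat_lit 7644) (PT.lf (nat_lit 10792) (nat_lit 6) (nat_lit 142) (nat_lit 4) (nat_lit 122) (nat_lit 228) (nat_lit 220)) (PT.lf (nat_lit 10792) (nat_lit 6) (nat_lit 142) (nat_lit 2) (nat_lit 220) (nat_lit 228) (nat_lit 122))))))))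
noncomputable def pc118 : PT := (PT.nd (nat_lit 50700) (PT.nd (nat_lit 702) (PT.nd (nat_lit 312) (PT.nd (nat_lit 156) (PT.nd (nat_lit 78) (PT.lf (nat_lit 10488) (nat_lit 6) (nat_lit 138) (nat_lit 2) (nat_lit 221) (nat_lit 228) (nat_lit 121)) (PT.lf (nat_lit 10184) (nat_lit 6) (nat_lit 134) (nat_lit 2) (nat_lit 222) (nat_lit 228) (nat_lit 120))) (PT.nd (nat_lit 78) (PT.lf (nat_lit 9880) (nat_lit 6) (nat_lit 130) (nat_lit 2) (nat_lit 223) (nat_lit 228) (nat_lit 119)) (PT.lf (nat_lit 9576) (nat_lit 6) (nat_lit 126) (nat_lit 2) (nat_lit 224) (nat_lit 228) (nat_lit 118)))) (PT.nd (nat_lit 156) (PT.nd (nat_lit 78) (PT.lf (nat_lit 9348) (nat_lit 6) (nat_lit 123) (nat_lit 2) (nat_lit 225) (nat_lit 228) (nat_lit 117)) (PT.lf (nat_lit 9044) (nat_lit 6) (nat_lit 119) (nat_lit 2) (nat_lit 226) (nat_lit 228) (nat_lit 116))) (PT.nd (nat_lit 78) (PT.lf (nat_lit 8816) (nat_lit 6) (nat_lit 116) (nat_lit 2) (nat_lit 227) (nat_lit 228) (nat_lit 115)) (PT.nd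 (nat_lit 78) (PT.lf (nat_lit 8512) (nat_lit 3) (nat_lit 112) (nat_lit 0) (nat_lit 228) (nat_lit 228) (nat_lit 114)) (PT.lf (nat_lit 8208) (nat_lit 6) (nat_lit 108) (nat_lit 0) (nat_lit 229) (nat_lit 228) (nat_lit 113)))))) (PT.nd (nat_lit 312) (PT.nd (nat_lit 156) (PT.nd (nat_lit 78) (PT.lf (nat_lit 7828) (nat_lit 6) (nat_lit 103) (nat_lit 0) (nat_lit 230) (nat_lit 228) (nat_lit 112)) (PT.lf (nat_lit 7524) (nat_lit 6) (nat_lit 99) (nat_lit 0) (nat_lit 231) (nat_lit 228) (nat_lit 111))) (PT.nd (nat_lit 78) (PT.lf (nat_lit 7220) (nat_lit 6) (nat_lit 95) (nat_lit 0) (nat_lit 232) (nat_lit 228) (nat_lit 110)) (PT.lf (nat_lit 6916) (nat_lit 6) (nat_lit 91) (nat_lit 0) (nat_lit 233) (nat_lit 228) (nat_lit 109)))) (PT.nd (nat_lit 49452) (PT.nd (nat_lit 49374) (PT.lf (nat_lit 6612) (nat_lit 6) (nat_lit 87) (nat_lit 0) (nat_lit 234) (nat_lit 228) (nat_lit 108)) (PT.lf (nat_lit 6080) (nat_lit 6) (nat_lit 80) (nat_lit 5) (nat_lit 106) (nat_lit 229)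 (nat_lit 235))) (PT.nd (nat_lit 78) (PT.lf (nat_lit 6384) (nat_lit 6) (nat_lit 84) (nat_lit 5) (nat_lit 107) (nat_lit 229) (nat_lit 234)) (PT.nd (nat_lit 78) (PT.lf (nat_lit 6688) (nat_lit 6) (nat_lit 88) (nat_lit 5) (nat_lit 108) (nat_lit 229) (nat_lit 233)) (PT.lf (nat_lit 6992) (nat_lit 6) (nat_lit 92) (nat_lit 5) (nat_lit 109) (nat_lit 229) (nat_lit 232))))))) (PT.nd (nat_lit 702) (PT.nd (nat_lit 312) (PT.nd (nat_lit 156) (PT.nd (nat_lit 78) (PT.lf (nat_lit 7296) (nat_lit 6) (nat_lit 96) (nat_lit 5) (nat_lit 110) (nat_lit 229) (nat_lit 231)) (PT.lf (nat_lit 7600) (nat_lit 6) (nat_lit 100) (nat_lit 5) (nat_lit 111) (nat_lit 229) (nat_lit 230))) (PT.nd (nat_lit 78) (PT.lf (nat_lit 7904) (nat_lit 3) (nat_lit 104) (nat_lit 4) (nat_lit 112) (nat_lit 229) (nat_lit 229)) (PT.lf (nat_lit 8208) (nat_lit 6) (nat_lit 108) (nat_lit 4) (nat_lit 113) (nat_lit 229) (nat_lit 228)))) (PT.nd (nat_lit 156) (PT.nd (nat_lit 78) (PT.lf (nat_lit 8436) (nat_lit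 6) (nat_lit 111) (nat_lit 4) (nat_lit 114) (nat_lit 229) (nat_lit 227)) (PT.lf (nat_lit 8740) (nat_lit 6) (nat_lit 115) (nat_lit 4) (nat_lit 115) (nat_lit 229) (nat_lit 226))) (PT.nd (nat_lit 78) (PT.lf (nat_lit 8968) (nat_lit 6) (nat_lit 118) (nat_lit 4) (nat_lit 116) (nat_lit 229) (nat_lit 225)) (PT.nd (nat_lit 78) (PT.lf (nat_lit 9272) (nat_lit 6) (nat_lit 122) (nat_lit 4) (nat_lit 117) (nat_lit 229) (nat_lit 224)) (PT.lf (nat_lit 9500) (nat_lit 6) (nat_lit 125) (nat_lit 4) (nat_lit 118) (nat_lit 229) (nat_lit 223)))))) (PT.nd (nat_lit 8112) (PT.nd (nat_lit 7956) (PT.nd (nat_lit 78) (PT.lf (nat_lit 9804) (nat_lit 6) (nat_lit 129) (nat_lit 4) (nat_lit 119) (nat_lit 229) (nat_lit 222)) (PT.lf (nat_lit 10108) (nat_lit 6) (nat_lit 133) (nat_lit 4) (nat_lit 120) (nat_lit 229) (nat_lit 221))) (PT.nd (nat_lit 78) (PT.lf (nat_lit 10108) (nat_lit 6) (nat_lit 133) (nat_lit 2) (nat_lit 221) (nat_lit 229) (nat_lit 120)) (PT.lf (nat_lit 9804) (nat_lit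 6) (nat_lit 129) (nat_lit 2) (nat_lit 222) (nat_lit 229) (nat_lit 119)))) (PT.nd (nat_lit 156) (PT.nd (nat_lit 78) (PT.lf (nat_lit 9500) (nat_lit 6) (nat_lit 125) (nat_lit 2) (nat_lit 223) (nat_lit 229) (nat_lit 118)) (PT.lf (nat_lit 9272) (nat_lit 6) (nat_lit 122) (nat_lit 2) (nat_lit 224) (nat_lit 229) (nat_lit 117))) (PT.nd (nat_lit 78) (PT.lf (nat_lit 8968) (nat_lit 6) (nat_lit 118) (nat_lit 2) (nat_lit 225) (nat_lit 229) (nat_lit 116)) (PT.nd (nat_lit 78) (PT.lf (nat_lit 8740) (nat_lit 6) (nat_lit 115) (nat_lit 2) (nat_lit 226) (nat_lit 229) (nat_lit 115)) (PT.lf (nat_lit 8436) (nat_lit 6) (nat_lit 111) (nat_lit 2) (nat_lit 227) (nat_lit 229) (nat_lit 114))))))))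
noncomputable def pc119 : PT := (PT.nd (nat_lit 50544) (PT.nd (nat_lit 49842) (PT.nd (nat_lit 312) (PT.nd (nat_lit 156) (PT.nd (nat_lit 78) (PT.lf (nat_lit 8208) (nat_lit 6) (nat_lit 108) (nat_lit 2) (nat_lit 228) (nat_lit 229) (nat_lit 113)) (PT.lf (nat_lit 7904) (nat_lit 3) (nat_lit 104) (nat_lit 0) (nat_lit 229) (nat_lit 229) (nat_lit 112))) (PT.nd (nat_lit 78) (PT.lf (nat_lit 7600) (nat_lit 6) (nat_lit 100) (nat_lit 0) (nat_lit 230) (nat_lit 229) (nat_lit 111)) (PT.lf (nat_lit 7296) (nat_lit 6) (nat_lit 96) (nat_lit 0) (nat_lit 231) (nat_lit 229) (nat_lit 110)))) (PT.nd (nat_lit 156) (PT.nd (nat_lit 78) (PT.lf (nat_lit 6992) (nat_lit 6) (nat_lit 92) (nat_lit 0) (nat_lit 232) (nat_lit 229) (nat_lit 109)) (PT.lf (nat_lit 6688) (nat_lit 6) (nat_lit 88) (nat_lit 0) (nat_lit 233) (nat_lit 229) (nat_lit 108))) (PT.nd (nat_lit 78) (PT.lf (nat_lit 6384) (nat_lit 6) (nat_lit 84) (nat_lit 0) (nat_lit 234) (nat_lit 229) (nat_lit 107)) (PT.nd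 (nat_lit 49218) (PT.lf (nat_lit 6080) (nat_lit 6) (nat_lit 80) (nat_lit 0) (nat_lit 235) (nat_lit 229) (nat_lit 106)) (PT.lf (nat_lit 5852) (nat_lit 6) (nat_lit 77) (nat_lit 5) (nat_lit 105) (nat_lit 230) (nat_lit 235)))))) (PT.nd (nat_lit 312) (PT.nd (nat_lit 156) (PT.nd (nat_lit 78) (PT.lf (nat_lit 6156) (nat_lit 6) (nat_lit 81) (nat_lit 5) (nat_lit 106) (nat_lit 230) (nat_lit 234)) (PT.lf (nat_lit 6460) (nat_lit 6) (nat_lit 85) (nat_lit 5) (nat_lit 107) (nat_lit 230) (nat_lit 233))) (PT.nd (nat_lit 78) (PT.lf (nat_lit 6764) (nat_lit 6) (nat_lit 89) (nat_lit 5) (nat_lit 108) (nat_lit 230) (nat_lit 232)) (PT.lf (nat_lit 7068) (nat_lit 6) (nat_lit 93) (nat_lit 5) (nat_lit 109) (nat_lit 230) (nat_lit 231)))) (PT.nd (nat_lit 156) (PT.nd (nat_lit 78) (PT.lf (nat_lit 7372) (nat_lit 3) (nat_lit 97) (nat_lit 4) (nat_lit 110) (nat_lit 230) (nat_lit 230)) (PT.lf (nat_lit 7600) (nat_lit 6) (nat_lit 100) (nat_lit 4) (nat_lit 111) (nat_lit 230)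 (nat_lit 229))) (PT.nd (nat_lit 78) (PT.lf (nat_lit 7828) (nat_lit 6) (nat_lit 103) (nat_lit 4) (nat_lit 112) (nat_lit 230) (nat_lit 228)) (PT.nd (nat_lit 78) (PT.lf (nat_lit 8132) (nat_lit 6) (nat_lit 107) (nat_lit 4) (nat_lit 113) (nat_lit 230) (nat_lit 227)) (PT.lf (nat_lit 8360) (nat_lit 6) (nat_lit 110) (nat_lit 4) (nat_lit 114) (nat_lit 230) (nat_lit 226))))))) (PT.nd (nat_lit 8892) (PT.nd (nat_lit 8502) (PT.nd (nat_lit 156) (PT.nd (nat_lit 78) (PT.lf (nat_lit 8664) (nat_lit 6) (nat_lit 114) (nat_lit 4) (nat_lit 115) (nat_lit 230) (nat_lit 225)) (PT.lf (nat_lit 8892) (nat_lit 6) (nat_lit 117) (nat_lit 4) (nat_lit 116) (nat_lit 230) (nat_lit 224))) (PT.nd (nat_lit 8268) (PT.lf (nat_lit 9196) (nat_lit 6) (nat_lit 121) (nat_lit 4) (nat_lit 117) (nat_lit 230) (nat_lit 223)) (PT.lf (nat_lit 9196) (nat_lit 6) (nat_lit 121) (nat_lit 2) (nat_lit 223) (nat_lit 230) (nat_lit 117)))) (PT.nd (nat_lit 156) (PT.nd (nat_lit 78) (PT.lf (nat_lit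 8892) (nat_lit 6) (nat_lit 117) (nat_lit 2) (nat_lit 224) (nat_lit 230) (nat_lit 116)) (PT.lf (nat_lit 8664) (nat_lit 6) (nat_lit 114) (nat_lit 2) (nat_lit 225) (nat_lit 230) (nat_lit 115))) (PT.nd (nat_lit 78) (PT.lf (nat_lit 8360) (nat_lit 6) (nat_lit 110) (nat_lit 2) (nat_lit 226) (nat_lit 230) (nat_lit 114)) (PT.nd (nat_lit 78) (PT.lf (nat_lit 8132) (nat_lit 6) (nat_lit 107) (nat_lit 2) (nat_lit 227) (nat_lit 230) (nat_lit 113)) (PT.lf (nat_lit 7828) (nat_lit 6) (nat_lit 103) (nat_lit 2) (nat_lit 228) (nat_lit 230) (nat_lit 112)))))) (PT.nd (nat_lit 312) (PT.nd (nat_lit 156) (PT.nd (nat_lit 78) (PT.lf (nat_lit 7600) (nat_lit 6) (nat_lit 100) (nat_lit 2) (nat_lit 229) (nat_lit 230) (nat_lit 111)) (PT.lf (nat_lit 7372) (nat_lit 3) (nat_lit 97) (nat_lit 0) (nat_lit 230) (nat_lit 230) (nat_lit 110))) (PT.nd (nat_lit 78) (PT.lf (nat_lit 7068) (nat_lit 6) (nat_lit 93) (nat_lit 0) (nat_lit 231) (nat_lit 230) (nat_lit 109)) (PT.lf (nat_lit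 6764) (nat_lit 6) (nat_lit 89) (nat_lit 0) (nat_lit 232) (nat_lit 230) (nat_lit 108)))) (PT.nd (nat_lit 156) (PT.nd (nat_lit 78) (PT.lf (nat_lit 6460) (nat_lit 6) (nat_lit 85) (nat_lit 0) (nat_lit 233) (nat_lit 230) (nat_lit 107)) (PT.lf (nat_lit 6156) (nat_lit 6) (nat_lit 81) (nat_lit 0) (nat_lit 234) (nat_lit 230) (nat_lit 106))) (PT.nd (nat_lit 49062) (PT.lf (nat_lit 5852) (nat_lit 6) (nat_lit 77) (nat_lit 0) (nat_lit 235) (nat_lit 230) (nat_lit 105)) (PT.nd (nat_lit 78) (PT.lf (nat_lit 5396) (nat_lit 6) (nat_lit 71) (nat_lit 5) (nat_lit 103) (nat_lit 231) (nat_lit 236)) (PT.lf (nat_lit 5624) (nat_lit 6) (nat_lit 74) (nat_lit 5) (nat_lit 104) (nat_lit 231) (nat_lit 235))))))))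
noncomputable def pc120 : PT := (PT.nd (nat_lit 9750) (PT.nd (nat_lit 624) (PT.nd (nat_lit 312) (PT.nd (nat_lit 156) (PT.nd (nat_lit 78) (PT.lf (nat_lit 5928) (nat_lit 6) (nat_lit 78) (nat_lit 5) (nat_lit 105) (nat_lit 231) (nat_lit 234)) (PT.lf (nat_lit 6232) (nat_lit 6) (nat_lit 82) (nat_lit 5) (nat_lit 106) (nat_lit 231) (nat_lit 233))) (PT.nd (nat_lit 78) (PT.lf (nat_lit 6536) (nat_lit 6) (nat_lit 86) (nat_lit 5) (nat_lit 107) (nat_lit 231) (nat_lit 232)) (PT.lf (nat_lit 6840) (nat_lit 3) (nat_lit 90) (nat_lit 4) (nat_lit 108) (nat_lit 231) (nat_lit 231)))) (PT.nd (nat_lit 156) (PT.nd (nat_lit 78) (PT.lf (nat_lit 7068) (nat_lit 6) (nat_lit 93) (nat_lit 4) (nat_lit 109) (nat_lit 231) (nat_lit 230)) (PT.lf (nat_lit 7296) (nat_lit 6) (nat_lit 96) (nat_lit 4) (nat_lit 110) (nat_lit 231) (nat_lit 229))) (PT.nd (nat_lit 78) (PT.lf (nat_lit 7524) (nat_lit 6) (nat_lit 99) (nat_lit 4) (nat_lit 111) (nat_lit 231) (nat_lit 228)) (PT.lf (nat_lit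 7752) (nat_lit 6) (nat_lit 102) (nat_lit 4) (nat_lit 112) (nat_lit 231) (nat_lit 227))))) (PT.nd (nat_lit 8736) (PT.nd (nat_lit 156) (PT.nd (nat_lit 78) (PT.lf (nat_lit 8056) (nat_lit 6) (nat_lit 106) (nat_lit 4) (nat_lit 113) (nat_lit 231) (nat_lit 226)) (PT.lf (nat_lit 8284) (nat_lit 6) (nat_lit 109) (nat_lit 4) (nat_lit 114) (nat_lit 231) (nat_lit 225))) (PT.nd (nat_lit 8502) (PT.lf (nat_lit 8588) (nat_lit 6) (nat_lit 113) (nat_lit 4) (nat_lit 115) (nat_lit 231) (nat_lit 224)) (PT.lf (nat_lit 8588) (nat_lit 6) (nat_lit 113) (nat_lit 2) (nat_lit 224) (nat_lit 231) (nat_lit 115)))) (PT.nd (nat_lit 156) (PT.nd (nat_lit 78) (PT.lf (nat_lit 8284) (nat_lit 6) (nat_lit 109) (nat_lit 2) (nat_lit 225) (nat_lit 231) (nat_lit 114)) (PT.lf (nat_lit 8056) (nat_lit 6) (nat_lit 106) (nat_lit 2) (nat_lit 226) (nat_lit 231) (nat_lit 113))) (PT.nd (nat_lit 78) (PT.lf (nat_lit 7752) (nat_lit 6) (nat_lit 102) (nat_lit 2) (nat_lit 227) (nat_lit 231) (nat_lit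 112)) (PT.nd (nat_lit 78) (PT.lf (nat_lit 7524) (nat_lit 6) (nat_lit 99) (nat_lit 2) (nat_lit 228) (nat_lit 231) (nat_lit 111)) (PT.lf (nat_lit 7296) (nat_lit 6) (nat_lit 96) (nat_lit 2) (nat_lit 229) (nat_lit 231) (nat_lit 110))))))) (PT.nd (nat_lit 49452) (PT.nd (nat_lit 312) (PT.nd (nat_lit 156) (PT.nd (nat_lit 78) (PT.lf (nat_lit 7068) (nat_lit 6) (nat_lit 93) (nat_lit 2) (nat_lit 230) (nat_lit 231) (nat_lit 109)) (PT.lf (nat_lit 6840) (nat_lit 3) (nat_lit 90) (nat_lit 0) (nat_lit 231) (nat_lit 231) (nat_lit 108))) (PT.nd (nat_lit 78) (PT.lf (nat_lit 6536) (nat_lit 6) (nat_lit 86) (nat_lit 0) (nat_lit 232) (nat_lit 231) (nat_lit 107)) (PT.lf (nat_lit 6232) (nat_lit 6) (nat_lit 82) (nat_lit 0) (nat_lit 233) (nat_lit 231) (nat_lit 106)))) (PT.nd (nat_lit 156) (PT.nd (nat_lit 78) (PT.lf (nat_lit 5928) (nat_lit 6) (nat_lit 78) (nat_lit 0) (nat_lit 234) (nat_lit 231) (nat_lit 105)) (PT.lf (nat_lit 5624) (nat_lit 6) (nat_lit 74) (nat_lit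 0) (nat_lit 235) (nat_lit 231) (nat_lit 104))) (PT.nd (nat_lit 48828) (PT.lf (nat_lit 5396) (nat_lit 6) (nat_lit 71) (nat_lit 0) (nat_lit 236) (nat_lit 231) (nat_lit 103)) (PT.nd (nat_lit 78) (PT.lf (nat_lit 4940) (nat_lit 6) (nat_lit 65) (nat_lit 5) (nat_lit 101) (nat_lit 232) (nat_lit 237)) (PT.lf (nat_lit 5168) (nat_lit 6) (nat_lit 68) (nat_lit 5) (nat_lit 102) (nat_lit 232) (nat_lit 236)))))) (PT.nd (nat_lit 312) (PT.nd (nat_lit 156) (PT.nd (nat_lit 78) (PT.lf (nat_lit 5472) (nat_lit 6) (nat_lit 72) (nat_lit 5) (nat_lit 103) (nat_lit 232) (nat_lit 235)) (PT.lf (nat_lit 5700) (nat_lit 6) (nat_lit 75) (nat_lit 5) (nat_lit 104) (nat_lit 232) (nat_lit 234))) (PT.nd (nat_lit 78) (PT.lf (nat_lit 6004) (nat_lit 6) (nat_lit 79) (nat_lit 5) (nat_lit 105) (nat_lit 232) (nat_lit 233)) (PT.lf (nat_lit 6308) (nat_lit 3) (nat_lit 83) (nat_lit 4) (nat_lit 106) (nat_lit 232) (nat_lit 232)))) (PT.nd (nat_lit 156) (PT.nd (nat_lit 78) (PT.lf (nat_lit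 6536) (nat_lit 6) (nat_lit 86) (nat_lit 4) (nat_lit 107) (nat_lit 232) (nat_lit 231)) (PT.lf (nat_lit 6764) (nat_lit 6) (nat_lit 89) (nat_lit 4) (nat_lit 108) (nat_lit 232) (nat_lit 230))) (PT.nd (nat_lit 78) (PT.lf (nat_lit 6992) (nat_lit 6) (nat_lit 92) (nat_lit 4) (nat_lit 109) (nat_lit 232) (nat_lit 229)) (PT.nd (nat_lit 78) (PT.lf (nat_lit 7220) (nat_lit 6) (nat_lit 95) (nat_lit 4) (nat_lit 110) (nat_lit 232) (nat_lit 228)) (PT.lf (nat_lit 7448) (nat_lit 6) (nat_lit 98) (nat_lit 4) (nat_lit 111) (nat_lit 232) (nat_lit 227))))))))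
noncomputable def pc121 : PT := (PT.nd (nat_lit 58578) (PT.nd (nat_lit 9360) (PT.nd (nat_lit 8970) (PT.nd (nat_lit 8814) (PT.nd (nat_lit 78) (PT.lf (nat_lit 7676) (nat_lit 6) (nat_lit 101) (nat_lit 4) (nat_lit 112) (nat_lit 232) (nat_lit 226)) (PT.lf (nat_lit 7980) (nat_lit 6) (nat_lit 105) (nat_lit 4) (nat_lit 113) (nat_lit 232) (nat_lit 225))) (PT.nd (nat_lit 78) (PT.lf (nat_lit 7980) (nat_lit 6) (nat_lit 105) (nat_lit 2) (nat_lit 225) (nat_lit 232) (nat_lit 113)) (PT.lf (nat_lit 7676) (nat_lit 6) (nat_lit 101) (nat_lit 2) (nat_lit 226) (nat_lit 232) (nat_lit 112)))) (PT.nd (nat_lit 156) (PT.nd (nat_lit 78) (PT.lf (nat_lit 7448) (nat_lit 6) (nat_lit 98) (nat_lit 2) (nat_lit 227) (nat_lit 232) (nat_lit 111)) (PT.lf (nat_lit 7220) (nat_lit 6) (nat_lit 95) (nat_lit 2) (nat_lit 228) (nat_lit 232) (nat_lit 110))) (PT.nd (nat_lit 78) (PT.lf (nat_lit 6992) (nat_lit 6) (nat_lit 92) (nat_lit 2) (nat_lit 229) (nat_lit 232) (nat_lit 109)) (PT.nd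 (nat_lit 78) (PT.lf (nat_lit 6764) (nat_lit 6) (nat_lit 89) (nat_lit 2) (nat_lit 230) (nat_lit 232) (nat_lit 108)) (PT.lf (nat_lit 6536) (nat_lit 6) (nat_lit 86) (nat_lit 2) (nat_lit 231) (nat_lit 232) (nat_lit 107)))))) (PT.nd (nat_lit 312) (PT.nd (nat_lit 156) (PT.nd (nat_lit 78) (PT.lf (nat_lit 6308) (nat_lit 3) (nat_lit 83) (nat_lit 0) (nat_lit 232) (nat_lit 232) (nat_lit 106)) (PT.lf (nat_lit 6004) (nat_lit 6) (nat_lit 79) (nat_lit 0) (nat_lit 233) (nat_lit 232) (nat_lit 105))) (PT.nd (nat_lit 78) (PT.lf (nat_lit 5700) (nat_lit 6) (nat_lit 75) (nat_lit 0) (nat_lit 234) (nat_lit 232) (nat_lit 104)) (PT.lf (nat_lit 5472) (nat_lit 6) (nat_lit 72) (nat_lit 0) (nat_lit 235) (nat_lit 232) (nat_lit 103)))) (PT.nd (nat_lit 48672) (PT.nd (nat_lit 78) (PT.lf (nat_lit 5168) (nat_lit 6) (nat_lit 68) (nat_lit 0) (nat_lit 236) (nat_lit 232) (nat_lit 102)) (PT.lf (nat_lit 4940) (nat_lit 6) (nat_lit 65) (nat_lit 0) (nat_lit 237) (nat_lit 232) (nat_lit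 101))) (PT.nd (nat_lit 78) (PT.lf (nat_lit 4484) (nat_lit 6) (nat_lit 59) (nat_lit 5) (nat_lit 99) (nat_lit 233) (nat_lit 238)) (PT.nd (nat_lit 78) (PT.lf (nat_lit 4712) (nat_lit 6) (nat_lit 62) (nat_lit 5) (nat_lit 100) (nat_lit 233) (nat_lit 237)) (PT.lf (nat_lit 5016) (nat_lit 6) (nat_lit 66) (nat_lit 5) (nat_lit 101) (nat_lit 233) (nat_lit 236))))))) (PT.nd (nat_lit 9750) (PT.nd (nat_lit 312) (PT.nd (nat_lit 156) (PT.nd (nat_lit 78) (PT.lf (nat_lit 5244) (nat_lit 6) (nat_lit 69) (nat_lit 5) (nat_lit 102) (nat_lit 233) (nat_lit 235)) (PT.lf (nat_lit 5548) (nat_lit 6) (nat_lit 73) (nat_lit 5) (nat_lit 103) (nat_lit 233) (nat_lit 234))) (PT.nd (nat_lit 78) (PT.lf (nat_lit 5776) (nat_lit 3) (nat_lit 76) (nat_lit 4) (nat_lit 104) (nat_lit 233) (nat_lit 233)) (PT.lf (nat_lit 6004) (nat_lit 6) (nat_lit 79) (nat_lit 4) (nat_lit 105) (nat_lit 233) (nat_lit 232)))) (PT.nd (nat_lit 156) (PT.nd (nat_lit 78) (PT.lf (nat_lit 6232) (nat_lit 6) (nat_lit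 82) (nat_lit 4) (nat_lit 106) (nat_lit 233) (nat_lit 231)) (PT.lf (nat_lit 6460) (nat_lit 6) (nat_lit 85) (nat_lit 4) (nat_lit 107) (nat_lit 233) (nat_lit 230))) (PT.nd (nat_lit 78) (PT.lf (nat_lit 6688) (nat_lit 6) (nat_lit 88) (nat_lit 4) (nat_lit 108) (nat_lit 233) (nat_lit 229)) (PT.nd (nat_lit 78) (PT.lf (nat_lit 6916) (nat_lit 6) (nat_lit 91) (nat_lit 4) (nat_lit 109) (nat_lit 233) (nat_lit 228)) (PT.lf (nat_lit 7144) (nat_lit 6) (nat_lit 94) (nat_lit 4) (nat_lit 110) (nat_lit 233) (nat_lit 227)))))) (PT.nd (nat_lit 312) (PT.nd (nat_lit 156) (PT.nd (nat_lit 78) (PT.lf (nat_lit 7144) (nat_lit 6) (nat_lit 94) (nat_lit 2) (nat_lit 227) (nat_lit 233) (nat_lit 110)) (PT.lf (nat_lit 6916) (nat_lit 6) (nat_lit 91) (nat_lit 2) (nat_lit 228) (nat_lit 233) (nat_lit 109))) (PT.nd (nat_lit 78) (PT.lf (nat_lit 6688) (nat_lit 6) (nat_lit 88) (nat_lit 2) (nat_lit 229) (nat_lit 233) (nat_lit 108)) (PT.lf (nat_lit 6460) (nat_lit 6) (nat_lit 85)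 (nat_lit 2) (nat_lit 230) (nat_lit 233) (nat_lit 107)))) (PT.nd (nat_lit 156) (PT.nd (nat_lit 78) (PT.lf (nat_lit 6232) (nat_lit 6) (nat_lit 82) (nat_lit 2) (nat_lit 231) (nat_lit 233) (nat_lit 106)) (PT.lf (nat_lit 6004) (nat_lit 6) (nat_lit 79) (nat_lit 2) (nat_lit 232) (nat_lit 233) (nat_lit 105))) (PT.nd (nat_lit 78) (PT.lf (nat_lit 5776) (nat_lit 3) (nat_lit 76) (nat_lit 0) (nat_lit 233) (nat_lit 233) (nat_lit 104)) (PT.nd (nat_lit 78) (PT.lf (nat_lit 5548) (nat_lit 6) (nat_lit 73) (nat_lit 0) (nat_lit 234) (nat_lit 233) (nat_lit 103)) (PT.lf (nat_lit 5244) (nat_lit 6) (nat_lit 69) (nat_lit 0) (nat_lit 235) (nat_lit 233) (nat_lit 102))))))))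
noncomputable def pc122 : PT := (PT.nd (nat_lit 58968) (PT.nd (nat_lit 48984) (PT.nd (nat_lit 48594) (PT.nd (nat_lit 156) (PT.nd (nat_lit 78) (PT.lf (nat_lit 5016) (nat_lit 6) (nat_lit 66) (nat_lit 0) (nat_lit 236) (nat_lit 233) (nat_lit 101)) (PT.lf (nat_lit 4712) (nat_lit 6) (nat_lit 62) (nat_lit 0) (nat_lit 237) (nat_lit 233) (nat_lit 100))) (PT.nd (nat_lit 48360) (PT.lf (nat_lit 4484) (nat_lit 6) (nat_lit 59) (nat_lit 0) (nat_lit 238) (nat_lit 233) (nat_lit 99)) (PT.lf (nat_lit 4028) (nat_lit 6) (nat_lit 53) (nat_lit 5) (nat_lit 97) (nat_lit 234) (nat_lit 239)))) (PT.nd (nat_lit 156) (PT.nd (nat_lit 78) (PT.lf (nat_lit 4256) (nat_lit 6) (nat_lit 56) (nat_lit 5) (nat_lit 98) (nat_lit 234) (nat_lit 238)) (PT.lf (nat_lit 4560) (nat_lit 6) (nat_lit 60) (nat_lit 5) (nat_lit 99) (nat_lit 234) (nat_lit 237))) (PT.nd (nat_lit 78) (PT.lf (nat_lit 4788) (nat_lit 6) (nat_lit 63) (nat_lit 5) (nat_lit 100) (nat_lit 234) (nat_lit 236)) (PT.nd (nat_lit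 78) (PT.lf (nat_lit 5092) (nat_lit 6) (nat_lit 67) (nat_lit 5) (nat_lit 101) (nat_lit 234) (nat_lit 235)) (PT.lf (nat_lit 5320) (nat_lit 3) (nat_lit 70) (nat_lit 4) (nat_lit 102) (nat_lit 234) (nat_lit 234)))))) (PT.nd (nat_lit 312) (PT.nd (nat_lit 156) (PT.nd (nat_lit 78) (PT.lf (nat_lit 5548) (nat_lit 6) (nat_lit 73) (nat_lit 4) (nat_lit 103) (nat_lit 234) (nat_lit 233)) (PT.lf (nat_lit 5700) (nat_lit 6) (nat_lit 75) (nat_lit 4) (nat_lit 104) (nat_lit 234) (nat_lit 232))) (PT.nd (nat_lit 78) (PT.lf (nat_lit 5928) (nat_lit 6) (nat_lit 78) (nat_lit 4) (nat_lit 105) (nat_lit 234) (nat_lit 231)) (PT.lf (nat_lit 6156) (nat_lit 6) (nat_lit 81) (nat_lit 4) (nat_lit 106) (nat_lit 234) (nat_lit 230)))) (PT.nd (nat_lit 9438) (PT.nd (nat_lit 78) (PT.lf (nat_lit 6384) (nat_lit 6) (nat_lit 84) (nat_lit 4) (nat_lit 107) (nat_lit 234) (nat_lit 229)) (PT.lf (nat_lit 6612) (nat_lit 6) (nat_lit 87) (nat_lit 4) (nat_lit 108) (nat_lit 234) (nat_lit 228)))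 (PT.nd (nat_lit 78) (PT.lf (nat_lit 6612) (nat_lit 6) (nat_lit 87) (nat_lit 2) (nat_lit 228) (nat_lit 234) (nat_lit 108)) (PT.nd (nat_lit 78) (PT.lf (nat_lit 6384) (nat_lit 6) (nat_lit 84) (nat_lit 2) (nat_lit 229) (nat_lit 234) (nat_lit 107)) (PT.lf (nat_lit 6156) (nat_lit 6) (nat_lit 81) (nat_lit 2) (nat_lit 230) (nat_lit 234) (nat_lit 106))))))) (PT.nd (nat_lit 48828) (PT.nd (nat_lit 312) (PT.nd (nat_lit 156) (PT.nd (nat_lit 78) (PT.lf (nat_lit 5928) (nat_lit 6) (nat_lit 78) (nat_lit 2) (nat_lit 231) (nat_lit 234) (nat_lit 105)) (PT.lf (nat_lit 5700) (nat_lit 6) (nat_lit 75) (nat_lit 2) (nat_lit 232) (nat_lit 234) (nat_lit 104))) (PT.nd (nat_lit 78) (PT.lf (nat_lit 5548) (nat_lit 6) (nat_lit 73) (nat_lit 2) (nat_lit 233) (nat_lit 234) (nat_lit 103)) (PT.lf (nat_lit 5320) (nat_lit 3) (nat_lit 70) (nat_lit 0) (nat_lit 234) (nat_lit 234) (nat_lit 102)))) (PT.nd (nat_lit 156) (PT.nd (nat_lit 78) (PT.lf (nat_lit 5092) (nat_lit 6) (nat_lit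 67) (nat_lit 0) (nat_lit 235) (nat_lit 234) (nat_lit 101)) (PT.lf (nat_lit 4788) (nat_lit 6) (nat_lit 63) (nat_lit 0) (nat_lit 236) (nat_lit 234) (nat_lit 100))) (PT.nd (nat_lit 78) (PT.lf (nat_lit 4560) (nat_lit 6) (nat_lit 60) (nat_lit 0) (nat_lit 237) (nat_lit 234) (nat_lit 99)) (PT.nd (nat_lit 78) (PT.lf (nat_lit 4256) (nat_lit 6) (nat_lit 56) (nat_lit 0) (nat_lit 238) (nat_lit 234) (nat_lit 98)) (PT.lf (nat_lit 4028) (nat_lit 6) (nat_lit 53) (nat_lit 0) (nat_lit 239) (nat_lit 234) (nat_lit 97)))))) (PT.nd (nat_lit 312) (PT.nd (nat_lit 156) (PT.nd (nat_lit 78) (PT.lf (nat_lit 3800) (nat_lit 6) (nat_lit 50) (nat_lit 5) (nat_lit 96) (nat_lit 235) (nat_lit 239)) (PT.lf (nat_lit 4104) (nat_lit 6) (nat_lit 54) (nat_lit 5) (nat_lit 97) (nat_lit 235) (nat_lit 238))) (PT.nd (nat_lit 78) (PT.lf (nat_lit 4332) (nat_lit 6) (nat_lit 57) (nat_lit 5) (nat_lit 98) (nat_lit 235) (nat_lit 237)) (PT.lf (nat_lit 4636) (nat_lit 6) (nat_lit 61) (nat_lit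 5) (nat_lit 99) (nat_lit 235) (nat_lit 236)))) (PT.nd (nat_lit 156) (PT.nd (nat_lit 78) (PT.lf (nat_lit 4864) (nat_lit 3) (nat_lit 64) (nat_lit 4) (nat_lit 100) (nat_lit 235) (nat_lit 235)) (PT.lf (nat_lit 5092) (nat_lit 6) (nat_lit 67) (nat_lit 4) (nat_lit 101) (nat_lit 235) (nat_lit 234))) (PT.nd (nat_lit 78) (PT.lf (nat_lit 5244) (nat_lit 6) (nat_lit 69) (nat_lit 4) (nat_lit 102) (nat_lit 235) (nat_lit 233)) (PT.nd (nat_lit 78) (PT.lf (nat_lit 5472) (nat_lit 6) (nat_lit 72) (nat_lit 4) (nat_lit 103) (nat_lit 235) (nat_lit 232)) (PT.lf (nat_lit 5624) (nat_lit 6) (nat_lit 74) (nat_lit 4) (nat_lit 104) (nat_lit 235) (nat_lit 231))))))))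
noncomputable def pc123 : PT := (PT.nd (nat_lit 58890) (PT.nd (nat_lit 10218) (PT.nd (nat_lit 9828) (PT.nd (nat_lit 9672) (PT.nd (nat_lit 78) (PT.lf (nat_lit 5852) (nat_lit 6) (nat_lit 77) (nat_lit 4) (nat_lit 105) (nat_lit 235) (nat_lit 230)) (PT.lf (nat_lit 6080) (nat_lit 6) (nat_lit 80) (nat_lit 4) (nat_lit 106) (nat_lit 235) (nat_lit 229))) (PT.nd (nat_lit 78) (PT.lf (nat_lit 6080) (nat_lit 6) (nat_lit 80) (nat_lit 2) (nat_lit 229) (nat_lit 235) (nat_lit 106)) (PT.lf (nat_lit 5852) (nat_lit 6) (nat_lit 77) (nat_lit 2) (nat_lit 230) (nat_lit 235) (nat_lit 105)))) (PT.nd (nat_lit 156) (PT.nd (nat_lit 78) (PT.lf (nat_lit 5624) (nat_lit 6) (nat_lit 74) (nat_lit 2) (nat_lit 231) (nat_lit 235) (nat_lit 104)) (PT.lf (nat_lit 5472) (nat_lit 6) (nat_lit 72) (nat_lit 2) (nat_lit 232) (nat_lit 235) (nat_lit 103))) (PT.nd (nat_lit 78) (PT.lf (nat_lit 5244) (nat_lit 6) (nat_lit 69) (nat_lit 2) (nat_lit 233) (nat_lit 235) (nat_lit 102)) (PT.nd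 (nat_lit 78) (PT.lf (nat_lit 5092) (nat_lit 6) (nat_lit 67) (nat_lit 2) (nat_lit 234) (nat_lit 235) (nat_lit 101)) (PT.lf (nat_lit 4864) (nat_lit 3) (nat_lit 64) (nat_lit 0) (nat_lit 235) (nat_lit 235) (nat_lit 100)))))) (PT.nd (nat_lit 48282) (PT.nd (nat_lit 156) (PT.nd (nat_lit 78) (PT.lf (nat_lit 4636) (nat_lit 6) (nat_lit 61) (nat_lit 0) (nat_lit 236) (nat_lit 235) (nat_lit 99)) (PT.lf (nat_lit 4332) (nat_lit 6) (nat_lit 57) (nat_lit 0) (nat_lit 237) (nat_lit 235) (nat_lit 98))) (PT.nd (nat_lit 78) (PT.lf (nat_lit 4104) (nat_lit 6) (nat_lit 54) (nat_lit 0) (nat_lit 238) (nat_lit 235) (nat_lit 97)) (PT.lf (nat_lit 3800) (nat_lit 6) (nat_lit 50) (nat_lit 0) (nat_lit 239) (nat_lit 235) (nat_lit 96)))) (PT.nd (nat_lit 156) (PT.nd (nat_lit 78) (PT.lf (nat_lit 3344) (nat_lit 6) (nat_lit 44) (nat_lit 5) (nat_lit 94) (nat_lit 236) (nat_lit 240)) (PT.lf (nat_lit 3648) (nat_lit 6) (nat_lit 48) (nat_lit 5) (nat_lit 95) (nat_lit 236) (nat_lit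 239))) (PT.nd (nat_lit 78) (PT.lf (nat_lit 3876) (nat_lit 6) (nat_lit 51) (nat_lit 5) (nat_lit 96) (nat_lit 236) (nat_lit 238)) (PT.nd (nat_lit 78) (PT.lf (nat_lit 4180) (nat_lit 6) (nat_lit 55) (nat_lit 5) (nat_lit 97) (nat_lit 236) (nat_lit 237)) (PT.lf (nat_lit 4408) (nat_lit 3) (nat_lit 58) (nat_lit 4) (nat_lit 98) (nat_lit 236) (nat_lit 236))))))) (PT.nd (nat_lit 10608) (PT.nd (nat_lit 312) (PT.nd (nat_lit 156) (PT.nd (nat_lit 78) (PT.lf (nat_lit 4636) (nat_lit 6) (nat_lit 61) (nat_lit 4) (nat_lit 99) (nat_lit 236) (nat_lit 235)) (PT.lf (nat_lit 4788) (nat_lit 6) (nat_lit 63) (nat_lit 4) (nat_lit 100) (nat_lit 236) (nat_lit 234))) (PT.nd (nat_lit 78) (PT.lf (nat_lit 5016) (nat_lit 6) (nat_lit 66) (nat_lit 4) (nat_lit 101) (nat_lit 236) (nat_lit 233)) (PT.lf (nat_lit 5168) (nat_lit 6) (nat_lit 68) (nat_lit 4) (nat_lit 102) (nat_lit 236) (nat_lit 232)))) (PT.nd (nat_lit 10062) (PT.nd (nat_lit 9984) (PT.lf (nat_lit 5396) (nat_lit 6)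 (nat_lit 71) (nat_lit 4) (nat_lit 103) (nat_lit 236) (nat_lit 231)) (PT.lf (nat_lit 5396) (nat_lit 6) (nat_lit 71) (nat_lit 2) (nat_lit 231) (nat_lit 236) (nat_lit 103))) (PT.nd (nat_lit 78) (PT.lf (nat_lit 5168) (nat_lit 6) (nat_lit 68) (nat_lit 2) (nat_lit 232) (nat_lit 236) (nat_lit 102)) (PT.nd (nat_lit 78) (PT.lf (nat_lit 5016) (nat_lit 6) (nat_lit 66) (nat_lit 2) (nat_lit 233) (nat_lit 236) (nat_lit 101)) (PT.lf (nat_lit 4788) (nat_lit 6) (nat_lit 63) (nat_lit 2) (nat_lit 234) (nat_lit 236) (nat_lit 100)))))) (PT.nd (nat_lit 312) (PT.nd (nat_lit 156) (PT.nd (nat_lit 78) (PT.lf (nat_lit 4636) (nat_lit 6) (nat_lit 61) (nat_lit 2) (nat_lit 235) (nat_lit 236) (nat_lit 99)) (PT.lf (nat_lit 4408) (nat_lit 3) (nat_lit 58) (nat_lit 0) (nat_lit 236) (nat_lit 236) (nat_lit 98))) (PT.nd (nat_lit 78) (PT.lf (nat_lit 4180) (nat_lit 6) (nat_lit 55) (nat_lit 0) (nat_lit 237) (nat_lit 236) (nat_lit 97)) (PT.lf (nat_lit 3876) (nat_lit 6) (nat_lit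 51) (nat_lit 0) (nat_lit 238) (nat_lit 236) (nat_lit 96)))) (PT.nd (nat_lit 47892) (PT.nd (nat_lit 78) (PT.lf (nat_lit 3648) (nat_lit 6) (nat_lit 48) (nat_lit 0) (nat_lit 239) (nat_lit 236) (nat_lit 95)) (PT.lf (nat_lit 3344) (nat_lit 6) (nat_lit 44) (nat_lit 0) (nat_lit 240) (nat_lit 236) (nat_lit 94))) (PT.nd (nat_lit 78) (PT.lf (nat_lit 2964) (nat_lit 6) (nat_lit 39) (nat_lit 5) (nat_lit 92) (nat_lit 237) (nat_lit 241)) (PT.nd (nat_lit 78) (PT.lf (nat_lit 3192) (nat_lit 6) (nat_lit 42) (nat_lit 5) (nat_lit 93) (nat_lit 237) (nat_lit 240)) (PT.lf (nat_lit 3420) (nat_lit 6) (nat_lit 45) (nat_lit 5) (nat_lit 94) (nat_lit 237) (nat_lit 239))))))))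
noncomputable def pc124 : PT := (PT.nd (nat_lit 58968) (PT.nd (nat_lit 10764) (PT.nd (nat_lit 312) (PT.nd (nat_lit 156) (PT.nd (nat_lit 78) (PT.lf (nat_lit 3724) (nat_lit 6) (nat_lit 49) (nat_lit 5) (nat_lit 95) (nat_lit 237) (nat_lit 238)) (PT.lf (nat_lit 3952) (nat_lit 3) (nat_lit 52) (nat_lit 4) (nat_lit 96) (nat_lit 237) (nat_lit 237))) (PT.nd (nat_lit 78) (PT.lf (nat_lit 4180) (nat_lit 6) (nat_lit 55) (nat_lit 4) (nat_lit 97) (nat_lit 237) (nat_lit 236)) (PT.lf (nat_lit 4332) (nat_lit 6) (nat_lit 57) (nat_lit 4) (nat_lit 98) (nat_lit 237) (nat_lit 235)))) (PT.nd (nat_lit 156) (PT.nd (nat_lit 78) (PT.lf (nat_lit 4560) (nat_lit 6) (nat_lit 60) (nat_lit 4) (nat_lit 99) (nat_lit 237) (nat_lit 234)) (PT.lf (nat_lit 4712) (nat_lit 6) (nat_lit 62) (nat_lit 4) (nat_lit 100) (nat_lit 237) (nat_lit 233))) (PT.nd (nat_lit 10218) (PT.lf (nat_lit 4940) (nat_lit 6) (nat_lit 65) (nat_lit 4) (nat_lit 101) (nat_lit 237) (nat_lit 232)) (PT.lf (nat_lit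 4940) (nat_lit 6) (nat_lit 65) (nat_lit 2) (nat_lit 232) (nat_lit 237) (nat_lit 101))))) (PT.nd (nat_lit 312) (PT.nd (nat_lit 156) (PT.nd (nat_lit 78) (PT.lf (nat_lit 4712) (nat_lit 6) (nat_lit 62) (nat_lit 2) (nat_lit 233) (nat_lit 237) (nat_lit 100)) (PT.lf (nat_lit 4560) (nat_lit 6) (nat_lit 60) (nat_lit 2) (nat_lit 234) (nat_lit 237) (nat_lit 99))) (PT.nd (nat_lit 78) (PT.lf (nat_lit 4332) (nat_lit 6) (nat_lit 57) (nat_lit 2) (nat_lit 235) (nat_lit 237) (nat_lit 98)) (PT.lf (nat_lit 4180) (nat_lit 6) (nat_lit 55) (nat_lit 2) (nat_lit 236) (nat_lit 237) (nat_lit 97)))) (PT.nd (nat_lit 156) (PT.nd (nat_lit 78) (PT.lf (nat_lit 3952) (nat_lit 3) (nat_lit 52) (nat_lit 0) (nat_lit 237) (nat_lit 237) (nat_lit 96)) (PT.lf (nat_lit 3724) (nat_lit 6) (nat_lit 49) (nat_lit 0) (nat_lit 238) (nat_lit 237) (nat_lit 95))) (PT.nd (nat_lit 78) (PT.lf (nat_lit 3420) (nat_lit 6) (nat_lit 45) (nat_lit 0) (nat_lit 239) (nat_lit 237) (nat_lit 94)) (PT.nd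 (nat_lit 78) (PT.lf (nat_lit 3192) (nat_lit 6) (nat_lit 42) (nat_lit 0) (nat_lit 240) (nat_lit 237) (nat_lit 93)) (PT.lf (nat_lit 2964) (nat_lit 6) (nat_lit 39) (nat_lit 0) (nat_lit 241) (nat_lit 237) (nat_lit 92))))))) (PT.nd (nat_lit 702) (PT.nd (nat_lit 312) (PT.nd (nat_lit 156) (PT.nd (nat_lit 78) (PT.lf (nat_lit 2584) (nat_lit 6) (nat_lit 34) (nat_lit 5) (nat_lit 90) (nat_lit 238) (nat_lit 242)) (PT.lf (nat_lit 2812) (nat_lit 6) (nat_lit 37) (nat_lit 5) (nat_lit 91) (nat_lit 238) (nat_lit 241))) (PT.nd (nat_lit 78) (PT.lf (nat_lit 3040) (nat_lit 6) (nat_lit 40) (nat_lit 5) (nat_lit 92) (nat_lit 238) (nat_lit 240)) (PT.lf (nat_lit 3268) (nat_lit 6) (nat_lit 43) (nat_lit 5) (nat_lit 93) (nat_lit 238) (nat_lit 239)))) (PT.nd (nat_lit 156) (PT.nd (nat_lit 78) (PT.lf (nat_lit 3496) (nat_lit 3) (nat_lit 46) (nat_lit 4) (nat_lit 94) (nat_lit 238) (nat_lit 238)) (PT.lf (nat_lit 3724) (nat_lit 6) (nat_lit 49) (nat_lit 4) (nat_lit 95) (nat_lit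 238) (nat_lit 237))) (PT.nd (nat_lit 78) (PT.lf (nat_lit 3876) (nat_lit 6) (nat_lit 51) (nat_lit 4) (nat_lit 96) (nat_lit 238) (nat_lit 236)) (PT.nd (nat_lit 78) (PT.lf (nat_lit 4104) (nat_lit 6) (nat_lit 54) (nat_lit 4) (nat_lit 97) (nat_lit 238) (nat_lit 235)) (PT.lf (nat_lit 4256) (nat_lit 6) (nat_lit 56) (nat_lit 4) (nat_lit 98) (nat_lit 238) (nat_lit 234)))))) (PT.nd (nat_lit 10686) (PT.nd (nat_lit 10530) (PT.nd (nat_lit 10452) (PT.lf (nat_lit 4484) (nat_lit 6) (nat_lit 59) (nat_lit 4) (nat_lit 99) (nat_lit 238) (nat_lit 233)) (PT.lf (nat_lit 4484) (nat_lit 6) (nat_lit 59) (nat_lit 2) (nat_lit 233) (nat_lit 238) (nat_lit 99))) (PT.nd (nat_lit 78) (PT.lf (nat_lit 4256) (nat_lit 6) (nat_lit 56) (nat_lit 2) (nat_lit 234) (nat_lit 238) (nat_lit 98)) (PT.lf (nat_lit 4104) (nat_lit 6) (nat_lit 54) (nat_lit 2) (nat_lit 235) (nat_lit 238) (nat_lit 97)))) (PT.nd (nat_lit 156) (PT.nd (nat_lit 78) (PT.lf (nat_lit 3876) (nat_lit 6) (nat_lit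 51) (nat_lit 2) (nat_lit 236) (nat_lit 238) (nat_lit 96)) (PT.lf (nat_lit 3724) (nat_lit 6) (nat_lit 49) (nat_lit 2) (nat_lit 237) (nat_lit 238) (nat_lit 95))) (PT.nd (nat_lit 78) (PT.lf (nat_lit 3496) (nat_lit 3) (nat_lit 46) (nat_lit 0) (nat_lit 238) (nat_lit 238) (nat_lit 94)) (PT.nd (nat_lit 78) (PT.lf (nat_lit 3268) (nat_lit 6) (nat_lit 43) (nat_lit 0) (nat_lit 239) (nat_lit 238) (nat_lit 93)) (PT.lf (nat_lit 3040) (nat_lit 6) (nat_lit 40) (nat_lit 0) (nat_lit 240) (nat_lit 238) (nat_lit 92))))))))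
noncomputable def pc125 : PT := (PT.nd (nat_lit 59358) (PT.nd (nat_lit 48048) (PT.nd (nat_lit 47658) (PT.nd (nat_lit 47502) (PT.nd (nat_lit 78) (PT.lf (nat_lit 2812) (nat_lit 6) (nat_lit 37) (nat_lit 0) (nat_lit 241) (nat_lit 238) (nat_lit 91)) (PT.lf (nat_lit 2584) (nat_lit 6) (nat_lit 34) (nat_lit 0) (nat_lit 242) (nat_lit 238) (nat_lit 90))) (PT.nd (nat_lit 78) (PT.lf (nat_lit 2432) (nat_lit 6) (nat_lit 32) (nat_lit 5) (nat_lit 89) (nat_lit 239) (nat_lit 242)) (PT.lf (nat_lit 2660) (nat_lit 6) (nat_lit 35) (nat_lit 5) (nat_lit 90) (nat_lit 239) (nat_lit 241)))) (PT.nd (nat_lit 156) (PT.nd (nat_lit 78) (PT.lf (nat_lit 2888) (nat_lit 6) (nat_lit 38) (nat_lit 5) (nat_lit 91) (nat_lit 239) (nat_lit 240)) (PT.lf (nat_lit 3116) (nat_lit 3) (nat_lit 41) (nat_lit 4) (nat_lit 92) (nat_lit 239) (nat_lit 239))) (PT.nd (nat_lit 78) (PT.lf (nat_lit 3268) (nat_lit 6) (nat_lit 43) (nat_lit 4) (nat_lit 93) (nat_lit 239) (nat_lit 238)) (PT.nd (nat_lit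 78) (PT.lf (nat_lit 3420) (nat_lit 6) (nat_lit 45) (nat_lit 4) (nat_lit 94) (nat_lit 239) (nat_lit 237)) (PT.lf (nat_lit 3648) (nat_lit 6) (nat_lit 48) (nat_lit 4) (nat_lit 95) (nat_lit 239) (nat_lit 236)))))) (PT.nd (nat_lit 10920) (PT.nd (nat_lit 10764) (PT.nd (nat_lit 78) (PT.lf (nat_lit 3800) (nat_lit 6) (nat_lit 50) (nat_lit 4) (nat_lit 96) (nat_lit 239) (nat_lit 235)) (PT.lf (nat_lit 4028) (nat_lit 6) (nat_lit 53) (nat_lit 4) (nat_lit 97) (nat_lit 239) (nat_lit 234))) (PT.nd (nat_lit 78) (PT.lf (nat_lit 4028) (nat_lit 6) (nat_lit 53) (nat_lit 2) (nat_lit 234) (nat_lit 239) (nat_lit 97)) (PT.lf (nat_lit 3800) (nat_lit 6) (nat_lit 50) (nat_lit 2) (nat_lit 235) (nat_lit 239) (nat_lit 96)))) (PT.nd (nat_lit 156) (PT.nd (nat_lit 78) (PT.lf (nat_lit 3648) (nat_lit 6) (nat_lit 48) (nat_lit 2) (nat_lit 236) (nat_lit 239) (nat_lit 95)) (PT.lf (nat_lit 3420) (nat_lit 6) (nat_lit 45) (nat_lit 2) (nat_lit 237) (nat_lit 239) (nat_lit 94))) (PT.nd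 (nat_lit 78) (PT.lf (nat_lit 3268) (nat_lit 6) (nat_lit 43) (nat_lit 2) (nat_lit 238) (nat_lit 239) (nat_lit 93)) (PT.nd (nat_lit 78) (PT.lf (nat_lit 3116) (nat_lit 3) (nat_lit 41) (nat_lit 0) (nat_lit 239) (nat_lit 239) (nat_lit 92)) (PT.lf (nat_lit 2888) (nat_lit 6) (nat_lit 38) (nat_lit 0) (nat_lit 240) (nat_lit 239) (nat_lit 91))))))) (PT.nd (nat_lit 47892) (PT.nd (nat_lit 47502) (PT.nd (nat_lit 47346) (PT.nd (nat_lit 78) (PT.lf (nat_lit 2660) (nat_lit 6) (nat_lit 35) (nat_lit 0) (nat_lit 241) (nat_lit 239) (nat_lit 90)) (PT.lf (nat_lit 2432) (nat_lit 6) (nat_lit 32) (nat_lit 0) (nat_lit 242) (nat_lit 239) (nat_lit 89))) (PT.nd (nat_lit 78) (PT.lf (nat_lit 2052) (nat_lit 6) (nat_lit 27) (nat_lit 5) (nat_lit 87) (nat_lit 240) (nat_lit 243)) (PT.lf (nat_lit 2280) (nat_lit 6) (nat_lit 30) (nat_lit 5) (nat_lit 88) (nat_lit 240) (nat_lit 242)))) (PT.nd (nat_lit 156) (PT.nd (nat_lit 78) (PT.lf (nat_lit 2508) (nat_lit 6) (nat_lit 33) (nat_lit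 5) (nat_lit 89) (nat_lit 240) (nat_lit 241)) (PT.lf (nat_lit 2736) (nat_lit 3) (nat_lit 36) (nat_lit 4) (nat_lit 90) (nat_lit 240) (nat_lit 240))) (PT.nd (nat_lit 78) (PT.lf (nat_lit 2888) (nat_lit 6) (nat_lit 38) (nat_lit 4) (nat_lit 91) (nat_lit 240) (nat_lit 239)) (PT.nd (nat_lit 78) (PT.lf (nat_lit 3040) (nat_lit 6) (nat_lit 40) (nat_lit 4) (nat_lit 92) (nat_lit 240) (nat_lit 238)) (PT.lf (nat_lit 3192) (nat_lit 6) (nat_lit 42) (nat_lit 4) (nat_lit 93) (nat_lit 240) (nat_lit 237)))))) (PT.nd (nat_lit 11310) (PT.nd (nat_lit 11154) (PT.nd (nat_lit 11076) (PT.lf (nat_lit 3344) (nat_lit 6) (nat_lit 44) (nat_lit 4) (nat_lit 94) (nat_lit 240) (nat_lit 236)) (PT.lf (nat_lit 3344) (nat_lit 6) (nat_lit 44) (nat_lit 2) (nat_lit 236) (nat_lit 240) (nat_lit 94))) (PT.nd (nat_lit 78) (PT.lf (nat_lit 3192) (nat_lit 6) (nat_lit 42) (nat_lit 2) (nat_lit 237) (nat_lit 240) (nat_lit 93)) (PT.lf (nat_lit 3040) (nat_lit 6) (nat_lit 40) (nat_lit 2) (nat_lit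 238) (nat_lit 240) (nat_lit 92)))) (PT.nd (nat_lit 156) (PT.nd (nat_lit 78) (PT.lf (nat_lit 2888) (nat_lit 6) (nat_lit 38) (nat_lit 2) (nat_lit 239) (nat_lit 240) (nat_lit 91)) (PT.lf (nat_lit 2736) (nat_lit 3) (nat_lit 36) (nat_lit 0) (nat_lit 240) (nat_lit 240) (nat_lit 90))) (PT.nd (nat_lit 78) (PT.lf (nat_lit 2508) (nat_lit 6) (nat_lit 33) (nat_lit 0) (nat_lit 241) (nat_lit 240) (nat_lit 89)) (PT.nd (nat_lit 78) (PT.lf (nat_lit 2280) (nat_lit 6) (nat_lit 30) (nat_lit 0) (nat_lit 242) (nat_lit 240) (nat_lit 88)) (PT.lf (nat_lit 2052) (nat_lit 6) (nat_lit 27) (nat_lit 0) (nat_lit 243) (nat_lit 240) (nat_lit 87))))))))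
noncomputable def pc126 : PT := (PT.nd (nat_lit 59358) (PT.nd (nat_lit 11934) (PT.nd (nat_lit 312) (PT.nd (nat_lit 156) (PT.nd (nat_lit 78) (PT.lf (nat_lit 1672) (nat_lit 6) (nat_lit 22) (nat_lit 5) (nat_lit 85) (nat_lit 241) (nat_lit 244)) (PT.lf (nat_lit 1900) (nat_lit 6) (nat_lit 25) (nat_lit 5) (nat_lit 86) (nat_lit 241) (nat_lit 243))) (PT.nd (nat_lit 78) (PT.lf (nat_lit 2128) (nat_lit 6) (nat_lit 28) (nat_lit 5) (nat_lit 87) (nat_lit 241) (nat_lit 242)) (PT.lf (nat_lit 2356) (nat_lit 3) (nat_lit 31) (nat_lit 4) (nat_lit 88) (nat_lit 241) (nat_lit 241)))) (PT.nd (nat_lit 156) (PT.nd (nat_lit 78) (PT.lf (nat_lit 2508) (nat_lit 6) (nat_lit 33) (nat_lit 4) (nat_lit 89) (nat_lit 241) (nat_lit 240)) (PT.lf (nat_lit 2660) (nat_lit 6) (nat_lit 35) (nat_lit 4) (nat_lit 90) (nat_lit 241) (nat_lit 239))) (PT.nd (nat_lit 78) (PT.lf (nat_lit 2812) (nat_lit 6) (nat_lit 37) (nat_lit 4) (nat_lit 91) (nat_lit 241) (nat_lit 238)) (PT.nd (nat_lit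 11310) (PT.lf (nat_lit 2964) (nat_lit 6) (nat_lit 39) (nat_lit 4) (nat_lit 92) (nat_lit 241) (nat_lit 237)) (PT.lf (nat_lit 2964) (nat_lit 6) (nat_lit 39) (nat_lit 2) (nat_lit 237) (nat_lit 241) (nat_lit 92)))))) (PT.nd (nat_lit 312) (PT.nd (nat_lit 156) (PT.nd (nat_lit 78) (PT.lf (nat_lit 2812) (nat_lit 6) (nat_lit 37) (nat_lit 2) (nat_lit 238) (nat_lit 241) (nat_lit 91)) (PT.lf (nat_lit 2660) (nat_lit 6) (nat_lit 35) (nat_lit 2) (nat_lit 239) (nat_lit 241) (nat_lit 90))) (PT.nd (nat_lit 78) (PT.lf (nat_lit 2508) (nat_lit 6) (nat_lit 33) (nat_lit 2) (nat_lit 240) (nat_lit 241) (nat_lit 89)) (PT.lf (nat_lit 2356) (nat_lit 3) (nat_lit 31) (nat_lit 0) (nat_lit 241) (nat_lit 241) (nat_lit 88)))) (PT.nd (nat_lit 156) (PT.nd (nat_lit 78) (PT.lf (nat_lit 2128) (nat_lit 6) (nat_lit 28) (nat_lit 0) (nat_lit 242) (nat_lit 241) (nat_lit 87)) (PT.lf (nat_lit 1900) (nat_lit 6) (nat_lit 25) (nat_lit 0) (nat_lit 243) (nat_lit 241) (nat_lit 86))) (PT.nd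 (nat_lit 46800) (PT.lf (nat_lit 1672) (nat_lit 6) (nat_lit 22) (nat_lit 0) (nat_lit 244) (nat_lit 241) (nat_lit 85)) (PT.nd (nat_lit 78) (PT.lf (nat_lit 1368) (nat_lit 6) (nat_lit 18) (nat_lit 5) (nat_lit 83) (nat_lit 242) (nat_lit 245)) (PT.lf (nat_lit 1520) (nat_lit 6) (nat_lit 20) (nat_lit 5) (nat_lit 84) (nat_lit 242) (nat_lit 244))))))) (PT.nd (nat_lit 12168) (PT.nd (nat_lit 312) (PT.nd (nat_lit 156) (PT.nd (nat_lit 78) (PT.lf (nat_lit 1748) (nat_lit 6) (nat_lit 23) (nat_lit 5) (nat_lit 85) (nat_lit 242) (nat_lit 243)) (PT.lf (nat_lit 1976) (nat_lit 3) (nat_lit 26) (nat_lit 4) (nat_lit 86) (nat_lit 242) (nat_lit 242))) (PT.nd (nat_lit 78) (PT.lf (nat_lit 2128) (nat_lit 6) (nat_lit 28) (nat_lit 4) (nat_lit 87) (nat_lit 242) (nat_lit 241)) (PT.lf (nat_lit 2280) (nat_lit 6) (nat_lit 30) (nat_lit 4) (nat_lit 88) (nat_lit 242) (nat_lit 240)))) (PT.nd (nat_lit 11622) (PT.nd (nat_lit 78) (PT.lf (nat_lit 2432) (nat_lit 6) (nat_lit 32) (nat_lit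 4) (nat_lit 89) (nat_lit 242) (nat_lit 239)) (PT.lf (nat_lit 2584) (nat_lit 6) (nat_lit 34) (nat_lit 4) (nat_lit 90) (nat_lit 242) (nat_lit 238))) (PT.nd (nat_lit 78) (PT.lf (nat_lit 2584) (nat_lit 6) (nat_lit 34) (nat_lit 2) (nat_lit 238) (nat_lit 242) (nat_lit 90)) (PT.nd (nat_lit 78) (PT.lf (nat_lit 2432) (nat_lit 6) (nat_lit 32) (nat_lit 2) (nat_lit 239) (nat_lit 242) (nat_lit 89)) (PT.lf (nat_lit 2280) (nat_lit 6) (nat_lit 30) (nat_lit 2) (nat_lit 240) (nat_lit 242) (nat_lit 88)))))) (PT.nd (nat_lit 312) (PT.nd (nat_lit 156) (PT.nd (nat_lit 78) (PT.lf (nat_lit 2128) (nat_lit 6) (nat_lit 28) (nat_lit 2) (nat_lit 241) (nat_lit 242) (nat_lit 87)) (PT.lf (nat_lit 1976) (nat_lit 3) (nat_lit 26) (nat_lit 0) (nat_lit 242) (nat_lit 242) (nat_lit 86))) (PT.nd (nat_lit 78) (PT.lf (nat_lit 1748) (nat_lit 6) (nat_lit 23) (nat_lit 0) (nat_lit 243) (nat_lit 242) (nat_lit 85)) (PT.lf (nat_lit 1520) (nat_lit 6) (nat_lit 20) (nat_lit 0) (nat_lit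 244) (nat_lit 242) (nat_lit 84)))) (PT.nd (nat_lit 46722) (PT.nd (nat_lit 46644) (PT.lf (nat_lit 1368) (nat_lit 6) (nat_lit 18) (nat_lit 0) (nat_lit 245) (nat_lit 242) (nat_lit 83)) (PT.lf (nat_lit 1216) (nat_lit 6) (nat_lit 16) (nat_lit 5) (nat_lit 82) (nat_lit 243) (nat_lit 245))) (PT.nd (nat_lit 78) (PT.lf (nat_lit 1444) (nat_lit 6) (nat_lit 19) (nat_lit 5) (nat_lit 83) (nat_lit 243) (nat_lit 244)) (PT.nd (nat_lit 78) (PT.lf (nat_lit 1596) (nat_lit 3) (nat_lit 21) (nat_lit 4) (nat_lit 84) (nat_lit 243) (nat_lit 243)) (PT.lf (nat_lit 1748) (nat_lit 6) (nat_lit 23) (nat_lit 4) (nat_lit 85) (nat_lit 243) (nat_lit 242))))))))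
noncomputable def pc127 : PT := (PT.nd (nat_lit 71760) (PT.nd (nat_lit 58968) (PT.nd (nat_lit 12168) (PT.nd (nat_lit 12012) (PT.nd (nat_lit 78) (PT.lf (nat_lit 1900) (nat_lit 6) (nat_lit 25) (nat_lit 4) (nat_lit 86) (nat_lit 243) (nat_lit 241)) (PT.lf (nat_lit 2052) (nat_lit 6) (nat_lit 27) (nat_lit 4) (nat_lit 87) (nat_lit 243) (nat_lit 240))) (PT.nd (nat_lit 78) (PT.lf (nat_lit 2052) (nat_lit 6) (nat_lit 27) (nat_lit 2) (nat_lit 240) (nat_lit 243) (nat_lit 87)) (PT.lf (nat_lit 1900) (nat_lit 6) (nat_lit 25) (nat_lit 2) (nat_lit 241) (nat_lit 243) (nat_lit 86)))) (PT.nd (nat_lit 156) (PT.nd (nat_lit 78) (PT.lf (nat_lit 1748) (nat_lit 6) (nat_lit 23) (nat_lit 2) (nat_lit 242) (nat_lit 243) (nat_lit 85)) (PT.lf (nat_lit 1596) (nat_lit 3) (nat_lit 21) (nat_lit 0) (nat_lit 243) (nat_lit 243) (nat_lit 84))) (PT.nd (nat_lit 78) (PT.lf (nat_lit 1444) (nat_lit 6) (nat_lit 19) (nat_lit 0) (nat_lit 244) (nat_lit 243) (nat_lit 83)) (PT.nd (nat_lit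 46488) (PT.lf (nat_lit 1216) (nat_lit 6) (nat_lit 16) (nat_lit 0) (nat_lit 245) (nat_lit 243) (nat_lit 82)) (PT.lf (nat_lit 912) (nat_lit 6) (nat_lit 12) (nat_lit 5) (nat_lit 80) (nat_lit 244) (nat_lit 246)))))) (PT.nd (nat_lit 312) (PT.nd (nat_lit 156) (PT.nd (nat_lit 78) (PT.lf (nat_lit 1140) (nat_lit 6) (nat_lit 15) (nat_lit 5) (nat_lit 81) (nat_lit 244) (nat_lit 245)) (PT.lf (nat_lit 1292) (nat_lit 3) (nat_lit 17) (nat_lit 4) (nat_lit 82) (nat_lit 244) (nat_lit 244))) (PT.nd (nat_lit 78) (PT.lf (nat_lit 1444) (nat_lit 6) (nat_lit 19) (nat_lit 4) (nat_lit 83) (nat_lit 244) (nat_lit 243)) (PT.lf (nat_lit 1520) (nat_lit 6) (nat_lit 20) (nat_lit 4) (nat_lit 84) (nat_lit 244) (nat_lit 242)))) (PT.nd (nat_lit 12246) (PT.nd (nat_lit 12168) (PT.lf (nat_lit 1672) (nat_lit 6) (nat_lit 22) (nat_lit 4) (nat_lit 85) (nat_lit 244) (nat_lit 241)) (PT.lf (nat_lit 1672) (nat_lit 6) (nat_lit 22) (nat_lit 2) (nat_lit 241) (nat_lit 244) (nat_lit 85)))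 (PT.nd (nat_lit 78) (PT.lf (nat_lit 1520) (nat_lit 6) (nat_lit 20) (nat_lit 2) (nat_lit 242) (nat_lit 244) (nat_lit 84)) (PT.nd (nat_lit 78) (PT.lf (nat_lit 1444) (nat_lit 6) (nat_lit 19) (nat_lit 2) (nat_lit 243) (nat_lit 244) (nat_lit 83)) (PT.lf (nat_lit 1292) (nat_lit 3) (nat_lit 17) (nat_lit 0) (nat_lit 244) (nat_lit 244) (nat_lit 82))))))) (PT.nd (nat_lit 59280) (PT.nd (nat_lit 46566) (PT.nd (nat_lit 46410) (PT.nd (nat_lit 78) (PT.lf (nat_lit 1140) (nat_lit 6) (nat_lit 15) (nat_lit 0) (nat_lit 245) (nat_lit 244) (nat_lit 81)) (PT.lf (nat_lit 912) (nat_lit 6) (nat_lit 12) (nat_lit 0) (nat_lit 246) (nat_lit 244) (nat_lit 80))) (PT.nd (nat_lit 78) (PT.lf (nat_lit 836) (nat_lit 6) (nat_lit 11) (nat_lit 5) (nat_lit 79) (nat_lit 245) (nat_lit 246)) (PT.lf (nat_lit 988) (nat_lit 3) (nat_lit 13) (nat_lit 4) (nat_lit 80) (nat_lit 245) (nat_lit 245)))) (PT.nd (nat_lit 156) (PT.nd (nat_lit 78) (PT.lf (nat_lit 1140) (nat_lit 6) (nat_lit 15)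 (nat_lit 4) (nat_lit 81) (nat_lit 245) (nat_lit 244)) (PT.lf (nat_lit 1216) (nat_lit 6) (nat_lit 16) (nat_lit 4) (nat_lit 82) (nat_lit 245) (nat_lit 243))) (PT.nd (nat_lit 12402) (PT.lf (nat_lit 1368) (nat_lit 6) (nat_lit 18) (nat_lit 4) (nat_lit 83) (nat_lit 245) (nat_lit 242)) (PT.nd (nat_lit 78) (PT.lf (nat_lit 1368) (nat_lit 6) (nat_lit 18) (nat_lit 2) (nat_lit 242) (nat_lit 245) (nat_lit 83)) (PT.lf (nat_lit 1216) (nat_lit 6) (nat_lit 16) (nat_lit 2) (nat_lit 243) (nat_lit 245) (nat_lit 82)))))) (PT.nd (nat_lit 46488) (PT.nd (nat_lit 156) (PT.nd (nat_lit 78) (PT.lf (nat_lit 1140) (nat_lit 6) (nat_lit 15) (nat_lit 2) (nat_lit 244) (nat_lit 245) (nat_lit 81)) (PT.lf (nat_lit 988) (nat_lit 3) (nat_lit 13) (nat_lit 0) (nat_lit 245) (nat_lit 245) (nat_lit 80))) (PT.nd (nat_lit 46254) (PT.lf (nat_lit 836) (nat_lit 6) (nat_lit 11) (nat_lit 0) (nat_lit 246) (nat_lit 245) (nat_lit 79)) (PT.lf (nat_lit 760) (nat_lit 3) (nat_lit 10) (nat_lit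 4) (nat_lit 78) (nat_lit 246) (nat_lit 246)))) (PT.nd (nat_lit 12870) (PT.nd (nat_lit 78) (PT.lf (nat_lit 836) (nat_lit 6) (nat_lit 11) (nat_lit 4) (nat_lit 79) (nat_lit 246) (nat_lit 245)) (PT.lf (nat_lit 912) (nat_lit 6) (nat_lit 12) (nat_lit 4) (nat_lit 80) (nat_lit 246) (nat_lit 244))) (PT.nd (nat_lit 78) (PT.lf (nat_lit 912) (nat_lit 6) (nat_lit 12) (nat_lit 2) (nat_lit 244) (nat_lit 246) (nat_lit 80)) (PT.nd (nat_lit 78) (PT.lf (nat_lit 836) (nat_lit 6) (nat_lit 11) (nat_lit 2) (nat_lit 245) (nat_lit 246) (nat_lit 79)) (PT.lf (nat_lit 760) (nat_lit 3) (nat_lit 10) (nat_lit 0) (nat_lit 246) (nat_lit 246) (nat_lit 78))))))))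
noncomputable def xc0 : XT := (XT.nd (nat_lit 236730) (nat_lit 0) (nat_lit 0) (XT.nd (nat_lit 118716) (nat_lit 0) (nat_lit 0) (XT.nd (nat_lit 118248) (nat_lit 0) (nat_lit 304) (XT.nd (nat_lit 59124) (nat_lit 0) (nat_lit 0) (XT.nd (nat_lit 59046) (nat_lit 0) (nat_lit 608) (XT.lf (nat_lit 0) (nat_lit 4848470607) (nat_lit 152) (nat_lit 5469013168) (nat_lit 152) (nat_lit 4876426726) (nat_lit 13) (nat_lit 4) (nat_lit 15) (nat_lit 5) (nat_lit 15) (nat_lit 4) (nat_lit 512) (nat_lit 315) (nat_lit 313)) (XT.lf (nat_lit 0) (nat_lit 2986092648) (nat_lit 152) (nat_lit 2163651833) (nat_lit 152) (nat_lit 2163651833) (nat_lit 21) (nat_lit 4) (nat_lit 23) (nat_lit 5) (nat_lit 23) (nat_lit 4) (nat_lit 508) (nat_lit 316) (nat_lit 316))) (XT.nd (nat_lit 78) (nat_lit 456) (nat_lit 0) (XT.lf (nat_lit 0) (nat_lit 3001703477) (nat_lit 152) (nat_lit 9074306129) (nat_lit 0) (nat_lit 2690387896) (nat_lit 19) (nat_lit 5) (nat_lit 21) (nat_lit 4) (nat_lit 19) (nat_lit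 4) (nat_lit 509) (nat_lit 316) (nat_lit 315)) (XT.nd (nat_lit 156) (nat_lit 304) (nat_lit 0) (XT.lf (nat_lit 0) (nat_lit 5355990260) (nat_lit 152) (nat_lit 5084171403) (nat_lit 152) (nat_lit 4467644469) (nat_lit 17) (nat_lit 4) (nat_lit 19) (nat_lit 5) (nat_lit 19) (nat_lit 4) (nat_lit 510) (nat_lit 316) (nat_lit 314)) (XT.lf (nat_lit 0) (nat_lit 4553413335) (nat_lit 152) (nat_lit 5914499046) (nat_lit 152) (nat_lit 4729093775) (nat_lit 13) (nat_lit 4) (nat_lit 15) (nat_lit 5) (nat_lit 15) (nat_lit 4) (nat_lit 512) (nat_lit 316) (nat_lit 312))))) (XT.nd (nat_lit 156) (nat_lit 456) (nat_lit 0) (XT.nd (nat_lit 78) (nat_lit 228) (nat_lit 0) (XT.lf (nat_lit 0) (nat_lit 3253608032) (nat_lit 152) (nat_lit 1961390905) (nat_lit 152) (nat_lit 1961390905) (nat_lit 26) (nat_lit 4) (nat_lit 28) (nat_lit 5) (nat_lit 28) (nat_lit 4) (nat_lit 506) (nat_lit 317) (nat_lit 317)) (XT.lf (nat_lit 0) (nat_lit 3270822236) (nat_lit 228) (nat_lit 8271604045)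 (nat_lit 0) (nat_lit 2946929506) (nat_lit 23) (nat_lit 5) (nat_lit 26) (nat_lit 4) (nat_lit 23) (nat_lit 4) (nat_lit 507) (nat_lit 317) (nat_lit 316))) (XT.nd (nat_lit 78) (nat_lit 304) (nat_lit 0) (XT.lf (nat_lit 0) (nat_lit 5877903091) (nat_lit 152) (nat_lit 4695660264) (nat_lit 152) (nat_lit 4054225642) (nat_lit 21) (nat_lit 4) (nat_lit 23) (nat_lit 5) (nat_lit 23) (nat_lit 4) (nat_lit 508) (nat_lit 317) (nat_lit 315)) (XT.nd (nat_lit 78) (nat_lit 152) (nat_lit 0) (XT.lf (nat_lit 0) (nat_lit 3218110834) (nat_lit 152) (nat_lit 9266267352) (nat_lit 0) (nat_lit 2284042007) (nat_lit 19) (nat_lit 5) (nat_lit 21) (nat_lit 4) (nat_lit 19) (nat_lit 4) (nat_lit 509) (nat_lit 317) (nat_lit 314)) (XT.lf (nat_lit 0) (nat_lit 5067072866) (nat_lit 152) (nat_lit 5538535408) (nat_lit 152) (nat_lit 4305239764) (nat_lit 17) (nat_lit 4) (nat_lit 19) (nat_lit 5) (nat_lit 19) (nat_lit 4) (nat_lit 510) (nat_lit 317) (nat_lit 313)))))) (XT.nd (nat_lit 59046)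 (nat_lit 0) (nat_lit 0) (XT.nd (nat_lit 58812) (nat_lit 0) (nat_lit 760) (XT.nd (nat_lit 58734) (nat_lit 0) (nat_lit 1368) (XT.lf (nat_lit 0) (nat_lit 4061522653) (nat_lit 152) (nat_lit 6459666621) (nat_lit 152) (nat_lit 4680977656) (nat_lit 13) (nat_lit 4) (nat_lit 15) (nat_lit 5) (nat_lit 15) (nat_lit 4) (nat_lit 512) (nat_lit 317) (nat_lit 311)) (XT.lf (nat_lit 0) (nat_lit 3529051093) (nat_lit 152) (nat_lit 1756638487) (nat_lit 152) (nat_lit 1756638487) (nat_lit 31) (nat_lit 4) (nat_lit 33) (nat_lit 5) (nat_lit 33) (nat_lit 4) (nat_lit 504) (nat_lit 318) (nat_lit 318))) (XT.nd (nat_lit 78) (nat_lit 380) (nat_lit 0) (XT.lf (nat_lit 0) (nat_lit 3547914374) (nat_lit 228) (nat_lit 7459400327) (nat_lit 0) (nat_lit 3210936378) (nat_lit 28) (nat_lit 5) (nat_lit 31) (nat_lit 4) (nat_lit 28) (nat_lit 4) (nat_lit 505) (nat_lit 318) (nat_lit 317)) (XT.nd (nat_lit 78) (nat_lit 228) (nat_lit 0) (XT.lf (nat_lit 0) (nat_lit 6414910400) (nat_lit 152)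 (nat_lit 4303098602) (nat_lit 152) (nat_lit 3635750021) (nat_lit 26) (nat_lit 4) (nat_lit 28) (nat_lit 5) (nat_lit 28) (nat_lit 4) (nat_lit 506) (nat_lit 318) (nat_lit 316)) (XT.lf (nat_lit 0) (nat_lit 3501796306) (nat_lit 228) (nat_lit 8459556312) (nat_lit 0) (nat_lit 2529991099) (nat_lit 23) (nat_lit 5) (nat_lit 26) (nat_lit 4) (nat_lit 23) (nat_lit 4) (nat_lit 507) (nat_lit 318) (nat_lit 315))))) (XT.nd (nat_lit 156) (nat_lit 456) (nat_lit 0) (XT.nd (nat_lit 78) (nat_lit 152) (nat_lit 0) (XT.lf (nat_lit 0) (nat_lit 5595019503) (nat_lit 152) (nat_lit 5159439886) (nat_lit 152) (nat_lit 3876319099) (nat_lit 21) (nat_lit 4) (nat_lit 23) (nat_lit 5) (nat_lit 23) (nat_lit 4) (nat_lit 508) (nat_lit 318) (nat_lit 314)) (XT.lf (nat_lit 0) (nat_lit 3339694833) (nat_lit 152) (nat_lit 9650265075) (nat_lit 0) (nat_lit 1782506459) (nat_lit 19) (nat_lit 5) (nat_lit 21) (nat_lit 4) (nat_lit 19) (nat_lit 4) (nat_lit 509) (nat_lit 318) (nat_lit 313)))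 (XT.nd (nat_lit 156) (nat_lit 304) (nat_lit 0) (XT.lf (nat_lit 0) (nat_lit 4585417986) (nat_lit 152) (nat_lit 6090524609) (nat_lit 152) (nat_lit 4239976610) (nat_lit 17) (nat_lit 4) (nat_lit 19) (nat_lit 5) (nat_lit 19) (nat_lit 4) (nat_lit 510) (nat_lit 318) (nat_lit 312)) (XT.nd (nat_lit 58578) (nat_lit 0) (nat_lit 1748) (XT.lf (nat_lit 0) (nat_lit 3372605660) (nat_lit 152) (nat_lit 7104729684) (nat_lit 152) (nat_lit 4732059501) (nat_lit 13) (nat_lit 4) (nat_lit 15) (nat_lit 5) (nat_lit 15) (nat_lit 4) (nat_lit 512) (nat_lit 318) (nat_lit 310)) (XT.lf (nat_lit 0) (nat_lit 3812798576) (nat_lit 152) (nat_lit 1549182554) (nat_lit 152) (nat_lit 1549182554) (nat_lit 36) (nat_lit 4) (nat_lit 38) (nat_lit 5) (nat_lit 38) (nat_lit 4) (nat_lit 502) (nat_lit 319) (nat_lit 319))))))) (XT.nd (nat_lit 59202) (nat_lit 0) (nat_lit 152) (XT.nd (nat_lit 390) (nat_lit 760) (nat_lit 0) (XT.nd (nat_lit 156) (nat_lit 608) (nat_lit 0) (XT.nd (nat_lit 78)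 (nat_lit 152) (nat_lit 0) (XT.lf (nat_lit 0) (nat_lit 3833358860) (nat_lit 228) (nat_lit 6636861550) (nat_lit 0) (nat_lit 3482766953) (nat_lit 33) (nat_lit 5) (nat_lit 36) (nat_lit 4) (nat_lit 33) (nat_lit 4) (nat_lit 503) (nat_lit 319) (nat_lit 318)) (XT.lf (nat_lit 0) (nat_lit 6967739471) (nat_lit 152) (nat_lit 3906094436) (nat_lit 152) (nat_lit 3211784972) (nat_lit 31) (nat_lit 4) (nat_lit 33) (nat_lit 5) (nat_lit 33) (nat_lit 4) (nat_lit 504) (nat_lit 319) (nat_lit 317))) (XT.nd (nat_lit 78) (nat_lit 380) (nat_lit 0) (XT.lf (nat_lit 0) (nat_lit 3793929459) (nat_lit 228) (nat_lit 7643412348) (nat_lit 0) (nat_lit 2782863322) (nat_lit 28) (nat_lit 5) (nat_lit 31) (nat_lit 4) (nat_lit 28) (nat_lit 4) (nat_lit 505) (nat_lit 319) (nat_lit 316)) (XT.nd (nat_lit 78) (nat_lit 228) (nat_lit 0) (XT.lf (nat_lit 0) (nat_lit 6137957207) (nat_lit 152) (nat_lit 4776849540) (nat_lit 152) (nat_lit 3441890672) (nat_lit 26) (nat_lit 4) (nat_lit 28) (nat_lit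 5) (nat_lit 28) (nat_lit 4) (nat_lit 506) (nat_lit 319) (nat_lit 315)) (XT.lf (nat_lit 0) (nat_lit 3639942294) (nat_lit 228) (nat_lit 8835534553) (nat_lit 0) (nat_lit 2019843510) (nat_lit 23) (nat_lit 5) (nat_lit 26) (nat_lit 4) (nat_lit 23) (nat_lit 4) (nat_lit 507) (nat_lit 319) (nat_lit 314))))) (XT.nd (nat_lit 156) (nat_lit 456) (nat_lit 0) (XT.nd (nat_lit 78) (nat_lit 152) (nat_lit 0) (XT.lf (nat_lit 0) (nat_lit 5123423597) (nat_lit 152) (nat_lit 5718824408) (nat_lit 152) (nat_lit 3793514270) (nat_lit 21) (nat_lit 4) (nat_lit 23) (nat_lit 5) (nat_lit 23) (nat_lit 4) (nat_lit 508) (nat_lit 319) (nat_lit 313)) (XT.lf (nat_lit 0) (nat_lit 3366503155) (nat_lit 152) (nat_lit 10226449887) (nat_lit 0) (nat_lit 1185584571) (nat_lit 19) (nat_lit 5) (nat_lit 21) (nat_lit 4) (nat_lit 19) (nat_lit 4) (nat_lit 509) (nat_lit 319) (nat_lit 312))) (XT.nd (nat_lit 156) (nat_lit 304) (nat_lit 0) (XT.lf (nat_lit 0) (nat_lit 3910836738) (nat_lit 152)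 (nat_lit 6740355473) (nat_lit 152) (nat_lit 4271829414) (nat_lit 17) (nat_lit 4) (nat_lit 19) (nat_lit 5) (nat_lit 19) (nat_lit 4) (nat_lit 510) (nat_lit 319) (nat_lit 311)) (XT.nd (nat_lit 58422) (nat_lit 0) (nat_lit 2128) (XT.lf (nat_lit 0) (nat_lit 2486392195) (nat_lit 152) (nat_lit 7849941203) (nat_lit 152) (nat_lit 4882359342) (nat_lit 13) (nat_lit 4) (nat_lit 15) (nat_lit 5) (nat_lit 15) (nat_lit 4) (nat_lit 512) (nat_lit 319) (nat_lit 309)) (XT.lf (nat_lit 0) (nat_lit 4105241344) (nat_lit 152) (nat_lit 1338804698) (nat_lit 152) (nat_lit 1338804698) (nat_lit 41) (nat_lit 4) (nat_lit 43) (nat_lit 5) (nat_lit 43) (nat_lit 4) (nat_lit 500) (nat_lit 320) (nat_lit 320)))))) (XT.nd (nat_lit 390) (nat_lit 988) (nat_lit 0) (XT.nd (nat_lit 156) (nat_lit 608) (nat_lit 0) (XT.nd (nat_lit 78) (nat_lit 152) (nat_lit 0) (XT.lf (nat_lit 0) (nat_lit 4127548857) (nat_lit 228) (nat_lit 5803129432) (nat_lit 0) (nat_lit 3762793037) (nat_lit 38) (nat_lit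 5) (nat_lit 41) (nat_lit 4) (nat_lit 38) (nat_lit 4) (nat_lit 501) (nat_lit 320) (nat_lit 319)) (XT.lf (nat_lit 0) (nat_lit 7537144665) (nat_lit 152) (nat_lit 3504244425) (nat_lit 152) (nat_lit 2781884859) (nat_lit 36) (nat_lit 4) (nat_lit 38) (nat_lit 5) (nat_lit 38) (nat_lit 4) (nat_lit 502) (nat_lit 320) (nat_lit 318))) (XT.nd (nat_lit 78) (nat_lit 380) (nat_lit 0) (XT.lf (nat_lit 0) (nat_lit 4094910663) (nat_lit 228) (nat_lit 6817000285) (nat_lit 0) (nat_lit 3042997453) (nat_lit 33) (nat_lit 5) (nat_lit 36) (nat_lit 4) (nat_lit 33) (nat_lit 4) (nat_lit 503) (nat_lit 320) (nat_lit 317)) (XT.nd (nat_lit 78) (nat_lit 228) (nat_lit 0) (XT.lf (nat_lit 0) (nat_lit 6696615889) (nat_lit 152) (nat_lit 4390391401) (nat_lit 152) (nat_lit 3001500195) (nat_lit 31) (nat_lit 4) (nat_lit 33) (nat_lit 5) (nat_lit 33) (nat_lit 4) (nat_lit 504) (nat_lit 320) (nat_lit 316)) (XT.lf (nat_lit 0) (nat_lit 3949078109) (nat_lit 228) (nat_lit 8011508550) (nat_lit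 0) (nat_lit 2263527334) (nat_lit 28) (nat_lit 5) (nat_lit 31) (nat_lit 4) (nat_lit 28) (nat_lit 4) (nat_lit 505) (nat_lit 320) (nat_lit 315))))) (XT.nd (nat_lit 234) (nat_lit 456) (nat_lit 0) (XT.nd (nat_lit 78) (nat_lit 380) (nat_lit 0) (XT.lf (nat_lit 0) (nat_lit 5676247876) (nat_lit 152) (nat_lit 5344220409) (nat_lit 152) (nat_lit 3341127742) (nat_lit 26) (nat_lit 4) (nat_lit 28) (nat_lit 5) (nat_lit 28) (nat_lit 4) (nat_lit 506) (nat_lit 320) (nat_lit 314)) (XT.nd (nat_lit 78) (nat_lit 152) (nat_lit 0) (XT.lf (nat_lit 0) (nat_lit 3685314375) (nat_lit 228) (nat_lit 9399686211) (nat_lit 0) (nat_lit 1416286681) (nat_lit 23) (nat_lit 5) (nat_lit 26) (nat_lit 4) (nat_lit 23) (nat_lit 4) (nat_lit 507) (nat_lit 320) (nat_lit 313)) (XT.lf (nat_lit 0) (nat_lit 4462930434) (nat_lit 152) (nat_lit 6374033196) (nat_lit 152) (nat_lit 3805778684) (nat_lit 21) (nat_lit 4) (nat_lit 23) (nat_lit 5) (nat_lit 23) (nat_lit 4) (nat_lit 508) (nat_lit 320)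 (nat_lit 312)))) (XT.nd (nat_lit 78) (nat_lit 304) (nat_lit 0) (XT.lf (nat_lit 0) (nat_lit 3298546311) (nat_lit 152) (nat_lit 10995047742) (nat_lit 0) (nat_lit 493042256) (nat_lit 19) (nat_lit 5) (nat_lit 21) (nat_lit 4) (nat_lit 19) (nat_lit 4) (nat_lit 509) (nat_lit 320) (nat_lit 311)) (XT.nd (nat_lit 78) (nat_lit 152) (nat_lit 0) (XT.lf (nat_lit 0) (nat_lit 3043064580) (nat_lit 152) (nat_lit 7488282835) (nat_lit 152) (nat_lit 4400810667) (nat_lit 17) (nat_lit 4) (nat_lit 19) (nat_lit 5) (nat_lit 19) (nat_lit 4) (nat_lit 510) (nat_lit 320) (nat_lit 310)) (XT.lf (nat_lit 0) (nat_lit 2265307464) (nat_lit 76) (nat_lit 521434594) (nat_lit 152) (nat_lit 12293568571) (nat_lit 15) (nat_lit 5) (nat_lit 16) (nat_lit 5) (nat_lit 17) (nat_lit 4) (nat_lit 511) (nat_lit 320) (nat_lit 309))))))))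
noncomputable def xc1 : XT := (XT.nd (nat_lit 117780) (nat_lit 0) (nat_lit 152) (XT.nd (nat_lit 58968) (nat_lit 0) (nat_lit 0) (XT.nd (nat_lit 58578) (nat_lit 0) (nat_lit 988) (XT.nd (nat_lit 58344) (nat_lit 0) (nat_lit 1900) (XT.nd (nat_lit 58266) (nat_lit 0) (nat_lit 2508) (XT.lf (nat_lit 0) (nat_lit 1402534723) (nat_lit 152) (nat_lit 8695593415) (nat_lit 152) (nat_lit 5131936119) (nat_lit 13) (nat_lit 4) (nat_lit 15) (nat_lit 5) (nat_lit 15) (nat_lit 4) (nat_lit 512) (nat_lit 320) (nat_lit 308)) (XT.lf (nat_lit 0) (nat_lit 4406784962) (nat_lit 228) (nat_lit 1125279828) (nat_lit 228) (nat_lit 1125279828) (nat_lit 46) (nat_lit 4) (nat_lit 49) (nat_lit 5) (nat_lit 49) (nat_lit 4) (nat_lit 498) (nat_lit 321) (nat_lit 321))) (XT.nd (nat_lit 78) (nat_lit 380) (nat_lit 0) (XT.lf (nat_lit 0) (nat_lit 4430892321) (nat_lit 228) (nat_lit 4957319661) (nat_lit 0) (nat_lit 4051400365) (nat_lit 43) (nat_lit 5) (nat_lit 46) (nat_lit 4) (nat_lit 43)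 (nat_lit 4) (nat_lit 499) (nat_lit 321) (nat_lit 320)) (XT.nd (nat_lit 78) (nat_lit 228) (nat_lit 0) (XT.lf (nat_lit 0) (nat_lit 8123908564) (nat_lit 152) (nat_lit 3097133326) (nat_lit 152) (nat_lit 2345590434) (nat_lit 41) (nat_lit 4) (nat_lit 43) (nat_lit 5) (nat_lit 43) (nat_lit 4) (nat_lit 500) (nat_lit 321) (nat_lit 319)) (XT.lf (nat_lit 0) (nat_lit 4405155302) (nat_lit 228) (nat_lit 5979460115) (nat_lit 0) (nat_lit 3310744799) (nat_lit 38) (nat_lit 5) (nat_lit 41) (nat_lit 4) (nat_lit 38) (nat_lit 4) (nat_lit 501) (nat_lit 321) (nat_lit 318))))) (XT.nd (nat_lit 156) (nat_lit 532) (nat_lit 0) (XT.nd (nat_lit 78) (nat_lit 228) (nat_lit 0) (XT.lf (nat_lit 0) (nat_lit 7271752515) (nat_lit 152) (nat_lit 3999681978) (nat_lit 152) (nat_lit 2554679567) (nat_lit 36) (nat_lit 4) (nat_lit 38) (nat_lit 5) (nat_lit 38) (nat_lit 4) (nat_lit 502) (nat_lit 321) (nat_lit 317)) (XT.lf (nat_lit 0) (nat_lit 4267524930) (nat_lit 228) (nat_lit 7177348399)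 (nat_lit 0) (nat_lit 2513877904) (nat_lit 33) (nat_lit 5) (nat_lit 36) (nat_lit 4) (nat_lit 33) (nat_lit 4) (nat_lit 503) (nat_lit 321) (nat_lit 316))) (XT.nd (nat_lit 78) (nat_lit 380) (nat_lit 0) (XT.lf (nat_lit 0) (nat_lit 6244625118) (nat_lit 152) (nat_lit 4966357791) (nat_lit 152) (nat_lit 2882340180) (nat_lit 31) (nat_lit 4) (nat_lit 33) (nat_lit 5) (nat_lit 33) (nat_lit 4) (nat_lit 504) (nat_lit 321) (nat_lit 315)) (XT.nd (nat_lit 78) (nat_lit 152) (nat_lit 0) (XT.lf (nat_lit 0) (nat_lit 4013421167) (nat_lit 228) (nat_lit 8563833287) (nat_lit 0) (nat_lit 1652724754) (nat_lit 28) (nat_lit 5) (nat_lit 31) (nat_lit 4) (nat_lit 28) (nat_lit 4) (nat_lit 505) (nat_lit 321) (nat_lit 314)) (XT.lf (nat_lit 0) (nat_lit 5029601344) (nat_lit 152) (nat_lit 6005433708) (nat_lit 152) (nat_lit 3333421714) (nat_lit 26) (nat_lit 4) (nat_lit 28) (nat_lit 5) (nat_lit 28) (nat_lit 4) (nat_lit 506) (nat_lit 321) (nat_lit 313)))))) (XT.nd (nat_lit 390)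 (nat_lit 152) (nat_lit 0) (XT.nd (nat_lit 156) (nat_lit 456) (nat_lit 0) (XT.nd (nat_lit 78) (nat_lit 152) (nat_lit 0) (XT.lf (nat_lit 0) (nat_lit 3637930342) (nat_lit 228) (nat_lit 10152232520) (nat_lit 0) (nat_lit 719083923) (nat_lit 23) (nat_lit 5) (nat_lit 26) (nat_lit 4) (nat_lit 23) (nat_lit 4) (nat_lit 507) (nat_lit 321) (nat_lit 312)) (XT.lf (nat_lit 0) (nat_lit 3613280996) (nat_lit 152) (nat_lit 7125323194) (nat_lit 152) (nat_lit 3913117151) (nat_lit 21) (nat_lit 4) (nat_lit 23) (nat_lit 5) (nat_lit 23) (nat_lit 4) (nat_lit 508) (nat_lit 321) (nat_lit 311))) (XT.nd (nat_lit 78) (nat_lit 304) (nat_lit 0) (XT.lf (nat_lit 0) (nat_lit 2838423346) (nat_lit 76) (nat_lit 299317675) (nat_lit 152) (nat_lit 11658985745) (nat_lit 19) (nat_lit 5) (nat_lit 20) (nat_lit 5) (nat_lit 21) (nat_lit 4) (nat_lit 509) (nat_lit 321) (nat_lit 310)) (XT.nd (nat_lit 78) (nat_lit 152) (nat_lit 0) (XT.lf (nat_lit 0) (nat_lit 1981761208) (nat_lit 152) (nat_lit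 8334600000) (nat_lit 152) (nat_lit 4626970949) (nat_lit 17) (nat_lit 4) (nat_lit 19) (nat_lit 5) (nat_lit 19) (nat_lit 4) (nat_lit 510) (nat_lit 321) (nat_lit 309)) (XT.lf (nat_lit 0) (nat_lit 1092813151) (nat_lit 76) (nat_lit 1417811180) (nat_lit 152) (nat_lit 12581948212) (nat_lit 15) (nat_lit 5) (nat_lit 16) (nat_lit 5) (nat_lit 17) (nat_lit 4) (nat_lit 511) (nat_lit 321) (nat_lit 308))))) (XT.nd (nat_lit 58188) (nat_lit 0) (nat_lit 2280) (XT.nd (nat_lit 58110) (nat_lit 0) (nat_lit 2964) (XT.lf (nat_lit 0) (nat_lit 120608200) (nat_lit 152) (nat_lit 9642017950) (nat_lit 152) (nat_lit 5480887706) (nat_lit 13) (nat_lit 4) (nat_lit 15) (nat_lit 5) (nat_lit 15) (nat_lit 4) (nat_lit 512) (nat_lit 321) (nat_lit 307)) (XT.lf (nat_lit 0) (nat_lit 4717850317) (nat_lit 228) (nat_lit 908375859) (nat_lit 228) (nat_lit 908375859) (nat_lit 52) (nat_lit 4) (nat_lit 55) (nat_lit 5) (nat_lit 55) (nat_lit 4) (nat_lit 496) (nat_lit 322) (nat_lit 322)))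 (XT.nd (nat_lit 78) (nat_lit 456) (nat_lit 0) (XT.lf (nat_lit 0) (nat_lit 4743812615) (nat_lit 228) (nat_lit 4098520670) (nat_lit 0) (nat_lit 4348989184) (nat_lit 49) (nat_lit 5) (nat_lit 52) (nat_lit 4) (nat_lit 49) (nat_lit 4) (nat_lit 497) (nat_lit 322) (nat_lit 321)) (XT.nd (nat_lit 78) (nat_lit 228) (nat_lit 0) (XT.lf (nat_lit 0) (nat_lit 8728843151) (nat_lit 228) (nat_lit 2684333421) (nat_lit 228) (nat_lit 1902428195) (nat_lit 46) (nat_lit 4) (nat_lit 49) (nat_lit 5) (nat_lit 49) (nat_lit 4) (nat_lit 498) (nat_lit 322) (nat_lit 320)) (XT.lf (nat_lit 0) (nat_lit 4725094409) (nat_lit 228) (nat_lit 5129905812) (nat_lit 0) (nat_lit 3586469721) (nat_lit 43) (nat_lit 5) (nat_lit 46) (nat_lit 4) (nat_lit 43) (nat_lit 4) (nat_lit 499) (nat_lit 322) (nat_lit 319))))))) (XT.nd (nat_lit 780) (nat_lit 304) (nat_lit 0) (XT.nd (nat_lit 390) (nat_lit 912) (nat_lit 0) (XT.nd (nat_lit 156) (nat_lit 532) (nat_lit 0) (XT.nd (nat_lit 78) (nat_lit 228)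 (nat_lit 0) (XT.lf (nat_lit 0) (nat_lit 7864152243) (nat_lit 152) (nat_lit 3604326742) (nat_lit 152) (nat_lit 2100946234) (nat_lit 41) (nat_lit 4) (nat_lit 43) (nat_lit 5) (nat_lit 43) (nat_lit 4) (nat_lit 500) (nat_lit 322) (nat_lit 318)) (XT.lf (nat_lit 0) (nat_lit 4595721237) (nat_lit 228) (nat_lit 6332190630) (nat_lit 0) (nat_lit 2771226870) (nat_lit 38) (nat_lit 5) (nat_lit 41) (nat_lit 4) (nat_lit 38) (nat_lit 4) (nat_lit 501) (nat_lit 322) (nat_lit 317))) (XT.nd (nat_lit 78) (nat_lit 380) (nat_lit 0) (XT.lf (nat_lit 0) (nat_lit 6829316628) (nat_lit 152) (nat_lit 4584872055) (nat_lit 152) (nat_lit 2416660132) (nat_lit 36) (nat_lit 4) (nat_lit 38) (nat_lit 5) (nat_lit 38) (nat_lit 4) (nat_lit 502) (nat_lit 322) (nat_lit 316)) (XT.nd (nat_lit 78) (nat_lit 152) (nat_lit 0) (XT.lf (nat_lit 0) (nat_lit 4351269354) (nat_lit 228) (nat_lit 7718047203) (nat_lit 0) (nat_lit 1895200806) (nat_lit 33) (nat_lit 5) (nat_lit 36) (nat_lit 4) (nat_lit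 33) (nat_lit 4) (nat_lit 503) (nat_lit 322) (nat_lit 315)) (XT.lf (nat_lit 0) (nat_lit 5611589906) (nat_lit 152) (nat_lit 5634219475) (nat_lit 152) (nat_lit 2854258197) (nat_lit 31) (nat_lit 4) (nat_lit 33) (nat_lit 5) (nat_lit 33) (nat_lit 4) (nat_lit 504) (nat_lit 322) (nat_lit 314))))) (XT.nd (nat_lit 156) (nat_lit 532) (nat_lit 0) (XT.nd (nat_lit 78) (nat_lit 152) (nat_lit 0) (XT.lf (nat_lit 0) (nat_lit 3986983865) (nat_lit 228) (nat_lit 9300603154) (nat_lit 0) (nat_lit 950216051) (nat_lit 28) (nat_lit 5) (nat_lit 31) (nat_lit 4) (nat_lit 28) (nat_lit 4) (nat_lit 505) (nat_lit 322) (nat_lit 313)) (XT.lf (nat_lit 0) (nat_lit 4197764027) (nat_lit 152) (nat_lit 6760748735) (nat_lit 152) (nat_lit 3418769567) (nat_lit 26) (nat_lit 4) (nat_lit 28) (nat_lit 5) (nat_lit 28) (nat_lit 4) (nat_lit 506) (nat_lit 322) (nat_lit 312))) (XT.nd (nat_lit 78) (nat_lit 304) (nat_lit 0) (XT.lf (nat_lit 0) (nat_lit 3425250023) (nat_lit 152) (nat_lit 72995525)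 (nat_lit 228) (nat_lit 11020947008) (nat_lit 23) (nat_lit 5) (nat_lit 25) (nat_lit 5) (nat_lit 26) (nat_lit 4) (nat_lit 507) (nat_lit 322) (nat_lit 311)) (XT.nd (nat_lit 78) (nat_lit 152) (nat_lit 0) (XT.lf (nat_lit 0) (nat_lit 2574142088) (nat_lit 152) (nat_lit 7972989027) (nat_lit 152) (nat_lit 4115571762) (nat_lit 21) (nat_lit 4) (nat_lit 23) (nat_lit 5) (nat_lit 23) (nat_lit 4) (nat_lit 508) (nat_lit 322) (nat_lit 310)) (XT.lf (nat_lit 0) (nat_lit 1690247151) (nat_lit 76) (nat_lit 1195709545) (nat_lit 152) (nat_lit 11922817595) (nat_lit 19) (nat_lit 5) (nat_lit 20) (nat_lit 5) (nat_lit 21) (nat_lit 4) (nat_lit 509) (nat_lit 322) (nat_lit 309)))))) (XT.nd (nat_lit 58266) (nat_lit 0) (nat_lit 1748) (XT.nd (nat_lit 156) (nat_lit 76) (nat_lit 0) (XT.nd (nat_lit 78) (nat_lit 76) (nat_lit 0) (XT.lf (nat_lit 0) (nat_lit 726510425) (nat_lit 152) (nat_lit 9279638857) (nat_lit 152) (nat_lit 4950398951) (nat_lit 17) (nat_lit 4) (nat_lit 19)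 (nat_lit 5) (nat_lit 19) (nat_lit 4) (nat_lit 510) (nat_lit 322) (nat_lit 308)) (XT.lf (nat_lit 0) (nat_lit 2139920361) (nat_lit 228) (nat_lit 272305626) (nat_lit 76) (nat_lit 12694634986) (nat_lit 16) (nat_lit 5) (nat_lit 19) (nat_lit 5) (nat_lit 17) (nat_lit 4) (nat_lit 511) (nat_lit 322) (nat_lit 307))) (XT.nd (nat_lit 57954) (nat_lit 0) (nat_lit 3040) (XT.lf (nat_lit 0) (nat_lit 9338525175) (nat_lit 152) (nat_lit 1342054885) (nat_lit 0) (nat_lit 4578290167) (nat_lit 15) (nat_lit 5) (nat_lit 17) (nat_lit 4) (nat_lit 15) (nat_lit 4) (nat_lit 512) (nat_lit 322) (nat_lit 306)) (XT.nd (nat_lit 78) (nat_lit 228) (nat_lit 0) (XT.lf (nat_lit 0) (nat_lit 5038874257) (nat_lit 228) (nat_lit 687853387) (nat_lit 228) (nat_lit 687853387) (nat_lit 58) (nat_lit 4) (nat_lit 61) (nat_lit 5) (nat_lit 61) (nat_lit 4) (nat_lit 494) (nat_lit 323) (nat_lit 323)) (XT.lf (nat_lit 0) (nat_lit 5066749159) (nat_lit 228) (nat_lit 3225792370) (nat_lit 0) (nat_lit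 4655974862) (nat_lit 55) (nat_lit 5) (nat_lit 58) (nat_lit 4) (nat_lit 55) (nat_lit 4) (nat_lit 495) (nat_lit 323) (nat_lit 322))))) (XT.nd (nat_lit 234) (nat_lit 608) (nat_lit 0) (XT.nd (nat_lit 78) (nat_lit 456) (nat_lit 0) (XT.lf (nat_lit 0) (nat_lit 9352791043) (nat_lit 228) (nat_lit 2265403930) (nat_lit 228) (nat_lit 1451909733) (nat_lit 52) (nat_lit 4) (nat_lit 55) (nat_lit 5) (nat_lit 55) (nat_lit 4) (nat_lit 496) (nat_lit 323) (nat_lit 321)) (XT.nd (nat_lit 78) (nat_lit 228) (nat_lit 0) (XT.lf (nat_lit 0) (nat_lit 5055175313) (nat_lit 228) (nat_lit 4267424113) (nat_lit 0) (nat_lit 3870550188) (nat_lit 49) (nat_lit 5) (nat_lit 52) (nat_lit 4) (nat_lit 49) (nat_lit 4) (nat_lit 497) (nat_lit 323) (nat_lit 320)) (XT.lf (nat_lit 0) (nat_lit 8474629607) (nat_lit 228) (nat_lit 3203919593) (nat_lit 228) (nat_lit 1639802512) (nat_lit 46) (nat_lit 4) (nat_lit 49) (nat_lit 5) (nat_lit 49) (nat_lit 4) (nat_lit 498) (nat_lit 323) (nat_lit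 319)))) (XT.nd (nat_lit 78) (nat_lit 380) (nat_lit 0) (XT.lf (nat_lit 0) (nat_lit 4934122002) (nat_lit 228) (nat_lit 5475145794) (nat_lit 0) (nat_lit 3035918063) (nat_lit 43) (nat_lit 5) (nat_lit 46) (nat_lit 4) (nat_lit 43) (nat_lit 4) (nat_lit 499) (nat_lit 323) (nat_lit 318)) (XT.nd (nat_lit 78) (nat_lit 228) (nat_lit 0) (XT.lf (nat_lit 0) (nat_lit 7431111858) (nat_lit 152) (nat_lit 4199388542) (nat_lit 152) (nat_lit 1943580858) (nat_lit 41) (nat_lit 4) (nat_lit 43) (nat_lit 5) (nat_lit 43) (nat_lit 4) (nat_lit 500) (nat_lit 323) (nat_lit 317)) (XT.lf (nat_lit 0) (nat_lit 4699321393) (nat_lit 228) (nat_lit 6861459302) (nat_lit 0) (nat_lit 2144027675) (nat_lit 38) (nat_lit 5) (nat_lit 41) (nat_lit 4) (nat_lit 38) (nat_lit 4) (nat_lit 501) (nat_lit 323) (nat_lit 316))))))))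
noncomputable def xc2 : XT := (XT.nd (nat_lit 59280) (nat_lit 0) (nat_lit 0) (XT.nd (nat_lit 780) (nat_lit 76) (nat_lit 0) (XT.nd (nat_lit 390) (nat_lit 760) (nat_lit 0) (XT.nd (nat_lit 156) (nat_lit 532) (nat_lit 0) (XT.nd (nat_lit 78) (nat_lit 228) (nat_lit 0) (XT.lf (nat_lit 0) (nat_lit 6209663499) (nat_lit 152) (nat_lit 5260044144) (nat_lit 152) (nat_lit 2367772430) (nat_lit 36) (nat_lit 4) (nat_lit 38) (nat_lit 5) (nat_lit 38) (nat_lit 4) (nat_lit 502) (nat_lit 323) (nat_lit 315)) (XT.lf (nat_lit 0) (nat_lit 4346176775) (nat_lit 228) (nat_lit 8439308738) (nat_lit 0) (nat_lit 1186723541) (nat_lit 33) (nat_lit 5) (nat_lit 36) (nat_lit 4) (nat_lit 33) (nat_lit 4) (nat_lit 503) (nat_lit 323) (nat_lit 314))) (XT.nd (nat_lit 78) (nat_lit 380) (nat_lit 0) (XT.lf (nat_lit 0) (nat_lit 4797262005) (nat_lit 152) (nat_lit 6394238360) (nat_lit 152) (nat_lit 2917243233) (nat_lit 31) (nat_lit 4) (nat_lit 33) (nat_lit 5) (nat_lit 33) (nat_lit 4)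 (nat_lit 504) (nat_lit 323) (nat_lit 313)) (XT.nd (nat_lit 78) (nat_lit 152) (nat_lit 0) (XT.lf (nat_lit 0) (nat_lit 3869755836) (nat_lit 228) (nat_lit 10222107083) (nat_lit 0) (nat_lit 155725731) (nat_lit 28) (nat_lit 5) (nat_lit 31) (nat_lit 4) (nat_lit 28) (nat_lit 4) (nat_lit 505) (nat_lit 323) (nat_lit 312)) (XT.lf (nat_lit 0) (nat_lit 3180409711) (nat_lit 152) (nat_lit 7610461693) (nat_lit 152) (nat_lit 3597204771) (nat_lit 26) (nat_lit 4) (nat_lit 28) (nat_lit 5) (nat_lit 28) (nat_lit 4) (nat_lit 506) (nat_lit 323) (nat_lit 311))))) (XT.nd (nat_lit 156) (nat_lit 380) (nat_lit 0) (XT.nd (nat_lit 78) (nat_lit 152) (nat_lit 0) (XT.lf (nat_lit 0) (nat_lit 2300968773) (nat_lit 152) (nat_lit 970113068) (nat_lit 228) (nat_lit 11259949106) (nat_lit 23) (nat_lit 5) (nat_lit 25) (nat_lit 5) (nat_lit 26) (nat_lit 4) (nat_lit 507) (nat_lit 323) (nat_lit 310)) (XT.lf (nat_lit 0) (nat_lit 1345106205) (nat_lit 152) (nat_lit 8917363112) (nat_lit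 152) (nat_lit 4413221914) (nat_lit 21) (nat_lit 4) (nat_lit 23) (nat_lit 5) (nat_lit 23) (nat_lit 4) (nat_lit 508) (nat_lit 323) (nat_lit 309))) (XT.nd (nat_lit 78) (nat_lit 228) (nat_lit 0) (XT.lf (nat_lit 0) (nat_lit 349918291) (nat_lit 76) (nat_lit 2189932607) (nat_lit 152) (nat_lit 12282997584) (nat_lit 19) (nat_lit 5) (nat_lit 20) (nat_lit 5) (nat_lit 21) (nat_lit 4) (nat_lit 509) (nat_lit 323) (nat_lit 308)) (XT.nd (nat_lit 78) (nat_lit 228) (nat_lit 0) (XT.lf (nat_lit 0) (nat_lit 9605285351) (nat_lit 152) (nat_lit 713695387) (nat_lit 0) (nat_lit 4652736849) (nat_lit 19) (nat_lit 5) (nat_lit 21) (nat_lit 4) (nat_lit 19) (nat_lit 4) (nat_lit 510) (nat_lit 323) (nat_lit 307)) (XT.lf (nat_lit 0) (nat_lit 1681065481) (nat_lit 228) (nat_lit 1817291181) (nat_lit 76) (nat_lit 11624693247) (nat_lit 16) (nat_lit 5) (nat_lit 19) (nat_lit 5) (nat_lit 17) (nat_lit 4) (nat_lit 511) (nat_lit 323) (nat_lit 306)))))) (XT.nd (nat_lit 58110) (nat_lit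 0) (nat_lit 1976) (XT.nd (nat_lit 57876) (nat_lit 0) (nat_lit 3040) (XT.nd (nat_lit 57798) (nat_lit 0) (nat_lit 3724) (XT.lf (nat_lit 0) (nat_lit 8818902223) (nat_lit 152) (nat_lit 2999676607) (nat_lit 0) (nat_lit 3457695693) (nat_lit 15) (nat_lit 5) (nat_lit 17) (nat_lit 4) (nat_lit 15) (nat_lit 4) (nat_lit 512) (nat_lit 323) (nat_lit 305)) (XT.lf (nat_lit 0) (nat_lit 5370310255) (nat_lit 228) (nat_lit 463465353) (nat_lit 228) (nat_lit 463465353) (nat_lit 64) (nat_lit 4) (nat_lit 67) (nat_lit 5) (nat_lit 67) (nat_lit 4) (nat_lit 492) (nat_lit 324) (nat_lit 324))) (XT.nd (nat_lit 78) (nat_lit 456) (nat_lit 0) (XT.lf (nat_lit 0) (nat_lit 5400158094) (nat_lit 228) (nat_lit 2338164837) (nat_lit 0) (nat_lit 4972788515) (nat_lit 61) (nat_lit 5) (nat_lit 64) (nat_lit 4) (nat_lit 61) (nat_lit 4) (nat_lit 493) (nat_lit 324) (nat_lit 323)) (XT.nd (nat_lit 78) (nat_lit 228) (nat_lit 0) (XT.lf (nat_lit 0) (nat_lit 9996626771) (nat_lit 228) (nat_lit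 1839890405) (nat_lit 228) (nat_lit 993531042) (nat_lit 58) (nat_lit 4) (nat_lit 61) (nat_lit 5) (nat_lit 61) (nat_lit 4) (nat_lit 494) (nat_lit 324) (nat_lit 322)) (XT.lf (nat_lit 0) (nat_lit 5395862327) (nat_lit 228) (nat_lit 3391073249) (nat_lit 0) (nat_lit 4163378347) (nat_lit 55) (nat_lit 5) (nat_lit 58) (nat_lit 4) (nat_lit 55) (nat_lit 4) (nat_lit 495) (nat_lit 324) (nat_lit 321))))) (XT.nd (nat_lit 156) (nat_lit 608) (nat_lit 0) (XT.nd (nat_lit 78) (nat_lit 228) (nat_lit 0) (XT.lf (nat_lit 0) (nat_lit 9104029755) (nat_lit 228) (nat_lit 2798042308) (nat_lit 228) (nat_lit 1170734898) (nat_lit 52) (nat_lit 4) (nat_lit 55) (nat_lit 5) (nat_lit 55) (nat_lit 4) (nat_lit 496) (nat_lit 324) (nat_lit 320)) (XT.lf (nat_lit 0) (nat_lit 5283199380) (nat_lit 228) (nat_lit 4605297236) (nat_lit 0) (nat_lit 3308308002) (nat_lit 49) (nat_lit 5) (nat_lit 52) (nat_lit 4) (nat_lit 49) (nat_lit 4) (nat_lit 497) (nat_lit 324) (nat_lit 319))) (XT.nd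 (nat_lit 78) (nat_lit 380) (nat_lit 0) (XT.lf (nat_lit 0) (nat_lit 8050829599) (nat_lit 228) (nat_lit 3809521933) (nat_lit 228) (nat_lit 1462579619) (nat_lit 46) (nat_lit 4) (nat_lit 49) (nat_lit 5) (nat_lit 49) (nat_lit 4) (nat_lit 498) (nat_lit 324) (nat_lit 318)) (XT.nd (nat_lit 78) (nat_lit 152) (nat_lit 0) (XT.lf (nat_lit 0) (nat_lit 5058057072) (nat_lit 228) (nat_lit 5993174996) (nat_lit 0) (nat_lit 2399529488) (nat_lit 43) (nat_lit 5) (nat_lit 46) (nat_lit 4) (nat_lit 43) (nat_lit 4) (nat_lit 499) (nat_lit 324) (nat_lit 317)) (XT.lf (nat_lit 0) (nat_lit 6824617591) (nat_lit 152) (nat_lit 4882552085) (nat_lit 152) (nat_lit 1873432594) (nat_lit 41) (nat_lit 4) (nat_lit 43) (nat_lit 5) (nat_lit 43) (nat_lit 4) (nat_lit 500) (nat_lit 324) (nat_lit 316))))))) (XT.nd (nat_lit 780) (nat_lit 304) (nat_lit 0) (XT.nd (nat_lit 390) (nat_lit 684) (nat_lit 0) (XT.nd (nat_lit 156) (nat_lit 608) (nat_lit 0) (XT.nd (nat_lit 78) (nat_lit 152) (nat_lit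 0) (XT.lf (nat_lit 0) (nat_lit 4715996397) (nat_lit 228) (nat_lit 7567473689) (nat_lit 0) (nat_lit 1428901252) (nat_lit 38) (nat_lit 5) (nat_lit 41) (nat_lit 4) (nat_lit 38) (nat_lit 4) (nat_lit 501) (nat_lit 324) (nat_lit 315)) (XT.lf (nat_lit 0) (nat_lit 5412550127) (nat_lit 152) (nat_lit 6025463017) (nat_lit 152) (nat_lit 2407997287) (nat_lit 36) (nat_lit 4) (nat_lit 38) (nat_lit 5) (nat_lit 38) (nat_lit 4) (nat_lit 502) (nat_lit 324) (nat_lit 314))) (XT.nd (nat_lit 78) (nat_lit 380) (nat_lit 0) (XT.lf (nat_lit 0) (nat_lit 4252245196) (nat_lit 228) (nat_lit 9341415849) (nat_lit 0) (nat_lit 388168275) (nat_lit 33) (nat_lit 5) (nat_lit 36) (nat_lit 4) (nat_lit 33) (nat_lit 4) (nat_lit 503) (nat_lit 324) (nat_lit 313)) (XT.nd (nat_lit 78) (nat_lit 228) (nat_lit 0) (XT.lf (nat_lit 0) (nat_lit 3801322069) (nat_lit 152) (nat_lit 7246712491) (nat_lit 152) (nat_lit 3071319989) (nat_lit 31) (nat_lit 4) (nat_lit 33) (nat_lit 5) (nat_lit 33)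 (nat_lit 4) (nat_lit 504) (nat_lit 324) (nat_lit 312)) (XT.lf (nat_lit 0) (nat_lit 2925727555) (nat_lit 152) (nat_lit 740773143) (nat_lit 228) (nat_lit 10592742894) (nat_lit 28) (nat_lit 5) (nat_lit 30) (nat_lit 5) (nat_lit 31) (nat_lit 4) (nat_lit 505) (nat_lit 324) (nat_lit 311))))) (XT.nd (nat_lit 156) (nat_lit 304) (nat_lit 0) (XT.nd (nat_lit 78) (nat_lit 228) (nat_lit 0) (XT.lf (nat_lit 0) (nat_lit 1977139435) (nat_lit 152) (nat_lit 8554905802) (nat_lit 152) (nat_lit 3868797299) (nat_lit 26) (nat_lit 4) (nat_lit 28) (nat_lit 5) (nat_lit 28) (nat_lit 4) (nat_lit 506) (nat_lit 324) (nat_lit 310)) (XT.lf (nat_lit 0) (nat_lit 988555052) (nat_lit 152) (nat_lit 1963064269) (nat_lit 228) (nat_lit 11593241895) (nat_lit 23) (nat_lit 5) (nat_lit 25) (nat_lit 5) (nat_lit 26) (nat_lit 4) (nat_lit 507) (nat_lit 324) (nat_lit 309))) (XT.nd (nat_lit 78) (nat_lit 304) (nat_lit 0) (XT.lf (nat_lit 0) (nat_lit 9884989623) (nat_lit 228) (nat_lit 73334057)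 (nat_lit 0) (nat_lit 4732358162) (nat_lit 23) (nat_lit 5) (nat_lit 26) (nat_lit 4) (nat_lit 23) (nat_lit 4) (nat_lit 508) (nat_lit 324) (nat_lit 308)) (XT.nd (nat_lit 78) (nat_lit 76) (nat_lit 0) (XT.lf (nat_lit 0) (nat_lit 2106969296) (nat_lit 228) (nat_lit 1167572430) (nat_lit 76) (nat_lit 11564259505) (nat_lit 20) (nat_lit 5) (nat_lit 23) (nat_lit 5) (nat_lit 21) (nat_lit 4) (nat_lit 509) (nat_lit 324) (nat_lit 307)) (XT.lf (nat_lit 0) (nat_lit 9114898116) (nat_lit 152) (nat_lit 2336823489) (nat_lit 0) (nat_lit 3537098842) (nat_lit 19) (nat_lit 5) (nat_lit 21) (nat_lit 4) (nat_lit 19) (nat_lit 4) (nat_lit 510) (nat_lit 324) (nat_lit 306)))))) (XT.nd (nat_lit 57954) (nat_lit 0) (nat_lit 2356) (XT.nd (nat_lit 57720) (nat_lit 0) (nat_lit 3724) (XT.nd (nat_lit 78) (nat_lit 76) (nat_lit 0) (XT.lf (nat_lit 0) (nat_lit 1126784480) (nat_lit 228) (nat_lit 3557081831) (nat_lit 76) (nat_lit 10457421293) (nat_lit 16) (nat_lit 5) (nat_lit 19) (nat_lit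 5) (nat_lit 17) (nat_lit 4) (nat_lit 511) (nat_lit 324) (nat_lit 305)) (XT.lf (nat_lit 0) (nat_lit 8202770454) (nat_lit 152) (nat_lit 4854488812) (nat_lit 0) (nat_lit 2238489968) (nat_lit 15) (nat_lit 5) (nat_lit 17) (nat_lit 4) (nat_lit 15) (nat_lit 4) (nat_lit 512) (nat_lit 324) (nat_lit 304))) (XT.nd (nat_lit 78) (nat_lit 456) (nat_lit 0) (XT.lf (nat_lit 0) (nat_lit 5712629101) (nat_lit 228) (nat_lit 234956696) (nat_lit 228) (nat_lit 234956696) (nat_lit 70) (nat_lit 4) (nat_lit 73) (nat_lit 5) (nat_lit 73) (nat_lit 4) (nat_lit 490) (nat_lit 325) (nat_lit 325)) (XT.nd (nat_lit 78) (nat_lit 228) (nat_lit 0) (XT.lf (nat_lit 0) (nat_lit 5744512980) (nat_lit 228) (nat_lit 1434636947) (nat_lit 0) (nat_lit 5299877670) (nat_lit 67) (nat_lit 5) (nat_lit 70) (nat_lit 4) (nat_lit 67) (nat_lit 4) (nat_lit 491) (nat_lit 325) (nat_lit 324)) (XT.lf (nat_lit 0) (nat_lit 10661258109) (nat_lit 228) (nat_lit 1407324091) (nat_lit 228) (nat_lit 526771810)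 (nat_lit 64) (nat_lit 4) (nat_lit 67) (nat_lit 5) (nat_lit 67) (nat_lit 4) (nat_lit 492) (nat_lit 325) (nat_lit 323))))) (XT.nd (nat_lit 234) (nat_lit 684) (nat_lit 0) (XT.nd (nat_lit 78) (nat_lit 456) (nat_lit 0) (XT.lf (nat_lit 0) (nat_lit 5747637451) (nat_lit 228) (nat_lit 2499881630) (nat_lit 0) (nat_lit 4465361118) (nat_lit 61) (nat_lit 5) (nat_lit 64) (nat_lit 4) (nat_lit 61) (nat_lit 4) (nat_lit 493) (nat_lit 325) (nat_lit 322)) (XT.nd (nat_lit 78) (nat_lit 228) (nat_lit 0) (XT.lf (nat_lit 0) (nat_lit 9753229725) (nat_lit 228) (nat_lit 2386263966) (nat_lit 228) (nat_lit 693213336) (nat_lit 58) (nat_lit 4) (nat_lit 61) (nat_lit 5) (nat_lit 61) (nat_lit 4) (nat_lit 494) (nat_lit 325) (nat_lit 321)) (XT.lf (nat_lit 0) (nat_lit 5643443429) (nat_lit 228) (nat_lit 3721699824) (nat_lit 0) (nat_lit 3588766440) (nat_lit 55) (nat_lit 5) (nat_lit 58) (nat_lit 4) (nat_lit 55) (nat_lit 4) (nat_lit 495) (nat_lit 325) (nat_lit 320)))) (XT.nd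 (nat_lit 78) (nat_lit 456) (nat_lit 0) (XT.lf (nat_lit 0) (nat_lit 8689319215) (nat_lit 228) (nat_lit 3414875732) (nat_lit 228) (nat_lit 973116947) (nat_lit 52) (nat_lit 4) (nat_lit 55) (nat_lit 5) (nat_lit 55) (nat_lit 4) (nat_lit 496) (nat_lit 325) (nat_lit 319)) (XT.nd (nat_lit 78) (nat_lit 228) (nat_lit 0) (XT.lf (nat_lit 0) (nat_lit 5427974239) (nat_lit 228) (nat_lit 5112272537) (nat_lit 0) (nat_lit 2662042141) (nat_lit 49) (nat_lit 5) (nat_lit 52) (nat_lit 4) (nat_lit 49) (nat_lit 4) (nat_lit 497) (nat_lit 325) (nat_lit 318)) (XT.lf (nat_lit 0) (nat_lit 7457276933) (nat_lit 228) (nat_lit 4501377933) (nat_lit 228) (nat_lit 1370690015) (nat_lit 46) (nat_lit 4) (nat_lit 49) (nat_lit 5) (nat_lit 49) (nat_lit 4) (nat_lit 498) (nat_lit 325) (nat_lit 317))))))))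
noncomputable def xc3 : XT := (XT.nd (nat_lit 59046) (nat_lit 0) (nat_lit 0) (XT.nd (nat_lit 780) (nat_lit 608) (nat_lit 0) (XT.nd (nat_lit 390) (nat_lit 760) (nat_lit 0) (XT.nd (nat_lit 156) (nat_lit 608) (nat_lit 0) (XT.nd (nat_lit 78) (nat_lit 152) (nat_lit 0) (XT.lf (nat_lit 0) (nat_lit 5096948220) (nat_lit 228) (nat_lit 6684196565) (nat_lit 0) (nat_lit 1677054432) (nat_lit 43) (nat_lit 5) (nat_lit 46) (nat_lit 4) (nat_lit 43) (nat_lit 4) (nat_lit 499) (nat_lit 325) (nat_lit 316)) (XT.lf (nat_lit 0) (nat_lit 6044431600) (nat_lit 152) (nat_lit 5654085279) (nat_lit 152) (nat_lit 1890473934) (nat_lit 41) (nat_lit 4) (nat_lit 43) (nat_lit 5) (nat_lit 43) (nat_lit 4) (nat_lit 500) (nat_lit 325) (nat_lit 315))) (XT.nd (nat_lit 78) (nat_lit 380) (nat_lit 0) (XT.lf (nat_lit 0) (nat_lit 4645752790) (nat_lit 228) (nat_lit 8450510658) (nat_lit 0) (nat_lit 625567161) (nat_lit 38) (nat_lit 5) (nat_lit 41) (nat_lit 4) (nat_lit 38) (nat_lit 4) (nat_lit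 501) (nat_lit 325) (nat_lit 314)) (XT.nd (nat_lit 78) (nat_lit 228) (nat_lit 0) (XT.lf (nat_lit 0) (nat_lit 4437663918) (nat_lit 152) (nat_lit 6881428839) (nat_lit 152) (nat_lit 2537350480) (nat_lit 36) (nat_lit 4) (nat_lit 38) (nat_lit 5) (nat_lit 38) (nat_lit 4) (nat_lit 502) (nat_lit 325) (nat_lit 313)) (XT.lf (nat_lit 0) (nat_lit 3565299148) (nat_lit 152) (nat_lit 507433227) (nat_lit 228) (nat_lit 9920583671) (nat_lit 33) (nat_lit 5) (nat_lit 35) (nat_lit 5) (nat_lit 36) (nat_lit 4) (nat_lit 503) (nat_lit 325) (nat_lit 312))))) (XT.nd (nat_lit 156) (nat_lit 380) (nat_lit 0) (XT.nd (nat_lit 78) (nat_lit 228) (nat_lit 0) (XT.lf (nat_lit 0) (nat_lit 2623379535) (nat_lit 152) (nat_lit 8191976173) (nat_lit 152) (nat_lit 3316548887) (nat_lit 31) (nat_lit 4) (nat_lit 33) (nat_lit 5) (nat_lit 33) (nat_lit 4) (nat_lit 504) (nat_lit 325) (nat_lit 311)) (XT.lf (nat_lit 0) (nat_lit 1640747639) (nat_lit 152) (nat_lit 1733213619) (nat_lit 228)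 (nat_lit 10898874758) (nat_lit 28) (nat_lit 5) (nat_lit 30) (nat_lit 5) (nat_lit 31) (nat_lit 4) (nat_lit 505) (nat_lit 325) (nat_lit 310))) (XT.nd (nat_lit 78) (nat_lit 228) (nat_lit 0) (XT.lf (nat_lit 0) (nat_lit 587481329) (nat_lit 152) (nat_lit 9594451433) (nat_lit 152) (nat_lit 4233653660) (nat_lit 26) (nat_lit 4) (nat_lit 28) (nat_lit 5) (nat_lit 28) (nat_lit 4) (nat_lit 506) (nat_lit 325) (nat_lit 309)) (XT.nd (nat_lit 78) (nat_lit 152) (nat_lit 0) (XT.lf (nat_lit 0) (nat_lit 2543060237) (nat_lit 228) (nat_lit 505784205) (nat_lit 76) (nat_lit 11511777794) (nat_lit 25) (nat_lit 5) (nat_lit 28) (nat_lit 5) (nat_lit 26) (nat_lit 4) (nat_lit 507) (nat_lit 325) (nat_lit 308)) (XT.lf (nat_lit 0) (nat_lit 9424034356) (nat_lit 228) (nat_lit 1662564440) (nat_lit 0) (nat_lit 3620891991) (nat_lit 23) (nat_lit 5) (nat_lit 26) (nat_lit 4) (nat_lit 23) (nat_lit 4) (nat_lit 508) (nat_lit 325) (nat_lit 307)))))) (XT.nd (nat_lit 57798) (nat_lit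 0) (nat_lit 3268) (XT.nd (nat_lit 156) (nat_lit 304) (nat_lit 0) (XT.nd (nat_lit 78) (nat_lit 76) (nat_lit 0) (XT.lf (nat_lit 0) (nat_lit 1582984521) (nat_lit 228) (nat_lit 2871218480) (nat_lit 76) (nat_lit 10402518943) (nat_lit 20) (nat_lit 5) (nat_lit 23) (nat_lit 5) (nat_lit 21) (nat_lit 4) (nat_lit 509) (nat_lit 325) (nat_lit 306)) (XT.lf (nat_lit 0) (nat_lit 8530078282) (nat_lit 152) (nat_lit 4153038718) (nat_lit 0) (nat_lit 2324840864) (nat_lit 19) (nat_lit 5) (nat_lit 21) (nat_lit 4) (nat_lit 19) (nat_lit 4) (nat_lit 510) (nat_lit 325) (nat_lit 305))) (XT.nd (nat_lit 78) (nat_lit 76) (nat_lit 0) (XT.lf (nat_lit 0) (nat_lit 476859993) (nat_lit 228) (nat_lit 5492359846) (nat_lit 76) (nat_lit 9192361371) (nat_lit 16) (nat_lit 5) (nat_lit 19) (nat_lit 5) (nat_lit 17) (nat_lit 4) (nat_lit 511) (nat_lit 325) (nat_lit 304)) (XT.nd (nat_lit 57486) (nat_lit 0) (nat_lit 4636) (XT.lf (nat_lit 0) (nat_lit 7489888247) (nat_lit 152) (nat_lit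 6907218877) (nat_lit 0) (nat_lit 920194871) (nat_lit 15) (nat_lit 5) (nat_lit 17) (nat_lit 4) (nat_lit 15) (nat_lit 4) (nat_lit 512) (nat_lit 325) (nat_lit 303)) (XT.lf (nat_lit 0) (nat_lit 6066319622) (nat_lit 228) (nat_lit 2063988) (nat_lit 228) (nat_lit 2063988) (nat_lit 76) (nat_lit 4) (nat_lit 79) (nat_lit 5) (nat_lit 79) (nat_lit 4) (nat_lit 488) (nat_lit 326) (nat_lit 326))))) (XT.nd (nat_lit 234) (nat_lit 684) (nat_lit 0) (XT.nd (nat_lit 78) (nat_lit 456) (nat_lit 0) (XT.lf (nat_lit 0) (nat_lit 6100305519) (nat_lit 228) (nat_lit 514174957) (nat_lit 0) (nat_lit 5637706943) (nat_lit 73) (nat_lit 5) (nat_lit 76) (nat_lit 4) (nat_lit 73) (nat_lit 4) (nat_lit 489) (nat_lit 326) (nat_lit 325)) (XT.nd (nat_lit 78) (nat_lit 228) (nat_lit 0) (XT.lf (nat_lit 0) (nat_lit 11347627463) (nat_lit 228) (nat_lit 967221272) (nat_lit 228) (nat_lit 51094679) (nat_lit 70) (nat_lit 4) (nat_lit 73) (nat_lit 5) (nat_lit 73) (nat_lit 4) (nat_lit 490)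 (nat_lit 326) (nat_lit 324)) (XT.lf (nat_lit 0) (nat_lit 6111001107) (nat_lit 228) (nat_lit 1592846477) (nat_lit 0) (nat_lit 4776920811) (nat_lit 67) (nat_lit 5) (nat_lit 70) (nat_lit 4) (nat_lit 67) (nat_lit 4) (nat_lit 491) (nat_lit 326) (nat_lit 323)))) (XT.nd (nat_lit 78) (nat_lit 456) (nat_lit 0) (XT.lf (nat_lit 0) (nat_lit 10423139782) (nat_lit 228) (nat_lit 1968140353) (nat_lit 228) (nat_lit 206690477) (nat_lit 64) (nat_lit 4) (nat_lit 67) (nat_lit 5) (nat_lit 67) (nat_lit 4) (nat_lit 492) (nat_lit 326) (nat_lit 322)) (XT.nd (nat_lit 78) (nat_lit 228) (nat_lit 0) (XT.lf (nat_lit 0) (nat_lit 6015362851) (nat_lit 228) (nat_lit 2823378634) (nat_lit 0) (nat_lit 3877676912) (nat_lit 61) (nat_lit 5) (nat_lit 64) (nat_lit 4) (nat_lit 61) (nat_lit 4) (nat_lit 493) (nat_lit 326) (nat_lit 321)) (XT.lf (nat_lit 0) (nat_lit 9347461927) (nat_lit 228) (nat_lit 3015041723) (nat_lit 228) (nat_lit 474635884) (nat_lit 58) (nat_lit 4) (nat_lit 61)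 (nat_lit 5) (nat_lit 61) (nat_lit 4) (nat_lit 494) (nat_lit 326) (nat_lit 320))))))) (XT.nd (nat_lit 780) (nat_lit 1216) (nat_lit 0) (XT.nd (nat_lit 390) (nat_lit 912) (nat_lit 0) (XT.nd (nat_lit 156) (nat_lit 684) (nat_lit 0) (XT.nd (nat_lit 78) (nat_lit 228) (nat_lit 0) (XT.lf (nat_lit 0) (nat_lit 5809589556) (nat_lit 228) (nat_lit 4217801752) (nat_lit 0) (nat_lit 2931913801) (nat_lit 55) (nat_lit 5) (nat_lit 58) (nat_lit 4) (nat_lit 55) (nat_lit 4) (nat_lit 495) (nat_lit 326) (nat_lit 319)) (XT.lf (nat_lit 0) (nat_lit 8108496794) (nat_lit 228) (nat_lit 4116146096) (nat_lit 228) (nat_lit 858978385) (nat_lit 52) (nat_lit 4) (nat_lit 55) (nat_lit 5) (nat_lit 55) (nat_lit 4) (nat_lit 496) (nat_lit 326) (nat_lit 318))) (XT.nd (nat_lit 78) (nat_lit 456) (nat_lit 0) (XT.lf (nat_lit 0) (nat_lit 5489556663) (nat_lit 228) (nat_lit 5788548832) (nat_lit 0) (nat_lit 1931499165) (nat_lit 49) (nat_lit 5) (nat_lit 52) (nat_lit 4) (nat_lit 49) (nat_lit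 4) (nat_lit 497) (nat_lit 326) (nat_lit 317)) (XT.nd (nat_lit 78) (nat_lit 228) (nat_lit 0) (XT.lf (nat_lit 0) (nat_lit 6693738841) (nat_lit 228) (nat_lit 5279758908) (nat_lit 228) (nat_lit 1364097665) (nat_lit 46) (nat_lit 4) (nat_lit 49) (nat_lit 5) (nat_lit 49) (nat_lit 4) (nat_lit 498) (nat_lit 326) (nat_lit 316)) (XT.lf (nat_lit 0) (nat_lit 5050810700) (nat_lit 228) (nat_lit 7548481493) (nat_lit 0) (nat_lit 868209572) (nat_lit 43) (nat_lit 5) (nat_lit 46) (nat_lit 4) (nat_lit 43) (nat_lit 4) (nat_lit 499) (nat_lit 326) (nat_lit 315))))) (XT.nd (nat_lit 156) (nat_lit 532) (nat_lit 0) (XT.nd (nat_lit 78) (nat_lit 228) (nat_lit 0) (XT.lf (nat_lit 0) (nat_lit 5090247930) (nat_lit 152) (nat_lit 6514290684) (nat_lit 152) (nat_lit 1994711560) (nat_lit 41) (nat_lit 4) (nat_lit 43) (nat_lit 5) (nat_lit 43) (nat_lit 4) (nat_lit 500) (nat_lit 326) (nat_lit 314)) (XT.lf (nat_lit 0) (nat_lit 4220486448) (nat_lit 152) (nat_lit 269828480) (nat_lit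 228) (nat_lit 9242839923) (nat_lit 38) (nat_lit 5) (nat_lit 40) (nat_lit 5) (nat_lit 41) (nat_lit 4) (nat_lit 501) (nat_lit 326) (nat_lit 313))) (XT.nd (nat_lit 78) (nat_lit 380) (nat_lit 0) (XT.lf (nat_lit 0) (nat_lit 3284622565) (nat_lit 152) (nat_lit 7828277282) (nat_lit 152) (nat_lit 2755882734) (nat_lit 36) (nat_lit 4) (nat_lit 38) (nat_lit 5) (nat_lit 38) (nat_lit 4) (nat_lit 502) (nat_lit 326) (nat_lit 312)) (XT.nd (nat_lit 78) (nat_lit 152) (nat_lit 0) (XT.lf (nat_lit 0) (nat_lit 2307283807) (nat_lit 152) (nat_lit 1500138933) (nat_lit 228) (nat_lit 10199253897) (nat_lit 33) (nat_lit 5) (nat_lit 35) (nat_lit 5) (nat_lit 36) (nat_lit 4) (nat_lit 503) (nat_lit 326) (nat_lit 311)) (XT.lf (nat_lit 0) (nat_lit 1262972464) (nat_lit 152) (nat_lit 9230400098) (nat_lit 152) (nat_lit 3653026095) (nat_lit 31) (nat_lit 4) (nat_lit 33) (nat_lit 5) (nat_lit 33) (nat_lit 4) (nat_lit 504) (nat_lit 326) (nat_lit 310)))))) (XT.nd (nat_lit 390) (nat_lit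 380) (nat_lit 0) (XT.nd (nat_lit 156) (nat_lit 608) (nat_lit 0) (XT.nd (nat_lit 78) (nat_lit 0) (nat_lit 0) (XT.lf (nat_lit 0) (nat_lit 171082906) (nat_lit 152) (nat_lit 2819915377) (nat_lit 228) (nat_lit 11297393461) (nat_lit 28) (nat_lit 5) (nat_lit 30) (nat_lit 5) (nat_lit 31) (nat_lit 4) (nat_lit 505) (nat_lit 326) (nat_lit 309)) (XT.lf (nat_lit 0) (nat_lit 9746818634) (nat_lit 228) (nat_lit 976137221) (nat_lit 0) (nat_lit 3709229318) (nat_lit 28) (nat_lit 5) (nat_lit 31) (nat_lit 4) (nat_lit 28) (nat_lit 4) (nat_lit 506) (nat_lit 326) (nat_lit 308))) (XT.nd (nat_lit 78) (nat_lit 380) (nat_lit 0) (XT.lf (nat_lit 0) (nat_lit 2049562536) (nat_lit 228) (nat_lit 2173912318) (nat_lit 76) (nat_lit 10354758972) (nat_lit 25) (nat_lit 5) (nat_lit 28) (nat_lit 5) (nat_lit 26) (nat_lit 4) (nat_lit 507) (nat_lit 326) (nat_lit 307)) (XT.nd (nat_lit 78) (nat_lit 228) (nat_lit 0) (XT.lf (nat_lit 0) (nat_lit 8870689426) (nat_lit 228) (nat_lit 3440849479)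 (nat_lit 0) (nat_lit 2414760416) (nat_lit 23) (nat_lit 5) (nat_lit 26) (nat_lit 4) (nat_lit 23) (nat_lit 4) (nat_lit 508) (nat_lit 326) (nat_lit 306)) (XT.lf (nat_lit 0) (nat_lit 965419190) (nat_lit 228) (nat_lit 4766277196) (nat_lit 76) (nat_lit 9144966704) (nat_lit 20) (nat_lit 5) (nat_lit 23) (nat_lit 5) (nat_lit 21) (nat_lit 4) (nat_lit 509) (nat_lit 326) (nat_lit 305))))) (XT.nd (nat_lit 57486) (nat_lit 0) (nat_lit 4560) (XT.nd (nat_lit 78) (nat_lit 304) (nat_lit 0) (XT.lf (nat_lit 0) (nat_lit 7850596507) (nat_lit 152) (nat_lit 6163053313) (nat_lit 0) (nat_lit 1015487518) (nat_lit 19) (nat_lit 5) (nat_lit 21) (nat_lit 4) (nat_lit 19) (nat_lit 4) (nat_lit 510) (nat_lit 326) (nat_lit 304)) (XT.nd (nat_lit 78) (nat_lit 152) (nat_lit 0) (XT.lf (nat_lit 0) (nat_lit 7558249644) (nat_lit 152) (nat_lit 7353116426) (nat_lit 152) (nat_lit 272537226) (nat_lit 17) (nat_lit 4) (nat_lit 19) (nat_lit 5) (nat_lit 19) (nat_lit 4) (nat_lit 511) (nat_lit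 326) (nat_lit 303)) (XT.lf (nat_lit 0) (nat_lit 6178929592) (nat_lit 76) (nat_lit 504320834) (nat_lit 152) (nat_lit 8657625344) (nat_lit 15) (nat_lit 5) (nat_lit 16) (nat_lit 5) (nat_lit 17) (nat_lit 4) (nat_lit 512) (nat_lit 326) (nat_lit 302)))) (XT.nd (nat_lit 78) (nat_lit 304) (nat_lit 0) (XT.lf (nat_lit 0) (nat_lit 237044441) (nat_lit 304) (nat_lit 5486707131) (nat_lit 0) (nat_lit 237044441) (nat_lit 79) (nat_lit 5) (nat_lit 83) (nat_lit 4) (nat_lit 79) (nat_lit 4) (nat_lit 486) (nat_lit 327) (nat_lit 327)) (XT.nd (nat_lit 78) (nat_lit 76) (nat_lit 0) (XT.lf (nat_lit 0) (nat_lit 429927542) (nat_lit 228) (nat_lit 6040910140) (nat_lit 228) (nat_lit 5559622582) (nat_lit 76) (nat_lit 4) (nat_lit 79) (nat_lit 5) (nat_lit 79) (nat_lit 4) (nat_lit 487) (nat_lit 327) (nat_lit 326)) (XT.lf (nat_lit 0) (nat_lit 428362802) (nat_lit 304) (nat_lit 87845246) (nat_lit 76) (nat_lit 11625475963) (nat_lit 75) (nat_lit 5) (nat_lit 79) (nat_lit 5) (nat_lit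 76) (nat_lit 4) (nat_lit 488) (nat_lit 327) (nat_lit 325))))))))
noncomputable def xc4 : XT := (XT.nd (nat_lit 1560) (nat_lit 608) (nat_lit 0) (XT.nd (nat_lit 780) (nat_lit 1748) (nat_lit 0) (XT.nd (nat_lit 390) (nat_lit 1140) (nat_lit 0) (XT.nd (nat_lit 156) (nat_lit 608) (nat_lit 0) (XT.nd (nat_lit 78) (nat_lit 304) (nat_lit 0) (XT.lf (nat_lit 0) (nat_lit 6486472909) (nat_lit 228) (nat_lit 668932405) (nat_lit 0) (nat_lit 5098495768) (nat_lit 73) (nat_lit 5) (nat_lit 76) (nat_lit 4) (nat_lit 73) (nat_lit 4) (nat_lit 489) (nat_lit 327) (nat_lit 324)) (XT.lf (nat_lit 0) (nat_lit 285603585) (nat_lit 304) (nat_lit 1255693206) (nat_lit 76) (nat_lit 10827184666) (nat_lit 69) (nat_lit 5) (nat_lit 73) (nat_lit 5) (nat_lit 70) (nat_lit 4) (nat_lit 490) (nat_lit 327) (nat_lit 323))) (XT.nd (nat_lit 78) (nat_lit 456) (nat_lit 0) (XT.lf (nat_lit 0) (nat_lit 6399485773) (nat_lit 228) (nat_lit 1909327579) (nat_lit 0) (nat_lit 4175437321) (nat_lit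 67) (nat_lit 5) (nat_lit 70) (nat_lit 4) (nat_lit 67) (nat_lit 4) (nat_lit 491) (nat_lit 327) (nat_lit 322)) (XT.nd (nat_lit 78) (nat_lit 152) (nat_lit 0) (XT.lf (nat_lit 0) (nat_lit 33000258) (nat_lit 304) (nat_lit 2576377712) (nat_lit 76) (nat_lit 9992950442) (nat_lit 63) (nat_lit 5) (nat_lit 67) (nat_lit 5) (nat_lit 64) (nat_lit 4) (nat_lit 492) (nat_lit 327) (nat_lit 321)) (XT.lf (nat_lit 0) (nat_lit 6203439287) (nat_lit 228) (nat_lit 3308782711) (nat_lit 0) (nat_lit 3209505431) (nat_lit 61) (nat_lit 5) (nat_lit 64) (nat_lit 4) (nat_lit 61) (nat_lit 4) (nat_lit 493) (nat_lit 327) (nat_lit 320))))) (XT.nd (nat_lit 156) (nat_lit 684) (nat_lit 0) (XT.nd (nat_lit 78) (nat_lit 228) (nat_lit 0) (XT.lf (nat_lit 0) (nat_lit 8779164254) (nat_lit 228) (nat_lit 3726470254) (nat_lit 228) (nat_lit 337712968) (nat_lit 58) (nat_lit 4) (nat_lit 61) (nat_lit 5) (nat_lit 61) (nat_lit 4) (nat_lit 494) (nat_lit 327) (nat_lit 319)) (XT.lf (nat_lit 0)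 (nat_lit 5894365864) (nat_lit 228) (nat_lit 4879573582) (nat_lit 0) (nat_lit 2192562844) (nat_lit 55) (nat_lit 5) (nat_lit 58) (nat_lit 4) (nat_lit 55) (nat_lit 4) (nat_lit 495) (nat_lit 327) (nat_lit 318))) (XT.nd (nat_lit 78) (nat_lit 456) (nat_lit 0) (XT.lf (nat_lit 0) (nat_lit 7361334717) (nat_lit 228) (nat_lit 4902128408) (nat_lit 228) (nat_lit 828274451) (nat_lit 52) (nat_lit 4) (nat_lit 55) (nat_lit 5) (nat_lit 55) (nat_lit 4) (nat_lit 496) (nat_lit 327) (nat_lit 317)) (XT.nd (nat_lit 78) (nat_lit 228) (nat_lit 0) (XT.lf (nat_lit 0) (nat_lit 5467970802) (nat_lit 228) (nat_lit 6634391325) (nat_lit 0) (nat_lit 1116392589) (nat_lit 49) (nat_lit 5) (nat_lit 52) (nat_lit 4) (nat_lit 49) (nat_lit 4) (nat_lit 497) (nat_lit 327) (nat_lit 316)) (XT.lf (nat_lit 0) (nat_lit 5759915897) (nat_lit 228) (nat_lit 6144970106) (nat_lit 228) (nat_lit 1442799985) (nat_lit 46) (nat_lit 4) (nat_lit 49) (nat_lit 5) (nat_lit 49) (nat_lit 4) (nat_lit 498)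 (nat_lit 327) (nat_lit 315)))))) (XT.nd (nat_lit 390) (nat_lit 760) (nat_lit 0) (XT.nd (nat_lit 156) (nat_lit 608) (nat_lit 0) (XT.nd (nat_lit 78) (nat_lit 152) (nat_lit 0) (XT.lf (nat_lit 0) (nat_lit 4892120783) (nat_lit 152) (nat_lit 27685385) (nat_lit 228) (nat_lit 8558863079) (nat_lit 43) (nat_lit 5) (nat_lit 45) (nat_lit 5) (nat_lit 46) (nat_lit 4) (nat_lit 499) (nat_lit 327) (nat_lit 314)) (XT.lf (nat_lit 0) (nat_lit 3961692391) (nat_lit 152) (nat_lit 7463505637) (nat_lit 152) (nat_lit 2186186349) (nat_lit 41) (nat_lit 4) (nat_lit 43) (nat_lit 5) (nat_lit 43) (nat_lit 4) (nat_lit 500) (nat_lit 327) (nat_lit 313))) (XT.nd (nat_lit 78) (nat_lit 380) (nat_lit 0) (XT.lf (nat_lit 0) (nat_lit 2988978429) (nat_lit 152) (nat_lit 1263591099) (nat_lit 228) (nat_lit 9493720028) (nat_lit 38) (nat_lit 5) (nat_lit 40) (nat_lit 5) (nat_lit 41) (nat_lit 4) (nat_lit 501) (nat_lit 327) (nat_lit 312)) (XT.nd (nat_lit 78) (nat_lit 228) (nat_lit 0)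 (XT.lf (nat_lit 0) (nat_lit 1952973893) (nat_lit 152) (nat_lit 8866379661) (nat_lit 152) (nat_lit 3063679748) (nat_lit 36) (nat_lit 4) (nat_lit 38) (nat_lit 5) (nat_lit 38) (nat_lit 4) (nat_lit 502) (nat_lit 327) (nat_lit 311)) (XT.lf (nat_lit 0) (nat_lit 868478924) (nat_lit 152) (nat_lit 2585179585) (nat_lit 228) (nat_lit 10568308899) (nat_lit 33) (nat_lit 5) (nat_lit 35) (nat_lit 5) (nat_lit 36) (nat_lit 4) (nat_lit 503) (nat_lit 327) (nat_lit 310))))) (XT.nd (nat_lit 156) (nat_lit 532) (nat_lit 0) (XT.nd (nat_lit 78) (nat_lit 228) (nat_lit 0) (XT.lf (nat_lit 0) (nat_lit 10083779607) (nat_lit 228) (nat_lit 276754712) (nat_lit 0) (nat_lit 3802271682) (nat_lit 33) (nat_lit 5) (nat_lit 36) (nat_lit 4) (nat_lit 33) (nat_lit 4) (nat_lit 504) (nat_lit 327) (nat_lit 309)) (XT.lf (nat_lit 0) (nat_lit 2527095686) (nat_lit 228) (nat_lit 1464382112) (nat_lit 76) (nat_lit 10314246395) (nat_lit 30) (nat_lit 5) (nat_lit 33) (nat_lit 5) (nat_lit 31)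 (nat_lit 4) (nat_lit 505) (nat_lit 327) (nat_lit 308))) (XT.nd (nat_lit 78) (nat_lit 380) (nat_lit 0) (XT.lf (nat_lit 0) (nat_lit 9225139771) (nat_lit 228) (nat_lit 2717142149) (nat_lit 0) (nat_lit 2508391229) (nat_lit 28) (nat_lit 5) (nat_lit 31) (nat_lit 4) (nat_lit 28) (nat_lit 4) (nat_lit 506) (nat_lit 327) (nat_lit 307)) (XT.nd (nat_lit 78) (nat_lit 152) (nat_lit 0) (XT.lf (nat_lit 0) (nat_lit 1464514335) (nat_lit 228) (nat_lit 4029448532) (nat_lit 76) (nat_lit 9103868393) (nat_lit 25) (nat_lit 5) (nat_lit 28) (nat_lit 5) (nat_lit 26) (nat_lit 4) (nat_lit 507) (nat_lit 327) (nat_lit 306)) (XT.lf (nat_lit 0) (nat_lit 8224737836) (nat_lit 228) (nat_lit 5408886543) (nat_lit 0) (nat_lit 1113490444) (nat_lit 23) (nat_lit 5) (nat_lit 26) (nat_lit 4) (nat_lit 23) (nat_lit 4) (nat_lit 508) (nat_lit 327) (nat_lit 305))))))) (XT.nd (nat_lit 57876) (nat_lit 0) (nat_lit 1976) (XT.nd (nat_lit 57486) (nat_lit 0) (nat_lit 4408) (XT.nd (nat_lit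 156) (nat_lit 304) (nat_lit 0) (XT.nd (nat_lit 78) (nat_lit 76) (nat_lit 0) (XT.lf (nat_lit 0) (nat_lit 254031119) (nat_lit 228) (nat_lit 6853491737) (nat_lit 76) (nat_lit 7791109631) (nat_lit 20) (nat_lit 5) (nat_lit 23) (nat_lit 5) (nat_lit 21) (nat_lit 4) (nat_lit 509) (nat_lit 327) (nat_lit 304)) (XT.lf (nat_lit 0) (nat_lit 6682084661) (nat_lit 76) (nat_lit 396677158) (nat_lit 152) (nat_lit 7973553849) (nat_lit 19) (nat_lit 5) (nat_lit 20) (nat_lit 5) (nat_lit 21) (nat_lit 4) (nat_lit 510) (nat_lit 327) (nat_lit 303))) (XT.nd (nat_lit 78) (nat_lit 152) (nat_lit 0) (XT.lf (nat_lit 0) (nat_lit 5248422899) (nat_lit 152) (nat_lit 8834058891) (nat_lit 152) (nat_lit 1125740827) (nat_lit 17) (nat_lit 4) (nat_lit 19) (nat_lit 5) (nat_lit 19) (nat_lit 4) (nat_lit 511) (nat_lit 327) (nat_lit 302)) (XT.nd (nat_lit 57174) (nat_lit 0) (nat_lit 5396) (XT.lf (nat_lit 0) (nat_lit 3743418929) (nat_lit 76) (nat_lit 2042558940) (nat_lit 152) (nat_lit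 9580433191) (nat_lit 15) (nat_lit 5) (nat_lit 16) (nat_lit 5) (nat_lit 17) (nat_lit 4) (nat_lit 512) (nat_lit 327) (nat_lit 301)) (XT.lf (nat_lit 0) (nat_lit 481136758) (nat_lit 304) (nat_lit 4891398663) (nat_lit 0) (nat_lit 481136758) (nat_lit 86) (nat_lit 5) (nat_lit 90) (nat_lit 4) (nat_lit 86) (nat_lit 4) (nat_lit 484) (nat_lit 328) (nat_lit 328))))) (XT.nd (nat_lit 156) (nat_lit 456) (nat_lit 0) (XT.nd (nat_lit 78) (nat_lit 304) (nat_lit 0) (XT.lf (nat_lit 0) (nat_lit 1400222438) (nat_lit 228) (nat_lit 5457134354) (nat_lit 228) (nat_lit 4956402777) (nat_lit 83) (nat_lit 4) (nat_lit 86) (nat_lit 5) (nat_lit 86) (nat_lit 4) (nat_lit 485) (nat_lit 328) (nat_lit 327)) (XT.lf (nat_lit 0) (nat_lit 872266848) (nat_lit 228) (nat_lit 50461733) (nat_lit 304) (nat_lit 10999708921) (nat_lit 79) (nat_lit 5) (nat_lit 82) (nat_lit 5) (nat_lit 83) (nat_lit 4) (nat_lit 486) (nat_lit 328) (nat_lit 326))) (XT.nd (nat_lit 78) (nat_lit 228) (nat_lit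 0) (XT.lf (nat_lit 0) (nat_lit 276557145) (nat_lit 228) (nat_lit 6599830898) (nat_lit 228) (nat_lit 5155779481) (nat_lit 76) (nat_lit 4) (nat_lit 79) (nat_lit 5) (nat_lit 79) (nat_lit 4) (nat_lit 487) (nat_lit 328) (nat_lit 325)) (XT.nd (nat_lit 78) (nat_lit 152) (nat_lit 0) (XT.lf (nat_lit 0) (nat_lit 785204775) (nat_lit 304) (nat_lit 320536347) (nat_lit 76) (nat_lit 11038431800) (nat_lit 75) (nat_lit 5) (nat_lit 79) (nat_lit 5) (nat_lit 76) (nat_lit 4) (nat_lit 488) (nat_lit 328) (nat_lit 324)) (XT.lf (nat_lit 0) (nat_lit 6796360550) (nat_lit 228) (nat_lit 978507990) (nat_lit 0) (nat_lit 4482460541) (nat_lit 73) (nat_lit 5) (nat_lit 76) (nat_lit 4) (nat_lit 73) (nat_lit 4) (nat_lit 489) (nat_lit 328) (nat_lit 323)))))) (XT.nd (nat_lit 390) (nat_lit 1292) (nat_lit 0) (XT.nd (nat_lit 156) (nat_lit 684) (nat_lit 0) (XT.nd (nat_lit 78) (nat_lit 152) (nat_lit 0) (XT.lf (nat_lit 0) (nat_lit 544465831) (nat_lit 304) (nat_lit 1649995999) (nat_lit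 76) (nat_lit 10178279393) (nat_lit 69) (nat_lit 5) (nat_lit 73) (nat_lit 5) (nat_lit 70) (nat_lit 4) (nat_lit 490) (nat_lit 328) (nat_lit 322)) (XT.lf (nat_lit 0) (nat_lit 6610080108) (nat_lit 228) (nat_lit 2384204364) (nat_lit 0) (nat_lit 3495191325) (nat_lit 67) (nat_lit 5) (nat_lit 70) (nat_lit 4) (nat_lit 67) (nat_lit 4) (nat_lit 491) (nat_lit 328) (nat_lit 321))) (XT.nd (nat_lit 78) (nat_lit 380) (nat_lit 0) (XT.lf (nat_lit 0) (nat_lit 191169689) (nat_lit 304) (nat_lit 3139500306) (nat_lit 76) (nat_lit 9277747000) (nat_lit 63) (nat_lit 5) (nat_lit 67) (nat_lit 5) (nat_lit 64) (nat_lit 4) (nat_lit 492) (nat_lit 328) (nat_lit 320)) (XT.nd (nat_lit 78) (nat_lit 228) (nat_lit 0) (XT.lf (nat_lit 0) (nat_lit 6311940512) (nat_lit 228) (nat_lit 3956284215) (nat_lit 0) (nat_lit 2460584649) (nat_lit 61) (nat_lit 5) (nat_lit 64) (nat_lit 4) (nat_lit 61) (nat_lit 4) (nat_lit 493) (nat_lit 328) (nat_lit 319)) (XT.lf (nat_lit 0) (nat_lit 8048113843)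 (nat_lit 228) (nat_lit 4520828552) (nat_lit 228) (nat_lit 282390895) (nat_lit 58) (nat_lit 4) (nat_lit 61) (nat_lit 5) (nat_lit 61) (nat_lit 4) (nat_lit 494) (nat_lit 328) (nat_lit 318))))) (XT.nd (nat_lit 234) (nat_lit 608) (nat_lit 0) (XT.nd (nat_lit 78) (nat_lit 456) (nat_lit 0) (XT.lf (nat_lit 0) (nat_lit 5897805598) (nat_lit 228) (nat_lit 5707274833) (nat_lit 0) (nat_lit 1370423624) (nat_lit 55) (nat_lit 5) (nat_lit 58) (nat_lit 4) (nat_lit 55) (nat_lit 4) (nat_lit 495) (nat_lit 328) (nat_lit 317)) (XT.nd (nat_lit 78) (nat_lit 228) (nat_lit 0) (XT.lf (nat_lit 0) (nat_lit 6447539980) (nat_lit 228) (nat_lit 5773130898) (nat_lit 228) (nat_lit 880993104) (nat_lit 52) (nat_lit 4) (nat_lit 55) (nat_lit 5) (nat_lit 55) (nat_lit 4) (nat_lit 496) (nat_lit 328) (nat_lit 316)) (XT.lf (nat_lit 0) (nat_lit 5363208192) (nat_lit 228) (nat_lit 7650131721) (nat_lit 0) (nat_lit 216402761) (nat_lit 49) (nat_lit 5) (nat_lit 52) (nat_lit 4) (nat_lit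 49) (nat_lit 4) (nat_lit 497) (nat_lit 328) (nat_lit 315)))) (XT.nd (nat_lit 78) (nat_lit 380) (nat_lit 0) (XT.lf (nat_lit 0) (nat_lit 4655441897) (nat_lit 228) (nat_lit 7097350826) (nat_lit 228) (nat_lit 1606827838) (nat_lit 46) (nat_lit 4) (nat_lit 49) (nat_lit 5) (nat_lit 49) (nat_lit 4) (nat_lit 498) (nat_lit 328) (nat_lit 314)) (XT.nd (nat_lit 78) (nat_lit 152) (nat_lit 0) (XT.lf (nat_lit 0) (nat_lit 3686674683) (nat_lit 152) (nat_lit 1023313270) (nat_lit 228) (nat_lit 8781595997) (nat_lit 43) (nat_lit 5) (nat_lit 45) (nat_lit 5) (nat_lit 46) (nat_lit 4) (nat_lit 499) (nat_lit 328) (nat_lit 313)) (XT.lf (nat_lit 0) (nat_lit 2658322413) (nat_lit 152) (nat_lit 8502102378) (nat_lit 152) (nat_lit 2464973389) (nat_lit 41) (nat_lit 4) (nat_lit 43) (nat_lit 5) (nat_lit 43) (nat_lit 4) (nat_lit 500) (nat_lit 328) (nat_lit 312))))))))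
noncomputable def xc5 : XT := (XT.nd (nat_lit 58500) (nat_lit 0) (nat_lit 304) (XT.nd (nat_lit 780) (nat_lit 304) (nat_lit 0) (XT.nd (nat_lit 390) (nat_lit 836) (nat_lit 0) (XT.nd (nat_lit 156) (nat_lit 456) (nat_lit 0) (XT.nd (nat_lit 78) (nat_lit 152) (nat_lit 0) (XT.lf (nat_lit 0) (nat_lit 1580510833) (nat_lit 152) (nat_lit 2347796946) (nat_lit 228) (nat_lit 9833014404) (nat_lit 38) (nat_lit 5) (nat_lit 40) (nat_lit 5) (nat_lit 41) (nat_lit 4) (nat_lit 501) (nat_lit 328) (nat_lit 311)) (XT.lf (nat_lit 0) (nat_lit 442195689) (nat_lit 152) (nat_lit 9996143073) (nat_lit 152) (nat_lit 3460862228) (nat_lit 36) (nat_lit 4) (nat_lit 38) (nat_lit 5) (nat_lit 38) (nat_lit 4) (nat_lit 502) (nat_lit 328) (nat_lit 310))) (XT.nd (nat_lit 78) (nat_lit 380) (nat_lit 0) (XT.lf (nat_lit 0) (nat_lit 3016181355) (nat_lit 228) (nat_lit 741821323) (nat_lit 76) (nat_lit 10281094068) (nat_lit 35) (nat_lit 5) (nat_lit 38) (nat_lit 5) (nat_lit 36) (nat_lit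 4) (nat_lit 503) (nat_lit 328) (nat_lit 309)) (XT.nd (nat_lit 78) (nat_lit 228) (nat_lit 0) (XT.lf (nat_lit 0) (nat_lit 9593986880) (nat_lit 228) (nat_lit 1981113075) (nat_lit 0) (nat_lit 2605881697) (nat_lit 33) (nat_lit 5) (nat_lit 36) (nat_lit 4) (nat_lit 33) (nat_lit 4) (nat_lit 504) (nat_lit 328) (nat_lit 308)) (XT.lf (nat_lit 0) (nat_lit 1974751507) (nat_lit 228) (nat_lit 3281075250) (nat_lit 76) (nat_lit 9069159806) (nat_lit 30) (nat_lit 5) (nat_lit 33) (nat_lit 5) (nat_lit 31) (nat_lit 4) (nat_lit 505) (nat_lit 328) (nat_lit 307))))) (XT.nd (nat_lit 156) (nat_lit 456) (nat_lit 0) (XT.nd (nat_lit 78) (nat_lit 228) (nat_lit 0) (XT.lf (nat_lit 0) (nat_lit 8612877274) (nat_lit 228) (nat_lit 4643921124) (nat_lit 0) (nat_lit 1214335487) (nat_lit 28) (nat_lit 5) (nat_lit 31) (nat_lit 4) (nat_lit 28) (nat_lit 4) (nat_lit 506) (nat_lit 328) (nat_lit 306)) (XT.lf (nat_lit 0) (nat_lit 787686202) (nat_lit 228) (nat_lit 6073120507) (nat_lit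 76) (nat_lit 7758615510) (nat_lit 25) (nat_lit 5) (nat_lit 28) (nat_lit 5) (nat_lit 26) (nat_lit 4) (nat_lit 507) (nat_lit 328) (nat_lit 305))) (XT.nd (nat_lit 78) (nat_lit 304) (nat_lit 0) (XT.lf (nat_lit 0) (nat_lit 7200596091) (nat_lit 152) (nat_lit 287194839) (nat_lit 228) (nat_lit 7282117228) (nat_lit 23) (nat_lit 5) (nat_lit 25) (nat_lit 5) (nat_lit 26) (nat_lit 4) (nat_lit 508) (nat_lit 328) (nat_lit 304)) (XT.nd (nat_lit 78) (nat_lit 152) (nat_lit 0) (XT.lf (nat_lit 0) (nat_lit 5785257555) (nat_lit 152) (nat_lit 8578521376) (nat_lit 152) (nat_lit 558787262) (nat_lit 21) (nat_lit 4) (nat_lit 23) (nat_lit 5) (nat_lit 23) (nat_lit 4) (nat_lit 509) (nat_lit 328) (nat_lit 303)) (XT.lf (nat_lit 0) (nat_lit 4297219448) (nat_lit 76) (nat_lit 1921802221) (nat_lit 152) (nat_lit 8858385270) (nat_lit 19) (nat_lit 5) (nat_lit 20) (nat_lit 5) (nat_lit 21) (nat_lit 4) (nat_lit 510) (nat_lit 328) (nat_lit 302)))))) (XT.nd (nat_lit 57330) (nat_lit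 0) (nat_lit 4408) (XT.nd (nat_lit 57096) (nat_lit 0) (nat_lit 5396) (XT.nd (nat_lit 78) (nat_lit 152) (nat_lit 0) (XT.lf (nat_lit 0) (nat_lit 2742035295) (nat_lit 152) (nat_lit 10415827980) (nat_lit 152) (nat_lit 2076748182) (nat_lit 17) (nat_lit 4) (nat_lit 19) (nat_lit 5) (nat_lit 19) (nat_lit 4) (nat_lit 511) (nat_lit 328) (nat_lit 301)) (XT.lf (nat_lit 0) (nat_lit 1108771019) (nat_lit 76) (nat_lit 3682893772) (nat_lit 152) (nat_lit 10602374167) (nat_lit 15) (nat_lit 5) (nat_lit 16) (nat_lit 5) (nat_lit 17) (nat_lit 4) (nat_lit 512) (nat_lit 328) (nat_lit 300))) (XT.nd (nat_lit 78) (nat_lit 532) (nat_lit 0) (XT.lf (nat_lit 0) (nat_lit 730492058) (nat_lit 304) (nat_lit 4288058781) (nat_lit 0) (nat_lit 730492058) (nat_lit 93) (nat_lit 5) (nat_lit 97) (nat_lit 4) (nat_lit 93) (nat_lit 4) (nat_lit 482) (nat_lit 329) (nat_lit 329)) (XT.nd (nat_lit 78) (nat_lit 304) (nat_lit 0) (XT.lf (nat_lit 0) (nat_lit 2391032429) (nat_lit 228) (nat_lit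 4866005957) (nat_lit 228) (nat_lit 4345044825) (nat_lit 90) (nat_lit 4) (nat_lit 93) (nat_lit 5) (nat_lit 93) (nat_lit 4) (nat_lit 483) (nat_lit 329) (nat_lit 328)) (XT.lf (nat_lit 0) (nat_lit 1431062536) (nat_lit 304) (nat_lit 9857536219) (nat_lit 0) (nat_lit 419584751) (nat_lit 86) (nat_lit 5) (nat_lit 90) (nat_lit 4) (nat_lit 86) (nat_lit 4) (nat_lit 484) (nat_lit 329) (nat_lit 327))))) (XT.nd (nat_lit 156) (nat_lit 456) (nat_lit 0) (XT.nd (nat_lit 78) (nat_lit 304) (nat_lit 0) (XT.lf (nat_lit 0) (nat_lit 1250243118) (nat_lit 228) (nat_lit 6033794427) (nat_lit 228) (nat_lit 4531403333) (nat_lit 83) (nat_lit 4) (nat_lit 86) (nat_lit 5) (nat_lit 86) (nat_lit 4) (nat_lit 485) (nat_lit 329) (nat_lit 326)) (XT.lf (nat_lit 0) (nat_lit 641482897) (nat_lit 228) (nat_lit 658102028) (nat_lit 304) (nat_lit 10625330082) (nat_lit 79) (nat_lit 5) (nat_lit 82) (nat_lit 5) (nat_lit 83) (nat_lit 4) (nat_lit 486) (nat_lit 329) (nat_lit 325))) (XT.nd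 (nat_lit 78) (nat_lit 456) (nat_lit 0) (XT.lf (nat_lit 0) (nat_lit 7206556606) (nat_lit 304) (nat_lit 29847141) (nat_lit 0) (nat_lit 4799175036) (nat_lit 79) (nat_lit 5) (nat_lit 83) (nat_lit 4) (nat_lit 79) (nat_lit 4) (nat_lit 487) (nat_lit 329) (nat_lit 324)) (XT.nd (nat_lit 78) (nat_lit 152) (nat_lit 0) (XT.lf (nat_lit 0) (nat_lit 1066592019) (nat_lit 304) (nat_lit 706393707) (nat_lit 76) (nat_lit 10375377718) (nat_lit 75) (nat_lit 5) (nat_lit 79) (nat_lit 5) (nat_lit 76) (nat_lit 4) (nat_lit 488) (nat_lit 329) (nat_lit 323)) (XT.lf (nat_lit 0) (nat_lit 7030089967) (nat_lit 228) (nat_lit 1443023115) (nat_lit 0) (nat_lit 3789359677) (nat_lit 73) (nat_lit 5) (nat_lit 76) (nat_lit 4) (nat_lit 73) (nat_lit 4) (nat_lit 489) (nat_lit 329) (nat_lit 322))))))) (XT.nd (nat_lit 780) (nat_lit 1824) (nat_lit 0) (XT.nd (nat_lit 390) (nat_lit 1140) (nat_lit 0) (XT.nd (nat_lit 156) (nat_lit 684) (nat_lit 0) (XT.nd (nat_lit 78) (nat_lit 152) (nat_lit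 0) (XT.lf (nat_lit 0) (nat_lit 726263688) (nat_lit 304) (nat_lit 2201047217) (nat_lit 76) (nat_lit 9451420112) (nat_lit 69) (nat_lit 5) (nat_lit 73) (nat_lit 5) (nat_lit 70) (nat_lit 4) (nat_lit 490) (nat_lit 329) (nat_lit 321)) (XT.lf (nat_lit 0) (nat_lit 6742866699) (nat_lit 228) (nat_lit 3017663058) (nat_lit 0) (nat_lit 2735916060) (nat_lit 67) (nat_lit 5) (nat_lit 70) (nat_lit 4) (nat_lit 67) (nat_lit 4) (nat_lit 491) (nat_lit 329) (nat_lit 320))) (XT.nd (nat_lit 78) (nat_lit 380) (nat_lit 0) (XT.lf (nat_lit 0) (nat_lit 270590626) (nat_lit 304) (nat_lit 3863077473) (nat_lit 76) (nat_lit 8482597489) (nat_lit 63) (nat_lit 5) (nat_lit 67) (nat_lit 5) (nat_lit 64) (nat_lit 4) (nat_lit 492) (nat_lit 329) (nat_lit 319)) (XT.nd (nat_lit 78) (nat_lit 228) (nat_lit 0) (XT.lf (nat_lit 0) (nat_lit 6340909076) (nat_lit 228) (nat_lit 4766137069) (nat_lit 0) (nat_lit 1630620871) (nat_lit 61) (nat_lit 5) (nat_lit 64) (nat_lit 4) (nat_lit 61) (nat_lit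 4) (nat_lit 493) (nat_lit 329) (nat_lit 318)) (XT.lf (nat_lit 0) (nat_lit 7154024008) (nat_lit 228) (nat_lit 5398428130) (nat_lit 228) (nat_lit 308647969) (nat_lit 58) (nat_lit 4) (nat_lit 61) (nat_lit 5) (nat_lit 61) (nat_lit 4) (nat_lit 494) (nat_lit 329) (nat_lit 317))))) (XT.nd (nat_lit 156) (nat_lit 684) (nat_lit 0) (XT.nd (nat_lit 78) (nat_lit 228) (nat_lit 0) (XT.lf (nat_lit 0) (nat_lit 5819910106) (nat_lit 228) (nat_lit 6701230095) (nat_lit 0) (nat_lit 465173736) (nat_lit 55) (nat_lit 5) (nat_lit 58) (nat_lit 4) (nat_lit 55) (nat_lit 4) (nat_lit 495) (nat_lit 329) (nat_lit 316)) (XT.lf (nat_lit 0) (nat_lit 5366754232) (nat_lit 228) (nat_lit 6729495134) (nat_lit 228) (nat_lit 1017155018) (nat_lit 52) (nat_lit 4) (nat_lit 55) (nat_lit 5) (nat_lit 55) (nat_lit 4) (nat_lit 496) (nat_lit 329) (nat_lit 315))) (XT.nd (nat_lit 78) (nat_lit 456) (nat_lit 0) (XT.lf (nat_lit 0) (nat_lit 4401245287) (nat_lit 152) (nat_lit 779040509) (nat_lit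 228) (nat_lit 8062185886) (nat_lit 49) (nat_lit 5) (nat_lit 51) (nat_lit 5) (nat_lit 52) (nat_lit 4) (nat_lit 497) (nat_lit 329) (nat_lit 314)) (XT.nd (nat_lit 78) (nat_lit 228) (nat_lit 0) (XT.lf (nat_lit 0) (nat_lit 3379883712) (nat_lit 228) (nat_lit 8137274549) (nat_lit 228) (nat_lit 1856245549) (nat_lit 46) (nat_lit 4) (nat_lit 49) (nat_lit 5) (nat_lit 49) (nat_lit 4) (nat_lit 498) (nat_lit 329) (nat_lit 313)) (XT.lf (nat_lit 0) (nat_lit 2308035393) (nat_lit 152) (nat_lit 2107526477) (nat_lit 228) (nat_lit 9090803309) (nat_lit 43) (nat_lit 5) (nat_lit 45) (nat_lit 5) (nat_lit 46) (nat_lit 4) (nat_lit 499) (nat_lit 329) (nat_lit 312)))))) (XT.nd (nat_lit 390) (nat_lit 1064) (nat_lit 0) (XT.nd (nat_lit 156) (nat_lit 532) (nat_lit 0) (XT.nd (nat_lit 78) (nat_lit 76) (nat_lit 0) (XT.lf (nat_lit 0) (nat_lit 1179626870) (nat_lit 152) (nat_lit 9630488201) (nat_lit 152) (nat_lit 2831182010) (nat_lit 41) (nat_lit 4) (nat_lit 43) (nat_lit 5)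 (nat_lit 43) (nat_lit 4) (nat_lit 500) (nat_lit 329) (nat_lit 311)) (XT.lf (nat_lit 0) (nat_lit 3517438027) (nat_lit 228) (nat_lit 5396956) (nat_lit 76) (nat_lit 10255422933) (nat_lit 40) (nat_lit 5) (nat_lit 43) (nat_lit 5) (nat_lit 41) (nat_lit 4) (nat_lit 501) (nat_lit 329) (nat_lit 310))) (XT.nd (nat_lit 78) (nat_lit 380) (nat_lit 0) (XT.lf (nat_lit 0) (nat_lit 9977810874) (nat_lit 228) (nat_lit 1231932772) (nat_lit 0) (nat_lit 2707386241) (nat_lit 38) (nat_lit 5) (nat_lit 41) (nat_lit 4) (nat_lit 38) (nat_lit 4) (nat_lit 502) (nat_lit 329) (nat_lit 309)) (XT.nd (nat_lit 78) (nat_lit 152) (nat_lit 0) (XT.lf (nat_lit 0) (nat_lit 2496757736) (nat_lit 228) (nat_lit 2520333628) (nat_lit 76) (nat_lit 9040941245) (nat_lit 35) (nat_lit 5) (nat_lit 38) (nat_lit 5) (nat_lit 36) (nat_lit 4) (nat_lit 503) (nat_lit 329) (nat_lit 308)) (XT.lf (nat_lit 0) (nat_lit 9015602250) (nat_lit 228) (nat_lit 3867335110) (nat_lit 0) (nat_lit 1318159375) (nat_lit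 33) (nat_lit 5) (nat_lit 36) (nat_lit 4) (nat_lit 33) (nat_lit 4) (nat_lit 504) (nat_lit 329) (nat_lit 307))))) (XT.nd (nat_lit 234) (nat_lit 456) (nat_lit 0) (XT.nd (nat_lit 78) (nat_lit 380) (nat_lit 0) (XT.lf (nat_lit 0) (nat_lit 1332638358) (nat_lit 228) (nat_lit 5281952716) (nat_lit 76) (nat_lit 7731617547) (nat_lit 30) (nat_lit 5) (nat_lit 33) (nat_lit 5) (nat_lit 31) (nat_lit 4) (nat_lit 505) (nat_lit 329) (nat_lit 306)) (XT.nd (nat_lit 78) (nat_lit 228) (nat_lit 0) (XT.lf (nat_lit 0) (nat_lit 7735181751) (nat_lit 152) (nat_lit 175750377) (nat_lit 228) (nat_lit 6582620455) (nat_lit 28) (nat_lit 5) (nat_lit 30) (nat_lit 5) (nat_lit 31) (nat_lit 4) (nat_lit 506) (nat_lit 329) (nat_lit 305)) (XT.lf (nat_lit 0) (nat_lit 18812716) (nat_lit 228) (nat_lit 8305729684) (nat_lit 76) (nat_lit 6318472775) (nat_lit 25) (nat_lit 5) (nat_lit 28) (nat_lit 5) (nat_lit 26) (nat_lit 4) (nat_lit 507) (nat_lit 329) (nat_lit 304)))) (XT.nd (nat_lit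 78) (nat_lit 304) (nat_lit 0) (XT.lf (nat_lit 0) (nat_lit 4865500050) (nat_lit 152) (nat_lit 1800152736) (nat_lit 228) (nat_lit 8128913621) (nat_lit 23) (nat_lit 5) (nat_lit 25) (nat_lit 5) (nat_lit 26) (nat_lit 4) (nat_lit 508) (nat_lit 329) (nat_lit 303)) (XT.nd (nat_lit 78) (nat_lit 152) (nat_lit 0) (XT.lf (nat_lit 0) (nat_lit 3331213832) (nat_lit 152) (nat_lit 10146632559) (nat_lit 152) (nat_lit 1470653937) (nat_lit 21) (nat_lit 4) (nat_lit 23) (nat_lit 5) (nat_lit 23) (nat_lit 4) (nat_lit 509) (nat_lit 329) (nat_lit 302)) (XT.lf (nat_lit 0) (nat_lit 1717367602) (nat_lit 76) (nat_lit 3546990463) (nat_lit 152) (nat_lit 9840196544) (nat_lit 19) (nat_lit 5) (nat_lit 20) (nat_lit 5) (nat_lit 21) (nat_lit 4) (nat_lit 510) (nat_lit 329) (nat_lit 301))))))))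
noncomputable def xc6 : XT := (XT.nd (nat_lit 58344) (nat_lit 0) (nat_lit 0) (XT.nd (nat_lit 57564) (nat_lit 0) (nat_lit 2508) (XT.nd (nat_lit 57174) (nat_lit 0) (nat_lit 4788) (XT.nd (nat_lit 56940) (nat_lit 0) (nat_lit 5852) (XT.nd (nat_lit 78) (nat_lit 76) (nat_lit 0) (XT.lf (nat_lit 0) (nat_lit 38103935) (nat_lit 152) (nat_lit 12099043993) (nat_lit 152) (nat_lit 3125932233) (nat_lit 17) (nat_lit 4) (nat_lit 19) (nat_lit 5) (nat_lit 19) (nat_lit 4) (nat_lit 511) (nat_lit 329) (nat_lit 300)) (XT.lf (nat_lit 0) (nat_lit 3711127910) (nat_lit 228) (nat_lit 1703409911) (nat_lit 76) (nat_lit 10009008343) (nat_lit 16) (nat_lit 5) (nat_lit 19) (nat_lit 5) (nat_lit 17) (nat_lit 4) (nat_lit 512) (nat_lit 329) (nat_lit 299))) (XT.nd (nat_lit 78) (nat_lit 532) (nat_lit 0) (XT.lf (nat_lit 0) (nat_lit 985413127) (nat_lit 304) (nat_lit 3676048916) (nat_lit 0) (nat_lit 985413127) (nat_lit 100) (nat_lit 5) (nat_lit 104) (nat_lit 4) (nat_lit 100) (nat_lit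 4) (nat_lit 480) (nat_lit 330) (nat_lit 330)) (XT.nd (nat_lit 78) (nat_lit 304) (nat_lit 0) (XT.lf (nat_lit 0) (nat_lit 3403552692) (nat_lit 228) (nat_lit 4266909633) (nat_lit 228) (nat_lit 3724901672) (nat_lit 97) (nat_lit 4) (nat_lit 100) (nat_lit 5) (nat_lit 100) (nat_lit 4) (nat_lit 481) (nat_lit 330) (nat_lit 329)) (XT.lf (nat_lit 0) (nat_lit 1951030979) (nat_lit 304) (nat_lit 8649191994) (nat_lit 0) (nat_lit 898689492) (nat_lit 93) (nat_lit 5) (nat_lit 97) (nat_lit 4) (nat_lit 93) (nat_lit 4) (nat_lit 482) (nat_lit 330) (nat_lit 328))))) (XT.nd (nat_lit 156) (nat_lit 532) (nat_lit 0) (XT.nd (nat_lit 78) (nat_lit 304) (nat_lit 0) (XT.lf (nat_lit 0) (nat_lit 2244393199) (nat_lit 228) (nat_lit 5461216940) (nat_lit 228) (nat_lit 3898129245) (nat_lit 90) (nat_lit 4) (nat_lit 93) (nat_lit 5) (nat_lit 93) (nat_lit 4) (nat_lit 483) (nat_lit 330) (nat_lit 327)) (XT.lf (nat_lit 0) (nat_lit 1627595636) (nat_lit 228) (nat_lit 199837485) (nat_lit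 304) (nat_lit 9883242195) (nat_lit 86) (nat_lit 5) (nat_lit 89) (nat_lit 5) (nat_lit 90) (nat_lit 4) (nat_lit 484) (nat_lit 330) (nat_lit 326))) (XT.nd (nat_lit 78) (nat_lit 304) (nat_lit 0) (XT.lf (nat_lit 0) (nat_lit 950225661) (nat_lit 228) (nat_lit 6686609140) (nat_lit 228) (nat_lit 4181969355) (nat_lit 83) (nat_lit 4) (nat_lit 86) (nat_lit 5) (nat_lit 86) (nat_lit 4) (nat_lit 485) (nat_lit 330) (nat_lit 325)) (XT.nd (nat_lit 78) (nat_lit 0) (nat_lit 0) (XT.lf (nat_lit 0) (nat_lit 258916796) (nat_lit 228) (nat_lit 1342769901) (nat_lit 304) (nat_lit 10327401199) (nat_lit 79) (nat_lit 5) (nat_lit 82) (nat_lit 5) (nat_lit 83) (nat_lit 4) (nat_lit 486) (nat_lit 330) (nat_lit 324)) (XT.lf (nat_lit 0) (nat_lit 7464068957) (nat_lit 304) (nat_lit 484161341) (nat_lit 0) (nat_lit 4092413163) (nat_lit 79) (nat_lit 5) (nat_lit 83) (nat_lit 4) (nat_lit 79) (nat_lit 4) (nat_lit 487) (nat_lit 330) (nat_lit 323)))))) (XT.nd (nat_lit 390) (nat_lit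 1064) (nat_lit 0) (XT.nd (nat_lit 156) (nat_lit 760) (nat_lit 0) (XT.nd (nat_lit 78) (nat_lit 152) (nat_lit 0) (XT.lf (nat_lit 0) (nat_lit 1272634881) (nat_lit 304) (nat_lit 1245568641) (nat_lit 76) (nat_lit 9636053695) (nat_lit 75) (nat_lit 5) (nat_lit 79) (nat_lit 5) (nat_lit 76) (nat_lit 4) (nat_lit 488) (nat_lit 330) (nat_lit 322)) (XT.lf (nat_lit 0) (nat_lit 7187752818) (nat_lit 228) (nat_lit 2062659941) (nat_lit 0) (nat_lit 3018921373) (nat_lit 73) (nat_lit 5) (nat_lit 76) (nat_lit 4) (nat_lit 73) (nat_lit 4) (nat_lit 489) (nat_lit 330) (nat_lit 321))) (XT.nd (nat_lit 78) (nat_lit 456) (nat_lit 0) (XT.lf (nat_lit 0) (nat_lit 831068449) (nat_lit 304) (nat_lit 2909062961) (nat_lit 76) (nat_lit 8646321779) (nat_lit 69) (nat_lit 5) (nat_lit 73) (nat_lit 5) (nat_lit 70) (nat_lit 4) (nat_lit 490) (nat_lit 330) (nat_lit 320)) (XT.nd (nat_lit 78) (nat_lit 304) (nat_lit 0) (XT.lf (nat_lit 0) (nat_lit 6797897618) (nat_lit 228) (nat_lit 3809952077)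 (nat_lit 0) (nat_lit 1897313770) (nat_lit 67) (nat_lit 5) (nat_lit 70) (nat_lit 4) (nat_lit 67) (nat_lit 4) (nat_lit 491) (nat_lit 330) (nat_lit 319)) (XT.lf (nat_lit 0) (nat_lit 271294213) (nat_lit 304) (nat_lit 4747392969) (nat_lit 76) (nat_lit 7607190086) (nat_lit 63) (nat_lit 5) (nat_lit 67) (nat_lit 5) (nat_lit 64) (nat_lit 4) (nat_lit 492) (nat_lit 330) (nat_lit 318))))) (XT.nd (nat_lit 156) (nat_lit 684) (nat_lit 0) (XT.nd (nat_lit 78) (nat_lit 228) (nat_lit 0) (XT.lf (nat_lit 0) (nat_lit 6290356340) (nat_lit 228) (nat_lit 5738658861) (nat_lit 0) (nat_lit 719288620) (nat_lit 61) (nat_lit 5) (nat_lit 64) (nat_lit 4) (nat_lit 61) (nat_lit 4) (nat_lit 493) (nat_lit 330) (nat_lit 317)) (XT.lf (nat_lit 0) (nat_lit 6096544125) (nat_lit 228) (nat_lit 6359613143) (nat_lit 228) (nat_lit 416494487) (nat_lit 58) (nat_lit 4) (nat_lit 61) (nat_lit 5) (nat_lit 61) (nat_lit 4) (nat_lit 494) (nat_lit 330) (nat_lit 316))) (XT.nd (nat_lit 78) (nat_lit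 456) (nat_lit 0) (XT.lf (nat_lit 0) (nat_lit 5133593780) (nat_lit 152) (nat_lit 530499416) (nat_lit 228) (nat_lit 7334774090) (nat_lit 55) (nat_lit 5) (nat_lit 57) (nat_lit 5) (nat_lit 58) (nat_lit 4) (nat_lit 495) (nat_lit 330) (nat_lit 315)) (XT.nd (nat_lit 78) (nat_lit 228) (nat_lit 0) (XT.lf (nat_lit 0) (nat_lit 4118553635) (nat_lit 228) (nat_lit 7771596161) (nat_lit 228) (nat_lit 1236813589) (nat_lit 52) (nat_lit 4) (nat_lit 55) (nat_lit 5) (nat_lit 55) (nat_lit 4) (nat_lit 496) (nat_lit 330) (nat_lit 314)) (XT.lf (nat_lit 0) (nat_lit 3051938770) (nat_lit 152) (nat_lit 1864120090) (nat_lit 228) (nat_lit 8340949334) (nat_lit 49) (nat_lit 5) (nat_lit 51) (nat_lit 5) (nat_lit 52) (nat_lit 4) (nat_lit 497) (nat_lit 330) (nat_lit 313))))))) (XT.nd (nat_lit 780) (nat_lit 760) (nat_lit 0) (XT.nd (nat_lit 390) (nat_lit 912) (nat_lit 0) (XT.nd (nat_lit 156) (nat_lit 380) (nat_lit 0) (XT.nd (nat_lit 78) (nat_lit 228) (nat_lit 0) (XT.lf (nat_lit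 0) (nat_lit 1932741125) (nat_lit 228) (nat_lit 9265149089) (nat_lit 228) (nat_lit 2191150928) (nat_lit 46) (nat_lit 4) (nat_lit 49) (nat_lit 5) (nat_lit 49) (nat_lit 4) (nat_lit 498) (nat_lit 330) (nat_lit 312)) (XT.lf (nat_lit 0) (nat_lit 755662268) (nat_lit 152) (nat_lit 3280750186) (nat_lit 228) (nat_lit 9486606272) (nat_lit 43) (nat_lit 5) (nat_lit 45) (nat_lit 5) (nat_lit 46) (nat_lit 4) (nat_lit 499) (nat_lit 330) (nat_lit 311))) (XT.nd (nat_lit 78) (nat_lit 380) (nat_lit 0) (XT.lf (nat_lit 0) (nat_lit 10377215339) (nat_lit 228) (nat_lit 468744746) (nat_lit 0) (nat_lit 2813065551) (nat_lit 43) (nat_lit 5) (nat_lit 46) (nat_lit 4) (nat_lit 43) (nat_lit 4) (nat_lit 500) (nat_lit 330) (nat_lit 310)) (XT.nd (nat_lit 78) (nat_lit 152) (nat_lit 0) (XT.lf (nat_lit 0) (nat_lit 3031181914) (nat_lit 228) (nat_lit 1746373674) (nat_lit 76) (nat_lit 9019320157) (nat_lit 40) (nat_lit 5) (nat_lit 43) (nat_lit 5) (nat_lit 41) (nat_lit 4) (nat_lit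 501) (nat_lit 330) (nat_lit 309)) (XT.lf (nat_lit 0) (nat_lit 9433523498) (nat_lit 228) (nat_lit 3078280913) (nat_lit 0) (nat_lit 1425103930) (nat_lit 38) (nat_lit 5) (nat_lit 41) (nat_lit 4) (nat_lit 38) (nat_lit 4) (nat_lit 502) (nat_lit 330) (nat_lit 308))))) (XT.nd (nat_lit 156) (nat_lit 532) (nat_lit 0) (XT.nd (nat_lit 78) (nat_lit 152) (nat_lit 0) (XT.lf (nat_lit 0) (nat_lit 1889545216) (nat_lit 228) (nat_lit 4479145705) (nat_lit 76) (nat_lit 7710204279) (nat_lit 35) (nat_lit 5) (nat_lit 38) (nat_lit 5) (nat_lit 36) (nat_lit 4) (nat_lit 503) (nat_lit 330) (nat_lit 307)) (XT.lf (nat_lit 0) (nat_lit 8286586602) (nat_lit 152) (nat_lit 62216248) (nat_lit 228) (nat_lit 5874348214) (nat_lit 33) (nat_lit 5) (nat_lit 35) (nat_lit 5) (nat_lit 36) (nat_lit 4) (nat_lit 504) (nat_lit 330) (nat_lit 306))) (XT.nd (nat_lit 78) (nat_lit 304) (nat_lit 0) (XT.lf (nat_lit 0) (nat_lit 600504430) (nat_lit 228) (nat_lit 7467799170) (nat_lit 76) (nat_lit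 6301095092) (nat_lit 30) (nat_lit 5) (nat_lit 33) (nat_lit 5) (nat_lit 31) (nat_lit 4) (nat_lit 505) (nat_lit 330) (nat_lit 305)) (XT.nd (nat_lit 78) (nat_lit 152) (nat_lit 0) (XT.lf (nat_lit 0) (nat_lit 5449000504) (nat_lit 152) (nat_lit 1677496265) (nat_lit 228) (nat_lit 7391291913) (nat_lit 28) (nat_lit 5) (nat_lit 30) (nat_lit 5) (nat_lit 31) (nat_lit 4) (nat_lit 506) (nat_lit 330) (nat_lit 304)) (XT.lf (nat_lit 0) (nat_lit 3934814784) (nat_lit 152) (nat_lit 9880090955) (nat_lit 152) (nat_lit 853602796) (nat_lit 26) (nat_lit 4) (nat_lit 28) (nat_lit 5) (nat_lit 28) (nat_lit 4) (nat_lit 507) (nat_lit 330) (nat_lit 303)))))) (XT.nd (nat_lit 57018) (nat_lit 0) (nat_lit 5624) (XT.nd (nat_lit 156) (nat_lit 380) (nat_lit 0) (XT.nd (nat_lit 78) (nat_lit 152) (nat_lit 0) (XT.lf (nat_lit 0) (nat_lit 2339496541) (nat_lit 152) (nat_lit 3411178861) (nat_lit 228) (nat_lit 9070570348) (nat_lit 23) (nat_lit 5) (nat_lit 25) (nat_lit 5) (nat_lit 26)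 (nat_lit 4) (nat_lit 508) (nat_lit 330) (nat_lit 302)) (XT.lf (nat_lit 0) (nat_lit 683751896) (nat_lit 152) (nat_lit 11814176036) (nat_lit 152) (nat_lit 2478550561) (nat_lit 21) (nat_lit 4) (nat_lit 23) (nat_lit 5) (nat_lit 23) (nat_lit 4) (nat_lit 509) (nat_lit 330) (nat_lit 301))) (XT.nd (nat_lit 78) (nat_lit 304) (nat_lit 0) (XT.lf (nat_lit 0) (nat_lit 4221269001) (nat_lit 228) (nat_lit 1044600394) (nat_lit 76) (nat_lit 9867762481) (nat_lit 20) (nat_lit 5) (nat_lit 23) (nat_lit 5) (nat_lit 21) (nat_lit 4) (nat_lit 510) (nat_lit 330) (nat_lit 300)) (XT.nd (nat_lit 78) (nat_lit 228) (nat_lit 0) (XT.lf (nat_lit 0) (nat_lit 11038533260) (nat_lit 152) (nat_lit 2826864009) (nat_lit 0) (nat_lit 1427870672) (nat_lit 19) (nat_lit 5) (nat_lit 21) (nat_lit 4) (nat_lit 19) (nat_lit 4) (nat_lit 511) (nat_lit 330) (nat_lit 299)) (XT.lf (nat_lit 0) (nat_lit 2541238181) (nat_lit 228) (nat_lit 4699691394) (nat_lit 76) (nat_lit 8214068781) (nat_lit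 16) (nat_lit 5) (nat_lit 19) (nat_lit 5) (nat_lit 17) (nat_lit 4) (nat_lit 512) (nat_lit 330) (nat_lit 298))))) (XT.nd (nat_lit 234) (nat_lit 760) (nat_lit 0) (XT.nd (nat_lit 78) (nat_lit 608) (nat_lit 0) (XT.lf (nat_lit 0) (nat_lit 1246213220) (nat_lit 304) (nat_lit 3054710861) (nat_lit 0) (nat_lit 1246213220) (nat_lit 108) (nat_lit 5) (nat_lit 112) (nat_lit 4) (nat_lit 108) (nat_lit 4) (nat_lit 478) (nat_lit 331) (nat_lit 331)) (XT.nd (nat_lit 78) (nat_lit 304) (nat_lit 0) (XT.lf (nat_lit 0) (nat_lit 4439019508) (nat_lit 304) (nat_lit 3659211444) (nat_lit 304) (nat_lit 3095306361) (nat_lit 104) (nat_lit 4) (nat_lit 108) (nat_lit 5) (nat_lit 108) (nat_lit 4) (nat_lit 479) (nat_lit 331) (nat_lit 330)) (XT.lf (nat_lit 0) (nat_lit 2482944313) (nat_lit 304) (nat_lit 7423532400) (nat_lit 0) (nat_lit 1388088231) (nat_lit 100) (nat_lit 5) (nat_lit 104) (nat_lit 4) (nat_lit 100) (nat_lit 4) (nat_lit 480) (nat_lit 331) (nat_lit 329)))) (XT.nd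 (nat_lit 78) (nat_lit 532) (nat_lit 0) (XT.lf (nat_lit 0) (nat_lit 3260204193) (nat_lit 228) (nat_lit 4881514043) (nat_lit 228) (nat_lit 3255277605) (nat_lit 97) (nat_lit 4) (nat_lit 100) (nat_lit 5) (nat_lit 100) (nat_lit 4) (nat_lit 481) (nat_lit 331) (nat_lit 328)) (XT.nd (nat_lit 78) (nat_lit 228) (nat_lit 0) (XT.lf (nat_lit 0) (nat_lit 2369022255) (nat_lit 304) (nat_lit 8868443944) (nat_lit 0) (nat_lit 263926599) (nat_lit 93) (nat_lit 5) (nat_lit 97) (nat_lit 4) (nat_lit 93) (nat_lit 4) (nat_lit 482) (nat_lit 331) (nat_lit 327)) (XT.lf (nat_lit 0) (nat_lit 1951057233) (nat_lit 228) (nat_lit 6130911188) (nat_lit 228) (nat_lit 3525083956) (nat_lit 90) (nat_lit 4) (nat_lit 93) (nat_lit 5) (nat_lit 93) (nat_lit 4) (nat_lit 483) (nat_lit 331) (nat_lit 326))))))))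
noncomputable def xc7 : XT := (XT.nd (nat_lit 1638) (nat_lit 1292) (nat_lit 0) (XT.nd (nat_lit 780) (nat_lit 2128) (nat_lit 0) (XT.nd (nat_lit 390) (nat_lit 1064) (nat_lit 0) (XT.nd (nat_lit 156) (nat_lit 608) (nat_lit 0) (XT.nd (nat_lit 78) (nat_lit 228) (nat_lit 0) (XT.lf (nat_lit 0) (nat_lit 1253313965) (nat_lit 228) (nat_lit 900178365) (nat_lit 304) (nat_lit 9561289410) (nat_lit 86) (nat_lit 5) (nat_lit 89) (nat_lit 5) (nat_lit 90) (nat_lit 4) (nat_lit 484) (nat_lit 331) (nat_lit 325)) (XT.lf (nat_lit 0) (nat_lit 500052414) (nat_lit 228) (nat_lit 7415834497) (nat_lit 228) (nat_lit 3907963810) (nat_lit 83) (nat_lit 4) (nat_lit 86) (nat_lit 5) (nat_lit 86) (nat_lit 4) (nat_lit 485) (nat_lit 331) (nat_lit 324))) (XT.nd (nat_lit 78) (nat_lit 532) (nat_lit 0) (XT.lf (nat_lit 0) (nat_lit 1830941625) (nat_lit 304) (nat_lit 271967180) (nat_lit 76) (nat_lit 9832013214) (nat_lit 82) (nat_lit 5) (nat_lit 86) (nat_lit 5) (nat_lit 83) (nat_lit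 4) (nat_lit 486) (nat_lit 331) (nat_lit 323)) (XT.nd (nat_lit 78) (nat_lit 304) (nat_lit 0) (XT.lf (nat_lit 0) (nat_lit 7647230488) (nat_lit 304) (nat_lit 1090190712) (nat_lit 0) (nat_lit 3309978252) (nat_lit 79) (nat_lit 5) (nat_lit 83) (nat_lit 4) (nat_lit 79) (nat_lit 4) (nat_lit 487) (nat_lit 331) (nat_lit 322)) (XT.lf (nat_lit 0) (nat_lit 1403414165) (nat_lit 304) (nat_lit 1938272592) (nat_lit 76) (nat_lit 8820169799) (nat_lit 75) (nat_lit 5) (nat_lit 79) (nat_lit 5) (nat_lit 76) (nat_lit 4) (nat_lit 488) (nat_lit 331) (nat_lit 321))))) (XT.nd (nat_lit 156) (nat_lit 608) (nat_lit 0) (XT.nd (nat_lit 78) (nat_lit 304) (nat_lit 0) (XT.lf (nat_lit 0) (nat_lit 7269410933) (nat_lit 228) (nat_lit 2837661465) (nat_lit 0) (nat_lit 2170843497) (nat_lit 73) (nat_lit 5) (nat_lit 76) (nat_lit 4) (nat_lit 73) (nat_lit 4) (nat_lit 489) (nat_lit 331) (nat_lit 320)) (XT.lf (nat_lit 0) (nat_lit 858921213) (nat_lit 304) (nat_lit 3774320882) (nat_lit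 76) (nat_lit 7762668670) (nat_lit 69) (nat_lit 5) (nat_lit 73) (nat_lit 5) (nat_lit 70) (nat_lit 4) (nat_lit 490) (nat_lit 331) (nat_lit 319))) (XT.nd (nat_lit 78) (nat_lit 456) (nat_lit 0) (XT.lf (nat_lit 0) (nat_lit 6775194447) (nat_lit 228) (nat_lit 4761382121) (nat_lit 0) (nat_lit 979055592) (nat_lit 67) (nat_lit 5) (nat_lit 70) (nat_lit 4) (nat_lit 67) (nat_lit 4) (nat_lit 491) (nat_lit 331) (nat_lit 318)) (XT.nd (nat_lit 78) (nat_lit 152) (nat_lit 0) (XT.lf (nat_lit 0) (nat_lit 193280726) (nat_lit 304) (nat_lit 5792793583) (nat_lit 76) (nat_lit 6651181494) (nat_lit 63) (nat_lit 5) (nat_lit 67) (nat_lit 5) (nat_lit 64) (nat_lit 4) (nat_lit 492) (nat_lit 331) (nat_lit 317)) (XT.lf (nat_lit 0) (nat_lit 5884655854) (nat_lit 152) (nat_lit 277407739) (nat_lit 228) (nat_lit 6598624349) (nat_lit 61) (nat_lit 5) (nat_lit 63) (nat_lit 5) (nat_lit 64) (nat_lit 4) (nat_lit 493) (nat_lit 331) (nat_lit 316)))))) (XT.nd (nat_lit 390) (nat_lit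 988) (nat_lit 0) (XT.nd (nat_lit 156) (nat_lit 684) (nat_lit 0) (XT.nd (nat_lit 78) (nat_lit 228) (nat_lit 0) (XT.lf (nat_lit 0) (nat_lit 4875259497) (nat_lit 228) (nat_lit 7404760529) (nat_lit 228) (nat_lit 605972741) (nat_lit 58) (nat_lit 4) (nat_lit 61) (nat_lit 5) (nat_lit 61) (nat_lit 4) (nat_lit 494) (nat_lit 331) (nat_lit 315)) (XT.lf (nat_lit 0) (nat_lit 3813137829) (nat_lit 152) (nat_lit 1617322251) (nat_lit 228) (nat_lit 7582705620) (nat_lit 55) (nat_lit 5) (nat_lit 57) (nat_lit 5) (nat_lit 58) (nat_lit 4) (nat_lit 495) (nat_lit 331) (nat_lit 314))) (XT.nd (nat_lit 78) (nat_lit 456) (nat_lit 0) (XT.lf (nat_lit 0) (nat_lit 2702448699) (nat_lit 228) (nat_lit 8899842647) (nat_lit 228) (nat_lit 1540054960) (nat_lit 52) (nat_lit 4) (nat_lit 55) (nat_lit 5) (nat_lit 55) (nat_lit 4) (nat_lit 496) (nat_lit 331) (nat_lit 313)) (XT.nd (nat_lit 78) (nat_lit 228) (nat_lit 0) (XT.lf (nat_lit 0) (nat_lit 1532614438) (nat_lit 152) (nat_lit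 3036385621) (nat_lit 228) (nat_lit 8704386321) (nat_lit 49) (nat_lit 5) (nat_lit 51) (nat_lit 5) (nat_lit 52) (nat_lit 4) (nat_lit 497) (nat_lit 331) (nat_lit 312)) (XT.lf (nat_lit 0) (nat_lit 313446628) (nat_lit 228) (nat_lit 10481416751) (nat_lit 228) (nat_lit 2611675311) (nat_lit 46) (nat_lit 4) (nat_lit 49) (nat_lit 5) (nat_lit 49) (nat_lit 4) (nat_lit 498) (nat_lit 331) (nat_lit 311))))) (XT.nd (nat_lit 234) (nat_lit 532) (nat_lit 0) (XT.nd (nat_lit 78) (nat_lit 380) (nat_lit 0) (XT.lf (nat_lit 0) (nat_lit 3578695746) (nat_lit 304) (nat_lit 958317922) (nat_lit 76) (nat_lit 9004411363) (nat_lit 45) (nat_lit 5) (nat_lit 49) (nat_lit 5) (nat_lit 46) (nat_lit 4) (nat_lit 499) (nat_lit 331) (nat_lit 310)) (XT.nd (nat_lit 78) (nat_lit 228) (nat_lit 0) (XT.lf (nat_lit 0) (nat_lit 9867276000) (nat_lit 228) (nat_lit 2275884112) (nat_lit 0) (nat_lit 1535316282) (nat_lit 43) (nat_lit 5) (nat_lit 46) (nat_lit 4) (nat_lit 43) (nat_lit 4) (nat_lit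 500) (nat_lit 331) (nat_lit 309)) (XT.lf (nat_lit 0) (nat_lit 2459087027) (nat_lit 228) (nat_lit 3663830739) (nat_lit 76) (nat_lit 7694470437) (nat_lit 40) (nat_lit 5) (nat_lit 43) (nat_lit 5) (nat_lit 41) (nat_lit 4) (nat_lit 501) (nat_lit 331) (nat_lit 308)))) (XT.nd (nat_lit 78) (nat_lit 380) (nat_lit 0) (XT.lf (nat_lit 0) (nat_lit 8802392160) (nat_lit 228) (nat_lit 5103372267) (nat_lit 0) (nat_lit 52837101) (nat_lit 38) (nat_lit 5) (nat_lit 41) (nat_lit 4) (nat_lit 38) (nat_lit 4) (nat_lit 502) (nat_lit 331) (nat_lit 307)) (XT.nd (nat_lit 78) (nat_lit 152) (nat_lit 0) (XT.lf (nat_lit 0) (nat_lit 1194305671) (nat_lit 228) (nat_lit 6619025714) (nat_lit 76) (nat_lit 6288361312) (nat_lit 35) (nat_lit 5) (nat_lit 38) (nat_lit 5) (nat_lit 36) (nat_lit 4) (nat_lit 503) (nat_lit 331) (nat_lit 306)) (XT.lf (nat_lit 0) (nat_lit 6048487429) (nat_lit 152) (nat_lit 1553715504) (nat_lit 228) (nat_lit 6644772834) (nat_lit 33) (nat_lit 5) (nat_lit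 35) (nat_lit 5) (nat_lit 36) (nat_lit 4) (nat_lit 504) (nat_lit 331) (nat_lit 305))))))) (XT.nd (nat_lit 57252) (nat_lit 0) (nat_lit 4484) (XT.nd (nat_lit 390) (nat_lit 532) (nat_lit 0) (XT.nd (nat_lit 156) (nat_lit 380) (nat_lit 0) (XT.nd (nat_lit 78) (nat_lit 228) (nat_lit 0) (XT.lf (nat_lit 0) (nat_lit 4553604746) (nat_lit 152) (nat_lit 9616045100) (nat_lit 152) (nat_lit 224886820) (nat_lit 31) (nat_lit 4) (nat_lit 33) (nat_lit 5) (nat_lit 33) (nat_lit 4) (nat_lit 505) (nat_lit 331) (nat_lit 304)) (XT.lf (nat_lit 0) (nat_lit 2975921308) (nat_lit 152) (nat_lit 3275353216) (nat_lit 228) (nat_lit 8292736942) (nat_lit 28) (nat_lit 5) (nat_lit 30) (nat_lit 5) (nat_lit 31) (nat_lit 4) (nat_lit 506) (nat_lit 331) (nat_lit 303))) (XT.nd (nat_lit 78) (nat_lit 228) (nat_lit 0) (XT.lf (nat_lit 0) (nat_lit 1342854455) (nat_lit 152) (nat_lit 11532969401) (nat_lit 152) (nat_lit 1820184657) (nat_lit 26) (nat_lit 4) (nat_lit 28) (nat_lit 5) (nat_lit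 28) (nat_lit 4) (nat_lit 507) (nat_lit 331) (nat_lit 302)) (XT.nd (nat_lit 78) (nat_lit 152) (nat_lit 0) (XT.lf (nat_lit 0) (nat_lit 4744956821) (nat_lit 228) (nat_lit 373442175) (nat_lit 76) (nat_lit 9731508518) (nat_lit 25) (nat_lit 5) (nat_lit 28) (nat_lit 5) (nat_lit 26) (nat_lit 4) (nat_lit 508) (nat_lit 331) (nat_lit 301)) (XT.lf (nat_lit 0) (nat_lit 11437651519) (nat_lit 228) (nat_lit 2129861731) (nat_lit 0) (nat_lit 1438718162) (nat_lit 23) (nat_lit 5) (nat_lit 26) (nat_lit 4) (nat_lit 23) (nat_lit 4) (nat_lit 509) (nat_lit 331) (nat_lit 300))))) (XT.nd (nat_lit 156) (nat_lit 228) (nat_lit 0) (XT.nd (nat_lit 78) (nat_lit 76) (nat_lit 0) (XT.lf (nat_lit 0) (nat_lit 3094900264) (nat_lit 228) (nat_lit 3978546885) (nat_lit 76) (nat_lit 8091091898) (nat_lit 20) (nat_lit 5) (nat_lit 23) (nat_lit 5) (nat_lit 21) (nat_lit 4) (nat_lit 510) (nat_lit 331) (nat_lit 299)) (XT.lf (nat_lit 0) (nat_lit 9434338687) (nat_lit 76) (nat_lit 412869549)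 (nat_lit 152) (nat_lit 5478266001) (nat_lit 19) (nat_lit 5) (nat_lit 20) (nat_lit 5) (nat_lit 21) (nat_lit 4) (nat_lit 511) (nat_lit 331) (nat_lit 298))) (XT.nd (nat_lit 56550) (nat_lit 0) (nat_lit 7296) (XT.lf (nat_lit 0) (nat_lit 1274337946) (nat_lit 228) (nat_lit 7895790174) (nat_lit 76) (nat_lit 6318423727) (nat_lit 16) (nat_lit 5) (nat_lit 19) (nat_lit 5) (nat_lit 17) (nat_lit 4) (nat_lit 512) (nat_lit 331) (nat_lit 297)) (XT.nd (nat_lit 78) (nat_lit 304) (nat_lit 0) (XT.lf (nat_lit 0) (nat_lit 1513216511) (nat_lit 304) (nat_lit 2423365856) (nat_lit 0) (nat_lit 1513216511) (nat_lit 116) (nat_lit 5) (nat_lit 120) (nat_lit 4) (nat_lit 116) (nat_lit 4) (nat_lit 476) (nat_lit 332) (nat_lit 332)) (XT.lf (nat_lit 0) (nat_lit 5498712060) (nat_lit 304) (nat_lit 3042257961) (nat_lit 304) (nat_lit 2455571112) (nat_lit 112) (nat_lit 4) (nat_lit 116) (nat_lit 5) (nat_lit 116) (nat_lit 4) (nat_lit 477) (nat_lit 332) (nat_lit 331)))))) (XT.nd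 (nat_lit 390) (nat_lit 1368) (nat_lit 0) (XT.nd (nat_lit 156) (nat_lit 836) (nat_lit 0) (XT.nd (nat_lit 78) (nat_lit 304) (nat_lit 0) (XT.lf (nat_lit 0) (nat_lit 3027462796) (nat_lit 304) (nat_lit 6179240218) (nat_lit 0) (nat_lit 1888374528) (nat_lit 108) (nat_lit 5) (nat_lit 112) (nat_lit 4) (nat_lit 108) (nat_lit 4) (nat_lit 478) (nat_lit 332) (nat_lit 330)) (XT.lf (nat_lit 0) (nat_lit 4298914000) (nat_lit 304) (nat_lit 4294084012) (nat_lit 304) (nat_lit 2602147623) (nat_lit 104) (nat_lit 4) (nat_lit 108) (nat_lit 5) (nat_lit 108) (nat_lit 4) (nat_lit 479) (nat_lit 332) (nat_lit 329))) (XT.nd (nat_lit 78) (nat_lit 532) (nat_lit 0) (XT.lf (nat_lit 0) (nat_lit 2924643236) (nat_lit 304) (nat_lit 7637864117) (nat_lit 0) (nat_lit 734501715) (nat_lit 100) (nat_lit 5) (nat_lit 104) (nat_lit 4) (nat_lit 100) (nat_lit 4) (nat_lit 480) (nat_lit 332) (nat_lit 328)) (XT.nd (nat_lit 78) (nat_lit 304) (nat_lit 0) (XT.lf (nat_lit 0) (nat_lit 2973450981)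 (nat_lit 228) (nat_lit 5568955921) (nat_lit 228) (nat_lit 2857853268) (nat_lit 97) (nat_lit 4) (nat_lit 100) (nat_lit 5) (nat_lit 100) (nat_lit 4) (nat_lit 481) (nat_lit 332) (nat_lit 327)) (XT.lf (nat_lit 0) (nat_lit 2268591898) (nat_lit 228) (nat_lit 449448081) (nat_lit 304) (nat_lit 8787429427) (nat_lit 93) (nat_lit 5) (nat_lit 96) (nat_lit 5) (nat_lit 97) (nat_lit 4) (nat_lit 482) (nat_lit 332) (nat_lit 326))))) (XT.nd (nat_lit 234) (nat_lit 836) (nat_lit 0) (XT.nd (nat_lit 78) (nat_lit 304) (nat_lit 0) (XT.lf (nat_lit 0) (nat_lit 1510909498) (nat_lit 228) (nat_lit 6875351328) (nat_lit 228) (nat_lit 3225762665) (nat_lit 90) (nat_lit 4) (nat_lit 93) (nat_lit 5) (nat_lit 93) (nat_lit 4) (nat_lit 483) (nat_lit 332) (nat_lit 325)) (XT.nd (nat_lit 78) (nat_lit 0) (nat_lit 0) (XT.lf (nat_lit 0) (nat_lit 730471130) (nat_lit 228) (nat_lit 1676136469) (nat_lit 304) (nat_lit 9313951994) (nat_lit 86) (nat_lit 5) (nat_lit 89) (nat_lit 5) (nat_lit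 90) (nat_lit 4) (nat_lit 484) (nat_lit 332) (nat_lit 324)) (XT.lf (nat_lit 0) (nat_lit 8121955517) (nat_lit 304) (nat_lit 99135700) (nat_lit 0) (nat_lit 3609478291) (nat_lit 86) (nat_lit 5) (nat_lit 90) (nat_lit 4) (nat_lit 86) (nat_lit 4) (nat_lit 485) (nat_lit 332) (nat_lit 323)))) (XT.nd (nat_lit 78) (nat_lit 532) (nat_lit 0) (XT.lf (nat_lit 0) (nat_lit 1988318519) (nat_lit 304) (nat_lit 949601832) (nat_lit 76) (nat_lit 9004481738) (nat_lit 82) (nat_lit 5) (nat_lit 86) (nat_lit 5) (nat_lit 83) (nat_lit 4) (nat_lit 486) (nat_lit 332) (nat_lit 322)) (XT.nd (nat_lit 78) (nat_lit 304) (nat_lit 0) (XT.lf (nat_lit 0) (nat_lit 7756113028) (nat_lit 304) (nat_lit 1848172913) (nat_lit 0) (nat_lit 2451563467) (nat_lit 79) (nat_lit 5) (nat_lit 83) (nat_lit 4) (nat_lit 79) (nat_lit 4) (nat_lit 487) (nat_lit 332) (nat_lit 321)) (XT.lf (nat_lit 0) (nat_lit 1458981154) (nat_lit 304) (nat_lit 2784777207) (nat_lit 76) (nat_lit 7927406078) (nat_lit 75)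 (nat_lit 5) (nat_lit 79) (nat_lit 5) (nat_lit 76) (nat_lit 4) (nat_lit 488) (nat_lit 332) (nat_lit 320))))))))
noncomputable def xc8 : XT := (XT.nd (nat_lit 1560) (nat_lit 608) (nat_lit 0) (XT.nd (nat_lit 780) (nat_lit 1824) (nat_lit 0) (XT.nd (nat_lit 390) (nat_lit 912) (nat_lit 0) (XT.nd (nat_lit 156) (nat_lit 608) (nat_lit 0) (XT.nd (nat_lit 78) (nat_lit 304) (nat_lit 0) (XT.lf (nat_lit 0) (nat_lit 7275096334) (nat_lit 228) (nat_lit 3768331607) (nat_lit 0) (nat_lit 1244793468) (nat_lit 73) (nat_lit 5) (nat_lit 76) (nat_lit 4) (nat_lit 73) (nat_lit 4) (nat_lit 489) (nat_lit 332) (nat_lit 319)) (XT.lf (nat_lit 0) (nat_lit 809832904) (nat_lit 304) (nat_lit 4797160297) (nat_lit 76) (nat_lit 6800114254) (nat_lit 69) (nat_lit 5) (nat_lit 73) (nat_lit 5) (nat_lit 70) (nat_lit 4) (nat_lit 490) (nat_lit 332) (nat_lit 318))) (XT.nd (nat_lit 78) (nat_lit 456) (nat_lit 0) (XT.lf (nat_lit 0) (nat_lit 6655400741) (nat_lit 152) (nat_lit 19473980)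 (nat_lit 228) (nat_lit 5852978759) (nat_lit 67) (nat_lit 5) (nat_lit 69) (nat_lit 5) (nat_lit 70) (nat_lit 4) (nat_lit 491) (nat_lit 332) (nat_lit 317)) (XT.nd (nat_lit 78) (nat_lit 152) (nat_lit 0) (XT.lf (nat_lit 0) (nat_lit 36519572) (nat_lit 304) (nat_lit 6999689277) (nat_lit 76) (nat_lit 5614196808) (nat_lit 63) (nat_lit 5) (nat_lit 67) (nat_lit 5) (nat_lit 64) (nat_lit 4) (nat_lit 492) (nat_lit 332) (nat_lit 316)) (XT.lf (nat_lit 0) (nat_lit 4592581472) (nat_lit 152) (nat_lit 1366869628) (nat_lit 228) (nat_lit 6815303724) (nat_lit 61) (nat_lit 5) (nat_lit 63) (nat_lit 5) (nat_lit 64) (nat_lit 4) (nat_lit 493) (nat_lit 332) (nat_lit 315))))) (XT.nd (nat_lit 156) (nat_lit 456) (nat_lit 0) (XT.nd (nat_lit 78) (nat_lit 228) (nat_lit 0) (XT.lf (nat_lit 0) (nat_lit 3489691188) (nat_lit 228) (nat_lit 8534280147) (nat_lit 228) (nat_lit 877157037) (nat_lit 58) (nat_lit 4) (nat_lit 61) (nat_lit 5) (nat_lit 61) (nat_lit 4) (nat_lit 494) (nat_lit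 332) (nat_lit 314)) (XT.lf (nat_lit 0) (nat_lit 2326319722) (nat_lit 152) (nat_lit 2789539059) (nat_lit 228) (nat_lit 7913417210) (nat_lit 55) (nat_lit 5) (nat_lit 57) (nat_lit 5) (nat_lit 58) (nat_lit 4) (nat_lit 495) (nat_lit 332) (nat_lit 313))) (XT.nd (nat_lit 78) (nat_lit 228) (nat_lit 0) (XT.lf (nat_lit 0) (nat_lit 1117884088) (nat_lit 228) (nat_lit 10114677041) (nat_lit 228) (nat_lit 1926998047) (nat_lit 52) (nat_lit 4) (nat_lit 55) (nat_lit 5) (nat_lit 55) (nat_lit 4) (nat_lit 496) (nat_lit 332) (nat_lit 312)) (XT.nd (nat_lit 78) (nat_lit 152) (nat_lit 0) (XT.lf (nat_lit 0) (nat_lit 4139994744) (nat_lit 304) (nat_lit 155260194) (nat_lit 76) (nat_lit 8996337300) (nat_lit 51) (nat_lit 5) (nat_lit 55) (nat_lit 5) (nat_lit 52) (nat_lit 4) (nat_lit 497) (nat_lit 332) (nat_lit 311)) (XT.lf (nat_lit 0) (nat_lit 10317519983) (nat_lit 228) (nat_lit 1459242234) (nat_lit 0) (nat_lit 1648949093) (nat_lit 49) (nat_lit 5) (nat_lit 52) (nat_lit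 4) (nat_lit 49) (nat_lit 4) (nat_lit 498) (nat_lit 332) (nat_lit 310)))))) (XT.nd (nat_lit 390) (nat_lit 760) (nat_lit 0) (XT.nd (nat_lit 156) (nat_lit 608) (nat_lit 0) (XT.nd (nat_lit 78) (nat_lit 152) (nat_lit 0) (XT.lf (nat_lit 0) (nat_lit 3041967657) (nat_lit 304) (nat_lit 2835111803) (nat_lit 76) (nat_lit 7684517145) (nat_lit 45) (nat_lit 5) (nat_lit 49) (nat_lit 5) (nat_lit 46) (nat_lit 4) (nat_lit 499) (nat_lit 332) (nat_lit 309)) (XT.lf (nat_lit 0) (nat_lit 9272438159) (nat_lit 228) (nat_lit 4257970928) (nat_lit 0) (nat_lit 169401076) (nat_lit 43) (nat_lit 5) (nat_lit 46) (nat_lit 4) (nat_lit 43) (nat_lit 4) (nat_lit 500) (nat_lit 332) (nat_lit 308))) (XT.nd (nat_lit 78) (nat_lit 380) (nat_lit 0) (XT.lf (nat_lit 0) (nat_lit 1800929015) (nat_lit 228) (nat_lit 5758520096) (nat_lit 76) (nat_lit 6280354224) (nat_lit 40) (nat_lit 5) (nat_lit 43) (nat_lit 5) (nat_lit 41) (nat_lit 4) (nat_lit 501) (nat_lit 332) (nat_lit 307)) (XT.nd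 (nat_lit 78) (nat_lit 228) (nat_lit 0) (XT.lf (nat_lit 0) (nat_lit 6664755444) (nat_lit 152) (nat_lit 1428689915) (nat_lit 228) (nat_lit 5888587076) (nat_lit 38) (nat_lit 5) (nat_lit 40) (nat_lit 5) (nat_lit 41) (nat_lit 4) (nat_lit 502) (nat_lit 332) (nat_lit 306)) (XT.lf (nat_lit 0) (nat_lit 410766459) (nat_lit 228) (nat_lit 8940812825) (nat_lit 76) (nat_lit 4774854757) (nat_lit 35) (nat_lit 5) (nat_lit 38) (nat_lit 5) (nat_lit 36) (nat_lit 4) (nat_lit 503) (nat_lit 332) (nat_lit 305))))) (XT.nd (nat_lit 156) (nat_lit 456) (nat_lit 0) (XT.nd (nat_lit 78) (nat_lit 152) (nat_lit 0) (XT.lf (nat_lit 0) (nat_lit 3627431966) (nat_lit 152) (nat_lit 3139405651) (nat_lit 228) (nat_lit 7505916017) (nat_lit 33) (nat_lit 5) (nat_lit 35) (nat_lit 5) (nat_lit 36) (nat_lit 4) (nat_lit 504) (nat_lit 332) (nat_lit 304)) (XT.lf (nat_lit 0) (nat_lit 2016202816) (nat_lit 152) (nat_lit 11255274553) (nat_lit 152) (nat_lit 1150093306) (nat_lit 31) (nat_lit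 4) (nat_lit 33) (nat_lit 5) (nat_lit 33) (nat_lit 4) (nat_lit 505) (nat_lit 332) (nat_lit 303))) (XT.nd (nat_lit 78) (nat_lit 228) (nat_lit 0) (XT.lf (nat_lit 0) (nat_lit 314974329) (nat_lit 152) (nat_lit 4969947841) (nat_lit 228) (nat_lit 9287309050) (nat_lit 28) (nat_lit 5) (nat_lit 30) (nat_lit 5) (nat_lit 31) (nat_lit 4) (nat_lit 506) (nat_lit 332) (nat_lit 302)) (XT.nd (nat_lit 78) (nat_lit 228) (nat_lit 0) (XT.lf (nat_lit 0) (nat_lit 11853812558) (nat_lit 228) (nat_lit 1420606593) (nat_lit 0) (nat_lit 1450922293) (nat_lit 28) (nat_lit 5) (nat_lit 31) (nat_lit 4) (nat_lit 28) (nat_lit 4) (nat_lit 507) (nat_lit 332) (nat_lit 301)) (XT.lf (nat_lit 0) (nat_lit 3662087234) (nat_lit 228) (nat_lit 3246131119) (nat_lit 76) (nat_lit 7972064891) (nat_lit 25) (nat_lit 5) (nat_lit 28) (nat_lit 5) (nat_lit 26) (nat_lit 4) (nat_lit 508) (nat_lit 332) (nat_lit 300))))))) (XT.nd (nat_lit 57096) (nat_lit 0) (nat_lit 3952) (XT.nd (nat_lit 56706)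 (nat_lit 0) (nat_lit 6612) (XT.nd (nat_lit 156) (nat_lit 228) (nat_lit 0) (XT.nd (nat_lit 78) (nat_lit 228) (nat_lit 0) (XT.lf (nat_lit 0) (nat_lit 9907887429) (nat_lit 152) (nat_lit 382891316) (nat_lit 228) (nat_lit 4747108463) (nat_lit 23) (nat_lit 5) (nat_lit 25) (nat_lit 5) (nat_lit 26) (nat_lit 4) (nat_lit 509) (nat_lit 332) (nat_lit 299)) (XT.lf (nat_lit 0) (nat_lit 1873659850) (nat_lit 228) (nat_lit 7108146022) (nat_lit 76) (nat_lit 6215705374) (nat_lit 20) (nat_lit 5) (nat_lit 23) (nat_lit 5) (nat_lit 21) (nat_lit 4) (nat_lit 510) (nat_lit 332) (nat_lit 298))) (XT.nd (nat_lit 78) (nat_lit 152) (nat_lit 0) (XT.lf (nat_lit 0) (nat_lit 6195786165) (nat_lit 76) (nat_lit 2374043052) (nat_lit 152) (nat_lit 6789739992) (nat_lit 19) (nat_lit 5) (nat_lit 20) (nat_lit 5) (nat_lit 21) (nat_lit 4) (nat_lit 511) (nat_lit 332) (nat_lit 297)) (XT.nd (nat_lit 56394) (nat_lit 0) (nat_lit 8132) (XT.lf (nat_lit 0) (nat_lit 4230655758) (nat_lit 152)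 (nat_lit 11202285591) (nat_lit 152) (nat_lit 91266594) (nat_lit 17) (nat_lit 4) (nat_lit 19) (nat_lit 5) (nat_lit 19) (nat_lit 4) (nat_lit 512) (nat_lit 332) (nat_lit 296)) (XT.lf (nat_lit 0) (nat_lit 1786758573) (nat_lit 304) (nat_lit 1781313636) (nat_lit 0) (nat_lit 1786758573) (nat_lit 124) (nat_lit 5) (nat_lit 128) (nat_lit 4) (nat_lit 124) (nat_lit 4) (nat_lit 474) (nat_lit 333) (nat_lit 333))))) (XT.nd (nat_lit 156) (nat_lit 912) (nat_lit 0) (XT.nd (nat_lit 78) (nat_lit 304) (nat_lit 0) (XT.lf (nat_lit 0) (nat_lit 6583954305) (nat_lit 304) (nat_lit 2415375354) (nat_lit 304) (nat_lit 1804986357) (nat_lit 120) (nat_lit 4) (nat_lit 124) (nat_lit 5) (nat_lit 124) (nat_lit 4) (nat_lit 475) (nat_lit 333) (nat_lit 332)) (XT.lf (nat_lit 0) (nat_lit 3585269874) (nat_lit 304) (nat_lit 4914957119) (nat_lit 0) (nat_lit 2400162439) (nat_lit 116) (nat_lit 5) (nat_lit 120) (nat_lit 4) (nat_lit 116) (nat_lit 4) (nat_lit 476) (nat_lit 333) (nat_lit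 331))) (XT.nd (nat_lit 78) (nat_lit 608) (nat_lit 0) (XT.lf (nat_lit 0) (nat_lit 5361803418) (nat_lit 304) (nat_lit 3698306970) (nat_lit 304) (nat_lit 1938016350) (nat_lit 112) (nat_lit 4) (nat_lit 116) (nat_lit 5) (nat_lit 116) (nat_lit 4) (nat_lit 477) (nat_lit 333) (nat_lit 330)) (XT.nd (nat_lit 78) (nat_lit 304) (nat_lit 0) (XT.lf (nat_lit 0) (nat_lit 3493693412) (nat_lit 304) (nat_lit 6388723080) (nat_lit 0) (nat_lit 1215070174) (nat_lit 108) (nat_lit 5) (nat_lit 112) (nat_lit 4) (nat_lit 108) (nat_lit 4) (nat_lit 478) (nat_lit 333) (nat_lit 329)) (XT.lf (nat_lit 0) (nat_lit 4018648042) (nat_lit 304) (nat_lit 5000173034) (nat_lit 304) (nat_lit 2179541835) (nat_lit 104) (nat_lit 4) (nat_lit 108) (nat_lit 5) (nat_lit 108) (nat_lit 4) (nat_lit 479) (nat_lit 333) (nat_lit 328)))))) (XT.nd (nat_lit 390) (nat_lit 1292) (nat_lit 0) (XT.nd (nat_lit 156) (nat_lit 836) (nat_lit 0) (XT.nd (nat_lit 78) (nat_lit 228) (nat_lit 0) (XT.lf (nat_lit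 0) (nat_lit 3296096238) (nat_lit 304) (nat_lit 7995177034) (nat_lit 0) (nat_lit 9810400) (nat_lit 100) (nat_lit 5) (nat_lit 104) (nat_lit 4) (nat_lit 100) (nat_lit 4) (nat_lit 480) (nat_lit 333) (nat_lit 327)) (XT.lf (nat_lit 0) (nat_lit 2543180602) (nat_lit 228) (nat_lit 6329504853) (nat_lit 228) (nat_lit 2532472807) (nat_lit 97) (nat_lit 4) (nat_lit 100) (nat_lit 5) (nat_lit 100) (nat_lit 4) (nat_lit 481) (nat_lit 333) (nat_lit 326))) (XT.nd (nat_lit 78) (nat_lit 532) (nat_lit 0) (XT.lf (nat_lit 0) (nat_lit 1757223441) (nat_lit 228) (nat_lit 1240294906) (nat_lit 304) (nat_lit 8513639593) (nat_lit 93) (nat_lit 5) (nat_lit 96) (nat_lit 5) (nat_lit 97) (nat_lit 4) (nat_lit 482) (nat_lit 333) (nat_lit 325)) (XT.nd (nat_lit 78) (nat_lit 304) (nat_lit 0) (XT.lf (nat_lit 0) (nat_lit 923777387) (nat_lit 228) (nat_lit 7694829297) (nat_lit 228) (nat_lit 3000047992) (nat_lit 90) (nat_lit 4) (nat_lit 93) (nat_lit 5) (nat_lit 93) (nat_lit 4) (nat_lit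 483) (nat_lit 333) (nat_lit 324)) (XT.lf (nat_lit 0) (nat_lit 58862096) (nat_lit 228) (nat_lit 2528016096) (nat_lit 304) (nat_lit 9141132952) (nat_lit 86) (nat_lit 5) (nat_lit 89) (nat_lit 5) (nat_lit 90) (nat_lit 4) (nat_lit 484) (nat_lit 333) (nat_lit 323))))) (XT.nd (nat_lit 234) (nat_lit 760) (nat_lit 0) (XT.nd (nat_lit 78) (nat_lit 532) (nat_lit 0) (XT.lf (nat_lit 0) (nat_lit 8258693223) (nat_lit 304) (nat_lit 840358634) (nat_lit 0) (nat_lit 2739839860) (nat_lit 86) (nat_lit 5) (nat_lit 90) (nat_lit 4) (nat_lit 86) (nat_lit 4) (nat_lit 485) (nat_lit 333) (nat_lit 322)) (XT.nd (nat_lit 78) (nat_lit 228) (nat_lit 0) (XT.lf (nat_lit 0) (nat_lit 2072198036) (nat_lit 304) (nat_lit 1777648639) (nat_lit 76) (nat_lit 8101717983) (nat_lit 82) (nat_lit 5) (nat_lit 86) (nat_lit 5) (nat_lit 83) (nat_lit 4) (nat_lit 486) (nat_lit 333) (nat_lit 321)) (XT.lf (nat_lit 0) (nat_lit 7790759275) (nat_lit 304) (nat_lit 2758405193) (nat_lit 0) (nat_lit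 1516832174) (nat_lit 79) (nat_lit 5) (nat_lit 83) (nat_lit 4) (nat_lit 79) (nat_lit 4) (nat_lit 487) (nat_lit 333) (nat_lit 320)))) (XT.nd (nat_lit 78) (nat_lit 456) (nat_lit 0) (XT.lf (nat_lit 0) (nat_lit 1439357640) (nat_lit 304) (nat_lit 3785414449) (nat_lit 76) (nat_lit 6957412426) (nat_lit 75) (nat_lit 5) (nat_lit 79) (nat_lit 5) (nat_lit 76) (nat_lit 4) (nat_lit 488) (nat_lit 333) (nat_lit 319)) (XT.nd (nat_lit 78) (nat_lit 304) (nat_lit 0) (XT.lf (nat_lit 0) (nat_lit 7204811250) (nat_lit 228) (nat_lit 4855035338) (nat_lit 0) (nat_lit 240408130) (nat_lit 73) (nat_lit 5) (nat_lit 76) (nat_lit 4) (nat_lit 73) (nat_lit 4) (nat_lit 489) (nat_lit 333) (nat_lit 318)) (XT.lf (nat_lit 0) (nat_lit 683784271) (nat_lit 304) (nat_lit 5977982321) (nat_lit 76) (nat_lit 5758281058) (nat_lit 69) (nat_lit 5) (nat_lit 73) (nat_lit 5) (nat_lit 70) (nat_lit 4) (nat_lit 490) (nat_lit 333) (nat_lit 317))))))))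
noncomputable def xc9 : XT := (XT.nd (nat_lit 1560) (nat_lit 228) (nat_lit 0) (XT.nd (nat_lit 780) (nat_lit 1748) (nat_lit 0) (XT.nd (nat_lit 390) (nat_lit 912) (nat_lit 0) (XT.nd (nat_lit 156) (nat_lit 684) (nat_lit 0) (XT.nd (nat_lit 78) (nat_lit 228) (nat_lit 0) (XT.lf (nat_lit 0) (nat_lit 5391252033) (nat_lit 152) (nat_lit 1112490728) (nat_lit 228) (nat_lit 6037952580) (nat_lit 67) (nat_lit 5) (nat_lit 69) (nat_lit 5) (nat_lit 70) (nat_lit 4) (nat_lit 491) (nat_lit 333) (nat_lit 316)) (XT.lf (nat_lit 0) (nat_lit 4295442909) (nat_lit 228) (nat_lit 8168166885) (nat_lit 228) (nat_lit 201696002) (nat_lit 64) (nat_lit 4) (nat_lit 67) (nat_lit 5) (nat_lit 67) (nat_lit 4) (nat_lit 492) (nat_lit 333) (nat_lit 315))) (XT.nd (nat_lit 78) (nat_lit 456) (nat_lit 0) (XT.lf (nat_lit 0) (nat_lit 3137741923) (nat_lit 152) (nat_lit 2539965317) (nat_lit 228) (nat_lit 7112897385) (nat_lit 61) (nat_lit 5) (nat_lit 63) (nat_lit 5) (nat_lit 64) (nat_lit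 4) (nat_lit 493) (nat_lit 333) (nat_lit 314)) (XT.nd (nat_lit 78) (nat_lit 228) (nat_lit 0) (XT.lf (nat_lit 0) (nat_lit 1939295837) (nat_lit 228) (nat_lit 9748614947) (nat_lit 228) (nat_lit 1230153722) (nat_lit 58) (nat_lit 4) (nat_lit 61) (nat_lit 5) (nat_lit 61) (nat_lit 4) (nat_lit 494) (nat_lit 333) (nat_lit 313)) (XT.lf (nat_lit 0) (nat_lit 672556396) (nat_lit 152) (nat_lit 4047609533) (nat_lit 228) (nat_lit 8327038552) (nat_lit 55) (nat_lit 5) (nat_lit 57) (nat_lit 5) (nat_lit 58) (nat_lit 4) (nat_lit 495) (nat_lit 333) (nat_lit 312))))) (XT.nd (nat_lit 156) (nat_lit 608) (nat_lit 0) (XT.nd (nat_lit 78) (nat_lit 304) (nat_lit 0) (XT.lf (nat_lit 0) (nat_lit 10784941940) (nat_lit 228) (nat_lit 627423466) (nat_lit 0) (nat_lit 1766160786) (nat_lit 55) (nat_lit 5) (nat_lit 58) (nat_lit 4) (nat_lit 55) (nat_lit 4) (nat_lit 496) (nat_lit 333) (nat_lit 311)) (XT.lf (nat_lit 0) (nat_lit 3638915615) (nat_lit 304) (nat_lit 1992064341) (nat_lit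 76) (nat_lit 7680452131) (nat_lit 51) (nat_lit 5) (nat_lit 55) (nat_lit 5) (nat_lit 52) (nat_lit 4) (nat_lit 497) (nat_lit 333) (nat_lit 310))) (XT.nd (nat_lit 78) (nat_lit 456) (nat_lit 0) (XT.lf (nat_lit 0) (nat_lit 9759230304) (nat_lit 228) (nat_lit 3399034543) (nat_lit 0) (nat_lit 288430523) (nat_lit 49) (nat_lit 5) (nat_lit 52) (nat_lit 4) (nat_lit 49) (nat_lit 4) (nat_lit 498) (nat_lit 333) (nat_lit 309)) (XT.nd (nat_lit 78) (nat_lit 152) (nat_lit 0) (XT.lf (nat_lit 0) (nat_lit 2421111444) (nat_lit 304) (nat_lit 4885366017) (nat_lit 76) (nat_lit 6277162020) (nat_lit 45) (nat_lit 5) (nat_lit 49) (nat_lit 5) (nat_lit 46) (nat_lit 4) (nat_lit 499) (nat_lit 333) (nat_lit 308)) (XT.lf (nat_lit 0) (nat_lit 7298628351) (nat_lit 152) (nat_lit 1302295561) (nat_lit 228) (nat_lit 5121942287) (nat_lit 43) (nat_lit 5) (nat_lit 45) (nat_lit 5) (nat_lit 46) (nat_lit 4) (nat_lit 500) (nat_lit 333) (nat_lit 307)))))) (XT.nd (nat_lit 390) (nat_lit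 988) (nat_lit 0) (XT.nd (nat_lit 156) (nat_lit 380) (nat_lit 0) (XT.nd (nat_lit 78) (nat_lit 152) (nat_lit 0) (XT.lf (nat_lit 0) (nat_lit 1056449777) (nat_lit 228) (nat_lit 8031263191) (nat_lit 76) (nat_lit 4776416962) (nat_lit 40) (nat_lit 5) (nat_lit 43) (nat_lit 5) (nat_lit 41) (nat_lit 4) (nat_lit 501) (nat_lit 333) (nat_lit 306)) (XT.lf (nat_lit 0) (nat_lit 4294846333) (nat_lit 152) (nat_lit 3003226037) (nat_lit 228) (nat_lit 6709304536) (nat_lit 38) (nat_lit 5) (nat_lit 40) (nat_lit 5) (nat_lit 41) (nat_lit 4) (nat_lit 502) (nat_lit 333) (nat_lit 305))) (XT.nd (nat_lit 78) (nat_lit 228) (nat_lit 0) (XT.lf (nat_lit 0) (nat_lit 2704615294) (nat_lit 152) (nat_lit 10980941752) (nat_lit 152) (nat_lit 467511182) (nat_lit 36) (nat_lit 4) (nat_lit 38) (nat_lit 5) (nat_lit 38) (nat_lit 4) (nat_lit 503) (nat_lit 333) (nat_lit 304)) (XT.nd (nat_lit 78) (nat_lit 0) (nat_lit 0) (XT.lf (nat_lit 0) (nat_lit 1022470779) (nat_lit 152) (nat_lit 4819908527)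 (nat_lit 228) (nat_lit 8458115466) (nat_lit 33) (nat_lit 5) (nat_lit 35) (nat_lit 5) (nat_lit 36) (nat_lit 4) (nat_lit 504) (nat_lit 333) (nat_lit 303)) (XT.lf (nat_lit 0) (nat_lit 12287686897) (nat_lit 228) (nat_lit 698291695) (nat_lit 0) (nat_lit 1464519865) (nat_lit 33) (nat_lit 5) (nat_lit 36) (nat_lit 4) (nat_lit 33) (nat_lit 4) (nat_lit 505) (nat_lit 333) (nat_lit 302))))) (XT.nd (nat_lit 156) (nat_lit 608) (nat_lit 0) (XT.nd (nat_lit 78) (nat_lit 152) (nat_lit 0) (XT.lf (nat_lit 0) (nat_lit 4243518892) (nat_lit 228) (nat_lit 2501638483) (nat_lit 76) (nat_lit 7856972470) (nat_lit 30) (nat_lit 5) (nat_lit 33) (nat_lit 5) (nat_lit 31) (nat_lit 4) (nat_lit 506) (nat_lit 333) (nat_lit 301)) (XT.lf (nat_lit 0) (nat_lit 10398755747) (nat_lit 152) (nat_lit 352616829) (nat_lit 228) (nat_lit 4005088229) (nat_lit 28) (nat_lit 5) (nat_lit 30) (nat_lit 5) (nat_lit 31) (nat_lit 4) (nat_lit 507) (nat_lit 333) (nat_lit 300))) (XT.nd (nat_lit 78)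 (nat_lit 380) (nat_lit 0) (XT.lf (nat_lit 0) (nat_lit 2486452425) (nat_lit 228) (nat_lit 6310379754) (nat_lit 76) (nat_lit 6115856469) (nat_lit 25) (nat_lit 5) (nat_lit 28) (nat_lit 5) (nat_lit 26) (nat_lit 4) (nat_lit 508) (nat_lit 333) (nat_lit 299)) (XT.nd (nat_lit 78) (nat_lit 228) (nat_lit 0) (XT.lf (nat_lit 0) (nat_lit 6736964248) (nat_lit 152) (nat_lit 2323080288) (nat_lit 228) (nat_lit 6011350063) (nat_lit 23) (nat_lit 5) (nat_lit 25) (nat_lit 5) (nat_lit 26) (nat_lit 4) (nat_lit 509) (nat_lit 333) (nat_lit 298)) (XT.lf (nat_lit 0) (nat_lit 557068843) (nat_lit 228) (nat_lit 10434625099) (nat_lit 76) (nat_lit 4240867464) (nat_lit 20) (nat_lit 5) (nat_lit 23) (nat_lit 5) (nat_lit 21) (nat_lit 4) (nat_lit 510) (nat_lit 333) (nat_lit 297))))))) (XT.nd (nat_lit 56940) (nat_lit 0) (nat_lit 3952) (XT.nd (nat_lit 56550) (nat_lit 0) (nat_lit 6612) (XT.nd (nat_lit 56316) (nat_lit 0) (nat_lit 8132) (XT.nd (nat_lit 78) (nat_lit 152) (nat_lit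 0) (XT.lf (nat_lit 0) (nat_lit 2759058108) (nat_lit 76) (nat_lit 4437443274) (nat_lit 152) (nat_lit 8199252722) (nat_lit 19) (nat_lit 5) (nat_lit 20) (nat_lit 5) (nat_lit 21) (nat_lit 4) (nat_lit 511) (nat_lit 333) (nat_lit 296)) (XT.lf (nat_lit 0) (nat_lit 659066000) (nat_lit 152) (nat_lit 13329594167) (nat_lit 152) (nat_lit 1573151739) (nat_lit 17) (nat_lit 4) (nat_lit 19) (nat_lit 5) (nat_lit 19) (nat_lit 4) (nat_lit 512) (nat_lit 333) (nat_lit 295))) (XT.nd (nat_lit 78) (nat_lit 608) (nat_lit 0) (XT.lf (nat_lit 0) (nat_lit 2067186868) (nat_lit 380) (nat_lit 1127831451) (nat_lit 0) (nat_lit 2067186868) (nat_lit 132) (nat_lit 5) (nat_lit 137) (nat_lit 4) (nat_lit 132) (nat_lit 4) (nat_lit 472) (nat_lit 334) (nat_lit 334)) (XT.nd (nat_lit 78) (nat_lit 304) (nat_lit 0) (XT.lf (nat_lit 0) (nat_lit 7696116920) (nat_lit 304) (nat_lit 1777868451) (nat_lit 304) (nat_lit 1142819738) (nat_lit 128) (nat_lit 4) (nat_lit 132) (nat_lit 5) (nat_lit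 132) (nat_lit 4) (nat_lit 473) (nat_lit 334) (nat_lit 333)) (XT.lf (nat_lit 0) (nat_lit 4157073189) (nat_lit 304) (nat_lit 3629281775) (nat_lit 0) (nat_lit 2924087414) (nat_lit 124) (nat_lit 5) (nat_lit 128) (nat_lit 4) (nat_lit 124) (nat_lit 4) (nat_lit 474) (nat_lit 334) (nat_lit 332))))) (XT.nd (nat_lit 156) (nat_lit 912) (nat_lit 0) (XT.nd (nat_lit 78) (nat_lit 304) (nat_lit 0) (XT.lf (nat_lit 0) (nat_lit 6450198014) (nat_lit 304) (nat_lit 3093544025) (nat_lit 304) (nat_lit 1262137665) (nat_lit 120) (nat_lit 4) (nat_lit 124) (nat_lit 5) (nat_lit 124) (nat_lit 4) (nat_lit 475) (nat_lit 334) (nat_lit 331)) (XT.lf (nat_lit 0) (nat_lit 4076892145) (nat_lit 304) (nat_lit 5119660094) (nat_lit 0) (nat_lit 1706212528) (nat_lit 116) (nat_lit 5) (nat_lit 120) (nat_lit 4) (nat_lit 116) (nat_lit 4) (nat_lit 476) (nat_lit 334) (nat_lit 330))) (XT.nd (nat_lit 78) (nat_lit 608) (nat_lit 0) (XT.lf (nat_lit 0) (nat_lit 5087932445) (nat_lit 304) (nat_lit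 4423975412) (nat_lit 304) (nat_lit 1489390712) (nat_lit 112) (nat_lit 4) (nat_lit 116) (nat_lit 5) (nat_lit 116) (nat_lit 4) (nat_lit 477) (nat_lit 334) (nat_lit 329)) (XT.nd (nat_lit 78) (nat_lit 304) (nat_lit 0) (XT.lf (nat_lit 0) (nat_lit 3891301124) (nat_lit 304) (nat_lit 6737952461) (nat_lit 0) (nat_lit 472249338) (nat_lit 108) (nat_lit 5) (nat_lit 112) (nat_lit 4) (nat_lit 108) (nat_lit 4) (nat_lit 478) (nat_lit 334) (nat_lit 328)) (XT.lf (nat_lit 0) (nat_lit 3598111725) (nat_lit 304) (nat_lit 5777755408) (nat_lit 304) (nat_lit 1827323268) (nat_lit 104) (nat_lit 4) (nat_lit 108) (nat_lit 5) (nat_lit 108) (nat_lit 4) (nat_lit 479) (nat_lit 334) (nat_lit 327)))))) (XT.nd (nat_lit 390) (nat_lit 1520) (nat_lit 0) (XT.nd (nat_lit 156) (nat_lit 608) (nat_lit 0) (XT.nd (nat_lit 78) (nat_lit 228) (nat_lit 0) (XT.lf (nat_lit 0) (nat_lit 2805902795) (nat_lit 228) (nat_lit 796719020) (nat_lit 304) (nat_lit 7704065082) (nat_lit 100) (nat_lit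 5) (nat_lit 103) (nat_lit 5) (nat_lit 104) (nat_lit 4) (nat_lit 480) (nat_lit 334) (nat_lit 326)) (XT.lf (nat_lit 0) (nat_lit 1969224323) (nat_lit 228) (nat_lit 7163459093) (nat_lit 228) (nat_lit 2279008623) (nat_lit 97) (nat_lit 4) (nat_lit 100) (nat_lit 5) (nat_lit 100) (nat_lit 4) (nat_lit 481) (nat_lit 334) (nat_lit 325))) (XT.nd (nat_lit 78) (nat_lit 304) (nat_lit 0) (XT.lf (nat_lit 0) (nat_lit 1100414034) (nat_lit 228) (nat_lit 2105416567) (nat_lit 304) (nat_lit 8312664759) (nat_lit 93) (nat_lit 5) (nat_lit 96) (nat_lit 5) (nat_lit 97) (nat_lit 4) (nat_lit 482) (nat_lit 334) (nat_lit 324)) (XT.nd (nat_lit 78) (nat_lit 76) (nat_lit 0) (XT.lf (nat_lit 0) (nat_lit 189430651) (nat_lit 228) (nat_lit 8589666459) (nat_lit 228) (nat_lit 2847851421) (nat_lit 90) (nat_lit 4) (nat_lit 93) (nat_lit 5) (nat_lit 93) (nat_lit 4) (nat_lit 483) (nat_lit 334) (nat_lit 323)) (XT.lf (nat_lit 0) (nat_lit 2699320761) (nat_lit 304) (nat_lit 751785677)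 (nat_lit 76) (nat_lit 8285933957) (nat_lit 89) (nat_lit 5) (nat_lit 93) (nat_lit 5) (nat_lit 90) (nat_lit 4) (nat_lit 484) (nat_lit 334) (nat_lit 322))))) (XT.nd (nat_lit 234) (nat_lit 760) (nat_lit 0) (XT.nd (nat_lit 78) (nat_lit 532) (nat_lit 0) (XT.lf (nat_lit 0) (nat_lit 8322906979) (nat_lit 304) (nat_lit 1730465341) (nat_lit 0) (nat_lit 1795513223) (nat_lit 86) (nat_lit 5) (nat_lit 90) (nat_lit 4) (nat_lit 86) (nat_lit 4) (nat_lit 485) (nat_lit 334) (nat_lit 321)) (XT.nd (nat_lit 78) (nat_lit 228) (nat_lit 0) (XT.lf (nat_lit 0) (nat_lit 2082613069) (nat_lit 304) (nat_lit 2756432326) (nat_lit 76) (nat_lit 7123367924) (nat_lit 82) (nat_lit 5) (nat_lit 86) (nat_lit 5) (nat_lit 83) (nat_lit 4) (nat_lit 486) (nat_lit 334) (nat_lit 320)) (XT.lf (nat_lit 0) (nat_lit 7751182817) (nat_lit 304) (nat_lit 3821244505) (nat_lit 0) (nat_lit 505417812) (nat_lit 79) (nat_lit 5) (nat_lit 83) (nat_lit 4) (nat_lit 79) (nat_lit 4) (nat_lit 487) (nat_lit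 334) (nat_lit 319)))) (XT.nd (nat_lit 78) (nat_lit 456) (nat_lit 0) (XT.lf (nat_lit 0) (nat_lit 1344535929) (nat_lit 304) (nat_lit 4940576725) (nat_lit 76) (nat_lit 5909808456) (nat_lit 75) (nat_lit 5) (nat_lit 79) (nat_lit 5) (nat_lit 76) (nat_lit 4) (nat_lit 488) (nat_lit 334) (nat_lit 318)) (XT.nd (nat_lit 78) (nat_lit 304) (nat_lit 0) (XT.lf (nat_lit 0) (nat_lit 6210166723) (nat_lit 152) (nat_lit 853905517) (nat_lit 228) (nat_lit 5249837418) (nat_lit 73) (nat_lit 5) (nat_lit 75) (nat_lit 5) (nat_lit 76) (nat_lit 4) (nat_lit 489) (nat_lit 334) (nat_lit 317)) (XT.lf (nat_lit 0) (nat_lit 480725883) (nat_lit 304) (nat_lit 7317250021) (nat_lit 76) (nat_lit 4636760521) (nat_lit 69) (nat_lit 5) (nat_lit 73) (nat_lit 5) (nat_lit 70) (nat_lit 4) (nat_lit 490) (nat_lit 334) (nat_lit 316))))))))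
noncomputable def xc10 : XT := (XT.nd (nat_lit 1560) (nat_lit 152) (nat_lit 0) (XT.nd (nat_lit 780) (nat_lit 1672) (nat_lit 0) (XT.nd (nat_lit 390) (nat_lit 1064) (nat_lit 0) (XT.nd (nat_lit 156) (nat_lit 532) (nat_lit 0) (XT.nd (nat_lit 78) (nat_lit 228) (nat_lit 0) (XT.lf (nat_lit 0) (nat_lit 3967878151) (nat_lit 152) (nat_lit 2287412152) (nat_lit 228) (nat_lit 6302001694) (nat_lit 67) (nat_lit 5) (nat_lit 69) (nat_lit 5) (nat_lit 70) (nat_lit 4) (nat_lit 491) (nat_lit 334) (nat_lit 315)) (XT.lf (nat_lit 0) (nat_lit 2778672048) (nat_lit 228) (nat_lit 9382954044) (nat_lit 228) (nat_lit 520346986) (nat_lit 64) (nat_lit 4) (nat_lit 67) (nat_lit 5) (nat_lit 67) (nat_lit 4) (nat_lit 492) (nat_lit 334) (nat_lit 314))) (XT.nd (nat_lit 78) (nat_lit 304) (nat_lit 0) (XT.lf (nat_lit 0) (nat_lit 1519566681) (nat_lit 152) (nat_lit 3797154845) (nat_lit 228) (nat_lit 7491522036) (nat_lit 61) (nat_lit 5) (nat_lit 63) (nat_lit 5) (nat_lit 64) (nat_lit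 4) (nat_lit 493) (nat_lit 334) (nat_lit 313)) (XT.nd (nat_lit 78) (nat_lit 76) (nat_lit 0) (XT.lf (nat_lit 0) (nat_lit 223465448) (nat_lit 228) (nat_lit 11048241139) (nat_lit 228) (nat_lit 1665101226) (nat_lit 58) (nat_lit 4) (nat_lit 61) (nat_lit 5) (nat_lit 61) (nat_lit 4) (nat_lit 494) (nat_lit 334) (nat_lit 312)) (XT.lf (nat_lit 0) (nat_lit 4250685124) (nat_lit 304) (nat_lit 1133733957) (nat_lit 76) (nat_lit 7682389939) (nat_lit 57) (nat_lit 5) (nat_lit 61) (nat_lit 5) (nat_lit 58) (nat_lit 4) (nat_lit 495) (nat_lit 334) (nat_lit 311))))) (XT.nd (nat_lit 156) (nat_lit 608) (nat_lit 0) (XT.nd (nat_lit 78) (nat_lit 304) (nat_lit 0) (XT.lf (nat_lit 0) (nat_lit 10263489133) (nat_lit 228) (nat_lit 2525611998) (nat_lit 0) (nat_lit 410069041) (nat_lit 55) (nat_lit 5) (nat_lit 58) (nat_lit 4) (nat_lit 55) (nat_lit 4) (nat_lit 496) (nat_lit 334) (nat_lit 310)) (XT.lf (nat_lit 0) (nat_lit 3055615421) (nat_lit 304) (nat_lit 3998618832) (nat_lit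 76) (nat_lit 6278878469) (nat_lit 51) (nat_lit 5) (nat_lit 55) (nat_lit 5) (nat_lit 52) (nat_lit 4) (nat_lit 497) (nat_lit 334) (nat_lit 309))) (XT.nd (nat_lit 78) (nat_lit 456) (nat_lit 0) (XT.lf (nat_lit 0) (nat_lit 7950960375) (nat_lit 152) (nat_lit 1174404941) (nat_lit 228) (nat_lit 4344021984) (nat_lit 49) (nat_lit 5) (nat_lit 51) (nat_lit 5) (nat_lit 52) (nat_lit 4) (nat_lit 498) (nat_lit 334) (nat_lit 308)) (XT.nd (nat_lit 78) (nat_lit 152) (nat_lit 0) (XT.lf (nat_lit 0) (nat_lit 1715883635) (nat_lit 304) (nat_lit 7109884585) (nat_lit 76) (nat_lit 4781794083) (nat_lit 45) (nat_lit 5) (nat_lit 49) (nat_lit 5) (nat_lit 46) (nat_lit 4) (nat_lit 499) (nat_lit 334) (nat_lit 307)) (XT.lf (nat_lit 0) (nat_lit 4979011179) (nat_lit 152) (nat_lit 2866701856) (nat_lit 228) (nat_lit 5902075648) (nat_lit 43) (nat_lit 5) (nat_lit 45) (nat_lit 5) (nat_lit 46) (nat_lit 4) (nat_lit 500) (nat_lit 334) (nat_lit 306)))))) (XT.nd (nat_lit 390) (nat_lit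 912) (nat_lit 0) (XT.nd (nat_lit 156) (nat_lit 380) (nat_lit 0) (XT.nd (nat_lit 78) (nat_lit 152) (nat_lit 0) (XT.lf (nat_lit 0) (nat_lit 225357360) (nat_lit 228) (nat_lit 10482951296) (nat_lit 76) (nat_lit 3182068874) (nat_lit 40) (nat_lit 5) (nat_lit 43) (nat_lit 5) (nat_lit 41) (nat_lit 4) (nat_lit 501) (nat_lit 334) (nat_lit 305)) (XT.lf (nat_lit 0) (nat_lit 1744927116) (nat_lit 152) (nat_lit 4670686550) (nat_lit 228) (nat_lit 7619038165) (nat_lit 38) (nat_lit 5) (nat_lit 40) (nat_lit 5) (nat_lit 41) (nat_lit 4) (nat_lit 502) (nat_lit 334) (nat_lit 304))) (XT.nd (nat_lit 78) (nat_lit 228) (nat_lit 0) (XT.lf (nat_lit 0) (nat_lit 38420232) (nat_lit 152) (nat_lit 12701801715) (nat_lit 152) (nat_lit 1441378735) (nat_lit 36) (nat_lit 4) (nat_lit 38) (nat_lit 5) (nat_lit 38) (nat_lit 4) (nat_lit 503) (nat_lit 334) (nat_lit 303)) (XT.nd (nat_lit 78) (nat_lit 152) (nat_lit 0) (XT.lf (nat_lit 0) (nat_lit 4839940716) (nat_lit 228) (nat_lit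 1744237683) (nat_lit 76) (nat_lit 7745802156) (nat_lit 35) (nat_lit 5) (nat_lit 38) (nat_lit 5) (nat_lit 36) (nat_lit 4) (nat_lit 504) (nat_lit 334) (nat_lit 302)) (XT.lf (nat_lit 0) (nat_lit 10907678877) (nat_lit 152) (nat_lit 322016179) (nat_lit 228) (nat_lit 3251400248) (nat_lit 33) (nat_lit 5) (nat_lit 35) (nat_lit 5) (nat_lit 36) (nat_lit 4) (nat_lit 505) (nat_lit 334) (nat_lit 301))))) (XT.nd (nat_lit 156) (nat_lit 532) (nat_lit 0) (XT.nd (nat_lit 78) (nat_lit 152) (nat_lit 0) (XT.lf (nat_lit 0) (nat_lit 3113470511) (nat_lit 228) (nat_lit 5501656970) (nat_lit 76) (nat_lit 6018855302) (nat_lit 30) (nat_lit 5) (nat_lit 33) (nat_lit 5) (nat_lit 31) (nat_lit 4) (nat_lit 506) (nat_lit 334) (nat_lit 300)) (XT.lf (nat_lit 0) (nat_lit 7294302625) (nat_lit 152) (nat_lit 2272938512) (nat_lit 228) (nat_lit 5222154267) (nat_lit 28) (nat_lit 5) (nat_lit 30) (nat_lit 5) (nat_lit 31) (nat_lit 4) (nat_lit 507) (nat_lit 334) (nat_lit 299))) (XT.nd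 (nat_lit 78) (nat_lit 304) (nat_lit 0) (XT.lf (nat_lit 0) (nat_lit 1217591359) (nat_lit 228) (nat_lit 9567389745) (nat_lit 76) (nat_lit 4162155325) (nat_lit 25) (nat_lit 5) (nat_lit 28) (nat_lit 5) (nat_lit 26) (nat_lit 4) (nat_lit 508) (nat_lit 334) (nat_lit 298)) (XT.nd (nat_lit 78) (nat_lit 152) (nat_lit 0) (XT.lf (nat_lit 0) (nat_lit 3372011196) (nat_lit 152) (nat_lit 4363489803) (nat_lit 228) (nat_lit 7371455031) (nat_lit 23) (nat_lit 5) (nat_lit 25) (nat_lit 5) (nat_lit 26) (nat_lit 4) (nat_lit 509) (nat_lit 334) (nat_lit 297)) (XT.lf (nat_lit 0) (nat_lit 1304674544) (nat_lit 152) (nat_lit 13098159439) (nat_lit 152) (nat_lit 866756737) (nat_lit 21) (nat_lit 4) (nat_lit 23) (nat_lit 5) (nat_lit 23) (nat_lit 4) (nat_lit 510) (nat_lit 334) (nat_lit 296))))))) (XT.nd (nat_lit 56784) (nat_lit 0) (nat_lit 4256) (XT.nd (nat_lit 56394) (nat_lit 0) (nat_lit 7068) (XT.nd (nat_lit 56160) (nat_lit 0) (nat_lit 8588) (XT.nd (nat_lit 78) (nat_lit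 76) (nat_lit 0) (XT.lf (nat_lit 0) (nat_lit 5732381495) (nat_lit 228) (nat_lit 865688671) (nat_lit 76) (nat_lit 8835859043) (nat_lit 20) (nat_lit 5) (nat_lit 23) (nat_lit 5) (nat_lit 21) (nat_lit 4) (nat_lit 511) (nat_lit 334) (nat_lit 295)) (XT.lf (nat_lit 0) (nat_lit 12466806538) (nat_lit 152) (nat_lit 3074004839) (nat_lit 0) (nat_lit 60330308) (nat_lit 19) (nat_lit 5) (nat_lit 21) (nat_lit 4) (nat_lit 19) (nat_lit 4) (nat_lit 512) (nat_lit 334) (nat_lit 294))) (XT.nd (nat_lit 78) (nat_lit 684) (nat_lit 0) (XT.lf (nat_lit 0) (nat_lit 2354861267) (nat_lit 380) (nat_lit 462173043) (nat_lit 0) (nat_lit 2354861267) (nat_lit 141) (nat_lit 5) (nat_lit 146) (nat_lit 4) (nat_lit 141) (nat_lit 4) (nat_lit 470) (nat_lit 335) (nat_lit 335)) (XT.nd (nat_lit 78) (nat_lit 380) (nat_lit 0) (XT.lf (nat_lit 0) (nat_lit 8836619320) (nat_lit 304) (nat_lit 1129019760) (nat_lit 304) (nat_lit 468315079) (nat_lit 137) (nat_lit 4) (nat_lit 141) (nat_lit 5)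 (nat_lit 141) (nat_lit 4) (nat_lit 471) (nat_lit 335) (nat_lit 334)) (XT.lf (nat_lit 0) (nat_lit 4743605625) (nat_lit 380) (nat_lit 2320767884) (nat_lit 0) (nat_lit 3460807225) (nat_lit 132) (nat_lit 5) (nat_lit 137) (nat_lit 4) (nat_lit 132) (nat_lit 4) (nat_lit 472) (nat_lit 335) (nat_lit 333))))) (XT.nd (nat_lit 156) (nat_lit 912) (nat_lit 0) (XT.nd (nat_lit 78) (nat_lit 304) (nat_lit 0) (XT.lf (nat_lit 0) (nat_lit 7565470070) (nat_lit 304) (nat_lit 2479136394) (nat_lit 304) (nat_lit 573741217) (nat_lit 128) (nat_lit 4) (nat_lit 132) (nat_lit 5) (nat_lit 132) (nat_lit 4) (nat_lit 473) (nat_lit 335) (nat_lit 332)) (XT.lf (nat_lit 0) (nat_lit 4674984390) (nat_lit 304) (nat_lit 3829271421) (nat_lit 0) (nat_lit 2208529317) (nat_lit 124) (nat_lit 5) (nat_lit 128) (nat_lit 4) (nat_lit 124) (nat_lit 4) (nat_lit 474) (nat_lit 335) (nat_lit 331))) (XT.nd (nat_lit 78) (nat_lit 608) (nat_lit 0) (XT.lf (nat_lit 0) (nat_lit 6182632977) (nat_lit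 304) (nat_lit 3839758319) (nat_lit 304) (nat_lit 786616397) (nat_lit 120) (nat_lit 4) (nat_lit 124) (nat_lit 5) (nat_lit 124) (nat_lit 4) (nat_lit 475) (nat_lit 335) (nat_lit 330)) (XT.nd (nat_lit 78) (nat_lit 304) (nat_lit 0) (XT.lf (nat_lit 0) (nat_lit 4501492629) (nat_lit 304) (nat_lit 5460920913) (nat_lit 0) (nat_lit 944311151) (nat_lit 116) (nat_lit 5) (nat_lit 120) (nat_lit 4) (nat_lit 116) (nat_lit 4) (nat_lit 476) (nat_lit 335) (nat_lit 329)) (XT.lf (nat_lit 0) (nat_lit 4676991740) (nat_lit 304) (nat_lit 5219547864) (nat_lit 304) (nat_lit 1109518265) (nat_lit 112) (nat_lit 4) (nat_lit 116) (nat_lit 5) (nat_lit 116) (nat_lit 4) (nat_lit 477) (nat_lit 335) (nat_lit 328)))))) (XT.nd (nat_lit 390) (nat_lit 1368) (nat_lit 0) (XT.nd (nat_lit 156) (nat_lit 836) (nat_lit 0) (XT.nd (nat_lit 78) (nat_lit 304) (nat_lit 0) (XT.lf (nat_lit 0) (nat_lit 3877778451) (nat_lit 228) (nat_lit 344902742) (nat_lit 304) (nat_lit 6884401909) (nat_lit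 108) (nat_lit 5) (nat_lit 111) (nat_lit 5) (nat_lit 112) (nat_lit 4) (nat_lit 478) (nat_lit 335) (nat_lit 327)) (XT.lf (nat_lit 0) (nat_lit 3037140133) (nat_lit 304) (nat_lit 6627136068) (nat_lit 304) (nat_lit 1545353799) (nat_lit 104) (nat_lit 4) (nat_lit 108) (nat_lit 5) (nat_lit 108) (nat_lit 4) (nat_lit 479) (nat_lit 335) (nat_lit 326))) (XT.nd (nat_lit 78) (nat_lit 532) (nat_lit 0) (XT.lf (nat_lit 0) (nat_lit 2163668711) (nat_lit 228) (nat_lit 1676032867) (nat_lit 304) (nat_lit 7474212135) (nat_lit 100) (nat_lit 5) (nat_lit 103) (nat_lit 5) (nat_lit 104) (nat_lit 4) (nat_lit 480) (nat_lit 335) (nat_lit 325)) (XT.nd (nat_lit 78) (nat_lit 304) (nat_lit 0) (XT.lf (nat_lit 0) (nat_lit 1251357065) (nat_lit 228) (nat_lit 8071145683) (nat_lit 228) (nat_lit 2097361317) (nat_lit 97) (nat_lit 4) (nat_lit 100) (nat_lit 5) (nat_lit 100) (nat_lit 4) (nat_lit 481) (nat_lit 335) (nat_lit 324)) (XT.lf (nat_lit 0) (nat_lit 297906104) (nat_lit 228)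 (nat_lit 3045152326) (nat_lit 304) (nat_lit 8184426110) (nat_lit 93) (nat_lit 5) (nat_lit 96) (nat_lit 5) (nat_lit 97) (nat_lit 4) (nat_lit 482) (nat_lit 335) (nat_lit 323))))) (XT.nd (nat_lit 234) (nat_lit 836) (nat_lit 0) (XT.nd (nat_lit 78) (nat_lit 532) (nat_lit 0) (XT.lf (nat_lit 0) (nat_lit 8872290685) (nat_lit 304) (nat_lit 683337491) (nat_lit 0) (nat_lit 2081190221) (nat_lit 93) (nat_lit 5) (nat_lit 97) (nat_lit 4) (nat_lit 93) (nat_lit 4) (nat_lit 483) (nat_lit 335) (nat_lit 322)) (XT.nd (nat_lit 78) (nat_lit 228) (nat_lit 0) (XT.lf (nat_lit 0) (nat_lit 2740383362) (nat_lit 304) (nat_lit 1709054088) (nat_lit 76) (nat_lit 7298285357) (nat_lit 89) (nat_lit 5) (nat_lit 93) (nat_lit 5) (nat_lit 90) (nat_lit 4) (nat_lit 484) (nat_lit 335) (nat_lit 321)) (XT.lf (nat_lit 0) (nat_lit 8314621969) (nat_lit 304) (nat_lit 2769804881) (nat_lit 0) (nat_lit 776128057) (nat_lit 86) (nat_lit 5) (nat_lit 90) (nat_lit 4) (nat_lit 86) (nat_lit 4)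 (nat_lit 485) (nat_lit 335) (nat_lit 320)))) (XT.nd (nat_lit 78) (nat_lit 532) (nat_lit 0) (XT.lf (nat_lit 0) (nat_lit 2019567703) (nat_lit 304) (nat_lit 3886336730) (nat_lit 76) (nat_lit 6069047896) (nat_lit 82) (nat_lit 5) (nat_lit 86) (nat_lit 5) (nat_lit 83) (nat_lit 4) (nat_lit 486) (nat_lit 335) (nat_lit 319)) (XT.nd (nat_lit 78) (nat_lit 304) (nat_lit 0) (XT.lf (nat_lit 0) (nat_lit 7050379132) (nat_lit 228) (nat_lit 590825028) (nat_lit 304) (nat_lit 4450118648) (nat_lit 79) (nat_lit 5) (nat_lit 82) (nat_lit 5) (nat_lit 83) (nat_lit 4) (nat_lit 487) (nat_lit 335) (nat_lit 318)) (XT.lf (nat_lit 0) (nat_lit 1174478833) (nat_lit 304) (nat_lit 6250717040) (nat_lit 76) (nat_lit 4784183340) (nat_lit 75) (nat_lit 5) (nat_lit 79) (nat_lit 5) (nat_lit 76) (nat_lit 4) (nat_lit 488) (nat_lit 335) (nat_lit 317))))))))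
noncomputable def xc11 : XT := (XT.nd (nat_lit 1638) (nat_lit 456) (nat_lit 0) (XT.nd (nat_lit 780) (nat_lit 1824) (nat_lit 0) (XT.nd (nat_lit 390) (nat_lit 1064) (nat_lit 0) (XT.nd (nat_lit 156) (nat_lit 456) (nat_lit 0) (XT.nd (nat_lit 78) (nat_lit 304) (nat_lit 0) (XT.lf (nat_lit 0) (nat_lit 4817760285) (nat_lit 152) (nat_lit 2031619913) (nat_lit 228) (nat_lit 5479880263) (nat_lit 73) (nat_lit 5) (nat_lit 75) (nat_lit 5) (nat_lit 76) (nat_lit 4) (nat_lit 489) (nat_lit 335) (nat_lit 316)) (XT.lf (nat_lit 0) (nat_lit 200578110) (nat_lit 304) (nat_lit 8815488599) (nat_lit 76) (nat_lit 3435112831) (nat_lit 69) (nat_lit 5) (nat_lit 73) (nat_lit 5) (nat_lit 70) (nat_lit 4) (nat_lit 490) (nat_lit 335) (nat_lit 315))) (XT.nd (nat_lit 78) (nat_lit 304) (nat_lit 0) (XT.lf (nat_lit 0) (nat_lit 2384720907) (nat_lit 152) (nat_lit 3544699007) (nat_lit 228) (nat_lit 6645229650) (nat_lit 67) (nat_lit 5) (nat_lit 69) (nat_lit 5) (nat_lit 70) (nat_lit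 4) (nat_lit 491) (nat_lit 335) (nat_lit 314)) (XT.nd (nat_lit 78) (nat_lit 76) (nat_lit 0) (XT.lf (nat_lit 0) (nat_lit 1100054051) (nat_lit 228) (nat_lit 10681291778) (nat_lit 228) (nat_lit 919073013) (nat_lit 64) (nat_lit 4) (nat_lit 67) (nat_lit 5) (nat_lit 67) (nat_lit 4) (nat_lit 492) (nat_lit 335) (nat_lit 313)) (XT.lf (nat_lit 0) (nat_lit 4878057233) (nat_lit 304) (nat_lit 259135061) (nat_lit 76) (nat_lit 7690452161) (nat_lit 63) (nat_lit 5) (nat_lit 67) (nat_lit 5) (nat_lit 64) (nat_lit 4) (nat_lit 493) (nat_lit 335) (nat_lit 312))))) (XT.nd (nat_lit 156) (nat_lit 608) (nat_lit 0) (XT.nd (nat_lit 78) (nat_lit 304) (nat_lit 0) (XT.lf (nat_lit 0) (nat_lit 10785963432) (nat_lit 228) (nat_lit 1636721684) (nat_lit 0) (nat_lit 534465168) (nat_lit 61) (nat_lit 5) (nat_lit 64) (nat_lit 4) (nat_lit 61) (nat_lit 4) (nat_lit 494) (nat_lit 335) (nat_lit 311)) (XT.lf (nat_lit 0) (nat_lit 3705230005) (nat_lit 304) (nat_lit 3097304237) (nat_lit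 76) (nat_lit 6285603103) (nat_lit 57) (nat_lit 5) (nat_lit 61) (nat_lit 5) (nat_lit 58) (nat_lit 4) (nat_lit 495) (nat_lit 335) (nat_lit 310))) (XT.nd (nat_lit 78) (nat_lit 456) (nat_lit 0) (XT.lf (nat_lit 0) (nat_lit 8622637447) (nat_lit 152) (nat_lit 1044886823) (nat_lit 228) (nat_lit 3553984422) (nat_lit 55) (nat_lit 5) (nat_lit 57) (nat_lit 5) (nat_lit 58) (nat_lit 4) (nat_lit 496) (nat_lit 335) (nat_lit 309)) (XT.nd (nat_lit 78) (nat_lit 152) (nat_lit 0) (XT.lf (nat_lit 0) (nat_lit 2389865419) (nat_lit 304) (nat_lit 6175710550) (nat_lit 76) (nat_lit 4791066677) (nat_lit 51) (nat_lit 5) (nat_lit 55) (nat_lit 5) (nat_lit 52) (nat_lit 4) (nat_lit 497) (nat_lit 335) (nat_lit 308)) (XT.lf (nat_lit 0) (nat_lit 5680803480) (nat_lit 152) (nat_lit 2729718069) (nat_lit 228) (nat_lit 5083377551) (nat_lit 49) (nat_lit 5) (nat_lit 51) (nat_lit 5) (nat_lit 52) (nat_lit 4) (nat_lit 498) (nat_lit 335) (nat_lit 307)))))) (XT.nd (nat_lit 390) (nat_lit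 988) (nat_lit 0) (XT.nd (nat_lit 156) (nat_lit 380) (nat_lit 0) (XT.nd (nat_lit 78) (nat_lit 152) (nat_lit 0) (XT.lf (nat_lit 0) (nat_lit 926007669) (nat_lit 304) (nat_lit 9509539868) (nat_lit 76) (nat_lit 3197826917) (nat_lit 45) (nat_lit 5) (nat_lit 49) (nat_lit 5) (nat_lit 46) (nat_lit 4) (nat_lit 499) (nat_lit 335) (nat_lit 306)) (XT.lf (nat_lit 0) (nat_lit 2483214835) (nat_lit 152) (nat_lit 4522180051) (nat_lit 228) (nat_lit 6769214791) (nat_lit 43) (nat_lit 5) (nat_lit 45) (nat_lit 5) (nat_lit 46) (nat_lit 4) (nat_lit 500) (nat_lit 335) (nat_lit 305))) (XT.nd (nat_lit 78) (nat_lit 228) (nat_lit 0) (XT.lf (nat_lit 0) (nat_lit 799362361) (nat_lit 152) (nat_lit 12417223496) (nat_lit 152) (nat_lit 701879428) (nat_lit 41) (nat_lit 4) (nat_lit 43) (nat_lit 5) (nat_lit 43) (nat_lit 4) (nat_lit 501) (nat_lit 335) (nat_lit 304)) (XT.nd (nat_lit 78) (nat_lit 152) (nat_lit 0) (XT.lf (nat_lit 0) (nat_lit 5452124968) (nat_lit 228) (nat_lit 973070578)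 (nat_lit 76) (nat_lit 7638544325) (nat_lit 40) (nat_lit 5) (nat_lit 43) (nat_lit 5) (nat_lit 41) (nat_lit 4) (nat_lit 502) (nat_lit 335) (nat_lit 303)) (XT.lf (nat_lit 0) (nat_lit 11435421062) (nat_lit 152) (nat_lit 291058604) (nat_lit 228) (nat_lit 2485214127) (nat_lit 38) (nat_lit 5) (nat_lit 40) (nat_lit 5) (nat_lit 41) (nat_lit 4) (nat_lit 503) (nat_lit 335) (nat_lit 302))))) (XT.nd (nat_lit 234) (nat_lit 380) (nat_lit 0) (XT.nd (nat_lit 78) (nat_lit 380) (nat_lit 0) (XT.lf (nat_lit 0) (nat_lit 3755495317) (nat_lit 228) (nat_lit 4681117907) (nat_lit 76) (nat_lit 5924681990) (nat_lit 35) (nat_lit 5) (nat_lit 38) (nat_lit 5) (nat_lit 36) (nat_lit 4) (nat_lit 504) (nat_lit 335) (nat_lit 301)) (XT.nd (nat_lit 78) (nat_lit 228) (nat_lit 0) (XT.lf (nat_lit 0) (nat_lit 7868566002) (nat_lit 152) (nat_lit 2223594426) (nat_lit 228) (nat_lit 4421311320) (nat_lit 33) (nat_lit 5) (nat_lit 35) (nat_lit 5) (nat_lit 36) (nat_lit 4) (nat_lit 505)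 (nat_lit 335) (nat_lit 300)) (XT.lf (nat_lit 0) (nat_lit 1892288849) (nat_lit 228) (nat_lit 8690388557) (nat_lit 76) (nat_lit 4085166023) (nat_lit 30) (nat_lit 5) (nat_lit 33) (nat_lit 5) (nat_lit 31) (nat_lit 4) (nat_lit 506) (nat_lit 335) (nat_lit 299)))) (XT.nd (nat_lit 78) (nat_lit 228) (nat_lit 0) (XT.lf (nat_lit 0) (nat_lit 3999894507) (nat_lit 152) (nat_lit 4291513831) (nat_lit 228) (nat_lit 6532940734) (nat_lit 28) (nat_lit 5) (nat_lit 30) (nat_lit 5) (nat_lit 31) (nat_lit 4) (nat_lit 507) (nat_lit 335) (nat_lit 298)) (XT.nd (nat_lit 78) (nat_lit 76) (nat_lit 0) (XT.lf (nat_lit 0) (nat_lit 1964228765) (nat_lit 152) (nat_lit 12872471813) (nat_lit 152) (nat_lit 146920442) (nat_lit 26) (nat_lit 4) (nat_lit 28) (nat_lit 5) (nat_lit 28) (nat_lit 4) (nat_lit 508) (nat_lit 335) (nat_lit 297)) (XT.lf (nat_lit 0) (nat_lit 6317851219) (nat_lit 228) (nat_lit 185821841) (nat_lit 76) (nat_lit 8640887937) (nat_lit 25) (nat_lit 5) (nat_lit 28)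 (nat_lit 5) (nat_lit 26) (nat_lit 4) (nat_lit 509) (nat_lit 335) (nat_lit 296))))))) (XT.nd (nat_lit 56628) (nat_lit 0) (nat_lit 5092) (XT.nd (nat_lit 56238) (nat_lit 0) (nat_lit 7980) (XT.nd (nat_lit 156) (nat_lit 76) (nat_lit 0) (XT.nd (nat_lit 78) (nat_lit 228) (nat_lit 0) (XT.lf (nat_lit 0) (nat_lit 12928472934) (nat_lit 228) (nat_lit 2359081914) (nat_lit 0) (nat_lit 20775064) (nat_lit 23) (nat_lit 5) (nat_lit 26) (nat_lit 4) (nat_lit 23) (nat_lit 4) (nat_lit 510) (nat_lit 335) (nat_lit 295)) (XT.lf (nat_lit 0) (nat_lit 4190416166) (nat_lit 228) (nat_lit 4652563673) (nat_lit 76) (nat_lit 6630859236) (nat_lit 20) (nat_lit 5) (nat_lit 23) (nat_lit 5) (nat_lit 21) (nat_lit 4) (nat_lit 511) (nat_lit 335) (nat_lit 294))) (XT.nd (nat_lit 55926) (nat_lit 0) (nat_lit 9576) (XT.lf (nat_lit 0) (nat_lit 8628108431) (nat_lit 76) (nat_lit 2238580308) (nat_lit 152) (nat_lit 4775525862) (nat_lit 19) (nat_lit 5) (nat_lit 20) (nat_lit 5) (nat_lit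 21) (nat_lit 4) (nat_lit 512) (nat_lit 335) (nat_lit 293)) (XT.nd (nat_lit 78) (nat_lit 76) (nat_lit 0) (XT.lf (nat_lit 0) (nat_lit 219308693) (nat_lit 304) (nat_lit 2432269776) (nat_lit 304) (nat_lit 2432269776) (nat_lit 146) (nat_lit 4) (nat_lit 150) (nat_lit 5) (nat_lit 150) (nat_lit 4) (nat_lit 468) (nat_lit 336) (nat_lit 336)) (XT.lf (nat_lit 0) (nat_lit 216432420) (nat_lit 380) (nat_lit 250203661) (nat_lit 76) (nat_lit 9789046960) (nat_lit 145) (nat_lit 5) (nat_lit 150) (nat_lit 5) (nat_lit 146) (nat_lit 4) (nat_lit 469) (nat_lit 336) (nat_lit 335))))) (XT.nd (nat_lit 156) (nat_lit 912) (nat_lit 0) (XT.nd (nat_lit 78) (nat_lit 380) (nat_lit 0) (XT.lf (nat_lit 0) (nat_lit 5345626389) (nat_lit 380) (nat_lit 987922128) (nat_lit 0) (nat_lit 4011002934) (nat_lit 141) (nat_lit 5) (nat_lit 146) (nat_lit 4) (nat_lit 141) (nat_lit 4) (nat_lit 470) (nat_lit 336) (nat_lit 334)) (XT.lf (nat_lit 0) (nat_lit 126290334) (nat_lit 380) (nat_lit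 1727266666) (nat_lit 76) (nat_lit 8581902796) (nat_lit 136) (nat_lit 5) (nat_lit 141) (nat_lit 5) (nat_lit 137) (nat_lit 4) (nat_lit 471) (nat_lit 336) (nat_lit 333))) (XT.nd (nat_lit 78) (nat_lit 608) (nat_lit 0) (XT.lf (nat_lit 0) (nat_lit 5288741802) (nat_lit 380) (nat_lit 2516108359) (nat_lit 0) (nat_lit 2722641943) (nat_lit 132) (nat_lit 5) (nat_lit 137) (nat_lit 4) (nat_lit 132) (nat_lit 4) (nat_lit 472) (nat_lit 336) (nat_lit 332)) (XT.nd (nat_lit 78) (nat_lit 304) (nat_lit 0) (XT.lf (nat_lit 0) (nat_lit 7304125134) (nat_lit 304) (nat_lit 3246898576) (nat_lit 304) (nat_lit 70409720) (nat_lit 128) (nat_lit 4) (nat_lit 132) (nat_lit 5) (nat_lit 132) (nat_lit 4) (nat_lit 473) (nat_lit 336) (nat_lit 331)) (XT.lf (nat_lit 0) (nat_lit 5127453852) (nat_lit 304) (nat_lit 4162674639) (nat_lit 0) (nat_lit 1426562242) (nat_lit 124) (nat_lit 5) (nat_lit 128) (nat_lit 4) (nat_lit 124) (nat_lit 4) (nat_lit 474) (nat_lit 336) (nat_lit 330))))))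 (XT.nd (nat_lit 390) (nat_lit 1368) (nat_lit 0) (XT.nd (nat_lit 156) (nat_lit 912) (nat_lit 0) (XT.nd (nat_lit 78) (nat_lit 304) (nat_lit 0) (XT.lf (nat_lit 0) (nat_lit 5781154267) (nat_lit 304) (nat_lit 4654310869) (nat_lit 304) (nat_lit 378236074) (nat_lit 120) (nat_lit 4) (nat_lit 124) (nat_lit 5) (nat_lit 124) (nat_lit 4) (nat_lit 475) (nat_lit 336) (nat_lit 329)) (XT.lf (nat_lit 0) (nat_lit 4859237835) (nat_lit 304) (nat_lit 5938873403) (nat_lit 0) (nat_lit 114159524) (nat_lit 116) (nat_lit 5) (nat_lit 120) (nat_lit 4) (nat_lit 116) (nat_lit 4) (nat_lit 476) (nat_lit 336) (nat_lit 328))) (XT.nd (nat_lit 78) (nat_lit 608) (nat_lit 0) (XT.lf (nat_lit 0) (nat_lit 4128820151) (nat_lit 304) (nat_lit 6085336314) (nat_lit 304) (nat_lit 798250041) (nat_lit 112) (nat_lit 4) (nat_lit 116) (nat_lit 5) (nat_lit 116) (nat_lit 4) (nat_lit 477) (nat_lit 336) (nat_lit 327)) (XT.nd (nat_lit 78) (nat_lit 304) (nat_lit 0) (XT.lf (nat_lit 0) (nat_lit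 3249902447) (nat_lit 228) (nat_lit 1239389173) (nat_lit 304) (nat_lit 6624911208) (nat_lit 108) (nat_lit 5) (nat_lit 111) (nat_lit 5) (nat_lit 112) (nat_lit 4) (nat_lit 478) (nat_lit 336) (nat_lit 326)) (XT.lf (nat_lit 0) (nat_lit 2335513277) (nat_lit 304) (nat_lit 7548648105) (nat_lit 304) (nat_lit 1333522850) (nat_lit 104) (nat_lit 4) (nat_lit 108) (nat_lit 5) (nat_lit 108) (nat_lit 4) (nat_lit 479) (nat_lit 336) (nat_lit 325))))) (XT.nd (nat_lit 234) (nat_lit 760) (nat_lit 0) (XT.nd (nat_lit 78) (nat_lit 304) (nat_lit 0) (XT.lf (nat_lit 0) (nat_lit 1379018362) (nat_lit 228) (nat_lit 2628345594) (nat_lit 304) (nat_lit 7315404289) (nat_lit 100) (nat_lit 5) (nat_lit 103) (nat_lit 5) (nat_lit 104) (nat_lit 4) (nat_lit 480) (nat_lit 336) (nat_lit 324)) (XT.nd (nat_lit 78) (nat_lit 76) (nat_lit 0) (XT.lf (nat_lit 0) (nat_lit 389297309) (nat_lit 228) (nat_lit 9052920578) (nat_lit 228) (nat_lit 1987459655) (nat_lit 97) (nat_lit 4) (nat_lit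 100) (nat_lit 5) (nat_lit 100) (nat_lit 4) (nat_lit 481) (nat_lit 336) (nat_lit 323)) (XT.lf (nat_lit 0) (nat_lit 3413479874) (nat_lit 304) (nat_lit 642082123) (nat_lit 76) (nat_lit 7482482525) (nat_lit 96) (nat_lit 5) (nat_lit 100) (nat_lit 5) (nat_lit 97) (nat_lit 4) (nat_lit 482) (nat_lit 336) (nat_lit 322)))) (XT.nd (nat_lit 78) (nat_lit 532) (nat_lit 0) (XT.lf (nat_lit 0) (nat_lit 8895916388) (nat_lit 304) (nat_lit 1699530585) (nat_lit 0) (nat_lit 1052867322) (nat_lit 93) (nat_lit 5) (nat_lit 97) (nat_lit 4) (nat_lit 93) (nat_lit 4) (nat_lit 483) (nat_lit 336) (nat_lit 321)) (XT.nd (nat_lit 78) (nat_lit 228) (nat_lit 0) (XT.lf (nat_lit 0) (nat_lit 2709699927) (nat_lit 304) (nat_lit 2814090522) (nat_lit 76) (nat_lit 6236279763) (nat_lit 89) (nat_lit 5) (nat_lit 93) (nat_lit 5) (nat_lit 90) (nat_lit 4) (nat_lit 484) (nat_lit 336) (nat_lit 320)) (XT.lf (nat_lit 0) (nat_lit 7912980796) (nat_lit 228) (nat_lit 322950957) (nat_lit 304)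 (nat_lit 3637930695) (nat_lit 86) (nat_lit 5) (nat_lit 89) (nat_lit 5) (nat_lit 90) (nat_lit 4) (nat_lit 485) (nat_lit 336) (nat_lit 319))))))))
noncomputable def xc12 : XT := (XT.nd (nat_lit 1560) (nat_lit 760) (nat_lit 0) (XT.nd (nat_lit 780) (nat_lit 1824) (nat_lit 0) (XT.nd (nat_lit 390) (nat_lit 988) (nat_lit 0) (XT.nd (nat_lit 156) (nat_lit 684) (nat_lit 0) (XT.nd (nat_lit 78) (nat_lit 228) (nat_lit 0) (XT.lf (nat_lit 0) (nat_lit 1883037214) (nat_lit 304) (nat_lit 5167804949) (nat_lit 76) (nat_lit 4938344439) (nat_lit 82) (nat_lit 5) (nat_lit 86) (nat_lit 5) (nat_lit 83) (nat_lit 4) (nat_lit 486) (nat_lit 336) (nat_lit 318)) (XT.lf (nat_lit 0) (nat_lit 5688456484) (nat_lit 228) (nat_lit 1772321190) (nat_lit 304) (nat_lit 4645657328) (nat_lit 79) (nat_lit 5) (nat_lit 82) (nat_lit 5) (nat_lit 83) (nat_lit 4) (nat_lit 487) (nat_lit 336) (nat_lit 317))) (XT.nd (nat_lit 78) (nat_lit 380) (nat_lit 0) (XT.lf (nat_lit 0) (nat_lit 929119666)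 (nat_lit 304) (nat_lit 7716349175) (nat_lit 76) (nat_lit 3580095658) (nat_lit 75) (nat_lit 5) (nat_lit 79) (nat_lit 5) (nat_lit 76) (nat_lit 4) (nat_lit 488) (nat_lit 336) (nat_lit 316)) (XT.nd (nat_lit 78) (nat_lit 228) (nat_lit 0) (XT.lf (nat_lit 0) (nat_lit 3269067291) (nat_lit 152) (nat_lit 3290002009) (nat_lit 228) (nat_lit 5787275481) (nat_lit 73) (nat_lit 5) (nat_lit 75) (nat_lit 5) (nat_lit 76) (nat_lit 4) (nat_lit 489) (nat_lit 336) (nat_lit 315)) (XT.lf (nat_lit 0) (nat_lit 1995045842) (nat_lit 228) (nat_lit 10315464689) (nat_lit 228) (nat_lit 158852285) (nat_lit 70) (nat_lit 4) (nat_lit 73) (nat_lit 5) (nat_lit 73) (nat_lit 4) (nat_lit 490) (nat_lit 336) (nat_lit 314))))) (XT.nd (nat_lit 156) (nat_lit 760) (nat_lit 0) (XT.nd (nat_lit 78) (nat_lit 0) (nat_lit 0) (XT.lf (nat_lit 0) (nat_lit 641159458) (nat_lit 152) (nat_lit 4884844344) (nat_lit 228) (nat_lit 7067771046) (nat_lit 67) (nat_lit 5) (nat_lit 69) (nat_lit 5) (nat_lit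 70) (nat_lit 4) (nat_lit 491) (nat_lit 336) (nat_lit 313)) (XT.lf (nat_lit 0) (nat_lit 11327431392) (nat_lit 228) (nat_lit 731350104) (nat_lit 0) (nat_lit 661772598) (nat_lit 67) (nat_lit 5) (nat_lit 70) (nat_lit 4) (nat_lit 67) (nat_lit 4) (nat_lit 492) (nat_lit 336) (nat_lit 312))) (XT.nd (nat_lit 78) (nat_lit 456) (nat_lit 0) (XT.lf (nat_lit 0) (nat_lit 4370772004) (nat_lit 304) (nat_lit 2180416900) (nat_lit 76) (nat_lit 6297441414) (nat_lit 63) (nat_lit 5) (nat_lit 67) (nat_lit 5) (nat_lit 64) (nat_lit 4) (nat_lit 493) (nat_lit 336) (nat_lit 311)) (XT.nd (nat_lit 78) (nat_lit 304) (nat_lit 0) (XT.lf (nat_lit 0) (nat_lit 9314578541) (nat_lit 152) (nat_lit 913606056) (nat_lit 228) (nat_lit 2750961422) (nat_lit 61) (nat_lit 5) (nat_lit 63) (nat_lit 5) (nat_lit 64) (nat_lit 4) (nat_lit 494) (nat_lit 336) (nat_lit 310)) (XT.lf (nat_lit 0) (nat_lit 3079219987) (nat_lit 304) (nat_lit 5227745166) (nat_lit 76) (nat_lit 4804320000) (nat_lit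 57) (nat_lit 5) (nat_lit 61) (nat_lit 5) (nat_lit 58) (nat_lit 4) (nat_lit 495) (nat_lit 336) (nat_lit 309)))))) (XT.nd (nat_lit 390) (nat_lit 912) (nat_lit 0) (XT.nd (nat_lit 156) (nat_lit 456) (nat_lit 0) (XT.nd (nat_lit 78) (nat_lit 304) (nat_lit 0) (XT.lf (nat_lit 0) (nat_lit 6401131714) (nat_lit 152) (nat_lit 2592156972) (nat_lit 228) (nat_lit 4252332325) (nat_lit 55) (nat_lit 5) (nat_lit 57) (nat_lit 5) (nat_lit 58) (nat_lit 4) (nat_lit 496) (nat_lit 336) (nat_lit 308)) (XT.lf (nat_lit 0) (nat_lit 1641404528) (nat_lit 304) (nat_lit 8524193257) (nat_lit 76) (nat_lit 3216433301) (nat_lit 51) (nat_lit 5) (nat_lit 55) (nat_lit 5) (nat_lit 52) (nat_lit 4) (nat_lit 497) (nat_lit 336) (nat_lit 307))) (XT.nd (nat_lit 78) (nat_lit 304) (nat_lit 0) (XT.lf (nat_lit 0) (nat_lit 3238235405) (nat_lit 152) (nat_lit 4374285697) (nat_lit 228) (nat_lit 5907757230) (nat_lit 49) (nat_lit 5) (nat_lit 51) (nat_lit 5) (nat_lit 52) (nat_lit 4) (nat_lit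 498) (nat_lit 336) (nat_lit 306)) (XT.nd (nat_lit 78) (nat_lit 0) (nat_lit 0) (XT.lf (nat_lit 0) (nat_lit 51173792) (nat_lit 304) (nat_lit 12085272906) (nat_lit 76) (nat_lit 1524639357) (nat_lit 45) (nat_lit 5) (nat_lit 49) (nat_lit 5) (nat_lit 46) (nat_lit 4) (nat_lit 499) (nat_lit 336) (nat_lit 305)) (XT.lf (nat_lit 0) (nat_lit 6080871844) (nat_lit 304) (nat_lit 187250955) (nat_lit 76) (nat_lit 7535192263) (nat_lit 45) (nat_lit 5) (nat_lit 49) (nat_lit 5) (nat_lit 46) (nat_lit 4) (nat_lit 500) (nat_lit 336) (nat_lit 304))))) (XT.nd (nat_lit 156) (nat_lit 532) (nat_lit 0) (XT.nd (nat_lit 78) (nat_lit 228) (nat_lit 0) (XT.lf (nat_lit 0) (nat_lit 11982776738) (nat_lit 152) (nat_lit 259712442) (nat_lit 228) (nat_lit 1705672962) (nat_lit 43) (nat_lit 5) (nat_lit 45) (nat_lit 5) (nat_lit 46) (nat_lit 4) (nat_lit 501) (nat_lit 336) (nat_lit 303)) (XT.lf (nat_lit 0) (nat_lit 4413335560) (nat_lit 228) (nat_lit 3847876242) (nat_lit 76) (nat_lit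 5833318490) (nat_lit 40) (nat_lit 5) (nat_lit 43) (nat_lit 5) (nat_lit 41) (nat_lit 4) (nat_lit 502) (nat_lit 336) (nat_lit 302))) (XT.nd (nat_lit 78) (nat_lit 380) (nat_lit 0) (XT.lf (nat_lit 0) (nat_lit 8460547785) (nat_lit 152) (nat_lit 2175024892) (nat_lit 228) (nat_lit 3607953887) (nat_lit 38) (nat_lit 5) (nat_lit 40) (nat_lit 5) (nat_lit 41) (nat_lit 4) (nat_lit 503) (nat_lit 336) (nat_lit 301)) (XT.nd (nat_lit 78) (nat_lit 152) (nat_lit 0) (XT.lf (nat_lit 0) (nat_lit 2581979278) (nat_lit 228) (nat_lit 7802731496) (nat_lit 76) (nat_lit 4009873027) (nat_lit 35) (nat_lit 5) (nat_lit 38) (nat_lit 5) (nat_lit 36) (nat_lit 4) (nat_lit 504) (nat_lit 336) (nat_lit 300)) (XT.lf (nat_lit 0) (nat_lit 4643504028) (nat_lit 152) (nat_lit 4221497891) (nat_lit 228) (nat_lit 5682831265) (nat_lit 33) (nat_lit 5) (nat_lit 35) (nat_lit 5) (nat_lit 36) (nat_lit 4) (nat_lit 505) (nat_lit 336) (nat_lit 299))))))) (XT.nd (nat_lit 56628) (nat_lit 0) (nat_lit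 5852) (XT.nd (nat_lit 56238) (nat_lit 0) (nat_lit 8968) (XT.nd (nat_lit 156) (nat_lit 380) (nat_lit 0) (XT.nd (nat_lit 78) (nat_lit 152) (nat_lit 0) (XT.lf (nat_lit 0) (nat_lit 579495010) (nat_lit 228) (nat_lit 12069083724) (nat_lit 76) (nat_lit 2055146322) (nat_lit 30) (nat_lit 5) (nat_lit 33) (nat_lit 5) (nat_lit 31) (nat_lit 4) (nat_lit 506) (nat_lit 336) (nat_lit 298)) (XT.lf (nat_lit 0) (nat_lit 514239467) (nat_lit 152) (nat_lit 6409134382) (nat_lit 228) (nat_lit 7937961664) (nat_lit 28) (nat_lit 5) (nat_lit 30) (nat_lit 5) (nat_lit 31) (nat_lit 4) (nat_lit 507) (nat_lit 336) (nat_lit 297))) (XT.nd (nat_lit 78) (nat_lit 380) (nat_lit 0) (XT.lf (nat_lit 0) (nat_lit 13389927986) (nat_lit 152) (nat_lit 19814700) (nat_lit 228) (nat_lit 1612043244) (nat_lit 28) (nat_lit 5) (nat_lit 30) (nat_lit 5) (nat_lit 31) (nat_lit 4) (nat_lit 508) (nat_lit 336) (nat_lit 296)) (XT.nd (nat_lit 78) (nat_lit 152) (nat_lit 0) (XT.lf (nat_lit 0) (nat_lit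 4828486998) (nat_lit 228) (nat_lit 3893595648) (nat_lit 76) (nat_lit 6461702646) (nat_lit 25) (nat_lit 5) (nat_lit 28) (nat_lit 5) (nat_lit 26) (nat_lit 4) (nat_lit 509) (nat_lit 336) (nat_lit 295)) (XT.lf (nat_lit 0) (nat_lit 9131409514) (nat_lit 152) (nat_lit 2250890233) (nat_lit 228) (nat_lit 3966390640) (nat_lit 23) (nat_lit 5) (nat_lit 25) (nat_lit 5) (nat_lit 26) (nat_lit 4) (nat_lit 510) (nat_lit 336) (nat_lit 294))))) (XT.nd (nat_lit 156) (nat_lit 684) (nat_lit 0) (XT.nd (nat_lit 78) (nat_lit 380) (nat_lit 0) (XT.lf (nat_lit 0) (nat_lit 920858668) (nat_lit 380) (nat_lit 2038573239) (nat_lit 380) (nat_lit 2038573239) (nat_lit 155) (nat_lit 4) (nat_lit 160) (nat_lit 5) (nat_lit 160) (nat_lit 4) (nat_lit 466) (nat_lit 337) (nat_lit 337)) (XT.lf (nat_lit 0) (nat_lit 917577513) (nat_lit 380) (nat_lit 8947722726) (nat_lit 0) (nat_lit 216432420) (nat_lit 150) (nat_lit 5) (nat_lit 155) (nat_lit 4) (nat_lit 150) (nat_lit 4) (nat_lit 467)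 (nat_lit 337) (nat_lit 336))) (XT.nd (nat_lit 78) (nat_lit 380) (nat_lit 0) (XT.lf (nat_lit 0) (nat_lit 375725662) (nat_lit 304) (nat_lit 5590635941) (nat_lit 304) (nat_lit 4202093698) (nat_lit 146) (nat_lit 4) (nat_lit 150) (nat_lit 5) (nat_lit 150) (nat_lit 4) (nat_lit 468) (nat_lit 337) (nat_lit 335)) (XT.nd (nat_lit 78) (nat_lit 304) (nat_lit 0) (XT.lf (nat_lit 0) (nat_lit 832747345) (nat_lit 380) (nat_lit 380311379) (nat_lit 76) (nat_lit 9044045960) (nat_lit 145) (nat_lit 5) (nat_lit 150) (nat_lit 5) (nat_lit 146) (nat_lit 4) (nat_lit 469) (nat_lit 337) (nat_lit 334)) (XT.lf (nat_lit 0) (nat_lit 5918963875) (nat_lit 380) (nat_lit 1178675188) (nat_lit 0) (nat_lit 3249193582) (nat_lit 141) (nat_lit 5) (nat_lit 146) (nat_lit 4) (nat_lit 141) (nat_lit 4) (nat_lit 470) (nat_lit 337) (nat_lit 333)))))) (XT.nd (nat_lit 390) (nat_lit 1520) (nat_lit 0) (XT.nd (nat_lit 156) (nat_lit 912) (nat_lit 0) (XT.nd (nat_lit 78) (nat_lit 304) (nat_lit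 0) (XT.lf (nat_lit 0) (nat_lit 651408439) (nat_lit 380) (nat_lit 1988973957) (nat_lit 76) (nat_lit 7798053414) (nat_lit 136) (nat_lit 5) (nat_lit 141) (nat_lit 5) (nat_lit 137) (nat_lit 4) (nat_lit 471) (nat_lit 337) (nat_lit 332)) (XT.lf (nat_lit 0) (nat_lit 5769996047) (nat_lit 380) (nat_lit 2841760931) (nat_lit 0) (nat_lit 1919588417) (nat_lit 132) (nat_lit 5) (nat_lit 137) (nat_lit 4) (nat_lit 132) (nat_lit 4) (nat_lit 472) (nat_lit 337) (nat_lit 331))) (XT.nd (nat_lit 78) (nat_lit 532) (nat_lit 0) (XT.lf (nat_lit 0) (nat_lit 362553985) (nat_lit 380) (nat_lit 3716469164) (nat_lit 76) (nat_lit 6546992711) (nat_lit 127) (nat_lit 5) (nat_lit 132) (nat_lit 5) (nat_lit 128) (nat_lit 4) (nat_lit 473) (nat_lit 337) (nat_lit 330)) (XT.nd (nat_lit 78) (nat_lit 304) (nat_lit 0) (XT.lf (nat_lit 0) (nat_lit 5514659012) (nat_lit 304) (nat_lit 4629622174) (nat_lit 0) (nat_lit 577879537) (nat_lit 124) (nat_lit 5) (nat_lit 128) (nat_lit 4) (nat_lit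 124) (nat_lit 4) (nat_lit 474) (nat_lit 337) (nat_lit 329)) (XT.lf (nat_lit 0) (nat_lit 5245604442) (nat_lit 304) (nat_lit 5537521106) (nat_lit 304) (nat_lit 36836547) (nat_lit 120) (nat_lit 4) (nat_lit 124) (nat_lit 5) (nat_lit 124) (nat_lit 4) (nat_lit 475) (nat_lit 337) (nat_lit 328))))) (XT.nd (nat_lit 234) (nat_lit 608) (nat_lit 0) (XT.nd (nat_lit 78) (nat_lit 608) (nat_lit 0) (XT.lf (nat_lit 0) (nat_lit 4360435290) (nat_lit 228) (nat_lit 794994397) (nat_lit 304) (nat_lit 5763872232) (nat_lit 116) (nat_lit 5) (nat_lit 119) (nat_lit 5) (nat_lit 120) (nat_lit 4) (nat_lit 476) (nat_lit 337) (nat_lit 327)) (XT.nd (nat_lit 78) (nat_lit 304) (nat_lit 0) (XT.lf (nat_lit 0) (nat_lit 3443202707) (nat_lit 304) (nat_lit 7021680289) (nat_lit 304) (nat_lit 555463974) (nat_lit 112) (nat_lit 4) (nat_lit 116) (nat_lit 5) (nat_lit 116) (nat_lit 4) (nat_lit 477) (nat_lit 337) (nat_lit 326)) (XT.lf (nat_lit 0) (nat_lit 2482845265) (nat_lit 228) (nat_lit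 2205284790) (nat_lit 304) (nat_lit 6434796980) (nat_lit 108) (nat_lit 5) (nat_lit 111) (nat_lit 5) (nat_lit 112) (nat_lit 4) (nat_lit 478) (nat_lit 337) (nat_lit 325)))) (XT.nd (nat_lit 78) (nat_lit 304) (nat_lit 0) (XT.lf (nat_lit 0) (nat_lit 1492956009) (nat_lit 304) (nat_lit 8542652895) (nat_lit 304) (nat_lit 1191747352) (nat_lit 104) (nat_lit 4) (nat_lit 108) (nat_lit 5) (nat_lit 108) (nat_lit 4) (nat_lit 479) (nat_lit 337) (nat_lit 324)) (XT.nd (nat_lit 78) (nat_lit 0) (nat_lit 0) (XT.lf (nat_lit 0) (nat_lit 451644043) (nat_lit 228) (nat_lit 3654030658) (nat_lit 304) (nat_lit 7227579266) (nat_lit 100) (nat_lit 5) (nat_lit 103) (nat_lit 5) (nat_lit 104) (nat_lit 4) (nat_lit 480) (nat_lit 337) (nat_lit 323)) (XT.lf (nat_lit 0) (nat_lit 9495883657) (nat_lit 304) (nat_lit 609197097) (nat_lit 0) (nat_lit 1335975409) (nat_lit 100) (nat_lit 5) (nat_lit 104) (nat_lit 4) (nat_lit 100) (nat_lit 4) (nat_lit 481) (nat_lit 337) (nat_lit 322))))))))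
noncomputable def xc13 : XT := (XT.nd (nat_lit 1560) (nat_lit 1520) (nat_lit 0) (XT.nd (nat_lit 780) (nat_lit 1976) (nat_lit 0) (XT.nd (nat_lit 390) (nat_lit 988) (nat_lit 0) (XT.nd (nat_lit 156) (nat_lit 836) (nat_lit 0) (XT.nd (nat_lit 78) (nat_lit 228) (nat_lit 0) (XT.lf (nat_lit 0) (nat_lit 3415781303) (nat_lit 304) (nat_lit 1722628592) (nat_lit 76) (nat_lit 6411796379) (nat_lit 96) (nat_lit 5) (nat_lit 100) (nat_lit 5) (nat_lit 97) (nat_lit 4) (nat_lit 482) (nat_lit 337) (nat_lit 321)) (XT.lf (nat_lit 0) (nat_lit 8799102816) (nat_lit 228) (nat_lit 49975231) (nat_lit 304) (nat_lit 2812380794) (nat_lit 93) (nat_lit 5) (nat_lit 96) (nat_lit 5) (nat_lit 97) (nat_lit 4) (nat_lit 483) (nat_lit 337) (nat_lit 320))) (XT.nd (nat_lit 78) (nat_lit 532) (nat_lit 0) (XT.lf (nat_lit 0) (nat_lit 2607258423) (nat_lit 304) (nat_lit 4067328328) (nat_lit 76) (nat_lit 5099500703) (nat_lit 89) (nat_lit 5) (nat_lit 93) (nat_lit 5) (nat_lit 90) (nat_lit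 4) (nat_lit 484) (nat_lit 337) (nat_lit 319)) (XT.nd (nat_lit 78) (nat_lit 304) (nat_lit 0) (XT.lf (nat_lit 0) (nat_lit 6581072757) (nat_lit 228) (nat_lit 1509240450) (nat_lit 304) (nat_lit 3798430024) (nat_lit 86) (nat_lit 5) (nat_lit 89) (nat_lit 5) (nat_lit 90) (nat_lit 4) (nat_lit 485) (nat_lit 337) (nat_lit 318)) (XT.lf (nat_lit 0) (nat_lit 1672968061) (nat_lit 304) (nat_lit 6601339521) (nat_lit 76) (nat_lit 3730814140) (nat_lit 82) (nat_lit 5) (nat_lit 86) (nat_lit 5) (nat_lit 83) (nat_lit 4) (nat_lit 486) (nat_lit 337) (nat_lit 317))))) (XT.nd (nat_lit 156) (nat_lit 456) (nat_lit 0) (XT.nd (nat_lit 78) (nat_lit 304) (nat_lit 0) (XT.lf (nat_lit 0) (nat_lit 4173690217) (nat_lit 228) (nat_lit 3032817268) (nat_lit 304) (nat_lit 4916746658) (nat_lit 79) (nat_lit 5) (nat_lit 82) (nat_lit 5) (nat_lit 83) (nat_lit 4) (nat_lit 487) (nat_lit 337) (nat_lit 316)) (XT.lf (nat_lit 0) (nat_lit 608362207) (nat_lit 304) (nat_lit 9338047886) (nat_lit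 76) (nat_lit 2297073219) (nat_lit 75) (nat_lit 5) (nat_lit 79) (nat_lit 5) (nat_lit 76) (nat_lit 4) (nat_lit 488) (nat_lit 337) (nat_lit 315))) (XT.nd (nat_lit 78) (nat_lit 304) (nat_lit 0) (XT.lf (nat_lit 0) (nat_lit 1563480411) (nat_lit 152) (nat_lit 4629545287) (nat_lit 228) (nat_lit 6172143618) (nat_lit 73) (nat_lit 5) (nat_lit 75) (nat_lit 5) (nat_lit 76) (nat_lit 4) (nat_lit 489) (nat_lit 337) (nat_lit 314)) (XT.nd (nat_lit 78) (nat_lit 76) (nat_lit 0) (XT.lf (nat_lit 0) (nat_lit 194095156) (nat_lit 228) (nat_lit 11695866851) (nat_lit 228) (nat_lit 599315442) (nat_lit 70) (nat_lit 4) (nat_lit 73) (nat_lit 5) (nat_lit 73) (nat_lit 4) (nat_lit 490) (nat_lit 337) (nat_lit 313)) (XT.lf (nat_lit 0) (nat_lit 5053087180) (nat_lit 304) (nat_lit 1246919049) (nat_lit 76) (nat_lit 6314505053) (nat_lit 69) (nat_lit 5) (nat_lit 73) (nat_lit 5) (nat_lit 70) (nat_lit 4) (nat_lit 491) (nat_lit 337) (nat_lit 312)))))) (XT.nd (nat_lit 390) (nat_lit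 912) (nat_lit 0) (XT.nd (nat_lit 156) (nat_lit 608) (nat_lit 0) (XT.nd (nat_lit 78) (nat_lit 304) (nat_lit 0) (XT.lf (nat_lit 0) (nat_lit 10027737065) (nat_lit 152) (nat_lit 780423393) (nat_lit 228) (nat_lit 1934057155) (nat_lit 67) (nat_lit 5) (nat_lit 69) (nat_lit 5) (nat_lit 70) (nat_lit 4) (nat_lit 492) (nat_lit 337) (nat_lit 311)) (XT.lf (nat_lit 0) (nat_lit 3784800871) (nat_lit 304) (nat_lit 4264961669) (nat_lit 76) (nat_lit 4821644164) (nat_lit 63) (nat_lit 5) (nat_lit 67) (nat_lit 5) (nat_lit 64) (nat_lit 4) (nat_lit 493) (nat_lit 337) (nat_lit 310))) (XT.nd (nat_lit 78) (nat_lit 456) (nat_lit 0) (XT.lf (nat_lit 0) (nat_lit 7140937213) (nat_lit 152) (nat_lit 2453898047) (nat_lit 228) (nat_lit 3408034708) (nat_lit 61) (nat_lit 5) (nat_lit 63) (nat_lit 5) (nat_lit 64) (nat_lit 4) (nat_lit 494) (nat_lit 337) (nat_lit 309)) (XT.nd (nat_lit 78) (nat_lit 152) (nat_lit 0) (XT.lf (nat_lit 0) (nat_lit 2372409574) (nat_lit 304) (nat_lit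 7525892213) (nat_lit 76) (nat_lit 3237959733) (nat_lit 57) (nat_lit 5) (nat_lit 61) (nat_lit 5) (nat_lit 58) (nat_lit 4) (nat_lit 495) (nat_lit 337) (nat_lit 308)) (XT.lf (nat_lit 0) (nat_lit 4010921576) (nat_lit 152) (nat_lit 4226898577) (nat_lit 228) (nat_lit 5033750387) (nat_lit 55) (nat_lit 5) (nat_lit 57) (nat_lit 5) (nat_lit 58) (nat_lit 4) (nat_lit 496) (nat_lit 337) (nat_lit 307))))) (XT.nd (nat_lit 156) (nat_lit 456) (nat_lit 0) (XT.nd (nat_lit 78) (nat_lit 152) (nat_lit 0) (XT.lf (nat_lit 0) (nat_lit 809939235) (nat_lit 304) (nat_lit 11044987927) (nat_lit 76) (nat_lit 1554360837) (nat_lit 51) (nat_lit 5) (nat_lit 55) (nat_lit 5) (nat_lit 52) (nat_lit 4) (nat_lit 497) (nat_lit 337) (nat_lit 306)) (XT.lf (nat_lit 0) (nat_lit 622298281) (nat_lit 152) (nat_lit 6108752753) (nat_lit 228) (nat_lit 6817484306) (nat_lit 49) (nat_lit 5) (nat_lit 51) (nat_lit 5) (nat_lit 52) (nat_lit 4) (nat_lit 498) (nat_lit 337) (nat_lit 305))) (XT.nd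 (nat_lit 78) (nat_lit 456) (nat_lit 0) (XT.lf (nat_lit 0) (nat_lit 12550571767) (nat_lit 152) (nat_lit 227945089) (nat_lit 228) (nat_lit 911892135) (nat_lit 49) (nat_lit 5) (nat_lit 51) (nat_lit 5) (nat_lit 52) (nat_lit 4) (nat_lit 499) (nat_lit 337) (nat_lit 304)) (XT.nd (nat_lit 78) (nat_lit 152) (nat_lit 0) (XT.lf (nat_lit 0) (nat_lit 5087828661) (nat_lit 304) (nat_lit 3001017865) (nat_lit 76) (nat_lit 5744748622) (nat_lit 45) (nat_lit 5) (nat_lit 49) (nat_lit 5) (nat_lit 46) (nat_lit 4) (nat_lit 500) (nat_lit 337) (nat_lit 303)) (XT.lf (nat_lit 0) (nat_lit 9071071285) (nat_lit 152) (nat_lit 2127206930) (nat_lit 228) (nat_lit 2781187370) (nat_lit 43) (nat_lit 5) (nat_lit 45) (nat_lit 5) (nat_lit 46) (nat_lit 4) (nat_lit 501) (nat_lit 337) (nat_lit 302))))))) (XT.nd (nat_lit 56472) (nat_lit 0) (nat_lit 7296) (XT.nd (nat_lit 390) (nat_lit 760) (nat_lit 0) (XT.nd (nat_lit 156) (nat_lit 380) (nat_lit 0) (XT.nd (nat_lit 78) (nat_lit 152)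 (nat_lit 0) (XT.lf (nat_lit 0) (nat_lit 3287508848) (nat_lit 228) (nat_lit 6903502282) (nat_lit 76) (nat_lit 3936250619) (nat_lit 40) (nat_lit 5) (nat_lit 43) (nat_lit 5) (nat_lit 41) (nat_lit 4) (nat_lit 502) (nat_lit 337) (nat_lit 301)) (XT.lf (nat_lit 0) (nat_lit 5303664124) (nat_lit 152) (nat_lit 4153425721) (nat_lit 228) (nat_lit 4820221301) (nat_lit 38) (nat_lit 5) (nat_lit 40) (nat_lit 5) (nat_lit 41) (nat_lit 4) (nat_lit 503) (nat_lit 337) (nat_lit 300))) (XT.nd (nat_lit 78) (nat_lit 152) (nat_lit 0) (XT.lf (nat_lit 0) (nat_lit 1318932398) (nat_lit 228) (nat_lit 11110302613) (nat_lit 76) (nat_lit 2000624359) (nat_lit 35) (nat_lit 5) (nat_lit 38) (nat_lit 5) (nat_lit 36) (nat_lit 4) (nat_lit 504) (nat_lit 337) (nat_lit 299)) (XT.nd (nat_lit 78) (nat_lit 0) (nat_lit 0) (XT.lf (nat_lit 0) (nat_lit 1231228225) (nat_lit 152) (nat_lit 6316510068) (nat_lit 228) (nat_lit 7036454796) (nat_lit 33) (nat_lit 5) (nat_lit 35) (nat_lit 5) (nat_lit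 36) (nat_lit 4) (nat_lit 505) (nat_lit 337) (nat_lit 298)) (XT.lf (nat_lit 0) (nat_lit 13849886296) (nat_lit 152) (nat_lit 61513568) (nat_lit 228) (nat_lit 830008026) (nat_lit 33) (nat_lit 5) (nat_lit 35) (nat_lit 5) (nat_lit 36) (nat_lit 4) (nat_lit 506) (nat_lit 337) (nat_lit 297))))) (XT.nd (nat_lit 156) (nat_lit 380) (nat_lit 0) (XT.nd (nat_lit 78) (nat_lit 152) (nat_lit 0) (XT.lf (nat_lit 0) (nat_lit 5483144165) (nat_lit 228) (nat_lit 3122532602) (nat_lit 76) (nat_lit 6294281606) (nat_lit 30) (nat_lit 5) (nat_lit 33) (nat_lit 5) (nat_lit 31) (nat_lit 4) (nat_lit 507) (nat_lit 337) (nat_lit 296)) (XT.lf (nat_lit 0) (nat_lit 9652010128) (nat_lit 152) (nat_lit 2265229415) (nat_lit 228) (nat_lit 3144214716) (nat_lit 28) (nat_lit 5) (nat_lit 30) (nat_lit 5) (nat_lit 31) (nat_lit 4) (nat_lit 508) (nat_lit 337) (nat_lit 295))) (XT.nd (nat_lit 78) (nat_lit 152) (nat_lit 0) (XT.lf (nat_lit 0) (nat_lit 3244930939) (nat_lit 228) (nat_lit 7796988788)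 (nat_lit 76) (nat_lit 4183162438) (nat_lit 25) (nat_lit 5) (nat_lit 28) (nat_lit 5) (nat_lit 26) (nat_lit 4) (nat_lit 509) (nat_lit 337) (nat_lit 294)) (XT.nd (nat_lit 55770) (nat_lit 0) (nat_lit 10792) (XT.lf (nat_lit 0) (nat_lit 5116407309) (nat_lit 152) (nat_lit 4625010045) (nat_lit 228) (nat_lit 5649716432) (nat_lit 23) (nat_lit 5) (nat_lit 25) (nat_lit 5) (nat_lit 26) (nat_lit 4) (nat_lit 510) (nat_lit 337) (nat_lit 293)) (XT.lf (nat_lit 0) (nat_lit 1637169107) (nat_lit 380) (nat_lit 1638617640) (nat_lit 380) (nat_lit 1638617640) (nat_lit 165) (nat_lit 4) (nat_lit 170) (nat_lit 5) (nat_lit 170) (nat_lit 4) (nat_lit 464) (nat_lit 338) (nat_lit 338)))))) (XT.nd (nat_lit 390) (nat_lit 1976) (nat_lit 0) (XT.nd (nat_lit 156) (nat_lit 760) (nat_lit 0) (XT.nd (nat_lit 78) (nat_lit 380) (nat_lit 0) (XT.lf (nat_lit 0) (nat_lit 1638252796) (nat_lit 380) (nat_lit 7365159738) (nat_lit 0) (nat_lit 908781441) (nat_lit 160) (nat_lit 5) (nat_lit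 165) (nat_lit 4) (nat_lit 160) (nat_lit 4) (nat_lit 465) (nat_lit 338) (nat_lit 337)) (XT.lf (nat_lit 0) (nat_lit 1780335588) (nat_lit 380) (nat_lit 4830531706) (nat_lit 380) (nat_lit 3385892356) (nat_lit 155) (nat_lit 4) (nat_lit 160) (nat_lit 5) (nat_lit 160) (nat_lit 4) (nat_lit 466) (nat_lit 338) (nat_lit 336))) (XT.nd (nat_lit 78) (nat_lit 380) (nat_lit 0) (XT.lf (nat_lit 0) (nat_lit 1006481938) (nat_lit 304) (nat_lit 554045972) (nat_lit 380) (nat_lit 8522649100) (nat_lit 150) (nat_lit 5) (nat_lit 154) (nat_lit 5) (nat_lit 155) (nat_lit 4) (nat_lit 467) (nat_lit 338) (nat_lit 335)) (XT.nd (nat_lit 78) (nat_lit 76) (nat_lit 0) (XT.lf (nat_lit 0) (nat_lit 187025827) (nat_lit 304) (nat_lit 6380667605) (nat_lit 304) (nat_lit 3603038592) (nat_lit 146) (nat_lit 4) (nat_lit 150) (nat_lit 5) (nat_lit 150) (nat_lit 4) (nat_lit 468) (nat_lit 338) (nat_lit 334)) (XT.lf (nat_lit 0) (nat_lit 1387237075) (nat_lit 380) (nat_lit 636114801) (nat_lit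 76) (nat_lit 8236685916) (nat_lit 145) (nat_lit 5) (nat_lit 150) (nat_lit 5) (nat_lit 146) (nat_lit 4) (nat_lit 469) (nat_lit 338) (nat_lit 333))))) (XT.nd (nat_lit 234) (nat_lit 988) (nat_lit 0) (XT.nd (nat_lit 78) (nat_lit 684) (nat_lit 0) (XT.lf (nat_lit 0) (nat_lit 6429959828) (nat_lit 380) (nat_lit 1496680070) (nat_lit 0) (nat_lit 2423995730) (nat_lit 141) (nat_lit 5) (nat_lit 146) (nat_lit 4) (nat_lit 141) (nat_lit 4) (nat_lit 470) (nat_lit 338) (nat_lit 332)) (XT.nd (nat_lit 78) (nat_lit 304) (nat_lit 0) (XT.lf (nat_lit 0) (nat_lit 1113387200) (nat_lit 380) (nat_lit 2379518731) (nat_lit 76) (nat_lit 6950038248) (nat_lit 136) (nat_lit 5) (nat_lit 141) (nat_lit 5) (nat_lit 137) (nat_lit 4) (nat_lit 471) (nat_lit 338) (nat_lit 331)) (XT.lf (nat_lit 0) (nat_lit 6187557088) (nat_lit 380) (nat_lit 3297853308) (nat_lit 0) (nat_lit 1051331721) (nat_lit 132) (nat_lit 5) (nat_lit 137) (nat_lit 4) (nat_lit 132) (nat_lit 4) (nat_lit 472) (nat_lit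 338) (nat_lit 330)))) (XT.nd (nat_lit 78) (nat_lit 608) (nat_lit 0) (XT.lf (nat_lit 0) (nat_lit 730073739) (nat_lit 380) (nat_lit 4248163260) (nat_lit 76) (nat_lit 5653906842) (nat_lit 127) (nat_lit 5) (nat_lit 132) (nat_lit 5) (nat_lit 128) (nat_lit 4) (nat_lit 473) (nat_lit 338) (nat_lit 329)) (XT.nd (nat_lit 78) (nat_lit 380) (nat_lit 0) (XT.lf (nat_lit 0) (nat_lit 5496632939) (nat_lit 228) (nat_lit 342341486) (nat_lit 304) (nat_lit 4890178366) (nat_lit 124) (nat_lit 5) (nat_lit 127) (nat_lit 5) (nat_lit 128) (nat_lit 4) (nat_lit 474) (nat_lit 338) (nat_lit 328)) (XT.lf (nat_lit 0) (nat_lit 234598376) (nat_lit 380) (nat_lit 6253562733) (nat_lit 76) (nat_lit 4339600827) (nat_lit 119) (nat_lit 5) (nat_lit 124) (nat_lit 5) (nat_lit 120) (nat_lit 4) (nat_lit 475) (nat_lit 338) (nat_lit 327))))))))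
noncomputable def xc14 : XT := (XT.nd (nat_lit 1560) (nat_lit 2584) (nat_lit 0) (XT.nd (nat_lit 780) (nat_lit 2204) (nat_lit 0) (XT.nd (nat_lit 390) (nat_lit 1292) (nat_lit 0) (XT.nd (nat_lit 156) (nat_lit 684) (nat_lit 0) (XT.nd (nat_lit 78) (nat_lit 304) (nat_lit 0) (XT.lf (nat_lit 0) (nat_lit 3610715508) (nat_lit 228) (nat_lit 1775509701) (nat_lit 304) (nat_lit 5541674893) (nat_lit 116) (nat_lit 5) (nat_lit 119) (nat_lit 5) (nat_lit 120) (nat_lit 4) (nat_lit 476) (nat_lit 338) (nat_lit 326)) (XT.lf (nat_lit 0) (nat_lit 2619870539) (nat_lit 304) (nat_lit 8028946980) (nat_lit 304) (nat_lit 381064853) (nat_lit 112) (nat_lit 4) (nat_lit 116) (nat_lit 5) (nat_lit 116) (nat_lit 4) (nat_lit 477) (nat_lit 338) (nat_lit 325))) (XT.nd (nat_lit 78) (nat_lit 380) (nat_lit 0) (XT.lf (nat_lit 0) (nat_lit 1576306098) (nat_lit 228) (nat_lit 3242968374) (nat_lit 304) (nat_lit 6313984669) (nat_lit 108) (nat_lit 5) (nat_lit 111) (nat_lit 5) (nat_lit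 112) (nat_lit 4) (nat_lit 478) (nat_lit 338) (nat_lit 324)) (XT.nd (nat_lit 78) (nat_lit 76) (nat_lit 0) (XT.lf (nat_lit 0) (nat_lit 509137915) (nat_lit 304) (nat_lit 9609540245) (nat_lit 304) (nat_lit 1119971704) (nat_lit 104) (nat_lit 4) (nat_lit 108) (nat_lit 5) (nat_lit 108) (nat_lit 4) (nat_lit 479) (nat_lit 338) (nat_lit 323)) (XT.lf (nat_lit 0) (nat_lit 4138690140) (nat_lit 380) (nat_lit 610702015) (nat_lit 76) (nat_lit 6595902476) (nat_lit 103) (nat_lit 5) (nat_lit 108) (nat_lit 5) (nat_lit 104) (nat_lit 4) (nat_lit 480) (nat_lit 338) (nat_lit 322))))) (XT.nd (nat_lit 156) (nat_lit 760) (nat_lit 0) (XT.nd (nat_lit 78) (nat_lit 304) (nat_lit 0) (XT.lf (nat_lit 0) (nat_lit 9482980182) (nat_lit 304) (nat_lit 1745610379) (nat_lit 0) (nat_lit 225424645) (nat_lit 100) (nat_lit 5) (nat_lit 104) (nat_lit 4) (nat_lit 100) (nat_lit 4) (nat_lit 481) (nat_lit 338) (nat_lit 321)) (XT.lf (nat_lit 0) (nat_lit 3348029414) (nat_lit 304) (nat_lit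 2948064137) (nat_lit 76) (nat_lit 5267919697) (nat_lit 96) (nat_lit 5) (nat_lit 100) (nat_lit 5) (nat_lit 97) (nat_lit 4) (nat_lit 482) (nat_lit 338) (nat_lit 320))) (XT.nd (nat_lit 78) (nat_lit 532) (nat_lit 0) (XT.lf (nat_lit 0) (nat_lit 7496754597) (nat_lit 228) (nat_lit 1242093650) (nat_lit 304) (nat_lit 2937267126) (nat_lit 93) (nat_lit 5) (nat_lit 96) (nat_lit 5) (nat_lit 97) (nat_lit 4) (nat_lit 483) (nat_lit 338) (nat_lit 319)) (XT.nd (nat_lit 78) (nat_lit 228) (nat_lit 0) (XT.lf (nat_lit 0) (nat_lit 2433018677) (nat_lit 304) (nat_lit 5469258971) (nat_lit 76) (nat_lit 3887502381) (nat_lit 89) (nat_lit 5) (nat_lit 93) (nat_lit 5) (nat_lit 90) (nat_lit 4) (nat_lit 484) (nat_lit 338) (nat_lit 318)) (XT.lf (nat_lit 0) (nat_lit 5099711819) (nat_lit 228) (nat_lit 2772891300) (nat_lit 304) (nat_lit 4032702093) (nat_lit 86) (nat_lit 5) (nat_lit 89) (nat_lit 5) (nat_lit 90) (nat_lit 4) (nat_lit 485) (nat_lit 338) (nat_lit 317)))))) (XT.nd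 (nat_lit 390) (nat_lit 1216) (nat_lit 0) (XT.nd (nat_lit 156) (nat_lit 456) (nat_lit 0) (XT.nd (nat_lit 78) (nat_lit 228) (nat_lit 0) (XT.lf (nat_lit 0) (nat_lit 1389277864) (nat_lit 304) (nat_lit 8187502616) (nat_lit 76) (nat_lit 2445983458) (nat_lit 82) (nat_lit 5) (nat_lit 86) (nat_lit 5) (nat_lit 83) (nat_lit 4) (nat_lit 486) (nat_lit 338) (nat_lit 316)) (XT.lf (nat_lit 0) (nat_lit 2505486305) (nat_lit 228) (nat_lit 4372807574) (nat_lit 304) (nat_lit 5263492948) (nat_lit 79) (nat_lit 5) (nat_lit 82) (nat_lit 5) (nat_lit 83) (nat_lit 4) (nat_lit 487) (nat_lit 338) (nat_lit 315))) (XT.nd (nat_lit 78) (nat_lit 152) (nat_lit 0) (XT.lf (nat_lit 0) (nat_lit 212080669) (nat_lit 304) (nat_lit 11116449134) (nat_lit 76) (nat_lit 934612877) (nat_lit 75) (nat_lit 5) (nat_lit 79) (nat_lit 5) (nat_lit 76) (nat_lit 4) (nat_lit 488) (nat_lit 338) (nat_lit 314)) (XT.nd (nat_lit 78) (nat_lit 152) (nat_lit 0) (XT.lf (nat_lit 0) (nat_lit 5753051497)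 (nat_lit 304) (nat_lit 295738997) (nat_lit 76) (nat_lit 6336912043) (nat_lit 75) (nat_lit 5) (nat_lit 79) (nat_lit 5) (nat_lit 76) (nat_lit 4) (nat_lit 489) (nat_lit 338) (nat_lit 313)) (XT.lf (nat_lit 0) (nat_lit 10763102301) (nat_lit 152) (nat_lit 645195295) (nat_lit 228) (nat_lit 1102346879) (nat_lit 73) (nat_lit 5) (nat_lit 75) (nat_lit 5) (nat_lit 76) (nat_lit 4) (nat_lit 490) (nat_lit 338) (nat_lit 312))))) (XT.nd (nat_lit 156) (nat_lit 760) (nat_lit 0) (XT.nd (nat_lit 78) (nat_lit 152) (nat_lit 0) (XT.lf (nat_lit 0) (nat_lit 4507491529) (nat_lit 304) (nat_lit 3286301020) (nat_lit 76) (nat_lit 4843134310) (nat_lit 69) (nat_lit 5) (nat_lit 73) (nat_lit 5) (nat_lit 70) (nat_lit 4) (nat_lit 491) (nat_lit 338) (nat_lit 311)) (XT.lf (nat_lit 0) (nat_lit 7901195565) (nat_lit 152) (nat_lit 2314817817) (nat_lit 228) (nat_lit 2549550837) (nat_lit 67) (nat_lit 5) (nat_lit 69) (nat_lit 5) (nat_lit 70) (nat_lit 4) (nat_lit 492) (nat_lit 338)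 (nat_lit 310))) (XT.nd (nat_lit 78) (nat_lit 456) (nat_lit 0) (XT.lf (nat_lit 0) (nat_lit 3119914041) (nat_lit 304) (nat_lit 6513586835) (nat_lit 76) (nat_lit 3262481666) (nat_lit 63) (nat_lit 5) (nat_lit 67) (nat_lit 5) (nat_lit 64) (nat_lit 4) (nat_lit 493) (nat_lit 338) (nat_lit 309)) (XT.nd (nat_lit 78) (nat_lit 304) (nat_lit 0) (XT.lf (nat_lit 0) (nat_lit 4802238750) (nat_lit 152) (nat_lit 4079912081) (nat_lit 228) (nat_lit 4146250928) (nat_lit 61) (nat_lit 5) (nat_lit 63) (nat_lit 5) (nat_lit 64) (nat_lit 4) (nat_lit 494) (nat_lit 338) (nat_lit 308)) (XT.lf (nat_lit 0) (nat_lit 1584521586) (nat_lit 304) (nat_lit 9992646612) (nat_lit 76) (nat_lit 1585908044) (nat_lit 57) (nat_lit 5) (nat_lit 61) (nat_lit 5) (nat_lit 58) (nat_lit 4) (nat_lit 495) (nat_lit 338) (nat_lit 307))))))) (XT.nd (nat_lit 780) (nat_lit 912) (nat_lit 0) (XT.nd (nat_lit 390) (nat_lit 760) (nat_lit 0) (XT.nd (nat_lit 156) (nat_lit 760) (nat_lit 0) (XT.nd (nat_lit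 78) (nat_lit 0) (nat_lit 0) (XT.lf (nat_lit 0) (nat_lit 1451069696) (nat_lit 152) (nat_lit 5949752713) (nat_lit 228) (nat_lit 5898545049) (nat_lit 55) (nat_lit 5) (nat_lit 57) (nat_lit 5) (nat_lit 58) (nat_lit 4) (nat_lit 496) (nat_lit 338) (nat_lit 306)) (XT.lf (nat_lit 0) (nat_lit 13139664718) (nat_lit 152) (nat_lit 195722958) (nat_lit 228) (nat_lit 102958053) (nat_lit 55) (nat_lit 5) (nat_lit 57) (nat_lit 5) (nat_lit 58) (nat_lit 4) (nat_lit 497) (nat_lit 338) (nat_lit 305))) (XT.nd (nat_lit 78) (nat_lit 456) (nat_lit 0) (XT.lf (nat_lit 0) (nat_lit 5779841983) (nat_lit 304) (nat_lit 2139599598) (nat_lit 76) (nat_lit 5658958099) (nat_lit 51) (nat_lit 5) (nat_lit 55) (nat_lit 5) (nat_lit 52) (nat_lit 4) (nat_lit 498) (nat_lit 338) (nat_lit 304)) (XT.nd (nat_lit 78) (nat_lit 304) (nat_lit 0) (XT.lf (nat_lit 0) (nat_lit 9700990966) (nat_lit 152) (nat_lit 2080117689) (nat_lit 228) (nat_lit 1940088660) (nat_lit 49) (nat_lit 5) (nat_lit 51)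 (nat_lit 5) (nat_lit 52) (nat_lit 4) (nat_lit 499) (nat_lit 338) (nat_lit 303)) (XT.lf (nat_lit 0) (nat_lit 4009753233) (nat_lit 304) (nat_lit 5991757140) (nat_lit 76) (nat_lit 3864273892) (nat_lit 45) (nat_lit 5) (nat_lit 49) (nat_lit 5) (nat_lit 46) (nat_lit 4) (nat_lit 500) (nat_lit 338) (nat_lit 302))))) (XT.nd (nat_lit 156) (nat_lit 380) (nat_lit 0) (XT.nd (nat_lit 78) (nat_lit 228) (nat_lit 0) (XT.lf (nat_lit 0) (nat_lit 5981228755) (nat_lit 152) (nat_lit 4087282273) (nat_lit 228) (nat_lit 3944177508) (nat_lit 43) (nat_lit 5) (nat_lit 45) (nat_lit 5) (nat_lit 46) (nat_lit 4) (nat_lit 501) (nat_lit 338) (nat_lit 301)) (XT.lf (nat_lit 0) (nat_lit 2074203334) (nat_lit 228) (nat_lit 10141146982) (nat_lit 76) (nat_lit 1946596766) (nat_lit 40) (nat_lit 5) (nat_lit 43) (nat_lit 5) (nat_lit 41) (nat_lit 4) (nat_lit 502) (nat_lit 338) (nat_lit 300))) (XT.nd (nat_lit 78) (nat_lit 228) (nat_lit 0) (XT.lf (nat_lit 0) (nat_lit 1963532084) (nat_lit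 152) (nat_lit 6227036934) (nat_lit 228) (nat_lit 6122491767) (nat_lit 38) (nat_lit 5) (nat_lit 40) (nat_lit 5) (nat_lit 41) (nat_lit 4) (nat_lit 503) (nat_lit 338) (nat_lit 299)) (XT.nd (nat_lit 78) (nat_lit 228) (nat_lit 0) (XT.lf (nat_lit 0) (nat_lit 14330015055) (nat_lit 152) (nat_lit 104095142) (nat_lit 228) (nat_lit 32989600) (nat_lit 38) (nat_lit 5) (nat_lit 40) (nat_lit 5) (nat_lit 41) (nat_lit 4) (nat_lit 504) (nat_lit 338) (nat_lit 298)) (XT.lf (nat_lit 0) (nat_lit 6155237986) (nat_lit 228) (nat_lit 2338521830) (nat_lit 76) (nat_lit 6128498203) (nat_lit 35) (nat_lit 5) (nat_lit 38) (nat_lit 5) (nat_lit 36) (nat_lit 4) (nat_lit 505) (nat_lit 338) (nat_lit 297)))))) (XT.nd (nat_lit 55926) (nat_lit 0) (nat_lit 9652) (XT.nd (nat_lit 156) (nat_lit 532) (nat_lit 0) (XT.nd (nat_lit 78) (nat_lit 228) (nat_lit 0) (XT.lf (nat_lit 0) (nat_lit 10190668659) (nat_lit 152) (nat_lit 2281649798) (nat_lit 228) (nat_lit 2308085985) (nat_lit 33)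 (nat_lit 5) (nat_lit 35) (nat_lit 5) (nat_lit 36) (nat_lit 4) (nat_lit 506) (nat_lit 338) (nat_lit 296)) (XT.lf (nat_lit 0) (nat_lit 3954202182) (nat_lit 228) (nat_lit 6944071549) (nat_lit 76) (nat_lit 4042278113) (nat_lit 30) (nat_lit 5) (nat_lit 33) (nat_lit 5) (nat_lit 31) (nat_lit 4) (nat_lit 507) (nat_lit 338) (nat_lit 295))) (XT.nd (nat_lit 78) (nat_lit 380) (nat_lit 0) (XT.lf (nat_lit 0) (nat_lit 5721205554) (nat_lit 152) (nat_lit 4610841987) (nat_lit 228) (nat_lit 4771125189) (nat_lit 28) (nat_lit 5) (nat_lit 30) (nat_lit 5) (nat_lit 31) (nat_lit 4) (nat_lit 508) (nat_lit 338) (nat_lit 294)) (XT.nd (nat_lit 78) (nat_lit 152) (nat_lit 0) (XT.lf (nat_lit 0) (nat_lit 1566562040) (nat_lit 228) (nat_lit 11897532001) (nat_lit 76) (nat_lit 1804373767) (nat_lit 25) (nat_lit 5) (nat_lit 28) (nat_lit 5) (nat_lit 26) (nat_lit 4) (nat_lit 509) (nat_lit 338) (nat_lit 293)) (XT.lf (nat_lit 0) (nat_lit 902806284) (nat_lit 152) (nat_lit 7102239309)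 (nat_lit 228) (nat_lit 7430633894) (nat_lit 23) (nat_lit 5) (nat_lit 25) (nat_lit 5) (nat_lit 26) (nat_lit 4) (nat_lit 510) (nat_lit 338) (nat_lit 292))))) (XT.nd (nat_lit 234) (nat_lit 1140) (nat_lit 0) (XT.nd (nat_lit 78) (nat_lit 760) (nat_lit 0) (XT.lf (nat_lit 0) (nat_lit 2369102650) (nat_lit 380) (nat_lit 1231960972) (nat_lit 380) (nat_lit 1231960972) (nat_lit 175) (nat_lit 4) (nat_lit 180) (nat_lit 5) (nat_lit 180) (nat_lit 4) (nat_lit 462) (nat_lit 339) (nat_lit 339)) (XT.nd (nat_lit 78) (nat_lit 380) (nat_lit 0) (XT.lf (nat_lit 0) (nat_lit 2374639337) (nat_lit 380) (nat_lit 5756779853) (nat_lit 0) (nat_lit 1615697340) (nat_lit 170) (nat_lit 5) (nat_lit 175) (nat_lit 4) (nat_lit 170) (nat_lit 4) (nat_lit 463) (nat_lit 339) (nat_lit 338)) (XT.lf (nat_lit 0) (nat_lit 3214448017) (nat_lit 380) (nat_lit 4059051925) (nat_lit 380) (nat_lit 2556049146) (nat_lit 165) (nat_lit 4) (nat_lit 170) (nat_lit 5) (nat_lit 170) (nat_lit 4) (nat_lit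 464) (nat_lit 339) (nat_lit 337)))) (XT.nd (nat_lit 78) (nat_lit 760) (nat_lit 0) (XT.lf (nat_lit 0) (nat_lit 2307433502) (nat_lit 380) (nat_lit 7487524705) (nat_lit 0) (nat_lit 118733370) (nat_lit 160) (nat_lit 5) (nat_lit 165) (nat_lit 4) (nat_lit 160) (nat_lit 4) (nat_lit 465) (nat_lit 339) (nat_lit 336)) (XT.nd (nat_lit 78) (nat_lit 380) (nat_lit 0) (XT.lf (nat_lit 0) (nat_lit 1596166270) (nat_lit 380) (nat_lit 5646343486) (nat_lit 380) (nat_lit 2756498261) (nat_lit 155) (nat_lit 4) (nat_lit 160) (nat_lit 5) (nat_lit 160) (nat_lit 4) (nat_lit 466) (nat_lit 339) (nat_lit 335)) (XT.lf (nat_lit 0) (nat_lit 753175670) (nat_lit 304) (nat_lit 1390595639) (nat_lit 380) (nat_lit 7942330261) (nat_lit 150) (nat_lit 5) (nat_lit 154) (nat_lit 5) (nat_lit 155) (nat_lit 4) (nat_lit 467) (nat_lit 339) (nat_lit 334))))))))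
noncomputable def xc15 : XT := (XT.nd (nat_lit 1638) (nat_lit 3876) (nat_lit 0) (XT.nd (nat_lit 780) (nat_lit 2508) (nat_lit 0) (XT.nd (nat_lit 390) (nat_lit 1520) (nat_lit 0) (XT.nd (nat_lit 156) (nat_lit 988) (nat_lit 0) (XT.nd (nat_lit 78) (nat_lit 380) (nat_lit 0) (XT.lf (nat_lit 0) (nat_lit 7108216422) (nat_lit 380) (nat_lit 125883196) (nat_lit 0) (nat_lit 2940411374) (nat_lit 150) (nat_lit 5) (nat_lit 155) (nat_lit 4) (nat_lit 150) (nat_lit 4) (nat_lit 468) (nat_lit 339) (nat_lit 333)) (XT.lf (nat_lit 0) (nat_lit 1880119056) (nat_lit 380) (nat_lit 1017714240) (nat_lit 76) (nat_lit 7366650215) (nat_lit 145) (nat_lit 5) (nat_lit 150) (nat_lit 5) (nat_lit 146) (nat_lit 4) (nat_lit 469) (nat_lit 339) (nat_lit 332))) (XT.nd (nat_lit 78) (nat_lit 684) (nat_lit 0) (XT.lf (nat_lit 0) (nat_lit 6878814640) (nat_lit 380) (nat_lit 1942061481) (nat_lit 0) (nat_lit 1535085769) (nat_lit 141) (nat_lit 5) (nat_lit 146) (nat_lit 4) (nat_lit 141)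 (nat_lit 4) (nat_lit 470) (nat_lit 339) (nat_lit 331)) (XT.nd (nat_lit 78) (nat_lit 304) (nat_lit 0) (XT.lf (nat_lit 0) (nat_lit 1512407785) (nat_lit 380) (nat_lit 2899054141) (nat_lit 76) (nat_lit 6037524742) (nat_lit 136) (nat_lit 5) (nat_lit 141) (nat_lit 5) (nat_lit 137) (nat_lit 4) (nat_lit 471) (nat_lit 339) (nat_lit 330)) (XT.lf (nat_lit 0) (nat_lit 6541588673) (nat_lit 380) (nat_lit 3884564349) (nat_lit 0) (nat_lit 117531365) (nat_lit 132) (nat_lit 5) (nat_lit 137) (nat_lit 4) (nat_lit 132) (nat_lit 4) (nat_lit 472) (nat_lit 339) (nat_lit 329))))) (XT.nd (nat_lit 156) (nat_lit 912) (nat_lit 0) (XT.nd (nat_lit 78) (nat_lit 228) (nat_lit 0) (XT.lf (nat_lit 0) (nat_lit 1033217102) (nat_lit 380) (nat_lit 4912141945) (nat_lit 76) (nat_lit 4694469870) (nat_lit 127) (nat_lit 5) (nat_lit 132) (nat_lit 5) (nat_lit 128) (nat_lit 4) (nat_lit 473) (nat_lit 339) (nat_lit 328)) (XT.lf (nat_lit 0) (nat_lit 4764003409) (nat_lit 228) (nat_lit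 1338545593) (nat_lit 304) (nat_lit 4635080240) (nat_lit 124) (nat_lit 5) (nat_lit 127) (nat_lit 5) (nat_lit 128) (nat_lit 4) (nat_lit 474) (nat_lit 339) (nat_lit 327))) (XT.nd (nat_lit 78) (nat_lit 532) (nat_lit 0) (XT.lf (nat_lit 0) (nat_lit 439686234) (nat_lit 380) (nat_lit 7068690373) (nat_lit 76) (nat_lit 3328761948) (nat_lit 119) (nat_lit 5) (nat_lit 124) (nat_lit 5) (nat_lit 120) (nat_lit 4) (nat_lit 475) (nat_lit 339) (nat_lit 326)) (XT.nd (nat_lit 78) (nat_lit 304) (nat_lit 0) (XT.lf (nat_lit 0) (nat_lit 2724710076) (nat_lit 228) (nat_lit 2826253783) (nat_lit 304) (nat_lit 5387119846) (nat_lit 116) (nat_lit 5) (nat_lit 119) (nat_lit 5) (nat_lit 120) (nat_lit 4) (nat_lit 476) (nat_lit 339) (nat_lit 325)) (XT.lf (nat_lit 0) (nat_lit 1658500773) (nat_lit 304) (nat_lit 9107531396) (nat_lit 304) (nat_lit 274984286) (nat_lit 112) (nat_lit 4) (nat_lit 116) (nat_lit 5) (nat_lit 116) (nat_lit 4) (nat_lit 477) (nat_lit 339) (nat_lit 324))))))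 (XT.nd (nat_lit 390) (nat_lit 1292) (nat_lit 0) (XT.nd (nat_lit 156) (nat_lit 912) (nat_lit 0) (XT.nd (nat_lit 78) (nat_lit 0) (nat_lit 0) (XT.lf (nat_lit 0) (nat_lit 529929441) (nat_lit 228) (nat_lit 4352846859) (nat_lit 304) (nat_lit 6262426897) (nat_lit 108) (nat_lit 5) (nat_lit 111) (nat_lit 5) (nat_lit 112) (nat_lit 4) (nat_lit 478) (nat_lit 339) (nat_lit 323)) (XT.lf (nat_lit 0) (nat_lit 10137403329) (nat_lit 304) (nat_lit 608243578) (nat_lit 0) (nat_lit 505842548) (nat_lit 108) (nat_lit 5) (nat_lit 112) (nat_lit 4) (nat_lit 108) (nat_lit 4) (nat_lit 479) (nat_lit 339) (nat_lit 322))) (XT.nd (nat_lit 78) (nat_lit 532) (nat_lit 0) (XT.lf (nat_lit 0) (nat_lit 4106267989) (nat_lit 380) (nat_lit 1808749991) (nat_lit 76) (nat_lit 5443880089) (nat_lit 103) (nat_lit 5) (nat_lit 108) (nat_lit 5) (nat_lit 104) (nat_lit 4) (nat_lit 480) (nat_lit 339) (nat_lit 321)) (XT.nd (nat_lit 78) (nat_lit 304) (nat_lit 0) (XT.lf (nat_lit 0) (nat_lit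 8436688680) (nat_lit 228) (nat_lit 970587847) (nat_lit 304) (nat_lit 2061207746) (nat_lit 100) (nat_lit 5) (nat_lit 103) (nat_lit 5) (nat_lit 104) (nat_lit 4) (nat_lit 481) (nat_lit 339) (nat_lit 320)) (XT.lf (nat_lit 0) (nat_lit 3210197638) (nat_lit 304) (nat_lit 4318869320) (nat_lit 76) (nat_lit 4050403898) (nat_lit 96) (nat_lit 5) (nat_lit 100) (nat_lit 5) (nat_lit 97) (nat_lit 4) (nat_lit 482) (nat_lit 339) (nat_lit 319))))) (XT.nd (nat_lit 234) (nat_lit 532) (nat_lit 0) (XT.nd (nat_lit 78) (nat_lit 532) (nat_lit 0) (XT.lf (nat_lit 0) (nat_lit 6048293624) (nat_lit 228) (nat_lit 2509963378) (nat_lit 304) (nat_lit 3134171170) (nat_lit 93) (nat_lit 5) (nat_lit 96) (nat_lit 5) (nat_lit 97) (nat_lit 4) (nat_lit 483) (nat_lit 339) (nat_lit 318)) (XT.nd (nat_lit 78) (nat_lit 228) (nat_lit 0) (XT.lf (nat_lit 0) (nat_lit 2186912360) (nat_lit 304) (nat_lit 7020432227) (nat_lit 76) (nat_lit 2599809503) (nat_lit 89) (nat_lit 5) (nat_lit 93) (nat_lit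 5) (nat_lit 90) (nat_lit 4) (nat_lit 484) (nat_lit 339) (nat_lit 317)) (XT.lf (nat_lit 0) (nat_lit 3468317055) (nat_lit 228) (nat_lit 4114399057) (nat_lit 304) (nat_lit 4340838776) (nat_lit 86) (nat_lit 5) (nat_lit 89) (nat_lit 5) (nat_lit 90) (nat_lit 4) (nat_lit 485) (nat_lit 339) (nat_lit 316)))) (XT.nd (nat_lit 78) (nat_lit 228) (nat_lit 0) (XT.lf (nat_lit 0) (nat_lit 1031855371) (nat_lit 304) (nat_lit 9926916259) (nat_lit 76) (nat_lit 1083348537) (nat_lit 82) (nat_lit 5) (nat_lit 86) (nat_lit 5) (nat_lit 83) (nat_lit 4) (nat_lit 486) (nat_lit 339) (nat_lit 315)) (XT.nd (nat_lit 78) (nat_lit 0) (nat_lit 0) (XT.lf (nat_lit 0) (nat_lit 683190551) (nat_lit 228) (nat_lit 5792817595) (nat_lit 304) (nat_lit 5686032176) (nat_lit 79) (nat_lit 5) (nat_lit 82) (nat_lit 5) (nat_lit 83) (nat_lit 4) (nat_lit 487) (nat_lit 339) (nat_lit 314)) (XT.lf (nat_lit 0) (nat_lit 11521700906) (nat_lit 228) (nat_lit 507773730) (nat_lit 304) (nat_lit 254875630)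 (nat_lit 79) (nat_lit 5) (nat_lit 82) (nat_lit 5) (nat_lit 83) (nat_lit 4) (nat_lit 488) (nat_lit 339) (nat_lit 313))))))) (XT.nd (nat_lit 780) (nat_lit 1748) (nat_lit 0) (XT.nd (nat_lit 390) (nat_lit 912) (nat_lit 0) (XT.nd (nat_lit 156) (nat_lit 760) (nat_lit 0) (XT.nd (nat_lit 78) (nat_lit 152) (nat_lit 0) (XT.lf (nat_lit 0) (nat_lit 5248206641) (nat_lit 304) (nat_lit 2290670424) (nat_lit 76) (nat_lit 4868890781) (nat_lit 75) (nat_lit 5) (nat_lit 79) (nat_lit 5) (nat_lit 76) (nat_lit 4) (nat_lit 489) (nat_lit 339) (nat_lit 312)) (XT.lf (nat_lit 0) (nat_lit 8682918070) (nat_lit 152) (nat_lit 2174789680) (nat_lit 228) (nat_lit 1675916933) (nat_lit 73) (nat_lit 5) (nat_lit 75) (nat_lit 5) (nat_lit 76) (nat_lit 4) (nat_lit 490) (nat_lit 339) (nat_lit 311))) (XT.nd (nat_lit 78) (nat_lit 456) (nat_lit 0) (XT.lf (nat_lit 0) (nat_lit 3884840059) (nat_lit 304) (nat_lit 5486195132) (nat_lit 76) (nat_lit 3290078434) (nat_lit 69) (nat_lit 5) (nat_lit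 73) (nat_lit 5) (nat_lit 70) (nat_lit 4) (nat_lit 491) (nat_lit 339) (nat_lit 310)) (XT.nd (nat_lit 78) (nat_lit 304) (nat_lit 0) (XT.lf (nat_lit 0) (nat_lit 5613186394) (nat_lit 152) (nat_lit 3933217785) (nat_lit 228) (nat_lit 3244285961) (nat_lit 67) (nat_lit 5) (nat_lit 69) (nat_lit 5) (nat_lit 70) (nat_lit 4) (nat_lit 492) (nat_lit 339) (nat_lit 309)) (XT.lf (nat_lit 0) (nat_lit 2375850774) (nat_lit 304) (nat_lit 8927174214) (nat_lit 76) (nat_lit 1619342483) (nat_lit 63) (nat_lit 5) (nat_lit 67) (nat_lit 5) (nat_lit 64) (nat_lit 4) (nat_lit 493) (nat_lit 339) (nat_lit 308))))) (XT.nd (nat_lit 156) (nat_lit 456) (nat_lit 0) (XT.nd (nat_lit 78) (nat_lit 304) (nat_lit 0) (XT.lf (nat_lit 0) (nat_lit 2297566015) (nat_lit 152) (nat_lit 5792285809) (nat_lit 228) (nat_lit 4965899579) (nat_lit 61) (nat_lit 5) (nat_lit 63) (nat_lit 5) (nat_lit 64) (nat_lit 4) (nat_lit 494) (nat_lit 339) (nat_lit 307)) (XT.lf (nat_lit 0) (nat_lit 561740877)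 (nat_lit 228) (nat_lit 154509348) (nat_lit 304) (nat_lit 12475469546) (nat_lit 57) (nat_lit 5) (nat_lit 60) (nat_lit 5) (nat_lit 61) (nat_lit 5) (nat_lit 495) (nat_lit 339) (nat_lit 306))) (XT.nd (nat_lit 78) (nat_lit 456) (nat_lit 0) (XT.lf (nat_lit 0) (nat_lit 6490274113) (nat_lit 304) (nat_lit 1262647863) (nat_lit 76) (nat_lit 5575934549) (nat_lit 57) (nat_lit 5) (nat_lit 61) (nat_lit 5) (nat_lit 58) (nat_lit 4) (nat_lit 496) (nat_lit 339) (nat_lit 305)) (XT.nd (nat_lit 78) (nat_lit 304) (nat_lit 0) (XT.lf (nat_lit 0) (nat_lit 10351193747) (nat_lit 152) (nat_lit 2033734443) (nat_lit 228) (nat_lit 1083704830) (nat_lit 55) (nat_lit 5) (nat_lit 57) (nat_lit 5) (nat_lit 58) (nat_lit 4) (nat_lit 497) (nat_lit 339) (nat_lit 304)) (XT.lf (nat_lit 0) (nat_lit 4749618858) (nat_lit 304) (nat_lit 5066523506) (nat_lit 76) (nat_lit 3793918741) (nat_lit 51) (nat_lit 5) (nat_lit 55) (nat_lit 5) (nat_lit 52) (nat_lit 4) (nat_lit 498) (nat_lit 339)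 (nat_lit 303)))))) (XT.nd (nat_lit 390) (nat_lit 912) (nat_lit 0) (XT.nd (nat_lit 156) (nat_lit 380) (nat_lit 0) (XT.nd (nat_lit 78) (nat_lit 304) (nat_lit 0) (XT.lf (nat_lit 0) (nat_lit 6677082750) (nat_lit 152) (nat_lit 4023053724) (nat_lit 228) (nat_lit 3053737247) (nat_lit 49) (nat_lit 5) (nat_lit 51) (nat_lit 5) (nat_lit 52) (nat_lit 4) (nat_lit 499) (nat_lit 339) (nat_lit 302)) (XT.lf (nat_lit 0) (nat_lit 2846222784) (nat_lit 304) (nat_lit 9160641618) (nat_lit 76) (nat_lit 1893030630) (nat_lit 45) (nat_lit 5) (nat_lit 49) (nat_lit 5) (nat_lit 46) (nat_lit 4) (nat_lit 500) (nat_lit 339) (nat_lit 301))) (XT.nd (nat_lit 78) (nat_lit 228) (nat_lit 0) (XT.lf (nat_lit 0) (nat_lit 2712037445) (nat_lit 152) (nat_lit 6140707128) (nat_lit 228) (nat_lit 5195099451) (nat_lit 43) (nat_lit 5) (nat_lit 45) (nat_lit 5) (nat_lit 46) (nat_lit 4) (nat_lit 501) (nat_lit 339) (nat_lit 300)) (XT.nd (nat_lit 78) (nat_lit 0) (nat_lit 0) (XT.lf (nat_lit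 0) (nat_lit 635604412) (nat_lit 152) (nat_lit 138236321) (nat_lit 228) (nat_lit 13424741209) (nat_lit 40) (nat_lit 5) (nat_lit 42) (nat_lit 5) (nat_lit 43) (nat_lit 5) (nat_lit 502) (nat_lit 339) (nat_lit 299)) (XT.lf (nat_lit 0) (nat_lit 6845649597) (nat_lit 228) (nat_lit 1540683318) (nat_lit 76) (nat_lit 5964253864) (nat_lit 40) (nat_lit 5) (nat_lit 43) (nat_lit 5) (nat_lit 41) (nat_lit 4) (nat_lit 503) (nat_lit 339) (nat_lit 298))))) (XT.nd (nat_lit 234) (nat_lit 380) (nat_lit 0) (XT.nd (nat_lit 78) (nat_lit 380) (nat_lit 0) (XT.lf (nat_lit 0) (nat_lit 10748172970) (nat_lit 152) (nat_lit 2300206012) (nat_lit 228) (nat_lit 1457063046) (nat_lit 38) (nat_lit 5) (nat_lit 40) (nat_lit 5) (nat_lit 41) (nat_lit 4) (nat_lit 504) (nat_lit 339) (nat_lit 297)) (XT.nd (nat_lit 78) (nat_lit 152) (nat_lit 0) (XT.lf (nat_lit 0) (nat_lit 4680791198) (nat_lit 228) (nat_lit 6079596759) (nat_lit 76) (nat_lit 3901778221) (nat_lit 35) (nat_lit 5) (nat_lit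 38) (nat_lit 5) (nat_lit 36) (nat_lit 4) (nat_lit 505) (nat_lit 339) (nat_lit 296)) (XT.lf (nat_lit 0) (nat_lit 6342631856) (nat_lit 152) (nat_lit 4600043078) (nat_lit 228) (nat_lit 3878741602) (nat_lit 33) (nat_lit 5) (nat_lit 35) (nat_lit 5) (nat_lit 36) (nat_lit 4) (nat_lit 506) (nat_lit 339) (nat_lit 295)))) (XT.nd (nat_lit 78) (nat_lit 152) (nat_lit 0) (XT.lf (nat_lit 0) (nat_lit 2332609531) (nat_lit 228) (nat_lit 10958620359) (nat_lit 76) (nat_lit 1691968732) (nat_lit 30) (nat_lit 5) (nat_lit 33) (nat_lit 5) (nat_lit 31) (nat_lit 4) (nat_lit 507) (nat_lit 339) (nat_lit 294)) (XT.nd (nat_lit 78) (nat_lit 0) (nat_lit 0) (XT.lf (nat_lit 0) (nat_lit 1595972772) (nat_lit 152) (nat_lit 7057572264) (nat_lit 228) (nat_lit 6493412668) (nat_lit 28) (nat_lit 5) (nat_lit 30) (nat_lit 5) (nat_lit 31) (nat_lit 4) (nat_lit 508) (nat_lit 339) (nat_lit 293)) (XT.lf (nat_lit 0) (nat_lit 14436663459) (nat_lit 152) (nat_lit 677375215) (nat_lit 228)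 (nat_lit 199690507) (nat_lit 28) (nat_lit 5) (nat_lit 30) (nat_lit 5) (nat_lit 31) (nat_lit 4) (nat_lit 509) (nat_lit 339) (nat_lit 292))))))))
noncomputable def xc16 : XT := (XT.nd (nat_lit 56862) (nat_lit 0) (nat_lit 2128) (XT.nd (nat_lit 56082) (nat_lit 0) (nat_lit 6764) (XT.nd (nat_lit 55692) (nat_lit 0) (nat_lit 9652) (XT.nd (nat_lit 55458) (nat_lit 0) (nat_lit 11552) (XT.nd (nat_lit 78) (nat_lit 152) (nat_lit 0) (XT.lf (nat_lit 0) (nat_lit 6195299574) (nat_lit 228) (nat_lit 3464997953) (nat_lit 76) (nat_lit 5821591512) (nat_lit 25) (nat_lit 5) (nat_lit 28) (nat_lit 5) (nat_lit 26) (nat_lit 4) (nat_lit 510) (nat_lit 339) (nat_lit 291)) (XT.lf (nat_lit 0) (nat_lit 9534304435) (nat_lit 152) (nat_lit 3194027320) (nat_lit 228) (nat_lit 2924797617) (nat_lit 23) (nat_lit 5) (nat_lit 25) (nat_lit 5) (nat_lit 26) (nat_lit 4) (nat_lit 511) (nat_lit 339) (nat_lit 290))) (XT.nd (nat_lit 78) (nat_lit 836) (nat_lit 0) (XT.lf (nat_lit 0) (nat_lit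 3117551564) (nat_lit 380) (nat_lit 818147077) (nat_lit 380) (nat_lit 818147077) (nat_lit 186) (nat_lit 4) (nat_lit 191) (nat_lit 5) (nat_lit 191) (nat_lit 4) (nat_lit 460) (nat_lit 340) (nat_lit 340)) (XT.nd (nat_lit 78) (nat_lit 380) (nat_lit 0) (XT.lf (nat_lit 0) (nat_lit 3127634697) (nat_lit 456) (nat_lit 4120792642) (nat_lit 0) (nat_lit 2338031442) (nat_lit 180) (nat_lit 5) (nat_lit 186) (nat_lit 4) (nat_lit 180) (nat_lit 4) (nat_lit 461) (nat_lit 340) (nat_lit 339)) (XT.lf (nat_lit 0) (nat_lit 4679789041) (nat_lit 380) (nat_lit 3275357955) (nat_lit 380) (nat_lit 1711633863) (nat_lit 175) (nat_lit 4) (nat_lit 180) (nat_lit 5) (nat_lit 180) (nat_lit 4) (nat_lit 462) (nat_lit 340) (nat_lit 338))))) (XT.nd (nat_lit 156) (nat_lit 1140) (nat_lit 0) (XT.nd (nat_lit 78) (nat_lit 380) (nat_lit 0) (XT.lf (nat_lit 0) (nat_lit 3074774232) (nat_lit 380) (nat_lit 5876171402) (nat_lit 0) (nat_lit 797650615) (nat_lit 170) (nat_lit 5) (nat_lit 175)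 (nat_lit 4) (nat_lit 170) (nat_lit 4) (nat_lit 463) (nat_lit 340) (nat_lit 337)) (XT.lf (nat_lit 0) (nat_lit 3034753935) (nat_lit 380) (nat_lit 4901805674) (nat_lit 380) (nat_lit 1895210702) (nat_lit 165) (nat_lit 4) (nat_lit 170) (nat_lit 5) (nat_lit 170) (nat_lit 4) (nat_lit 464) (nat_lit 340) (nat_lit 336))) (XT.nd (nat_lit 78) (nat_lit 760) (nat_lit 0) (XT.lf (nat_lit 0) (nat_lit 2179471287) (nat_lit 304) (nat_lit 741931808) (nat_lit 380) (nat_lit 6995187929) (nat_lit 160) (nat_lit 5) (nat_lit 164) (nat_lit 5) (nat_lit 165) (nat_lit 4) (nat_lit 465) (nat_lit 340) (nat_lit 335)) (XT.nd (nat_lit 78) (nat_lit 380) (nat_lit 0) (XT.lf (nat_lit 0) (nat_lit 1289137160) (nat_lit 380) (nat_lit 6524901743) (nat_lit 380) (nat_lit 2188717371) (nat_lit 155) (nat_lit 4) (nat_lit 160) (nat_lit 5) (nat_lit 160) (nat_lit 4) (nat_lit 466) (nat_lit 340) (nat_lit 334)) (XT.lf (nat_lit 0) (nat_lit 375444167) (nat_lit 304) (nat_lit 2290668364) (nat_lit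 380) (nat_lit 7424423430) (nat_lit 150) (nat_lit 5) (nat_lit 154) (nat_lit 5) (nat_lit 155) (nat_lit 4) (nat_lit 467) (nat_lit 340) (nat_lit 333)))))) (XT.nd (nat_lit 390) (nat_lit 1520) (nat_lit 0) (XT.nd (nat_lit 156) (nat_lit 988) (nat_lit 0) (XT.nd (nat_lit 78) (nat_lit 380) (nat_lit 0) (XT.lf (nat_lit 0) (nat_lit 7589346444) (nat_lit 380) (nat_lit 560692235) (nat_lit 0) (nat_lit 2029730927) (nat_lit 150) (nat_lit 5) (nat_lit 155) (nat_lit 4) (nat_lit 150) (nat_lit 4) (nat_lit 468) (nat_lit 340) (nat_lit 332)) (XT.lf (nat_lit 0) (nat_lit 2311586576) (nat_lit 380) (nat_lit 1525259345) (nat_lit 76) (nat_lit 6433597668) (nat_lit 145) (nat_lit 5) (nat_lit 150) (nat_lit 5) (nat_lit 146) (nat_lit 4) (nat_lit 469) (nat_lit 340) (nat_lit 331))) (XT.nd (nat_lit 78) (nat_lit 684) (nat_lit 0) (XT.lf (nat_lit 0) (nat_lit 7265704333) (nat_lit 380) (nat_lit 2514994082) (nat_lit 0) (nat_lit 582115110) (nat_lit 141) (nat_lit 5) (nat_lit 146) (nat_lit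 4) (nat_lit 141) (nat_lit 4) (nat_lit 470) (nat_lit 340) (nat_lit 330)) (XT.nd (nat_lit 78) (nat_lit 304) (nat_lit 0) (XT.lf (nat_lit 0) (nat_lit 1848626673) (nat_lit 380) (nat_lit 3547783928) (nat_lit 76) (nat_lit 5060155050) (nat_lit 136) (nat_lit 5) (nat_lit 141) (nat_lit 5) (nat_lit 137) (nat_lit 4) (nat_lit 471) (nat_lit 340) (nat_lit 329)) (XT.lf (nat_lit 0) (nat_lit 5944130907) (nat_lit 304) (nat_lit 893902540) (nat_lit 380) (nat_lit 3714025405) (nat_lit 132) (nat_lit 5) (nat_lit 136) (nat_lit 5) (nat_lit 137) (nat_lit 4) (nat_lit 472) (nat_lit 340) (nat_lit 328))))) (XT.nd (nat_lit 156) (nat_lit 912) (nat_lit 0) (XT.nd (nat_lit 78) (nat_lit 228) (nat_lit 0) (XT.lf (nat_lit 0) (nat_lit 1272102954) (nat_lit 380) (nat_lit 5708665602) (nat_lit 76) (nat_lit 3668305545) (nat_lit 127) (nat_lit 5) (nat_lit 132) (nat_lit 5) (nat_lit 128) (nat_lit 4) (nat_lit 473) (nat_lit 340) (nat_lit 327)) (XT.lf (nat_lit 0) (nat_lit 3898240531) (nat_lit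 228) (nat_lit 2403443737) (nat_lit 304) (nat_lit 4445985170) (nat_lit 124) (nat_lit 5) (nat_lit 127) (nat_lit 5) (nat_lit 128) (nat_lit 4) (nat_lit 474) (nat_lit 340) (nat_lit 326))) (XT.nd (nat_lit 78) (nat_lit 532) (nat_lit 0) (XT.lf (nat_lit 0) (nat_lit 578990569) (nat_lit 380) (nat_lit 8019821063) (nat_lit 76) (nat_lit 2249288779) (nat_lit 119) (nat_lit 5) (nat_lit 124) (nat_lit 5) (nat_lit 120) (nat_lit 4) (nat_lit 475) (nat_lit 340) (nat_lit 325)) (XT.nd (nat_lit 78) (nat_lit 304) (nat_lit 0) (XT.lf (nat_lit 0) (nat_lit 1702071540) (nat_lit 228) (nat_lit 3947638699) (nat_lit 304) (nat_lit 5300146480) (nat_lit 116) (nat_lit 5) (nat_lit 119) (nat_lit 5) (nat_lit 120) (nat_lit 4) (nat_lit 476) (nat_lit 340) (nat_lit 324)) (XT.lf (nat_lit 0) (nat_lit 558716399) (nat_lit 304) (nat_lit 10257856510) (nat_lit 304) (nat_lit 237180674) (nat_lit 112) (nat_lit 4) (nat_lit 116) (nat_lit 5) (nat_lit 116) (nat_lit 4) (nat_lit 477) (nat_lit 340)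 (nat_lit 323))))))) (XT.nd (nat_lit 780) (nat_lit 2356) (nat_lit 0) (XT.nd (nat_lit 390) (nat_lit 1064) (nat_lit 0) (XT.nd (nat_lit 156) (nat_lit 912) (nat_lit 0) (XT.nd (nat_lit 78) (nat_lit 228) (nat_lit 0) (XT.lf (nat_lit 0) (nat_lit 4882924144) (nat_lit 380) (nat_lit 648082375) (nat_lit 76) (nat_lit 5627672097) (nat_lit 111) (nat_lit 5) (nat_lit 116) (nat_lit 5) (nat_lit 112) (nat_lit 4) (nat_lit 478) (nat_lit 340) (nat_lit 322)) (XT.lf (nat_lit 0) (nat_lit 9402104625) (nat_lit 228) (nat_lit 694420785) (nat_lit 304) (nat_lit 1169259979) (nat_lit 108) (nat_lit 5) (nat_lit 111) (nat_lit 5) (nat_lit 112) (nat_lit 4) (nat_lit 479) (nat_lit 340) (nat_lit 321))) (XT.nd (nat_lit 78) (nat_lit 532) (nat_lit 0) (XT.lf (nat_lit 0) (nat_lit 4005463158) (nat_lit 380) (nat_lit 3148893099) (nat_lit 76) (nat_lit 4219772001) (nat_lit 103) (nat_lit 5) (nat_lit 108) (nat_lit 5) (nat_lit 104) (nat_lit 4) (nat_lit 480) (nat_lit 340) (nat_lit 320)) (XT.nd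 (nat_lit 78) (nat_lit 304) (nat_lit 0) (XT.lf (nat_lit 0) (nat_lit 7020638262) (nat_lit 228) (nat_lit 2243765182) (nat_lit 304) (nat_lit 2220152384) (nat_lit 100) (nat_lit 5) (nat_lit 103) (nat_lit 5) (nat_lit 104) (nat_lit 4) (nat_lit 481) (nat_lit 340) (nat_lit 319)) (XT.lf (nat_lit 0) (nat_lit 3002231924) (nat_lit 304) (nat_lit 5835581714) (nat_lit 76) (nat_lit 2758771527) (nat_lit 96) (nat_lit 5) (nat_lit 100) (nat_lit 5) (nat_lit 97) (nat_lit 4) (nat_lit 482) (nat_lit 340) (nat_lit 318))))) (XT.nd (nat_lit 156) (nat_lit 532) (nat_lit 0) (XT.nd (nat_lit 78) (nat_lit 304) (nat_lit 0) (XT.lf (nat_lit 0) (nat_lit 4453151871) (nat_lit 228) (nat_lit 3854081619) (nat_lit 304) (nat_lit 3403170145) (nat_lit 93) (nat_lit 5) (nat_lit 96) (nat_lit 5) (nat_lit 97) (nat_lit 4) (nat_lit 483) (nat_lit 340) (nat_lit 317)) (XT.lf (nat_lit 0) (nat_lit 1868842960) (nat_lit 304) (nat_lit 8721456400) (nat_lit 76) (nat_lit 1235917093) (nat_lit 89) (nat_lit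 5) (nat_lit 93) (nat_lit 5) (nat_lit 90) (nat_lit 4) (nat_lit 484) (nat_lit 340) (nat_lit 316))) (XT.nd (nat_lit 78) (nat_lit 304) (nat_lit 0) (XT.lf (nat_lit 0) (nat_lit 1686248704) (nat_lit 228) (nat_lit 5534289802) (nat_lit 304) (nat_lit 4722960908) (nat_lit 86) (nat_lit 5) (nat_lit 89) (nat_lit 5) (nat_lit 90) (nat_lit 4) (nat_lit 485) (nat_lit 340) (nat_lit 315)) (XT.nd (nat_lit 78) (nat_lit 0) (nat_lit 0) (XT.lf (nat_lit 0) (nat_lit 240535578) (nat_lit 228) (nat_lit 362377635) (nat_lit 304) (nat_lit 11460237732) (nat_lit 82) (nat_lit 5) (nat_lit 85) (nat_lit 5) (nat_lit 86) (nat_lit 5) (nat_lit 486) (nat_lit 340) (nat_lit 314)) (XT.lf (nat_lit 0) (nat_lit 6007893458) (nat_lit 304) (nat_lit 1276941787) (nat_lit 76) (nat_lit 4899019306) (nat_lit 82) (nat_lit 5) (nat_lit 86) (nat_lit 5) (nat_lit 83) (nat_lit 4) (nat_lit 487) (nat_lit 340) (nat_lit 313)))))) (XT.nd (nat_lit 390) (nat_lit 1216) (nat_lit 0) (XT.nd (nat_lit 156) (nat_lit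 608) (nat_lit 0) (XT.nd (nat_lit 78) (nat_lit 304) (nat_lit 0) (XT.lf (nat_lit 0) (nat_lit 9487153259) (nat_lit 228) (nat_lit 2033683755) (nat_lit 304) (nat_lit 786137940) (nat_lit 79) (nat_lit 5) (nat_lit 82) (nat_lit 5) (nat_lit 83) (nat_lit 4) (nat_lit 488) (nat_lit 340) (nat_lit 312)) (XT.lf (nat_lit 0) (nat_lit 4668142000) (nat_lit 304) (nat_lit 4442601522) (nat_lit 76) (nat_lit 3320833396) (nat_lit 75) (nat_lit 5) (nat_lit 79) (nat_lit 5) (nat_lit 76) (nat_lit 4) (nat_lit 489) (nat_lit 340) (nat_lit 311))) (XT.nd (nat_lit 78) (nat_lit 456) (nat_lit 0) (XT.lf (nat_lit 0) (nat_lit 6444799514) (nat_lit 152) (nat_lit 3786705329) (nat_lit 228) (nat_lit 2326851678) (nat_lit 73) (nat_lit 5) (nat_lit 75) (nat_lit 5) (nat_lit 76) (nat_lit 4) (nat_lit 490) (nat_lit 340) (nat_lit 310)) (XT.nd (nat_lit 78) (nat_lit 152) (nat_lit 0) (XT.lf (nat_lit 0) (nat_lit 3184888592) (nat_lit 304) (nat_lit 7847464090) (nat_lit 76) (nat_lit 1654728385) (nat_lit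 69) (nat_lit 5) (nat_lit 73) (nat_lit 5) (nat_lit 70) (nat_lit 4) (nat_lit 491) (nat_lit 340) (nat_lit 309)) (XT.lf (nat_lit 0) (nat_lit 3162812293) (nat_lit 152) (nat_lit 5636257966) (nat_lit 228) (nat_lit 4018534971) (nat_lit 67) (nat_lit 5) (nat_lit 69) (nat_lit 5) (nat_lit 70) (nat_lit 4) (nat_lit 492) (nat_lit 340) (nat_lit 308))))) (XT.nd (nat_lit 234) (nat_lit 760) (nat_lit 0) (XT.nd (nat_lit 78) (nat_lit 152) (nat_lit 0) (XT.lf (nat_lit 0) (nat_lit 1443173989) (nat_lit 228) (nat_lit 109858565) (nat_lit 304) (nat_lit 11397525018) (nat_lit 63) (nat_lit 5) (nat_lit 66) (nat_lit 5) (nat_lit 67) (nat_lit 5) (nat_lit 493) (nat_lit 340) (nat_lit 307)) (XT.nd (nat_lit 78) (nat_lit 152) (nat_lit 0) (XT.lf (nat_lit 0) (nat_lit 7220056201) (nat_lit 304) (nat_lit 369157309) (nat_lit 76) (nat_lit 5495667542) (nat_lit 63) (nat_lit 5) (nat_lit 67) (nat_lit 5) (nat_lit 64) (nat_lit 4) (nat_lit 494) (nat_lit 340) (nat_lit 306)) (XT.lf (nat_lit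 0) (nat_lit 11022600353) (nat_lit 152) (nat_lit 1988034569) (nat_lit 228) (nat_lit 211051788) (nat_lit 61) (nat_lit 5) (nat_lit 63) (nat_lit 5) (nat_lit 64) (nat_lit 4) (nat_lit 495) (nat_lit 340) (nat_lit 305)))) (XT.nd (nat_lit 78) (nat_lit 456) (nat_lit 0) (XT.lf (nat_lit 0) (nat_lit 5508044240) (nat_lit 304) (nat_lit 4126798682) (nat_lit 76) (nat_lit 3725161865) (nat_lit 57) (nat_lit 5) (nat_lit 61) (nat_lit 5) (nat_lit 58) (nat_lit 4) (nat_lit 496) (nat_lit 340) (nat_lit 304)) (XT.nd (nat_lit 78) (nat_lit 304) (nat_lit 0) (XT.lf (nat_lit 0) (nat_lit 7392143122) (nat_lit 152) (nat_lit 3960727494) (nat_lit 228) (nat_lit 2147907220) (nat_lit 55) (nat_lit 5) (nat_lit 57) (nat_lit 5) (nat_lit 58) (nat_lit 4) (nat_lit 497) (nat_lit 340) (nat_lit 303)) (XT.lf (nat_lit 0) (nat_lit 3635937277) (nat_lit 304) (nat_lit 8167782811) (nat_lit 76) (nat_lit 1839892750) (nat_lit 51) (nat_lit 5) (nat_lit 55) (nat_lit 5) (nat_lit 52) (nat_lit 4) (nat_lit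 498) (nat_lit 340) (nat_lit 302))))))))
noncomputable def xc17 : XT := (XT.nd (nat_lit 56706) (nat_lit 0) (nat_lit 5016) (XT.nd (nat_lit 780) (nat_lit 532) (nat_lit 0) (XT.nd (nat_lit 390) (nat_lit 760) (nat_lit 0) (XT.nd (nat_lit 156) (nat_lit 380) (nat_lit 0) (XT.nd (nat_lit 78) (nat_lit 304) (nat_lit 0) (XT.lf (nat_lit 0) (nat_lit 3477661273) (nat_lit 152) (nat_lit 6057515129) (nat_lit 228) (nat_lit 4253274622) (nat_lit 49) (nat_lit 5) (nat_lit 51) (nat_lit 5) (nat_lit 52) (nat_lit 4) (nat_lit 499) (nat_lit 340) (nat_lit 301)) (XT.lf (nat_lit 0) (nat_lit 1425887690) (nat_lit 228) (nat_lit 172010141) (nat_lit 304) (nat_lit 12338020662) (nat_lit 45) (nat_lit 5) (nat_lit 48) (nat_lit 5) (nat_lit 49) (nat_lit 5) (nat_lit 500) (nat_lit 340) (nat_lit 300))) (XT.nd (nat_lit 78) (nat_lit 380) (nat_lit 0) (XT.lf (nat_lit 0) (nat_lit 7555292269) (nat_lit 304) (nat_lit 728108500) (nat_lit 76) (nat_lit 5801449264) (nat_lit 45) (nat_lit 5) (nat_lit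 49) (nat_lit 5) (nat_lit 46) (nat_lit 4) (nat_lit 501) (nat_lit 340) (nat_lit 299)) (XT.nd (nat_lit 78) (nat_lit 228) (nat_lit 0) (XT.lf (nat_lit 0) (nat_lit 11325341606) (nat_lit 152) (nat_lit 2320955476) (nat_lit 228) (nat_lit 590173871) (nat_lit 43) (nat_lit 5) (nat_lit 45) (nat_lit 5) (nat_lit 46) (nat_lit 4) (nat_lit 502) (nat_lit 340) (nat_lit 298)) (XT.lf (nat_lit 0) (nat_lit 5425619915) (nat_lit 228) (nat_lit 5202648468) (nat_lit 76) (nat_lit 3761559151) (nat_lit 40) (nat_lit 5) (nat_lit 43) (nat_lit 5) (nat_lit 41) (nat_lit 4) (nat_lit 503) (nat_lit 340) (nat_lit 297))))) (XT.nd (nat_lit 156) (nat_lit 380) (nat_lit 0) (XT.nd (nat_lit 78) (nat_lit 228) (nat_lit 0) (XT.lf (nat_lit 0) (nat_lit 6981511043) (nat_lit 152) (nat_lit 4592672146) (nat_lit 228) (nat_lit 2971582915) (nat_lit 38) (nat_lit 5) (nat_lit 40) (nat_lit 5) (nat_lit 41) (nat_lit 4) (nat_lit 504) (nat_lit 340) (nat_lit 296)) (XT.lf (nat_lit 0) (nat_lit 3115825763)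 (nat_lit 228) (nat_lit 10009611430) (nat_lit 76) (nat_lit 1578655900) (nat_lit 35) (nat_lit 5) (nat_lit 38) (nat_lit 5) (nat_lit 36) (nat_lit 4) (nat_lit 505) (nat_lit 340) (nat_lit 295))) (XT.nd (nat_lit 78) (nat_lit 228) (nat_lit 0) (XT.lf (nat_lit 0) (nat_lit 2304266851) (nat_lit 152) (nat_lit 7017602582) (nat_lit 228) (nat_lit 5542590819) (nat_lit 33) (nat_lit 5) (nat_lit 35) (nat_lit 5) (nat_lit 36) (nat_lit 4) (nat_lit 506) (nat_lit 340) (nat_lit 294)) (XT.nd (nat_lit 78) (nat_lit 152) (nat_lit 0) (XT.lf (nat_lit 0) (nat_lit 623655221) (nat_lit 228) (nat_lit 143020943) (nat_lit 76) (nat_lit 14261120765) (nat_lit 32) (nat_lit 5) (nat_lit 35) (nat_lit 5) (nat_lit 33) (nat_lit 5) (nat_lit 507) (nat_lit 340) (nat_lit 293)) (XT.lf (nat_lit 0) (nat_lit 6898768287) (nat_lit 228) (nat_lit 2689563077) (nat_lit 76) (nat_lit 5604141098) (nat_lit 30) (nat_lit 5) (nat_lit 33) (nat_lit 5) (nat_lit 31) (nat_lit 4) (nat_lit 508) (nat_lit 340) (nat_lit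 292)))))) (XT.nd (nat_lit 55536) (nat_lit 0) (nat_lit 10792) (XT.nd (nat_lit 156) (nat_lit 152) (nat_lit 0) (XT.nd (nat_lit 78) (nat_lit 228) (nat_lit 0) (XT.lf (nat_lit 0) (nat_lit 10060278301) (nat_lit 152) (nat_lit 3251975070) (nat_lit 228) (nat_lit 2047930739) (nat_lit 28) (nat_lit 5) (nat_lit 30) (nat_lit 5) (nat_lit 31) (nat_lit 4) (nat_lit 509) (nat_lit 340) (nat_lit 291)) (XT.lf (nat_lit 0) (nat_lit 4295837631) (nat_lit 228) (nat_lit 8020294827) (nat_lit 76) (nat_lit 3213960744) (nat_lit 25) (nat_lit 5) (nat_lit 28) (nat_lit 5) (nat_lit 26) (nat_lit 4) (nat_lit 510) (nat_lit 340) (nat_lit 290))) (XT.nd (nat_lit 55224) (nat_lit 0) (nat_lit 12768) (XT.lf (nat_lit 0) (nat_lit 4863284133) (nat_lit 152) (nat_lit 5906380501) (nat_lit 228) (nat_lit 4932853004) (nat_lit 23) (nat_lit 5) (nat_lit 25) (nat_lit 5) (nat_lit 26) (nat_lit 4) (nat_lit 511) (nat_lit 340) (nat_lit 289)) (XT.nd (nat_lit 78) (nat_lit 456) (nat_lit 0) (XT.lf (nat_lit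 0) (nat_lit 3883439047) (nat_lit 456) (nat_lit 396705004) (nat_lit 456) (nat_lit 396705004) (nat_lit 197) (nat_lit 4) (nat_lit 203) (nat_lit 5) (nat_lit 203) (nat_lit 4) (nat_lit 458) (nat_lit 341) (nat_lit 341)) (XT.lf (nat_lit 0) (nat_lit 3898167541) (nat_lit 456) (nat_lit 2455350002) (nat_lit 0) (nat_lit 3076664315) (nat_lit 191) (nat_lit 5) (nat_lit 197) (nat_lit 4) (nat_lit 191) (nat_lit 4) (nat_lit 459) (nat_lit 341) (nat_lit 340))))) (XT.nd (nat_lit 156) (nat_lit 1140) (nat_lit 0) (XT.nd (nat_lit 78) (nat_lit 456) (nat_lit 0) (XT.lf (nat_lit 0) (nat_lit 6178144013) (nat_lit 380) (nat_lit 2478584702) (nat_lit 380) (nat_lit 851686157) (nat_lit 186) (nat_lit 4) (nat_lit 191) (nat_lit 5) (nat_lit 191) (nat_lit 4) (nat_lit 460) (nat_lit 341) (nat_lit 339)) (XT.lf (nat_lit 0) (nat_lit 3859897480) (nat_lit 456) (nat_lit 4237245883) (nat_lit 0) (nat_lit 1490778069) (nat_lit 180) (nat_lit 5) (nat_lit 186) (nat_lit 4) (nat_lit 180) (nat_lit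 4) (nat_lit 461) (nat_lit 341) (nat_lit 338))) (XT.nd (nat_lit 78) (nat_lit 760) (nat_lit 0) (XT.lf (nat_lit 0) (nat_lit 4504517355) (nat_lit 380) (nat_lit 4146260104) (nat_lit 380) (nat_lit 1018198696) (nat_lit 175) (nat_lit 4) (nat_lit 180) (nat_lit 5) (nat_lit 180) (nat_lit 4) (nat_lit 462) (nat_lit 341) (nat_lit 337)) (XT.nd (nat_lit 78) (nat_lit 380) (nat_lit 0) (XT.lf (nat_lit 0) (nat_lit 3636019300) (nat_lit 304) (nat_lit 80882427) (nat_lit 380) (nat_lit 6034644037) (nat_lit 170) (nat_lit 5) (nat_lit 174) (nat_lit 5) (nat_lit 175) (nat_lit 4) (nat_lit 463) (nat_lit 341) (nat_lit 336)) (XT.lf (nat_lit 0) (nat_lit 2735185503) (nat_lit 380) (nat_lit 5805827018) (nat_lit 380) (nat_lit 1294460797) (nat_lit 165) (nat_lit 4) (nat_lit 170) (nat_lit 5) (nat_lit 170) (nat_lit 4) (nat_lit 464) (nat_lit 341) (nat_lit 335))))))) (XT.nd (nat_lit 780) (nat_lit 2660) (nat_lit 0) (XT.nd (nat_lit 390) (nat_lit 1596) (nat_lit 0) (XT.nd (nat_lit 156)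 (nat_lit 760) (nat_lit 0) (XT.nd (nat_lit 78) (nat_lit 380) (nat_lit 0) (XT.lf (nat_lit 0) (nat_lit 1810558539) (nat_lit 304) (nat_lit 1666208714) (nat_lit 380) (nat_lit 6444198905) (nat_lit 160) (nat_lit 5) (nat_lit 164) (nat_lit 5) (nat_lit 165) (nat_lit 4) (nat_lit 465) (nat_lit 341) (nat_lit 334)) (XT.lf (nat_lit 0) (nat_lit 859127855) (nat_lit 380) (nat_lit 7466551010) (nat_lit 380) (nat_lit 1682327026) (nat_lit 155) (nat_lit 4) (nat_lit 160) (nat_lit 5) (nat_lit 160) (nat_lit 4) (nat_lit 466) (nat_lit 341) (nat_lit 333))) (XT.nd (nat_lit 78) (nat_lit 684) (nat_lit 0) (XT.lf (nat_lit 0) (nat_lit 3128580082) (nat_lit 456) (nat_lit 125196898) (nat_lit 76) (nat_lit 6842688470) (nat_lit 154) (nat_lit 5) (nat_lit 160) (nat_lit 5) (nat_lit 155) (nat_lit 4) (nat_lit 467) (nat_lit 341) (nat_lit 332)) (XT.nd (nat_lit 78) (nat_lit 380) (nat_lit 0) (XT.lf (nat_lit 0) (nat_lit 8010057883) (nat_lit 380) (nat_lit 1120024680) (nat_lit 0) (nat_lit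 1056451655) (nat_lit 150) (nat_lit 5) (nat_lit 155) (nat_lit 4) (nat_lit 150) (nat_lit 4) (nat_lit 468) (nat_lit 341) (nat_lit 331)) (XT.lf (nat_lit 0) (nat_lit 2681808837) (nat_lit 380) (nat_lit 2158949152) (nat_lit 76) (nat_lit 5437162370) (nat_lit 145) (nat_lit 5) (nat_lit 150) (nat_lit 5) (nat_lit 146) (nat_lit 4) (nat_lit 469) (nat_lit 341) (nat_lit 330))))) (XT.nd (nat_lit 156) (nat_lit 912) (nat_lit 0) (XT.nd (nat_lit 78) (nat_lit 380) (nat_lit 0) (XT.lf (nat_lit 0) (nat_lit 7152569638) (nat_lit 304) (nat_lit 441074738) (nat_lit 380) (nat_lit 2777491563) (nat_lit 141) (nat_lit 5) (nat_lit 145) (nat_lit 5) (nat_lit 146) (nat_lit 4) (nat_lit 470) (nat_lit 341) (nat_lit 329)) (XT.lf (nat_lit 0) (nat_lit 2122175714) (nat_lit 380) (nat_lit 4325962495) (nat_lit 76) (nat_lit 4017545887) (nat_lit 136) (nat_lit 5) (nat_lit 141) (nat_lit 5) (nat_lit 137) (nat_lit 4) (nat_lit 471) (nat_lit 341) (nat_lit 328))) (XT.nd (nat_lit 78) (nat_lit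 608) (nat_lit 0) (XT.lf (nat_lit 0) (nat_lit 5098329614) (nat_lit 304) (nat_lit 1974081395) (nat_lit 380) (nat_lit 3489549719) (nat_lit 132) (nat_lit 5) (nat_lit 136) (nat_lit 5) (nat_lit 137) (nat_lit 4) (nat_lit 472) (nat_lit 341) (nat_lit 327)) (XT.nd (nat_lit 78) (nat_lit 228) (nat_lit 0) (XT.lf (nat_lit 0) (nat_lit 1446824976) (nat_lit 380) (nat_lit 6638046594) (nat_lit 76) (nat_lit 2575011451) (nat_lit 127) (nat_lit 5) (nat_lit 132) (nat_lit 5) (nat_lit 128) (nat_lit 4) (nat_lit 473) (nat_lit 341) (nat_lit 326)) (XT.lf (nat_lit 0) (nat_lit 2899004790) (nat_lit 228) (nat_lit 3537453526) (nat_lit 304) (nat_lit 4322819002) (nat_lit 124) (nat_lit 5) (nat_lit 127) (nat_lit 5) (nat_lit 128) (nat_lit 4) (nat_lit 474) (nat_lit 341) (nat_lit 325)))))) (XT.nd (nat_lit 390) (nat_lit 1444) (nat_lit 0) (XT.nd (nat_lit 156) (nat_lit 608) (nat_lit 0) (XT.nd (nat_lit 78) (nat_lit 228) (nat_lit 0) (XT.lf (nat_lit 0) (nat_lit 652566011) (nat_lit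 380) (nat_lit 9107327796) (nat_lit 76) (nat_lit 1100757997) (nat_lit 119) (nat_lit 5) (nat_lit 124) (nat_lit 5) (nat_lit 120) (nat_lit 4) (nat_lit 475) (nat_lit 341) (nat_lit 324)) (XT.lf (nat_lit 0) (nat_lit 542398867) (nat_lit 228) (nat_lit 5140104209) (nat_lit 304) (nat_lit 5280720689) (nat_lit 116) (nat_lit 5) (nat_lit 119) (nat_lit 5) (nat_lit 120) (nat_lit 4) (nat_lit 476) (nat_lit 341) (nat_lit 323))) (XT.nd (nat_lit 78) (nat_lit 608) (nat_lit 0) (XT.lf (nat_lit 0) (nat_lit 10394276831) (nat_lit 228) (nat_lit 413280473) (nat_lit 304) (nat_lit 260399493) (nat_lit 116) (nat_lit 5) (nat_lit 119) (nat_lit 5) (nat_lit 120) (nat_lit 4) (nat_lit 477) (nat_lit 341) (nat_lit 322)) (XT.nd (nat_lit 78) (nat_lit 228) (nat_lit 0) (XT.lf (nat_lit 0) (nat_lit 4819806944) (nat_lit 380) (nat_lit 1958011771) (nat_lit 76) (nat_lit 4395870188) (nat_lit 111) (nat_lit 5) (nat_lit 116) (nat_lit 5) (nat_lit 112) (nat_lit 4) (nat_lit 478) (nat_lit 341)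 (nat_lit 321)) (XT.lf (nat_lit 0) (nat_lit 8017991241) (nat_lit 228) (nat_lit 1974020435) (nat_lit 304) (nat_lit 1289611931) (nat_lit 108) (nat_lit 5) (nat_lit 111) (nat_lit 5) (nat_lit 112) (nat_lit 4) (nat_lit 479) (nat_lit 341) (nat_lit 320))))) (XT.nd (nat_lit 234) (nat_lit 532) (nat_lit 0) (XT.nd (nat_lit 78) (nat_lit 532) (nat_lit 0) (XT.lf (nat_lit 0) (nat_lit 3836236118) (nat_lit 380) (nat_lit 4631656887) (nat_lit 76) (nat_lit 2923098170) (nat_lit 103) (nat_lit 5) (nat_lit 108) (nat_lit 5) (nat_lit 104) (nat_lit 4) (nat_lit 480) (nat_lit 341) (nat_lit 319)) (XT.nd (nat_lit 78) (nat_lit 304) (nat_lit 0) (XT.lf (nat_lit 0) (nat_lit 5461210979) (nat_lit 228) (nat_lit 3591610869) (nat_lit 304) (nat_lit 2449443987) (nat_lit 100) (nat_lit 5) (nat_lit 103) (nat_lit 5) (nat_lit 104) (nat_lit 4) (nat_lit 481) (nat_lit 341) (nat_lit 318)) (XT.lf (nat_lit 0) (nat_lit 2724050716) (nat_lit 304) (nat_lit 7498796107) (nat_lit 76) (nat_lit 1392516059)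 (nat_lit 96) (nat_lit 5) (nat_lit 100) (nat_lit 5) (nat_lit 97) (nat_lit 4) (nat_lit 482) (nat_lit 341) (nat_lit 317)))) (XT.nd (nat_lit 78) (nat_lit 304) (nat_lit 0) (XT.lf (nat_lit 0) (nat_lit 2710703794) (nat_lit 228) (nat_lit 5274975479) (nat_lit 304) (nat_lit 3744369541) (nat_lit 93) (nat_lit 5) (nat_lit 96) (nat_lit 5) (nat_lit 97) (nat_lit 4) (nat_lit 483) (nat_lit 341) (nat_lit 316)) (XT.nd (nat_lit 78) (nat_lit 0) (nat_lit 0) (XT.lf (nat_lit 0) (nat_lit 1272602322) (nat_lit 228) (nat_lit 207430194) (nat_lit 304) (nat_lit 10366915139) (nat_lit 89) (nat_lit 5) (nat_lit 92) (nat_lit 5) (nat_lit 93) (nat_lit 5) (nat_lit 484) (nat_lit 341) (nat_lit 315)) (XT.lf (nat_lit 0) (nat_lit 6787533205) (nat_lit 304) (nat_lit 243950115) (nat_lit 76) (nat_lit 4933631194) (nat_lit 89) (nat_lit 5) (nat_lit 93) (nat_lit 5) (nat_lit 90) (nat_lit 4) (nat_lit 485) (nat_lit 341) (nat_lit 314))))))))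
noncomputable def xc18 : XT := (XT.nd (nat_lit 1560) (nat_lit 760) (nat_lit 0) (XT.nd (nat_lit 780) (nat_lit 1976) (nat_lit 0) (XT.nd (nat_lit 390) (nat_lit 912) (nat_lit 0) (XT.nd (nat_lit 156) (nat_lit 684) (nat_lit 0) (XT.nd (nat_lit 78) (nat_lit 228) (nat_lit 0) (XT.lf (nat_lit 0) (nat_lit 119229391) (nat_lit 304) (nat_lit 1771337225) (nat_lit 76) (nat_lit 10194958981) (nat_lit 85) (nat_lit 5) (nat_lit 89) (nat_lit 5) (nat_lit 86) (nat_lit 5) (nat_lit 486) (nat_lit 341) (nat_lit 313)) (XT.lf (nat_lit 0) (nat_lit 5470807881) (nat_lit 304) (nat_lit 3381655277) (nat_lit 76) (nat_lit 3354834079) (nat_lit 82) (nat_lit 5) (nat_lit 86) (nat_lit 5) (nat_lit 83) (nat_lit 4) (nat_lit 487) (nat_lit 341) (nat_lit 312))) (XT.nd (nat_lit 78) (nat_lit 456) (nat_lit 0) (XT.lf (nat_lit 0) (nat_lit 7298150189) (nat_lit 228) (nat_lit 3640262289) (nat_lit 304) (nat_lit 1392911941) (nat_lit 79) (nat_lit 5) (nat_lit 82) (nat_lit 5) (nat_lit 83) (nat_lit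 4) (nat_lit 488) (nat_lit 341) (nat_lit 311)) (XT.nd (nat_lit 78) (nat_lit 152) (nat_lit 0) (XT.lf (nat_lit 0) (nat_lit 4012630098) (nat_lit 304) (nat_lit 6752376186) (nat_lit 76) (nat_lit 1692132809) (nat_lit 75) (nat_lit 5) (nat_lit 79) (nat_lit 5) (nat_lit 76) (nat_lit 4) (nat_lit 489) (nat_lit 341) (nat_lit 310)) (XT.lf (nat_lit 0) (nat_lit 4047868939) (nat_lit 152) (nat_lit 5481574367) (nat_lit 228) (nat_lit 3055406382) (nat_lit 73) (nat_lit 5) (nat_lit 75) (nat_lit 5) (nat_lit 76) (nat_lit 4) (nat_lit 490) (nat_lit 341) (nat_lit 309))))) (XT.nd (nat_lit 156) (nat_lit 456) (nat_lit 0) (XT.nd (nat_lit 78) (nat_lit 152) (nat_lit 0) (XT.lf (nat_lit 0) (nat_lit 2343378984) (nat_lit 228) (nat_lit 64401792) (nat_lit 304) (nat_lit 10307050227) (nat_lit 69) (nat_lit 5) (nat_lit 72) (nat_lit 5) (nat_lit 73) (nat_lit 5) (nat_lit 491) (nat_lit 341) (nat_lit 308)) (XT.lf (nat_lit 0) (nat_lit 549112331) (nat_lit 152) (nat_lit 7424606218) (nat_lit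 228) (nat_lit 4872601495) (nat_lit 67) (nat_lit 5) (nat_lit 69) (nat_lit 5) (nat_lit 70) (nat_lit 4) (nat_lit 492) (nat_lit 341) (nat_lit 307))) (XT.nd (nat_lit 78) (nat_lit 380) (nat_lit 0) (XT.lf (nat_lit 0) (nat_lit 669983401) (nat_lit 228) (nat_lit 1268516190) (nat_lit 76) (nat_lit 11041687376) (nat_lit 66) (nat_lit 5) (nat_lit 69) (nat_lit 5) (nat_lit 67) (nat_lit 5) (nat_lit 493) (nat_lit 341) (nat_lit 306)) (XT.nd (nat_lit 78) (nat_lit 152) (nat_lit 0) (XT.lf (nat_lit 0) (nat_lit 6286001364) (nat_lit 304) (nat_lit 3171548432) (nat_lit 76) (nat_lit 3657980765) (nat_lit 63) (nat_lit 5) (nat_lit 67) (nat_lit 5) (nat_lit 64) (nat_lit 4) (nat_lit 494) (nat_lit 341) (nat_lit 305)) (XT.lf (nat_lit 0) (nat_lit 8127360438) (nat_lit 152) (nat_lit 3900292256) (nat_lit 228) (nat_lit 1225662072) (nat_lit 61) (nat_lit 5) (nat_lit 63) (nat_lit 5) (nat_lit 64) (nat_lit 4) (nat_lit 495) (nat_lit 341) (nat_lit 304)))))) (XT.nd (nat_lit 390) (nat_lit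 988) (nat_lit 0) (XT.nd (nat_lit 156) (nat_lit 532) (nat_lit 0) (XT.nd (nat_lit 78) (nat_lit 152) (nat_lit 0) (XT.lf (nat_lit 0) (nat_lit 4444326293) (nat_lit 304) (nat_lit 7161536994) (nat_lit 76) (nat_lit 1787149595) (nat_lit 57) (nat_lit 5) (nat_lit 61) (nat_lit 5) (nat_lit 58) (nat_lit 4) (nat_lit 496) (nat_lit 341) (nat_lit 303)) (XT.lf (nat_lit 0) (nat_lit 4261352430) (nat_lit 152) (nat_lit 5977457792) (nat_lit 228) (nat_lit 3295982557) (nat_lit 55) (nat_lit 5) (nat_lit 57) (nat_lit 5) (nat_lit 58) (nat_lit 4) (nat_lit 497) (nat_lit 341) (nat_lit 302))) (XT.nd (nat_lit 78) (nat_lit 228) (nat_lit 0) (XT.lf (nat_lit 0) (nat_lit 2233106161) (nat_lit 228) (nat_lit 206595697) (nat_lit 304) (nat_lit 11239339353) (nat_lit 51) (nat_lit 5) (nat_lit 54) (nat_lit 5) (nat_lit 55) (nat_lit 5) (nat_lit 498) (nat_lit 341) (nat_lit 301)) (XT.nd (nat_lit 78) (nat_lit 76) (nat_lit 0) (XT.lf (nat_lit 0) (nat_lit 101471860) (nat_lit 152) (nat_lit 8184299733)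 (nat_lit 228) (nat_lit 5539171191) (nat_lit 49) (nat_lit 5) (nat_lit 51) (nat_lit 5) (nat_lit 52) (nat_lit 4) (nat_lit 499) (nat_lit 341) (nat_lit 300)) (XT.lf (nat_lit 0) (nat_lit 289735149) (nat_lit 228) (nat_lit 2052279064) (nat_lit 76) (nat_lit 11631345636) (nat_lit 48) (nat_lit 5) (nat_lit 51) (nat_lit 5) (nat_lit 49) (nat_lit 5) (nat_lit 500) (nat_lit 341) (nat_lit 299))))) (XT.nd (nat_lit 156) (nat_lit 608) (nat_lit 0) (XT.nd (nat_lit 78) (nat_lit 152) (nat_lit 0) (XT.lf (nat_lit 0) (nat_lit 6189643148) (nat_lit 304) (nat_lit 4312282524) (nat_lit 76) (nat_lit 3621515444) (nat_lit 45) (nat_lit 5) (nat_lit 49) (nat_lit 5) (nat_lit 46) (nat_lit 4) (nat_lit 501) (nat_lit 341) (nat_lit 298)) (XT.lf (nat_lit 0) (nat_lit 7638698266) (nat_lit 152) (nat_lit 4588791912) (nat_lit 228) (nat_lit 2048635013) (nat_lit 43) (nat_lit 5) (nat_lit 45) (nat_lit 5) (nat_lit 46) (nat_lit 4) (nat_lit 502) (nat_lit 341) (nat_lit 297))) (XT.nd (nat_lit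 78) (nat_lit 380) (nat_lit 0) (XT.lf (nat_lit 0) (nat_lit 3917174543) (nat_lit 228) (nat_lit 9049551505) (nat_lit 76) (nat_lit 1464327355) (nat_lit 40) (nat_lit 5) (nat_lit 43) (nat_lit 5) (nat_lit 41) (nat_lit 4) (nat_lit 503) (nat_lit 341) (nat_lit 296)) (XT.nd (nat_lit 78) (nat_lit 228) (nat_lit 0) (XT.lf (nat_lit 0) (nat_lit 3028552152) (nat_lit 152) (nat_lit 6982392549) (nat_lit 228) (nat_lit 4577143135) (nat_lit 38) (nat_lit 5) (nat_lit 40) (nat_lit 5) (nat_lit 41) (nat_lit 4) (nat_lit 504) (nat_lit 341) (nat_lit 295)) (XT.lf (nat_lit 0) (nat_lit 612299399) (nat_lit 152) (nat_lit 852966596) (nat_lit 228) (nat_lit 13282678452) (nat_lit 35) (nat_lit 5) (nat_lit 37) (nat_lit 5) (nat_lit 38) (nat_lit 5) (nat_lit 505) (nat_lit 341) (nat_lit 294))))))) (XT.nd (nat_lit 55848) (nat_lit 0) (nat_lit 8436) (XT.nd (nat_lit 55458) (nat_lit 0) (nat_lit 12236) (XT.nd (nat_lit 156) (nat_lit 608) (nat_lit 0) (XT.nd (nat_lit 78) (nat_lit 152) (nat_lit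 0) (XT.lf (nat_lit 0) (nat_lit 7621771282) (nat_lit 228) (nat_lit 1900750058) (nat_lit 76) (nat_lit 5386781035) (nat_lit 35) (nat_lit 5) (nat_lit 38) (nat_lit 5) (nat_lit 36) (nat_lit 4) (nat_lit 506) (nat_lit 341) (nat_lit 293)) (XT.lf (nat_lit 0) (nat_lit 10604740962) (nat_lit 152) (nat_lit 3313657850) (nat_lit 228) (nat_lit 1155148806) (nat_lit 33) (nat_lit 5) (nat_lit 35) (nat_lit 5) (nat_lit 36) (nat_lit 4) (nat_lit 507) (nat_lit 341) (nat_lit 292))) (XT.nd (nat_lit 78) (nat_lit 380) (nat_lit 0) (XT.lf (nat_lit 0) (nat_lit 5060973689) (nat_lit 228) (nat_lit 7149314619) (nat_lit 76) (nat_lit 3029567654) (nat_lit 30) (nat_lit 5) (nat_lit 33) (nat_lit 5) (nat_lit 31) (nat_lit 4) (nat_lit 508) (nat_lit 341) (nat_lit 291)) (XT.nd (nat_lit 156) (nat_lit 228) (nat_lit 0) (XT.lf (nat_lit 0) (nat_lit 5487233095) (nat_lit 152) (nat_lit 5929145932) (nat_lit 228) (nat_lit 3992350176) (nat_lit 28) (nat_lit 5) (nat_lit 30) (nat_lit 5) (nat_lit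 31) (nat_lit 4) (nat_lit 509) (nat_lit 341) (nat_lit 290)) (XT.lf (nat_lit 0) (nat_lit 8713993014) (nat_lit 228) (nat_lit 10309351) (nat_lit 76) (nat_lit 7029747928) (nat_lit 25) (nat_lit 5) (nat_lit 28) (nat_lit 5) (nat_lit 26) (nat_lit 4) (nat_lit 511) (nat_lit 341) (nat_lit 288))))) (XT.nd (nat_lit 156) (nat_lit 1292) (nat_lit 0) (XT.nd (nat_lit 78) (nat_lit 0) (nat_lit 0) (XT.lf (nat_lit 0) (nat_lit 33069217) (nat_lit 456) (nat_lit 4535861590) (nat_lit 0) (nat_lit 33069217) (nat_lit 203) (nat_lit 5) (nat_lit 209) (nat_lit 4) (nat_lit 203) (nat_lit 4) (nat_lit 456) (nat_lit 342) (nat_lit 342)) (XT.lf (nat_lit 0) (nat_lit 4687199001) (nat_lit 456) (nat_lit 758543531) (nat_lit 0) (nat_lit 3832507045) (nat_lit 203) (nat_lit 5) (nat_lit 209) (nat_lit 4) (nat_lit 203) (nat_lit 4) (nat_lit 457) (nat_lit 342) (nat_lit 341))) (XT.nd (nat_lit 78) (nat_lit 760) (nat_lit 0) (XT.lf (nat_lit 0) (nat_lit 24460762) (nat_lit 532) (nat_lit 1643214505)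 (nat_lit 76) (nat_lit 7686735236) (nat_lit 196) (nat_lit 5) (nat_lit 203) (nat_lit 5) (nat_lit 197) (nat_lit 4) (nat_lit 458) (nat_lit 342) (nat_lit 340)) (XT.nd (nat_lit 78) (nat_lit 380) (nat_lit 0) (XT.lf (nat_lit 0) (nat_lit 4663780837) (nat_lit 456) (nat_lit 2568898417) (nat_lit 0) (nat_lit 2198949002) (nat_lit 191) (nat_lit 5) (nat_lit 197) (nat_lit 4) (nat_lit 191) (nat_lit 4) (nat_lit 459) (nat_lit 342) (nat_lit 339)) (XT.lf (nat_lit 0) (nat_lit 6007244328) (nat_lit 380) (nat_lit 3378888112) (nat_lit 380) (nat_lit 124453023) (nat_lit 186) (nat_lit 4) (nat_lit 191) (nat_lit 5) (nat_lit 191) (nat_lit 4) (nat_lit 460) (nat_lit 342) (nat_lit 338)))))) (XT.nd (nat_lit 390) (nat_lit 1824) (nat_lit 0) (XT.nd (nat_lit 156) (nat_lit 1140) (nat_lit 0) (XT.nd (nat_lit 78) (nat_lit 380) (nat_lit 0) (XT.lf (nat_lit 0) (nat_lit 4535106954) (nat_lit 456) (nat_lit 4470198033) (nat_lit 0) (nat_lit 585542320) (nat_lit 180) (nat_lit 5) (nat_lit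 186) (nat_lit 4) (nat_lit 180) (nat_lit 4) (nat_lit 461) (nat_lit 342) (nat_lit 337)) (XT.lf (nat_lit 0) (nat_lit 4212321509) (nat_lit 380) (nat_lit 5076969924) (nat_lit 380) (nat_lit 383344508) (nat_lit 175) (nat_lit 4) (nat_lit 180) (nat_lit 5) (nat_lit 180) (nat_lit 4) (nat_lit 462) (nat_lit 342) (nat_lit 336))) (XT.nd (nat_lit 78) (nat_lit 760) (nat_lit 0) (XT.lf (nat_lit 0) (nat_lit 3275809444) (nat_lit 304) (nat_lit 1030579771) (nat_lit 380) (nat_lit 5449474706) (nat_lit 170) (nat_lit 5) (nat_lit 174) (nat_lit 5) (nat_lit 175) (nat_lit 4) (nat_lit 463) (nat_lit 342) (nat_lit 335)) (XT.nd (nat_lit 78) (nat_lit 380) (nat_lit 0) (XT.lf (nat_lit 0) (nat_lit 2315625242) (nat_lit 380) (nat_lit 6771470476) (nat_lit 380) (nat_lit 753563842) (nat_lit 165) (nat_lit 4) (nat_lit 170) (nat_lit 5) (nat_lit 170) (nat_lit 4) (nat_lit 464) (nat_lit 342) (nat_lit 334)) (XT.lf (nat_lit 0) (nat_lit 1320080718) (nat_lit 304) (nat_lit 2652881906) (nat_lit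 380) (nat_lit 5953871692) (nat_lit 160) (nat_lit 5) (nat_lit 164) (nat_lit 5) (nat_lit 165) (nat_lit 4) (nat_lit 465) (nat_lit 342) (nat_lit 333))))) (XT.nd (nat_lit 234) (nat_lit 1064) (nat_lit 0) (XT.nd (nat_lit 78) (nat_lit 380) (nat_lit 0) (XT.lf (nat_lit 0) (nat_lit 305969722) (nat_lit 380) (nat_lit 8471660562) (nat_lit 380) (nat_lit 1237128643) (nat_lit 155) (nat_lit 4) (nat_lit 160) (nat_lit 5) (nat_lit 160) (nat_lit 4) (nat_lit 466) (nat_lit 342) (nat_lit 332)) (XT.nd (nat_lit 78) (nat_lit 304) (nat_lit 0) (XT.lf (nat_lit 0) (nat_lit 3533779058) (nat_lit 456) (nat_lit 744047907) (nat_lit 76) (nat_lit 5826016922) (nat_lit 154) (nat_lit 5) (nat_lit 160) (nat_lit 5) (nat_lit 155) (nat_lit 4) (nat_lit 467) (nat_lit 342) (nat_lit 331)) (XT.lf (nat_lit 0) (nat_lit 8370515722) (nat_lit 380) (nat_lit 1804099876) (nat_lit 0) (nat_lit 20191880) (nat_lit 150) (nat_lit 5) (nat_lit 155) (nat_lit 4) (nat_lit 150) (nat_lit 4) (nat_lit 468) (nat_lit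 342) (nat_lit 330)))) (XT.nd (nat_lit 78) (nat_lit 684) (nat_lit 0) (XT.lf (nat_lit 0) (nat_lit 2990931026) (nat_lit 380) (nat_lit 2919032167) (nat_lit 76) (nat_lit 4376953563) (nat_lit 145) (nat_lit 5) (nat_lit 150) (nat_lit 5) (nat_lit 146) (nat_lit 4) (nat_lit 469) (nat_lit 342) (nat_lit 329)) (XT.nd (nat_lit 78) (nat_lit 380) (nat_lit 0) (XT.lf (nat_lit 0) (nat_lit 6326459155) (nat_lit 304) (nat_lit 1537695587) (nat_lit 380) (nat_lit 2516749830) (nat_lit 141) (nat_lit 5) (nat_lit 145) (nat_lit 5) (nat_lit 146) (nat_lit 4) (nat_lit 470) (nat_lit 342) (nat_lit 328)) (XT.lf (nat_lit 0) (nat_lit 2333162183) (nat_lit 380) (nat_lit 5233895011) (nat_lit 76) (nat_lit 2909288389) (nat_lit 136) (nat_lit 5) (nat_lit 141) (nat_lit 5) (nat_lit 137) (nat_lit 4) (nat_lit 471) (nat_lit 342) (nat_lit 327))))))))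
noncomputable def xc19 : XT := (XT.nd (nat_lit 1638) (nat_lit 3344) (nat_lit 0) (XT.nd (nat_lit 780) (nat_lit 2356) (nat_lit 0) (XT.nd (nat_lit 390) (nat_lit 1444) (nat_lit 0) (XT.nd (nat_lit 156) (nat_lit 608) (nat_lit 0) (XT.nd (nat_lit 78) (nat_lit 380) (nat_lit 0) (XT.lf (nat_lit 0) (nat_lit 4122173170) (nat_lit 304) (nat_lit 3121866866) (nat_lit 380) (nat_lit 3329369326) (nat_lit 132) (nat_lit 5) (nat_lit 136) (nat_lit 5) (nat_lit 137) (nat_lit 4) (nat_lit 472) (nat_lit 342) (nat_lit 326)) (XT.lf (nat_lit 0) (nat_lit 1557451686) (nat_lit 380) (nat_lit 7700649384) (nat_lit 76) (nat_lit 1414158844) (nat_lit 127) (nat_lit 5) (nat_lit 132) (nat_lit 5) (nat_lit 128) (nat_lit 4) (nat_lit 473) (nat_lit 342) (nat_lit 325))) (XT.nd (nat_lit 78) (nat_lit 380) (nat_lit 0) (XT.lf (nat_lit 0) (nat_lit 1765904327) (nat_lit 228) (nat_lit 4741019668) (nat_lit 304) (nat_lit 4265533435) (nat_lit 124) (nat_lit 5) (nat_lit 127) (nat_lit 5) (nat_lit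 128) (nat_lit 4) (nat_lit 474) (nat_lit 342) (nat_lit 324)) (XT.nd (nat_lit 78) (nat_lit 0) (nat_lit 0) (XT.lf (nat_lit 0) (nat_lit 542373595) (nat_lit 304) (nat_lit 118839403) (nat_lit 380) (nat_lit 10213569226) (nat_lit 119) (nat_lit 5) (nat_lit 123) (nat_lit 5) (nat_lit 124) (nat_lit 5) (nat_lit 475) (nat_lit 342) (nat_lit 323)) (XT.lf (nat_lit 0) (nat_lit 5654255648) (nat_lit 380) (nat_lit 744863868) (nat_lit 76) (nat_lit 4578972557) (nat_lit 119) (nat_lit 5) (nat_lit 124) (nat_lit 5) (nat_lit 120) (nat_lit 4) (nat_lit 476) (nat_lit 342) (nat_lit 322))))) (XT.nd (nat_lit 156) (nat_lit 836) (nat_lit 0) (XT.nd (nat_lit 78) (nat_lit 380) (nat_lit 0) (XT.lf (nat_lit 0) (nat_lit 9041642785) (nat_lit 228) (nat_lit 1700444528) (nat_lit 304) (nat_lit 341482243) (nat_lit 116) (nat_lit 5) (nat_lit 119) (nat_lit 5) (nat_lit 120) (nat_lit 4) (nat_lit 477) (nat_lit 342) (nat_lit 321)) (XT.lf (nat_lit 0) (nat_lit 4689959296) (nat_lit 380) (nat_lit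 3407322562) (nat_lit 76) (nat_lit 3093026899) (nat_lit 111) (nat_lit 5) (nat_lit 116) (nat_lit 5) (nat_lit 112) (nat_lit 4) (nat_lit 478) (nat_lit 342) (nat_lit 320))) (XT.nd (nat_lit 78) (nat_lit 608) (nat_lit 0) (XT.lf (nat_lit 0) (nat_lit 6493757404) (nat_lit 228) (nat_lit 3326735824) (nat_lit 304) (nat_lit 1478583650) (nat_lit 108) (nat_lit 5) (nat_lit 111) (nat_lit 5) (nat_lit 112) (nat_lit 4) (nat_lit 479) (nat_lit 342) (nat_lit 319)) (XT.nd (nat_lit 78) (nat_lit 228) (nat_lit 0) (XT.lf (nat_lit 0) (nat_lit 3598520504) (nat_lit 380) (nat_lit 6257622830) (nat_lit 76) (nat_lit 1553350097) (nat_lit 103) (nat_lit 5) (nat_lit 108) (nat_lit 5) (nat_lit 104) (nat_lit 4) (nat_lit 480) (nat_lit 342) (nat_lit 318)) (XT.lf (nat_lit 0) (nat_lit 3757795289) (nat_lit 228) (nat_lit 5014653477) (nat_lit 304) (nat_lit 2749172474) (nat_lit 100) (nat_lit 5) (nat_lit 103) (nat_lit 5) (nat_lit 104) (nat_lit 4) (nat_lit 481) (nat_lit 342) (nat_lit 317))))))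 (XT.nd (nat_lit 390) (nat_lit 1292) (nat_lit 0) (XT.nd (nat_lit 156) (nat_lit 532) (nat_lit 0) (XT.nd (nat_lit 78) (nat_lit 228) (nat_lit 0) (XT.lf (nat_lit 0) (nat_lit 2326318502) (nat_lit 228) (nat_lit 49548122) (nat_lit 304) (nat_lit 9259938316) (nat_lit 96) (nat_lit 5) (nat_lit 99) (nat_lit 5) (nat_lit 100) (nat_lit 5) (nat_lit 482) (nat_lit 342) (nat_lit 316)) (XT.lf (nat_lit 0) (nat_lit 820266080) (nat_lit 228) (nat_lit 6773202170) (nat_lit 304) (nat_lit 4157903160) (nat_lit 93) (nat_lit 5) (nat_lit 96) (nat_lit 5) (nat_lit 97) (nat_lit 4) (nat_lit 483) (nat_lit 342) (nat_lit 315))) (XT.nd (nat_lit 78) (nat_lit 456) (nat_lit 0) (XT.lf (nat_lit 0) (nat_lit 1032281971) (nat_lit 304) (nat_lit 708492453) (nat_lit 76) (nat_lit 10128342336) (nat_lit 92) (nat_lit 5) (nat_lit 96) (nat_lit 5) (nat_lit 93) (nat_lit 5) (nat_lit 484) (nat_lit 342) (nat_lit 314)) (XT.nd (nat_lit 78) (nat_lit 228) (nat_lit 0) (XT.lf (nat_lit 0) (nat_lit 6293860817)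 (nat_lit 304) (nat_lit 2302168909) (nat_lit 76) (nat_lit 3392172329) (nat_lit 89) (nat_lit 5) (nat_lit 93) (nat_lit 5) (nat_lit 90) (nat_lit 4) (nat_lit 485) (nat_lit 342) (nat_lit 313)) (XT.lf (nat_lit 0) (nat_lit 8174349158) (nat_lit 228) (nat_lit 3493774046) (nat_lit 304) (nat_lit 441396813) (nat_lit 86) (nat_lit 5) (nat_lit 89) (nat_lit 5) (nat_lit 90) (nat_lit 4) (nat_lit 486) (nat_lit 342) (nat_lit 312))))) (XT.nd (nat_lit 234) (nat_lit 456) (nat_lit 0) (XT.nd (nat_lit 78) (nat_lit 532) (nat_lit 0) (XT.lf (nat_lit 0) (nat_lit 4860105066) (nat_lit 304) (nat_lit 5640735465) (nat_lit 76) (nat_lit 1731625756) (nat_lit 82) (nat_lit 5) (nat_lit 86) (nat_lit 5) (nat_lit 83) (nat_lit 4) (nat_lit 487) (nat_lit 342) (nat_lit 311)) (XT.nd (nat_lit 78) (nat_lit 304) (nat_lit 0) (XT.lf (nat_lit 0) (nat_lit 4953833266) (nat_lit 228) (nat_lit 5328139362) (nat_lit 304) (nat_lit 2075435581) (nat_lit 79) (nat_lit 5) (nat_lit 82) (nat_lit 5) (nat_lit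 83) (nat_lit 4) (nat_lit 488) (nat_lit 342) (nat_lit 310)) (XT.lf (nat_lit 0) (nat_lit 3263444402) (nat_lit 228) (nat_lit 18086900) (nat_lit 304) (nat_lit 9202930741) (nat_lit 75) (nat_lit 5) (nat_lit 78) (nat_lit 5) (nat_lit 79) (nat_lit 5) (nat_lit 489) (nat_lit 342) (nat_lit 309)))) (XT.nd (nat_lit 78) (nat_lit 304) (nat_lit 0) (XT.lf (nat_lit 0) (nat_lit 1491186373) (nat_lit 152) (nat_lit 7260061447) (nat_lit 228) (nat_lit 3861866752) (nat_lit 73) (nat_lit 5) (nat_lit 75) (nat_lit 5) (nat_lit 76) (nat_lit 4) (nat_lit 490) (nat_lit 342) (nat_lit 308)) (XT.nd (nat_lit 78) (nat_lit 228) (nat_lit 0) (XT.lf (nat_lit 0) (nat_lit 1566346685) (nat_lit 228) (nat_lit 321737177) (nat_lit 76) (nat_lit 10856027758) (nat_lit 72) (nat_lit 5) (nat_lit 75) (nat_lit 5) (nat_lit 73) (nat_lit 5) (nat_lit 491) (nat_lit 342) (nat_lit 307)) (XT.lf (nat_lit 0) (nat_lit 7084497129) (nat_lit 304) (nat_lit 2199705542) (nat_lit 76) (nat_lit 3592353737) (nat_lit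 69) (nat_lit 5) (nat_lit 73) (nat_lit 5) (nat_lit 70) (nat_lit 4) (nat_lit 492) (nat_lit 342) (nat_lit 306))))))) (XT.nd (nat_lit 780) (nat_lit 1368) (nat_lit 0) (XT.nd (nat_lit 390) (nat_lit 912) (nat_lit 0) (XT.nd (nat_lit 156) (nat_lit 608) (nat_lit 0) (XT.nd (nat_lit 78) (nat_lit 304) (nat_lit 0) (XT.lf (nat_lit 0) (nat_lit 8883720245) (nat_lit 152) (nat_lit 3841737957) (nat_lit 228) (nat_lit 285942937) (nat_lit 67) (nat_lit 5) (nat_lit 69) (nat_lit 5) (nat_lit 70) (nat_lit 4) (nat_lit 493) (nat_lit 342) (nat_lit 305)) (XT.lf (nat_lit 0) (nat_lit 5272403693) (nat_lit 304) (nat_lit 6140839321) (nat_lit 76) (nat_lit 1734767280) (nat_lit 63) (nat_lit 5) (nat_lit 67) (nat_lit 5) (nat_lit 64) (nat_lit 4) (nat_lit 494) (nat_lit 342) (nat_lit 304))) (XT.nd (nat_lit 78) (nat_lit 456) (nat_lit 0) (XT.lf (nat_lit 0) (nat_lit 5064093071) (nat_lit 152) (nat_lit 5900534393) (nat_lit 228) (nat_lit 2322155587) (nat_lit 61) (nat_lit 5) (nat_lit 63)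 (nat_lit 5) (nat_lit 64) (nat_lit 4) (nat_lit 495) (nat_lit 342) (nat_lit 303)) (XT.nd (nat_lit 78) (nat_lit 152) (nat_lit 0) (XT.lf (nat_lit 0) (nat_lit 3058237972) (nat_lit 228) (nat_lit 242036620) (nat_lit 304) (nat_lit 10127587736) (nat_lit 57) (nat_lit 5) (nat_lit 60) (nat_lit 5) (nat_lit 61) (nat_lit 5) (nat_lit 496) (nat_lit 342) (nat_lit 302)) (XT.lf (nat_lit 0) (nat_lit 957593912) (nat_lit 152) (nat_lit 8084716215) (nat_lit 228) (nat_lit 4528381067) (nat_lit 55) (nat_lit 5) (nat_lit 57) (nat_lit 5) (nat_lit 58) (nat_lit 4) (nat_lit 497) (nat_lit 342) (nat_lit 301))))) (XT.nd (nat_lit 156) (nat_lit 608) (nat_lit 0) (XT.nd (nat_lit 78) (nat_lit 228) (nat_lit 0) (XT.lf (nat_lit 0) (nat_lit 1179576825) (nat_lit 228) (nat_lit 1181785938) (nat_lit 76) (nat_lit 11354614685) (nat_lit 54) (nat_lit 5) (nat_lit 57) (nat_lit 5) (nat_lit 55) (nat_lit 5) (nat_lit 498) (nat_lit 342) (nat_lit 300)) (XT.lf (nat_lit 0) (nat_lit 6973850015) (nat_lit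 304) (nat_lit 3407525266) (nat_lit 76) (nat_lit 3481539672) (nat_lit 51) (nat_lit 5) (nat_lit 55) (nat_lit 5) (nat_lit 52) (nat_lit 4) (nat_lit 499) (nat_lit 342) (nat_lit 299))) (XT.nd (nat_lit 78) (nat_lit 456) (nat_lit 0) (XT.lf (nat_lit 0) (nat_lit 8315080281) (nat_lit 152) (nat_lit 4588469117) (nat_lit 228) (nat_lit 1108850994) (nat_lit 49) (nat_lit 5) (nat_lit 51) (nat_lit 5) (nat_lit 52) (nat_lit 4) (nat_lit 500) (nat_lit 342) (nat_lit 298)) (XT.nd (nat_lit 78) (nat_lit 152) (nat_lit 0) (XT.lf (nat_lit 0) (nat_lit 4737653316) (nat_lit 304) (nat_lit 8077459045) (nat_lit 76) (nat_lit 1348872216) (nat_lit 45) (nat_lit 5) (nat_lit 49) (nat_lit 5) (nat_lit 46) (nat_lit 4) (nat_lit 501) (nat_lit 342) (nat_lit 297)) (XT.lf (nat_lit 0) (nat_lit 3769722248) (nat_lit 152) (nat_lit 6952009465) (nat_lit 228) (nat_lit 3596012312) (nat_lit 43) (nat_lit 5) (nat_lit 45) (nat_lit 5) (nat_lit 46) (nat_lit 4) (nat_lit 502) (nat_lit 342) (nat_lit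 296)))))) (XT.nd (nat_lit 390) (nat_lit 608) (nat_lit 0) (XT.nd (nat_lit 156) (nat_lit 532) (nat_lit 0) (XT.nd (nat_lit 78) (nat_lit 0) (nat_lit 0) (XT.lf (nat_lit 0) (nat_lit 1385149873) (nat_lit 152) (nat_lit 940679579) (nat_lit 228) (nat_lit 12148328955) (nat_lit 40) (nat_lit 5) (nat_lit 42) (nat_lit 5) (nat_lit 43) (nat_lit 5) (nat_lit 503) (nat_lit 342) (nat_lit 295)) (XT.lf (nat_lit 0) (nat_lit 8365271975) (nat_lit 228) (nat_lit 1097666472) (nat_lit 76) (nat_lit 5169340945) (nat_lit 40) (nat_lit 5) (nat_lit 43) (nat_lit 5) (nat_lit 41) (nat_lit 4) (nat_lit 504) (nat_lit 342) (nat_lit 294))) (XT.nd (nat_lit 78) (nat_lit 380) (nat_lit 0) (XT.lf (nat_lit 0) (nat_lit 11168493494) (nat_lit 152) (nat_lit 3379199222) (nat_lit 228) (nat_lit 245426293) (nat_lit 38) (nat_lit 5) (nat_lit 40) (nat_lit 5) (nat_lit 41) (nat_lit 4) (nat_lit 505) (nat_lit 342) (nat_lit 293)) (XT.nd (nat_lit 78) (nat_lit 152) (nat_lit 0) (XT.lf (nat_lit 0) (nat_lit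 5845421553) (nat_lit 228) (nat_lit 6266578184) (nat_lit 76) (nat_lit 2843886594) (nat_lit 35) (nat_lit 5) (nat_lit 38) (nat_lit 5) (nat_lit 36) (nat_lit 4) (nat_lit 506) (nat_lit 342) (nat_lit 292)) (XT.lf (nat_lit 0) (nat_lit 6128007786) (nat_lit 152) (nat_lit 5957063486) (nat_lit 228) (nat_lit 3036199859) (nat_lit 33) (nat_lit 5) (nat_lit 35) (nat_lit 5) (nat_lit 36) (nat_lit 4) (nat_lit 507) (nat_lit 342) (nat_lit 291))))) (XT.nd (nat_lit 55146) (nat_lit 0) (nat_lit 13528) (XT.nd (nat_lit 78) (nat_lit 380) (nat_lit 0) (XT.lf (nat_lit 0) (nat_lit 3129078424) (nat_lit 228) (nat_lit 11805962245) (nat_lit 76) (nat_lit 354293357) (nat_lit 30) (nat_lit 5) (nat_lit 33) (nat_lit 5) (nat_lit 31) (nat_lit 4) (nat_lit 508) (nat_lit 342) (nat_lit 290)) (XT.nd (nat_lit 156) (nat_lit 228) (nat_lit 0) (XT.lf (nat_lit 0) (nat_lit 715734492) (nat_lit 152) (nat_lit 8709937672) (nat_lit 228) (nat_lit 6033711337) (nat_lit 28) (nat_lit 5) (nat_lit 30)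 (nat_lit 5) (nat_lit 31) (nat_lit 4) (nat_lit 509) (nat_lit 342) (nat_lit 289)) (XT.lf (nat_lit 0) (nat_lit 6593347101) (nat_lit 228) (nat_lit 5022057799) (nat_lit 76) (nat_lit 4191685919) (nat_lit 25) (nat_lit 5) (nat_lit 28) (nat_lit 5) (nat_lit 26) (nat_lit 4) (nat_lit 511) (nat_lit 342) (nat_lit 287)))) (XT.nd (nat_lit 78) (nat_lit 912) (nat_lit 0) (XT.lf (nat_lit 0) (nat_lit 474144848) (nat_lit 532) (nat_lit 3580797544) (nat_lit 0) (nat_lit 474144848) (nat_lit 215) (nat_lit 5) (nat_lit 222) (nat_lit 4) (nat_lit 215) (nat_lit 4) (nat_lit 454) (nat_lit 343) (nat_lit 343)) (XT.nd (nat_lit 78) (nat_lit 456) (nat_lit 0) (XT.lf (nat_lit 0) (nat_lit 984510212) (nat_lit 456) (nat_lit 4517605969) (nat_lit 456) (nat_lit 3628384458) (nat_lit 209) (nat_lit 4) (nat_lit 215) (nat_lit 5) (nat_lit 215) (nat_lit 4) (nat_lit 455) (nat_lit 343) (nat_lit 342)) (XT.lf (nat_lit 0) (nat_lit 71579769) (nat_lit 380) (nat_lit 835641555) (nat_lit 456) (nat_lit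 8297392783) (nat_lit 203) (nat_lit 5) (nat_lit 208) (nat_lit 5) (nat_lit 209) (nat_lit 4) (nat_lit 456) (nat_lit 343) (nat_lit 341))))))))
noncomputable def xc20 : XT := (XT.nd (nat_lit 1560) (nat_lit 4712) (nat_lit 0) (XT.nd (nat_lit 780) (nat_lit 3116) (nat_lit 0) (XT.nd (nat_lit 390) (nat_lit 1520) (nat_lit 0) (XT.nd (nat_lit 156) (nat_lit 1216) (nat_lit 0) (XT.nd (nat_lit 78) (nat_lit 532) (nat_lit 0) (XT.lf (nat_lit 0) (nat_lit 5487436308) (nat_lit 456) (nat_lit 869218973) (nat_lit 0) (nat_lit 2923025267) (nat_lit 203) (nat_lit 5) (nat_lit 209) (nat_lit 4) (nat_lit 203) (nat_lit 4) (nat_lit 457) (nat_lit 343) (nat_lit 340)) (XT.lf (nat_lit 0) (nat_lit 776746425) (nat_lit 532) (nat_lit 1816886487) (nat_lit 76) (nat_lit 6762825717) (nat_lit 196) (nat_lit 5) (nat_lit 203) (nat_lit 5) (nat_lit 197) (nat_lit 4) (nat_lit 458) (nat_lit 343) (nat_lit 339))) (XT.nd (nat_lit 78) (nat_lit 836) (nat_lit 0) (XT.lf (nat_lit 0) (nat_lit 5373804446)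 (nat_lit 456) (nat_lit 2796039777) (nat_lit 0) (nat_lit 1264677401) (nat_lit 191) (nat_lit 5) (nat_lit 197) (nat_lit 4) (nat_lit 191) (nat_lit 4) (nat_lit 459) (nat_lit 343) (nat_lit 338)) (XT.nd (nat_lit 78) (nat_lit 380) (nat_lit 0) (XT.lf (nat_lit 0) (nat_lit 538533609) (nat_lit 456) (nat_lit 3795409991) (nat_lit 76) (nat_lit 5180189601) (nat_lit 185) (nat_lit 5) (nat_lit 191) (nat_lit 5) (nat_lit 186) (nat_lit 4) (nat_lit 460) (nat_lit 343) (nat_lit 337)) (XT.lf (nat_lit 0) (nat_lit 4772960323) (nat_lit 380) (nat_lit 383054629) (nat_lit 456) (nat_lit 4439172862) (nat_lit 180) (nat_lit 5) (nat_lit 185) (nat_lit 5) (nat_lit 186) (nat_lit 4) (nat_lit 461) (nat_lit 343) (nat_lit 336))))) (XT.nd (nat_lit 156) (nat_lit 760) (nat_lit 0) (XT.nd (nat_lit 78) (nat_lit 304) (nat_lit 0) (XT.lf (nat_lit 0) (nat_lit 190644103) (nat_lit 456) (nat_lit 5875928971) (nat_lit 76) (nat_lit 3611163490) (nat_lit 174) (nat_lit 5) (nat_lit 180) (nat_lit 5)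 (nat_lit 175) (nat_lit 4) (nat_lit 462) (nat_lit 343) (nat_lit 335)) (XT.lf (nat_lit 0) (nat_lit 2797006675) (nat_lit 304) (nat_lit 2041213488) (nat_lit 380) (nat_lit 4923437203) (nat_lit 170) (nat_lit 5) (nat_lit 174) (nat_lit 5) (nat_lit 175) (nat_lit 4) (nat_lit 463) (nat_lit 343) (nat_lit 334))) (XT.nd (nat_lit 78) (nat_lit 380) (nat_lit 0) (XT.lf (nat_lit 0) (nat_lit 1775908619) (nat_lit 380) (nat_lit 7799114731) (nat_lit 380) (nat_lit 272307722) (nat_lit 165) (nat_lit 4) (nat_lit 170) (nat_lit 5) (nat_lit 170) (nat_lit 4) (nat_lit 464) (nat_lit 343) (nat_lit 333)) (XT.nd (nat_lit 78) (nat_lit 0) (nat_lit 0) (XT.lf (nat_lit 0) (nat_lit 707845480) (nat_lit 304) (nat_lit 3702338313) (nat_lit 380) (nat_lit 5524014006) (nat_lit 160) (nat_lit 5) (nat_lit 164) (nat_lit 5) (nat_lit 165) (nat_lit 4) (nat_lit 465) (nat_lit 343) (nat_lit 332)) (XT.lf (nat_lit 0) (nat_lit 9172476282) (nat_lit 380) (nat_lit 365694276) (nat_lit 0) (nat_lit 484799356)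 (nat_lit 160) (nat_lit 5) (nat_lit 165) (nat_lit 4) (nat_lit 160) (nat_lit 4) (nat_lit 466) (nat_lit 343) (nat_lit 331)))))) (XT.nd (nat_lit 390) (nat_lit 1292) (nat_lit 0) (XT.nd (nat_lit 156) (nat_lit 1064) (nat_lit 0) (XT.nd (nat_lit 78) (nat_lit 304) (nat_lit 0) (XT.lf (nat_lit 0) (nat_lit 3879430730) (nat_lit 456) (nat_lit 1486275563) (nat_lit 76) (nat_lit 4747016626) (nat_lit 154) (nat_lit 5) (nat_lit 160) (nat_lit 5) (nat_lit 155) (nat_lit 4) (nat_lit 467) (nat_lit 343) (nat_lit 330)) (XT.lf (nat_lit 0) (nat_lit 7584162834) (nat_lit 304) (nat_lit 1093800160) (nat_lit 380) (nat_lit 1526487603) (nat_lit 150) (nat_lit 5) (nat_lit 154) (nat_lit 5) (nat_lit 155) (nat_lit 4) (nat_lit 468) (nat_lit 343) (nat_lit 329))) (XT.nd (nat_lit 78) (nat_lit 684) (nat_lit 0) (XT.lf (nat_lit 0) (nat_lit 3239074365) (nat_lit 380) (nat_lit 3805806461) (nat_lit 76) (nat_lit 3252555479) (nat_lit 145) (nat_lit 5) (nat_lit 150) (nat_lit 5) (nat_lit 146)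 (nat_lit 4) (nat_lit 469) (nat_lit 343) (nat_lit 328)) (XT.nd (nat_lit 78) (nat_lit 380) (nat_lit 0) (XT.lf (nat_lit 0) (nat_lit 5373070326) (nat_lit 304) (nat_lit 2700441482) (nat_lit 380) (nat_lit 2318688038) (nat_lit 141) (nat_lit 5) (nat_lit 145) (nat_lit 5) (nat_lit 146) (nat_lit 4) (nat_lit 470) (nat_lit 343) (nat_lit 327)) (XT.lf (nat_lit 0) (nat_lit 2481668819) (nat_lit 380) (nat_lit 6271937527) (nat_lit 76) (nat_lit 1734947944) (nat_lit 136) (nat_lit 5) (nat_lit 141) (nat_lit 5) (nat_lit 137) (nat_lit 4) (nat_lit 471) (nat_lit 343) (nat_lit 326))))) (XT.nd (nat_lit 156) (nat_lit 608) (nat_lit 0) (XT.nd (nat_lit 78) (nat_lit 380) (nat_lit 0) (XT.lf (nat_lit 0) (nat_lit 3015278770) (nat_lit 304) (nat_lit 4337709068) (nat_lit 380) (nat_lit 3233421409) (nat_lit 132) (nat_lit 5) (nat_lit 136) (nat_lit 5) (nat_lit 137) (nat_lit 4) (nat_lit 472) (nat_lit 343) (nat_lit 325)) (XT.lf (nat_lit 0) (nat_lit 1604026466) (nat_lit 380) (nat_lit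 8896890679) (nat_lit 76) (nat_lit 185292488) (nat_lit 127) (nat_lit 5) (nat_lit 132) (nat_lit 5) (nat_lit 128) (nat_lit 4) (nat_lit 473) (nat_lit 343) (nat_lit 324))) (XT.nd (nat_lit 78) (nat_lit 380) (nat_lit 0) (XT.lf (nat_lit 0) (nat_lit 498494791) (nat_lit 228) (nat_lit 6014614151) (nat_lit 304) (nat_lit 4274106005) (nat_lit 124) (nat_lit 5) (nat_lit 127) (nat_lit 5) (nat_lit 128) (nat_lit 4) (nat_lit 474) (nat_lit 343) (nat_lit 323)) (XT.nd (nat_lit 78) (nat_lit 304) (nat_lit 0) (XT.lf (nat_lit 0) (nat_lit 617138089) (nat_lit 304) (nat_lit 801464711) (nat_lit 76) (nat_lit 9471650349) (nat_lit 123) (nat_lit 5) (nat_lit 127) (nat_lit 5) (nat_lit 124) (nat_lit 5) (nat_lit 475) (nat_lit 343) (nat_lit 322)) (XT.lf (nat_lit 0) (nat_lit 5564472121) (nat_lit 380) (nat_lit 2161200685) (nat_lit 76) (nat_lit 3268804365) (nat_lit 119) (nat_lit 5) (nat_lit 124) (nat_lit 5) (nat_lit 120) (nat_lit 4) (nat_lit 476) (nat_lit 343) (nat_lit 321)))))))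 (XT.nd (nat_lit 780) (nat_lit 2204) (nat_lit 0) (XT.nd (nat_lit 390) (nat_lit 1064) (nat_lit 0) (XT.nd (nat_lit 156) (nat_lit 836) (nat_lit 0) (XT.nd (nat_lit 78) (nat_lit 380) (nat_lit 0) (XT.lf (nat_lit 0) (nat_lit 7552098833) (nat_lit 228) (nat_lit 3059198574) (nat_lit 304) (nat_lit 489477376) (nat_lit 116) (nat_lit 5) (nat_lit 119) (nat_lit 5) (nat_lit 120) (nat_lit 4) (nat_lit 477) (nat_lit 343) (nat_lit 320)) (XT.lf (nat_lit 0) (nat_lit 4493330280) (nat_lit 380) (nat_lit 4996583107) (nat_lit 76) (nat_lit 1718631311) (nat_lit 111) (nat_lit 5) (nat_lit 116) (nat_lit 5) (nat_lit 112) (nat_lit 4) (nat_lit 478) (nat_lit 343) (nat_lit 319))) (XT.nd (nat_lit 78) (nat_lit 608) (nat_lit 0) (XT.lf (nat_lit 0) (nat_lit 4828805377) (nat_lit 228) (nat_lit 4753097427) (nat_lit 304) (nat_lit 1736249242) (nat_lit 108) (nat_lit 5) (nat_lit 111) (nat_lit 5) (nat_lit 112) (nat_lit 4) (nat_lit 479) (nat_lit 343) (nat_lit 318)) (XT.nd (nat_lit 78) (nat_lit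 228) (nat_lit 0) (XT.lf (nat_lit 0) (nat_lit 3292223095) (nat_lit 380) (nat_lit 8027428562) (nat_lit 76) (nat_lit 109990624) (nat_lit 103) (nat_lit 5) (nat_lit 108) (nat_lit 5) (nat_lit 104) (nat_lit 4) (nat_lit 480) (nat_lit 343) (nat_lit 317)) (XT.lf (nat_lit 0) (nat_lit 1909723187) (nat_lit 228) (nat_lit 6513451060) (nat_lit 304) (nat_lit 3119455385) (nat_lit 100) (nat_lit 5) (nat_lit 103) (nat_lit 5) (nat_lit 104) (nat_lit 4) (nat_lit 481) (nat_lit 343) (nat_lit 316))))) (XT.nd (nat_lit 156) (nat_lit 760) (nat_lit 0) (XT.nd (nat_lit 78) (nat_lit 0) (nat_lit 0) (XT.lf (nat_lit 0) (nat_lit 380032167) (nat_lit 228) (nat_lit 1586848586) (nat_lit 304) (nat_lit 9690851847) (nat_lit 96) (nat_lit 5) (nat_lit 99) (nat_lit 5) (nat_lit 100) (nat_lit 5) (nat_lit 482) (nat_lit 343) (nat_lit 315)) (XT.lf (nat_lit 0) (nat_lit 7138360537) (nat_lit 304) (nat_lit 1202916492) (nat_lit 76) (nat_lit 3432944478) (nat_lit 96) (nat_lit 5) (nat_lit 100) (nat_lit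 5) (nat_lit 97) (nat_lit 4) (nat_lit 483) (nat_lit 343) (nat_lit 314))) (XT.nd (nat_lit 78) (nat_lit 456) (nat_lit 0) (XT.lf (nat_lit 0) (nat_lit 521863667) (nat_lit 304) (nat_lit 2821758009) (nat_lit 76) (nat_lit 8549181826) (nat_lit 92) (nat_lit 5) (nat_lit 96) (nat_lit 5) (nat_lit 93) (nat_lit 5) (nat_lit 484) (nat_lit 343) (nat_lit 313)) (XT.nd (nat_lit 78) (nat_lit 228) (nat_lit 0) (XT.lf (nat_lit 0) (nat_lit 5728379499) (nat_lit 304) (nat_lit 4511330277) (nat_lit 76) (nat_lit 1773280281) (nat_lit 89) (nat_lit 5) (nat_lit 93) (nat_lit 5) (nat_lit 90) (nat_lit 4) (nat_lit 485) (nat_lit 343) (nat_lit 312)) (XT.lf (nat_lit 0) (nat_lit 5881841093) (nat_lit 228) (nat_lit 5175856380) (nat_lit 304) (nat_lit 1077509435) (nat_lit 86) (nat_lit 5) (nat_lit 89) (nat_lit 5) (nat_lit 90) (nat_lit 4) (nat_lit 486) (nat_lit 343) (nat_lit 311)))))) (XT.nd (nat_lit 390) (nat_lit 1140) (nat_lit 0) (XT.nd (nat_lit 156) (nat_lit 532) (nat_lit 0) (XT.nd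 (nat_lit 78) (nat_lit 228) (nat_lit 0) (XT.lf (nat_lit 0) (nat_lit 4175545522) (nat_lit 304) (nat_lit 8055068264) (nat_lit 76) (nat_lit 28757786) (nat_lit 82) (nat_lit 5) (nat_lit 86) (nat_lit 5) (nat_lit 83) (nat_lit 4) (nat_lit 487) (nat_lit 343) (nat_lit 310)) (XT.lf (nat_lit 0) (nat_lit 2453283149) (nat_lit 228) (nat_lit 7097976888) (nat_lit 304) (nat_lit 2833976518) (nat_lit 79) (nat_lit 5) (nat_lit 82) (nat_lit 5) (nat_lit 83) (nat_lit 4) (nat_lit 488) (nat_lit 343) (nat_lit 309))) (XT.nd (nat_lit 78) (nat_lit 228) (nat_lit 0) (XT.lf (nat_lit 0) (nat_lit 652277284) (nat_lit 228) (nat_lit 1833835760) (nat_lit 304) (nat_lit 10027212358) (nat_lit 75) (nat_lit 5) (nat_lit 78) (nat_lit 5) (nat_lit 79) (nat_lit 5) (nat_lit 489) (nat_lit 343) (nat_lit 308)) (XT.nd (nat_lit 78) (nat_lit 228) (nat_lit 0) (XT.lf (nat_lit 0) (nat_lit 7904574843) (nat_lit 304) (nat_lit 1210168305) (nat_lit 76) (nat_lit 3528259877) (nat_lit 75) (nat_lit 5) (nat_lit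 79) (nat_lit 5) (nat_lit 76) (nat_lit 4) (nat_lit 490) (nat_lit 343) (nat_lit 307)) (XT.lf (nat_lit 0) (nat_lit 663526154) (nat_lit 228) (nat_lit 3117077067) (nat_lit 76) (nat_lit 8994265784) (nat_lit 72) (nat_lit 5) (nat_lit 75) (nat_lit 5) (nat_lit 73) (nat_lit 5) (nat_lit 491) (nat_lit 343) (nat_lit 306))))) (XT.nd (nat_lit 234) (nat_lit 456) (nat_lit 0) (XT.nd (nat_lit 78) (nat_lit 456) (nat_lit 0) (XT.lf (nat_lit 0) (nat_lit 6121219212) (nat_lit 304) (nat_lit 5104592202) (nat_lit 76) (nat_lit 1682711526) (nat_lit 69) (nat_lit 5) (nat_lit 73) (nat_lit 5) (nat_lit 70) (nat_lit 4) (nat_lit 492) (nat_lit 343) (nat_lit 305)) (XT.nd (nat_lit 78) (nat_lit 304) (nat_lit 0) (XT.lf (nat_lit 0) (nat_lit 5886900080) (nat_lit 152) (nat_lit 5826746675) (nat_lit 228) (nat_lit 1330691588) (nat_lit 67) (nat_lit 5) (nat_lit 69) (nat_lit 5) (nat_lit 70) (nat_lit 4) (nat_lit 493) (nat_lit 343) (nat_lit 304)) (XT.lf (nat_lit 0) (nat_lit 3902295023) (nat_lit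 228) (nat_lit 278378092) (nat_lit 304) (nat_lit 9001623726) (nat_lit 63) (nat_lit 5) (nat_lit 66) (nat_lit 5) (nat_lit 67) (nat_lit 5) (nat_lit 494) (nat_lit 343) (nat_lit 303)))) (XT.nd (nat_lit 78) (nat_lit 304) (nat_lit 0) (XT.lf (nat_lit 0) (nat_lit 1831596969) (nat_lit 152) (nat_lit 7989545389) (nat_lit 228) (nat_lit 3500962330) (nat_lit 61) (nat_lit 5) (nat_lit 63) (nat_lit 5) (nat_lit 64) (nat_lit 4) (nat_lit 495) (nat_lit 343) (nat_lit 302)) (XT.nd (nat_lit 78) (nat_lit 228) (nat_lit 0) (XT.lf (nat_lit 0) (nat_lit 2088149745) (nat_lit 228) (nat_lit 294819109) (nat_lit 76) (nat_lit 11081343751) (nat_lit 60) (nat_lit 5) (nat_lit 63) (nat_lit 5) (nat_lit 61) (nat_lit 5) (nat_lit 496) (nat_lit 343) (nat_lit 301)) (XT.lf (nat_lit 0) (nat_lit 7779265401) (nat_lit 304) (nat_lit 2487372158) (nat_lit 76) (nat_lit 3341522309) (nat_lit 57) (nat_lit 5) (nat_lit 61) (nat_lit 5) (nat_lit 58) (nat_lit 4) (nat_lit 497) (nat_lit 343) (nat_lit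 300))))))))
noncomputable def xc21 : XT := (XT.nd (nat_lit 56316) (nat_lit 0) (nat_lit 6308) (XT.nd (nat_lit 780) (nat_lit 608) (nat_lit 0) (XT.nd (nat_lit 390) (nat_lit 912) (nat_lit 0) (XT.nd (nat_lit 156) (nat_lit 456) (nat_lit 0) (XT.nd (nat_lit 78) (nat_lit 304) (nat_lit 0) (XT.lf (nat_lit 0) (nat_lit 9011576784) (nat_lit 152) (nat_lit 4591774653) (nat_lit 228) (nat_lit 151149679) (nat_lit 55) (nat_lit 5) (nat_lit 57) (nat_lit 5) (nat_lit 58) (nat_lit 4) (nat_lit 498) (nat_lit 343) (nat_lit 299)) (XT.lf (nat_lit 0) (nat_lit 5578294628) (nat_lit 304) (nat_lit 7092323351) (nat_lit 76) (nat_lit 1232176492) (nat_lit 51) (nat_lit 5) (nat_lit 55) (nat_lit 5) (nat_lit 52) (nat_lit 4) (nat_lit 499) (nat_lit 343) (nat_lit 298))) (XT.nd (nat_lit 78) (nat_lit 304) (nat_lit 0) (XT.lf (nat_lit 0) (nat_lit 4528701956) (nat_lit 152) (nat_lit 6926525802) (nat_lit 228) (nat_lit 2598107478) (nat_lit 49) (nat_lit 5) (nat_lit 51) (nat_lit 5) (nat_lit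 52) (nat_lit 4) (nat_lit 500) (nat_lit 343) (nat_lit 297)) (XT.nd (nat_lit 78) (nat_lit 0) (nat_lit 0) (XT.lf (nat_lit 0) (nat_lit 2174554612) (nat_lit 228) (nat_lit 1030891987) (nat_lit 304) (nat_lit 11000915850) (nat_lit 45) (nat_lit 5) (nat_lit 48) (nat_lit 5) (nat_lit 49) (nat_lit 5) (nat_lit 501) (nat_lit 343) (nat_lit 296)) (XT.lf (nat_lit 0) (nat_lit 9130269289) (nat_lit 304) (nat_lit 279390738) (nat_lit 76) (nat_lit 4951646983) (nat_lit 45) (nat_lit 5) (nat_lit 49) (nat_lit 5) (nat_lit 46) (nat_lit 4) (nat_lit 502) (nat_lit 343) (nat_lit 295))))) (XT.nd (nat_lit 156) (nat_lit 532) (nat_lit 0) (XT.nd (nat_lit 78) (nat_lit 152) (nat_lit 0) (XT.lf (nat_lit 0) (nat_lit 673347814) (nat_lit 228) (nat_lit 2770861945) (nat_lit 76) (nat_lit 11074501943) (nat_lit 42) (nat_lit 5) (nat_lit 45) (nat_lit 5) (nat_lit 43) (nat_lit 5) (nat_lit 503) (nat_lit 343) (nat_lit 294)) (XT.lf (nat_lit 0) (nat_lit 6650188865) (nat_lit 228) (nat_lit 5371151134)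 (nat_lit 76) (nat_lit 2656744718) (nat_lit 40) (nat_lit 5) (nat_lit 43) (nat_lit 5) (nat_lit 41) (nat_lit 4) (nat_lit 504) (nat_lit 343) (nat_lit 293))) (XT.nd (nat_lit 78) (nat_lit 380) (nat_lit 0) (XT.lf (nat_lit 0) (nat_lit 6786452313) (nat_lit 152) (nat_lit 5990258319) (nat_lit 228) (nat_lit 2063331683) (nat_lit 38) (nat_lit 5) (nat_lit 40) (nat_lit 5) (nat_lit 41) (nat_lit 4) (nat_lit 505) (nat_lit 343) (nat_lit 292)) (XT.nd (nat_lit 78) (nat_lit 152) (nat_lit 0) (XT.lf (nat_lit 0) (nat_lit 3977162811) (nat_lit 228) (nat_lit 10825150489) (nat_lit 76) (nat_lit 202216308) (nat_lit 35) (nat_lit 5) (nat_lit 38) (nat_lit 5) (nat_lit 36) (nat_lit 4) (nat_lit 506) (nat_lit 343) (nat_lit 291)) (XT.lf (nat_lit 0) (nat_lit 1457005932) (nat_lit 152) (nat_lit 8702114757) (nat_lit 228) (nat_lit 5011947555) (nat_lit 33) (nat_lit 5) (nat_lit 35) (nat_lit 5) (nat_lit 36) (nat_lit 4) (nat_lit 507) (nat_lit 343) (nat_lit 290)))))) (XT.nd (nat_lit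 55146) (nat_lit 0) (nat_lit 12996) (XT.nd (nat_lit 234) (nat_lit 380) (nat_lit 0) (XT.nd (nat_lit 78) (nat_lit 152) (nat_lit 0) (XT.lf (nat_lit 0) (nat_lit 1126942414) (nat_lit 228) (nat_lit 1319133245) (nat_lit 76) (nat_lit 12894358050) (nat_lit 32) (nat_lit 5) (nat_lit 35) (nat_lit 5) (nat_lit 33) (nat_lit 5) (nat_lit 508) (nat_lit 343) (nat_lit 289)) (XT.lf (nat_lit 0) (nat_lit 7366985461) (nat_lit 228) (nat_lit 4200269316) (nat_lit 76) (nat_lit 3944359419) (nat_lit 30) (nat_lit 5) (nat_lit 33) (nat_lit 5) (nat_lit 31) (nat_lit 4) (nat_lit 509) (nat_lit 343) (nat_lit 288))) (XT.nd (nat_lit 54756) (nat_lit 0) (nat_lit 14972) (XT.lf (nat_lit 0) (nat_lit 4375319604) (nat_lit 228) (nat_lit 10237709447) (nat_lit 76) (nat_lit 1249262477) (nat_lit 25) (nat_lit 5) (nat_lit 28) (nat_lit 5) (nat_lit 26) (nat_lit 4) (nat_lit 511) (nat_lit 343) (nat_lit 286)) (XT.nd (nat_lit 78) (nat_lit 456) (nat_lit 0) (XT.lf (nat_lit 0) (nat_lit 924417590)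 (nat_lit 532) (nat_lit 2609468770) (nat_lit 0) (nat_lit 924417590) (nat_lit 228) (nat_lit 5) (nat_lit 235) (nat_lit 4) (nat_lit 228) (nat_lit 4) (nat_lit 452) (nat_lit 344) (nat_lit 344)) (XT.lf (nat_lit 0) (nat_lit 2773487174) (nat_lit 456) (nat_lit 3569293297) (nat_lit 456) (nat_lit 2644147237) (nat_lit 222) (nat_lit 4) (nat_lit 228) (nat_lit 5) (nat_lit 228) (nat_lit 4) (nat_lit 453) (nat_lit 344) (nat_lit 343))))) (XT.nd (nat_lit 156) (nat_lit 988) (nat_lit 0) (XT.nd (nat_lit 78) (nat_lit 456) (nat_lit 0) (XT.lf (nat_lit 0) (nat_lit 1819535938) (nat_lit 532) (nat_lit 7216045253) (nat_lit 0) (nat_lit 23308485) (nat_lit 215) (nat_lit 5) (nat_lit 222) (nat_lit 4) (nat_lit 215) (nat_lit 4) (nat_lit 454) (nat_lit 344) (nat_lit 342)) (XT.lf (nat_lit 0) (nat_lit 875244491) (nat_lit 456) (nat_lit 5462349974) (nat_lit 456) (nat_lit 2794336727) (nat_lit 209) (nat_lit 4) (nat_lit 215) (nat_lit 5) (nat_lit 215) (nat_lit 4) (nat_lit 455) (nat_lit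 344) (nat_lit 341))) (XT.nd (nat_lit 78) (nat_lit 912) (nat_lit 0) (XT.lf (nat_lit 0) (nat_lit 1694920300) (nat_lit 532) (nat_lit 98966196) (nat_lit 76) (nat_lit 7412758061) (nat_lit 208) (nat_lit 5) (nat_lit 215) (nat_lit 5) (nat_lit 209) (nat_lit 4) (nat_lit 456) (nat_lit 344) (nat_lit 340)) (XT.nd (nat_lit 78) (nat_lit 532) (nat_lit 0) (XT.lf (nat_lit 0) (nat_lit 6233532784) (nat_lit 456) (nat_lit 1090613258) (nat_lit 0) (nat_lit 1958397006) (nat_lit 203) (nat_lit 5) (nat_lit 209) (nat_lit 4) (nat_lit 203) (nat_lit 4) (nat_lit 457) (nat_lit 344) (nat_lit 339)) (XT.lf (nat_lit 0) (nat_lit 1474147707) (nat_lit 532) (nat_lit 2102752727) (nat_lit 76) (nat_lit 5783045885) (nat_lit 196) (nat_lit 5) (nat_lit 203) (nat_lit 5) (nat_lit 197) (nat_lit 4) (nat_lit 458) (nat_lit 344) (nat_lit 338))))))) (XT.nd (nat_lit 780) (nat_lit 3192) (nat_lit 0) (XT.nd (nat_lit 390) (nat_lit 1520) (nat_lit 0) (XT.nd (nat_lit 156) (nat_lit 1140) (nat_lit 0)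 (XT.nd (nat_lit 78) (nat_lit 456) (nat_lit 0) (XT.lf (nat_lit 0) (nat_lit 6028516807) (nat_lit 456) (nat_lit 3136863157) (nat_lit 0) (nat_lit 273483129) (nat_lit 191) (nat_lit 5) (nat_lit 197) (nat_lit 4) (nat_lit 191) (nat_lit 4) (nat_lit 459) (nat_lit 344) (nat_lit 337)) (XT.lf (nat_lit 0) (nat_lit 1143806441) (nat_lit 456) (nat_lit 4203486663) (nat_lit 76) (nat_lit 4171828480) (nat_lit 185) (nat_lit 5) (nat_lit 191) (nat_lit 5) (nat_lit 186) (nat_lit 4) (nat_lit 460) (nat_lit 344) (nat_lit 336))) (XT.nd (nat_lit 78) (nat_lit 760) (nat_lit 0) (XT.lf (nat_lit 0) (nat_lit 4305686819) (nat_lit 380) (nat_lit 1418928664) (nat_lit 456) (nat_lit 3876294159) (nat_lit 180) (nat_lit 5) (nat_lit 185) (nat_lit 5) (nat_lit 186) (nat_lit 4) (nat_lit 461) (nat_lit 344) (nat_lit 335)) (XT.nd (nat_lit 78) (nat_lit 304) (nat_lit 0) (XT.lf (nat_lit 0) (nat_lit 702261223) (nat_lit 456) (nat_lit 6412322339) (nat_lit 76) (nat_lit 2569679325) (nat_lit 174)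 (nat_lit 5) (nat_lit 180) (nat_lit 5) (nat_lit 175) (nat_lit 4) (nat_lit 462) (nat_lit 344) (nat_lit 334)) (XT.lf (nat_lit 0) (nat_lit 2199423226) (nat_lit 304) (nat_lit 3113179907) (nat_lit 380) (nat_lit 4456325239) (nat_lit 170) (nat_lit 5) (nat_lit 174) (nat_lit 5) (nat_lit 175) (nat_lit 4) (nat_lit 463) (nat_lit 344) (nat_lit 333))))) (XT.nd (nat_lit 156) (nat_lit 1064) (nat_lit 0) (XT.nd (nat_lit 78) (nat_lit 0) (nat_lit 0) (XT.lf (nat_lit 0) (nat_lit 147535620) (nat_lit 456) (nat_lit 8740637120) (nat_lit 76) (nat_lit 967298317) (nat_lit 164) (nat_lit 5) (nat_lit 170) (nat_lit 5) (nat_lit 165) (nat_lit 4) (nat_lit 464) (nat_lit 344) (nat_lit 332)) (XT.lf (nat_lit 0) (nat_lit 4788773546) (nat_lit 456) (nat_lit 26041191) (nat_lit 76) (nat_lit 5128241332) (nat_lit 164) (nat_lit 5) (nat_lit 170) (nat_lit 5) (nat_lit 165) (nat_lit 4) (nat_lit 465) (nat_lit 344) (nat_lit 331))) (XT.nd (nat_lit 78) (nat_lit 760) (nat_lit 0) (XT.lf (nat_lit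 0) (nat_lit 8873028434) (nat_lit 304) (nat_lit 641893286) (nat_lit 380) (nat_lit 517629350) (nat_lit 160) (nat_lit 5) (nat_lit 164) (nat_lit 5) (nat_lit 165) (nat_lit 4) (nat_lit 466) (nat_lit 344) (nat_lit 330)) (XT.nd (nat_lit 78) (nat_lit 304) (nat_lit 0) (XT.lf (nat_lit 0) (nat_lit 4165670645) (nat_lit 456) (nat_lit 2352170937) (nat_lit 76) (nat_lit 3605264445) (nat_lit 154) (nat_lit 5) (nat_lit 160) (nat_lit 5) (nat_lit 155) (nat_lit 4) (nat_lit 467) (nat_lit 344) (nat_lit 329)) (XT.lf (nat_lit 0) (nat_lit 6653241740) (nat_lit 304) (nat_lit 2272726764) (nat_lit 380) (nat_lit 1289629890) (nat_lit 150) (nat_lit 5) (nat_lit 154) (nat_lit 5) (nat_lit 155) (nat_lit 4) (nat_lit 468) (nat_lit 344) (nat_lit 328)))))) (XT.nd (nat_lit 390) (nat_lit 1444) (nat_lit 0) (XT.nd (nat_lit 156) (nat_lit 1064) (nat_lit 0) (XT.nd (nat_lit 78) (nat_lit 304) (nat_lit 0) (XT.lf (nat_lit 0) (nat_lit 3426336166) (nat_lit 380) (nat_lit 4819619790) (nat_lit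 76) (nat_lit 2063527177) (nat_lit 145) (nat_lit 5) (nat_lit 150) (nat_lit 5) (nat_lit 146) (nat_lit 4) (nat_lit 469) (nat_lit 344) (nat_lit 327)) (XT.lf (nat_lit 0) (nat_lit 4292029275) (nat_lit 304) (nat_lit 3929768401) (nat_lit 380) (nat_lit 2183228518) (nat_lit 141) (nat_lit 5) (nat_lit 145) (nat_lit 5) (nat_lit 146) (nat_lit 4) (nat_lit 470) (nat_lit 344) (nat_lit 326))) (XT.nd (nat_lit 78) (nat_lit 684) (nat_lit 0) (XT.lf (nat_lit 0) (nat_lit 2567753860) (nat_lit 380) (nat_lit 7440497119) (nat_lit 76) (nat_lit 494064027) (nat_lit 136) (nat_lit 5) (nat_lit 141) (nat_lit 5) (nat_lit 137) (nat_lit 4) (nat_lit 471) (nat_lit 344) (nat_lit 325)) (XT.nd (nat_lit 78) (nat_lit 380) (nat_lit 0) (XT.lf (nat_lit 0) (nat_lit 1777212337) (nat_lit 304) (nat_lit 5622084799) (nat_lit 380) (nat_lit 3201668341) (nat_lit 132) (nat_lit 5) (nat_lit 136) (nat_lit 5) (nat_lit 137) (nat_lit 4) (nat_lit 472) (nat_lit 344) (nat_lit 324)) (XT.lf (nat_lit 0)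 (nat_lit 467035487) (nat_lit 304) (nat_lit 1126848342) (nat_lit 380) (nat_lit 9107707497) (nat_lit 127) (nat_lit 5) (nat_lit 131) (nat_lit 5) (nat_lit 132) (nat_lit 5) (nat_lit 473) (nat_lit 344) (nat_lit 323))))) (XT.nd (nat_lit 234) (nat_lit 836) (nat_lit 0) (XT.nd (nat_lit 78) (nat_lit 608) (nat_lit 0) (XT.lf (nat_lit 0) (nat_lit 6460883138) (nat_lit 380) (nat_lit 891868380) (nat_lit 76) (nat_lit 3450686786) (nat_lit 127) (nat_lit 5) (nat_lit 132) (nat_lit 5) (nat_lit 128) (nat_lit 4) (nat_lit 474) (nat_lit 344) (nat_lit 322)) (XT.nd (nat_lit 78) (nat_lit 304) (nat_lit 0) (XT.lf (nat_lit 0) (nat_lit 512216197) (nat_lit 304) (nat_lit 2273080507) (nat_lit 76) (nat_lit 8121936099) (nat_lit 123) (nat_lit 5) (nat_lit 127) (nat_lit 5) (nat_lit 124) (nat_lit 5) (nat_lit 475) (nat_lit 344) (nat_lit 321)) (XT.lf (nat_lit 0) (nat_lit 5409595673) (nat_lit 380) (nat_lit 3714280666) (nat_lit 76) (nat_lit 1888579576) (nat_lit 119) (nat_lit 5) (nat_lit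 124) (nat_lit 5) (nat_lit 120) (nat_lit 4) (nat_lit 476) (nat_lit 344) (nat_lit 320)))) (XT.nd (nat_lit 78) (nat_lit 608) (nat_lit 0) (XT.lf (nat_lit 0) (nat_lit 5925060838) (nat_lit 228) (nat_lit 4490075455) (nat_lit 304) (nat_lit 704442927) (nat_lit 116) (nat_lit 5) (nat_lit 119) (nat_lit 5) (nat_lit 120) (nat_lit 4) (nat_lit 477) (nat_lit 344) (nat_lit 319)) (XT.nd (nat_lit 78) (nat_lit 228) (nat_lit 0) (XT.lf (nat_lit 0) (nat_lit 4229842785) (nat_lit 380) (nat_lit 6726416644) (nat_lit 76) (nat_lit 272144446) (nat_lit 111) (nat_lit 5) (nat_lit 116) (nat_lit 5) (nat_lit 112) (nat_lit 4) (nat_lit 478) (nat_lit 344) (nat_lit 318)) (XT.lf (nat_lit 0) (nat_lit 3022482237) (nat_lit 228) (nat_lit 6253664603) (nat_lit 304) (nat_lit 2062709753) (nat_lit 108) (nat_lit 5) (nat_lit 111) (nat_lit 5) (nat_lit 112) (nat_lit 4) (nat_lit 479) (nat_lit 344) (nat_lit 317))))))))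
noncomputable def xc22 : XT := (XT.nd (nat_lit 1560) (nat_lit 1976) (nat_lit 0) (XT.nd (nat_lit 780) (nat_lit 2052) (nat_lit 0) (XT.nd (nat_lit 390) (nat_lit 1140) (nat_lit 0) (XT.nd (nat_lit 156) (nat_lit 760) (nat_lit 0) (XT.nd (nat_lit 78) (nat_lit 0) (nat_lit 0) (XT.lf (nat_lit 0) (nat_lit 1500232126) (nat_lit 304) (nat_lit 1426251819) (nat_lit 380) (nat_lit 8524776477) (nat_lit 103) (nat_lit 5) (nat_lit 107) (nat_lit 5) (nat_lit 108) (nat_lit 5) (nat_lit 480) (nat_lit 344) (nat_lit 316)) (XT.lf (nat_lit 0) (nat_lit 8005404952) (nat_lit 380) (nat_lit 82631926) (nat_lit 76) (nat_lit 3477251500) (nat_lit 103) (nat_lit 5) (nat_lit 108) (nat_lit 5) (nat_lit 104) (nat_lit 4) (nat_lit 481) (nat_lit 344) (nat_lit 315))) (XT.nd (nat_lit 78) (nat_lit 456) (nat_lit 0) (XT.lf (nat_lit 0) (nat_lit 1498897976) (nat_lit 304) (nat_lit 1691235334) (nat_lit 76) (nat_lit 8490981847) (nat_lit 99) (nat_lit 5) (nat_lit 103) (nat_lit 5) (nat_lit 100) (nat_lit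 5) (nat_lit 482) (nat_lit 344) (nat_lit 314)) (XT.nd (nat_lit 78) (nat_lit 228) (nat_lit 0) (XT.lf (nat_lit 0) (nat_lit 6618557196) (nat_lit 304) (nat_lit 3362910667) (nat_lit 76) (nat_lit 1817172613) (nat_lit 96) (nat_lit 5) (nat_lit 100) (nat_lit 5) (nat_lit 97) (nat_lit 4) (nat_lit 483) (nat_lit 344) (nat_lit 313)) (XT.lf (nat_lit 0) (nat_lit 6833068416) (nat_lit 228) (nat_lit 5024627828) (nat_lit 304) (nat_lit 60478323) (nat_lit 93) (nat_lit 5) (nat_lit 96) (nat_lit 5) (nat_lit 97) (nat_lit 4) (nat_lit 484) (nat_lit 344) (nat_lit 312))))) (XT.nd (nat_lit 156) (nat_lit 608) (nat_lit 0) (XT.nd (nat_lit 78) (nat_lit 228) (nat_lit 0) (XT.lf (nat_lit 0) (nat_lit 5090867494) (nat_lit 304) (nat_lit 6872300557) (nat_lit 76) (nat_lit 76320189) (nat_lit 89) (nat_lit 5) (nat_lit 93) (nat_lit 5) (nat_lit 90) (nat_lit 4) (nat_lit 485) (nat_lit 344) (nat_lit 311)) (XT.lf (nat_lit 0) (nat_lit 3436565246) (nat_lit 228) (nat_lit 6938273349) (nat_lit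 304) (nat_lit 1787773434) (nat_lit 86) (nat_lit 5) (nat_lit 89) (nat_lit 5) (nat_lit 90) (nat_lit 4) (nat_lit 486) (nat_lit 344) (nat_lit 310))) (XT.nd (nat_lit 78) (nat_lit 304) (nat_lit 0) (XT.lf (nat_lit 0) (nat_lit 1650649972) (nat_lit 228) (nat_lit 1777753175) (nat_lit 304) (nat_lit 8859389647) (nat_lit 82) (nat_lit 5) (nat_lit 85) (nat_lit 5) (nat_lit 86) (nat_lit 5) (nat_lit 487) (nat_lit 344) (nat_lit 309)) (XT.nd (nat_lit 78) (nat_lit 304) (nat_lit 0) (XT.lf (nat_lit 0) (nat_lit 8747315774) (nat_lit 304) (nat_lit 201798968) (nat_lit 76) (nat_lit 3465679074) (nat_lit 82) (nat_lit 5) (nat_lit 86) (nat_lit 5) (nat_lit 83) (nat_lit 4) (nat_lit 488) (nat_lit 344) (nat_lit 308)) (XT.lf (nat_lit 0) (nat_lit 1628685048) (nat_lit 304) (nat_lit 2090624039) (nat_lit 76) (nat_lit 8824378968) (nat_lit 78) (nat_lit 5) (nat_lit 82) (nat_lit 5) (nat_lit 79) (nat_lit 5) (nat_lit 489) (nat_lit 344) (nat_lit 307)))))) (XT.nd (nat_lit 390) (nat_lit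 912) (nat_lit 0) (XT.nd (nat_lit 156) (nat_lit 760) (nat_lit 0) (XT.nd (nat_lit 78) (nat_lit 152) (nat_lit 0) (XT.lf (nat_lit 0) (nat_lit 6991860007) (nat_lit 304) (nat_lit 4051663779) (nat_lit 76) (nat_lit 1630947629) (nat_lit 75) (nat_lit 5) (nat_lit 79) (nat_lit 5) (nat_lit 76) (nat_lit 4) (nat_lit 490) (nat_lit 344) (nat_lit 306)) (XT.lf (nat_lit 0) (nat_lit 6730826577) (nat_lit 152) (nat_lit 5756098899) (nat_lit 228) (nat_lit 320452426) (nat_lit 73) (nat_lit 5) (nat_lit 75) (nat_lit 5) (nat_lit 76) (nat_lit 4) (nat_lit 491) (nat_lit 344) (nat_lit 305))) (XT.nd (nat_lit 78) (nat_lit 456) (nat_lit 0) (XT.lf (nat_lit 0) (nat_lit 4766324445) (nat_lit 228) (nat_lit 315666913) (nat_lit 304) (nat_lit 7860271133) (nat_lit 69) (nat_lit 5) (nat_lit 72) (nat_lit 5) (nat_lit 73) (nat_lit 5) (nat_lit 492) (nat_lit 344) (nat_lit 304)) (XT.nd (nat_lit 78) (nat_lit 304) (nat_lit 0) (XT.lf (nat_lit 0) (nat_lit 2724531000) (nat_lit 152) (nat_lit 7898800120)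 (nat_lit 228) (nat_lit 2455768529) (nat_lit 67) (nat_lit 5) (nat_lit 69) (nat_lit 5) (nat_lit 70) (nat_lit 4) (nat_lit 493) (nat_lit 344) (nat_lit 303)) (XT.lf (nat_lit 0) (nat_lit 617755486) (nat_lit 228) (nat_lit 2402803657) (nat_lit 304) (nat_lit 10197640952) (nat_lit 63) (nat_lit 5) (nat_lit 66) (nat_lit 5) (nat_lit 67) (nat_lit 5) (nat_lit 494) (nat_lit 344) (nat_lit 302))))) (XT.nd (nat_lit 156) (nat_lit 684) (nat_lit 0) (XT.nd (nat_lit 78) (nat_lit 228) (nat_lit 0) (XT.lf (nat_lit 0) (nat_lit 8606951495) (nat_lit 304) (nat_lit 1550786376) (nat_lit 76) (nat_lit 3201351610) (nat_lit 63) (nat_lit 5) (nat_lit 67) (nat_lit 5) (nat_lit 64) (nat_lit 4) (nat_lit 495) (nat_lit 344) (nat_lit 301)) (XT.lf (nat_lit 0) (nat_lit 814758220) (nat_lit 228) (nat_lit 3778558029) (nat_lit 76) (nat_lit 8908916122) (nat_lit 60) (nat_lit 5) (nat_lit 63) (nat_lit 5) (nat_lit 61) (nat_lit 5) (nat_lit 496) (nat_lit 344) (nat_lit 300))) (XT.nd (nat_lit 78)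 (nat_lit 456) (nat_lit 0) (XT.lf (nat_lit 0) (nat_lit 6440167651) (nat_lit 304) (nat_lit 6093103176) (nat_lit 76) (nat_lit 1114122931) (nat_lit 57) (nat_lit 5) (nat_lit 61) (nat_lit 5) (nat_lit 58) (nat_lit 4) (nat_lit 497) (nat_lit 344) (nat_lit 299)) (XT.nd (nat_lit 78) (nat_lit 304) (nat_lit 0) (XT.lf (nat_lit 0) (nat_lit 5306448702) (nat_lit 152) (nat_lit 6906019360) (nat_lit 228) (nat_lit 1582302657) (nat_lit 55) (nat_lit 5) (nat_lit 57) (nat_lit 5) (nat_lit 58) (nat_lit 4) (nat_lit 498) (nat_lit 344) (nat_lit 298)) (XT.lf (nat_lit 0) (nat_lit 2981470034) (nat_lit 228) (nat_lit 1123725271) (nat_lit 304) (nat_lit 9839268933) (nat_lit 51) (nat_lit 5) (nat_lit 54) (nat_lit 5) (nat_lit 55) (nat_lit 5) (nat_lit 499) (nat_lit 344) (nat_lit 297))))))) (XT.nd (nat_lit 858) (nat_lit 380) (nat_lit 0) (XT.nd (nat_lit 390) (nat_lit 760) (nat_lit 0) (XT.nd (nat_lit 156) (nat_lit 608) (nat_lit 0) (XT.nd (nat_lit 78) (nat_lit 76) (nat_lit 0) (XT.lf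 (nat_lit 0) (nat_lit 562405234) (nat_lit 152) (nat_lit 9359045428) (nat_lit 228) (nat_lit 4174767896) (nat_lit 49) (nat_lit 5) (nat_lit 51) (nat_lit 5) (nat_lit 52) (nat_lit 4) (nat_lit 500) (nat_lit 344) (nat_lit 296)) (XT.lf (nat_lit 0) (nat_lit 1607747616) (nat_lit 228) (nat_lit 1903843399) (nat_lit 76) (nat_lit 10738693824) (nat_lit 48) (nat_lit 5) (nat_lit 51) (nat_lit 5) (nat_lit 49) (nat_lit 5) (nat_lit 501) (nat_lit 344) (nat_lit 295))) (XT.nd (nat_lit 78) (nat_lit 380) (nat_lit 0) (XT.lf (nat_lit 0) (nat_lit 7476319517) (nat_lit 304) (nat_lit 4462070337) (nat_lit 76) (nat_lit 2467964563) (nat_lit 45) (nat_lit 5) (nat_lit 49) (nat_lit 5) (nat_lit 46) (nat_lit 4) (nat_lit 502) (nat_lit 344) (nat_lit 294)) (XT.nd (nat_lit 78) (nat_lit 228) (nat_lit 0) (XT.lf (nat_lit 0) (nat_lit 7463441667) (nat_lit 152) (nat_lit 6028862274) (nat_lit 228) (nat_lit 1072640625) (nat_lit 43) (nat_lit 5) (nat_lit 45) (nat_lit 5) (nat_lit 46) (nat_lit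 4) (nat_lit 503) (nat_lit 344) (nat_lit 293)) (XT.lf (nat_lit 0) (nat_lit 4845359423) (nat_lit 228) (nat_lit 9833297716) (nat_lit 76) (nat_lit 47257905) (nat_lit 40) (nat_lit 5) (nat_lit 43) (nat_lit 5) (nat_lit 41) (nat_lit 4) (nat_lit 504) (nat_lit 344) (nat_lit 292))))) (XT.nd (nat_lit 156) (nat_lit 532) (nat_lit 0) (XT.nd (nat_lit 78) (nat_lit 76) (nat_lit 0) (XT.lf (nat_lit 0) (nat_lit 2214256979) (nat_lit 152) (nat_lit 8701028823) (nat_lit 228) (nat_lit 3973718747) (nat_lit 38) (nat_lit 5) (nat_lit 40) (nat_lit 5) (nat_lit 41) (nat_lit 4) (nat_lit 505) (nat_lit 344) (nat_lit 291)) (XT.lf (nat_lit 0) (nat_lit 2036474420) (nat_lit 228) (nat_lit 532960414) (nat_lit 76) (nat_lit 12485412206) (nat_lit 37) (nat_lit 5) (nat_lit 40) (nat_lit 5) (nat_lit 38) (nat_lit 5) (nat_lit 506) (nat_lit 344) (nat_lit 290))) (XT.nd (nat_lit 78) (nat_lit 380) (nat_lit 0) (XT.lf (nat_lit 0) (nat_lit 8161932397) (nat_lit 228) (nat_lit 3365372336) (nat_lit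 76) (nat_lit 3695210941) (nat_lit 35) (nat_lit 5) (nat_lit 38) (nat_lit 5) (nat_lit 36) (nat_lit 4) (nat_lit 507) (nat_lit 344) (nat_lit 289)) (XT.nd (nat_lit 78) (nat_lit 228) (nat_lit 0) (XT.lf (nat_lit 0) (nat_lit 9111925364) (nat_lit 152) (nat_lit 5324621052) (nat_lit 228) (nat_lit 956458327) (nat_lit 33) (nat_lit 5) (nat_lit 35) (nat_lit 5) (nat_lit 36) (nat_lit 4) (nat_lit 508) (nat_lit 344) (nat_lit 288)) (XT.lf (nat_lit 0) (nat_lit 5217827726) (nat_lit 228) (nat_lit 9306507583) (nat_lit 76) (nat_lit 1041540144) (nat_lit 30) (nat_lit 5) (nat_lit 33) (nat_lit 5) (nat_lit 31) (nat_lit 4) (nat_lit 509) (nat_lit 344) (nat_lit 287)))))) (XT.nd (nat_lit 54912) (nat_lit 0) (nat_lit 12616) (XT.nd (nat_lit 54678) (nat_lit 0) (nat_lit 14972) (XT.nd (nat_lit 54600) (nat_lit 0) (nat_lit 16492) (XT.lf (nat_lit 0) (nat_lit 248294356) (nat_lit 152) (nat_lit 1822579748) (nat_lit 228) (nat_lit 13848563297) (nat_lit 25) (nat_lit 5) (nat_lit 27)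 (nat_lit 5) (nat_lit 28) (nat_lit 5) (nat_lit 511) (nat_lit 344) (nat_lit 285)) (XT.lf (nat_lit 0) (nat_lit 1384428070) (nat_lit 532) (nat_lit 1620780530) (nat_lit 0) (nat_lit 1384428070) (nat_lit 242) (nat_lit 5) (nat_lit 249) (nat_lit 4) (nat_lit 242) (nat_lit 4) (nat_lit 450) (nat_lit 345) (nat_lit 345))) (XT.nd (nat_lit 78) (nat_lit 988) (nat_lit 0) (XT.lf (nat_lit 0) (nat_lit 4600440712) (nat_lit 532) (nat_lit 2604841811) (nat_lit 532) (nat_lit 1642319850) (nat_lit 235) (nat_lit 4) (nat_lit 242) (nat_lit 5) (nat_lit 242) (nat_lit 4) (nat_lit 451) (nat_lit 345) (nat_lit 344)) (XT.nd (nat_lit 78) (nat_lit 456) (nat_lit 0) (XT.lf (nat_lit 0) (nat_lit 2757072252) (nat_lit 532) (nat_lit 5271966677) (nat_lit 0) (nat_lit 888277210) (nat_lit 228) (nat_lit 5) (nat_lit 235) (nat_lit 4) (nat_lit 228) (nat_lit 4) (nat_lit 452) (nat_lit 345) (nat_lit 343)) (XT.lf (nat_lit 0) (nat_lit 2667073048) (nat_lit 456) (nat_lit 4548536025) (nat_lit 456)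 (nat_lit 1772735042) (nat_lit 222) (nat_lit 4) (nat_lit 228) (nat_lit 5) (nat_lit 228) (nat_lit 4) (nat_lit 453) (nat_lit 345) (nat_lit 342))))) (XT.nd (nat_lit 234) (nat_lit 1292) (nat_lit 0) (XT.nd (nat_lit 78) (nat_lit 532) (nat_lit 0) (XT.lf (nat_lit 0) (nat_lit 1675204714) (nat_lit 456) (nat_lit 968472121) (nat_lit 532) (nat_lit 6417232945) (nat_lit 215) (nat_lit 5) (nat_lit 221) (nat_lit 5) (nat_lit 222) (nat_lit 4) (nat_lit 454) (nat_lit 345) (nat_lit 341)) (XT.nd (nat_lit 78) (nat_lit 76) (nat_lit 0) (XT.lf (nat_lit 0) (nat_lit 656670201) (nat_lit 456) (nat_lit 6462986961) (nat_lit 456) (nat_lit 2015135698) (nat_lit 209) (nat_lit 4) (nat_lit 215) (nat_lit 5) (nat_lit 215) (nat_lit 4) (nat_lit 455) (nat_lit 345) (nat_lit 340)) (XT.lf (nat_lit 0) (nat_lit 2429641844) (nat_lit 532) (nat_lit 377908027) (nat_lit 76) (nat_lit 6402540374) (nat_lit 208) (nat_lit 5) (nat_lit 215) (nat_lit 5) (nat_lit 209) (nat_lit 4) (nat_lit 456) (nat_lit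 345) (nat_lit 339)))) (XT.nd (nat_lit 78) (nat_lit 912) (nat_lit 0) (XT.lf (nat_lit 0) (nat_lit 6925781016) (nat_lit 456) (nat_lit 1422813210) (nat_lit 0) (nat_lit 938243977) (nat_lit 203) (nat_lit 5) (nat_lit 209) (nat_lit 4) (nat_lit 203) (nat_lit 4) (nat_lit 457) (nat_lit 345) (nat_lit 338)) (XT.nd (nat_lit 78) (nat_lit 380) (nat_lit 0) (XT.lf (nat_lit 0) (nat_lit 2116938100) (nat_lit 532) (nat_lit 2500925330) (nat_lit 76) (nat_lit 4747011512) (nat_lit 196) (nat_lit 5) (nat_lit 203) (nat_lit 5) (nat_lit 197) (nat_lit 4) (nat_lit 458) (nat_lit 345) (nat_lit 337)) (XT.lf (nat_lit 0) (nat_lit 5847951345) (nat_lit 380) (nat_lit 785322157) (nat_lit 456) (nat_lit 2811278887) (nat_lit 191) (nat_lit 5) (nat_lit 196) (nat_lit 5) (nat_lit 197) (nat_lit 4) (nat_lit 459) (nat_lit 345) (nat_lit 336))))))))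
noncomputable def xc23 : XT := (XT.nd (nat_lit 1638) (nat_lit 4408) (nat_lit 0) (XT.nd (nat_lit 780) (nat_lit 2888) (nat_lit 0) (XT.nd (nat_lit 390) (nat_lit 1444) (nat_lit 0) (XT.nd (nat_lit 156) (nat_lit 1216) (nat_lit 0) (XT.nd (nat_lit 78) (nat_lit 380) (nat_lit 0) (XT.lf (nat_lit 0) (nat_lit 1693235058) (nat_lit 456) (nat_lit 4726923150) (nat_lit 76) (nat_lit 3105410520) (nat_lit 185) (nat_lit 5) (nat_lit 191) (nat_lit 5) (nat_lit 186) (nat_lit 4) (nat_lit 460) (nat_lit 345) (nat_lit 335)) (XT.lf (nat_lit 0) (nat_lit 3722574815) (nat_lit 380) (nat_lit 2514704461) (nat_lit 456) (nat_lit 3370812806) (nat_lit 180) (nat_lit 5) (nat_lit 185) (nat_lit 5) (nat_lit 186) (nat_lit 4) (nat_lit 461) (nat_lit 345) (nat_lit 334))) (XT.nd (nat_lit 78) (nat_lit 760) (nat_lit 0) (XT.lf (nat_lit 0) (nat_lit 1156735118) (nat_lit 456) (nat_lit 7067215960) (nat_lit 76) (nat_lit 1468316171) (nat_lit 174) (nat_lit 5) (nat_lit 180) (nat_lit 5) (nat_lit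 175) (nat_lit 4) (nat_lit 462) (nat_lit 345) (nat_lit 333)) (XT.nd (nat_lit 78) (nat_lit 456) (nat_lit 0) (XT.lf (nat_lit 0) (nat_lit 1482824752) (nat_lit 304) (nat_lit 4246899407) (nat_lit 380) (nat_lit 4047955632) (nat_lit 170) (nat_lit 5) (nat_lit 174) (nat_lit 5) (nat_lit 175) (nat_lit 4) (nat_lit 463) (nat_lit 345) (nat_lit 332)) (XT.lf (nat_lit 0) (nat_lit 330556857) (nat_lit 380) (nat_lit 175883556) (nat_lit 456) (nat_lit 9358611214) (nat_lit 164) (nat_lit 5) (nat_lit 169) (nat_lit 5) (nat_lit 170) (nat_lit 5) (nat_lit 464) (nat_lit 345) (nat_lit 331))))) (XT.nd (nat_lit 156) (nat_lit 1140) (nat_lit 0) (XT.nd (nat_lit 78) (nat_lit 304) (nat_lit 0) (XT.lf (nat_lit 0) (nat_lit 5114098716) (nat_lit 456) (nat_lit 871325990) (nat_lit 76) (nat_lit 3967883525) (nat_lit 164) (nat_lit 5) (nat_lit 170) (nat_lit 5) (nat_lit 165) (nat_lit 4) (nat_lit 465) (nat_lit 345) (nat_lit 330)) (XT.lf (nat_lit 0) (nat_lit 7964286993) (nat_lit 304) (nat_lit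 1838258107) (nat_lit 380) (nat_lit 241012168) (nat_lit 160) (nat_lit 5) (nat_lit 164) (nat_lit 5) (nat_lit 165) (nat_lit 4) (nat_lit 466) (nat_lit 345) (nat_lit 329))) (XT.nd (nat_lit 78) (nat_lit 684) (nat_lit 0) (XT.lf (nat_lit 0) (nat_lit 4392611056) (nat_lit 456) (nat_lit 3342073594) (nat_lit 76) (nat_lit 2400312632) (nat_lit 154) (nat_lit 5) (nat_lit 160) (nat_lit 5) (nat_lit 155) (nat_lit 4) (nat_lit 467) (nat_lit 345) (nat_lit 328)) (XT.nd (nat_lit 78) (nat_lit 380) (nat_lit 0) (XT.lf (nat_lit 0) (nat_lit 5597714751) (nat_lit 304) (nat_lit 3516781914) (nat_lit 380) (nat_lit 1113761229) (nat_lit 150) (nat_lit 5) (nat_lit 154) (nat_lit 5) (nat_lit 155) (nat_lit 4) (nat_lit 468) (nat_lit 345) (nat_lit 327)) (XT.lf (nat_lit 0) (nat_lit 3552789866) (nat_lit 380) (nat_lit 5960869728) (nat_lit 76) (nat_lit 809402373) (nat_lit 145) (nat_lit 5) (nat_lit 150) (nat_lit 5) (nat_lit 146) (nat_lit 4) (nat_lit 469) (nat_lit 345) (nat_lit 326))))))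 (XT.nd (nat_lit 390) (nat_lit 1520) (nat_lit 0) (XT.nd (nat_lit 156) (nat_lit 684) (nat_lit 0) (XT.nd (nat_lit 78) (nat_lit 380) (nat_lit 0) (XT.lf (nat_lit 0) (nat_lit 3082912064) (nat_lit 304) (nat_lit 5226158433) (nat_lit 380) (nat_lit 2110318147) (nat_lit 141) (nat_lit 5) (nat_lit 145) (nat_lit 5) (nat_lit 146) (nat_lit 4) (nat_lit 470) (nat_lit 345) (nat_lit 325)) (XT.lf (nat_lit 0) (nat_lit 1772139721) (nat_lit 304) (nat_lit 824665620) (nat_lit 380) (nat_lit 7920720700) (nat_lit 136) (nat_lit 5) (nat_lit 140) (nat_lit 5) (nat_lit 141) (nat_lit 5) (nat_lit 471) (nat_lit 345) (nat_lit 324))) (XT.nd (nat_lit 78) (nat_lit 380) (nat_lit 0) (XT.lf (nat_lit 0) (nat_lit 407488354) (nat_lit 304) (nat_lit 6975497738) (nat_lit 380) (nat_lit 3234097671) (nat_lit 132) (nat_lit 5) (nat_lit 136) (nat_lit 5) (nat_lit 137) (nat_lit 4) (nat_lit 472) (nat_lit 345) (nat_lit 323)) (XT.nd (nat_lit 78) (nat_lit 304) (nat_lit 0) (XT.lf (nat_lit 0) (nat_lit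 1527801421) (nat_lit 380) (nat_lit 977015364) (nat_lit 76) (nat_lit 8213578607) (nat_lit 131) (nat_lit 5) (nat_lit 136) (nat_lit 5) (nat_lit 132) (nat_lit 5) (nat_lit 473) (nat_lit 345) (nat_lit 322)) (XT.lf (nat_lit 0) (nat_lit 6348471623) (nat_lit 380) (nat_lit 2409274470) (nat_lit 76) (nat_lit 2063422858) (nat_lit 127) (nat_lit 5) (nat_lit 132) (nat_lit 5) (nat_lit 128) (nat_lit 4) (nat_lit 474) (nat_lit 345) (nat_lit 321))))) (XT.nd (nat_lit 234) (nat_lit 684) (nat_lit 0) (XT.nd (nat_lit 78) (nat_lit 532) (nat_lit 0) (XT.lf (nat_lit 0) (nat_lit 342884727) (nat_lit 304) (nat_lit 3880164224) (nat_lit 76) (nat_lit 6702749321) (nat_lit 123) (nat_lit 5) (nat_lit 127) (nat_lit 5) (nat_lit 124) (nat_lit 5) (nat_lit 475) (nat_lit 345) (nat_lit 320)) (XT.nd (nat_lit 78) (nat_lit 228) (nat_lit 0) (XT.lf (nat_lit 0) (nat_lit 5189565568) (nat_lit 380) (nat_lit 5404712864) (nat_lit 76) (nat_lit 437756926) (nat_lit 119) (nat_lit 5) (nat_lit 124)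 (nat_lit 5) (nat_lit 120) (nat_lit 4) (nat_lit 476) (nat_lit 345) (nat_lit 319)) (XT.lf (nat_lit 0) (nat_lit 4159890747) (nat_lit 228) (nat_lit 5993636300) (nat_lit 304) (nat_lit 986463198) (nat_lit 116) (nat_lit 5) (nat_lit 119) (nat_lit 5) (nat_lit 120) (nat_lit 4) (nat_lit 477) (nat_lit 345) (nat_lit 318)))) (XT.nd (nat_lit 78) (nat_lit 304) (nat_lit 0) (XT.lf (nat_lit 0) (nat_lit 2644024505) (nat_lit 304) (nat_lit 1263572932) (nat_lit 380) (nat_lit 7342132560) (nat_lit 111) (nat_lit 5) (nat_lit 115) (nat_lit 5) (nat_lit 116) (nat_lit 5) (nat_lit 478) (nat_lit 345) (nat_lit 317)) (XT.nd (nat_lit 78) (nat_lit 76) (nat_lit 0) (XT.lf (nat_lit 0) (nat_lit 1074079621) (nat_lit 228) (nat_lit 7829025809) (nat_lit 304) (nat_lit 2458093206) (nat_lit 108) (nat_lit 5) (nat_lit 111) (nat_lit 5) (nat_lit 112) (nat_lit 4) (nat_lit 479) (nat_lit 345) (nat_lit 316)) (XT.lf (nat_lit 0) (nat_lit 2496660335) (nat_lit 304) (nat_lit 539441929) (nat_lit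 76) (nat_lit 8438344059) (nat_lit 107) (nat_lit 5) (nat_lit 111) (nat_lit 5) (nat_lit 108) (nat_lit 5) (nat_lit 480) (nat_lit 345) (nat_lit 315))))))) (XT.nd (nat_lit 780) (nat_lit 1976) (nat_lit 0) (XT.nd (nat_lit 390) (nat_lit 1064) (nat_lit 0) (XT.nd (nat_lit 156) (nat_lit 760) (nat_lit 0) (XT.nd (nat_lit 78) (nat_lit 304) (nat_lit 0) (XT.lf (nat_lit 0) (nat_lit 7531781382) (nat_lit 380) (nat_lit 2194186617) (nat_lit 76) (nat_lit 1863382277) (nat_lit 103) (nat_lit 5) (nat_lit 108) (nat_lit 5) (nat_lit 104) (nat_lit 4) (nat_lit 481) (nat_lit 345) (nat_lit 314)) (XT.lf (nat_lit 0) (nat_lit 964033998) (nat_lit 304) (nat_lit 3903851824) (nat_lit 76) (nat_lit 6838229975) (nat_lit 99) (nat_lit 5) (nat_lit 103) (nat_lit 5) (nat_lit 100) (nat_lit 5) (nat_lit 482) (nat_lit 345) (nat_lit 313))) (XT.nd (nat_lit 78) (nat_lit 532) (nat_lit 0) (XT.lf (nat_lit 0) (nat_lit 6028528671) (nat_lit 304) (nat_lit 5671321436) (nat_lit 76) (nat_lit 124894299)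 (nat_lit 96) (nat_lit 5) (nat_lit 100) (nat_lit 5) (nat_lit 97) (nat_lit 4) (nat_lit 483) (nat_lit 345) (nat_lit 312)) (XT.nd (nat_lit 78) (nat_lit 304) (nat_lit 0) (XT.lf (nat_lit 0) (nat_lit 4442235283) (nat_lit 228) (nat_lit 6780871940) (nat_lit 304) (nat_lit 722062484) (nat_lit 93) (nat_lit 5) (nat_lit 96) (nat_lit 5) (nat_lit 97) (nat_lit 4) (nat_lit 484) (nat_lit 345) (nat_lit 311)) (XT.lf (nat_lit 0) (nat_lit 2670297688) (nat_lit 228) (nat_lit 1721957198) (nat_lit 304) (nat_lit 7675228509) (nat_lit 89) (nat_lit 5) (nat_lit 92) (nat_lit 5) (nat_lit 93) (nat_lit 5) (nat_lit 485) (nat_lit 345) (nat_lit 310))))) (XT.nd (nat_lit 156) (nat_lit 760) (nat_lit 0) (XT.nd (nat_lit 78) (nat_lit 76) (nat_lit 0) (XT.lf (nat_lit 0) (nat_lit 837562685) (nat_lit 228) (nat_lit 8781716098) (nat_lit 304) (nat_lit 2572467344) (nat_lit 86) (nat_lit 5) (nat_lit 89) (nat_lit 5) (nat_lit 90) (nat_lit 4) (nat_lit 486) (nat_lit 345) (nat_lit 309)) (XT.lf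 (nat_lit 0) (nat_lit 2614437294) (nat_lit 304) (nat_lit 1045298052) (nat_lit 76) (nat_lit 8658084708) (nat_lit 85) (nat_lit 5) (nat_lit 89) (nat_lit 5) (nat_lit 86) (nat_lit 5) (nat_lit 487) (nat_lit 345) (nat_lit 308))) (XT.nd (nat_lit 78) (nat_lit 532) (nat_lit 0) (XT.lf (nat_lit 0) (nat_lit 7885452268) (nat_lit 304) (nat_lit 2980886341) (nat_lit 76) (nat_lit 1579440421) (nat_lit 82) (nat_lit 5) (nat_lit 86) (nat_lit 5) (nat_lit 83) (nat_lit 4) (nat_lit 488) (nat_lit 345) (nat_lit 307)) (XT.nd (nat_lit 78) (nat_lit 228) (nat_lit 0) (XT.lf (nat_lit 0) (nat_lit 700429332) (nat_lit 304) (nat_lit 4983468319) (nat_lit 76) (nat_lit 6891833893) (nat_lit 78) (nat_lit 5) (nat_lit 82) (nat_lit 5) (nat_lit 79) (nat_lit 5) (nat_lit 489) (nat_lit 345) (nat_lit 306)) (XT.lf (nat_lit 0) (nat_lit 5651410132) (nat_lit 228) (nat_lit 353951569) (nat_lit 304) (nat_lit 6702318056) (nat_lit 75) (nat_lit 5) (nat_lit 78) (nat_lit 5) (nat_lit 79) (nat_lit 5)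 (nat_lit 490) (nat_lit 345) (nat_lit 305)))))) (XT.nd (nat_lit 390) (nat_lit 1064) (nat_lit 0) (XT.nd (nat_lit 156) (nat_lit 456) (nat_lit 0) (XT.nd (nat_lit 78) (nat_lit 304) (nat_lit 0) (XT.lf (nat_lit 0) (nat_lit 3637481967) (nat_lit 152) (nat_lit 7812497034) (nat_lit 228) (nat_lit 1391616206) (nat_lit 73) (nat_lit 5) (nat_lit 75) (nat_lit 5) (nat_lit 76) (nat_lit 4) (nat_lit 491) (nat_lit 345) (nat_lit 304)) (XT.lf (nat_lit 0) (nat_lit 1553067284) (nat_lit 228) (nat_lit 2422920593) (nat_lit 304) (nat_lit 9001608778) (nat_lit 69) (nat_lit 5) (nat_lit 72) (nat_lit 5) (nat_lit 73) (nat_lit 5) (nat_lit 492) (nat_lit 345) (nat_lit 303))) (XT.nd (nat_lit 78) (nat_lit 456) (nat_lit 0) (XT.lf (nat_lit 0) (nat_lit 9458009365) (nat_lit 304) (nat_lit 596697344) (nat_lit 76) (nat_lit 3060913469) (nat_lit 69) (nat_lit 5) (nat_lit 73) (nat_lit 5) (nat_lit 70) (nat_lit 4) (nat_lit 493) (nat_lit 345) (nat_lit 302)) (XT.nd (nat_lit 78) (nat_lit 228)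 (nat_lit 0) (XT.lf (nat_lit 0) (nat_lit 1798607692) (nat_lit 228) (nat_lit 2798898602) (nat_lit 76) (nat_lit 8658087825) (nat_lit 66) (nat_lit 5) (nat_lit 69) (nat_lit 5) (nat_lit 67) (nat_lit 5) (nat_lit 494) (nat_lit 345) (nat_lit 301)) (XT.lf (nat_lit 0) (nat_lit 7324379758) (nat_lit 304) (nat_lit 5078725291) (nat_lit 76) (nat_lit 994590859) (nat_lit 63) (nat_lit 5) (nat_lit 67) (nat_lit 5) (nat_lit 64) (nat_lit 4) (nat_lit 495) (nat_lit 345) (nat_lit 300))))) (XT.nd (nat_lit 234) (nat_lit 456) (nat_lit 0) (XT.nd (nat_lit 78) (nat_lit 456) (nat_lit 0) (XT.lf (nat_lit 0) (nat_lit 6103953922) (nat_lit 152) (nat_lit 6890573440) (nat_lit 228) (nat_lit 547435171) (nat_lit 61) (nat_lit 5) (nat_lit 63) (nat_lit 5) (nat_lit 64) (nat_lit 4) (nat_lit 496) (nat_lit 345) (nat_lit 299)) (XT.nd (nat_lit 78) (nat_lit 152) (nat_lit 0) (XT.lf (nat_lit 0) (nat_lit 3806885556) (nat_lit 228) (nat_lit 1219305388) (nat_lit 304) (nat_lit 8662183323) (nat_lit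 57) (nat_lit 5) (nat_lit 60) (nat_lit 5) (nat_lit 61) (nat_lit 5) (nat_lit 497) (nat_lit 345) (nat_lit 298)) (XT.lf (nat_lit 0) (nat_lit 1425269855) (nat_lit 152) (nat_lit 9312920013) (nat_lit 228) (nat_lit 3098767389) (nat_lit 55) (nat_lit 5) (nat_lit 57) (nat_lit 5) (nat_lit 58) (nat_lit 4) (nat_lit 498) (nat_lit 345) (nat_lit 297)))) (XT.nd (nat_lit 78) (nat_lit 380) (nat_lit 0) (XT.lf (nat_lit 0) (nat_lit 2562109002) (nat_lit 228) (nat_lit 1020992625) (nat_lit 76) (nat_lit 10404676272) (nat_lit 54) (nat_lit 5) (nat_lit 57) (nat_lit 5) (nat_lit 55) (nat_lit 5) (nat_lit 499) (nat_lit 345) (nat_lit 296)) (XT.nd (nat_lit 78) (nat_lit 152) (nat_lit 0) (XT.lf (nat_lit 0) (nat_lit 8324895199) (nat_lit 304) (nat_lit 3538342584) (nat_lit 76) (nat_lit 2277363820) (nat_lit 51) (nat_lit 5) (nat_lit 55) (nat_lit 5) (nat_lit 52) (nat_lit 4) (nat_lit 500) (nat_lit 345) (nat_lit 295)) (XT.lf (nat_lit 0) (nat_lit 8159883023) (nat_lit 152) (nat_lit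 6073014112) (nat_lit 228) (nat_lit 62985446) (nat_lit 49) (nat_lit 5) (nat_lit 51) (nat_lit 5) (nat_lit 52) (nat_lit 4) (nat_lit 501) (nat_lit 345) (nat_lit 294))))))))
noncomputable def xc24 : XT := (XT.nd (nat_lit 56004) (nat_lit 0) (nat_lit 6308) (XT.nd (nat_lit 55224) (nat_lit 0) (nat_lit 12768) (XT.nd (nat_lit 390) (nat_lit 684) (nat_lit 0) (XT.nd (nat_lit 156) (nat_lit 456) (nat_lit 0) (XT.nd (nat_lit 78) (nat_lit 152) (nat_lit 0) (XT.lf (nat_lit 0) (nat_lit 5623252749) (nat_lit 228) (nat_lit 112234201) (nat_lit 304) (nat_lit 8717891898) (nat_lit 45) (nat_lit 5) (nat_lit 48) (nat_lit 5) (nat_lit 49) (nat_lit 5) (nat_lit 502) (nat_lit 345) (nat_lit 293)) (XT.lf (nat_lit 0) (nat_lit 2988407085) (nat_lit 152) (nat_lit 8706813750) (nat_lit 228) (nat_lit 2917873172) (nat_lit 43) (nat_lit 5) (nat_lit 45) (nat_lit 5) (nat_lit 46) (nat_lit 4) (nat_lit 503) (nat_lit 345) (nat_lit 292))) (XT.nd (nat_lit 78) (nat_lit 228) (nat_lit 0) (XT.lf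 (nat_lit 0) (nat_lit 272082090) (nat_lit 152) (nat_lit 2695494720) (nat_lit 228) (nat_lit 11807862297) (nat_lit 40) (nat_lit 5) (nat_lit 42) (nat_lit 5) (nat_lit 43) (nat_lit 5) (nat_lit 504) (nat_lit 345) (nat_lit 291)) (XT.nd (nat_lit 78) (nat_lit 228) (nat_lit 0) (XT.lf (nat_lit 0) (nat_lit 8979243802) (nat_lit 228) (nat_lit 2516443319) (nat_lit 76) (nat_lit 3444006679) (nat_lit 40) (nat_lit 5) (nat_lit 43) (nat_lit 5) (nat_lit 41) (nat_lit 4) (nat_lit 505) (nat_lit 345) (nat_lit 290)) (XT.lf (nat_lit 0) (nat_lit 32779500) (nat_lit 228) (nat_lit 5384243229) (nat_lit 76) (nat_lit 9689631946) (nat_lit 37) (nat_lit 5) (nat_lit 40) (nat_lit 5) (nat_lit 38) (nat_lit 5) (nat_lit 506) (nat_lit 345) (nat_lit 289))))) (XT.nd (nat_lit 156) (nat_lit 380) (nat_lit 0) (XT.nd (nat_lit 78) (nat_lit 152) (nat_lit 0) (XT.lf (nat_lit 0) (nat_lit 6081319349) (nat_lit 228) (nat_lit 8364053896) (nat_lit 76) (nat_lit 830488427) (nat_lit 35) (nat_lit 5)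 (nat_lit 38) (nat_lit 5) (nat_lit 36) (nat_lit 4) (nat_lit 507) (nat_lit 345) (nat_lit 288)) (XT.lf (nat_lit 0) (nat_lit 3997955937) (nat_lit 152) (nat_lit 8298987877) (nat_lit 228) (nat_lit 3150586718) (nat_lit 33) (nat_lit 5) (nat_lit 35) (nat_lit 5) (nat_lit 36) (nat_lit 4) (nat_lit 508) (nat_lit 345) (nat_lit 287))) (XT.nd (nat_lit 156) (nat_lit 152) (nat_lit 0) (XT.lf (nat_lit 0) (nat_lit 994726924) (nat_lit 152) (nat_lit 1990908503) (nat_lit 228) (nat_lit 12636387536) (nat_lit 30) (nat_lit 5) (nat_lit 32) (nat_lit 5) (nat_lit 33) (nat_lit 5) (nat_lit 509) (nat_lit 345) (nat_lit 286)) (XT.nd (nat_lit 54444) (nat_lit 0) (nat_lit 17328) (XT.lf (nat_lit 0) (nat_lit 10703086161) (nat_lit 152) (nat_lit 4981828726) (nat_lit 228) (nat_lit 292962459) (nat_lit 28) (nat_lit 5) (nat_lit 30) (nat_lit 5) (nat_lit 31) (nat_lit 4) (nat_lit 511) (nat_lit 345) (nat_lit 284)) (XT.lf (nat_lit 0) (nat_lit 1854735443) (nat_lit 608) (nat_lit 613602437)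 (nat_lit 0) (nat_lit 1854735443) (nat_lit 256) (nat_lit 5) (nat_lit 264) (nat_lit 4) (nat_lit 256) (nat_lit 4) (nat_lit 448) (nat_lit 346) (nat_lit 346)))))) (XT.nd (nat_lit 390) (nat_lit 1976) (nat_lit 0) (XT.nd (nat_lit 156) (nat_lit 1520) (nat_lit 0) (XT.nd (nat_lit 78) (nat_lit 532) (nat_lit 0) (XT.lf (nat_lit 0) (nat_lit 6467577592) (nat_lit 532) (nat_lit 1623164738) (nat_lit 532) (nat_lit 621756890) (nat_lit 249) (nat_lit 4) (nat_lit 256) (nat_lit 5) (nat_lit 256) (nat_lit 4) (nat_lit 449) (nat_lit 346) (nat_lit 345)) (XT.lf (nat_lit 0) (nat_lit 3715543326) (nat_lit 532) (nat_lit 3293182753) (nat_lit 0) (nat_lit 1771248965) (nat_lit 242) (nat_lit 5) (nat_lit 249) (nat_lit 4) (nat_lit 242) (nat_lit 4) (nat_lit 450) (nat_lit 346) (nat_lit 344))) (XT.nd (nat_lit 78) (nat_lit 988) (nat_lit 0) (XT.lf (nat_lit 0) (nat_lit 4496850917) (nat_lit 532) (nat_lit 3620048950) (nat_lit 532) (nat_lit 732105607) (nat_lit 235) (nat_lit 4) (nat_lit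 242) (nat_lit 5) (nat_lit 242) (nat_lit 4) (nat_lit 451) (nat_lit 346) (nat_lit 343)) (XT.nd (nat_lit 78) (nat_lit 456) (nat_lit 0) (XT.lf (nat_lit 0) (nat_lit 3487527580) (nat_lit 456) (nat_lit 126639242) (nat_lit 532) (nat_lit 5305257864) (nat_lit 228) (nat_lit 5) (nat_lit 234) (nat_lit 5) (nat_lit 235) (nat_lit 4) (nat_lit 452) (nat_lit 346) (nat_lit 342)) (XT.lf (nat_lit 0) (nat_lit 2454203066) (nat_lit 456) (nat_lit 5582259437) (nat_lit 456) (nat_lit 954714982) (nat_lit 222) (nat_lit 4) (nat_lit 228) (nat_lit 5) (nat_lit 228) (nat_lit 4) (nat_lit 453) (nat_lit 346) (nat_lit 341))))) (XT.nd (nat_lit 156) (nat_lit 988) (nat_lit 0) (XT.nd (nat_lit 78) (nat_lit 456) (nat_lit 0) (XT.lf (nat_lit 0) (nat_lit 1399488749) (nat_lit 456) (nat_lit 2015768180) (nat_lit 532) (nat_lit 5649094228) (nat_lit 215) (nat_lit 5) (nat_lit 221) (nat_lit 5) (nat_lit 222) (nat_lit 4) (nat_lit 454) (nat_lit 346) (nat_lit 340)) (XT.lf (nat_lit 0) (nat_lit 328701625)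 (nat_lit 456) (nat_lit 7519909337) (nat_lit 456) (nat_lit 1290475802) (nat_lit 209) (nat_lit 4) (nat_lit 215) (nat_lit 5) (nat_lit 215) (nat_lit 4) (nat_lit 455) (nat_lit 346) (nat_lit 339))) (XT.nd (nat_lit 78) (nat_lit 912) (nat_lit 0) (XT.lf (nat_lit 0) (nat_lit 3111209339) (nat_lit 532) (nat_lit 766293895) (nat_lit 76) (nat_lit 5337458583) (nat_lit 208) (nat_lit 5) (nat_lit 215) (nat_lit 5) (nat_lit 209) (nat_lit 4) (nat_lit 456) (nat_lit 346) (nat_lit 338)) (XT.nd (nat_lit 78) (nat_lit 532) (nat_lit 0) (XT.lf (nat_lit 0) (nat_lit 7425693656) (nat_lit 380) (nat_lit 139665618) (nat_lit 456) (nat_lit 1727190284) (nat_lit 203) (nat_lit 5) (nat_lit 208) (nat_lit 5) (nat_lit 209) (nat_lit 4) (nat_lit 457) (nat_lit 346) (nat_lit 337)) (XT.lf (nat_lit 0) (nat_lit 2705369677) (nat_lit 532) (nat_lit 3011560441) (nat_lit 76) (nat_lit 3654316311) (nat_lit 196) (nat_lit 5) (nat_lit 203) (nat_lit 5) (nat_lit 197) (nat_lit 4) (nat_lit 458) (nat_lit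 346) (nat_lit 336))))))) (XT.nd (nat_lit 780) (nat_lit 2964) (nat_lit 0) (XT.nd (nat_lit 390) (nat_lit 1520) (nat_lit 0) (XT.nd (nat_lit 156) (nat_lit 1140) (nat_lit 0) (XT.nd (nat_lit 78) (nat_lit 456) (nat_lit 0) (XT.lf (nat_lit 0) (nat_lit 5279138299) (nat_lit 380) (nat_lit 1906251545) (nat_lit 456) (nat_lit 2266260337) (nat_lit 191) (nat_lit 5) (nat_lit 196) (nat_lit 5) (nat_lit 197) (nat_lit 4) (nat_lit 459) (nat_lit 346) (nat_lit 335)) (XT.lf (nat_lit 0) (nat_lit 2187034922) (nat_lit 456) (nat_lit 5365924720) (nat_lit 76) (nat_lit 1980517518) (nat_lit 185) (nat_lit 5) (nat_lit 191) (nat_lit 5) (nat_lit 186) (nat_lit 4) (nat_lit 460) (nat_lit 346) (nat_lit 334))) (XT.nd (nat_lit 78) (nat_lit 760) (nat_lit 0) (XT.lf (nat_lit 0) (nat_lit 3023395641) (nat_lit 380) (nat_lit 3670811735) (nat_lit 456) (nat_lit 2922530574) (nat_lit 180) (nat_lit 5) (nat_lit 185) (nat_lit 5) (nat_lit 186) (nat_lit 4) (nat_lit 461) (nat_lit 346) (nat_lit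 333)) (XT.nd (nat_lit 78) (nat_lit 304) (nat_lit 0) (XT.lf (nat_lit 0) (nat_lit 1554244013) (nat_lit 456) (nat_lit 7840866654) (nat_lit 76) (nat_lit 306642120) (nat_lit 174) (nat_lit 5) (nat_lit 180) (nat_lit 5) (nat_lit 175) (nat_lit 4) (nat_lit 462) (nat_lit 346) (nat_lit 332)) (XT.lf (nat_lit 0) (nat_lit 646930234) (nat_lit 304) (nat_lit 5442816582) (nat_lit 380) (nat_lit 3698168238) (nat_lit 170) (nat_lit 5) (nat_lit 174) (nat_lit 5) (nat_lit 175) (nat_lit 4) (nat_lit 463) (nat_lit 346) (nat_lit 331))))) (XT.nd (nat_lit 156) (nat_lit 1064) (nat_lit 0) (XT.nd (nat_lit 78) (nat_lit 380) (nat_lit 0) (XT.lf (nat_lit 0) (nat_lit 817522544) (nat_lit 380) (nat_lit 573547714) (nat_lit 76) (nat_lit 8484853565) (nat_lit 169) (nat_lit 5) (nat_lit 174) (nat_lit 5) (nat_lit 170) (nat_lit 5) (nat_lit 464) (nat_lit 346) (nat_lit 330)) (XT.lf (nat_lit 0) (nat_lit 5381691081) (nat_lit 456) (nat_lit 1837623921) (nat_lit 76) (nat_lit 2745735221) (nat_lit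 164) (nat_lit 5) (nat_lit 170) (nat_lit 5) (nat_lit 165) (nat_lit 4) (nat_lit 465) (nat_lit 346) (nat_lit 329))) (XT.nd (nat_lit 78) (nat_lit 760) (nat_lit 0) (XT.lf (nat_lit 0) (nat_lit 6933948205) (nat_lit 304) (nat_lit 3098321541) (nat_lit 380) (nat_lit 23786868) (nat_lit 160) (nat_lit 5) (nat_lit 164) (nat_lit 5) (nat_lit 165) (nat_lit 4) (nat_lit 466) (nat_lit 346) (nat_lit 328)) (XT.nd (nat_lit 78) (nat_lit 304) (nat_lit 0) (XT.lf (nat_lit 0) (nat_lit 4560340959) (nat_lit 456) (nat_lit 4456371733) (nat_lit 76) (nat_lit 1131688659) (nat_lit 154) (nat_lit 5) (nat_lit 160) (nat_lit 5) (nat_lit 155) (nat_lit 4) (nat_lit 467) (nat_lit 346) (nat_lit 327)) (XT.lf (nat_lit 0) (nat_lit 4417167936) (nat_lit 304) (nat_lit 4826453477) (nat_lit 380) (nat_lit 998812653) (nat_lit 150) (nat_lit 5) (nat_lit 154) (nat_lit 5) (nat_lit 155) (nat_lit 4) (nat_lit 468) (nat_lit 346) (nat_lit 326)))))) (XT.nd (nat_lit 390) (nat_lit 1520) (nat_lit 0) (XT.nd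 (nat_lit 156) (nat_lit 760) (nat_lit 0) (XT.nd (nat_lit 78) (nat_lit 304) (nat_lit 0) (XT.lf (nat_lit 0) (nat_lit 3104749852) (nat_lit 304) (nat_lit 517092509) (nat_lit 380) (nat_lit 6716268621) (nat_lit 145) (nat_lit 5) (nat_lit 149) (nat_lit 5) (nat_lit 150) (nat_lit 5) (nat_lit 469) (nat_lit 346) (nat_lit 325)) (XT.lf (nat_lit 0) (nat_lit 1745244529) (nat_lit 304) (nat_lit 6590119967) (nat_lit 380) (nat_lit 2099928334) (nat_lit 141) (nat_lit 5) (nat_lit 145) (nat_lit 5) (nat_lit 146) (nat_lit 4) (nat_lit 470) (nat_lit 346) (nat_lit 324))) (XT.nd (nat_lit 78) (nat_lit 380) (nat_lit 0) (XT.lf (nat_lit 0) (nat_lit 348771331) (nat_lit 304) (nat_lit 2218401732) (nat_lit 380) (nat_lit 7967053531) (nat_lit 136) (nat_lit 5) (nat_lit 140) (nat_lit 5) (nat_lit 141) (nat_lit 5) (nat_lit 471) (nat_lit 346) (nat_lit 323)) (XT.nd (nat_lit 78) (nat_lit 380) (nat_lit 0) (XT.lf (nat_lit 0) (nat_lit 7311154078) (nat_lit 380) (nat_lit 1080076673) (nat_lit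 76) (nat_lit 2243397559) (nat_lit 136) (nat_lit 5) (nat_lit 141) (nat_lit 5) (nat_lit 137) (nat_lit 4) (nat_lit 472) (nat_lit 346) (nat_lit 322)) (XT.lf (nat_lit 0) (nat_lit 1402006879) (nat_lit 380) (nat_lit 2547261866) (nat_lit 76) (nat_lit 6787434603) (nat_lit 131) (nat_lit 5) (nat_lit 136) (nat_lit 5) (nat_lit 132) (nat_lit 5) (nat_lit 473) (nat_lit 346) (nat_lit 321))))) (XT.nd (nat_lit 234) (nat_lit 608) (nat_lit 0) (XT.nd (nat_lit 78) (nat_lit 608) (nat_lit 0) (XT.lf (nat_lit 0) (nat_lit 6172593757) (nat_lit 380) (nat_lit 4060856389) (nat_lit 76) (nat_lit 607028427) (nat_lit 127) (nat_lit 5) (nat_lit 132) (nat_lit 5) (nat_lit 128) (nat_lit 4) (nat_lit 474) (nat_lit 346) (nat_lit 320)) (XT.nd (nat_lit 78) (nat_lit 304) (nat_lit 0) (XT.lf (nat_lit 0) (nat_lit 109077275) (nat_lit 304) (nat_lit 5623346090) (nat_lit 76) (nat_lit 5213533473) (nat_lit 123) (nat_lit 5) (nat_lit 127) (nat_lit 5) (nat_lit 124) (nat_lit 5) (nat_lit 475) (nat_lit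 346) (nat_lit 319)) (XT.lf (nat_lit 0) (nat_lit 3812787212) (nat_lit 304) (nat_lit 1098641416) (nat_lit 380) (nat_lit 6141651885) (nat_lit 119) (nat_lit 5) (nat_lit 123) (nat_lit 5) (nat_lit 124) (nat_lit 5) (nat_lit 476) (nat_lit 346) (nat_lit 318)))) (XT.nd (nat_lit 78) (nat_lit 380) (nat_lit 0) (XT.lf (nat_lit 0) (nat_lit 2255896337) (nat_lit 228) (nat_lit 7570470740) (nat_lit 304) (nat_lit 1335648784) (nat_lit 116) (nat_lit 5) (nat_lit 119) (nat_lit 5) (nat_lit 120) (nat_lit 4) (nat_lit 477) (nat_lit 346) (nat_lit 317)) (XT.nd (nat_lit 78) (nat_lit 0) (nat_lit 0) (XT.lf (nat_lit 0) (nat_lit 643398305) (nat_lit 304) (nat_lit 2877134749) (nat_lit 380) (nat_lit 7752117070) (nat_lit 111) (nat_lit 5) (nat_lit 115) (nat_lit 5) (nat_lit 116) (nat_lit 5) (nat_lit 478) (nat_lit 346) (nat_lit 316)) (XT.lf (nat_lit 0) (nat_lit 8469236405) (nat_lit 380) (nat_lit 1003826226) (nat_lit 76) (nat_lit 1911992226) (nat_lit 111) (nat_lit 5) (nat_lit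 116) (nat_lit 5) (nat_lit 112) (nat_lit 4) (nat_lit 479) (nat_lit 346) (nat_lit 315))))))))
noncomputable def xc25 : XT := (XT.nd (nat_lit 1560) (nat_lit 1976) (nat_lit 0) (XT.nd (nat_lit 780) (nat_lit 1900) (nat_lit 0) (XT.nd (nat_lit 390) (nat_lit 1064) (nat_lit 0) (XT.nd (nat_lit 156) (nat_lit 760) (nat_lit 0) (XT.nd (nat_lit 78) (nat_lit 304) (nat_lit 0) (XT.lf (nat_lit 0) (nat_lit 2008991185) (nat_lit 304) (nat_lit 2702465393) (nat_lit 76) (nat_lit 6787624344) (nat_lit 107) (nat_lit 5) (nat_lit 111) (nat_lit 5) (nat_lit 108) (nat_lit 5) (nat_lit 480) (nat_lit 346) (nat_lit 314)) (XT.lf (nat_lit 0) (nat_lit 6989718612) (nat_lit 380) (nat_lit 4450815309) (nat_lit 76) (nat_lit 174538826) (nat_lit 103) (nat_lit 5) (nat_lit 108) (nat_lit 5) (nat_lit 104) (nat_lit 4) (nat_lit 481) (nat_lit 346) (nat_lit 313))) (XT.nd (nat_lit 78) (nat_lit 456) (nat_lit 0) (XT.lf (nat_lit 0) (nat_lit 359611647) (nat_lit 304) (nat_lit 6263669187) (nat_lit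 76) (nat_lit 5109512838) (nat_lit 99) (nat_lit 5) (nat_lit 103) (nat_lit 5) (nat_lit 100) (nat_lit 5) (nat_lit 482) (nat_lit 346) (nat_lit 312)) (XT.nd (nat_lit 78) (nat_lit 228) (nat_lit 0) (XT.lf (nat_lit 0) (nat_lit 3712453653) (nat_lit 228) (nat_lit 1666409361) (nat_lit 304) (nat_lit 6473464132) (nat_lit 96) (nat_lit 5) (nat_lit 99) (nat_lit 5) (nat_lit 100) (nat_lit 5) (nat_lit 483) (nat_lit 346) (nat_lit 311)) (XT.lf (nat_lit 0) (nat_lit 1901110491) (nat_lit 228) (nat_lit 8616544716) (nat_lit 304) (nat_lit 1456212968) (nat_lit 93) (nat_lit 5) (nat_lit 96) (nat_lit 5) (nat_lit 97) (nat_lit 4) (nat_lit 484) (nat_lit 346) (nat_lit 310))))) (XT.nd (nat_lit 156) (nat_lit 760) (nat_lit 0) (XT.nd (nat_lit 78) (nat_lit 0) (nat_lit 0) (XT.lf (nat_lit 0) (nat_lit 20373617) (nat_lit 228) (nat_lit 3601734291) (nat_lit 304) (nat_lit 8475081786) (nat_lit 89) (nat_lit 5) (nat_lit 92) (nat_lit 5) (nat_lit 93) (nat_lit 5) (nat_lit 485) (nat_lit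 346) (nat_lit 309)) (XT.lf (nat_lit 0) (nat_lit 8803162889) (nat_lit 304) (nat_lit 1891054683) (nat_lit 76) (nat_lit 1528154232) (nat_lit 89) (nat_lit 5) (nat_lit 93) (nat_lit 5) (nat_lit 90) (nat_lit 4) (nat_lit 486) (nat_lit 346) (nat_lit 308))) (XT.nd (nat_lit 78) (nat_lit 456) (nat_lit 0) (XT.lf (nat_lit 0) (nat_lit 1737996730) (nat_lit 304) (nat_lit 3874593543) (nat_lit 76) (nat_lit 6736781495) (nat_lit 85) (nat_lit 5) (nat_lit 89) (nat_lit 5) (nat_lit 86) (nat_lit 5) (nat_lit 487) (nat_lit 346) (nat_lit 307)) (XT.nd (nat_lit 78) (nat_lit 228) (nat_lit 0) (XT.lf (nat_lit 0) (nat_lit 6558674337) (nat_lit 228) (nat_lit 393282302) (nat_lit 304) (nat_lit 5526515205) (nat_lit 82) (nat_lit 5) (nat_lit 85) (nat_lit 5) (nat_lit 86) (nat_lit 5) (nat_lit 488) (nat_lit 346) (nat_lit 306)) (XT.lf (nat_lit 0) (nat_lit 4571573410) (nat_lit 228) (nat_lit 7730656610) (nat_lit 304) (nat_lit 307283215) (nat_lit 79) (nat_lit 5) (nat_lit 82) (nat_lit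 5) (nat_lit 83) (nat_lit 4) (nat_lit 489) (nat_lit 346) (nat_lit 305)))))) (XT.nd (nat_lit 390) (nat_lit 912) (nat_lit 0) (XT.nd (nat_lit 156) (nat_lit 532) (nat_lit 0) (XT.nd (nat_lit 78) (nat_lit 152) (nat_lit 0) (XT.lf (nat_lit 0) (nat_lit 2508315591) (nat_lit 228) (nat_lit 2445359201) (nat_lit 304) (nat_lit 7788786646) (nat_lit 75) (nat_lit 5) (nat_lit 78) (nat_lit 5) (nat_lit 79) (nat_lit 5) (nat_lit 490) (nat_lit 346) (nat_lit 304)) (XT.lf (nat_lit 0) (nat_lit 380997642) (nat_lit 152) (nat_lit 9955056667) (nat_lit 228) (nat_lit 2541567335) (nat_lit 73) (nat_lit 5) (nat_lit 75) (nat_lit 5) (nat_lit 76) (nat_lit 4) (nat_lit 491) (nat_lit 346) (nat_lit 303))) (XT.nd (nat_lit 78) (nat_lit 456) (nat_lit 0) (XT.lf (nat_lit 0) (nat_lit 2803558932) (nat_lit 228) (nat_lit 1801863152) (nat_lit 76) (nat_lit 8409101525) (nat_lit 72) (nat_lit 5) (nat_lit 75) (nat_lit 5) (nat_lit 73) (nat_lit 5) (nat_lit 492) (nat_lit 346) (nat_lit 302)) (XT.nd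 (nat_lit 78) (nat_lit 228) (nat_lit 0) (XT.lf (nat_lit 0) (nat_lit 8232078164) (nat_lit 304) (nat_lit 4048082995) (nat_lit 76) (nat_lit 873456018) (nat_lit 69) (nat_lit 5) (nat_lit 73) (nat_lit 5) (nat_lit 70) (nat_lit 4) (nat_lit 493) (nat_lit 346) (nat_lit 301)) (XT.lf (nat_lit 0) (nat_lit 501037485) (nat_lit 228) (nat_lit 6375877306) (nat_lit 76) (nat_lit 6417844824) (nat_lit 66) (nat_lit 5) (nat_lit 69) (nat_lit 5) (nat_lit 67) (nat_lit 5) (nat_lit 494) (nat_lit 346) (nat_lit 300))))) (XT.nd (nat_lit 156) (nat_lit 532) (nat_lit 0) (XT.nd (nat_lit 78) (nat_lit 152) (nat_lit 0) (XT.lf (nat_lit 0) (nat_lit 4651825040) (nat_lit 228) (nat_lit 1317762988) (nat_lit 304) (nat_lit 7468417809) (nat_lit 63) (nat_lit 5) (nat_lit 66) (nat_lit 5) (nat_lit 67) (nat_lit 5) (nat_lit 495) (nat_lit 346) (nat_lit 299)) (XT.lf (nat_lit 0) (nat_lit 2306520806) (nat_lit 152) (nat_lit 9273249382) (nat_lit 228) (nat_lit 2003701581) (nat_lit 61) (nat_lit 5)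 (nat_lit 63) (nat_lit 5) (nat_lit 64) (nat_lit 4) (nat_lit 496) (nat_lit 346) (nat_lit 298))) (XT.nd (nat_lit 78) (nat_lit 456) (nat_lit 0) (XT.lf (nat_lit 0) (nat_lit 3537587208) (nat_lit 228) (nat_lit 121293622) (nat_lit 76) (nat_lit 10072220505) (nat_lit 60) (nat_lit 5) (nat_lit 63) (nat_lit 5) (nat_lit 61) (nat_lit 5) (nat_lit 497) (nat_lit 346) (nat_lit 297)) (XT.nd (nat_lit 78) (nat_lit 228) (nat_lit 0) (XT.lf (nat_lit 0) (nat_lit 9197037018) (nat_lit 304) (nat_lit 2598943198) (nat_lit 76) (nat_lit 2084755092) (nat_lit 57) (nat_lit 5) (nat_lit 61) (nat_lit 5) (nat_lit 58) (nat_lit 4) (nat_lit 498) (nat_lit 346) (nat_lit 296)) (XT.lf (nat_lit 0) (nat_lit 954133017) (nat_lit 228) (nat_lit 5162324015) (nat_lit 76) (nat_lit 7916181363) (nat_lit 54) (nat_lit 5) (nat_lit 57) (nat_lit 5) (nat_lit 55) (nat_lit 5) (nat_lit 499) (nat_lit 346) (nat_lit 295))))))) (XT.nd (nat_lit 858) (nat_lit 304) (nat_lit 0) (XT.nd (nat_lit 390) (nat_lit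 760) (nat_lit 0) (XT.nd (nat_lit 156) (nat_lit 532) (nat_lit 0) (XT.nd (nat_lit 78) (nat_lit 152) (nat_lit 0) (XT.lf (nat_lit 0) (nat_lit 6372631908) (nat_lit 228) (nat_lit 275645651) (nat_lit 304) (nat_lit 7538557371) (nat_lit 51) (nat_lit 5) (nat_lit 54) (nat_lit 5) (nat_lit 55) (nat_lit 5) (nat_lit 500) (nat_lit 346) (nat_lit 294)) (XT.lf (nat_lit 0) (nat_lit 3780407481) (nat_lit 152) (nat_lit 8719611539) (nat_lit 228) (nat_lit 1843222097) (nat_lit 49) (nat_lit 5) (nat_lit 51) (nat_lit 5) (nat_lit 52) (nat_lit 4) (nat_lit 501) (nat_lit 346) (nat_lit 293))) (XT.nd (nat_lit 78) (nat_lit 228) (nat_lit 0) (XT.lf (nat_lit 0) (nat_lit 1100665395) (nat_lit 228) (nat_lit 2822563085) (nat_lit 304) (nat_lit 10578847473) (nat_lit 45) (nat_lit 5) (nat_lit 48) (nat_lit 5) (nat_lit 49) (nat_lit 5) (nat_lit 502) (nat_lit 346) (nat_lit 292)) (XT.nd (nat_lit 78) (nat_lit 228) (nat_lit 0) (XT.lf (nat_lit 0) (nat_lit 9820014405) (nat_lit 304) (nat_lit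 1652529140) (nat_lit 76) (nat_lit 3190506527) (nat_lit 45) (nat_lit 5) (nat_lit 49) (nat_lit 5) (nat_lit 46) (nat_lit 4) (nat_lit 503) (nat_lit 346) (nat_lit 291)) (XT.lf (nat_lit 0) (nat_lit 1029033046) (nat_lit 228) (nat_lit 4480069682) (nat_lit 76) (nat_lit 9317315035) (nat_lit 42) (nat_lit 5) (nat_lit 45) (nat_lit 5) (nat_lit 43) (nat_lit 5) (nat_lit 504) (nat_lit 346) (nat_lit 290))))) (XT.nd (nat_lit 156) (nat_lit 456) (nat_lit 0) (XT.nd (nat_lit 78) (nat_lit 152) (nat_lit 0) (XT.lf (nat_lit 0) (nat_lit 6966898164) (nat_lit 228) (nat_lit 7409376778) (nat_lit 76) (nat_lit 615873552) (nat_lit 40) (nat_lit 5) (nat_lit 43) (nat_lit 5) (nat_lit 41) (nat_lit 4) (nat_lit 505) (nat_lit 346) (nat_lit 289)) (XT.lf (nat_lit 0) (nat_lit 4716851366) (nat_lit 152) (nat_lit 8352818686) (nat_lit 228) (nat_lit 2090600798) (nat_lit 38) (nat_lit 5) (nat_lit 40) (nat_lit 5) (nat_lit 41) (nat_lit 4) (nat_lit 506) (nat_lit 346) (nat_lit 288))) (XT.nd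 (nat_lit 78) (nat_lit 228) (nat_lit 0) (XT.lf (nat_lit 0) (nat_lit 1756876123) (nat_lit 152) (nat_lit 2164180945) (nat_lit 228) (nat_lit 11409978261) (nat_lit 35) (nat_lit 5) (nat_lit 37) (nat_lit 5) (nat_lit 38) (nat_lit 5) (nat_lit 507) (nat_lit 346) (nat_lit 287)) (XT.nd (nat_lit 78) (nat_lit 228) (nat_lit 0) (XT.lf (nat_lit 0) (nat_lit 10071392195) (nat_lit 228) (nat_lit 1297803788) (nat_lit 76) (nat_lit 4134813993) (nat_lit 35) (nat_lit 5) (nat_lit 38) (nat_lit 5) (nat_lit 36) (nat_lit 4) (nat_lit 508) (nat_lit 346) (nat_lit 286)) (XT.lf (nat_lit 0) (nat_lit 693224439) (nat_lit 228) (nat_lit 4420399600) (nat_lit 76) (nat_lit 10565980881) (nat_lit 32) (nat_lit 5) (nat_lit 35) (nat_lit 5) (nat_lit 33) (nat_lit 5) (nat_lit 509) (nat_lit 346) (nat_lit 285)))))) (XT.nd (nat_lit 54600) (nat_lit 0) (nat_lit 14212) (XT.nd (nat_lit 54366) (nat_lit 0) (nat_lit 16720) (XT.nd (nat_lit 54288) (nat_lit 0) (nat_lit 17936) (XT.lf (nat_lit 0) (nat_lit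 5023266493) (nat_lit 152) (nat_lit 8232889262) (nat_lit 228) (nat_lit 2782030511) (nat_lit 28) (nat_lit 5) (nat_lit 30) (nat_lit 5) (nat_lit 31) (nat_lit 4) (nat_lit 511) (nat_lit 346) (nat_lit 283)) (XT.lf (nat_lit 0) (nat_lit 418724799) (nat_lit 532) (nat_lit 1919912046) (nat_lit 532) (nat_lit 1919912046) (nat_lit 264) (nat_lit 4) (nat_lit 271) (nat_lit 5) (nat_lit 271) (nat_lit 4) (nat_lit 446) (nat_lit 347) (nat_lit 347))) (XT.nd (nat_lit 78) (nat_lit 1140) (nat_lit 0) (XT.lf (nat_lit 0) (nat_lit 413233148) (nat_lit 608) (nat_lit 207133765) (nat_lit 76) (nat_lit 7961174385) (nat_lit 263) (nat_lit 5) (nat_lit 271) (nat_lit 5) (nat_lit 264) (nat_lit 4) (nat_lit 447) (nat_lit 347) (nat_lit 346)) (XT.nd (nat_lit 78) (nat_lit 608) (nat_lit 0) (XT.lf (nat_lit 0) (nat_lit 4696127114) (nat_lit 608) (nat_lit 1277431868) (nat_lit 0) (nat_lit 2673283261) (nat_lit 256) (nat_lit 5) (nat_lit 264) (nat_lit 4) (nat_lit 256) (nat_lit 4) (nat_lit 448)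 (nat_lit 347) (nat_lit 345)) (XT.lf (nat_lit 0) (nat_lit 324444772) (nat_lit 608) (nat_lit 2349237812) (nat_lit 76) (nat_lit 6040164586) (nat_lit 248) (nat_lit 5) (nat_lit 256) (nat_lit 5) (nat_lit 249) (nat_lit 4) (nat_lit 449) (nat_lit 347) (nat_lit 344))))) (XT.nd (nat_lit 234) (nat_lit 988) (nat_lit 0) (XT.nd (nat_lit 78) (nat_lit 1064) (nat_lit 0) (XT.lf (nat_lit 0) (nat_lit 4611681772) (nat_lit 532) (nat_lit 3448068077) (nat_lit 0) (nat_lit 722330582) (nat_lit 242) (nat_lit 5) (nat_lit 249) (nat_lit 4) (nat_lit 242) (nat_lit 4) (nat_lit 450) (nat_lit 347) (nat_lit 343)) (XT.nd (nat_lit 78) (nat_lit 456) (nat_lit 0) (XT.lf (nat_lit 0) (nat_lit 124503279) (nat_lit 608) (nat_lit 4563000625) (nat_lit 76) (nat_lit 4164291940) (nat_lit 234) (nat_lit 5) (nat_lit 242) (nat_lit 5) (nat_lit 235) (nat_lit 4) (nat_lit 451) (nat_lit 347) (nat_lit 342)) (XT.lf (nat_lit 0) (nat_lit 3218664720) (nat_lit 456) (nat_lit 1207160978) (nat_lit 532) (nat_lit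 4497001259) (nat_lit 228) (nat_lit 5) (nat_lit 234) (nat_lit 5) (nat_lit 235) (nat_lit 4) (nat_lit 452) (nat_lit 347) (nat_lit 341)))) (XT.nd (nat_lit 78) (nat_lit 532) (nat_lit 0) (XT.lf (nat_lit 0) (nat_lit 2134793749) (nat_lit 456) (nat_lit 6670868915) (nat_lit 456) (nat_lit 189766266) (nat_lit 222) (nat_lit 4) (nat_lit 228) (nat_lit 5) (nat_lit 228) (nat_lit 4) (nat_lit 453) (nat_lit 347) (nat_lit 340)) (XT.nd (nat_lit 78) (nat_lit 0) (nat_lit 0) (XT.lf (nat_lit 0) (nat_lit 1015744819) (nat_lit 456) (nat_lit 3118680638) (nat_lit 532) (nat_lit 4934792769) (nat_lit 215) (nat_lit 5) (nat_lit 221) (nat_lit 5) (nat_lit 222) (nat_lit 4) (nat_lit 454) (nat_lit 347) (nat_lit 339)) (XT.lf (nat_lit 0) (nat_lit 8525448066) (nat_lit 532) (nat_lit 107363051) (nat_lit 0) (nat_lit 511989344) (nat_lit 215) (nat_lit 5) (nat_lit 222) (nat_lit 4) (nat_lit 215) (nat_lit 4) (nat_lit 455) (nat_lit 347) (nat_lit 338))))))))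
noncomputable def xc26 : XT := (XT.nd (nat_lit 1560) (nat_lit 4636) (nat_lit 0) (XT.nd (nat_lit 780) (nat_lit 3040) (nat_lit 0) (XT.nd (nat_lit 390) (nat_lit 1596) (nat_lit 0) (XT.nd (nat_lit 156) (nat_lit 1368) (nat_lit 0) (XT.nd (nat_lit 78) (nat_lit 380) (nat_lit 0) (XT.lf (nat_lit 0) (nat_lit 3739890066) (nat_lit 532) (nat_lit 1264276107) (nat_lit 76) (nat_lit 4217095009) (nat_lit 208) (nat_lit 5) (nat_lit 215) (nat_lit 5) (nat_lit 209) (nat_lit 4) (nat_lit 456) (nat_lit 347) (nat_lit 337)) (XT.lf (nat_lit 0) (nat_lit 6871014958) (nat_lit 380) (nat_lit 1287139622) (nat_lit 456) (nat_lit 1141412052) (nat_lit 203) (nat_lit 5) (nat_lit 208) (nat_lit 5) (nat_lit 209) (nat_lit 4) (nat_lit 457) (nat_lit 347) (nat_lit 336))) (XT.nd (nat_lit 78) (nat_lit 836) (nat_lit 0) (XT.lf (nat_lit 0) (nat_lit 3239673197) (nat_lit 532) (nat_lit 3634858310) (nat_lit 76) (nat_lit 2504531773) (nat_lit 196) (nat_lit 5) (nat_lit 203) (nat_lit 5) (nat_lit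 197) (nat_lit 4) (nat_lit 458) (nat_lit 347) (nat_lit 335)) (XT.nd (nat_lit 78) (nat_lit 456) (nat_lit 0) (XT.lf (nat_lit 0) (nat_lit 4597172950) (nat_lit 380) (nat_lit 3086110169) (nat_lit 456) (nat_lit 1776912118) (nat_lit 191) (nat_lit 5) (nat_lit 196) (nat_lit 5) (nat_lit 197) (nat_lit 4) (nat_lit 459) (nat_lit 347) (nat_lit 334)) (XT.lf (nat_lit 0) (nat_lit 2625399680) (nat_lit 456) (nat_lit 6120741964) (nat_lit 76) (nat_lit 796708340) (nat_lit 185) (nat_lit 5) (nat_lit 191) (nat_lit 5) (nat_lit 186) (nat_lit 4) (nat_lit 460) (nat_lit 347) (nat_lit 333))))) (XT.nd (nat_lit 156) (nat_lit 760) (nat_lit 0) (XT.nd (nat_lit 78) (nat_lit 456) (nat_lit 0) (XT.lf (nat_lit 0) (nat_lit 2207875107) (nat_lit 380) (nat_lit 4887703862) (nat_lit 456) (nat_lit 2531271667) (nat_lit 180) (nat_lit 5) (nat_lit 185) (nat_lit 5) (nat_lit 186) (nat_lit 4) (nat_lit 461) (nat_lit 347) (nat_lit 332)) (XT.lf (nat_lit 0) (nat_lit 972999919) (nat_lit 380) (nat_lit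 927968863) (nat_lit 456) (nat_lit 7811633940) (nat_lit 174) (nat_lit 5) (nat_lit 179) (nat_lit 5) (nat_lit 180) (nat_lit 5) (nat_lit 462) (nat_lit 347) (nat_lit 331))) (XT.nd (nat_lit 78) (nat_lit 760) (nat_lit 0) (XT.lf (nat_lit 0) (nat_lit 6394815850) (nat_lit 456) (nat_lit 304540940) (nat_lit 76) (nat_lit 3100241314) (nat_lit 174) (nat_lit 5) (nat_lit 180) (nat_lit 5) (nat_lit 175) (nat_lit 4) (nat_lit 463) (nat_lit 347) (nat_lit 330)) (XT.nd (nat_lit 78) (nat_lit 380) (nat_lit 0) (XT.lf (nat_lit 0) (nat_lit 1073699238) (nat_lit 380) (nat_lit 1593041991) (nat_lit 76) (nat_lit 7221494777) (nat_lit 169) (nat_lit 5) (nat_lit 174) (nat_lit 5) (nat_lit 170) (nat_lit 5) (nat_lit 464) (nat_lit 347) (nat_lit 329)) (XT.lf (nat_lit 0) (nat_lit 5591655579) (nat_lit 456) (nat_lit 2925313924) (nat_lit 76) (nat_lit 1461317146) (nat_lit 164) (nat_lit 5) (nat_lit 170) (nat_lit 5) (nat_lit 165) (nat_lit 4) (nat_lit 465) (nat_lit 347) (nat_lit 328))))))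 (XT.nd (nat_lit 390) (nat_lit 1292) (nat_lit 0) (XT.nd (nat_lit 156) (nat_lit 988) (nat_lit 0) (XT.nd (nat_lit 78) (nat_lit 380) (nat_lit 0) (XT.lf (nat_lit 0) (nat_lit 132372572) (nat_lit 380) (nat_lit 4289316868) (nat_lit 76) (nat_lit 5648347153) (nat_lit 159) (nat_lit 5) (nat_lit 164) (nat_lit 5) (nat_lit 160) (nat_lit 5) (nat_lit 466) (nat_lit 347) (nat_lit 327)) (XT.lf (nat_lit 0) (nat_lit 4466471634) (nat_lit 380) (nat_lit 203777553) (nat_lit 456) (nat_lit 5493047838) (nat_lit 154) (nat_lit 5) (nat_lit 159) (nat_lit 5) (nat_lit 160) (nat_lit 5) (nat_lit 467) (nat_lit 347) (nat_lit 326))) (XT.nd (nat_lit 78) (nat_lit 684) (nat_lit 0) (XT.lf (nat_lit 0) (nat_lit 3111138334) (nat_lit 304) (nat_lit 6202255048) (nat_lit 380) (nat_lit 944739083) (nat_lit 150) (nat_lit 5) (nat_lit 154) (nat_lit 5) (nat_lit 155) (nat_lit 4) (nat_lit 468) (nat_lit 347) (nat_lit 325)) (XT.nd (nat_lit 78) (nat_lit 304) (nat_lit 0) (XT.lf (nat_lit 0) (nat_lit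 1714593743) (nat_lit 304) (nat_lit 1921328286) (nat_lit 380) (nat_lit 6718666025) (nat_lit 145) (nat_lit 5) (nat_lit 149) (nat_lit 5) (nat_lit 150) (nat_lit 5) (nat_lit 469) (nat_lit 347) (nat_lit 324)) (XT.lf (nat_lit 0) (nat_lit 278502093) (nat_lit 304) (nat_lit 8022187888) (nat_lit 380) (nat_lit 2152055004) (nat_lit 141) (nat_lit 5) (nat_lit 145) (nat_lit 5) (nat_lit 146) (nat_lit 4) (nat_lit 470) (nat_lit 347) (nat_lit 323))))) (XT.nd (nat_lit 156) (nat_lit 912) (nat_lit 0) (XT.nd (nat_lit 78) (nat_lit 304) (nat_lit 0) (XT.lf (nat_lit 0) (nat_lit 2483422084) (nat_lit 380) (nat_lit 1189719291) (nat_lit 76) (nat_lit 6879190302) (nat_lit 140) (nat_lit 5) (nat_lit 145) (nat_lit 5) (nat_lit 141) (nat_lit 5) (nat_lit 471) (nat_lit 347) (nat_lit 322)) (XT.lf (nat_lit 0) (nat_lit 7180172172) (nat_lit 380) (nat_lit 2693339620) (nat_lit 76) (nat_lit 780166220) (nat_lit 136) (nat_lit 5) (nat_lit 141) (nat_lit 5) (nat_lit 137) (nat_lit 4) (nat_lit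 472) (nat_lit 347) (nat_lit 321))) (XT.nd (nat_lit 78) (nat_lit 532) (nat_lit 0) (XT.lf (nat_lit 0) (nat_lit 1213418568) (nat_lit 380) (nat_lit 4250445055) (nat_lit 76) (nat_lit 5292719396) (nat_lit 131) (nat_lit 5) (nat_lit 136) (nat_lit 5) (nat_lit 132) (nat_lit 5) (nat_lit 473) (nat_lit 347) (nat_lit 320)) (XT.nd (nat_lit 78) (nat_lit 228) (nat_lit 0) (XT.lf (nat_lit 0) (nat_lit 5007945500) (nat_lit 304) (nat_lit 931281565) (nat_lit 380) (nat_lit 4922026749) (nat_lit 127) (nat_lit 5) (nat_lit 131) (nat_lit 5) (nat_lit 132) (nat_lit 5) (nat_lit 474) (nat_lit 347) (nat_lit 319)) (XT.lf (nat_lit 0) (nat_lit 3463136411) (nat_lit 228) (nat_lit 7312741570) (nat_lit 304) (nat_lit 191813517) (nat_lit 124) (nat_lit 5) (nat_lit 127) (nat_lit 5) (nat_lit 128) (nat_lit 4) (nat_lit 475) (nat_lit 347) (nat_lit 318))))))) (XT.nd (nat_lit 780) (nat_lit 2204) (nat_lit 0) (XT.nd (nat_lit 390) (nat_lit 1140) (nat_lit 0) (XT.nd (nat_lit 156) (nat_lit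 684) (nat_lit 0) (XT.nd (nat_lit 78) (nat_lit 228) (nat_lit 0) (XT.lf (nat_lit 0) (nat_lit 1857717295) (nat_lit 304) (nat_lit 2713574689) (nat_lit 380) (nat_lit 6504383328) (nat_lit 119) (nat_lit 5) (nat_lit 123) (nat_lit 5) (nat_lit 124) (nat_lit 5) (nat_lit 476) (nat_lit 347) (nat_lit 317)) (XT.lf (nat_lit 0) (nat_lit 212330942) (nat_lit 228) (nat_lit 9221197142) (nat_lit 304) (nat_lit 1752136622) (nat_lit 116) (nat_lit 5) (nat_lit 119) (nat_lit 5) (nat_lit 120) (nat_lit 4) (nat_lit 477) (nat_lit 347) (nat_lit 316))) (XT.nd (nat_lit 78) (nat_lit 608) (nat_lit 0) (XT.lf (nat_lit 0) (nat_lit 3076438951) (nat_lit 304) (nat_lit 1479192009) (nat_lit 76) (nat_lit 6741383464) (nat_lit 115) (nat_lit 5) (nat_lit 119) (nat_lit 5) (nat_lit 116) (nat_lit 5) (nat_lit 478) (nat_lit 347) (nat_lit 315)) (XT.nd (nat_lit 78) (nat_lit 304) (nat_lit 0) (XT.lf (nat_lit 0) (nat_lit 7975669306) (nat_lit 380) (nat_lit 3209424803) (nat_lit 76) (nat_lit 225314506)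 (nat_lit 111) (nat_lit 5) (nat_lit 116) (nat_lit 5) (nat_lit 112) (nat_lit 4) (nat_lit 479) (nat_lit 347) (nat_lit 314)) (XT.lf (nat_lit 0) (nat_lit 1453544751) (nat_lit 304) (nat_lit 5009362323) (nat_lit 76) (nat_lit 5062461616) (nat_lit 107) (nat_lit 5) (nat_lit 111) (nat_lit 5) (nat_lit 108) (nat_lit 5) (nat_lit 480) (nat_lit 347) (nat_lit 313))))) (XT.nd (nat_lit 156) (nat_lit 608) (nat_lit 0) (XT.nd (nat_lit 78) (nat_lit 228) (nat_lit 0) (XT.lf (nat_lit 0) (nat_lit 4778393583) (nat_lit 304) (nat_lit 1611070625) (nat_lit 380) (nat_lit 5252792468) (nat_lit 103) (nat_lit 5) (nat_lit 107) (nat_lit 5) (nat_lit 108) (nat_lit 5) (nat_lit 481) (nat_lit 347) (nat_lit 312)) (XT.lf (nat_lit 0) (nat_lit 2987435230) (nat_lit 228) (nat_lit 8454895561) (nat_lit 304) (nat_lit 318787055) (nat_lit 100) (nat_lit 5) (nat_lit 103) (nat_lit 5) (nat_lit 104) (nat_lit 4) (nat_lit 482) (nat_lit 347) (nat_lit 311))) (XT.nd (nat_lit 78) (nat_lit 304) (nat_lit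 0) (XT.lf (nat_lit 0) (nat_lit 1121544150) (nat_lit 228) (nat_lit 3538271562) (nat_lit 304) (nat_lit 7221773596) (nat_lit 96) (nat_lit 5) (nat_lit 99) (nat_lit 5) (nat_lit 100) (nat_lit 5) (nat_lit 483) (nat_lit 347) (nat_lit 310)) (XT.nd (nat_lit 78) (nat_lit 304) (nat_lit 0) (XT.lf (nat_lit 0) (nat_lit 9746201208) (nat_lit 304) (nat_lit 780924404) (nat_lit 76) (nat_lit 1477052858) (nat_lit 96) (nat_lit 5) (nat_lit 100) (nat_lit 5) (nat_lit 97) (nat_lit 4) (nat_lit 484) (nat_lit 347) (nat_lit 309)) (XT.lf (nat_lit 0) (nat_lit 2797692241) (nat_lit 304) (nat_lit 2746610556) (nat_lit 76) (nat_lit 6583964636) (nat_lit 92) (nat_lit 5) (nat_lit 96) (nat_lit 5) (nat_lit 93) (nat_lit 5) (nat_lit 485) (nat_lit 347) (nat_lit 308)))))) (XT.nd (nat_lit 390) (nat_lit 1140) (nat_lit 0) (XT.nd (nat_lit 156) (nat_lit 532) (nat_lit 0) (XT.nd (nat_lit 78) (nat_lit 304) (nat_lit 0) (XT.lf (nat_lit 0) (nat_lit 7489279324) (nat_lit 228) (nat_lit 433711192)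 (nat_lit 304) (nat_lit 4331574163) (nat_lit 89) (nat_lit 5) (nat_lit 92) (nat_lit 5) (nat_lit 93) (nat_lit 5) (nat_lit 486) (nat_lit 347) (nat_lit 307)) (XT.lf (nat_lit 0) (nat_lit 788020639) (nat_lit 304) (nat_lit 6859994598) (nat_lit 76) (nat_lit 4734659413) (nat_lit 85) (nat_lit 5) (nat_lit 89) (nat_lit 5) (nat_lit 86) (nat_lit 5) (nat_lit 487) (nat_lit 347) (nat_lit 306))) (XT.nd (nat_lit 78) (nat_lit 304) (nat_lit 0) (XT.lf (nat_lit 0) (nat_lit 3484655843) (nat_lit 228) (nat_lit 2470183690) (nat_lit 304) (nat_lit 6557878013) (nat_lit 82) (nat_lit 5) (nat_lit 85) (nat_lit 5) (nat_lit 86) (nat_lit 5) (nat_lit 488) (nat_lit 347) (nat_lit 305)) (XT.nd (nat_lit 78) (nat_lit 76) (nat_lit 0) (XT.lf (nat_lit 0) (nat_lit 1386636728) (nat_lit 228) (nat_lit 9857215354) (nat_lit 304) (nat_lit 1401132072) (nat_lit 79) (nat_lit 5) (nat_lit 82) (nat_lit 5) (nat_lit 83) (nat_lit 4) (nat_lit 489) (nat_lit 347) (nat_lit 304)) (XT.lf (nat_lit 0) (nat_lit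 3830830056) (nat_lit 304) (nat_lit 786314352) (nat_lit 76) (nat_lit 8161796827) (nat_lit 78) (nat_lit 5) (nat_lit 82) (nat_lit 5) (nat_lit 79) (nat_lit 5) (nat_lit 490) (nat_lit 347) (nat_lit 303))))) (XT.nd (nat_lit 234) (nat_lit 456) (nat_lit 0) (XT.nd (nat_lit 78) (nat_lit 456) (nat_lit 0) (XT.lf (nat_lit 0) (nat_lit 9164451636) (nat_lit 304) (nat_lit 3000034571) (nat_lit 76) (nat_lit 750590394) (nat_lit 75) (nat_lit 5) (nat_lit 79) (nat_lit 5) (nat_lit 76) (nat_lit 4) (nat_lit 491) (nat_lit 347) (nat_lit 302)) (XT.nd (nat_lit 78) (nat_lit 228) (nat_lit 0) (XT.lf (nat_lit 0) (nat_lit 1563553190) (nat_lit 228) (nat_lit 5301179468) (nat_lit 76) (nat_lit 6188339009) (nat_lit 72) (nat_lit 5) (nat_lit 75) (nat_lit 5) (nat_lit 73) (nat_lit 5) (nat_lit 492) (nat_lit 347) (nat_lit 301)) (XT.lf (nat_lit 0) (nat_lit 5517348288) (nat_lit 228) (nat_lit 1419233615) (nat_lit 304) (nat_lit 6256693142) (nat_lit 69) (nat_lit 5) (nat_lit 72) (nat_lit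 5) (nat_lit 73) (nat_lit 5) (nat_lit 493) (nat_lit 347) (nat_lit 300)))) (XT.nd (nat_lit 78) (nat_lit 304) (nat_lit 0) (XT.lf (nat_lit 0) (nat_lit 3207223902) (nat_lit 152) (nat_lit 9240131208) (nat_lit 228) (nat_lit 888321704) (nat_lit 67) (nat_lit 5) (nat_lit 69) (nat_lit 5) (nat_lit 70) (nat_lit 4) (nat_lit 494) (nat_lit 347) (nat_lit 299)) (XT.nd (nat_lit 78) (nat_lit 0) (nat_lit 0) (XT.lf (nat_lit 0) (nat_lit 806885728) (nat_lit 228) (nat_lit 3733730411) (nat_lit 304) (nat_lit 8939447510) (nat_lit 63) (nat_lit 5) (nat_lit 66) (nat_lit 5) (nat_lit 67) (nat_lit 5) (nat_lit 495) (nat_lit 347) (nat_lit 298)) (XT.lf (nat_lit 0) (nat_lit 10093907169) (nat_lit 304) (nat_lit 1642814595) (nat_lit 76) (nat_lit 1889945642) (nat_lit 63) (nat_lit 5) (nat_lit 67) (nat_lit 5) (nat_lit 64) (nat_lit 4) (nat_lit 496) (nat_lit 347) (nat_lit 297))))))))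
noncomputable def xc27 : XT := (XT.nd (nat_lit 55770) (nat_lit 0) (nat_lit 8360) (XT.nd (nat_lit 780) (nat_lit 760) (nat_lit 0) (XT.nd (nat_lit 390) (nat_lit 836) (nat_lit 0) (XT.nd (nat_lit 156) (nat_lit 456) (nat_lit 0) (XT.nd (nat_lit 78) (nat_lit 228) (nat_lit 0) (XT.lf (nat_lit 0) (nat_lit 1991507085) (nat_lit 228) (nat_lit 4173681453) (nat_lit 76) (nat_lit 7610048494) (nat_lit 60) (nat_lit 5) (nat_lit 63) (nat_lit 5) (nat_lit 61) (nat_lit 5) (nat_lit 497) (nat_lit 347) (nat_lit 296)) (XT.lf (nat_lit 0) (nat_lit 7142046775) (nat_lit 228) (nat_lit 442543684) (nat_lit 304) (nat_lit 6341607873) (nat_lit 57) (nat_lit 5) (nat_lit 60) (nat_lit 5) (nat_lit 61) (nat_lit 5) (nat_lit 498) (nat_lit 347) (nat_lit 295))) (XT.nd (nat_lit 78) (nat_lit 304) (nat_lit 0) (XT.lf (nat_lit 0) (nat_lit 4591242560) (nat_lit 152) (nat_lit 8739572583) (nat_lit 228) (nat_lit 748538123) (nat_lit 55) (nat_lit 5) (nat_lit 57) (nat_lit 5) (nat_lit 58) (nat_lit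 4) (nat_lit 499) (nat_lit 347) (nat_lit 294)) (XT.nd (nat_lit 78) (nat_lit 0) (nat_lit 0) (XT.lf (nat_lit 0) (nat_lit 1946692266) (nat_lit 228) (nat_lit 2954408730) (nat_lit 304) (nat_lit 9333632459) (nat_lit 51) (nat_lit 5) (nat_lit 54) (nat_lit 5) (nat_lit 55) (nat_lit 5) (nat_lit 500) (nat_lit 347) (nat_lit 293)) (XT.lf (nat_lit 0) (nat_lit 10685379412) (nat_lit 304) (nat_lit 772645739) (nat_lit 76) (nat_lit 2934463752) (nat_lit 51) (nat_lit 5) (nat_lit 55) (nat_lit 5) (nat_lit 52) (nat_lit 4) (nat_lit 501) (nat_lit 347) (nat_lit 292))))) (XT.nd (nat_lit 156) (nat_lit 380) (nat_lit 0) (XT.nd (nat_lit 78) (nat_lit 228) (nat_lit 0) (XT.lf (nat_lit 0) (nat_lit 2046026819) (nat_lit 228) (nat_lit 3561361581) (nat_lit 76) (nat_lit 8944932561) (nat_lit 48) (nat_lit 5) (nat_lit 51) (nat_lit 5) (nat_lit 49) (nat_lit 5) (nat_lit 502) (nat_lit 347) (nat_lit 291)) (XT.lf (nat_lit 0) (nat_lit 7875707431) (nat_lit 304) (nat_lit 6441475506) (nat_lit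 76) (nat_lit 397454249) (nat_lit 45) (nat_lit 5) (nat_lit 49) (nat_lit 5) (nat_lit 46) (nat_lit 4) (nat_lit 503) (nat_lit 347) (nat_lit 290))) (XT.nd (nat_lit 78) (nat_lit 228) (nat_lit 0) (XT.lf (nat_lit 0) (nat_lit 5453861190) (nat_lit 152) (nat_lit 8414342853) (nat_lit 228) (nat_lit 1011071243) (nat_lit 43) (nat_lit 5) (nat_lit 45) (nat_lit 5) (nat_lit 46) (nat_lit 4) (nat_lit 504) (nat_lit 347) (nat_lit 289)) (XT.nd (nat_lit 78) (nat_lit 0) (nat_lit 0) (XT.lf (nat_lit 0) (nat_lit 2535660028) (nat_lit 152) (nat_lit 2342633207) (nat_lit 228) (nat_lit 10168079293) (nat_lit 40) (nat_lit 5) (nat_lit 42) (nat_lit 5) (nat_lit 43) (nat_lit 5) (nat_lit 505) (nat_lit 347) (nat_lit 288)) (XT.lf (nat_lit 0) (nat_lit 10910369898) (nat_lit 228) (nat_lit 477406275) (nat_lit 76) (nat_lit 3828132615) (nat_lit 40) (nat_lit 5) (nat_lit 43) (nat_lit 5) (nat_lit 41) (nat_lit 4) (nat_lit 506) (nat_lit 347) (nat_lit 287)))))) (XT.nd (nat_lit 54522) (nat_lit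 0) (nat_lit 16112) (XT.nd (nat_lit 156) (nat_lit 380) (nat_lit 0) (XT.nd (nat_lit 78) (nat_lit 152) (nat_lit 0) (XT.lf (nat_lit 0) (nat_lit 1695765118) (nat_lit 228) (nat_lit 3554361981) (nat_lit 76) (nat_lit 10137621850) (nat_lit 37) (nat_lit 5) (nat_lit 40) (nat_lit 5) (nat_lit 38) (nat_lit 5) (nat_lit 507) (nat_lit 347) (nat_lit 286)) (XT.lf (nat_lit 0) (nat_lit 7777740454) (nat_lit 228) (nat_lit 6739612825) (nat_lit 76) (nat_lit 1044737512) (nat_lit 35) (nat_lit 5) (nat_lit 38) (nat_lit 5) (nat_lit 36) (nat_lit 4) (nat_lit 508) (nat_lit 347) (nat_lit 285))) (XT.nd (nat_lit 156) (nat_lit 228) (nat_lit 0) (XT.lf (nat_lit 0) (nat_lit 5703689402) (nat_lit 152) (nat_lit 8324392740) (nat_lit 228) (nat_lit 1710902792) (nat_lit 33) (nat_lit 5) (nat_lit 35) (nat_lit 5) (nat_lit 36) (nat_lit 4) (nat_lit 509) (nat_lit 347) (nat_lit 284)) (XT.nd (nat_lit 54132) (nat_lit 0) (nat_lit 18924) (XT.lf (nat_lit 0) (nat_lit 10734878549) (nat_lit 228)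 (nat_lit 851970730) (nat_lit 76) (nat_lit 4513730943) (nat_lit 30) (nat_lit 5) (nat_lit 33) (nat_lit 5) (nat_lit 31) (nat_lit 4) (nat_lit 511) (nat_lit 347) (nat_lit 282)) (XT.lf (nat_lit 0) (nat_lit 1480347818) (nat_lit 608) (nat_lit 1357838618) (nat_lit 608) (nat_lit 1357838618) (nat_lit 279) (nat_lit 4) (nat_lit 287) (nat_lit 5) (nat_lit 287) (nat_lit 4) (nat_lit 444) (nat_lit 348) (nat_lit 348))))) (XT.nd (nat_lit 234) (nat_lit 1596) (nat_lit 0) (XT.nd (nat_lit 78) (nat_lit 608) (nat_lit 0) (XT.lf (nat_lit 0) (nat_lit 1475935167) (nat_lit 608) (nat_lit 6565211429) (nat_lit 0) (nat_lit 413233148) (nat_lit 271) (nat_lit 5) (nat_lit 279) (nat_lit 4) (nat_lit 271) (nat_lit 4) (nat_lit 445) (nat_lit 348) (nat_lit 347)) (XT.nd (nat_lit 78) (nat_lit 76) (nat_lit 0) (XT.lf (nat_lit 0) (nat_lit 787956296) (nat_lit 532) (nat_lit 4917202287) (nat_lit 532) (nat_lit 2812635542) (nat_lit 264) (nat_lit 4) (nat_lit 271) (nat_lit 5) (nat_lit 271)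 (nat_lit 4) (nat_lit 446) (nat_lit 348) (nat_lit 346)) (XT.lf (nat_lit 0) (nat_lit 1392589441) (nat_lit 608) (nat_lit 312972078) (nat_lit 76) (nat_lit 6877229948) (nat_lit 263) (nat_lit 5) (nat_lit 271) (nat_lit 5) (nat_lit 264) (nat_lit 4) (nat_lit 447) (nat_lit 348) (nat_lit 345)))) (XT.nd (nat_lit 78) (nat_lit 1064) (nat_lit 0) (XT.lf (nat_lit 0) (nat_lit 5633638867) (nat_lit 608) (nat_lit 1428132548) (nat_lit 0) (nat_lit 1587157888) (nat_lit 256) (nat_lit 5) (nat_lit 264) (nat_lit 4) (nat_lit 256) (nat_lit 4) (nat_lit 448) (nat_lit 348) (nat_lit 344)) (XT.nd (nat_lit 78) (nat_lit 456) (nat_lit 0) (XT.lf (nat_lit 0) (nat_lit 1212632850) (nat_lit 608) (nat_lit 2559484582) (nat_lit 76) (nat_lit 4944394697) (nat_lit 248) (nat_lit 5) (nat_lit 256) (nat_lit 5) (nat_lit 249) (nat_lit 4) (nat_lit 449) (nat_lit 348) (nat_lit 343)) (XT.lf (nat_lit 0) (nat_lit 5076773897) (nat_lit 456) (nat_lit 383337893) (nat_lit 532) (nat_lit 3325428761) (nat_lit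 242) (nat_lit 5) (nat_lit 248) (nat_lit 5) (nat_lit 249) (nat_lit 4) (nat_lit 450) (nat_lit 348) (nat_lit 342))))))) (XT.nd (nat_lit 780) (nat_lit 3420) (nat_lit 0) (XT.nd (nat_lit 390) (nat_lit 2204) (nat_lit 0) (XT.nd (nat_lit 156) (nat_lit 1064) (nat_lit 0) (XT.nd (nat_lit 78) (nat_lit 456) (nat_lit 0) (XT.lf (nat_lit 0) (nat_lit 920573202) (nat_lit 608) (nat_lit 4883381327) (nat_lit 76) (nat_lit 3051948073) (nat_lit 234) (nat_lit 5) (nat_lit 242) (nat_lit 5) (nat_lit 235) (nat_lit 4) (nat_lit 451) (nat_lit 348) (nat_lit 341)) (XT.lf (nat_lit 0) (nat_lit 2844616252) (nat_lit 456) (nat_lit 2341906995) (nat_lit 532) (nat_lit 3741117916) (nat_lit 228) (nat_lit 5) (nat_lit 234) (nat_lit 5) (nat_lit 235) (nat_lit 4) (nat_lit 452) (nat_lit 348) (nat_lit 340))) (XT.nd (nat_lit 78) (nat_lit 532) (nat_lit 0) (XT.lf (nat_lit 0) (nat_lit 515559572) (nat_lit 532) (nat_lit 7295772118) (nat_lit 76) (nat_lit 1189700590) (nat_lit 221) (nat_lit 5)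 (nat_lit 228) (nat_lit 5) (nat_lit 222) (nat_lit 4) (nat_lit 453) (nat_lit 348) (nat_lit 339)) (XT.nd (nat_lit 78) (nat_lit 76) (nat_lit 0) (XT.lf (nat_lit 0) (nat_lit 523822434) (nat_lit 456) (nat_lit 4277642010) (nat_lit 532) (nat_lit 4274048451) (nat_lit 215) (nat_lit 5) (nat_lit 221) (nat_lit 5) (nat_lit 222) (nat_lit 4) (nat_lit 454) (nat_lit 348) (nat_lit 338)) (XT.lf (nat_lit 0) (nat_lit 4963064) (nat_lit 532) (nat_lit 651668707) (nat_lit 76) (nat_lit 8495175703) (nat_lit 214) (nat_lit 5) (nat_lit 221) (nat_lit 5) (nat_lit 215) (nat_lit 5) (nat_lit 455) (nat_lit 348) (nat_lit 337))))) (XT.nd (nat_lit 156) (nat_lit 1368) (nat_lit 0) (XT.nd (nat_lit 78) (nat_lit 380) (nat_lit 0) (XT.lf (nat_lit 0) (nat_lit 4315930566) (nat_lit 532) (nat_lit 1872049950) (nat_lit 76) (nat_lit 3041010295) (nat_lit 208) (nat_lit 5) (nat_lit 215) (nat_lit 5) (nat_lit 209) (nat_lit 4) (nat_lit 456) (nat_lit 348) (nat_lit 336)) (XT.lf (nat_lit 0) (nat_lit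 6206067488) (nat_lit 380) (nat_lit 2492159254) (nat_lit 456) (nat_lit 609788886) (nat_lit 203) (nat_lit 5) (nat_lit 208) (nat_lit 5) (nat_lit 209) (nat_lit 4) (nat_lit 457) (nat_lit 348) (nat_lit 335))) (XT.nd (nat_lit 78) (nat_lit 836) (nat_lit 0) (XT.lf (nat_lit 0) (nat_lit 3720058190) (nat_lit 532) (nat_lit 4371063367) (nat_lit 76) (nat_lit 1297207003) (nat_lit 196) (nat_lit 5) (nat_lit 203) (nat_lit 5) (nat_lit 197) (nat_lit 4) (nat_lit 458) (nat_lit 348) (nat_lit 334)) (XT.nd (nat_lit 78) (nat_lit 456) (nat_lit 0) (XT.lf (nat_lit 0) (nat_lit 3801787861) (nat_lit 380) (nat_lit 4325360716) (nat_lit 456) (nat_lit 1343042330) (nat_lit 191) (nat_lit 5) (nat_lit 196) (nat_lit 5) (nat_lit 197) (nat_lit 4) (nat_lit 459) (nat_lit 348) (nat_lit 333)) (XT.lf (nat_lit 0) (nat_lit 2559023864) (nat_lit 380) (nat_lit 452414753) (nat_lit 456) (nat_lit 6542193510) (nat_lit 185) (nat_lit 5) (nat_lit 190) (nat_lit 5) (nat_lit 191) (nat_lit 5) (nat_lit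 460) (nat_lit 348) (nat_lit 332)))))) (XT.nd (nat_lit 390) (nat_lit 1824) (nat_lit 0) (XT.nd (nat_lit 156) (nat_lit 1140) (nat_lit 0) (XT.nd (nat_lit 78) (nat_lit 76) (nat_lit 0) (XT.lf (nat_lit 0) (nat_lit 1275693403) (nat_lit 380) (nat_lit 6165858055) (nat_lit 456) (nat_lit 2196882650) (nat_lit 180) (nat_lit 5) (nat_lit 185) (nat_lit 5) (nat_lit 186) (nat_lit 4) (nat_lit 461) (nat_lit 348) (nat_lit 331)) (XT.lf (nat_lit 0) (nat_lit 2193667398) (nat_lit 456) (nat_lit 34813712) (nat_lit 76) (nat_lit 7496407759) (nat_lit 179) (nat_lit 5) (nat_lit 185) (nat_lit 5) (nat_lit 180) (nat_lit 5) (nat_lit 462) (nat_lit 348) (nat_lit 330))) (XT.nd (nat_lit 78) (nat_lit 760) (nat_lit 0) (XT.lf (nat_lit 0) (nat_lit 6648025959) (nat_lit 456) (nat_lit 1365952266) (nat_lit 76) (nat_lit 1798695795) (nat_lit 174) (nat_lit 5) (nat_lit 180) (nat_lit 5) (nat_lit 175) (nat_lit 4) (nat_lit 463) (nat_lit 348) (nat_lit 329)) (XT.nd (nat_lit 78) (nat_lit 380)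 (nat_lit 0) (XT.lf (nat_lit 0) (nat_lit 1272924763) (nat_lit 380) (nat_lit 2732661085) (nat_lit 76) (nat_lit 5896450078) (nat_lit 169) (nat_lit 5) (nat_lit 174) (nat_lit 5) (nat_lit 170) (nat_lit 5) (nat_lit 464) (nat_lit 348) (nat_lit 328)) (XT.lf (nat_lit 0) (nat_lit 5744074548) (nat_lit 456) (nat_lit 4134822544) (nat_lit 76) (nat_lit 114125607) (nat_lit 164) (nat_lit 5) (nat_lit 170) (nat_lit 5) (nat_lit 165) (nat_lit 4) (nat_lit 465) (nat_lit 348) (nat_lit 327))))) (XT.nd (nat_lit 234) (nat_lit 760) (nat_lit 0) (XT.nd (nat_lit 78) (nat_lit 684) (nat_lit 0) (XT.lf (nat_lit 0) (nat_lit 229752283) (nat_lit 380) (nat_lit 5580251948) (nat_lit 76) (nat_lit 4275520483) (nat_lit 159) (nat_lit 5) (nat_lit 164) (nat_lit 5) (nat_lit 160) (nat_lit 5) (nat_lit 466) (nat_lit 348) (nat_lit 326)) (XT.nd (nat_lit 78) (nat_lit 304) (nat_lit 0) (XT.lf (nat_lit 0) (nat_lit 3109090830) (nat_lit 380) (nat_lit 1619835366) (nat_lit 456) (nat_lit 5450633006)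 (nat_lit 154) (nat_lit 5) (nat_lit 159) (nat_lit 5) (nat_lit 160) (nat_lit 5) (nat_lit 467) (nat_lit 348) (nat_lit 325)) (XT.lf (nat_lit 0) (nat_lit 1679113777) (nat_lit 304) (nat_lit 7644726158) (nat_lit 380) (nat_lit 951519315) (nat_lit 150) (nat_lit 5) (nat_lit 154) (nat_lit 5) (nat_lit 155) (nat_lit 4) (nat_lit 468) (nat_lit 348) (nat_lit 324)))) (XT.nd (nat_lit 78) (nat_lit 380) (nat_lit 0) (XT.lf (nat_lit 0) (nat_lit 196610269) (nat_lit 304) (nat_lit 3393099108) (nat_lit 380) (nat_lit 6782896769) (nat_lit 145) (nat_lit 5) (nat_lit 149) (nat_lit 5) (nat_lit 150) (nat_lit 5) (nat_lit 469) (nat_lit 348) (nat_lit 323)) (XT.nd (nat_lit 78) (nat_lit 380) (nat_lit 0) (XT.lf (nat_lit 0) (nat_lit 8213589978) (nat_lit 380) (nat_lit 1300606063) (nat_lit 76) (nat_lit 957384783) (nat_lit 145) (nat_lit 5) (nat_lit 150) (nat_lit 5) (nat_lit 146) (nat_lit 4) (nat_lit 470) (nat_lit 348) (nat_lit 322)) (XT.lf (nat_lit 0) (nat_lit 2340807906) (nat_lit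 380) (nat_lit 2853453019) (nat_lit 76) (nat_lit 5377681702) (nat_lit 140) (nat_lit 5) (nat_lit 145) (nat_lit 5) (nat_lit 141) (nat_lit 5) (nat_lit 471) (nat_lit 348) (nat_lit 321))))))))
noncomputable def xc28 : XT := (XT.nd (nat_lit 1560) (nat_lit 3420) (nat_lit 0) (XT.nd (nat_lit 780) (nat_lit 2128) (nat_lit 0) (XT.nd (nat_lit 390) (nat_lit 1520) (nat_lit 0) (XT.nd (nat_lit 156) (nat_lit 608) (nat_lit 0) (XT.nd (nat_lit 78) (nat_lit 380) (nat_lit 0) (XT.lf (nat_lit 0) (nat_lit 6230974032) (nat_lit 304) (nat_lit 761312238) (nat_lit 380) (nat_lit 3681908127) (nat_lit 136) (nat_lit 5) (nat_lit 140) (nat_lit 5) (nat_lit 141) (nat_lit 5) (nat_lit 472) (nat_lit 348) (nat_lit 320)) (XT.lf (nat_lit 0) (nat_lit 961962533) (nat_lit 380) (nat_lit 6087232847) (nat_lit 76) (nat_lit 3728846825) (nat_lit 131) (nat_lit 5) (nat_lit 136) (nat_lit 5) (nat_lit 132) (nat_lit 5) (nat_lit 473) (nat_lit 348) (nat_lit 319))) (XT.nd (nat_lit 78) (nat_lit 304)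 (nat_lit 0) (XT.lf (nat_lit 0) (nat_lit 3097794268) (nat_lit 304) (nat_lit 2548893003) (nat_lit 380) (nat_lit 5236847403) (nat_lit 127) (nat_lit 5) (nat_lit 131) (nat_lit 5) (nat_lit 132) (nat_lit 5) (nat_lit 474) (nat_lit 348) (nat_lit 318)) (XT.nd (nat_lit 78) (nat_lit 76) (nat_lit 0) (XT.lf (nat_lit 0) (nat_lit 1466586583) (nat_lit 228) (nat_lit 8964728051) (nat_lit 304) (nat_lit 559698195) (nat_lit 124) (nat_lit 5) (nat_lit 127) (nat_lit 5) (nat_lit 128) (nat_lit 4) (nat_lit 475) (nat_lit 348) (nat_lit 317)) (XT.lf (nat_lit 0) (nat_lit 4167672695) (nat_lit 304) (nat_lit 232624909) (nat_lit 76) (nat_lit 6699557999) (nat_lit 123) (nat_lit 5) (nat_lit 127) (nat_lit 5) (nat_lit 124) (nat_lit 5) (nat_lit 476) (nat_lit 348) (nat_lit 316))))) (XT.nd (nat_lit 156) (nat_lit 912) (nat_lit 0) (XT.nd (nat_lit 78) (nat_lit 304) (nat_lit 0) (XT.lf (nat_lit 0) (nat_lit 8987656994) (nat_lit 380) (nat_lit 1945748855) (nat_lit 76) (nat_lit 277284185)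 (nat_lit 119) (nat_lit 5) (nat_lit 124) (nat_lit 5) (nat_lit 120) (nat_lit 4) (nat_lit 477) (nat_lit 348) (nat_lit 315)) (XT.lf (nat_lit 0) (nat_lit 2570507953) (nat_lit 304) (nat_lit 3733937523) (nat_lit 76) (nat_lit 5018479633) (nat_lit 115) (nat_lit 5) (nat_lit 119) (nat_lit 5) (nat_lit 116) (nat_lit 5) (nat_lit 478) (nat_lit 348) (nat_lit 314))) (XT.nd (nat_lit 78) (nat_lit 608) (nat_lit 0) (XT.lf (nat_lit 0) (nat_lit 5869437548) (nat_lit 304) (nat_lit 1555901335) (nat_lit 380) (nat_lit 4011868405) (nat_lit 111) (nat_lit 5) (nat_lit 115) (nat_lit 5) (nat_lit 116) (nat_lit 5) (nat_lit 479) (nat_lit 348) (nat_lit 313)) (XT.nd (nat_lit 78) (nat_lit 304) (nat_lit 0) (XT.lf (nat_lit 0) (nat_lit 830103212) (nat_lit 304) (nat_lit 7461037385) (nat_lit 76) (nat_lit 3262179340) (nat_lit 107) (nat_lit 5) (nat_lit 111) (nat_lit 5) (nat_lit 108) (nat_lit 5) (nat_lit 480) (nat_lit 348) (nat_lit 312)) (XT.lf (nat_lit 0) (nat_lit 2245626532) (nat_lit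 304) (nat_lit 3476342445) (nat_lit 380) (nat_lit 5949120019) (nat_lit 103) (nat_lit 5) (nat_lit 107) (nat_lit 5) (nat_lit 108) (nat_lit 5) (nat_lit 481) (nat_lit 348) (nat_lit 311)))))) (XT.nd (nat_lit 390) (nat_lit 1064) (nat_lit 0) (XT.nd (nat_lit 156) (nat_lit 760) (nat_lit 0) (XT.nd (nat_lit 78) (nat_lit 76) (nat_lit 0) (XT.lf (nat_lit 0) (nat_lit 355451677) (nat_lit 228) (nat_lit 10362676964) (nat_lit 304) (nat_lit 1072955665) (nat_lit 100) (nat_lit 5) (nat_lit 103) (nat_lit 5) (nat_lit 104) (nat_lit 4) (nat_lit 482) (nat_lit 348) (nat_lit 310)) (XT.lf (nat_lit 0) (nat_lit 3880797874) (nat_lit 304) (nat_lit 1598243657) (nat_lit 76) (nat_lit 6433306974) (nat_lit 99) (nat_lit 5) (nat_lit 103) (nat_lit 5) (nat_lit 100) (nat_lit 5) (nat_lit 483) (nat_lit 348) (nat_lit 309))) (XT.nd (nat_lit 78) (nat_lit 532) (nat_lit 0) (XT.lf (nat_lit 0) (nat_lit 8444429094) (nat_lit 228) (nat_lit 475292226) (nat_lit 304) (nat_lit 3116165588) (nat_lit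 96) (nat_lit 5) (nat_lit 99) (nat_lit 5) (nat_lit 100) (nat_lit 5) (nat_lit 484) (nat_lit 348) (nat_lit 308)) (XT.nd (nat_lit 78) (nat_lit 228) (nat_lit 0) (XT.lf (nat_lit 0) (nat_lit 1901744131) (nat_lit 304) (nat_lit 5665959645) (nat_lit 76) (nat_lit 4593363836) (nat_lit 92) (nat_lit 5) (nat_lit 96) (nat_lit 5) (nat_lit 93) (nat_lit 5) (nat_lit 485) (nat_lit 348) (nat_lit 307)) (XT.lf (nat_lit 0) (nat_lit 4483283295) (nat_lit 228) (nat_lit 2497461441) (nat_lit 304) (nat_lit 5307546074) (nat_lit 89) (nat_lit 5) (nat_lit 92) (nat_lit 5) (nat_lit 93) (nat_lit 5) (nat_lit 486) (nat_lit 348) (nat_lit 306))))) (XT.nd (nat_lit 156) (nat_lit 532) (nat_lit 0) (XT.nd (nat_lit 78) (nat_lit 304) (nat_lit 0) (XT.lf (nat_lit 0) (nat_lit 2413487029) (nat_lit 228) (nat_lit 9765225676) (nat_lit 304) (nat_lit 238998019) (nat_lit 86) (nat_lit 5) (nat_lit 89) (nat_lit 5) (nat_lit 90) (nat_lit 4) (nat_lit 487) (nat_lit 348) (nat_lit 305)) (XT.lf (nat_lit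 0) (nat_lit 252230588) (nat_lit 228) (nat_lit 4631088280) (nat_lit 304) (nat_lit 7665418518) (nat_lit 82) (nat_lit 5) (nat_lit 85) (nat_lit 5) (nat_lit 86) (nat_lit 5) (nat_lit 488) (nat_lit 348) (nat_lit 304))) (XT.nd (nat_lit 78) (nat_lit 532) (nat_lit 0) (XT.lf (nat_lit 0) (nat_lit 10122732260) (nat_lit 304) (nat_lit 1933401675) (nat_lit 76) (nat_lit 625862042) (nat_lit 82) (nat_lit 5) (nat_lit 86) (nat_lit 5) (nat_lit 83) (nat_lit 4) (nat_lit 489) (nat_lit 348) (nat_lit 303)) (XT.nd (nat_lit 78) (nat_lit 228) (nat_lit 0) (XT.lf (nat_lit 0) (nat_lit 2648557789) (nat_lit 304) (nat_lit 4209187039) (nat_lit 76) (nat_lit 5959145212) (nat_lit 78) (nat_lit 5) (nat_lit 82) (nat_lit 5) (nat_lit 79) (nat_lit 5) (nat_lit 490) (nat_lit 348) (nat_lit 302)) (XT.lf (nat_lit 0) (nat_lit 6404552607) (nat_lit 228) (nat_lit 1523857910) (nat_lit 304) (nat_lit 5025690265) (nat_lit 75) (nat_lit 5) (nat_lit 78) (nat_lit 5) (nat_lit 79) (nat_lit 5) (nat_lit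 491) (nat_lit 348) (nat_lit 301))))))) (XT.nd (nat_lit 780) (nat_lit 1596) (nat_lit 0) (XT.nd (nat_lit 390) (nat_lit 912) (nat_lit 0) (XT.nd (nat_lit 156) (nat_lit 456) (nat_lit 0) (XT.nd (nat_lit 78) (nat_lit 228) (nat_lit 0) (XT.lf (nat_lit 0) (nat_lit 245400833) (nat_lit 228) (nat_lit 8966622701) (nat_lit 76) (nat_lit 3881434082) (nat_lit 72) (nat_lit 5) (nat_lit 75) (nat_lit 5) (nat_lit 73) (nat_lit 5) (nat_lit 492) (nat_lit 348) (nat_lit 300)) (XT.lf (nat_lit 0) (nat_lit 1755912013) (nat_lit 228) (nat_lit 3812204461) (nat_lit 304) (nat_lit 7666550782) (nat_lit 69) (nat_lit 5) (nat_lit 72) (nat_lit 5) (nat_lit 73) (nat_lit 5) (nat_lit 493) (nat_lit 348) (nat_lit 299))) (XT.nd (nat_lit 78) (nat_lit 456) (nat_lit 0) (XT.lf (nat_lit 0) (nat_lit 11016710681) (nat_lit 304) (nat_lit 668864787) (nat_lit 76) (nat_lit 1692737136) (nat_lit 69) (nat_lit 5) (nat_lit 73) (nat_lit 5) (nat_lit 70) (nat_lit 4) (nat_lit 494) (nat_lit 348) (nat_lit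 298)) (XT.nd (nat_lit 78) (nat_lit 228) (nat_lit 0) (XT.lf (nat_lit 0) (nat_lit 3051206221) (nat_lit 228) (nat_lit 3168572251) (nat_lit 76) (nat_lit 7303821319) (nat_lit 66) (nat_lit 5) (nat_lit 69) (nat_lit 5) (nat_lit 67) (nat_lit 5) (nat_lit 495) (nat_lit 348) (nat_lit 297)) (XT.lf (nat_lit 0) (nat_lit 7932507561) (nat_lit 228) (nat_lit 613130242) (nat_lit 304) (nat_lit 5125742933) (nat_lit 63) (nat_lit 5) (nat_lit 66) (nat_lit 5) (nat_lit 67) (nat_lit 5) (nat_lit 496) (nat_lit 348) (nat_lit 296))))) (XT.nd (nat_lit 156) (nat_lit 456) (nat_lit 0) (XT.nd (nat_lit 78) (nat_lit 228) (nat_lit 0) (XT.lf (nat_lit 0) (nat_lit 362627443) (nat_lit 228) (nat_lit 8401795096) (nat_lit 76) (nat_lit 5056870462) (nat_lit 60) (nat_lit 5) (nat_lit 63) (nat_lit 5) (nat_lit 61) (nat_lit 5) (nat_lit 497) (nat_lit 348) (nat_lit 295)) (XT.lf (nat_lit 0) (nat_lit 2811181760) (nat_lit 228) (nat_lit 3091231643) (nat_lit 304) (nat_lit 8070906846) (nat_lit 57)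 (nat_lit 5) (nat_lit 60) (nat_lit 5) (nat_lit 61) (nat_lit 5) (nat_lit 498) (nat_lit 348) (nat_lit 294))) (XT.nd (nat_lit 78) (nat_lit 304) (nat_lit 0) (XT.lf (nat_lit 0) (nat_lit 125874134) (nat_lit 152) (nat_lit 11451459339) (nat_lit 228) (nat_lit 2550567802) (nat_lit 55) (nat_lit 5) (nat_lit 57) (nat_lit 5) (nat_lit 58) (nat_lit 4) (nat_lit 499) (nat_lit 348) (nat_lit 293)) (XT.nd (nat_lit 78) (nat_lit 228) (nat_lit 0) (XT.lf (nat_lit 0) (nat_lit 3084981241) (nat_lit 228) (nat_lit 2627100476) (nat_lit 76) (nat_lit 8572188227) (nat_lit 54) (nat_lit 5) (nat_lit 57) (nat_lit 5) (nat_lit 55) (nat_lit 5) (nat_lit 500) (nat_lit 348) (nat_lit 292)) (XT.lf (nat_lit 0) (nat_lit 8808931679) (nat_lit 304) (nat_lit 5459318867) (nat_lit 76) (nat_lit 174981405) (nat_lit 51) (nat_lit 5) (nat_lit 55) (nat_lit 5) (nat_lit 52) (nat_lit 4) (nat_lit 501) (nat_lit 348) (nat_lit 291)))))) (XT.nd (nat_lit 390) (nat_lit 760) (nat_lit 0) (XT.nd (nat_lit 156)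 (nat_lit 380) (nat_lit 0) (XT.nd (nat_lit 78) (nat_lit 228) (nat_lit 0) (XT.lf (nat_lit 0) (nat_lit 88077472) (nat_lit 228) (nat_lit 8395094465) (nat_lit 76) (nat_lit 6121263005) (nat_lit 48) (nat_lit 5) (nat_lit 51) (nat_lit 5) (nat_lit 49) (nat_lit 5) (nat_lit 502) (nat_lit 348) (nat_lit 290)) (XT.lf (nat_lit 0) (nat_lit 3332028251) (nat_lit 228) (nat_lit 2526510247) (nat_lit 304) (nat_lit 8909397059) (nat_lit 45) (nat_lit 5) (nat_lit 48) (nat_lit 5) (nat_lit 49) (nat_lit 5) (nat_lit 503) (nat_lit 348) (nat_lit 289))) (XT.nd (nat_lit 78) (nat_lit 228) (nat_lit 0) (XT.lf (nat_lit 0) (nat_lit 363792206) (nat_lit 152) (nat_lit 11413339653) (nat_lit 228) (nat_lit 3156919864) (nat_lit 43) (nat_lit 5) (nat_lit 45) (nat_lit 5) (nat_lit 46) (nat_lit 4) (nat_lit 504) (nat_lit 348) (nat_lit 288)) (XT.nd (nat_lit 78) (nat_lit 152) (nat_lit 0) (XT.lf (nat_lit 0) (nat_lit 2719699922) (nat_lit 228) (nat_lit 2673819222) (nat_lit 76) (nat_lit 9708726224)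 (nat_lit 42) (nat_lit 5) (nat_lit 45) (nat_lit 5) (nat_lit 43) (nat_lit 5) (nat_lit 505) (nat_lit 348) (nat_lit 287)) (XT.lf (nat_lit 0) (nat_lit 8689887886) (nat_lit 228) (nat_lit 5804081213) (nat_lit 76) (nat_lit 779050303) (nat_lit 40) (nat_lit 5) (nat_lit 43) (nat_lit 5) (nat_lit 41) (nat_lit 4) (nat_lit 506) (nat_lit 348) (nat_lit 286))))) (XT.nd (nat_lit 312) (nat_lit 380) (nat_lit 0) (XT.nd (nat_lit 78) (nat_lit 228) (nat_lit 0) (XT.lf (nat_lit 0) (nat_lit 6402238986) (nat_lit 152) (nat_lit 8424320512) (nat_lit 228) (nat_lit 619707822) (nat_lit 38) (nat_lit 5) (nat_lit 40) (nat_lit 5) (nat_lit 41) (nat_lit 4) (nat_lit 507) (nat_lit 348) (nat_lit 285)) (XT.nd (nat_lit 78) (nat_lit 0) (nat_lit 0) (XT.lf (nat_lit 0) (nat_lit 3225855819) (nat_lit 152) (nat_lit 2177413128) (nat_lit 228) (nat_lit 10218763210) (nat_lit 35) (nat_lit 5) (nat_lit 37) (nat_lit 5) (nat_lit 38) (nat_lit 5) (nat_lit 508) (nat_lit 348) (nat_lit 284)) (XT.lf (nat_lit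 0) (nat_lit 11578618761) (nat_lit 228) (nat_lit 58087087) (nat_lit 76) (nat_lit 4163720289) (nat_lit 35) (nat_lit 5) (nat_lit 38) (nat_lit 5) (nat_lit 36) (nat_lit 4) (nat_lit 509) (nat_lit 348) (nat_lit 283)))) (XT.nd (nat_lit 53976) (nat_lit 0) (nat_lit 19532) (XT.lf (nat_lit 0) (nat_lit 8148458922) (nat_lit 228) (nat_lit 6867633457) (nat_lit 76) (nat_lit 1148424015) (nat_lit 30) (nat_lit 5) (nat_lit 33) (nat_lit 5) (nat_lit 31) (nat_lit 4) (nat_lit 511) (nat_lit 348) (nat_lit 281)) (XT.nd (nat_lit 78) (nat_lit 608) (nat_lit 0) (XT.lf (nat_lit 0) (nat_lit 2564375966) (nat_lit 608) (nat_lit 785599344) (nat_lit 608) (nat_lit 785599344) (nat_lit 295) (nat_lit 4) (nat_lit 303) (nat_lit 5) (nat_lit 303) (nat_lit 4) (nat_lit 442) (nat_lit 349) (nat_lit 349)) (XT.lf (nat_lit 0) (nat_lit 2566567972) (nat_lit 608) (nat_lit 4303761242) (nat_lit 0) (nat_lit 1460932790) (nat_lit 287) (nat_lit 5) (nat_lit 295) (nat_lit 4) (nat_lit 287) (nat_lit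 4) (nat_lit 443) (nat_lit 349) (nat_lit 348))))))))
noncomputable def xc29 : XT := (XT.nd (nat_lit 1638) (nat_lit 5852) (nat_lit 0) (XT.nd (nat_lit 780) (nat_lit 3952) (nat_lit 0) (XT.nd (nat_lit 390) (nat_lit 2660) (nat_lit 0) (XT.nd (nat_lit 156) (nat_lit 1140) (nat_lit 0) (XT.nd (nat_lit 78) (nat_lit 608) (nat_lit 0) (XT.lf (nat_lit 0) (nat_lit 2912592334) (nat_lit 608) (nat_lit 3834869967) (nat_lit 608) (nat_lit 1645278726) (nat_lit 279) (nat_lit 4) (nat_lit 287) (nat_lit 5) (nat_lit 287) (nat_lit 4) (nat_lit 444) (nat_lit 349) (nat_lit 347)) (XT.lf (nat_lit 0) (nat_lit 1787210636) (nat_lit 532) (nat_lit 707593273) (nat_lit 608) (nat_lit 5960877582) (nat_lit 271) (nat_lit 5) (nat_lit 278) (nat_lit 5) (nat_lit 279) (nat_lit 4) (nat_lit 445) (nat_lit 349) (nat_lit 346))) (XT.nd (nat_lit 78) (nat_lit 608) (nat_lit 0) (XT.lf (nat_lit 0) (nat_lit 639456980) (nat_lit 532) (nat_lit 6045192628) (nat_lit 532) (nat_lit 1835233818) (nat_lit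 264) (nat_lit 4) (nat_lit 271) (nat_lit 5) (nat_lit 271) (nat_lit 4) (nat_lit 446) (nat_lit 349) (nat_lit 345)) (XT.nd (nat_lit 78) (nat_lit 532) (nat_lit 0) (XT.lf (nat_lit 0) (nat_lit 2323485607) (nat_lit 608) (nat_lit 517925731) (nat_lit 76) (nat_lit 5744016246) (nat_lit 263) (nat_lit 5) (nat_lit 271) (nat_lit 5) (nat_lit 264) (nat_lit 4) (nat_lit 447) (nat_lit 349) (nat_lit 344)) (XT.lf (nat_lit 0) (nat_lit 6522373796) (nat_lit 608) (nat_lit 1679366011) (nat_lit 0) (nat_lit 450668837) (nat_lit 256) (nat_lit 5) (nat_lit 264) (nat_lit 4) (nat_lit 256) (nat_lit 4) (nat_lit 448) (nat_lit 349) (nat_lit 343))))) (XT.nd (nat_lit 156) (nat_lit 1596) (nat_lit 0) (XT.nd (nat_lit 78) (nat_lit 456) (nat_lit 0) (XT.lf (nat_lit 0) (nat_lit 2051310103) (nat_lit 608) (nat_lit 2871707530) (nat_lit 76) (nat_lit 3797558244) (nat_lit 248) (nat_lit 5) (nat_lit 256) (nat_lit 5) (nat_lit 249) (nat_lit 4) (nat_lit 449) (nat_lit 349) (nat_lit 342)) (XT.lf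 (nat_lit 0) (nat_lit 4712318496) (nat_lit 456) (nat_lit 1551453036) (nat_lit 532) (nat_lit 2526533118) (nat_lit 242) (nat_lit 5) (nat_lit 248) (nat_lit 5) (nat_lit 249) (nat_lit 4) (nat_lit 450) (nat_lit 349) (nat_lit 341))) (XT.nd (nat_lit 78) (nat_lit 988) (nat_lit 0) (XT.lf (nat_lit 0) (nat_lit 1666018041) (nat_lit 608) (nat_lit 5308668990) (nat_lit 76) (nat_lit 1886735396) (nat_lit 234) (nat_lit 5) (nat_lit 242) (nat_lit 5) (nat_lit 235) (nat_lit 4) (nat_lit 451) (nat_lit 349) (nat_lit 340)) (XT.nd (nat_lit 78) (nat_lit 532) (nat_lit 0) (XT.lf (nat_lit 0) (nat_lit 2365235491) (nat_lit 456) (nat_lit 3531322290) (nat_lit 532) (nat_lit 3037311411) (nat_lit 228) (nat_lit 5) (nat_lit 234) (nat_lit 5) (nat_lit 235) (nat_lit 4) (nat_lit 452) (nat_lit 349) (nat_lit 339)) (XT.lf (nat_lit 0) (nat_lit 1166592956) (nat_lit 532) (nat_lit 7840053976) (nat_lit 76) (nat_lit 1392837) (nat_lit 221) (nat_lit 5) (nat_lit 228) (nat_lit 5) (nat_lit 222)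 (nat_lit 4) (nat_lit 453) (nat_lit 349) (nat_lit 338)))))) (XT.nd (nat_lit 390) (nat_lit 2052) (nat_lit 0) (XT.nd (nat_lit 156) (nat_lit 1368) (nat_lit 0) (XT.nd (nat_lit 78) (nat_lit 532) (nat_lit 0) (XT.lf (nat_lit 0) (nat_lit 5417131977) (nat_lit 532) (nat_lit 75468379) (nat_lit 76) (nat_lit 3590627344) (nat_lit 221) (nat_lit 5) (nat_lit 228) (nat_lit 5) (nat_lit 222) (nat_lit 4) (nat_lit 454) (nat_lit 349) (nat_lit 337)) (XT.lf (nat_lit 0) (nat_lit 572584416) (nat_lit 532) (nat_lit 1311876743) (nat_lit 76) (nat_lit 7275629336) (nat_lit 214) (nat_lit 5) (nat_lit 221) (nat_lit 5) (nat_lit 215) (nat_lit 5) (nat_lit 455) (nat_lit 349) (nat_lit 336))) (XT.nd (nat_lit 78) (nat_lit 912) (nat_lit 0) (XT.lf (nat_lit 0) (nat_lit 4839556739) (nat_lit 532) (nat_lit 2589853767) (nat_lit 76) (nat_lit 1808743230) (nat_lit 208) (nat_lit 5) (nat_lit 215) (nat_lit 5) (nat_lit 209) (nat_lit 4) (nat_lit 456) (nat_lit 349) (nat_lit 335)) (XT.nd (nat_lit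 78) (nat_lit 532) (nat_lit 0) (XT.lf (nat_lit 0) (nat_lit 5430590482) (nat_lit 380) (nat_lit 3755197072) (nat_lit 456) (nat_lit 132112305) (nat_lit 203) (nat_lit 5) (nat_lit 208) (nat_lit 5) (nat_lit 209) (nat_lit 4) (nat_lit 457) (nat_lit 349) (nat_lit 334)) (XT.lf (nat_lit 0) (nat_lit 4146713042) (nat_lit 532) (nat_lit 5220464320) (nat_lit 76) (nat_lit 31868539) (nat_lit 196) (nat_lit 5) (nat_lit 203) (nat_lit 5) (nat_lit 197) (nat_lit 4) (nat_lit 458) (nat_lit 349) (nat_lit 333))))) (XT.nd (nat_lit 234) (nat_lit 836) (nat_lit 0) (XT.nd (nat_lit 78) (nat_lit 836) (nat_lit 0) (XT.lf (nat_lit 0) (nat_lit 2892671116) (nat_lit 380) (nat_lit 5624489169) (nat_lit 456) (nat_lit 964480827) (nat_lit 191) (nat_lit 5) (nat_lit 196) (nat_lit 5) (nat_lit 197) (nat_lit 4) (nat_lit 459) (nat_lit 349) (nat_lit 332)) (XT.nd (nat_lit 78) (nat_lit 380) (nat_lit 0) (XT.lf (nat_lit 0) (nat_lit 1575210726) (nat_lit 380) (nat_lit 1772789235) (nat_lit 456)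 (nat_lit 6217773918) (nat_lit 185) (nat_lit 5) (nat_lit 190) (nat_lit 5) (nat_lit 191) (nat_lit 5) (nat_lit 460) (nat_lit 349) (nat_lit 331)) (XT.lf (nat_lit 0) (nat_lit 226484967) (nat_lit 380) (nat_lit 7505775550) (nat_lit 456) (nat_lit 1919232390) (nat_lit 180) (nat_lit 5) (nat_lit 185) (nat_lit 5) (nat_lit 186) (nat_lit 4) (nat_lit 461) (nat_lit 349) (nat_lit 330)))) (XT.nd (nat_lit 78) (nat_lit 760) (nat_lit 0) (XT.lf (nat_lit 0) (nat_lit 2437296354) (nat_lit 456) (nat_lit 1147036882) (nat_lit 76) (nat_lit 6154185974) (nat_lit 179) (nat_lit 5) (nat_lit 185) (nat_lit 5) (nat_lit 180) (nat_lit 5) (nat_lit 462) (nat_lit 349) (nat_lit 329)) (XT.nd (nat_lit 78) (nat_lit 380) (nat_lit 0) (XT.lf (nat_lit 0) (nat_lit 6845276143) (nat_lit 456) (nat_lit 2546204588) (nat_lit 76) (nat_lit 435751206) (nat_lit 174) (nat_lit 5) (nat_lit 180) (nat_lit 5) (nat_lit 175) (nat_lit 4) (nat_lit 463) (nat_lit 349) (nat_lit 328)) (XT.lf (nat_lit 0) (nat_lit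 1415277246) (nat_lit 380) (nat_lit 3992851906) (nat_lit 76) (nat_lit 4509199842) (nat_lit 169) (nat_lit 5) (nat_lit 174) (nat_lit 5) (nat_lit 170) (nat_lit 5) (nat_lit 464) (nat_lit 349) (nat_lit 327))))))) (XT.nd (nat_lit 780) (nat_lit 2660) (nat_lit 0) (XT.nd (nat_lit 390) (nat_lit 1672) (nat_lit 0) (XT.nd (nat_lit 156) (nat_lit 760) (nat_lit 0) (XT.nd (nat_lit 78) (nat_lit 380) (nat_lit 0) (XT.lf (nat_lit 0) (nat_lit 4533940746) (nat_lit 380) (nat_lit 1313595750) (nat_lit 456) (nat_lit 4161557083) (nat_lit 164) (nat_lit 5) (nat_lit 169) (nat_lit 5) (nat_lit 170) (nat_lit 5) (nat_lit 465) (nat_lit 349) (nat_lit 326)) (XT.lf (nat_lit 0) (nat_lit 268702421) (nat_lit 380) (nat_lit 6995265460) (nat_lit 76) (nat_lit 2838562261) (nat_lit 159) (nat_lit 5) (nat_lit 164) (nat_lit 5) (nat_lit 160) (nat_lit 5) (nat_lit 466) (nat_lit 349) (nat_lit 325))) (XT.nd (nat_lit 78) (nat_lit 380) (nat_lit 0) (XT.lf (nat_lit 0) (nat_lit 1626949125) (nat_lit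 380) (nat_lit 3102000546) (nat_lit 456) (nat_lit 5468393491) (nat_lit 154) (nat_lit 5) (nat_lit 159) (nat_lit 5) (nat_lit 160) (nat_lit 5) (nat_lit 467) (nat_lit 349) (nat_lit 324)) (XT.nd (nat_lit 78) (nat_lit 76) (nat_lit 0) (XT.lf (nat_lit 0) (nat_lit 120532688) (nat_lit 304) (nat_lit 9154432482) (nat_lit 380) (nat_lit 1019156006) (nat_lit 150) (nat_lit 5) (nat_lit 154) (nat_lit 5) (nat_lit 155) (nat_lit 4) (nat_lit 468) (nat_lit 349) (nat_lit 323)) (XT.lf (nat_lit 0) (nat_lit 3492599317) (nat_lit 380) (nat_lit 1430781524) (nat_lit 76) (nat_lit 5468603222) (nat_lit 149) (nat_lit 5) (nat_lit 154) (nat_lit 5) (nat_lit 150) (nat_lit 5) (nat_lit 469) (nat_lit 349) (nat_lit 322))))) (XT.nd (nat_lit 156) (nat_lit 988) (nat_lit 0) (XT.nd (nat_lit 78) (nat_lit 380) (nat_lit 0) (XT.lf (nat_lit 0) (nat_lit 7483399043) (nat_lit 304) (nat_lit 588546604) (nat_lit 380) (nat_lit 2419903781) (nat_lit 145) (nat_lit 5) (nat_lit 149) (nat_lit 5) (nat_lit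 150) (nat_lit 5) (nat_lit 470) (nat_lit 349) (nat_lit 321)) (XT.lf (nat_lit 0) (nat_lit 2137010148) (nat_lit 380) (nat_lit 4647656494) (nat_lit 76) (nat_lit 3808445780) (nat_lit 140) (nat_lit 5) (nat_lit 145) (nat_lit 5) (nat_lit 141) (nat_lit 5) (nat_lit 471) (nat_lit 349) (nat_lit 320))) (XT.nd (nat_lit 78) (nat_lit 684) (nat_lit 0) (XT.lf (nat_lit 0) (nat_lit 4365126719) (nat_lit 304) (nat_lit 2382936808) (nat_lit 380) (nat_lit 3948109164) (nat_lit 136) (nat_lit 5) (nat_lit 140) (nat_lit 5) (nat_lit 141) (nat_lit 5) (nat_lit 472) (nat_lit 349) (nat_lit 319)) (XT.nd (nat_lit 78) (nat_lit 304) (nat_lit 0) (XT.lf (nat_lit 0) (nat_lit 647540162) (nat_lit 380) (nat_lit 8058345551) (nat_lit 76) (nat_lit 2095203605) (nat_lit 131) (nat_lit 5) (nat_lit 136) (nat_lit 5) (nat_lit 132) (nat_lit 5) (nat_lit 473) (nat_lit 349) (nat_lit 318)) (XT.lf (nat_lit 0) (nat_lit 1052492889) (nat_lit 304) (nat_lit 4238373157) (nat_lit 380) (nat_lit 5616543718)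 (nat_lit 127) (nat_lit 5) (nat_lit 131) (nat_lit 5) (nat_lit 132) (nat_lit 5) (nat_lit 474) (nat_lit 349) (nat_lit 317)))))) (XT.nd (nat_lit 390) (nat_lit 1444) (nat_lit 0) (XT.nd (nat_lit 156) (nat_lit 912) (nat_lit 0) (XT.nd (nat_lit 78) (nat_lit 304) (nat_lit 0) (XT.lf (nat_lit 0) (nat_lit 10027004071) (nat_lit 380) (nat_lit 658340727) (nat_lit 76) (nat_lit 330512909) (nat_lit 127) (nat_lit 5) (nat_lit 132) (nat_lit 5) (nat_lit 128) (nat_lit 4) (nat_lit 475) (nat_lit 349) (nat_lit 316)) (XT.lf (nat_lit 0) (nat_lit 3711846665) (nat_lit 304) (nat_lit 2435962091) (nat_lit 76) (nat_lit 4977593433) (nat_lit 123) (nat_lit 5) (nat_lit 127) (nat_lit 5) (nat_lit 124) (nat_lit 5) (nat_lit 476) (nat_lit 349) (nat_lit 315))) (XT.nd (nat_lit 78) (nat_lit 608) (nat_lit 0) (XT.lf (nat_lit 0) (nat_lit 6986951909) (nat_lit 304) (nat_lit 1500861177) (nat_lit 380) (nat_lit 2749303891) (nat_lit 119) (nat_lit 5) (nat_lit 123) (nat_lit 5) (nat_lit 124)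 (nat_lit 5) (nat_lit 477) (nat_lit 349) (nat_lit 314)) (XT.nd (nat_lit 78) (nat_lit 304) (nat_lit 0) (XT.lf (nat_lit 0) (nat_lit 1998364289) (nat_lit 304) (nat_lit 6130160734) (nat_lit 76) (nat_lit 3221950866) (nat_lit 115) (nat_lit 5) (nat_lit 119) (nat_lit 5) (nat_lit 116) (nat_lit 5) (nat_lit 478) (nat_lit 349) (nat_lit 313)) (XT.lf (nat_lit 0) (nat_lit 3393969451) (nat_lit 304) (nat_lit 3415928554) (nat_lit 380) (nat_lit 4655726008) (nat_lit 111) (nat_lit 5) (nat_lit 115) (nat_lit 5) (nat_lit 116) (nat_lit 5) (nat_lit 479) (nat_lit 349) (nat_lit 312))))) (XT.nd (nat_lit 234) (nat_lit 836) (nat_lit 0) (XT.nd (nat_lit 78) (nat_lit 304) (nat_lit 0) (XT.lf (nat_lit 0) (nat_lit 138422081) (nat_lit 304) (nat_lit 10058452020) (nat_lit 76) (nat_lit 1386071524) (nat_lit 107) (nat_lit 5) (nat_lit 111) (nat_lit 5) (nat_lit 108) (nat_lit 5) (nat_lit 480) (nat_lit 349) (nat_lit 311)) (XT.nd (nat_lit 78) (nat_lit 304) (nat_lit 0) (XT.lf (nat_lit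 0) (nat_lit 4988639820) (nat_lit 304) (nat_lit 428175479) (nat_lit 76) (nat_lit 6284732346) (nat_lit 107) (nat_lit 5) (nat_lit 111) (nat_lit 5) (nat_lit 108) (nat_lit 5) (nat_lit 481) (nat_lit 349) (nat_lit 310)) (XT.lf (nat_lit 0) (nat_lit 9425371173) (nat_lit 304) (nat_lit 518081387) (nat_lit 380) (nat_lit 1878917332) (nat_lit 103) (nat_lit 5) (nat_lit 107) (nat_lit 5) (nat_lit 108) (nat_lit 5) (nat_lit 482) (nat_lit 349) (nat_lit 309)))) (XT.nd (nat_lit 78) (nat_lit 532) (nat_lit 0) (XT.lf (nat_lit 0) (nat_lit 3039248572) (nat_lit 304) (nat_lit 4452532322) (nat_lit 76) (nat_lit 4452881013) (nat_lit 99) (nat_lit 5) (nat_lit 103) (nat_lit 5) (nat_lit 100) (nat_lit 5) (nat_lit 483) (nat_lit 349) (nat_lit 308)) (XT.nd (nat_lit 78) (nat_lit 304) (nat_lit 0) (XT.lf (nat_lit 0) (nat_lit 5505434759) (nat_lit 228) (nat_lit 2527263128) (nat_lit 304) (nat_lit 4036411906) (nat_lit 96) (nat_lit 5) (nat_lit 99) (nat_lit 5) (nat_lit 100) (nat_lit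 5) (nat_lit 484) (nat_lit 349) (nat_lit 307)) (XT.lf (nat_lit 0) (nat_lit 933779945) (nat_lit 304) (nat_lit 8739085694) (nat_lit 76) (nat_lit 2522740097) (nat_lit 92) (nat_lit 5) (nat_lit 96) (nat_lit 5) (nat_lit 93) (nat_lit 5) (nat_lit 485) (nat_lit 349) (nat_lit 306))))))))
noncomputable def xc30 : XT := (XT.nd (nat_lit 1560) (nat_lit 912) (nat_lit 0) (XT.nd (nat_lit 780) (nat_lit 1824) (nat_lit 0) (XT.nd (nat_lit 390) (nat_lit 912) (nat_lit 0) (XT.nd (nat_lit 156) (nat_lit 836) (nat_lit 0) (XT.nd (nat_lit 78) (nat_lit 0) (nat_lit 0) (XT.lf (nat_lit 0) (nat_lit 1322404933) (nat_lit 228) (nat_lit 4643597462) (nat_lit 304) (nat_lit 6357762102) (nat_lit 89) (nat_lit 5) (nat_lit 92) (nat_lit 5) (nat_lit 93) (nat_lit 5) (nat_lit 486) (nat_lit 349) (nat_lit 305)) (XT.lf (nat_lit 0) (nat_lit 11108197289) (nat_lit 304) (nat_lit 846967679) (nat_lit 76) (nat_lit 499134905) (nat_lit 89) (nat_lit 5) (nat_lit 93) (nat_lit 5) (nat_lit 90) (nat_lit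 4) (nat_lit 487) (nat_lit 349) (nat_lit 304))) (XT.nd (nat_lit 78) (nat_lit 532) (nat_lit 0) (XT.lf (nat_lit 0) (nat_lit 3757360553) (nat_lit 304) (nat_lit 3098689098) (nat_lit 76) (nat_lit 5730088117) (nat_lit 85) (nat_lit 5) (nat_lit 89) (nat_lit 5) (nat_lit 86) (nat_lit 5) (nat_lit 488) (nat_lit 349) (nat_lit 303)) (XT.nd (nat_lit 78) (nat_lit 304) (nat_lit 0) (XT.lf (nat_lit 0) (nat_lit 7314574422) (nat_lit 228) (nat_lit 1631781826) (nat_lit 304) (nat_lit 3774048465) (nat_lit 82) (nat_lit 5) (nat_lit 85) (nat_lit 5) (nat_lit 86) (nat_lit 5) (nat_lit 489) (nat_lit 349) (nat_lit 302)) (XT.lf (nat_lit 0) (nat_lit 1390108708) (nat_lit 304) (nat_lit 7794541783) (nat_lit 76) (nat_lit 3671997958) (nat_lit 78) (nat_lit 5) (nat_lit 82) (nat_lit 5) (nat_lit 79) (nat_lit 5) (nat_lit 490) (nat_lit 349) (nat_lit 301))))) (XT.nd (nat_lit 156) (nat_lit 532) (nat_lit 0) (XT.nd (nat_lit 78) (nat_lit 152) (nat_lit 0) (XT.lf (nat_lit 0) (nat_lit 2725309782)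 (nat_lit 228) (nat_lit 3895267855) (nat_lit 304) (nat_lit 6374269230) (nat_lit 75) (nat_lit 5) (nat_lit 78) (nat_lit 5) (nat_lit 79) (nat_lit 5) (nat_lit 491) (nat_lit 349) (nat_lit 300)) (XT.lf (nat_lit 0) (nat_lit 328340414) (nat_lit 152) (nat_lit 11640488615) (nat_lit 228) (nat_lit 1166716763) (nat_lit 73) (nat_lit 5) (nat_lit 75) (nat_lit 5) (nat_lit 76) (nat_lit 4) (nat_lit 492) (nat_lit 349) (nat_lit 299))) (XT.nd (nat_lit 78) (nat_lit 456) (nat_lit 0) (XT.lf (nat_lit 0) (nat_lit 4134516374) (nat_lit 228) (nat_lit 2145870871) (nat_lit 76) (nat_lit 6997255374) (nat_lit 72) (nat_lit 5) (nat_lit 75) (nat_lit 5) (nat_lit 73) (nat_lit 5) (nat_lit 493) (nat_lit 349) (nat_lit 298)) (XT.nd (nat_lit 78) (nat_lit 228) (nat_lit 0) (XT.lf (nat_lit 0) (nat_lit 8745061352) (nat_lit 228) (nat_lit 787614226) (nat_lit 304) (nat_lit 3889621087) (nat_lit 69) (nat_lit 5) (nat_lit 72) (nat_lit 5) (nat_lit 73) (nat_lit 5) (nat_lit 494) (nat_lit 349)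 (nat_lit 297)) (XT.lf (nat_lit 0) (nat_lit 1486290022) (nat_lit 228) (nat_lit 7305365919) (nat_lit 76) (nat_lit 4777265076) (nat_lit 66) (nat_lit 5) (nat_lit 69) (nat_lit 5) (nat_lit 67) (nat_lit 5) (nat_lit 495) (nat_lit 349) (nat_lit 296)))))) (XT.nd (nat_lit 390) (nat_lit 912) (nat_lit 0) (XT.nd (nat_lit 156) (nat_lit 532) (nat_lit 0) (XT.nd (nat_lit 78) (nat_lit 152) (nat_lit 0) (XT.lf (nat_lit 0) (nat_lit 3695187941) (nat_lit 228) (nat_lit 3233239754) (nat_lit 304) (nat_lit 6789320145) (nat_lit 63) (nat_lit 5) (nat_lit 66) (nat_lit 5) (nat_lit 67) (nat_lit 5) (nat_lit 496) (nat_lit 349) (nat_lit 295)) (XT.lf (nat_lit 0) (nat_lit 1052937534) (nat_lit 152) (nat_lit 11448545006) (nat_lit 228) (nat_lit 1367627171) (nat_lit 61) (nat_lit 5) (nat_lit 63) (nat_lit 5) (nat_lit 64) (nat_lit 4) (nat_lit 497) (nat_lit 349) (nat_lit 294))) (XT.nd (nat_lit 78) (nat_lit 456) (nat_lit 0) (XT.lf (nat_lit 0) (nat_lit 4147158540) (nat_lit 228) (nat_lit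 1676235224) (nat_lit 76) (nat_lit 8198779525) (nat_lit 60) (nat_lit 5) (nat_lit 63) (nat_lit 5) (nat_lit 61) (nat_lit 5) (nat_lit 498) (nat_lit 349) (nat_lit 293)) (XT.nd (nat_lit 78) (nat_lit 228) (nat_lit 0) (XT.lf (nat_lit 0) (nat_lit 9715648565) (nat_lit 228) (nat_lit 52490706) (nat_lit 304) (nat_lit 4409693831) (nat_lit 57) (nat_lit 5) (nat_lit 60) (nat_lit 5) (nat_lit 61) (nat_lit 5) (nat_lit 499) (nat_lit 349) (nat_lit 292)) (XT.lf (nat_lit 0) (nat_lit 1195753344) (nat_lit 228) (nat_lit 7357514508) (nat_lit 76) (nat_lit 5782265025) (nat_lit 54) (nat_lit 5) (nat_lit 57) (nat_lit 5) (nat_lit 55) (nat_lit 5) (nat_lit 500) (nat_lit 349) (nat_lit 291))))) (XT.nd (nat_lit 156) (nat_lit 532) (nat_lit 0) (XT.nd (nat_lit 78) (nat_lit 152) (nat_lit 0) (XT.lf (nat_lit 0) (nat_lit 4146963328) (nat_lit 228) (nat_lit 2716066221) (nat_lit 304) (nat_lit 7632598820) (nat_lit 51) (nat_lit 5) (nat_lit 54) (nat_lit 5) (nat_lit 55) (nat_lit 5) (nat_lit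 501) (nat_lit 349) (nat_lit 290)) (XT.lf (nat_lit 0) (nat_lit 1228574206) (nat_lit 152) (nat_lit 11445187837) (nat_lit 228) (nat_lit 1984561512) (nat_lit 49) (nat_lit 5) (nat_lit 51) (nat_lit 5) (nat_lit 52) (nat_lit 4) (nat_lit 502) (nat_lit 349) (nat_lit 289))) (XT.nd (nat_lit 78) (nat_lit 456) (nat_lit 0) (XT.lf (nat_lit 0) (nat_lit 3766267851) (nat_lit 228) (nat_lit 1777783692) (nat_lit 76) (nat_lit 9278943521) (nat_lit 48) (nat_lit 5) (nat_lit 51) (nat_lit 5) (nat_lit 49) (nat_lit 5) (nat_lit 503) (nat_lit 349) (nat_lit 288)) (XT.nd (nat_lit 78) (nat_lit 228) (nat_lit 0) (XT.lf (nat_lit 0) (nat_lit 9627162021) (nat_lit 304) (nat_lit 4854436712) (nat_lit 76) (nat_lit 508666481) (nat_lit 45) (nat_lit 5) (nat_lit 49) (nat_lit 5) (nat_lit 46) (nat_lit 4) (nat_lit 504) (nat_lit 349) (nat_lit 287)) (XT.lf (nat_lit 0) (nat_lit 486356716) (nat_lit 228) (nat_lit 8043299797) (nat_lit 76) (nat_lit 6630210713) (nat_lit 42) (nat_lit 5) (nat_lit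 45) (nat_lit 5) (nat_lit 43) (nat_lit 5) (nat_lit 505) (nat_lit 349) (nat_lit 286))))))) (XT.nd (nat_lit 54600) (nat_lit 0) (nat_lit 13984) (XT.nd (nat_lit 54210) (nat_lit 0) (nat_lit 18924) (XT.nd (nat_lit 156) (nat_lit 608) (nat_lit 0) (XT.nd (nat_lit 78) (nat_lit 152) (nat_lit 0) (XT.lf (nat_lit 0) (nat_lit 3989198108) (nat_lit 152) (nat_lit 2403132936) (nat_lit 228) (nat_lit 8939594490) (nat_lit 40) (nat_lit 5) (nat_lit 42) (nat_lit 5) (nat_lit 43) (nat_lit 5) (nat_lit 506) (nat_lit 349) (nat_lit 285)) (XT.lf (nat_lit 0) (nat_lit 761616956) (nat_lit 152) (nat_lit 11691733825) (nat_lit 228) (nat_lit 3053335706) (nat_lit 38) (nat_lit 5) (nat_lit 40) (nat_lit 5) (nat_lit 41) (nat_lit 4) (nat_lit 507) (nat_lit 349) (nat_lit 284))) (XT.nd (nat_lit 78) (nat_lit 532) (nat_lit 0) (XT.lf (nat_lit 0) (nat_lit 2957211810) (nat_lit 228) (nat_lit 2545317267) (nat_lit 76) (nat_lit 10181125197) (nat_lit 37) (nat_lit 5) (nat_lit 40) (nat_lit 5) (nat_lit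 38) (nat_lit 5) (nat_lit 508) (nat_lit 349) (nat_lit 283)) (XT.nd (nat_lit 156) (nat_lit 380) (nat_lit 0) (XT.lf (nat_lit 0) (nat_lit 9070760939) (nat_lit 228) (nat_lit 5947015210) (nat_lit 76) (nat_lit 845508119) (nat_lit 35) (nat_lit 5) (nat_lit 38) (nat_lit 5) (nat_lit 36) (nat_lit 4) (nat_lit 509) (nat_lit 349) (nat_lit 282)) (XT.lf (nat_lit 0) (nat_lit 3123111323) (nat_lit 152) (nat_lit 2355450035) (nat_lit 228) (nat_lit 10751804923) (nat_lit 30) (nat_lit 5) (nat_lit 32) (nat_lit 5) (nat_lit 33) (nat_lit 5) (nat_lit 511) (nat_lit 349) (nat_lit 280))))) (XT.nd (nat_lit 156) (nat_lit 1824) (nat_lit 0) (XT.nd (nat_lit 78) (nat_lit 684) (nat_lit 0) (XT.lf (nat_lit 0) (nat_lit 3672116064) (nat_lit 608) (nat_lit 202537602) (nat_lit 608) (nat_lit 202537602) (nat_lit 312) (nat_lit 4) (nat_lit 320) (nat_lit 5) (nat_lit 320) (nat_lit 4) (nat_lit 440) (nat_lit 350) (nat_lit 350)) (XT.lf (nat_lit 0) (nat_lit 3681046556) (nat_lit 684) (nat_lit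 2000491305) (nat_lit 0) (nat_lit 2530743714) (nat_lit 303) (nat_lit 5) (nat_lit 312) (nat_lit 4) (nat_lit 303) (nat_lit 4) (nat_lit 441) (nat_lit 350) (nat_lit 349))) (XT.nd (nat_lit 78) (nat_lit 1216) (nat_lit 0) (XT.lf (nat_lit 0) (nat_lit 5082028323) (nat_lit 608) (nat_lit 2733928820) (nat_lit 608) (nat_lit 455878092) (nat_lit 295) (nat_lit 4) (nat_lit 303) (nat_lit 5) (nat_lit 303) (nat_lit 4) (nat_lit 442) (nat_lit 350) (nat_lit 348)) (XT.nd (nat_lit 78) (nat_lit 608) (nat_lit 0) (XT.lf (nat_lit 0) (nat_lit 3625164316) (nat_lit 608) (nat_lit 4399655529) (nat_lit 0) (nat_lit 307825189) (nat_lit 287) (nat_lit 5) (nat_lit 295) (nat_lit 4) (nat_lit 287) (nat_lit 4) (nat_lit 443) (nat_lit 350) (nat_lit 347)) (XT.lf (nat_lit 0) (nat_lit 2768263561) (nat_lit 608) (nat_lit 5003295814) (nat_lit 608) (nat_lit 623254668) (nat_lit 279) (nat_lit 4) (nat_lit 287) (nat_lit 5) (nat_lit 287) (nat_lit 4) (nat_lit 444) (nat_lit 350) (nat_lit 346))))))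 (XT.nd (nat_lit 390) (nat_lit 2584) (nat_lit 0) (XT.nd (nat_lit 156) (nat_lit 1216) (nat_lit 0) (XT.nd (nat_lit 78) (nat_lit 532) (nat_lit 0) (XT.lf (nat_lit 0) (nat_lit 1584839471) (nat_lit 532) (nat_lit 1883846341) (nat_lit 608) (nat_lit 4989630744) (nat_lit 271) (nat_lit 5) (nat_lit 278) (nat_lit 5) (nat_lit 279) (nat_lit 4) (nat_lit 445) (nat_lit 350) (nat_lit 345)) (XT.lf (nat_lit 0) (nat_lit 391893415) (nat_lit 532) (nat_lit 7224237464) (nat_lit 532) (nat_lit 907235624) (nat_lit 264) (nat_lit 4) (nat_lit 271) (nat_lit 5) (nat_lit 271) (nat_lit 4) (nat_lit 446) (nat_lit 350) (nat_lit 344))) (XT.nd (nat_lit 78) (nat_lit 1140) (nat_lit 0) (XT.lf (nat_lit 0) (nat_lit 3206286702) (nat_lit 608) (nat_lit 822075100) (nat_lit 76) (nat_lit 4561088881) (nat_lit 263) (nat_lit 5) (nat_lit 271) (nat_lit 5) (nat_lit 264) (nat_lit 4) (nat_lit 447) (nat_lit 350) (nat_lit 343)) (XT.nd (nat_lit 78) (nat_lit 608) (nat_lit 0) (XT.lf (nat_lit 0) (nat_lit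 6621107681) (nat_lit 532) (nat_lit 746418992) (nat_lit 608) (nat_lit 1289658035) (nat_lit 256) (nat_lit 5) (nat_lit 263) (nat_lit 5) (nat_lit 264) (nat_lit 4) (nat_lit 448) (nat_lit 350) (nat_lit 342)) (XT.lf (nat_lit 0) (nat_lit 2840805427) (nat_lit 608) (nat_lit 3286029097) (nat_lit 76) (nat_lit 2599205488) (nat_lit 248) (nat_lit 5) (nat_lit 256) (nat_lit 5) (nat_lit 249) (nat_lit 4) (nat_lit 449) (nat_lit 350) (nat_lit 341))))) (XT.nd (nat_lit 234) (nat_lit 1064) (nat_lit 0) (XT.nd (nat_lit 78) (nat_lit 1064) (nat_lit 0) (XT.lf (nat_lit 0) (nat_lit 4245350447) (nat_lit 456) (nat_lit 2772873537) (nat_lit 532) (nat_lit 1778245658) (nat_lit 242) (nat_lit 5) (nat_lit 248) (nat_lit 5) (nat_lit 249) (nat_lit 4) (nat_lit 450) (nat_lit 350) (nat_lit 340)) (XT.nd (nat_lit 78) (nat_lit 456) (nat_lit 0) (XT.lf (nat_lit 0) (nat_lit 2361130127) (nat_lit 608) (nat_lit 5839030391) (nat_lit 76) (nat_lit 668196961) (nat_lit 234) (nat_lit 5) (nat_lit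 242) (nat_lit 5) (nat_lit 235) (nat_lit 4) (nat_lit 451) (nat_lit 350) (nat_lit 339)) (XT.lf (nat_lit 0) (nat_lit 1780334445) (nat_lit 456) (nat_lit 4775873301) (nat_lit 532) (nat_lit 2385305741) (nat_lit 228) (nat_lit 5) (nat_lit 234) (nat_lit 5) (nat_lit 235) (nat_lit 4) (nat_lit 452) (nat_lit 350) (nat_lit 338)))) (XT.nd (nat_lit 78) (nat_lit 532) (nat_lit 0) (XT.lf (nat_lit 0) (nat_lit 515681792) (nat_lit 456) (nat_lit 1258567677) (nat_lit 532) (nat_lit 7242065889) (nat_lit 221) (nat_lit 5) (nat_lit 227) (nat_lit 5) (nat_lit 228) (nat_lit 5) (nat_lit 453) (nat_lit 350) (nat_lit 337)) (XT.nd (nat_lit 78) (nat_lit 532) (nat_lit 0) (XT.lf (nat_lit 0) (nat_lit 5985278947) (nat_lit 532) (nat_lit 775071545) (nat_lit 76) (nat_lit 2331942990) (nat_lit 221) (nat_lit 5) (nat_lit 228) (nat_lit 5) (nat_lit 222) (nat_lit 4) (nat_lit 454) (nat_lit 350) (nat_lit 336)) (XT.lf (nat_lit 0) (nat_lit 1088466517) (nat_lit 532) (nat_lit 2080834158) (nat_lit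 76) (nat_lit 6000500334) (nat_lit 214) (nat_lit 5) (nat_lit 221) (nat_lit 5) (nat_lit 215) (nat_lit 5) (nat_lit 455) (nat_lit 350) (nat_lit 335))))))))
noncomputable def xc31 : XT := (XT.nd (nat_lit 1638) (nat_lit 4560) (nat_lit 0) (XT.nd (nat_lit 780) (nat_lit 3116) (nat_lit 0) (XT.nd (nat_lit 390) (nat_lit 1596) (nat_lit 0) (XT.nd (nat_lit 156) (nat_lit 1292) (nat_lit 0) (XT.nd (nat_lit 78) (nat_lit 456) (nat_lit 0) (XT.lf (nat_lit 0) (nat_lit 5310973927) (nat_lit 532) (nat_lit 3417969050) (nat_lit 76) (nat_lit 519810572) (nat_lit 208) (nat_lit 5) (nat_lit 215) (nat_lit 5) (nat_lit 209) (nat_lit 4) (nat_lit 456) (nat_lit 350) (nat_lit 334)) (XT.lf (nat_lit 0) (nat_lit 287977937) (nat_lit 456) (nat_lit 4786837963) (nat_lit 76) (nat_lit 4254369412) (nat_lit 202) (nat_lit 5) (nat_lit 208) (nat_lit 5) (nat_lit 203) (nat_lit 5) (nat_lit 457) (nat_lit 350) (nat_lit 333))) (XT.nd (nat_lit 78) (nat_lit 836) (nat_lit 0) (XT.lf (nat_lit 0) (nat_lit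 3219155377) (nat_lit 456) (nat_lit 1309149559) (nat_lit 532) (nat_lit 4882744576) (nat_lit 196) (nat_lit 5) (nat_lit 202) (nat_lit 5) (nat_lit 203) (nat_lit 5) (nat_lit 458) (nat_lit 350) (nat_lit 332)) (XT.nd (nat_lit 78) (nat_lit 456) (nat_lit 0) (XT.lf (nat_lit 0) (nat_lit 1869466199) (nat_lit 380) (nat_lit 6984004989) (nat_lit 456) (nat_lit 641079154) (nat_lit 191) (nat_lit 5) (nat_lit 196) (nat_lit 5) (nat_lit 197) (nat_lit 4) (nat_lit 459) (nat_lit 350) (nat_lit 331)) (XT.lf (nat_lit 0) (nat_lit 475629132) (nat_lit 380) (nat_lit 3154345065) (nat_lit 456) (nat_lit 5949410637) (nat_lit 185) (nat_lit 5) (nat_lit 190) (nat_lit 5) (nat_lit 191) (nat_lit 5) (nat_lit 460) (nat_lit 350) (nat_lit 330))))) (XT.nd (nat_lit 156) (nat_lit 1140) (nat_lit 0) (XT.nd (nat_lit 78) (nat_lit 456) (nat_lit 0) (XT.lf (nat_lit 0) (nat_lit 7973924303) (nat_lit 456) (nat_lit 927831266) (nat_lit 76) (nat_lit 764154501) (nat_lit 185) (nat_lit 5) (nat_lit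 191) (nat_lit 5) (nat_lit 186) (nat_lit 4) (nat_lit 461) (nat_lit 350) (nat_lit 329)) (XT.lf (nat_lit 0) (nat_lit 2625633830) (nat_lit 456) (nat_lit 2376866828) (nat_lit 76) (nat_lit 4751124782) (nat_lit 179) (nat_lit 5) (nat_lit 185) (nat_lit 5) (nat_lit 180) (nat_lit 5) (nat_lit 462) (nat_lit 350) (nat_lit 328))) (XT.nd (nat_lit 78) (nat_lit 760) (nat_lit 0) (XT.lf (nat_lit 0) (nat_lit 5990879253) (nat_lit 380) (nat_lit 1002271916) (nat_lit 456) (nat_lit 2849996248) (nat_lit 174) (nat_lit 5) (nat_lit 179) (nat_lit 5) (nat_lit 180) (nat_lit 5) (nat_lit 463) (nat_lit 350) (nat_lit 327)) (XT.nd (nat_lit 78) (nat_lit 380) (nat_lit 0) (XT.lf (nat_lit 0) (nat_lit 1500812512) (nat_lit 380) (nat_lit 5374108647) (nat_lit 76) (nat_lit 3059200051) (nat_lit 169) (nat_lit 5) (nat_lit 174) (nat_lit 5) (nat_lit 170) (nat_lit 5) (nat_lit 464) (nat_lit 350) (nat_lit 326)) (XT.lf (nat_lit 0) (nat_lit 3087183557) (nat_lit 380) (nat_lit 2807537285) (nat_lit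 456) (nat_lit 4131931972) (nat_lit 164) (nat_lit 5) (nat_lit 169) (nat_lit 5) (nat_lit 170) (nat_lit 5) (nat_lit 465) (nat_lit 350) (nat_lit 325)))))) (XT.nd (nat_lit 390) (nat_lit 1672) (nat_lit 0) (XT.nd (nat_lit 156) (nat_lit 684) (nat_lit 0) (XT.nd (nat_lit 78) (nat_lit 380) (nat_lit 0) (XT.lf (nat_lit 0) (nat_lit 249238259) (nat_lit 380) (nat_lit 8534912311) (nat_lit 76) (nat_lit 1336908973) (nat_lit 159) (nat_lit 5) (nat_lit 164) (nat_lit 5) (nat_lit 160) (nat_lit 5) (nat_lit 466) (nat_lit 350) (nat_lit 324)) (XT.lf (nat_lit 0) (nat_lit 19465287) (nat_lit 380) (nat_lit 4650854337) (nat_lit 456) (nat_lit 5546336257) (nat_lit 154) (nat_lit 5) (nat_lit 159) (nat_lit 5) (nat_lit 160) (nat_lit 5) (nat_lit 467) (nat_lit 350) (nat_lit 323))) (XT.nd (nat_lit 78) (nat_lit 684) (nat_lit 0) (XT.lf (nat_lit 0) (nat_lit 8766800580) (nat_lit 380) (nat_lit 412791878) (nat_lit 456) (nat_lit 1134576291) (nat_lit 154) (nat_lit 5) (nat_lit 159) (nat_lit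 5) (nat_lit 160) (nat_lit 5) (nat_lit 468) (nat_lit 350) (nat_lit 322)) (XT.nd (nat_lit 78) (nat_lit 304) (nat_lit 0) (XT.lf (nat_lit 0) (nat_lit 3337251562) (nat_lit 380) (nat_lit 3182970286) (nat_lit 76) (nat_lit 3892653600) (nat_lit 149) (nat_lit 5) (nat_lit 154) (nat_lit 5) (nat_lit 150) (nat_lit 5) (nat_lit 469) (nat_lit 350) (nat_lit 321)) (XT.lf (nat_lit 0) (nat_lit 5661263684) (nat_lit 304) (nat_lit 2215549148) (nat_lit 380) (nat_lit 2636723682) (nat_lit 145) (nat_lit 5) (nat_lit 149) (nat_lit 5) (nat_lit 150) (nat_lit 5) (nat_lit 470) (nat_lit 350) (nat_lit 320))))) (XT.nd (nat_lit 234) (nat_lit 608) (nat_lit 0) (XT.nd (nat_lit 78) (nat_lit 684) (nat_lit 0) (XT.lf (nat_lit 0) (nat_lit 1871948888) (nat_lit 380) (nat_lit 6573033326) (nat_lit 76) (nat_lit 2170867149) (nat_lit 140) (nat_lit 5) (nat_lit 145) (nat_lit 5) (nat_lit 141) (nat_lit 5) (nat_lit 471) (nat_lit 350) (nat_lit 319)) (XT.nd (nat_lit 78) (nat_lit 380) (nat_lit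 0) (XT.lf (nat_lit 0) (nat_lit 2367300076) (nat_lit 304) (nat_lit 4074975420) (nat_lit 380) (nat_lit 4277448671) (nat_lit 136) (nat_lit 5) (nat_lit 140) (nat_lit 5) (nat_lit 141) (nat_lit 5) (nat_lit 472) (nat_lit 350) (nat_lit 318)) (XT.lf (nat_lit 0) (nat_lit 270028154) (nat_lit 380) (nat_lit 10164556151) (nat_lit 76) (nat_lit 391149093) (nat_lit 131) (nat_lit 5) (nat_lit 136) (nat_lit 5) (nat_lit 132) (nat_lit 5) (nat_lit 473) (nat_lit 350) (nat_lit 317)))) (XT.nd (nat_lit 78) (nat_lit 608) (nat_lit 0) (XT.lf (nat_lit 0) (nat_lit 4878952516) (nat_lit 380) (nat_lit 1113956814) (nat_lit 76) (nat_lit 4939832544) (nat_lit 131) (nat_lit 5) (nat_lit 136) (nat_lit 5) (nat_lit 132) (nat_lit 5) (nat_lit 474) (nat_lit 350) (nat_lit 316)) (XT.nd (nat_lit 78) (nat_lit 304) (nat_lit 0) (XT.lf (nat_lit 0) (nat_lit 8132351318) (nat_lit 304) (nat_lit 1445909134) (nat_lit 380) (nat_lit 1463665966) (nat_lit 127) (nat_lit 5) (nat_lit 131) (nat_lit 5)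 (nat_lit 132) (nat_lit 5) (nat_lit 475) (nat_lit 350) (nat_lit 315)) (XT.lf (nat_lit 0) (nat_lit 3191573605) (nat_lit 304) (nat_lit 4777522598) (nat_lit 76) (nat_lit 3183470112) (nat_lit 123) (nat_lit 5) (nat_lit 127) (nat_lit 5) (nat_lit 124) (nat_lit 5) (nat_lit 476) (nat_lit 350) (nat_lit 314))))))) (XT.nd (nat_lit 780) (nat_lit 2204) (nat_lit 0) (XT.nd (nat_lit 390) (nat_lit 1140) (nat_lit 0) (XT.nd (nat_lit 156) (nat_lit 608) (nat_lit 0) (XT.nd (nat_lit 78) (nat_lit 304) (nat_lit 0) (XT.lf (nat_lit 0) (nat_lit 4567967784) (nat_lit 304) (nat_lit 3357012337) (nat_lit 380) (nat_lit 3340152181) (nat_lit 119) (nat_lit 5) (nat_lit 123) (nat_lit 5) (nat_lit 124) (nat_lit 5) (nat_lit 477) (nat_lit 350) (nat_lit 313)) (XT.lf (nat_lit 0) (nat_lit 1359783588) (nat_lit 304) (nat_lit 8668801337) (nat_lit 76) (nat_lit 1351092642) (nat_lit 115) (nat_lit 5) (nat_lit 119) (nat_lit 5) (nat_lit 116) (nat_lit 5) (nat_lit 478) (nat_lit 350) (nat_lit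 312))) (XT.nd (nat_lit 78) (nat_lit 304) (nat_lit 0) (XT.lf (nat_lit 0) (nat_lit 775120727) (nat_lit 304) (nat_lit 5352502261) (nat_lit 380) (nat_lit 5368076589) (nat_lit 111) (nat_lit 5) (nat_lit 115) (nat_lit 5) (nat_lit 116) (nat_lit 5) (nat_lit 479) (nat_lit 350) (nat_lit 311)) (XT.nd (nat_lit 78) (nat_lit 304) (nat_lit 0) (XT.lf (nat_lit 0) (nat_lit 10433398466) (nat_lit 304) (nat_lit 562136734) (nat_lit 380) (nat_lit 618412509) (nat_lit 111) (nat_lit 5) (nat_lit 115) (nat_lit 5) (nat_lit 116) (nat_lit 5) (nat_lit 480) (nat_lit 350) (nat_lit 310)) (XT.lf (nat_lit 0) (nat_lit 4201910664) (nat_lit 304) (nat_lit 3218363557) (nat_lit 76) (nat_lit 4313115914) (nat_lit 107) (nat_lit 5) (nat_lit 111) (nat_lit 5) (nat_lit 108) (nat_lit 5) (nat_lit 481) (nat_lit 350) (nat_lit 309))))) (XT.nd (nat_lit 156) (nat_lit 532) (nat_lit 0) (XT.nd (nat_lit 78) (nat_lit 304) (nat_lit 0) (XT.lf (nat_lit 0) (nat_lit 6552390421) (nat_lit 304) (nat_lit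 2559662838) (nat_lit 380) (nat_lit 2743052527) (nat_lit 103) (nat_lit 5) (nat_lit 107) (nat_lit 5) (nat_lit 108) (nat_lit 5) (nat_lit 482) (nat_lit 350) (nat_lit 308)) (XT.lf (nat_lit 0) (nat_lit 2127555978) (nat_lit 304) (nat_lit 7457150427) (nat_lit 76) (nat_lit 2393981420) (nat_lit 99) (nat_lit 5) (nat_lit 103) (nat_lit 5) (nat_lit 100) (nat_lit 5) (nat_lit 483) (nat_lit 350) (nat_lit 307))) (XT.nd (nat_lit 78) (nat_lit 304) (nat_lit 0) (XT.lf (nat_lit 0) (nat_lit 2415030316) (nat_lit 228) (nat_lit 4660035286) (nat_lit 304) (nat_lit 5028988903) (nat_lit 96) (nat_lit 5) (nat_lit 99) (nat_lit 5) (nat_lit 100) (nat_lit 5) (nat_lit 484) (nat_lit 350) (nat_lit 306)) (XT.nd (nat_lit 78) (nat_lit 76) (nat_lit 0) (XT.lf (nat_lit 0) (nat_lit 263986292) (nat_lit 228) (nat_lit 11859898734) (nat_lit 304) (nat_lit 107996299) (nat_lit 93) (nat_lit 5) (nat_lit 96) (nat_lit 5) (nat_lit 97) (nat_lit 4) (nat_lit 485) (nat_lit 350) (nat_lit 305)) (XT.lf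 (nat_lit 0) (nat_lit 4891315791) (nat_lit 304) (nat_lit 1968435846) (nat_lit 76) (nat_lit 5500989008) (nat_lit 92) (nat_lit 5) (nat_lit 96) (nat_lit 5) (nat_lit 93) (nat_lit 5) (nat_lit 486) (nat_lit 350) (nat_lit 304)))))) (XT.nd (nat_lit 390) (nat_lit 1140) (nat_lit 0) (XT.nd (nat_lit 156) (nat_lit 532) (nat_lit 0) (XT.nd (nat_lit 78) (nat_lit 304) (nat_lit 0) (XT.lf (nat_lit 0) (nat_lit 8248590964) (nat_lit 228) (nat_lit 1743156847) (nat_lit 304) (nat_lit 2500363468) (nat_lit 89) (nat_lit 5) (nat_lit 92) (nat_lit 5) (nat_lit 93) (nat_lit 5) (nat_lit 487) (nat_lit 350) (nat_lit 303)) (XT.lf (nat_lit 0) (nat_lit 2558811924) (nat_lit 304) (nat_lit 6605193746) (nat_lit 76) (nat_lit 3461281910) (nat_lit 85) (nat_lit 5) (nat_lit 89) (nat_lit 5) (nat_lit 86) (nat_lit 5) (nat_lit 488) (nat_lit 350) (nat_lit 302))) (XT.nd (nat_lit 78) (nat_lit 304) (nat_lit 0) (XT.lf (nat_lit 0) (nat_lit 3716254379) (nat_lit 228) (nat_lit 3983078180) (nat_lit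 304) (nat_lit 5061191469) (nat_lit 82) (nat_lit 5) (nat_lit 85) (nat_lit 5) (nat_lit 86) (nat_lit 5) (nat_lit 489) (nat_lit 350) (nat_lit 301)) (XT.nd (nat_lit 78) (nat_lit 0) (nat_lit 0) (XT.lf (nat_lit 0) (nat_lit 54989302) (nat_lit 304) (nat_lit 11543784605) (nat_lit 76) (nat_lit 1299458146) (nat_lit 78) (nat_lit 5) (nat_lit 82) (nat_lit 5) (nat_lit 79) (nat_lit 5) (nat_lit 490) (nat_lit 350) (nat_lit 300)) (XT.lf (nat_lit 0) (nat_lit 5242767915) (nat_lit 304) (nat_lit 1104415329) (nat_lit 76) (nat_lit 6690101033) (nat_lit 78) (nat_lit 5) (nat_lit 82) (nat_lit 5) (nat_lit 79) (nat_lit 5) (nat_lit 491) (nat_lit 350) (nat_lit 299))))) (XT.nd (nat_lit 234) (nat_lit 456) (nat_lit 0) (XT.nd (nat_lit 78) (nat_lit 456) (nat_lit 0) (XT.lf (nat_lit 0) (nat_lit 9580793679) (nat_lit 228) (nat_lit 966211804) (nat_lit 304) (nat_lit 2631857995) (nat_lit 75) (nat_lit 5) (nat_lit 78) (nat_lit 5) (nat_lit 79) (nat_lit 5) (nat_lit 492) (nat_lit 350)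 (nat_lit 298)) (XT.nd (nat_lit 78) (nat_lit 228) (nat_lit 0) (XT.lf (nat_lit 0) (nat_lit 2633603228) (nat_lit 228) (nat_lit 6192795155) (nat_lit 76) (nat_lit 4495851925) (nat_lit 72) (nat_lit 5) (nat_lit 75) (nat_lit 5) (nat_lit 73) (nat_lit 5) (nat_lit 493) (nat_lit 350) (nat_lit 297)) (XT.lf (nat_lit 0) (nat_lit 4599801414) (nat_lit 228) (nat_lit 3380649261) (nat_lit 304) (nat_lit 5487479916) (nat_lit 69) (nat_lit 5) (nat_lit 72) (nat_lit 5) (nat_lit 73) (nat_lit 5) (nat_lit 494) (nat_lit 350) (nat_lit 296)))) (XT.nd (nat_lit 78) (nat_lit 304) (nat_lit 0) (XT.lf (nat_lit 0) (nat_lit 1999376294) (nat_lit 152) (nat_lit 11454641430) (nat_lit 228) (nat_lit 162111103) (nat_lit 67) (nat_lit 5) (nat_lit 69) (nat_lit 5) (nat_lit 70) (nat_lit 4) (nat_lit 495) (nat_lit 350) (nat_lit 295)) (XT.nd (nat_lit 78) (nat_lit 228) (nat_lit 0) (XT.lf (nat_lit 0) (nat_lit 5233864586) (nat_lit 228) (nat_lit 707680509) (nat_lit 76) (nat_lit 7824397367) (nat_lit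 66) (nat_lit 5) (nat_lit 69) (nat_lit 5) (nat_lit 67) (nat_lit 5) (nat_lit 496) (nat_lit 350) (nat_lit 294)) (XT.lf (nat_lit 0) (nat_lit 10468517371) (nat_lit 228) (nat_lit 286925761) (nat_lit 304) (nat_lit 3162890727) (nat_lit 63) (nat_lit 5) (nat_lit 66) (nat_lit 5) (nat_lit 67) (nat_lit 5) (nat_lit 497) (nat_lit 350) (nat_lit 293))))))))
noncomputable def xc32 : XT := (XT.nd (nat_lit 55224) (nat_lit 0) (nat_lit 10032) (XT.nd (nat_lit 780) (nat_lit 608) (nat_lit 0) (XT.nd (nat_lit 390) (nat_lit 836) (nat_lit 0) (XT.nd (nat_lit 156) (nat_lit 456) (nat_lit 0) (XT.nd (nat_lit 78) (nat_lit 228) (nat_lit 0) (XT.lf (nat_lit 0) (nat_lit 2326529958) (nat_lit 228) (nat_lit 6305011259) (nat_lit 76) (nat_lit 5441067546) (nat_lit 60) (nat_lit 5) (nat_lit 63) (nat_lit 5) (nat_lit 61) (nat_lit 5) (nat_lit 498) (nat_lit 350) (nat_lit 292)) (XT.lf (nat_lit 0) (nat_lit 4981482152) (nat_lit 228) (nat_lit 2911564864) (nat_lit 304) (nat_lit 6336310833)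 (nat_lit 57) (nat_lit 5) (nat_lit 60) (nat_lit 5) (nat_lit 61) (nat_lit 5) (nat_lit 499) (nat_lit 350) (nat_lit 291))) (XT.nd (nat_lit 78) (nat_lit 304) (nat_lit 0) (XT.lf (nat_lit 0) (nat_lit 2111625069) (nat_lit 152) (nat_lit 11486739369) (nat_lit 228) (nat_lit 790328078) (nat_lit 55) (nat_lit 5) (nat_lit 57) (nat_lit 5) (nat_lit 58) (nat_lit 4) (nat_lit 500) (nat_lit 350) (nat_lit 290)) (XT.nd (nat_lit 78) (nat_lit 228) (nat_lit 0) (XT.lf (nat_lit 0) (nat_lit 4836750614) (nat_lit 228) (nat_lit 865235735) (nat_lit 76) (nat_lit 8847915542) (nat_lit 54) (nat_lit 5) (nat_lit 57) (nat_lit 5) (nat_lit 55) (nat_lit 5) (nat_lit 501) (nat_lit 350) (nat_lit 289)) (XT.lf (nat_lit 0) (nat_lit 10590807861) (nat_lit 304) (nat_lit 3889644796) (nat_lit 76) (nat_lit 233277925) (nat_lit 51) (nat_lit 5) (nat_lit 55) (nat_lit 5) (nat_lit 52) (nat_lit 4) (nat_lit 502) (nat_lit 350) (nat_lit 288))))) (XT.nd (nat_lit 156) (nat_lit 380) (nat_lit 0) (XT.nd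 (nat_lit 78) (nat_lit 228) (nat_lit 0) (XT.lf (nat_lit 0) (nat_lit 1606637685) (nat_lit 228) (nat_lit 7033032269) (nat_lit 76) (nat_lit 6239996089) (nat_lit 48) (nat_lit 5) (nat_lit 51) (nat_lit 5) (nat_lit 49) (nat_lit 5) (nat_lit 503) (nat_lit 350) (nat_lit 287)) (XT.lf (nat_lit 0) (nat_lit 4770967313) (nat_lit 228) (nat_lit 2635270797) (nat_lit 304) (nat_lit 7641923957) (nat_lit 45) (nat_lit 5) (nat_lit 48) (nat_lit 5) (nat_lit 49) (nat_lit 5) (nat_lit 504) (nat_lit 350) (nat_lit 286))) (XT.nd (nat_lit 78) (nat_lit 228) (nat_lit 0) (XT.lf (nat_lit 0) (nat_lit 1599105787) (nat_lit 152) (nat_lit 11756726458) (nat_lit 228) (nat_lit 1863515733) (nat_lit 43) (nat_lit 5) (nat_lit 45) (nat_lit 5) (nat_lit 46) (nat_lit 4) (nat_lit 505) (nat_lit 350) (nat_lit 285)) (XT.nd (nat_lit 78) (nat_lit 152) (nat_lit 0) (XT.lf (nat_lit 0) (nat_lit 4017982481) (nat_lit 228) (nat_lit 1670661220) (nat_lit 76) (nat_lit 9703982897) (nat_lit 42) (nat_lit 5)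 (nat_lit 45) (nat_lit 5) (nat_lit 43) (nat_lit 5) (nat_lit 506) (nat_lit 350) (nat_lit 284)) (XT.lf (nat_lit 0) (nat_lit 10018694461) (nat_lit 228) (nat_lit 5012695568) (nat_lit 76) (nat_lit 537203679) (nat_lit 40) (nat_lit 5) (nat_lit 43) (nat_lit 5) (nat_lit 41) (nat_lit 4) (nat_lit 507) (nat_lit 350) (nat_lit 283)))))) (XT.nd (nat_lit 54054) (nat_lit 0) (nat_lit 18696) (XT.nd (nat_lit 234) (nat_lit 228) (nat_lit 0) (XT.nd (nat_lit 78) (nat_lit 152) (nat_lit 0) (XT.lf (nat_lit 0) (nat_lit 437251035) (nat_lit 228) (nat_lit 8475154462) (nat_lit 76) (nat_lit 6834602986) (nat_lit 37) (nat_lit 5) (nat_lit 40) (nat_lit 5) (nat_lit 38) (nat_lit 5) (nat_lit 508) (nat_lit 350) (nat_lit 282)) (XT.lf (nat_lit 0) (nat_lit 3870813086) (nat_lit 152) (nat_lit 2612642992) (nat_lit 228) (nat_lit 9444529281) (nat_lit 35) (nat_lit 5) (nat_lit 37) (nat_lit 5) (nat_lit 38) (nat_lit 5) (nat_lit 509) (nat_lit 350) (nat_lit 281))) (XT.nd (nat_lit 53664) (nat_lit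 0) (nat_lit 21280) (XT.lf (nat_lit 0) (nat_lit 2738330228) (nat_lit 228) (nat_lit 3225099662) (nat_lit 76) (nat_lit 10334441988) (nat_lit 32) (nat_lit 5) (nat_lit 35) (nat_lit 5) (nat_lit 33) (nat_lit 5) (nat_lit 511) (nat_lit 350) (nat_lit 279)) (XT.nd (nat_lit 78) (nat_lit 608) (nat_lit 0) (XT.lf (nat_lit 0) (nat_lit 394621124) (nat_lit 684) (nat_lit 3231422082) (nat_lit 0) (nat_lit 394621124) (nat_lit 320) (nat_lit 5) (nat_lit 329) (nat_lit 4) (nat_lit 320) (nat_lit 4) (nat_lit 438) (nat_lit 351) (nat_lit 351)) (XT.lf (nat_lit 0) (nat_lit 351874221) (nat_lit 608) (nat_lit 4471141058) (nat_lit 608) (nat_lit 3274365980) (nat_lit 312) (nat_lit 4) (nat_lit 320) (nat_lit 5) (nat_lit 320) (nat_lit 4) (nat_lit 439) (nat_lit 351) (nat_lit 350))))) (XT.nd (nat_lit 156) (nat_lit 1900) (nat_lit 0) (XT.nd (nat_lit 78) (nat_lit 608) (nat_lit 0) (XT.lf (nat_lit 0) (nat_lit 747021898) (nat_lit 684) (nat_lit 861099741) (nat_lit 76) (nat_lit 6546843986)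 (nat_lit 311) (nat_lit 5) (nat_lit 320) (nat_lit 5) (nat_lit 312) (nat_lit 4) (nat_lit 440) (nat_lit 351) (nat_lit 349)) (XT.lf (nat_lit 0) (nat_lit 4785689678) (nat_lit 684) (nat_lit 2093635162) (nat_lit 0) (nat_lit 1334330051) (nat_lit 303) (nat_lit 5) (nat_lit 312) (nat_lit 4) (nat_lit 303) (nat_lit 4) (nat_lit 441) (nat_lit 351) (nat_lit 348))) (XT.nd (nat_lit 78) (nat_lit 1216) (nat_lit 0) (XT.lf (nat_lit 0) (nat_lit 604437689) (nat_lit 684) (nat_lit 3336030674) (nat_lit 76) (nat_lit 4333345388) (nat_lit 294) (nat_lit 5) (nat_lit 303) (nat_lit 5) (nat_lit 295) (nat_lit 4) (nat_lit 442) (nat_lit 351) (nat_lit 347)) (XT.nd (nat_lit 78) (nat_lit 684) (nat_lit 0) (XT.lf (nat_lit 0) (nat_lit 3737936040) (nat_lit 532) (nat_lit 905077280) (nat_lit 608) (nat_lit 3692280791) (nat_lit 287) (nat_lit 5) (nat_lit 294) (nat_lit 5) (nat_lit 295) (nat_lit 4) (nat_lit 443) (nat_lit 351) (nat_lit 346)) (XT.lf (nat_lit 0) (nat_lit 346194979) (nat_lit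 684) (nat_lit 5872894854) (nat_lit 76) (nat_lit 2179134588) (nat_lit 278) (nat_lit 5) (nat_lit 287) (nat_lit 5) (nat_lit 279) (nat_lit 4) (nat_lit 444) (nat_lit 351) (nat_lit 345))))))) (XT.nd (nat_lit 780) (nat_lit 4332) (nat_lit 0) (XT.nd (nat_lit 390) (nat_lit 2052) (nat_lit 0) (XT.nd (nat_lit 156) (nat_lit 1216) (nat_lit 0) (XT.nd (nat_lit 78) (nat_lit 532) (nat_lit 0) (XT.lf (nat_lit 0) (nat_lit 1284748473) (nat_lit 532) (nat_lit 3110495681) (nat_lit 608) (nat_lit 4067096194) (nat_lit 271) (nat_lit 5) (nat_lit 278) (nat_lit 5) (nat_lit 279) (nat_lit 4) (nat_lit 445) (nat_lit 351) (nat_lit 344)) (XT.lf (nat_lit 0) (nat_lit 45168517) (nat_lit 532) (nat_lit 8454799166) (nat_lit 532) (nat_lit 28277042) (nat_lit 264) (nat_lit 4) (nat_lit 271) (nat_lit 5) (nat_lit 271) (nat_lit 4) (nat_lit 446) (nat_lit 351) (nat_lit 343))) (XT.nd (nat_lit 78) (nat_lit 1140) (nat_lit 0) (XT.lf (nat_lit 0) (nat_lit 4041338924) (nat_lit 608) (nat_lit 1225539458)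 (nat_lit 76) (nat_lit 3327983961) (nat_lit 263) (nat_lit 5) (nat_lit 271) (nat_lit 5) (nat_lit 264) (nat_lit 4) (nat_lit 447) (nat_lit 351) (nat_lit 342)) (XT.nd (nat_lit 78) (nat_lit 608) (nat_lit 0) (XT.lf (nat_lit 0) (nat_lit 6166430686) (nat_lit 532) (nat_lit 2001452359) (nat_lit 608) (nat_lit 495407239) (nat_lit 256) (nat_lit 5) (nat_lit 263) (nat_lit 5) (nat_lit 264) (nat_lit 4) (nat_lit 448) (nat_lit 351) (nat_lit 341)) (XT.lf (nat_lit 0) (nat_lit 3581428426) (nat_lit 608) (nat_lit 3802611762) (nat_lit 76) (nat_lit 1348866486) (nat_lit 248) (nat_lit 5) (nat_lit 256) (nat_lit 5) (nat_lit 249) (nat_lit 4) (nat_lit 449) (nat_lit 351) (nat_lit 340))))) (XT.nd (nat_lit 156) (nat_lit 988) (nat_lit 0) (XT.nd (nat_lit 78) (nat_lit 608) (nat_lit 0) (XT.lf (nat_lit 0) (nat_lit 3675686625) (nat_lit 456) (nat_lit 4048078384) (nat_lit 532) (nat_lit 1080272934) (nat_lit 242) (nat_lit 5) (nat_lit 248) (nat_lit 5) (nat_lit 249) (nat_lit 4) (nat_lit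 450) (nat_lit 351) (nat_lit 339)) (XT.lf (nat_lit 0) (nat_lit 2397982834) (nat_lit 532) (nat_lit 612173857) (nat_lit 608) (nat_lit 5866474297) (nat_lit 234) (nat_lit 5) (nat_lit 241) (nat_lit 5) (nat_lit 242) (nat_lit 5) (nat_lit 451) (nat_lit 351) (nat_lit 338))) (XT.nd (nat_lit 78) (nat_lit 532) (nat_lit 0) (XT.lf (nat_lit 0) (nat_lit 1089683741) (nat_lit 456) (nat_lit 6076048088) (nat_lit 532) (nat_lit 1784845218) (nat_lit 228) (nat_lit 5) (nat_lit 234) (nat_lit 5) (nat_lit 235) (nat_lit 4) (nat_lit 452) (nat_lit 351) (nat_lit 337)) (XT.nd (nat_lit 78) (nat_lit 456) (nat_lit 0) (XT.lf (nat_lit 0) (nat_lit 2332551824) (nat_lit 532) (nat_lit 240752697) (nat_lit 76) (nat_lit 6452682085) (nat_lit 227) (nat_lit 5) (nat_lit 234) (nat_lit 5) (nat_lit 228) (nat_lit 5) (nat_lit 453) (nat_lit 351) (nat_lit 336)) (XT.lf (nat_lit 0) (nat_lit 6502727154) (nat_lit 532) (nat_lit 1582131441) (nat_lit 76) (nat_lit 1017923217) (nat_lit 221) (nat_lit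 5) (nat_lit 228) (nat_lit 5) (nat_lit 222) (nat_lit 4) (nat_lit 454) (nat_lit 351) (nat_lit 335)))))) (XT.nd (nat_lit 390) (nat_lit 2052) (nat_lit 0) (XT.nd (nat_lit 156) (nat_lit 1292) (nat_lit 0) (XT.nd (nat_lit 78) (nat_lit 456) (nat_lit 0) (XT.lf (nat_lit 0) (nat_lit 1552811674) (nat_lit 532) (nat_lit 2958842505) (nat_lit 76) (nat_lit 4669288648) (nat_lit 214) (nat_lit 5) (nat_lit 221) (nat_lit 5) (nat_lit 215) (nat_lit 5) (nat_lit 455) (nat_lit 351) (nat_lit 334)) (XT.lf (nat_lit 0) (nat_lit 4898528997) (nat_lit 456) (nat_lit 837274142) (nat_lit 532) (nat_lit 3524882546) (nat_lit 208) (nat_lit 5) (nat_lit 214) (nat_lit 5) (nat_lit 215) (nat_lit 5) (nat_lit 456) (nat_lit 351) (nat_lit 333))) (XT.nd (nat_lit 78) (nat_lit 836) (nat_lit 0) (XT.lf (nat_lit 0) (nat_lit 653445366) (nat_lit 456) (nat_lit 5799501116) (nat_lit 76) (nat_lit 2888957638) (nat_lit 202) (nat_lit 5) (nat_lit 208) (nat_lit 5) (nat_lit 203) (nat_lit 5) (nat_lit 457)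 (nat_lit 351) (nat_lit 332)) (XT.nd (nat_lit 78) (nat_lit 380) (nat_lit 0) (XT.lf (nat_lit 0) (nat_lit 2146673627) (nat_lit 456) (nat_lit 2710404701) (nat_lit 532) (nat_lit 4567423874) (nat_lit 196) (nat_lit 5) (nat_lit 202) (nat_lit 5) (nat_lit 203) (nat_lit 5) (nat_lit 458) (nat_lit 351) (nat_lit 331)) (XT.lf (nat_lit 0) (nat_lit 731771853) (nat_lit 380) (nat_lit 8404441320) (nat_lit 456) (nat_lit 372710487) (nat_lit 191) (nat_lit 5) (nat_lit 196) (nat_lit 5) (nat_lit 197) (nat_lit 4) (nat_lit 459) (nat_lit 351) (nat_lit 330))))) (XT.nd (nat_lit 234) (nat_lit 1140) (nat_lit 0) (XT.nd (nat_lit 78) (nat_lit 836) (nat_lit 0) (XT.lf (nat_lit 0) (nat_lit 3862277460) (nat_lit 456) (nat_lit 730444899) (nat_lit 76) (nat_lit 5001651857) (nat_lit 190) (nat_lit 5) (nat_lit 196) (nat_lit 5) (nat_lit 191) (nat_lit 5) (nat_lit 460) (nat_lit 351) (nat_lit 329)) (XT.nd (nat_lit 78) (nat_lit 456) (nat_lit 0) (XT.lf (nat_lit 0) (nat_lit 7481702246) (nat_lit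 380) (nat_lit 685515562) (nat_lit 456) (nat_lit 1514461840) (nat_lit 185) (nat_lit 5) (nat_lit 190) (nat_lit 5) (nat_lit 191) (nat_lit 5) (nat_lit 461) (nat_lit 351) (nat_lit 328)) (XT.lf (nat_lit 0) (nat_lit 2758753685) (nat_lit 456) (nat_lit 3724785834) (nat_lit 76) (nat_lit 3286673963) (nat_lit 179) (nat_lit 5) (nat_lit 185) (nat_lit 5) (nat_lit 180) (nat_lit 5) (nat_lit 462) (nat_lit 351) (nat_lit 327)))) (XT.nd (nat_lit 78) (nat_lit 760) (nat_lit 0) (XT.lf (nat_lit 0) (nat_lit 4579068211) (nat_lit 380) (nat_lit 2509408767) (nat_lit 456) (nat_lit 2772014361) (nat_lit 174) (nat_lit 5) (nat_lit 179) (nat_lit 5) (nat_lit 180) (nat_lit 5) (nat_lit 463) (nat_lit 351) (nat_lit 326)) (XT.nd (nat_lit 78) (nat_lit 380) (nat_lit 0) (XT.lf (nat_lit 0) (nat_lit 1529564105) (nat_lit 380) (nat_lit 6876972977) (nat_lit 76) (nat_lit 1545882076) (nat_lit 169) (nat_lit 5) (nat_lit 174) (nat_lit 5) (nat_lit 170) (nat_lit 5) (nat_lit 464) (nat_lit 351)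 (nat_lit 325)) (XT.lf (nat_lit 0) (nat_lit 1518127075) (nat_lit 380) (nat_lit 4366768186) (nat_lit 456) (nat_lit 4160827043) (nat_lit 164) (nat_lit 5) (nat_lit 169) (nat_lit 5) (nat_lit 170) (nat_lit 5) (nat_lit 465) (nat_lit 351) (nat_lit 324))))))))
noncomputable def xc33 : XT := (XT.nd (nat_lit 1560) (nat_lit 4104) (nat_lit 0) (XT.nd (nat_lit 780) (nat_lit 2356) (nat_lit 0) (XT.nd (nat_lit 390) (nat_lit 1368) (nat_lit 0) (XT.nd (nat_lit 156) (nat_lit 1064) (nat_lit 0) (XT.nd (nat_lit 78) (nat_lit 304) (nat_lit 0) (XT.lf (nat_lit 0) (nat_lit 173256497) (nat_lit 456) (nat_lit 59429914) (nat_lit 76) (nat_lit 9908395690) (nat_lit 163) (nat_lit 5) (nat_lit 169) (nat_lit 5) (nat_lit 164) (nat_lit 5) (nat_lit 466) (nat_lit 351) (nat_lit 323)) (XT.lf (nat_lit 0) (nat_lit 4564141431) (nat_lit 380) (nat_lit 1691511766) (nat_lit 76) (nat_lit 3981629170) (nat_lit 159) (nat_lit 5) (nat_lit 164) (nat_lit 5) (nat_lit 160) (nat_lit 5) (nat_lit 467)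 (nat_lit 351) (nat_lit 322))) (XT.nd (nat_lit 78) (nat_lit 684) (nat_lit 0) (XT.lf (nat_lit 0) (nat_lit 6987807998) (nat_lit 380) (nat_lit 2046568797) (nat_lit 456) (nat_lit 1301199189) (nat_lit 154) (nat_lit 5) (nat_lit 159) (nat_lit 5) (nat_lit 160) (nat_lit 5) (nat_lit 468) (nat_lit 351) (nat_lit 321)) (XT.nd (nat_lit 78) (nat_lit 304) (nat_lit 0) (XT.lf (nat_lit 0) (nat_lit 3122328665) (nat_lit 380) (nat_lit 5063221729) (nat_lit 76) (nat_lit 2249763631) (nat_lit 149) (nat_lit 5) (nat_lit 154) (nat_lit 5) (nat_lit 150) (nat_lit 5) (nat_lit 469) (nat_lit 351) (nat_lit 320)) (XT.lf (nat_lit 0) (nat_lit 3710278680) (nat_lit 304) (nat_lit 3911537748) (nat_lit 380) (nat_lit 2914960133) (nat_lit 145) (nat_lit 5) (nat_lit 149) (nat_lit 5) (nat_lit 150) (nat_lit 5) (nat_lit 470) (nat_lit 351) (nat_lit 319))))) (XT.nd (nat_lit 156) (nat_lit 684) (nat_lit 0) (XT.nd (nat_lit 78) (nat_lit 304) (nat_lit 0) (XT.lf (nat_lit 0) (nat_lit 1545520181)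 (nat_lit 380) (nat_lit 8630338564) (nat_lit 76) (nat_lit 464303621) (nat_lit 140) (nat_lit 5) (nat_lit 145) (nat_lit 5) (nat_lit 141) (nat_lit 5) (nat_lit 471) (nat_lit 351) (nat_lit 318)) (XT.lf (nat_lit 0) (nat_lit 236710641) (nat_lit 304) (nat_lit 5838091620) (nat_lit 380) (nat_lit 4670055801) (nat_lit 136) (nat_lit 5) (nat_lit 140) (nat_lit 5) (nat_lit 141) (nat_lit 5) (nat_lit 472) (nat_lit 351) (nat_lit 317))) (XT.nd (nat_lit 78) (nat_lit 684) (nat_lit 0) (XT.lf (nat_lit 0) (nat_lit 9307100814) (nat_lit 304) (nat_lit 1391003436) (nat_lit 380) (nat_lit 153474735) (nat_lit 136) (nat_lit 5) (nat_lit 140) (nat_lit 5) (nat_lit 141) (nat_lit 5) (nat_lit 473) (nat_lit 351) (nat_lit 316)) (XT.nd (nat_lit 78) (nat_lit 304) (nat_lit 0) (XT.lf (nat_lit 0) (nat_lit 4411175334) (nat_lit 380) (nat_lit 3401616247) (nat_lit 76) (nat_lit 3146741552) (nat_lit 131) (nat_lit 5) (nat_lit 136) (nat_lit 5) (nat_lit 132) (nat_lit 5) (nat_lit 474) (nat_lit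 351) (nat_lit 315)) (XT.lf (nat_lit 0) (nat_lit 5769064631) (nat_lit 304) (nat_lit 3299577075) (nat_lit 380) (nat_lit 2000912802) (nat_lit 127) (nat_lit 5) (nat_lit 131) (nat_lit 5) (nat_lit 132) (nat_lit 5) (nat_lit 475) (nat_lit 351) (nat_lit 314)))))) (XT.nd (nat_lit 390) (nat_lit 1140) (nat_lit 0) (XT.nd (nat_lit 156) (nat_lit 608) (nat_lit 0) (XT.nd (nat_lit 78) (nat_lit 304) (nat_lit 0) (XT.lf (nat_lit 0) (nat_lit 2606649487) (nat_lit 304) (nat_lit 7258224691) (nat_lit 76) (nat_lit 1316484459) (nat_lit 123) (nat_lit 5) (nat_lit 127) (nat_lit 5) (nat_lit 124) (nat_lit 5) (nat_lit 476) (nat_lit 351) (nat_lit 313)) (XT.lf (nat_lit 0) (nat_lit 2008900907) (nat_lit 304) (nat_lit 5288212234) (nat_lit 380) (nat_lit 3997670339) (nat_lit 119) (nat_lit 5) (nat_lit 123) (nat_lit 5) (nat_lit 124) (nat_lit 5) (nat_lit 477) (nat_lit 351) (nat_lit 312))) (XT.nd (nat_lit 78) (nat_lit 304) (nat_lit 0) (XT.lf (nat_lit 0) (nat_lit 55695105) (nat_lit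 228) (nat_lit 602733668) (nat_lit 304) (nat_lit 10752034556) (nat_lit 115) (nat_lit 5) (nat_lit 118) (nat_lit 5) (nat_lit 119) (nat_lit 5) (nat_lit 478) (nat_lit 351) (nat_lit 311)) (XT.nd (nat_lit 78) (nat_lit 304) (nat_lit 0) (XT.lf (nat_lit 0) (nat_lit 5391154570) (nat_lit 304) (nat_lit 1962060865) (nat_lit 76) (nat_lit 4173972177) (nat_lit 115) (nat_lit 5) (nat_lit 119) (nat_lit 5) (nat_lit 116) (nat_lit 5) (nat_lit 479) (nat_lit 351) (nat_lit 310)) (XT.lf (nat_lit 0) (nat_lit 7625475716) (nat_lit 304) (nat_lit 2594738197) (nat_lit 380) (nat_lit 1425998887) (nat_lit 111) (nat_lit 5) (nat_lit 115) (nat_lit 5) (nat_lit 116) (nat_lit 5) (nat_lit 480) (nat_lit 351) (nat_lit 309))))) (XT.nd (nat_lit 156) (nat_lit 532) (nat_lit 0) (XT.nd (nat_lit 78) (nat_lit 304) (nat_lit 0) (XT.lf (nat_lit 0) (nat_lit 3346892890) (nat_lit 304) (nat_lit 6155483687) (nat_lit 76) (nat_lit 2264543977) (nat_lit 107) (nat_lit 5) (nat_lit 111) (nat_lit 5) (nat_lit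 108) (nat_lit 5) (nat_lit 481) (nat_lit 351) (nat_lit 308)) (XT.lf (nat_lit 0) (nat_lit 3531421290) (nat_lit 304) (nat_lit 4680493345) (nat_lit 380) (nat_lit 3677623987) (nat_lit 103) (nat_lit 5) (nat_lit 107) (nat_lit 5) (nat_lit 108) (nat_lit 5) (nat_lit 482) (nat_lit 351) (nat_lit 307))) (XT.nd (nat_lit 78) (nat_lit 228) (nat_lit 0) (XT.lf (nat_lit 0) (nat_lit 1145362566) (nat_lit 304) (nat_lit 10613276253) (nat_lit 76) (nat_lit 255800780) (nat_lit 99) (nat_lit 5) (nat_lit 103) (nat_lit 5) (nat_lit 100) (nat_lit 5) (nat_lit 483) (nat_lit 351) (nat_lit 306)) (XT.nd (nat_lit 78) (nat_lit 228) (nat_lit 0) (XT.lf (nat_lit 0) (nat_lit 6051824823) (nat_lit 304) (nat_lit 817136839) (nat_lit 76) (nat_lit 5271665564) (nat_lit 99) (nat_lit 5) (nat_lit 103) (nat_lit 5) (nat_lit 100) (nat_lit 5) (nat_lit 484) (nat_lit 351) (nat_lit 305)) (XT.lf (nat_lit 0) (nat_lit 9207822015) (nat_lit 228) (nat_lit 1858140222) (nat_lit 304) (nat_lit 1203185451)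 (nat_lit 96) (nat_lit 5) (nat_lit 99) (nat_lit 5) (nat_lit 100) (nat_lit 5) (nat_lit 485) (nat_lit 351) (nat_lit 304))))))) (XT.nd (nat_lit 780) (nat_lit 2052) (nat_lit 0) (XT.nd (nat_lit 390) (nat_lit 988) (nat_lit 0) (XT.nd (nat_lit 156) (nat_lit 532) (nat_lit 0) (XT.nd (nat_lit 78) (nat_lit 228) (nat_lit 0) (XT.lf (nat_lit 0) (nat_lit 3752916186) (nat_lit 304) (nat_lit 5397291099) (nat_lit 76) (nat_lit 3249093419) (nat_lit 92) (nat_lit 5) (nat_lit 96) (nat_lit 5) (nat_lit 93) (nat_lit 5) (nat_lit 486) (nat_lit 351) (nat_lit 303)) (XT.lf (nat_lit 0) (nat_lit 4729961724) (nat_lit 228) (nat_lit 4075799934) (nat_lit 304) (nat_lit 3725861409) (nat_lit 89) (nat_lit 5) (nat_lit 92) (nat_lit 5) (nat_lit 93) (nat_lit 5) (nat_lit 487) (nat_lit 351) (nat_lit 302))) (XT.nd (nat_lit 78) (nat_lit 228) (nat_lit 0) (XT.lf (nat_lit 0) (nat_lit 1285565315) (nat_lit 304) (nat_lit 10271966505) (nat_lit 76) (nat_lit 1108703110) (nat_lit 85) (nat_lit 5)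 (nat_lit 89) (nat_lit 5) (nat_lit 86) (nat_lit 5) (nat_lit 488) (nat_lit 351) (nat_lit 301)) (XT.nd (nat_lit 78) (nat_lit 228) (nat_lit 0) (XT.lf (nat_lit 0) (nat_lit 6377337581) (nat_lit 304) (nat_lit 43005547) (nat_lit 76) (nat_lit 6382103215) (nat_lit 85) (nat_lit 5) (nat_lit 89) (nat_lit 5) (nat_lit 86) (nat_lit 5) (nat_lit 489) (nat_lit 351) (nat_lit 300)) (XT.lf (nat_lit 0) (nat_lit 10440830145) (nat_lit 228) (nat_lit 1149146725) (nat_lit 304) (nat_lit 1351024484) (nat_lit 82) (nat_lit 5) (nat_lit 85) (nat_lit 5) (nat_lit 86) (nat_lit 5) (nat_lit 490) (nat_lit 351) (nat_lit 299))))) (XT.nd (nat_lit 156) (nat_lit 456) (nat_lit 0) (XT.nd (nat_lit 78) (nat_lit 228) (nat_lit 0) (XT.lf (nat_lit 0) (nat_lit 3805948924) (nat_lit 304) (nat_lit 5062878641) (nat_lit 76) (nat_lit 4212371932) (nat_lit 78) (nat_lit 5) (nat_lit 82) (nat_lit 5) (nat_lit 79) (nat_lit 5) (nat_lit 491) (nat_lit 351) (nat_lit 298)) (XT.lf (nat_lit 0) (nat_lit 5526150921)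 (nat_lit 228) (nat_lit 3533684962) (nat_lit 304) (nat_lit 4163949828) (nat_lit 75) (nat_lit 5) (nat_lit 78) (nat_lit 5) (nat_lit 79) (nat_lit 5) (nat_lit 492) (nat_lit 351) (nat_lit 297))) (XT.nd (nat_lit 78) (nat_lit 228) (nat_lit 0) (XT.lf (nat_lit 0) (nat_lit 1053387898) (nat_lit 228) (nat_lit 10409476970) (nat_lit 76) (nat_lit 1905870963) (nat_lit 72) (nat_lit 5) (nat_lit 75) (nat_lit 5) (nat_lit 73) (nat_lit 5) (nat_lit 493) (nat_lit 351) (nat_lit 296)) (XT.nd (nat_lit 78) (nat_lit 0) (nat_lit 0) (XT.lf (nat_lit 0) (nat_lit 283401568) (nat_lit 228) (nat_lit 6064889256) (nat_lit 304) (nat_lit 7167164179) (nat_lit 69) (nat_lit 5) (nat_lit 72) (nat_lit 5) (nat_lit 73) (nat_lit 5) (nat_lit 494) (nat_lit 351) (nat_lit 295)) (XT.lf (nat_lit 0) (nat_lit 11244736261) (nat_lit 228) (nat_lit 526276807) (nat_lit 304) (nat_lit 1893657067) (nat_lit 69) (nat_lit 5) (nat_lit 72) (nat_lit 5) (nat_lit 73) (nat_lit 5) (nat_lit 495) (nat_lit 351) (nat_lit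 294)))))) (XT.nd (nat_lit 390) (nat_lit 1140) (nat_lit 0) (XT.nd (nat_lit 156) (nat_lit 456) (nat_lit 0) (XT.nd (nat_lit 78) (nat_lit 228) (nat_lit 0) (XT.lf (nat_lit 0) (nat_lit 3481765081) (nat_lit 228) (nat_lit 5236452501) (nat_lit 76) (nat_lit 5097356297) (nat_lit 66) (nat_lit 5) (nat_lit 69) (nat_lit 5) (nat_lit 67) (nat_lit 5) (nat_lit 496) (nat_lit 351) (nat_lit 293)) (XT.lf (nat_lit 0) (nat_lit 5836637468) (nat_lit 228) (nat_lit 3113279896) (nat_lit 304) (nat_lit 5019116438) (nat_lit 63) (nat_lit 5) (nat_lit 66) (nat_lit 5) (nat_lit 67) (nat_lit 5) (nat_lit 497) (nat_lit 351) (nat_lit 292))) (XT.nd (nat_lit 78) (nat_lit 228) (nat_lit 0) (XT.lf (nat_lit 0) (nat_lit 421561628) (nat_lit 228) (nat_lit 11113830702) (nat_lit 76) (nat_lit 2589619159) (nat_lit 60) (nat_lit 5) (nat_lit 63) (nat_lit 5) (nat_lit 61) (nat_lit 5) (nat_lit 498) (nat_lit 351) (nat_lit 291)) (XT.nd (nat_lit 78) (nat_lit 0) (nat_lit 0) (XT.lf (nat_lit 0) (nat_lit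 65739970) (nat_lit 228) (nat_lit 5867161355) (nat_lit 304) (nat_lit 8349962798) (nat_lit 57) (nat_lit 5) (nat_lit 60) (nat_lit 5) (nat_lit 61) (nat_lit 5) (nat_lit 499) (nat_lit 351) (nat_lit 290)) (XT.lf (nat_lit 0) (nat_lit 11534364287) (nat_lit 228) (nat_lit 48063976) (nat_lit 304) (nat_lit 2860886338) (nat_lit 57) (nat_lit 5) (nat_lit 60) (nat_lit 5) (nat_lit 61) (nat_lit 5) (nat_lit 500) (nat_lit 351) (nat_lit 289))))) (XT.nd (nat_lit 234) (nat_lit 532) (nat_lit 0) (XT.nd (nat_lit 78) (nat_lit 380) (nat_lit 0) (XT.lf (nat_lit 0) (nat_lit 2750596983) (nat_lit 228) (nat_lit 6008130655) (nat_lit 76) (nat_lit 5846920227) (nat_lit 54) (nat_lit 5) (nat_lit 57) (nat_lit 5) (nat_lit 55) (nat_lit 5) (nat_lit 501) (nat_lit 351) (nat_lit 288)) (XT.nd (nat_lit 78) (nat_lit 152) (nat_lit 0) (XT.lf (nat_lit 0) (nat_lit 5572151257) (nat_lit 228) (nat_lit 2874138964) (nat_lit 304) (nat_lit 6324353616) (nat_lit 51) (nat_lit 5) (nat_lit 54) (nat_lit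 5) (nat_lit 55) (nat_lit 5) (nat_lit 502) (nat_lit 351) (nat_lit 287)) (XT.lf (nat_lit 0) (nat_lit 2454611137) (nat_lit 152) (nat_lit 11832332115) (nat_lit 228) (nat_lit 651375557) (nat_lit 49) (nat_lit 5) (nat_lit 51) (nat_lit 5) (nat_lit 52) (nat_lit 4) (nat_lit 503) (nat_lit 351) (nat_lit 286)))) (XT.nd (nat_lit 78) (nat_lit 456) (nat_lit 0) (XT.lf (nat_lit 0) (nat_lit 5103151437) (nat_lit 228) (nat_lit 779835478) (nat_lit 76) (nat_lit 9224984829) (nat_lit 48) (nat_lit 5) (nat_lit 51) (nat_lit 5) (nat_lit 49) (nat_lit 5) (nat_lit 504) (nat_lit 351) (nat_lit 285)) (XT.nd (nat_lit 78) (nat_lit 228) (nat_lit 0) (XT.lf (nat_lit 0) (nat_lit 10993523032) (nat_lit 304) (nat_lit 4063660374) (nat_lit 76) (nat_lit 223158700) (nat_lit 45) (nat_lit 5) (nat_lit 49) (nat_lit 5) (nat_lit 46) (nat_lit 4) (nat_lit 505) (nat_lit 351) (nat_lit 284)) (XT.lf (nat_lit 0) (nat_lit 1576984897) (nat_lit 228) (nat_lit 7474909232) (nat_lit 76) (nat_lit 6403030797)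 (nat_lit 42) (nat_lit 5) (nat_lit 45) (nat_lit 5) (nat_lit 43) (nat_lit 5) (nat_lit 506) (nat_lit 351) (nat_lit 283))))))))
noncomputable def xc34 : XT := (XT.nd (nat_lit 55068) (nat_lit 0) (nat_lit 8132) (XT.nd (nat_lit 54288) (nat_lit 0) (nat_lit 15276) (XT.nd (nat_lit 53898) (nat_lit 0) (nat_lit 20520) (XT.nd (nat_lit 156) (nat_lit 380) (nat_lit 0) (XT.nd (nat_lit 78) (nat_lit 152) (nat_lit 0) (XT.lf (nat_lit 0) (nat_lit 4636535175) (nat_lit 152) (nat_lit 2877049431) (nat_lit 228) (nat_lit 8118589675) (nat_lit 40) (nat_lit 5) (nat_lit 42) (nat_lit 5) (nat_lit 43) (nat_lit 5) (nat_lit 507) (nat_lit 351) (nat_lit 282)) (XT.lf (nat_lit 0) (nat_lit 1189630456) (nat_lit 152) (nat_lit 12415123687) (nat_lit 228) (nat_lit 2207497724) (nat_lit 38) (nat_lit 5) (nat_lit 40) (nat_lit 5) (nat_lit 41) (nat_lit 4) (nat_lit 508) (nat_lit 351) (nat_lit 281))) (XT.nd (nat_lit 156) (nat_lit 304) (nat_lit 0) (XT.lf (nat_lit 0) (nat_lit 3820474629) (nat_lit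 228) (nat_lit 2354196484) (nat_lit 76) (nat_lit 9819787968) (nat_lit 37) (nat_lit 5) (nat_lit 40) (nat_lit 5) (nat_lit 38) (nat_lit 5) (nat_lit 509) (nat_lit 351) (nat_lit 280)) (XT.nd (nat_lit 53508) (nat_lit 0) (nat_lit 23180) (XT.lf (nat_lit 0) (nat_lit 6624994647) (nat_lit 152) (nat_lit 9660691841) (nat_lit 228) (nat_lit 81505128) (nat_lit 33) (nat_lit 5) (nat_lit 35) (nat_lit 5) (nat_lit 36) (nat_lit 4) (nat_lit 511) (nat_lit 351) (nat_lit 278)) (XT.lf (nat_lit 0) (nat_lit 1005403762) (nat_lit 760) (nat_lit 1955275948) (nat_lit 0) (nat_lit 1005403762) (nat_lit 338) (nat_lit 5) (nat_lit 348) (nat_lit 4) (nat_lit 338) (nat_lit 4) (nat_lit 436) (nat_lit 352) (nat_lit 352))))) (XT.nd (nat_lit 156) (nat_lit 1292) (nat_lit 0) (XT.nd (nat_lit 78) (nat_lit 684) (nat_lit 0) (XT.lf (nat_lit 0) (nat_lit 2778682984) (nat_lit 684) (nat_lit 3226385327) (nat_lit 684) (nat_lit 1981260537) (nat_lit 329) (nat_lit 4) (nat_lit 338) (nat_lit 5) (nat_lit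 338) (nat_lit 4) (nat_lit 437) (nat_lit 352) (nat_lit 351)) (XT.lf (nat_lit 0) (nat_lit 1530553875) (nat_lit 608) (nat_lit 447856641) (nat_lit 684) (nat_lit 6063548991) (nat_lit 320) (nat_lit 5) (nat_lit 328) (nat_lit 5) (nat_lit 329) (nat_lit 4) (nat_lit 438) (nat_lit 352) (nat_lit 350))) (XT.nd (nat_lit 78) (nat_lit 684) (nat_lit 0) (XT.lf (nat_lit 0) (nat_lit 260260488) (nat_lit 608) (nat_lit 5714645859) (nat_lit 608) (nat_lit 2123851303) (nat_lit 312) (nat_lit 4) (nat_lit 320) (nat_lit 5) (nat_lit 320) (nat_lit 4) (nat_lit 439) (nat_lit 352) (nat_lit 349)) (XT.nd (nat_lit 78) (nat_lit 608) (nat_lit 0) (XT.lf (nat_lit 0) (nat_lit 1848825125) (nat_lit 684) (nat_lit 1006470644) (nat_lit 76) (nat_lit 5301569294) (nat_lit 311) (nat_lit 5) (nat_lit 320) (nat_lit 5) (nat_lit 312) (nat_lit 4) (nat_lit 440) (nat_lit 352) (nat_lit 348)) (XT.lf (nat_lit 0) (nat_lit 5845106271) (nat_lit 684) (nat_lit 2279959403) (nat_lit 0) (nat_lit 91336385)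 (nat_lit 303) (nat_lit 5) (nat_lit 312) (nat_lit 4) (nat_lit 303) (nat_lit 4) (nat_lit 441) (nat_lit 352) (nat_lit 347)))))) (XT.nd (nat_lit 390) (nat_lit 2736) (nat_lit 0) (XT.nd (nat_lit 156) (nat_lit 1292) (nat_lit 0) (XT.nd (nat_lit 78) (nat_lit 532) (nat_lit 0) (XT.lf (nat_lit 0) (nat_lit 1612831908) (nat_lit 684) (nat_lit 3579805491) (nat_lit 76) (nat_lit 3084474647) (nat_lit 294) (nat_lit 5) (nat_lit 303) (nat_lit 5) (nat_lit 295) (nat_lit 4) (nat_lit 442) (nat_lit 352) (nat_lit 346)) (XT.lf (nat_lit 0) (nat_lit 3445869685) (nat_lit 532) (nat_lit 2171109349) (nat_lit 608) (nat_lit 2722301941) (nat_lit 287) (nat_lit 5) (nat_lit 294) (nat_lit 5) (nat_lit 295) (nat_lit 4) (nat_lit 443) (nat_lit 352) (nat_lit 345))) (XT.nd (nat_lit 78) (nat_lit 608) (nat_lit 0) (XT.lf (nat_lit 0) (nat_lit 1260503025) (nat_lit 684) (nat_lit 6220737507) (nat_lit 76) (nat_lit 921703786) (nat_lit 278) (nat_lit 5) (nat_lit 287) (nat_lit 5) (nat_lit 279)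 (nat_lit 4) (nat_lit 444) (nat_lit 352) (nat_lit 344)) (XT.nd (nat_lit 78) (nat_lit 76) (nat_lit 0) (XT.lf (nat_lit 0) (nat_lit 886819958) (nat_lit 532) (nat_lit 4388022331) (nat_lit 608) (nat_lit 3192912153) (nat_lit 271) (nat_lit 5) (nat_lit 278) (nat_lit 5) (nat_lit 279) (nat_lit 4) (nat_lit 445) (nat_lit 352) (nat_lit 343)) (XT.lf (nat_lit 0) (nat_lit 802036859) (nat_lit 608) (nat_lit 408769273) (nat_lit 76) (nat_lit 7323398361) (nat_lit 270) (nat_lit 5) (nat_lit 278) (nat_lit 5) (nat_lit 271) (nat_lit 5) (nat_lit 446) (nat_lit 352) (nat_lit 342))))) (XT.nd (nat_lit 156) (nat_lit 1596) (nat_lit 0) (XT.nd (nat_lit 78) (nat_lit 608) (nat_lit 0) (XT.lf (nat_lit 0) (nat_lit 4828969744) (nat_lit 608) (nat_lit 1728477026) (nat_lit 76) (nat_lit 2044217914) (nat_lit 263) (nat_lit 5) (nat_lit 271) (nat_lit 5) (nat_lit 264) (nat_lit 4) (nat_lit 447) (nat_lit 352) (nat_lit 341)) (XT.lf (nat_lit 0) (nat_lit 246725925) (nat_lit 608) (nat_lit 3060552694)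 (nat_lit 76) (nat_lit 5363475982) (nat_lit 255) (nat_lit 5) (nat_lit 263) (nat_lit 5) (nat_lit 256) (nat_lit 5) (nat_lit 448) (nat_lit 352) (nat_lit 340))) (XT.nd (nat_lit 78) (nat_lit 1064) (nat_lit 0) (XT.lf (nat_lit 0) (nat_lit 4273469540) (nat_lit 608) (nat_lit 4421658106) (nat_lit 76) (nat_lit 46050908) (nat_lit 248) (nat_lit 5) (nat_lit 256) (nat_lit 5) (nat_lit 249) (nat_lit 4) (nat_lit 449) (nat_lit 352) (nat_lit 339)) (XT.nd (nat_lit 78) (nat_lit 608) (nat_lit 0) (XT.lf (nat_lit 0) (nat_lit 3003103632) (nat_lit 456) (nat_lit 5377567657) (nat_lit 532) (nat_lit 432341231) (nat_lit 242) (nat_lit 5) (nat_lit 248) (nat_lit 5) (nat_lit 249) (nat_lit 4) (nat_lit 450) (nat_lit 352) (nat_lit 338)) (XT.lf (nat_lit 0) (nat_lit 1657680456) (nat_lit 532) (nat_lit 1956448889) (nat_lit 608) (nat_lit 5272101312) (nat_lit 234) (nat_lit 5) (nat_lit 241) (nat_lit 5) (nat_lit 242) (nat_lit 5) (nat_lit 451) (nat_lit 352) (nat_lit 337))))))) (XT.nd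 (nat_lit 780) (nat_lit 3420) (nat_lit 0) (XT.nd (nat_lit 390) (nat_lit 1748) (nat_lit 0) (XT.nd (nat_lit 156) (nat_lit 1444) (nat_lit 0) (XT.nd (nat_lit 78) (nat_lit 76) (nat_lit 0) (XT.lf (nat_lit 0) (nat_lit 293012535) (nat_lit 456) (nat_lit 7432356522) (nat_lit 532) (nat_lit 1235694366) (nat_lit 228) (nat_lit 5) (nat_lit 234) (nat_lit 5) (nat_lit 235) (nat_lit 4) (nat_lit 452) (nat_lit 352) (nat_lit 336)) (XT.lf (nat_lit 0) (nat_lit 2844172156) (nat_lit 532) (nat_lit 1096631005) (nat_lit 76) (nat_lit 5096205078) (nat_lit 227) (nat_lit 5) (nat_lit 234) (nat_lit 5) (nat_lit 228) (nat_lit 5) (nat_lit 453) (nat_lit 352) (nat_lit 335))) (XT.nd (nat_lit 78) (nat_lit 988) (nat_lit 0) (XT.lf (nat_lit 0) (nat_lit 6615370492) (nat_lit 456) (nat_lit 356624469) (nat_lit 532) (nat_lit 2142655536) (nat_lit 221) (nat_lit 5) (nat_lit 227) (nat_lit 5) (nat_lit 228) (nat_lit 5) (nat_lit 454) (nat_lit 352) (nat_lit 334)) (XT.nd (nat_lit 78) (nat_lit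 456) (nat_lit 0) (XT.lf (nat_lit 0) (nat_lit 1965801982) (nat_lit 532) (nat_lit 3946246100) (nat_lit 76) (nat_lit 3281472233) (nat_lit 214) (nat_lit 5) (nat_lit 221) (nat_lit 5) (nat_lit 215) (nat_lit 5) (nat_lit 455) (nat_lit 352) (nat_lit 333)) (XT.lf (nat_lit 0) (nat_lit 3852839514) (nat_lit 456) (nat_lit 2259732594) (nat_lit 532) (nat_lit 3161415492) (nat_lit 208) (nat_lit 5) (nat_lit 214) (nat_lit 5) (nat_lit 215) (nat_lit 5) (nat_lit 456) (nat_lit 352) (nat_lit 332))))) (XT.nd (nat_lit 156) (nat_lit 836) (nat_lit 0) (XT.nd (nat_lit 78) (nat_lit 456) (nat_lit 0) (XT.lf (nat_lit 0) (nat_lit 966165977) (nat_lit 456) (nat_lit 6924838201) (nat_lit 76) (nat_lit 1465074250) (nat_lit 202) (nat_lit 5) (nat_lit 208) (nat_lit 5) (nat_lit 203) (nat_lit 5) (nat_lit 457) (nat_lit 352) (nat_lit 331)) (XT.lf (nat_lit 0) (nat_lit 960929604) (nat_lit 456) (nat_lit 4172022879) (nat_lit 532) (nat_lit 4306460955) (nat_lit 196) (nat_lit 5) (nat_lit 202)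 (nat_lit 5) (nat_lit 203) (nat_lit 5) (nat_lit 458) (nat_lit 352) (nat_lit 330))) (XT.nd (nat_lit 78) (nat_lit 836) (nat_lit 0) (XT.lf (nat_lit 0) (nat_lit 9008268381) (nat_lit 456) (nat_lit 362967117) (nat_lit 532) (nat_lit 153416435) (nat_lit 196) (nat_lit 5) (nat_lit 202) (nat_lit 5) (nat_lit 203) (nat_lit 5) (nat_lit 459) (nat_lit 352) (nat_lit 329)) (XT.nd (nat_lit 78) (nat_lit 380) (nat_lit 0) (XT.lf (nat_lit 0) (nat_lit 4044039047) (nat_lit 456) (nat_lit 2045427180) (nat_lit 76) (nat_lit 3521300915) (nat_lit 190) (nat_lit 5) (nat_lit 196) (nat_lit 5) (nat_lit 191) (nat_lit 5) (nat_lit 460) (nat_lit 352) (nat_lit 328)) (XT.lf (nat_lit 0) (nat_lit 6104417899) (nat_lit 380) (nat_lit 2207305525) (nat_lit 456) (nat_lit 1387094268) (nat_lit 185) (nat_lit 5) (nat_lit 190) (nat_lit 5) (nat_lit 191) (nat_lit 5) (nat_lit 461) (nat_lit 352) (nat_lit 327)))))) (XT.nd (nat_lit 390) (nat_lit 1748) (nat_lit 0) (XT.nd (nat_lit 156) (nat_lit 836)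 (nat_lit 0) (XT.nd (nat_lit 78) (nat_lit 380) (nat_lit 0) (XT.lf (nat_lit 0) (nat_lit 2836708122) (nat_lit 456) (nat_lit 5191322497) (nat_lit 76) (nat_lit 1760259223) (nat_lit 179) (nat_lit 5) (nat_lit 185) (nat_lit 5) (nat_lit 180) (nat_lit 5) (nat_lit 462) (nat_lit 352) (nat_lit 326)) (XT.lf (nat_lit 0) (nat_lit 3047964694) (nat_lit 380) (nat_lit 4080459477) (nat_lit 456) (nat_lit 2750903673) (nat_lit 174) (nat_lit 5) (nat_lit 179) (nat_lit 5) (nat_lit 180) (nat_lit 5) (nat_lit 463) (nat_lit 352) (nat_lit 325))) (XT.nd (nat_lit 78) (nat_lit 456) (nat_lit 0) (XT.lf (nat_lit 0) (nat_lit 1469985401) (nat_lit 304) (nat_lit 31764131) (nat_lit 380) (nat_lit 8470476357) (nat_lit 169) (nat_lit 5) (nat_lit 173) (nat_lit 5) (nat_lit 174) (nat_lit 5) (nat_lit 464) (nat_lit 352) (nat_lit 324)) (XT.nd (nat_lit 78) (nat_lit 456) (nat_lit 0) (XT.lf (nat_lit 0) (nat_lit 5819184614) (nat_lit 380) (nat_lit 171564018) (nat_lit 76) (nat_lit 4075538325)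 (nat_lit 169) (nat_lit 5) (nat_lit 174) (nat_lit 5) (nat_lit 170) (nat_lit 5) (nat_lit 465) (nat_lit 352) (nat_lit 323)) (XT.lf (nat_lit 0) (nat_lit 59218062) (nat_lit 456) (nat_lit 1816214596) (nat_lit 76) (nat_lit 8286803191) (nat_lit 163) (nat_lit 5) (nat_lit 169) (nat_lit 5) (nat_lit 164) (nat_lit 5) (nat_lit 466) (nat_lit 352) (nat_lit 322))))) (XT.nd (nat_lit 234) (nat_lit 684) (nat_lit 0) (XT.nd (nat_lit 78) (nat_lit 760) (nat_lit 0) (XT.lf (nat_lit 0) (nat_lit 4400189412) (nat_lit 380) (nat_lit 3527224767) (nat_lit 76) (nat_lit 2332020208) (nat_lit 159) (nat_lit 5) (nat_lit 164) (nat_lit 5) (nat_lit 160) (nat_lit 5) (nat_lit 467) (nat_lit 352) (nat_lit 321)) (XT.nd (nat_lit 78) (nat_lit 380) (nat_lit 0) (XT.lf (nat_lit 0) (nat_lit 5083055978) (nat_lit 380) (nat_lit 3747929874) (nat_lit 456) (nat_lit 1527530930) (nat_lit 154) (nat_lit 5) (nat_lit 159) (nat_lit 5) (nat_lit 160) (nat_lit 5) (nat_lit 468) (nat_lit 352) (nat_lit 320))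 (XT.lf (nat_lit 0) (nat_lit 2847746344) (nat_lit 380) (nat_lit 7072273207) (nat_lit 76) (nat_lit 539289042) (nat_lit 149) (nat_lit 5) (nat_lit 154) (nat_lit 5) (nat_lit 150) (nat_lit 5) (nat_lit 469) (nat_lit 352) (nat_lit 319)))) (XT.nd (nat_lit 78) (nat_lit 380) (nat_lit 0) (XT.lf (nat_lit 0) (nat_lit 1629678936) (nat_lit 304) (nat_lit 5677177498) (nat_lit 380) (nat_lit 3254722247) (nat_lit 145) (nat_lit 5) (nat_lit 149) (nat_lit 5) (nat_lit 150) (nat_lit 5) (nat_lit 470) (nat_lit 352) (nat_lit 318)) (XT.nd (nat_lit 78) (nat_lit 304) (nat_lit 0) (XT.lf (nat_lit 0) (nat_lit 1167286124) (nat_lit 380) (nat_lit 160982289) (nat_lit 76) (nat_lit 9337598754) (nat_lit 144) (nat_lit 5) (nat_lit 149) (nat_lit 5) (nat_lit 145) (nat_lit 5) (nat_lit 471) (nat_lit 352) (nat_lit 317)) (XT.lf (nat_lit 0) (nat_lit 5658663441) (nat_lit 380) (nat_lit 2000886383) (nat_lit 76) (nat_lit 3111771133) (nat_lit 140) (nat_lit 5) (nat_lit 145) (nat_lit 5) (nat_lit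 141) (nat_lit 5) (nat_lit 472) (nat_lit 352) (nat_lit 316))))))))
noncomputable def xc35 : XT := (XT.nd (nat_lit 1638) (nat_lit 2888) (nat_lit 0) (XT.nd (nat_lit 780) (nat_lit 2128) (nat_lit 0) (XT.nd (nat_lit 390) (nat_lit 1520) (nat_lit 0) (XT.nd (nat_lit 156) (nat_lit 608) (nat_lit 0) (XT.nd (nat_lit 78) (nat_lit 380) (nat_lit 0) (XT.lf (nat_lit 0) (nat_lit 6998753419) (nat_lit 304) (nat_lit 3243606891) (nat_lit 380) (nat_lit 636473673) (nat_lit 136) (nat_lit 5) (nat_lit 140) (nat_lit 5) (nat_lit 141) (nat_lit 5) (nat_lit 473) (nat_lit 352) (nat_lit 315)) (XT.lf (nat_lit 0) (nat_lit 3880517579) (nat_lit 380) (nat_lit 5825186164) (nat_lit 76) (nat_lit 1282226976) (nat_lit 131) (nat_lit 5) (nat_lit 136) (nat_lit 5) (nat_lit 132) (nat_lit 5) (nat_lit 474) (nat_lit 352) (nat_lit 314))) (XT.nd (nat_lit 78) (nat_lit 304) (nat_lit 0) (XT.lf (nat_lit 0) (nat_lit 3268948055) (nat_lit 304) (nat_lit 5226825501) (nat_lit 380) (nat_lit 2603022746)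 (nat_lit 127) (nat_lit 5) (nat_lit 131) (nat_lit 5) (nat_lit 132) (nat_lit 5) (nat_lit 475) (nat_lit 352) (nat_lit 313)) (XT.nd (nat_lit 78) (nat_lit 0) (nat_lit 0) (XT.lf (nat_lit 0) (nat_lit 1328561242) (nat_lit 228) (nat_lit 632389579) (nat_lit 304) (nat_lit 9250757505) (nat_lit 123) (nat_lit 5) (nat_lit 126) (nat_lit 5) (nat_lit 127) (nat_lit 5) (nat_lit 476) (nat_lit 352) (nat_lit 312)) (XT.lf (nat_lit 0) (nat_lit 6608453994) (nat_lit 304) (nat_lit 682186379) (nat_lit 76) (nat_lit 4035352006) (nat_lit 123) (nat_lit 5) (nat_lit 127) (nat_lit 5) (nat_lit 124) (nat_lit 5) (nat_lit 477) (nat_lit 352) (nat_lit 311))))) (XT.nd (nat_lit 156) (nat_lit 912) (nat_lit 0) (XT.nd (nat_lit 78) (nat_lit 304) (nat_lit 0) (XT.lf (nat_lit 0) (nat_lit 8726063291) (nat_lit 304) (nat_lit 2632570502) (nat_lit 380) (nat_lit 83733789) (nat_lit 119) (nat_lit 5) (nat_lit 123) (nat_lit 5) (nat_lit 124) (nat_lit 5) (nat_lit 478) (nat_lit 352) (nat_lit 310))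 (XT.lf (nat_lit 0) (nat_lit 4593267804) (nat_lit 304) (nat_lit 4832659722) (nat_lit 76) (nat_lit 2134311661) (nat_lit 115) (nat_lit 5) (nat_lit 119) (nat_lit 5) (nat_lit 116) (nat_lit 5) (nat_lit 479) (nat_lit 352) (nat_lit 309))) (XT.nd (nat_lit 78) (nat_lit 608) (nat_lit 0) (XT.lf (nat_lit 0) (nat_lit 4672937523) (nat_lit 304) (nat_lit 4705068250) (nat_lit 380) (nat_lit 2302145029) (nat_lit 111) (nat_lit 5) (nat_lit 115) (nat_lit 5) (nat_lit 116) (nat_lit 5) (nat_lit 480) (nat_lit 352) (nat_lit 308)) (XT.nd (nat_lit 78) (nat_lit 304) (nat_lit 0) (XT.lf (nat_lit 0) (nat_lit 2423251197) (nat_lit 304) (nat_lit 9240687683) (nat_lit 76) (nat_lit 138213174) (nat_lit 107) (nat_lit 5) (nat_lit 111) (nat_lit 5) (nat_lit 108) (nat_lit 5) (nat_lit 481) (nat_lit 352) (nat_lit 307)) (XT.lf (nat_lit 0) (nat_lit 361279087) (nat_lit 304) (nat_lit 6881404607) (nat_lit 380) (nat_lit 4682998213) (nat_lit 103) (nat_lit 5) (nat_lit 107) (nat_lit 5) (nat_lit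 108) (nat_lit 5) (nat_lit 482) (nat_lit 352) (nat_lit 306)))))) (XT.nd (nat_lit 390) (nat_lit 1064) (nat_lit 0) (XT.nd (nat_lit 156) (nat_lit 760) (nat_lit 0) (XT.nd (nat_lit 78) (nat_lit 228) (nat_lit 0) (XT.lf (nat_lit 0) (nat_lit 117422530) (nat_lit 380) (nat_lit 1858684706) (nat_lit 76) (nat_lit 10075321228) (nat_lit 102) (nat_lit 5) (nat_lit 107) (nat_lit 5) (nat_lit 103) (nat_lit 5) (nat_lit 483) (nat_lit 352) (nat_lit 305)) (XT.lf (nat_lit 0) (nat_lit 4973875431) (nat_lit 304) (nat_lit 4169505899) (nat_lit 76) (nat_lit 3035234949) (nat_lit 99) (nat_lit 5) (nat_lit 103) (nat_lit 5) (nat_lit 100) (nat_lit 5) (nat_lit 484) (nat_lit 352) (nat_lit 304))) (XT.nd (nat_lit 78) (nat_lit 532) (nat_lit 0) (XT.lf (nat_lit 0) (nat_lit 5767690088) (nat_lit 228) (nat_lit 4173604797) (nat_lit 304) (nat_lit 2366776215) (nat_lit 96) (nat_lit 5) (nat_lit 99) (nat_lit 5) (nat_lit 100) (nat_lit 5) (nat_lit 485) (nat_lit 352) (nat_lit 303)) (XT.nd (nat_lit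 78) (nat_lit 228) (nat_lit 0) (XT.lf (nat_lit 0) (nat_lit 2541771218) (nat_lit 304) (nat_lit 8982849052) (nat_lit 76) (nat_lit 915011239) (nat_lit 92) (nat_lit 5) (nat_lit 96) (nat_lit 5) (nat_lit 93) (nat_lit 5) (nat_lit 486) (nat_lit 352) (nat_lit 302)) (XT.lf (nat_lit 0) (nat_lit 1053414077) (nat_lit 228) (nat_lit 6493075878) (nat_lit 304) (nat_lit 5026426453) (nat_lit 89) (nat_lit 5) (nat_lit 92) (nat_lit 5) (nat_lit 93) (nat_lit 5) (nat_lit 487) (nat_lit 352) (nat_lit 301))))) (XT.nd (nat_lit 234) (nat_lit 532) (nat_lit 0) (XT.nd (nat_lit 78) (nat_lit 532) (nat_lit 0) (XT.lf (nat_lit 0) (nat_lit 11326338115) (nat_lit 228) (nat_lit 1336650649) (nat_lit 304) (nat_lit 45644527) (nat_lit 89) (nat_lit 5) (nat_lit 92) (nat_lit 5) (nat_lit 93) (nat_lit 5) (nat_lit 488) (nat_lit 352) (nat_lit 300)) (XT.nd (nat_lit 78) (nat_lit 228) (nat_lit 0) (XT.lf (nat_lit 0) (nat_lit 5004756443) (nat_lit 304) (nat_lit 3914374390) (nat_lit 76) (nat_lit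 3926559198) (nat_lit 85) (nat_lit 5) (nat_lit 89) (nat_lit 5) (nat_lit 86) (nat_lit 5) (nat_lit 489) (nat_lit 352) (nat_lit 299)) (XT.lf (nat_lit 0) (nat_lit 6475404996) (nat_lit 228) (nat_lit 3692580610) (nat_lit 304) (nat_lit 2817247639) (nat_lit 82) (nat_lit 5) (nat_lit 85) (nat_lit 5) (nat_lit 86) (nat_lit 5) (nat_lit 490) (nat_lit 352) (nat_lit 298)))) (XT.nd (nat_lit 78) (nat_lit 228) (nat_lit 0) (XT.lf (nat_lit 0) (nat_lit 2291862689) (nat_lit 304) (nat_lit 9187375417) (nat_lit 76) (nat_lit 1647725533) (nat_lit 78) (nat_lit 5) (nat_lit 82) (nat_lit 5) (nat_lit 79) (nat_lit 5) (nat_lit 491) (nat_lit 352) (nat_lit 297)) (XT.nd (nat_lit 78) (nat_lit 0) (nat_lit 0) (XT.lf (nat_lit 0) (nat_lit 1304122582) (nat_lit 228) (nat_lit 6190660757) (nat_lit 304) (nat_lit 5775785838) (nat_lit 75) (nat_lit 5) (nat_lit 78) (nat_lit 5) (nat_lit 79) (nat_lit 5) (nat_lit 492) (nat_lit 352) (nat_lit 296)) (XT.lf (nat_lit 0) (nat_lit 12045387124) (nat_lit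 228) (nat_lit 770831768) (nat_lit 304) (nat_lit 600538807) (nat_lit 75) (nat_lit 5) (nat_lit 78) (nat_lit 5) (nat_lit 79) (nat_lit 5) (nat_lit 493) (nat_lit 352) (nat_lit 295))))))) (XT.nd (nat_lit 780) (nat_lit 1064) (nat_lit 0) (XT.nd (nat_lit 390) (nat_lit 912) (nat_lit 0) (XT.nd (nat_lit 156) (nat_lit 456) (nat_lit 0) (XT.nd (nat_lit 78) (nat_lit 228) (nat_lit 0) (XT.lf (nat_lit 0) (nat_lit 4662863011) (nat_lit 228) (nat_lit 4150670661) (nat_lit 76) (nat_lit 4750808728) (nat_lit 72) (nat_lit 5) (nat_lit 75) (nat_lit 5) (nat_lit 73) (nat_lit 5) (nat_lit 494) (nat_lit 352) (nat_lit 294)) (XT.lf (nat_lit 0) (nat_lit 6713519422) (nat_lit 228) (nat_lit 3321495435) (nat_lit 304) (nat_lit 3679554082) (nat_lit 69) (nat_lit 5) (nat_lit 72) (nat_lit 5) (nat_lit 73) (nat_lit 5) (nat_lit 495) (nat_lit 352) (nat_lit 293))) (XT.nd (nat_lit 78) (nat_lit 228) (nat_lit 0) (XT.lf (nat_lit 0) (nat_lit 1647450472) (nat_lit 228) (nat_lit 9941367079) (nat_lit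 76) (nat_lit 2278323836) (nat_lit 66) (nat_lit 5) (nat_lit 69) (nat_lit 5) (nat_lit 67) (nat_lit 5) (nat_lit 496) (nat_lit 352) (nat_lit 292)) (XT.nd (nat_lit 78) (nat_lit 0) (nat_lit 0) (XT.lf (nat_lit 0) (nat_lit 1027115763) (nat_lit 228) (nat_lit 6034365262) (nat_lit 304) (nat_lit 6960202718) (nat_lit 63) (nat_lit 5) (nat_lit 66) (nat_lit 5) (nat_lit 67) (nat_lit 5) (nat_lit 497) (nat_lit 352) (nat_lit 291)) (XT.lf (nat_lit 0) (nat_lit 12266388656) (nat_lit 228) (nat_lit 338232933) (nat_lit 304) (nat_lit 1574278771) (nat_lit 63) (nat_lit 5) (nat_lit 66) (nat_lit 5) (nat_lit 67) (nat_lit 5) (nat_lit 498) (nat_lit 352) (nat_lit 290))))) (XT.nd (nat_lit 156) (nat_lit 456) (nat_lit 0) (XT.nd (nat_lit 78) (nat_lit 228) (nat_lit 0) (XT.lf (nat_lit 0) (nat_lit 3919614371) (nat_lit 228) (nat_lit 4967490391) (nat_lit 76) (nat_lit 5450614526) (nat_lit 60) (nat_lit 5) (nat_lit 63) (nat_lit 5) (nat_lit 61) (nat_lit 5) (nat_lit 499) (nat_lit 352)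 (nat_lit 289)) (XT.lf (nat_lit 0) (nat_lit 6393772898) (nat_lit 228) (nat_lit 3120061263) (nat_lit 304) (nat_lit 4985441748) (nat_lit 57) (nat_lit 5) (nat_lit 60) (nat_lit 5) (nat_lit 61) (nat_lit 5) (nat_lit 500) (nat_lit 352) (nat_lit 288))) (XT.nd (nat_lit 78) (nat_lit 228) (nat_lit 0) (XT.lf (nat_lit 0) (nat_lit 576825720) (nat_lit 228) (nat_lit 11338126424) (nat_lit 76) (nat_lit 2748474507) (nat_lit 54) (nat_lit 5) (nat_lit 57) (nat_lit 5) (nat_lit 55) (nat_lit 5) (nat_lit 501) (nat_lit 352) (nat_lit 287)) (XT.nd (nat_lit 78) (nat_lit 0) (nat_lit 0) (XT.lf (nat_lit 0) (nat_lit 129892591) (nat_lit 228) (nat_lit 6085017026) (nat_lit 304) (nat_lit 8614665192) (nat_lit 51) (nat_lit 5) (nat_lit 54) (nat_lit 5) (nat_lit 55) (nat_lit 5) (nat_lit 502) (nat_lit 352) (nat_lit 286)) (XT.lf (nat_lit 0) (nat_lit 11898915510) (nat_lit 228) (nat_lit 98279353) (nat_lit 304) (nat_lit 3001222275) (nat_lit 51) (nat_lit 5) (nat_lit 54) (nat_lit 5) (nat_lit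 55) (nat_lit 5) (nat_lit 503) (nat_lit 352) (nat_lit 285)))))) (XT.nd (nat_lit 390) (nat_lit 228) (nat_lit 0) (XT.nd (nat_lit 156) (nat_lit 380) (nat_lit 0) (XT.nd (nat_lit 78) (nat_lit 228) (nat_lit 0) (XT.lf (nat_lit 0) (nat_lit 2740762655) (nat_lit 228) (nat_lit 6460580398) (nat_lit 76) (nat_lit 5967899368) (nat_lit 48) (nat_lit 5) (nat_lit 51) (nat_lit 5) (nat_lit 49) (nat_lit 5) (nat_lit 504) (nat_lit 352) (nat_lit 284)) (XT.lf (nat_lit 0) (nat_lit 5421244569) (nat_lit 228) (nat_lit 3149023074) (nat_lit 304) (nat_lit 6772562473) (nat_lit 45) (nat_lit 5) (nat_lit 48) (nat_lit 5) (nat_lit 49) (nat_lit 5) (nat_lit 505) (nat_lit 352) (nat_lit 283))) (XT.nd (nat_lit 78) (nat_lit 228) (nat_lit 0) (XT.lf (nat_lit 0) (nat_lit 2034796343) (nat_lit 152) (nat_lit 12514196212) (nat_lit 228) (nat_lit 970244412) (nat_lit 43) (nat_lit 5) (nat_lit 45) (nat_lit 5) (nat_lit 46) (nat_lit 4) (nat_lit 506) (nat_lit 352) (nat_lit 282)) (XT.nd (nat_lit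 78) (nat_lit 152) (nat_lit 0) (XT.lf (nat_lit 0) (nat_lit 4927288334) (nat_lit 228) (nat_lit 1467740135) (nat_lit 76) (nat_lit 9302619680) (nat_lit 42) (nat_lit 5) (nat_lit 45) (nat_lit 5) (nat_lit 43) (nat_lit 5) (nat_lit 507) (nat_lit 352) (nat_lit 281)) (XT.lf (nat_lit 0) (nat_lit 10845428770) (nat_lit 152) (nat_lit 111827655) (nat_lit 228) (nat_lit 4921693339) (nat_lit 40) (nat_lit 5) (nat_lit 42) (nat_lit 5) (nat_lit 43) (nat_lit 5) (nat_lit 508) (nat_lit 352) (nat_lit 280))))) (XT.nd (nat_lit 53664) (nat_lit 0) (nat_lit 21508) (XT.nd (nat_lit 53508) (nat_lit 0) (nat_lit 23636) (XT.lf (nat_lit 0) (nat_lit 1086195412) (nat_lit 228) (nat_lit 8733335955) (nat_lit 76) (nat_lit 6243091674) (nat_lit 37) (nat_lit 5) (nat_lit 40) (nat_lit 5) (nat_lit 38) (nat_lit 5) (nat_lit 509) (nat_lit 352) (nat_lit 279)) (XT.nd (nat_lit 78) (nat_lit 684) (nat_lit 0) (XT.lf (nat_lit 0) (nat_lit 1629198491) (nat_lit 760) (nat_lit 655155777) (nat_lit 0)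 (nat_lit 1629198491) (nat_lit 357) (nat_lit 5) (nat_lit 367) (nat_lit 4) (nat_lit 357) (nat_lit 4) (nat_lit 434) (nat_lit 353) (nat_lit 353)) (XT.lf (nat_lit 0) (nat_lit 5256229075) (nat_lit 684) (nat_lit 1959290285) (nat_lit 684) (nat_lit 663862453) (nat_lit 348) (nat_lit 4) (nat_lit 357) (nat_lit 5) (nat_lit 357) (nat_lit 4) (nat_lit 435) (nat_lit 353) (nat_lit 352)))) (XT.nd (nat_lit 78) (nat_lit 1368) (nat_lit 0) (XT.lf (nat_lit 0) (nat_lit 3246584608) (nat_lit 760) (nat_lit 3954834811) (nat_lit 0) (nat_lit 731432532) (nat_lit 338) (nat_lit 5) (nat_lit 348) (nat_lit 4) (nat_lit 338) (nat_lit 4) (nat_lit 436) (nat_lit 353) (nat_lit 351)) (XT.nd (nat_lit 78) (nat_lit 684) (nat_lit 0) (XT.lf (nat_lit 0) (nat_lit 2689819994) (nat_lit 684) (nat_lit 4516869813) (nat_lit 684) (nat_lit 781007157) (nat_lit 329) (nat_lit 4) (nat_lit 338) (nat_lit 5) (nat_lit 338) (nat_lit 4) (nat_lit 437) (nat_lit 353) (nat_lit 350)) (XT.lf (nat_lit 0) (nat_lit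 1387075042) (nat_lit 608) (nat_lit 1741495638) (nat_lit 684) (nat_lit 4915288120) (nat_lit 320) (nat_lit 5) (nat_lit 328) (nat_lit 5) (nat_lit 329) (nat_lit 4) (nat_lit 438) (nat_lit 353) (nat_lit 349))))))))
noncomputable def xc36 : XT := (XT.nd (nat_lit 1560) (nat_lit 6612) (nat_lit 0) (XT.nd (nat_lit 780) (nat_lit 4028) (nat_lit 0) (XT.nd (nat_lit 390) (nat_lit 2432) (nat_lit 0) (XT.nd (nat_lit 156) (nat_lit 1824) (nat_lit 0) (XT.nd (nat_lit 78) (nat_lit 76) (nat_lit 0) (XT.lf (nat_lit 0) (nat_lit 76997093) (nat_lit 608) (nat_lit 7005368033) (nat_lit 608) (nat_lit 1019145844) (nat_lit 312) (nat_lit 4) (nat_lit 320) (nat_lit 5) (nat_lit 320) (nat_lit 4) (nat_lit 439) (nat_lit 353) (nat_lit 348)) (XT.lf (nat_lit 0) (nat_lit 2906079190) (nat_lit 684) (nat_lit 1243690108) (nat_lit 76) (nat_lit 4010364895) (nat_lit 311) (nat_lit 5) (nat_lit 320) (nat_lit 5) (nat_lit 312) (nat_lit 4) (nat_lit 440) (nat_lit 353) (nat_lit 347))) (XT.nd (nat_lit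 78) (nat_lit 1216) (nat_lit 0) (XT.lf (nat_lit 0) (nat_lit 5652942990) (nat_lit 608) (nat_lit 1214655150) (nat_lit 684) (nat_lit 1352768293) (nat_lit 303) (nat_lit 5) (nat_lit 311) (nat_lit 5) (nat_lit 312) (nat_lit 4) (nat_lit 441) (nat_lit 353) (nat_lit 346)) (XT.nd (nat_lit 78) (nat_lit 532) (nat_lit 0) (XT.lf (nat_lit 0) (nat_lit 2575678934) (nat_lit 684) (nat_lit 3918267097) (nat_lit 76) (nat_lit 1787844576) (nat_lit 294) (nat_lit 5) (nat_lit 303) (nat_lit 5) (nat_lit 295) (nat_lit 4) (nat_lit 442) (nat_lit 353) (nat_lit 345)) (XT.lf (nat_lit 0) (nat_lit 3058741573) (nat_lit 532) (nat_lit 3486676665) (nat_lit 608) (nat_lit 1799229454) (nat_lit 287) (nat_lit 5) (nat_lit 294) (nat_lit 5) (nat_lit 295) (nat_lit 4) (nat_lit 443) (nat_lit 353) (nat_lit 344))))) (XT.nd (nat_lit 156) (nat_lit 1216) (nat_lit 0) (XT.nd (nat_lit 78) (nat_lit 532) (nat_lit 0) (XT.lf (nat_lit 0) (nat_lit 1740302587) (nat_lit 608) (nat_lit 390434488) (nat_lit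 684) (nat_lit 6278268739) (nat_lit 278) (nat_lit 5) (nat_lit 286) (nat_lit 5) (nat_lit 287) (nat_lit 5) (nat_lit 444) (nat_lit 353) (nat_lit 343)) (XT.lf (nat_lit 0) (nat_lit 390897875) (nat_lit 532) (nat_lit 5716927282) (nat_lit 608) (nat_lit 2366735805) (nat_lit 271) (nat_lit 5) (nat_lit 278) (nat_lit 5) (nat_lit 279) (nat_lit 4) (nat_lit 445) (nat_lit 353) (nat_lit 342))) (XT.nd (nat_lit 78) (nat_lit 1140) (nat_lit 0) (XT.lf (nat_lit 0) (nat_lit 1586008875) (nat_lit 608) (nat_lit 960976661) (nat_lit 76) (nat_lit 5994545573) (nat_lit 270) (nat_lit 5) (nat_lit 278) (nat_lit 5) (nat_lit 271) (nat_lit 5) (nat_lit 446) (nat_lit 353) (nat_lit 341)) (XT.nd (nat_lit 78) (nat_lit 608) (nat_lit 0) (XT.lf (nat_lit 0) (nat_lit 5569488036) (nat_lit 608) (nat_lit 2331085035) (nat_lit 76) (nat_lit 709287304) (nat_lit 263) (nat_lit 5) (nat_lit 271) (nat_lit 5) (nat_lit 264) (nat_lit 4) (nat_lit 447) (nat_lit 353) (nat_lit 340)) (XT.lf (nat_lit 0)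 (nat_lit 934451977) (nat_lit 608) (nat_lit 3728654853) (nat_lit 76) (nat_lit 4016448208) (nat_lit 255) (nat_lit 5) (nat_lit 263) (nat_lit 5) (nat_lit 256) (nat_lit 5) (nat_lit 448) (nat_lit 353) (nat_lit 339)))))) (XT.nd (nat_lit 390) (nat_lit 1900) (nat_lit 0) (XT.nd (nat_lit 156) (nat_lit 1064) (nat_lit 0) (XT.nd (nat_lit 78) (nat_lit 532) (nat_lit 0) (XT.lf (nat_lit 0) (nat_lit 3598658881) (nat_lit 532) (nat_lit 1327158068) (nat_lit 608) (nat_lit 3824869614) (nat_lit 248) (nat_lit 5) (nat_lit 255) (nat_lit 5) (nat_lit 256) (nat_lit 5) (nat_lit 449) (nat_lit 353) (nat_lit 338)) (XT.lf (nat_lit 0) (nat_lit 163628997) (nat_lit 532) (nat_lit 6597135691) (nat_lit 76) (nat_lit 2062610677) (nat_lit 241) (nat_lit 5) (nat_lit 248) (nat_lit 5) (nat_lit 242) (nat_lit 5) (nat_lit 450) (nat_lit 353) (nat_lit 337))) (XT.nd (nat_lit 78) (nat_lit 532) (nat_lit 0) (XT.lf (nat_lit 0) (nat_lit 812613593) (nat_lit 532) (nat_lit 3356275312) (nat_lit 608)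 (nat_lit 4728359264) (nat_lit 234) (nat_lit 5) (nat_lit 241) (nat_lit 5) (nat_lit 242) (nat_lit 5) (nat_lit 451) (nat_lit 353) (nat_lit 336)) (XT.nd (nat_lit 78) (nat_lit 532) (nat_lit 0) (XT.lf (nat_lit 0) (nat_lit 8239299367) (nat_lit 608) (nat_lit 601991443) (nat_lit 76) (nat_lit 131606711) (nat_lit 234) (nat_lit 5) (nat_lit 242) (nat_lit 5) (nat_lit 235) (nat_lit 4) (nat_lit 452) (nat_lit 353) (nat_lit 335)) (XT.lf (nat_lit 0) (nat_lit 3305962954) (nat_lit 532) (nat_lit 2059052030) (nat_lit 76) (nat_lit 3684436562) (nat_lit 227) (nat_lit 5) (nat_lit 234) (nat_lit 5) (nat_lit 228) (nat_lit 5) (nat_lit 453) (nat_lit 353) (nat_lit 334))))) (XT.nd (nat_lit 156) (nat_lit 912) (nat_lit 0) (XT.nd (nat_lit 78) (nat_lit 532) (nat_lit 0) (XT.lf (nat_lit 0) (nat_lit 5596180772) (nat_lit 456) (nat_lit 1801837109) (nat_lit 532) (nat_lit 1729791278) (nat_lit 221) (nat_lit 5) (nat_lit 227) (nat_lit 5) (nat_lit 228) (nat_lit 5) (nat_lit 454) (nat_lit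 353) (nat_lit 333)) (XT.lf (nat_lit 0) (nat_lit 2327599398) (nat_lit 532) (nat_lit 5043432161) (nat_lit 76) (nat_lit 1836506848) (nat_lit 214) (nat_lit 5) (nat_lit 221) (nat_lit 5) (nat_lit 215) (nat_lit 5) (nat_lit 455) (nat_lit 353) (nat_lit 332))) (XT.nd (nat_lit 78) (nat_lit 456) (nat_lit 0) (XT.lf (nat_lit 0) (nat_lit 2696794179) (nat_lit 456) (nat_lit 3741214603) (nat_lit 532) (nat_lit 2850724125) (nat_lit 208) (nat_lit 5) (nat_lit 214) (nat_lit 5) (nat_lit 215) (nat_lit 5) (nat_lit 456) (nat_lit 353) (nat_lit 331)) (XT.nd (nat_lit 78) (nat_lit 0) (nat_lit 0) (XT.lf (nat_lit 0) (nat_lit 1208303560) (nat_lit 380) (nat_lit 18076210) (nat_lit 456) (nat_lit 8145331677) (nat_lit 202) (nat_lit 5) (nat_lit 207) (nat_lit 5) (nat_lit 208) (nat_lit 5) (nat_lit 457) (nat_lit 353) (nat_lit 330)) (XT.lf (nat_lit 0) (nat_lit 5358233629) (nat_lit 456) (nat_lit 334101652) (nat_lit 76) (nat_lit 3763409829) (nat_lit 202) (nat_lit 5) (nat_lit 208)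 (nat_lit 5) (nat_lit 203) (nat_lit 5) (nat_lit 458) (nat_lit 353) (nat_lit 329))))))) (XT.nd (nat_lit 780) (nat_lit 2964) (nat_lit 0) (XT.nd (nat_lit 390) (nat_lit 1520) (nat_lit 0) (XT.nd (nat_lit 156) (nat_lit 1216) (nat_lit 0) (XT.nd (nat_lit 78) (nat_lit 380) (nat_lit 0) (XT.lf (nat_lit 0) (nat_lit 24105085) (nat_lit 532) (nat_lit 1876641907) (nat_lit 76) (nat_lit 7640843394) (nat_lit 195) (nat_lit 5) (nat_lit 202) (nat_lit 5) (nat_lit 196) (nat_lit 5) (nat_lit 459) (nat_lit 353) (nat_lit 328)) (XT.lf (nat_lit 0) (nat_lit 4172242137) (nat_lit 456) (nat_lit 3476071350) (nat_lit 76) (nat_lit 1980318313) (nat_lit 190) (nat_lit 5) (nat_lit 196) (nat_lit 5) (nat_lit 191) (nat_lit 5) (nat_lit 460) (nat_lit 353) (nat_lit 327))) (XT.nd (nat_lit 78) (nat_lit 836) (nat_lit 0) (XT.lf (nat_lit 0) (nat_lit 4610813531) (nat_lit 380) (nat_lit 3791656958) (nat_lit 456) (nat_lit 1314960983) (nat_lit 185) (nat_lit 5) (nat_lit 190) (nat_lit 5) (nat_lit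 191) (nat_lit 5) (nat_lit 461) (nat_lit 353) (nat_lit 326)) (XT.nd (nat_lit 78) (nat_lit 380) (nat_lit 0) (XT.lf (nat_lit 0) (nat_lit 2859527711) (nat_lit 456) (nat_lit 6777051929) (nat_lit 76) (nat_lit 171281966) (nat_lit 179) (nat_lit 5) (nat_lit 185) (nat_lit 5) (nat_lit 180) (nat_lit 5) (nat_lit 462) (nat_lit 353) (nat_lit 325)) (XT.lf (nat_lit 0) (nat_lit 1396968268) (nat_lit 380) (nat_lit 5716040143) (nat_lit 456) (nat_lit 2786655905) (nat_lit 174) (nat_lit 5) (nat_lit 179) (nat_lit 5) (nat_lit 180) (nat_lit 5) (nat_lit 463) (nat_lit 353) (nat_lit 324))))) (XT.nd (nat_lit 156) (nat_lit 1140) (nat_lit 0) (XT.nd (nat_lit 78) (nat_lit 304) (nat_lit 0) (XT.lf (nat_lit 0) (nat_lit 1429483798) (nat_lit 456) (nat_lit 264086077) (nat_lit 76) (nat_lit 8299736776) (nat_lit 173) (nat_lit 5) (nat_lit 179) (nat_lit 5) (nat_lit 174) (nat_lit 5) (nat_lit 464) (nat_lit 353) (nat_lit 323)) (XT.lf (nat_lit 0) (nat_lit 5707093014) (nat_lit 380) (nat_lit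 1963301980) (nat_lit 76) (nat_lit 2417769242) (nat_lit 169) (nat_lit 5) (nat_lit 174) (nat_lit 5) (nat_lit 170) (nat_lit 5) (nat_lit 465) (nat_lit 353) (nat_lit 322))) (XT.nd (nat_lit 78) (nat_lit 760) (nat_lit 0) (XT.lf (nat_lit 0) (nat_lit 6487315400) (nat_lit 380) (nat_lit 3584018791) (nat_lit 456) (nat_lit 113563187) (nat_lit 164) (nat_lit 5) (nat_lit 169) (nat_lit 5) (nat_lit 170) (nat_lit 5) (nat_lit 466) (nat_lit 353) (nat_lit 321)) (XT.nd (nat_lit 78) (nat_lit 380) (nat_lit 0) (XT.lf (nat_lit 0) (nat_lit 4178272892) (nat_lit 380) (nat_lit 5488648892) (nat_lit 76) (nat_lit 616201372) (nat_lit 159) (nat_lit 5) (nat_lit 164) (nat_lit 5) (nat_lit 160) (nat_lit 5) (nat_lit 467) (nat_lit 353) (nat_lit 320)) (XT.lf (nat_lit 0) (nat_lit 3051797559) (nat_lit 380) (nat_lit 5517542310) (nat_lit 456) (nat_lit 1813660273) (nat_lit 154) (nat_lit 5) (nat_lit 159) (nat_lit 5) (nat_lit 160) (nat_lit 5) (nat_lit 468) (nat_lit 353) (nat_lit 319))))))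 (XT.nd (nat_lit 390) (nat_lit 1596) (nat_lit 0) (XT.nd (nat_lit 156) (nat_lit 988) (nat_lit 0) (XT.nd (nat_lit 78) (nat_lit 0) (nat_lit 0) (XT.lf (nat_lit 0) (nat_lit 1265638678) (nat_lit 304) (nat_lit 1255912457) (nat_lit 380) (nat_lit 7963154341) (nat_lit 149) (nat_lit 5) (nat_lit 153) (nat_lit 5) (nat_lit 154) (nat_lit 5) (nat_lit 469) (nat_lit 353) (nat_lit 318)) (XT.lf (nat_lit 0) (nat_lit 6935583859) (nat_lit 380) (nat_lit 573726937) (nat_lit 76) (nat_lit 3078566317) (nat_lit 149) (nat_lit 5) (nat_lit 154) (nat_lit 5) (nat_lit 150) (nat_lit 5) (nat_lit 470) (nat_lit 353) (nat_lit 317))) (XT.nd (nat_lit 78) (nat_lit 608) (nat_lit 0) (XT.lf (nat_lit 0) (nat_lit 744851369) (nat_lit 380) (nat_lit 2439237035) (nat_lit 76) (nat_lit 7508730379) (nat_lit 144) (nat_lit 5) (nat_lit 149) (nat_lit 5) (nat_lit 145) (nat_lit 5) (nat_lit 471) (nat_lit 353) (nat_lit 316)) (XT.nd (nat_lit 78) (nat_lit 304) (nat_lit 0) (XT.lf (nat_lit 0) (nat_lit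 5182937012) (nat_lit 380) (nat_lit 4368101328) (nat_lit 76) (nat_lit 1248300067) (nat_lit 140) (nat_lit 5) (nat_lit 145) (nat_lit 5) (nat_lit 141) (nat_lit 5) (nat_lit 472) (nat_lit 353) (nat_lit 315)) (XT.lf (nat_lit 0) (nat_lit 4556785666) (nat_lit 304) (nat_lit 5168351498) (nat_lit 380) (nat_lit 1182544203) (nat_lit 136) (nat_lit 5) (nat_lit 140) (nat_lit 5) (nat_lit 141) (nat_lit 5) (nat_lit 473) (nat_lit 353) (nat_lit 314))))) (XT.nd (nat_lit 234) (nat_lit 836) (nat_lit 0) (XT.nd (nat_lit 78) (nat_lit 380) (nat_lit 0) (XT.lf (nat_lit 0) (nat_lit 2627937130) (nat_lit 304) (nat_lit 663139560) (nat_lit 380) (nat_lit 7726782965) (nat_lit 131) (nat_lit 5) (nat_lit 135) (nat_lit 5) (nat_lit 136) (nat_lit 5) (nat_lit 474) (nat_lit 353) (nat_lit 313)) (XT.nd (nat_lit 78) (nat_lit 76) (nat_lit 0) (XT.lf (nat_lit 0) (nat_lit 631021153) (nat_lit 304) (nat_lit 7228410194) (nat_lit 380) (nat_lit 3270231919) (nat_lit 127) (nat_lit 5) (nat_lit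 131) (nat_lit 5) (nat_lit 132) (nat_lit 5) (nat_lit 475) (nat_lit 353) (nat_lit 312)) (XT.lf (nat_lit 0) (nat_lit 1268453203) (nat_lit 380) (nat_lit 1396279670) (nat_lit 76) (nat_lit 8578609835) (nat_lit 126) (nat_lit 5) (nat_lit 131) (nat_lit 5) (nat_lit 127) (nat_lit 5) (nat_lit 476) (nat_lit 353) (nat_lit 311)))) (XT.nd (nat_lit 78) (nat_lit 608) (nat_lit 0) (XT.lf (nat_lit 0) (nat_lit 5868208805) (nat_lit 304) (nat_lit 3487207502) (nat_lit 76) (nat_lit 2003165407) (nat_lit 123) (nat_lit 5) (nat_lit 127) (nat_lit 5) (nat_lit 124) (nat_lit 5) (nat_lit 477) (nat_lit 353) (nat_lit 310)) (XT.nd (nat_lit 78) (nat_lit 304) (nat_lit 0) (XT.lf (nat_lit 0) (nat_lit 5840985780) (nat_lit 304) (nat_lit 4733861806) (nat_lit 380) (nat_lit 900980151) (nat_lit 119) (nat_lit 5) (nat_lit 123) (nat_lit 5) (nat_lit 124) (nat_lit 5) (nat_lit 478) (nat_lit 353) (nat_lit 309)) (XT.lf (nat_lit 0) (nat_lit 3728617196) (nat_lit 304) (nat_lit 7847967415) (nat_lit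 76) (nat_lit 18383302) (nat_lit 115) (nat_lit 5) (nat_lit 119) (nat_lit 5) (nat_lit 116) (nat_lit 5) (nat_lit 479) (nat_lit 353) (nat_lit 308))))))))
noncomputable def xc37 : XT := (XT.nd (nat_lit 1560) (nat_lit 1672) (nat_lit 0) (XT.nd (nat_lit 780) (nat_lit 1900) (nat_lit 0) (XT.nd (nat_lit 390) (nat_lit 1064) (nat_lit 0) (XT.nd (nat_lit 156) (nat_lit 836) (nat_lit 0) (XT.nd (nat_lit 78) (nat_lit 76) (nat_lit 0) (XT.lf (nat_lit 0) (nat_lit 1574626027) (nat_lit 304) (nat_lit 6893954475) (nat_lit 380) (nat_lit 3247194521) (nat_lit 111) (nat_lit 5) (nat_lit 115) (nat_lit 5) (nat_lit 116) (nat_lit 5) (nat_lit 480) (nat_lit 353) (nat_lit 307)) (XT.lf (nat_lit 0) (nat_lit 1448440096) (nat_lit 380) (nat_lit 641431404) (nat_lit 76) (nat_lit 9748870616) (nat_lit 110) (nat_lit 5) (nat_lit 115) (nat_lit 5) (nat_lit 111) (nat_lit 5) (nat_lit 481) (nat_lit 353) (nat_lit 306))) (XT.nd (nat_lit 78) (nat_lit 608) (nat_lit 0) (XT.lf (nat_lit 0) (nat_lit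 6223193950) (nat_lit 304) (nat_lit 2920467898) (nat_lit 76) (nat_lit 2819503693) (nat_lit 107) (nat_lit 5) (nat_lit 111) (nat_lit 5) (nat_lit 108) (nat_lit 5) (nat_lit 482) (nat_lit 353) (nat_lit 305)) (XT.nd (nat_lit 78) (nat_lit 304) (nat_lit 0) (XT.lf (nat_lit 0) (nat_lit 6830741934) (nat_lit 304) (nat_lit 4276671906) (nat_lit 380) (nat_lit 982384175) (nat_lit 103) (nat_lit 5) (nat_lit 107) (nat_lit 5) (nat_lit 108) (nat_lit 5) (nat_lit 483) (nat_lit 353) (nat_lit 304)) (XT.lf (nat_lit 0) (nat_lit 3825114720) (nat_lit 304) (nat_lit 7675065075) (nat_lit 76) (nat_lit 718170364) (nat_lit 99) (nat_lit 5) (nat_lit 103) (nat_lit 5) (nat_lit 100) (nat_lit 5) (nat_lit 484) (nat_lit 353) (nat_lit 303))))) (XT.nd (nat_lit 156) (nat_lit 760) (nat_lit 0) (XT.nd (nat_lit 78) (nat_lit 76) (nat_lit 0) (XT.lf (nat_lit 0) (nat_lit 2173179516) (nat_lit 228) (nat_lit 6572112455) (nat_lit 304) (nat_lit 3603457853) (nat_lit 96) (nat_lit 5) (nat_lit 99)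 (nat_lit 5) (nat_lit 100) (nat_lit 5) (nat_lit 485) (nat_lit 353) (nat_lit 302)) (XT.lf (nat_lit 0) (nat_lit 1268943283) (nat_lit 304) (nat_lit 251504928) (nat_lit 76) (nat_lit 10961069921) (nat_lit 95) (nat_lit 5) (nat_lit 99) (nat_lit 5) (nat_lit 96) (nat_lit 5) (nat_lit 486) (nat_lit 353) (nat_lit 301))) (XT.nd (nat_lit 78) (nat_lit 532) (nat_lit 0) (XT.lf (nat_lit 0) (nat_lit 6231504665) (nat_lit 304) (nat_lit 2746000853) (nat_lit 76) (nat_lit 3638140661) (nat_lit 92) (nat_lit 5) (nat_lit 96) (nat_lit 5) (nat_lit 93) (nat_lit 5) (nat_lit 487) (nat_lit 353) (nat_lit 300)) (XT.nd (nat_lit 78) (nat_lit 304) (nat_lit 0) (XT.lf (nat_lit 0) (nat_lit 7448773689) (nat_lit 228) (nat_lit 3857579274) (nat_lit 304) (nat_lit 1445843109) (nat_lit 89) (nat_lit 5) (nat_lit 92) (nat_lit 5) (nat_lit 93) (nat_lit 5) (nat_lit 488) (nat_lit 353) (nat_lit 299)) (XT.lf (nat_lit 0) (nat_lit 3556922490) (nat_lit 304) (nat_lit 7948109676) (nat_lit 76) (nat_lit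 1385722451) (nat_lit 85) (nat_lit 5) (nat_lit 89) (nat_lit 5) (nat_lit 86) (nat_lit 5) (nat_lit 489) (nat_lit 353) (nat_lit 298)))))) (XT.nd (nat_lit 390) (nat_lit 912) (nat_lit 0) (XT.nd (nat_lit 156) (nat_lit 684) (nat_lit 0) (XT.nd (nat_lit 78) (nat_lit 76) (nat_lit 0) (XT.lf (nat_lit 0) (nat_lit 2346291086) (nat_lit 228) (nat_lit 6323851663) (nat_lit 304) (nat_lit 4361155260) (nat_lit 82) (nat_lit 5) (nat_lit 85) (nat_lit 5) (nat_lit 86) (nat_lit 5) (nat_lit 490) (nat_lit 353) (nat_lit 297)) (XT.lf (nat_lit 0) (nat_lit 708549842) (nat_lit 304) (nat_lit 307583863) (nat_lit 76) (nat_lit 12158288256) (nat_lit 81) (nat_lit 5) (nat_lit 85) (nat_lit 5) (nat_lit 82) (nat_lit 5) (nat_lit 491) (nat_lit 353) (nat_lit 296))) (XT.nd (nat_lit 78) (nat_lit 456) (nat_lit 0) (XT.lf (nat_lit 0) (nat_lit 5871276618) (nat_lit 304) (nat_lit 3046461166) (nat_lit 76) (nat_lit 4401093594) (nat_lit 78) (nat_lit 5) (nat_lit 82) (nat_lit 5) (nat_lit 79) (nat_lit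 5) (nat_lit 492) (nat_lit 353) (nat_lit 295)) (XT.nd (nat_lit 78) (nat_lit 228) (nat_lit 0) (XT.lf (nat_lit 0) (nat_lit 7613257176) (nat_lit 228) (nat_lit 3536506430) (nat_lit 304) (nat_lit 2316115263) (nat_lit 75) (nat_lit 5) (nat_lit 78) (nat_lit 5) (nat_lit 79) (nat_lit 5) (nat_lit 493) (nat_lit 353) (nat_lit 294)) (XT.lf (nat_lit 0) (nat_lit 2899162132) (nat_lit 228) (nat_lit 8753329306) (nat_lit 76) (nat_lit 1962607397) (nat_lit 72) (nat_lit 5) (nat_lit 75) (nat_lit 5) (nat_lit 73) (nat_lit 5) (nat_lit 494) (nat_lit 353) (nat_lit 293))))) (XT.nd (nat_lit 156) (nat_lit 684) (nat_lit 0) (XT.nd (nat_lit 78) (nat_lit 0) (nat_lit 0) (XT.lf (nat_lit 0) (nat_lit 2008532710) (nat_lit 228) (nat_lit 6209693411) (nat_lit 304) (nat_lit 5548161010) (nat_lit 69) (nat_lit 5) (nat_lit 72) (nat_lit 5) (nat_lit 73) (nat_lit 5) (nat_lit 495) (nat_lit 353) (nat_lit 292)) (XT.lf (nat_lit 0) (nat_lit 13022770417) (nat_lit 228) (nat_lit 634473204) (nat_lit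 304) (nat_lit 263186128) (nat_lit 69) (nat_lit 5) (nat_lit 72) (nat_lit 5) (nat_lit 73) (nat_lit 5) (nat_lit 496) (nat_lit 353) (nat_lit 291))) (XT.nd (nat_lit 78) (nat_lit 456) (nat_lit 0) (XT.lf (nat_lit 0) (nat_lit 5115117056) (nat_lit 228) (nat_lit 3909972354) (nat_lit 76) (nat_lit 5050700453) (nat_lit 66) (nat_lit 5) (nat_lit 69) (nat_lit 5) (nat_lit 67) (nat_lit 5) (nat_lit 497) (nat_lit 353) (nat_lit 290)) (XT.nd (nat_lit 78) (nat_lit 228) (nat_lit 0) (XT.lf (nat_lit 0) (nat_lit 7236891842) (nat_lit 228) (nat_lit 3373373586) (nat_lit 304) (nat_lit 3623700895) (nat_lit 63) (nat_lit 5) (nat_lit 66) (nat_lit 5) (nat_lit 67) (nat_lit 5) (nat_lit 498) (nat_lit 353) (nat_lit 289)) (XT.lf (nat_lit 0) (nat_lit 1821334194) (nat_lit 228) (nat_lit 10182928870) (nat_lit 76) (nat_lit 2390303044) (nat_lit 60) (nat_lit 5) (nat_lit 63) (nat_lit 5) (nat_lit 61) (nat_lit 5) (nat_lit 499) (nat_lit 353) (nat_lit 288))))))) (XT.nd (nat_lit 54054) (nat_lit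 0) (nat_lit 19456) (XT.nd (nat_lit 390) (nat_lit 760) (nat_lit 0) (XT.nd (nat_lit 156) (nat_lit 684) (nat_lit 0) (XT.nd (nat_lit 78) (nat_lit 0) (nat_lit 0) (XT.lf (nat_lit 0) (nat_lit 1068488992) (nat_lit 228) (nat_lit 6290570259) (nat_lit 304) (nat_lit 7198193371) (nat_lit 57) (nat_lit 5) (nat_lit 60) (nat_lit 5) (nat_lit 61) (nat_lit 5) (nat_lit 500) (nat_lit 353) (nat_lit 287)) (XT.lf (nat_lit 0) (nat_lit 12602692308) (nat_lit 228) (nat_lit 429248995) (nat_lit 304) (nat_lit 1690763515) (nat_lit 57) (nat_lit 5) (nat_lit 60) (nat_lit 5) (nat_lit 61) (nat_lit 5) (nat_lit 501) (nat_lit 353) (nat_lit 286))) (XT.nd (nat_lit 78) (nat_lit 456) (nat_lit 0) (XT.lf (nat_lit 0) (nat_lit 3929987083) (nat_lit 228) (nat_lit 5431082780) (nat_lit 76) (nat_lit 5528792824) (nat_lit 54) (nat_lit 5) (nat_lit 57) (nat_lit 5) (nat_lit 55) (nat_lit 5) (nat_lit 502) (nat_lit 353) (nat_lit 285)) (XT.nd (nat_lit 78) (nat_lit 228) (nat_lit 0) (XT.lf (nat_lit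 0) (nat_lit 6225942627) (nat_lit 228) (nat_lit 3428930709) (nat_lit 304) (nat_lit 5404979659) (nat_lit 51) (nat_lit 5) (nat_lit 54) (nat_lit 5) (nat_lit 55) (nat_lit 5) (nat_lit 503) (nat_lit 353) (nat_lit 284)) (XT.lf (nat_lit 0) (nat_lit 287169054) (nat_lit 228) (nat_lit 12336067284) (nat_lit 76) (nat_lit 2609381315) (nat_lit 48) (nat_lit 5) (nat_lit 51) (nat_lit 5) (nat_lit 49) (nat_lit 5) (nat_lit 504) (nat_lit 353) (nat_lit 283))))) (XT.nd (nat_lit 156) (nat_lit 532) (nat_lit 0) (XT.nd (nat_lit 78) (nat_lit 228) (nat_lit 0) (XT.lf (nat_lit 0) (nat_lit 6060141498) (nat_lit 228) (nat_lit 564717339) (nat_lit 76) (nat_lit 8782477160) (nat_lit 48) (nat_lit 5) (nat_lit 51) (nat_lit 5) (nat_lit 49) (nat_lit 5) (nat_lit 505) (nat_lit 353) (nat_lit 282)) (XT.lf (nat_lit 0) (nat_lit 11515105477) (nat_lit 228) (nat_lit 465981478) (nat_lit 304) (nat_lit 3603811483) (nat_lit 45) (nat_lit 5) (nat_lit 48) (nat_lit 5) (nat_lit 49) (nat_lit 5) (nat_lit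 506) (nat_lit 353) (nat_lit 281))) (XT.nd (nat_lit 78) (nat_lit 304) (nat_lit 0) (XT.lf (nat_lit 0) (nat_lit 2277020068) (nat_lit 228) (nat_lit 7711755661) (nat_lit 76) (nat_lit 5775900687) (nat_lit 42) (nat_lit 5) (nat_lit 45) (nat_lit 5) (nat_lit 43) (nat_lit 5) (nat_lit 507) (nat_lit 353) (nat_lit 280)) (XT.nd (nat_lit 78) (nat_lit 152) (nat_lit 0) (XT.lf (nat_lit 0) (nat_lit 4479247587) (nat_lit 152) (nat_lit 3765560858) (nat_lit 228) (nat_lit 7702413180) (nat_lit 40) (nat_lit 5) (nat_lit 42) (nat_lit 5) (nat_lit 43) (nat_lit 5) (nat_lit 508) (nat_lit 353) (nat_lit 279)) (XT.lf (nat_lit 0) (nat_lit 801419447) (nat_lit 152) (nat_lit 13562573837) (nat_lit 228) (nat_lit 1768783640) (nat_lit 38) (nat_lit 5) (nat_lit 40) (nat_lit 5) (nat_lit 41) (nat_lit 4) (nat_lit 509) (nat_lit 353) (nat_lit 278)))))) (XT.nd (nat_lit 390) (nat_lit 3344) (nat_lit 0) (XT.nd (nat_lit 156) (nat_lit 1444) (nat_lit 0) (XT.nd (nat_lit 78) (nat_lit 760) (nat_lit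 0) (XT.lf (nat_lit 0) (nat_lit 679357708) (nat_lit 760) (nat_lit 1591812826) (nat_lit 760) (nat_lit 1591812826) (nat_lit 367) (nat_lit 4) (nat_lit 377) (nat_lit 5) (nat_lit 377) (nat_lit 4) (nat_lit 432) (nat_lit 354) (nat_lit 354)) (XT.lf (nat_lit 0) (nat_lit 6628393) (nat_lit 684) (nat_lit 663862453) (nat_lit 760) (nat_lit 7105957621) (nat_lit 357) (nat_lit 5) (nat_lit 366) (nat_lit 5) (nat_lit 367) (nat_lit 4) (nat_lit 433) (nat_lit 354) (nat_lit 353))) (XT.nd (nat_lit 78) (nat_lit 1444) (nat_lit 0) (XT.lf (nat_lit 0) (nat_lit 4545659924) (nat_lit 760) (nat_lit 1353231361) (nat_lit 0) (nat_lit 1928895703) (nat_lit 357) (nat_lit 5) (nat_lit 367) (nat_lit 4) (nat_lit 357) (nat_lit 4) (nat_lit 434) (nat_lit 354) (nat_lit 352)) (XT.nd (nat_lit 78) (nat_lit 684) (nat_lit 0) (XT.lf (nat_lit 0) (nat_lit 580362479) (nat_lit 760) (nat_lit 2714459298) (nat_lit 76) (nat_lit 4585844432) (nat_lit 347) (nat_lit 5) (nat_lit 357) (nat_lit 5) (nat_lit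 348) (nat_lit 4) (nat_lit 435) (nat_lit 354) (nat_lit 351)) (XT.lf (nat_lit 0) (nat_lit 3843233398) (nat_lit 684) (nat_lit 599910015) (nat_lit 760) (nat_lit 3491685919) (nat_lit 338) (nat_lit 5) (nat_lit 347) (nat_lit 5) (nat_lit 348) (nat_lit 4) (nat_lit 436) (nat_lit 354) (nat_lit 350))))) (XT.nd (nat_lit 234) (nat_lit 1900) (nat_lit 0) (XT.nd (nat_lit 78) (nat_lit 684) (nat_lit 0) (XT.lf (nat_lit 0) (nat_lit 369929332) (nat_lit 760) (nat_lit 5480808313) (nat_lit 76) (nat_lit 2139647411) (nat_lit 328) (nat_lit 5) (nat_lit 338) (nat_lit 5) (nat_lit 329) (nat_lit 4) (nat_lit 437) (nat_lit 354) (nat_lit 349)) (XT.nd (nat_lit 78) (nat_lit 76) (nat_lit 0) (XT.lf (nat_lit 0) (nat_lit 1153287963) (nat_lit 608) (nat_lit 3081693436) (nat_lit 684) (nat_lit 3812149733) (nat_lit 320) (nat_lit 5) (nat_lit 328) (nat_lit 5) (nat_lit 329) (nat_lit 4) (nat_lit 438) (nat_lit 354) (nat_lit 348)) (XT.lf (nat_lit 0) (nat_lit 42519362) (nat_lit 684) (nat_lit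 197229375) (nat_lit 76) (nat_lit 7865831090) (nat_lit 319) (nat_lit 5) (nat_lit 328) (nat_lit 5) (nat_lit 320) (nat_lit 5) (nat_lit 439) (nat_lit 354) (nat_lit 347)))) (XT.nd (nat_lit 78) (nat_lit 1292) (nat_lit 0) (XT.lf (nat_lit 0) (nat_lit 3919198703) (nat_lit 684) (nat_lit 1572851161) (nat_lit 76) (nat_lit 2672724435) (nat_lit 311) (nat_lit 5) (nat_lit 320) (nat_lit 5) (nat_lit 312) (nat_lit 4) (nat_lit 440) (nat_lit 354) (nat_lit 346)) (XT.nd (nat_lit 78) (nat_lit 684) (nat_lit 0) (XT.lf (nat_lit 0) (nat_lit 5276524623) (nat_lit 608) (nat_lit 2570066082) (nat_lit 684) (nat_lit 379098374) (nat_lit 303) (nat_lit 5) (nat_lit 311) (nat_lit 5) (nat_lit 312) (nat_lit 4) (nat_lit 441) (nat_lit 354) (nat_lit 345)) (XT.lf (nat_lit 0) (nat_lit 3493356355) (nat_lit 684) (nat_lit 4351548222) (nat_lit 76) (nat_lit 442946692) (nat_lit 294) (nat_lit 5) (nat_lit 303) (nat_lit 5) (nat_lit 295) (nat_lit 4) (nat_lit 442) (nat_lit 354) (nat_lit 344))))))))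
noncomputable def xc38 : XT := (XT.nd (nat_lit 1560) (nat_lit 5776) (nat_lit 0) (XT.nd (nat_lit 780) (nat_lit 4180) (nat_lit 0) (XT.nd (nat_lit 390) (nat_lit 2204) (nat_lit 0) (XT.nd (nat_lit 156) (nat_lit 1140) (nat_lit 0) (XT.nd (nat_lit 78) (nat_lit 684) (nat_lit 0) (XT.lf (nat_lit 0) (nat_lit 2576399889) (nat_lit 532) (nat_lit 4852295137) (nat_lit 608) (nat_lit 922701342) (nat_lit 287) (nat_lit 5) (nat_lit 294) (nat_lit 5) (nat_lit 295) (nat_lit 4) (nat_lit 443) (nat_lit 354) (nat_lit 343)) (XT.lf (nat_lit 0) (nat_lit 1195508962) (nat_lit 608) (nat_lit 1765586926) (nat_lit 684) (nat_lit 5455238251) (nat_lit 278) (nat_lit 5) (nat_lit 286) (nat_lit 5) (nat_lit 287) (nat_lit 5) (nat_lit 444) (nat_lit 354) (nat_lit 342))) (XT.nd (nat_lit 78) (nat_lit 1140) (nat_lit 0) (XT.lf (nat_lit 0) (nat_lit 6895838810) (nat_lit 684) (nat_lit 200547087) (nat_lit 76) (nat_lit 1386350294) (nat_lit 278) (nat_lit 5) (nat_lit 287) (nat_lit 5) (nat_lit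 279) (nat_lit 4) (nat_lit 445) (nat_lit 354) (nat_lit 341)) (XT.nd (nat_lit 78) (nat_lit 532) (nat_lit 0) (XT.lf (nat_lit 0) (nat_lit 2323537646) (nat_lit 608) (nat_lit 1611592603) (nat_lit 76) (nat_lit 4615116464) (nat_lit 270) (nat_lit 5) (nat_lit 278) (nat_lit 5) (nat_lit 271) (nat_lit 5) (nat_lit 446) (nat_lit 354) (nat_lit 340)) (XT.lf (nat_lit 0) (nat_lit 5581307578) (nat_lit 532) (nat_lit 686332749) (nat_lit 608) (nat_lit 2351723179) (nat_lit 263) (nat_lit 5) (nat_lit 270) (nat_lit 5) (nat_lit 271) (nat_lit 5) (nat_lit 447) (nat_lit 354) (nat_lit 339))))) (XT.nd (nat_lit 156) (nat_lit 1064) (nat_lit 0) (XT.nd (nat_lit 78) (nat_lit 532) (nat_lit 0) (XT.lf (nat_lit 0) (nat_lit 1574537968) (nat_lit 608) (nat_lit 4498211563) (nat_lit 76) (nat_lit 2617009845) (nat_lit 255) (nat_lit 5) (nat_lit 263) (nat_lit 5) (nat_lit 256) (nat_lit 5) (nat_lit 448) (nat_lit 354) (nat_lit 338)) (XT.lf (nat_lit 0) (nat_lit 2775551923) (nat_lit 532) (nat_lit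 2755209450) (nat_lit 608) (nat_lit 3230832358) (nat_lit 248) (nat_lit 5) (nat_lit 255) (nat_lit 5) (nat_lit 256) (nat_lit 5) (nat_lit 449) (nat_lit 354) (nat_lit 337))) (XT.nd (nat_lit 78) (nat_lit 532) (nat_lit 0) (XT.lf (nat_lit 0) (nat_lit 705026517) (nat_lit 532) (nat_lit 7491748833) (nat_lit 76) (nat_lit 638327022) (nat_lit 241) (nat_lit 5) (nat_lit 248) (nat_lit 5) (nat_lit 242) (nat_lit 5) (nat_lit 450) (nat_lit 354) (nat_lit 336)) (XT.nd (nat_lit 78) (nat_lit 532) (nat_lit 0) (XT.lf (nat_lit 0) (nat_lit 4675545987) (nat_lit 532) (nat_lit 135745170) (nat_lit 76) (nat_lit 4098378828) (nat_lit 241) (nat_lit 5) (nat_lit 248) (nat_lit 5) (nat_lit 242) (nat_lit 5) (nat_lit 451) (nat_lit 354) (nat_lit 335)) (XT.lf (nat_lit 0) (nat_lit 7378821908) (nat_lit 532) (nat_lit 1336211051) (nat_lit 608) (nat_lit 270904847) (nat_lit 234) (nat_lit 5) (nat_lit 241) (nat_lit 5) (nat_lit 242) (nat_lit 5) (nat_lit 452) (nat_lit 354) (nat_lit 334))))))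 (XT.nd (nat_lit 390) (nat_lit 2128) (nat_lit 0) (XT.nd (nat_lit 156) (nat_lit 1064) (nat_lit 0) (XT.nd (nat_lit 78) (nat_lit 456) (nat_lit 0) (XT.lf (nat_lit 0) (nat_lit 3718105311) (nat_lit 532) (nat_lit 3128393190) (nat_lit 76) (nat_lit 2216822900) (nat_lit 227) (nat_lit 5) (nat_lit 234) (nat_lit 5) (nat_lit 228) (nat_lit 5) (nat_lit 453) (nat_lit 354) (nat_lit 333)) (XT.lf (nat_lit 0) (nat_lit 4469512329) (nat_lit 456) (nat_lit 3304753789) (nat_lit 532) (nat_lit 1368130780) (nat_lit 221) (nat_lit 5) (nat_lit 227) (nat_lit 5) (nat_lit 228) (nat_lit 5) (nat_lit 454) (nat_lit 354) (nat_lit 332))) (XT.nd (nat_lit 78) (nat_lit 532) (nat_lit 0) (XT.lf (nat_lit 0) (nat_lit 2638345804) (nat_lit 532) (nat_lit 6250830957) (nat_lit 76) (nat_lit 333825839) (nat_lit 214) (nat_lit 5) (nat_lit 221) (nat_lit 5) (nat_lit 215) (nat_lit 5) (nat_lit 455) (nat_lit 354) (nat_lit 331)) (XT.nd (nat_lit 78) (nat_lit 76) (nat_lit 0) (XT.lf (nat_lit 0) (nat_lit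 1429939641) (nat_lit 456) (nat_lit 5282301140) (nat_lit 532) (nat_lit 2592686607) (nat_lit 208) (nat_lit 5) (nat_lit 214) (nat_lit 5) (nat_lit 215) (nat_lit 5) (nat_lit 456) (nat_lit 354) (nat_lit 330)) (XT.lf (nat_lit 0) (nat_lit 1444991691) (nat_lit 532) (nat_lit 135201512) (nat_lit 76) (nat_lit 7808400045) (nat_lit 207) (nat_lit 5) (nat_lit 214) (nat_lit 5) (nat_lit 208) (nat_lit 5) (nat_lit 457) (nat_lit 354) (nat_lit 329))))) (XT.nd (nat_lit 156) (nat_lit 1216) (nat_lit 0) (XT.nd (nat_lit 78) (nat_lit 532) (nat_lit 0) (XT.lf (nat_lit 0) (nat_lit 5537791903) (nat_lit 456) (nat_lit 1729268773) (nat_lit 76) (nat_lit 2206347309) (nat_lit 202) (nat_lit 5) (nat_lit 208) (nat_lit 5) (nat_lit 203) (nat_lit 5) (nat_lit 458) (nat_lit 354) (nat_lit 328)) (XT.lf (nat_lit 0) (nat_lit 146709217) (nat_lit 532) (nat_lit 3352388262) (nat_lit 76) (nat_lit 6060878119) (nat_lit 195) (nat_lit 5) (nat_lit 202) (nat_lit 5) (nat_lit 196) (nat_lit 5) (nat_lit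 459) (nat_lit 354) (nat_lit 327))) (XT.nd (nat_lit 78) (nat_lit 836) (nat_lit 0) (XT.lf (nat_lit 0) (nat_lit 4246937007) (nat_lit 456) (nat_lit 5022938446) (nat_lit 76) (nat_lit 378099745) (nat_lit 190) (nat_lit 5) (nat_lit 196) (nat_lit 5) (nat_lit 191) (nat_lit 5) (nat_lit 460) (nat_lit 354) (nat_lit 326)) (XT.nd (nat_lit 78) (nat_lit 456) (nat_lit 0) (XT.lf (nat_lit 0) (nat_lit 3000303414) (nat_lit 380) (nat_lit 5439191174) (nat_lit 456) (nat_lit 1298033696) (nat_lit 185) (nat_lit 5) (nat_lit 190) (nat_lit 5) (nat_lit 191) (nat_lit 5) (nat_lit 461) (nat_lit 354) (nat_lit 325)) (XT.lf (nat_lit 0) (nat_lit 1336402978) (nat_lit 380) (nat_lit 1500561061) (nat_lit 456) (nat_lit 6991777562) (nat_lit 179) (nat_lit 5) (nat_lit 184) (nat_lit 5) (nat_lit 185) (nat_lit 5) (nat_lit 462) (nat_lit 354) (nat_lit 324))))))) (XT.nd (nat_lit 780) (nat_lit 2812) (nat_lit 0) (XT.nd (nat_lit 390) (nat_lit 1444) (nat_lit 0) (XT.nd (nat_lit 156) (nat_lit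 1064) (nat_lit 0) (XT.nd (nat_lit 78) (nat_lit 456) (nat_lit 0) (XT.lf (nat_lit 0) (nat_lit 7044655601) (nat_lit 456) (nat_lit 369655981) (nat_lit 76) (nat_lit 2507148510) (nat_lit 179) (nat_lit 5) (nat_lit 185) (nat_lit 5) (nat_lit 180) (nat_lit 5) (nat_lit 463) (nat_lit 354) (nat_lit 323)) (XT.lf (nat_lit 0) (nat_lit 1311169201) (nat_lit 456) (nat_lit 2099700754) (nat_lit 76) (nat_lit 6604831145) (nat_lit 173) (nat_lit 5) (nat_lit 179) (nat_lit 5) (nat_lit 174) (nat_lit 5) (nat_lit 464) (nat_lit 354) (nat_lit 322))) (XT.nd (nat_lit 78) (nat_lit 760) (nat_lit 0) (XT.lf (nat_lit 0) (nat_lit 5538719818) (nat_lit 380) (nat_lit 3877699962) (nat_lit 76) (nat_lit 695140077) (nat_lit 169) (nat_lit 5) (nat_lit 174) (nat_lit 5) (nat_lit 170) (nat_lit 5) (nat_lit 465) (nat_lit 354) (nat_lit 321)) (XT.nd (nat_lit 78) (nat_lit 380) (nat_lit 0) (XT.lf (nat_lit 0) (nat_lit 4504776056) (nat_lit 380) (nat_lit 5359085176) (nat_lit 456) (nat_lit 345213762)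 (nat_lit 164) (nat_lit 5) (nat_lit 169) (nat_lit 5) (nat_lit 170) (nat_lit 5) (nat_lit 466) (nat_lit 354) (nat_lit 320)) (XT.lf (nat_lit 0) (nat_lit 2723976807) (nat_lit 304) (nat_lit 1182002380) (nat_lit 380) (nat_lit 6402225291) (nat_lit 159) (nat_lit 5) (nat_lit 163) (nat_lit 5) (nat_lit 164) (nat_lit 5) (nat_lit 467) (nat_lit 354) (nat_lit 319))))) (XT.nd (nat_lit 156) (nat_lit 988) (nat_lit 0) (XT.nd (nat_lit 78) (nat_lit 76) (nat_lit 0) (XT.lf (nat_lit 0) (nat_lit 893236168) (nat_lit 380) (nat_lit 7356100069) (nat_lit 456) (nat_lit 2159699424) (nat_lit 154) (nat_lit 5) (nat_lit 159) (nat_lit 5) (nat_lit 160) (nat_lit 5) (nat_lit 468) (nat_lit 354) (nat_lit 318)) (XT.lf (nat_lit 0) (nat_lit 2145878535) (nat_lit 456) (nat_lit 975723951) (nat_lit 76) (nat_lit 7389866881) (nat_lit 153) (nat_lit 5) (nat_lit 159) (nat_lit 5) (nat_lit 154) (nat_lit 5) (nat_lit 469) (nat_lit 354) (nat_lit 317))) (XT.nd (nat_lit 78) (nat_lit 684) (nat_lit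 0) (XT.lf (nat_lit 0) (nat_lit 6515510533) (nat_lit 380) (nat_lit 2885335016) (nat_lit 76) (nat_lit 1214683470) (nat_lit 149) (nat_lit 5) (nat_lit 154) (nat_lit 5) (nat_lit 150) (nat_lit 5) (nat_lit 470) (nat_lit 354) (nat_lit 316)) (XT.nd (nat_lit 78) (nat_lit 304) (nat_lit 0) (XT.lf (nat_lit 0) (nat_lit 261926286) (nat_lit 380) (nat_lit 4849118211) (nat_lit 76) (nat_lit 5610305767) (nat_lit 144) (nat_lit 5) (nat_lit 149) (nat_lit 5) (nat_lit 145) (nat_lit 5) (nat_lit 471) (nat_lit 354) (nat_lit 315)) (XT.lf (nat_lit 0) (nat_lit 3955382275) (nat_lit 304) (nat_lit 695029851) (nat_lit 380) (nat_lit 6178449758) (nat_lit 140) (nat_lit 5) (nat_lit 144) (nat_lit 5) (nat_lit 145) (nat_lit 5) (nat_lit 472) (nat_lit 354) (nat_lit 314)))))) (XT.nd (nat_lit 390) (nat_lit 1520) (nat_lit 0) (XT.nd (nat_lit 156) (nat_lit 912) (nat_lit 0) (XT.nd (nat_lit 78) (nat_lit 76) (nat_lit 0) (XT.lf (nat_lit 0) (nat_lit 1980239920) (nat_lit 304) (nat_lit 7165992058)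 (nat_lit 380) (nat_lit 1791900472) (nat_lit 136) (nat_lit 5) (nat_lit 140) (nat_lit 5) (nat_lit 141) (nat_lit 5) (nat_lit 473) (nat_lit 354) (nat_lit 313)) (XT.lf (nat_lit 0) (nat_lit 2647568604) (nat_lit 380) (nat_lit 51515157) (nat_lit 76) (nat_lit 8350148978) (nat_lit 135) (nat_lit 5) (nat_lit 140) (nat_lit 5) (nat_lit 136) (nat_lit 5) (nat_lit 474) (nat_lit 354) (nat_lit 312))) (XT.nd (nat_lit 78) (nat_lit 608) (nat_lit 0) (XT.lf (nat_lit 0) (nat_lit 7173297168) (nat_lit 380) (nat_lit 2117608652) (nat_lit 76) (nat_lit 1870983050) (nat_lit 131) (nat_lit 5) (nat_lit 136) (nat_lit 5) (nat_lit 132) (nat_lit 5) (nat_lit 475) (nat_lit 354) (nat_lit 311)) (XT.nd (nat_lit 78) (nat_lit 228) (nat_lit 0) (XT.lf (nat_lit 0) (nat_lit 520576123) (nat_lit 380) (nat_lit 4242911730) (nat_lit 76) (nat_lit 6512952516) (nat_lit 126) (nat_lit 5) (nat_lit 131) (nat_lit 5) (nat_lit 127) (nat_lit 5) (nat_lit 476) (nat_lit 354) (nat_lit 310)) (XT.lf (nat_lit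 0) (nat_lit 4958518817) (nat_lit 228) (nat_lit 105208431) (nat_lit 304) (nat_lit 6329084216) (nat_lit 123) (nat_lit 5) (nat_lit 126) (nat_lit 5) (nat_lit 127) (nat_lit 5) (nat_lit 477) (nat_lit 354) (nat_lit 309))))) (XT.nd (nat_lit 234) (nat_lit 912) (nat_lit 0) (XT.nd (nat_lit 78) (nat_lit 304) (nat_lit 0) (XT.lf (nat_lit 0) (nat_lit 2813487257) (nat_lit 304) (nat_lit 6912216434) (nat_lit 380) (nat_lit 1785247043) (nat_lit 119) (nat_lit 5) (nat_lit 123) (nat_lit 5) (nat_lit 124) (nat_lit 5) (nat_lit 478) (nat_lit 354) (nat_lit 308)) (XT.nd (nat_lit 78) (nat_lit 0) (nat_lit 0) (XT.lf (nat_lit 0) (nat_lit 607627999) (nat_lit 228) (nat_lit 2203542529) (nat_lit 304) (nat_lit 8819930750) (nat_lit 115) (nat_lit 5) (nat_lit 118) (nat_lit 5) (nat_lit 119) (nat_lit 5) (nat_lit 479) (nat_lit 354) (nat_lit 307)) (XT.lf (nat_lit 0) (nat_lit 7502428586) (nat_lit 304) (nat_lit 1648762606) (nat_lit 76) (nat_lit 2601691300) (nat_lit 115) (nat_lit 5)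 (nat_lit 119) (nat_lit 5) (nat_lit 116) (nat_lit 5) (nat_lit 480) (nat_lit 354) (nat_lit 306)))) (XT.nd (nat_lit 78) (nat_lit 532) (nat_lit 0) (XT.lf (nat_lit 0) (nat_lit 423292172) (nat_lit 380) (nat_lit 3959055467) (nat_lit 76) (nat_lit 7494333151) (nat_lit 110) (nat_lit 5) (nat_lit 115) (nat_lit 5) (nat_lit 111) (nat_lit 5) (nat_lit 481) (nat_lit 354) (nat_lit 305)) (XT.nd (nat_lit 78) (nat_lit 304) (nat_lit 0) (XT.lf (nat_lit 0) (nat_lit 5137155183) (nat_lit 304) (nat_lit 6347205274) (nat_lit 76) (nat_lit 517961575) (nat_lit 107) (nat_lit 5) (nat_lit 111) (nat_lit 5) (nat_lit 108) (nat_lit 5) (nat_lit 482) (nat_lit 354) (nat_lit 304)) (XT.lf (nat_lit 0) (nat_lit 3317061763) (nat_lit 304) (nat_lit 6657935907) (nat_lit 380) (nat_lit 2154884385) (nat_lit 103) (nat_lit 5) (nat_lit 107) (nat_lit 5) (nat_lit 108) (nat_lit 5) (nat_lit 483) (nat_lit 354) (nat_lit 303))))))))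
noncomputable def xc39 : XT := (XT.nd (nat_lit 1638) (nat_lit 836) (nat_lit 0) (XT.nd (nat_lit 780) (nat_lit 1824) (nat_lit 0) (XT.nd (nat_lit 390) (nat_lit 1064) (nat_lit 0) (XT.nd (nat_lit 156) (nat_lit 760) (nat_lit 0) (XT.nd (nat_lit 78) (nat_lit 0) (nat_lit 0) (XT.lf (nat_lit 0) (nat_lit 913378738) (nat_lit 228) (nat_lit 1702768965) (nat_lit 304) (nat_lit 9643475636) (nat_lit 99) (nat_lit 5) (nat_lit 102) (nat_lit 5) (nat_lit 103) (nat_lit 5) (nat_lit 484) (nat_lit 354) (nat_lit 302)) (XT.lf (nat_lit 0) (nat_lit 7487724181) (nat_lit 304) (nat_lit 1556435108) (nat_lit 76) (nat_lit 3346835730) (nat_lit 99) (nat_lit 5) (nat_lit 103) (nat_lit 5) (nat_lit 100) (nat_lit 5) (nat_lit 485) (nat_lit 354) (nat_lit 301))) (XT.nd (nat_lit 78) (nat_lit 532) (nat_lit 0) (XT.lf (nat_lit 0) (nat_lit 8447510353) (nat_lit 228) (nat_lit 4028933720) (nat_lit 304) (nat_lit 48155822) (nat_lit 96) (nat_lit 5) (nat_lit 99) (nat_lit 5) (nat_lit 100) (nat_lit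 5) (nat_lit 486) (nat_lit 354) (nat_lit 300)) (XT.nd (nat_lit 78) (nat_lit 228) (nat_lit 0) (XT.lf (nat_lit 0) (nat_lit 4850101129) (nat_lit 304) (nat_lit 6690354769) (nat_lit 76) (nat_lit 1119577017) (nat_lit 92) (nat_lit 5) (nat_lit 96) (nat_lit 5) (nat_lit 93) (nat_lit 5) (nat_lit 487) (nat_lit 354) (nat_lit 299)) (XT.lf (nat_lit 0) (nat_lit 3411161591) (nat_lit 228) (nat_lit 6464715869) (nat_lit 304) (nat_lit 2921686788) (nat_lit 89) (nat_lit 5) (nat_lit 92) (nat_lit 5) (nat_lit 93) (nat_lit 5) (nat_lit 488) (nat_lit 354) (nat_lit 298))))) (XT.nd (nat_lit 156) (nat_lit 760) (nat_lit 0) (XT.nd (nat_lit 78) (nat_lit 0) (nat_lit 0) (XT.lf (nat_lit 0) (nat_lit 783534040) (nat_lit 228) (nat_lit 1257901032) (nat_lit 304) (nat_lit 10896059358) (nat_lit 85) (nat_lit 5) (nat_lit 88) (nat_lit 5) (nat_lit 89) (nat_lit 5) (nat_lit 489) (nat_lit 354) (nat_lit 297)) (XT.lf (nat_lit 0) (nat_lit 7108509469) (nat_lit 304) (nat_lit 1922580756) (nat_lit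 76) (nat_lit 4047870514) (nat_lit 85) (nat_lit 5) (nat_lit 89) (nat_lit 5) (nat_lit 86) (nat_lit 5) (nat_lit 490) (nat_lit 354) (nat_lit 296))) (XT.nd (nat_lit 78) (nat_lit 532) (nat_lit 0) (XT.lf (nat_lit 0) (nat_lit 8537020579) (nat_lit 228) (nat_lit 3758619113) (nat_lit 304) (nat_lit 927242395) (nat_lit 82) (nat_lit 5) (nat_lit 85) (nat_lit 5) (nat_lit 86) (nat_lit 5) (nat_lit 491) (nat_lit 354) (nat_lit 295)) (XT.nd (nat_lit 78) (nat_lit 228) (nat_lit 0) (XT.lf (nat_lit 0) (nat_lit 4178204616) (nat_lit 304) (nat_lit 7548464787) (nat_lit 76) (nat_lit 1642131321) (nat_lit 78) (nat_lit 5) (nat_lit 82) (nat_lit 5) (nat_lit 79) (nat_lit 5) (nat_lit 492) (nat_lit 354) (nat_lit 294)) (XT.lf (nat_lit 0) (nat_lit 3011169068) (nat_lit 228) (nat_lit 6393447174) (nat_lit 304) (nat_lit 4112273481) (nat_lit 75) (nat_lit 5) (nat_lit 78) (nat_lit 5) (nat_lit 79) (nat_lit 5) (nat_lit 493) (nat_lit 354) (nat_lit 293)))))) (XT.nd (nat_lit 390) (nat_lit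 912) (nat_lit 0) (XT.nd (nat_lit 156) (nat_lit 684) (nat_lit 0) (XT.nd (nat_lit 78) (nat_lit 0) (nat_lit 0) (XT.lf (nat_lit 0) (nat_lit 131531458) (nat_lit 152) (nat_lit 929157760) (nat_lit 228) (nat_lit 12606971139) (nat_lit 72) (nat_lit 5) (nat_lit 74) (nat_lit 5) (nat_lit 75) (nat_lit 5) (nat_lit 494) (nat_lit 354) (nat_lit 292)) (XT.lf (nat_lit 0) (nat_lit 6338581770) (nat_lit 228) (nat_lit 2834401267) (nat_lit 76) (nat_lit 4646789046) (nat_lit 72) (nat_lit 5) (nat_lit 75) (nat_lit 5) (nat_lit 73) (nat_lit 5) (nat_lit 495) (nat_lit 354) (nat_lit 291))) (XT.nd (nat_lit 78) (nat_lit 456) (nat_lit 0) (XT.lf (nat_lit 0) (nat_lit 8102605919) (nat_lit 228) (nat_lit 3634424397) (nat_lit 304) (nat_lit 2237595764) (nat_lit 69) (nat_lit 5) (nat_lit 72) (nat_lit 5) (nat_lit 73) (nat_lit 5) (nat_lit 496) (nat_lit 354) (nat_lit 290)) (XT.nd (nat_lit 78) (nat_lit 228) (nat_lit 0) (XT.lf (nat_lit 0) (nat_lit 3092175619) (nat_lit 228) (nat_lit 9012693842)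 (nat_lit 76) (nat_lit 2026861647) (nat_lit 66) (nat_lit 5) (nat_lit 69) (nat_lit 5) (nat_lit 67) (nat_lit 5) (nat_lit 497) (nat_lit 354) (nat_lit 289)) (XT.lf (nat_lit 0) (nat_lit 2026703733) (nat_lit 228) (nat_lit 6505217675) (nat_lit 304) (nat_lit 5759094213) (nat_lit 63) (nat_lit 5) (nat_lit 66) (nat_lit 5) (nat_lit 67) (nat_lit 5) (nat_lit 498) (nat_lit 354) (nat_lit 288))))) (XT.nd (nat_lit 234) (nat_lit 456) (nat_lit 0) (XT.nd (nat_lit 78) (nat_lit 456) (nat_lit 0) (XT.lf (nat_lit 0) (nat_lit 13330527952) (nat_lit 228) (nat_lit 767178062) (nat_lit 304) (nat_lit 355434930) (nat_lit 63) (nat_lit 5) (nat_lit 66) (nat_lit 5) (nat_lit 67) (nat_lit 5) (nat_lit 499) (nat_lit 354) (nat_lit 287)) (XT.nd (nat_lit 78) (nat_lit 228) (nat_lit 0) (XT.lf (nat_lit 0) (nat_lit 5146109166) (nat_lit 228) (nat_lit 4385297480) (nat_lit 76) (nat_lit 5085283819) (nat_lit 60) (nat_lit 5) (nat_lit 63) (nat_lit 5) (nat_lit 61) (nat_lit 5) (nat_lit 500) (nat_lit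 354) (nat_lit 286)) (XT.lf (nat_lit 0) (nat_lit 7051666569) (nat_lit 228) (nat_lit 3717152749) (nat_lit 304) (nat_lit 4014326780) (nat_lit 57) (nat_lit 5) (nat_lit 60) (nat_lit 5) (nat_lit 61) (nat_lit 5) (nat_lit 501) (nat_lit 354) (nat_lit 285)))) (XT.nd (nat_lit 78) (nat_lit 228) (nat_lit 0) (XT.lf (nat_lit 0) (nat_lit 1556978845) (nat_lit 228) (nat_lit 11180924036) (nat_lit 76) (nat_lit 2214301186) (nat_lit 54) (nat_lit 5) (nat_lit 57) (nat_lit 5) (nat_lit 55) (nat_lit 5) (nat_lit 502) (nat_lit 354) (nat_lit 284)) (XT.nd (nat_lit 78) (nat_lit 0) (nat_lit 0) (XT.lf (nat_lit 0) (nat_lit 360648536) (nat_lit 228) (nat_lit 6862145341) (nat_lit 304) (nat_lit 7900581922) (nat_lit 51) (nat_lit 5) (nat_lit 54) (nat_lit 5) (nat_lit 55) (nat_lit 5) (nat_lit 503) (nat_lit 354) (nat_lit 283)) (XT.lf (nat_lit 0) (nat_lit 12207297489) (nat_lit 228) (nat_lit 827587507) (nat_lit 304) (nat_lit 2262426775) (nat_lit 51) (nat_lit 5) (nat_lit 54) (nat_lit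 5) (nat_lit 55) (nat_lit 5) (nat_lit 504) (nat_lit 354) (nat_lit 282))))))) (XT.nd (nat_lit 53898) (nat_lit 0) (nat_lit 18088) (XT.nd (nat_lit 53508) (nat_lit 0) (nat_lit 24092) (XT.nd (nat_lit 156) (nat_lit 380) (nat_lit 0) (XT.nd (nat_lit 78) (nat_lit 228) (nat_lit 0) (XT.lf (nat_lit 0) (nat_lit 3493464974) (nat_lit 228) (nat_lit 6675852682) (nat_lit 76) (nat_lit 5303941299) (nat_lit 48) (nat_lit 5) (nat_lit 51) (nat_lit 5) (nat_lit 49) (nat_lit 5) (nat_lit 505) (nat_lit 354) (nat_lit 281)) (XT.lf (nat_lit 0) (nat_lit 5284407947) (nat_lit 228) (nat_lit 4069042869) (nat_lit 304) (nat_lit 6298589772) (nat_lit 45) (nat_lit 5) (nat_lit 48) (nat_lit 5) (nat_lit 49) (nat_lit 5) (nat_lit 506) (nat_lit 354) (nat_lit 280))) (XT.nd (nat_lit 78) (nat_lit 228) (nat_lit 0) (XT.lf (nat_lit 0) (nat_lit 1671975445) (nat_lit 152) (nat_lit 13687263095) (nat_lit 228) (nat_lit 474587270) (nat_lit 43) (nat_lit 5) (nat_lit 45) (nat_lit 5) (nat_lit 46) (nat_lit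 4) (nat_lit 507) (nat_lit 354) (nat_lit 279)) (XT.nd (nat_lit 78) (nat_lit 152) (nat_lit 0) (XT.lf (nat_lit 0) (nat_lit 5449905664) (nat_lit 228) (nat_lit 2064425689) (nat_lit 76) (nat_lit 8503091688) (nat_lit 42) (nat_lit 5) (nat_lit 45) (nat_lit 5) (nat_lit 43) (nat_lit 5) (nat_lit 508) (nat_lit 354) (nat_lit 278)) (XT.lf (nat_lit 0) (nat_lit 10332229433) (nat_lit 152) (nat_lit 1180919677) (nat_lit 228) (nat_lit 4690948057) (nat_lit 40) (nat_lit 5) (nat_lit 42) (nat_lit 5) (nat_lit 43) (nat_lit 5) (nat_lit 509) (nat_lit 354) (nat_lit 277))))) (XT.nd (nat_lit 156) (nat_lit 1520) (nat_lit 0) (XT.nd (nat_lit 78) (nat_lit 836) (nat_lit 0) (XT.lf (nat_lit 0) (nat_lit 2049980432) (nat_lit 760) (nat_lit 882197152) (nat_lit 760) (nat_lit 882197152) (nat_lit 388) (nat_lit 4) (nat_lit 398) (nat_lit 5) (nat_lit 398) (nat_lit 4) (nat_lit 430) (nat_lit 355) (nat_lit 355)) (XT.lf (nat_lit 0) (nat_lit 2045166189) (nat_lit 836) (nat_lit 4961474999)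 (nat_lit 0) (nat_lit 670447810) (nat_lit 377) (nat_lit 5) (nat_lit 388) (nat_lit 4) (nat_lit 377) (nat_lit 4) (nat_lit 431) (nat_lit 355) (nat_lit 354))) (XT.nd (nat_lit 78) (nat_lit 760) (nat_lit 0) (XT.lf (nat_lit 0) (nat_lit 1316599627) (nat_lit 760) (nat_lit 4566266232) (nat_lit 760) (nat_lit 1843784737) (nat_lit 367) (nat_lit 4) (nat_lit 377) (nat_lit 5) (nat_lit 377) (nat_lit 4) (nat_lit 432) (nat_lit 355) (nat_lit 353)) (XT.nd (nat_lit 78) (nat_lit 684) (nat_lit 0) (XT.lf (nat_lit 0) (nat_lit 1958971337) (nat_lit 836) (nat_lit 86695783) (nat_lit 76) (nat_lit 5731967000) (nat_lit 366) (nat_lit 5) (nat_lit 377) (nat_lit 5) (nat_lit 367) (nat_lit 4) (nat_lit 433) (nat_lit 355) (nat_lit 352)) (XT.lf (nat_lit 0) (nat_lit 5791189338) (nat_lit 760) (nat_lit 1482007609) (nat_lit 0) (nat_lit 556634714) (nat_lit 357) (nat_lit 5) (nat_lit 367) (nat_lit 4) (nat_lit 357) (nat_lit 4) (nat_lit 434) (nat_lit 355) (nat_lit 351)))))) (XT.nd (nat_lit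 390) (nat_lit 3116) (nat_lit 0) (XT.nd (nat_lit 156) (nat_lit 1444) (nat_lit 0) (XT.nd (nat_lit 78) (nat_lit 684) (nat_lit 0) (XT.lf (nat_lit 0) (nat_lit 1773445448) (nat_lit 760) (nat_lit 2897319609) (nat_lit 76) (nat_lit 3212466221) (nat_lit 347) (nat_lit 5) (nat_lit 357) (nat_lit 5) (nat_lit 348) (nat_lit 4) (nat_lit 435) (nat_lit 355) (nat_lit 350)) (XT.lf (nat_lit 0) (nat_lit 3615977728) (nat_lit 684) (nat_lit 1986184510) (nat_lit 760) (nat_lit 2335913446) (nat_lit 338) (nat_lit 5) (nat_lit 347) (nat_lit 5) (nat_lit 348) (nat_lit 4) (nat_lit 436) (nat_lit 355) (nat_lit 349))) (XT.nd (nat_lit 78) (nat_lit 684) (nat_lit 0) (XT.lf (nat_lit 0) (nat_lit 1467251703) (nat_lit 760) (nat_lit 5758862411) (nat_lit 76) (nat_lit 768233051) (nat_lit 328) (nat_lit 5) (nat_lit 338) (nat_lit 5) (nat_lit 329) (nat_lit 4) (nat_lit 437) (nat_lit 355) (nat_lit 348)) (XT.nd (nat_lit 78) (nat_lit 76) (nat_lit 0) (XT.lf (nat_lit 0) (nat_lit 829100957) (nat_lit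 608) (nat_lit 4468975604) (nat_lit 684) (nat_lit 2753701225) (nat_lit 320) (nat_lit 5) (nat_lit 328) (nat_lit 5) (nat_lit 329) (nat_lit 4) (nat_lit 438) (nat_lit 355) (nat_lit 347)) (XT.lf (nat_lit 0) (nat_lit 1055113124) (nat_lit 684) (nat_lit 574965693) (nat_lit 76) (nat_lit 6480649681) (nat_lit 319) (nat_lit 5) (nat_lit 328) (nat_lit 5) (nat_lit 320) (nat_lit 5) (nat_lit 439) (nat_lit 355) (nat_lit 346))))) (XT.nd (nat_lit 234) (nat_lit 1216) (nat_lit 0) (XT.nd (nat_lit 78) (nat_lit 1292) (nat_lit 0) (XT.lf (nat_lit 0) (nat_lit 4888580964) (nat_lit 684) (nat_lit 1994082885) (nat_lit 76) (nat_lit 1288123350) (nat_lit 311) (nat_lit 5) (nat_lit 320) (nat_lit 5) (nat_lit 312) (nat_lit 4) (nat_lit 440) (nat_lit 355) (nat_lit 345)) (XT.nd (nat_lit 78) (nat_lit 608) (nat_lit 0) (XT.lf (nat_lit 0) (nat_lit 542276318) (nat_lit 684) (nat_lit 3428298851) (nat_lit 76) (nat_lit 4261737578) (nat_lit 302) (nat_lit 5) (nat_lit 311) (nat_lit 5) (nat_lit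 303) (nat_lit 5) (nat_lit 441) (nat_lit 355) (nat_lit 344)) (XT.lf (nat_lit 0) (nat_lit 3409097621) (nat_lit 608) (nat_lit 963381333) (nat_lit 684) (nat_lit 3922692360) (nat_lit 294) (nat_lit 5) (nat_lit 302) (nat_lit 5) (nat_lit 303) (nat_lit 5) (nat_lit 442) (nat_lit 355) (nat_lit 343)))) (XT.nd (nat_lit 78) (nat_lit 684) (nat_lit 0) (XT.lf (nat_lit 0) (nat_lit 1998655480) (nat_lit 532) (nat_lit 6268500301) (nat_lit 608) (nat_lit 92373868) (nat_lit 287) (nat_lit 5) (nat_lit 294) (nat_lit 5) (nat_lit 295) (nat_lit 4) (nat_lit 443) (nat_lit 355) (nat_lit 342)) (XT.nd (nat_lit 78) (nat_lit 0) (nat_lit 0) (XT.lf (nat_lit 0) (nat_lit 553797410) (nat_lit 608) (nat_lit 3192043844) (nat_lit 684) (nat_lit 4679212190) (nat_lit 278) (nat_lit 5) (nat_lit 286) (nat_lit 5) (nat_lit 287) (nat_lit 5) (nat_lit 444) (nat_lit 355) (nat_lit 341)) (XT.lf (nat_lit 0) (nat_lit 7608030520) (nat_lit 608) (nat_lit 33234607) (nat_lit 684) (nat_lit 850976749)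 (nat_lit 278) (nat_lit 5) (nat_lit 286) (nat_lit 5) (nat_lit 287) (nat_lit 5) (nat_lit 445) (nat_lit 355) (nat_lit 340))))))))
noncomputable def xc40 : XT := (XT.nd (nat_lit 1560) (nat_lit 5548) (nat_lit 0) (XT.nd (nat_lit 780) (nat_lit 3420) (nat_lit 0) (XT.nd (nat_lit 390) (nat_lit 2052) (nat_lit 0) (XT.nd (nat_lit 156) (nat_lit 1672) (nat_lit 0) (XT.nd (nat_lit 78) (nat_lit 532) (nat_lit 0) (XT.lf (nat_lit 0) (nat_lit 3014912399) (nat_lit 608) (nat_lit 2360872241) (nat_lit 76) (nat_lit 3184570079) (nat_lit 270) (nat_lit 5) (nat_lit 278) (nat_lit 5) (nat_lit 271) (nat_lit 5) (nat_lit 446) (nat_lit 355) (nat_lit 339)) (XT.lf (nat_lit 0) (nat_lit 4779947693) (nat_lit 532) (nat_lit 2144304830) (nat_lit 608) (nat_lit 1705914241) (nat_lit 263) (nat_lit 5) (nat_lit 270) (nat_lit 5) (nat_lit 271) (nat_lit 5) (nat_lit 447) (nat_lit 355) (nat_lit 338))) (XT.nd (nat_lit 78) (nat_lit 1064) (nat_lit 0) (XT.lf (nat_lit 0) (nat_lit 2167234910) (nat_lit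 608) (nat_lit 5369524612) (nat_lit 76) (nat_lit 1164612093) (nat_lit 255) (nat_lit 5) (nat_lit 263) (nat_lit 5) (nat_lit 256) (nat_lit 5) (nat_lit 448) (nat_lit 355) (nat_lit 337)) (XT.nd (nat_lit 78) (nat_lit 532) (nat_lit 0) (XT.lf (nat_lit 0) (nat_lit 1850185814) (nat_lit 532) (nat_lit 4238051265) (nat_lit 608) (nat_lit 2685673317) (nat_lit 248) (nat_lit 5) (nat_lit 255) (nat_lit 5) (nat_lit 256) (nat_lit 5) (nat_lit 449) (nat_lit 355) (nat_lit 336)) (XT.lf (nat_lit 0) (nat_lit 351320166) (nat_lit 456) (nat_lit 851945101) (nat_lit 532) (nat_lit 7644878387) (nat_lit 241) (nat_lit 5) (nat_lit 247) (nat_lit 5) (nat_lit 248) (nat_lit 5) (nat_lit 450) (nat_lit 355) (nat_lit 335))))) (XT.nd (nat_lit 156) (nat_lit 1444) (nat_lit 0) (XT.nd (nat_lit 78) (nat_lit 608) (nat_lit 0) (XT.lf (nat_lit 0) (nat_lit 5139366665) (nat_lit 532) (nat_lit 1177531618) (nat_lit 76) (nat_lit 2606501344) (nat_lit 241) (nat_lit 5) (nat_lit 248) (nat_lit 5) (nat_lit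 242) (nat_lit 5) (nat_lit 451) (nat_lit 355) (nat_lit 334)) (XT.lf (nat_lit 0) (nat_lit 141154784) (nat_lit 608) (nat_lit 2720079635) (nat_lit 76) (nat_lit 6139123389) (nat_lit 233) (nat_lit 5) (nat_lit 241) (nat_lit 5) (nat_lit 234) (nat_lit 5) (nat_lit 452) (nat_lit 355) (nat_lit 333))) (XT.nd (nat_lit 78) (nat_lit 988) (nat_lit 0) (XT.lf (nat_lit 0) (nat_lit 4080760853) (nat_lit 532) (nat_lit 4305073837) (nat_lit 76) (nat_lit 692788559) (nat_lit 227) (nat_lit 5) (nat_lit 234) (nat_lit 5) (nat_lit 228) (nat_lit 5) (nat_lit 453) (nat_lit 355) (nat_lit 332)) (XT.nd (nat_lit 78) (nat_lit 532) (nat_lit 0) (XT.lf (nat_lit 0) (nat_lit 3234923332) (nat_lit 456) (nat_lit 4865963889) (nat_lit 532) (nat_lit 1057532213) (nat_lit 221) (nat_lit 5) (nat_lit 227) (nat_lit 5) (nat_lit 228) (nat_lit 5) (nat_lit 454) (nat_lit 355) (nat_lit 331)) (XT.lf (nat_lit 0) (nat_lit 1662768092) (nat_lit 456) (nat_lit 1243468390) (nat_lit 532) (nat_lit 6333521008)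 (nat_lit 214) (nat_lit 5) (nat_lit 220) (nat_lit 5) (nat_lit 221) (nat_lit 5) (nat_lit 455) (nat_lit 355) (nat_lit 330)))))) (XT.nd (nat_lit 390) (nat_lit 1596) (nat_lit 0) (XT.nd (nat_lit 156) (nat_lit 1292) (nat_lit 0) (XT.nd (nat_lit 78) (nat_lit 76) (nat_lit 0) (XT.lf (nat_lit 0) (nat_lit 51779094) (nat_lit 456) (nat_lit 6883596553) (nat_lit 532) (nat_lit 2387201747) (nat_lit 208) (nat_lit 5) (nat_lit 214) (nat_lit 5) (nat_lit 215) (nat_lit 5) (nat_lit 456) (nat_lit 355) (nat_lit 329)) (XT.lf (nat_lit 0) (nat_lit 1620138169) (nat_lit 532) (nat_lit 1574437958) (nat_lit 76) (nat_lit 6212193313) (nat_lit 207) (nat_lit 5) (nat_lit 214) (nat_lit 5) (nat_lit 208) (nat_lit 5) (nat_lit 457) (nat_lit 355) (nat_lit 328))) (XT.nd (nat_lit 78) (nat_lit 912) (nat_lit 0) (XT.lf (nat_lit 0) (nat_lit 5665458728) (nat_lit 456) (nat_lit 3237721648) (nat_lit 76) (nat_lit 589353393) (nat_lit 202) (nat_lit 5) (nat_lit 208) (nat_lit 5) (nat_lit 203) (nat_lit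 5) (nat_lit 458) (nat_lit 355) (nat_lit 327)) (XT.nd (nat_lit 78) (nat_lit 380) (nat_lit 0) (XT.lf (nat_lit 0) (nat_lit 216456122) (nat_lit 532) (nat_lit 4943205260) (nat_lit 76) (nat_lit 4420173318) (nat_lit 195) (nat_lit 5) (nat_lit 202) (nat_lit 5) (nat_lit 196) (nat_lit 5) (nat_lit 459) (nat_lit 355) (nat_lit 326)) (XT.lf (nat_lit 0) (nat_lit 2973540213) (nat_lit 380) (nat_lit 1303073149) (nat_lit 456) (nat_lit 5392022349) (nat_lit 190) (nat_lit 5) (nat_lit 195) (nat_lit 5) (nat_lit 196) (nat_lit 5) (nat_lit 460) (nat_lit 355) (nat_lit 325))))) (XT.nd (nat_lit 156) (nat_lit 1140) (nat_lit 0) (XT.nd (nat_lit 78) (nat_lit 76) (nat_lit 0) (XT.lf (nat_lit 0) (nat_lit 1272255977) (nat_lit 380) (nat_lit 7150554265) (nat_lit 456) (nat_lit 1336305770) (nat_lit 185) (nat_lit 5) (nat_lit 190) (nat_lit 5) (nat_lit 191) (nat_lit 5) (nat_lit 461) (nat_lit 355) (nat_lit 324)) (XT.lf (nat_lit 0) (nat_lit 2763915700) (nat_lit 456) (nat_lit 472277272)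 (nat_lit 76) (nat_lit 6614846890) (nat_lit 184) (nat_lit 5) (nat_lit 190) (nat_lit 5) (nat_lit 185) (nat_lit 5) (nat_lit 462) (nat_lit 355) (nat_lit 323))) (XT.nd (nat_lit 78) (nat_lit 760) (nat_lit 0) (XT.lf (nat_lit 0) (nat_lit 6930763218) (nat_lit 456) (nat_lit 2237603800) (nat_lit 76) (nat_lit 776208216) (nat_lit 179) (nat_lit 5) (nat_lit 185) (nat_lit 5) (nat_lit 180) (nat_lit 5) (nat_lit 463) (nat_lit 355) (nat_lit 322)) (XT.nd (nat_lit 78) (nat_lit 304) (nat_lit 0) (XT.lf (nat_lit 0) (nat_lit 1137215222) (nat_lit 456) (nat_lit 4056857601) (nat_lit 76) (nat_lit 4845536077) (nat_lit 173) (nat_lit 5) (nat_lit 179) (nat_lit 5) (nat_lit 174) (nat_lit 5) (nat_lit 464) (nat_lit 355) (nat_lit 321)) (XT.lf (nat_lit 0) (nat_lit 4213639515) (nat_lit 304) (nat_lit 1107550433) (nat_lit 380) (nat_lit 4815149227) (nat_lit 169) (nat_lit 5) (nat_lit 173) (nat_lit 5) (nat_lit 174) (nat_lit 5) (nat_lit 465) (nat_lit 355) (nat_lit 320))))))) (XT.nd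 (nat_lit 780) (nat_lit 2660) (nat_lit 0) (XT.nd (nat_lit 390) (nat_lit 1368) (nat_lit 0) (XT.nd (nat_lit 156) (nat_lit 760) (nat_lit 0) (XT.nd (nat_lit 78) (nat_lit 380) (nat_lit 0) (XT.lf (nat_lit 0) (nat_lit 2398023139) (nat_lit 380) (nat_lit 7201725302) (nat_lit 456) (nat_lit 635037529) (nat_lit 164) (nat_lit 5) (nat_lit 169) (nat_lit 5) (nat_lit 170) (nat_lit 5) (nat_lit 466) (nat_lit 355) (nat_lit 319)) (XT.lf (nat_lit 0) (nat_lit 523147643) (nat_lit 304) (nat_lit 3056875095) (nat_lit 380) (nat_lit 6754729026) (nat_lit 159) (nat_lit 5) (nat_lit 163) (nat_lit 5) (nat_lit 164) (nat_lit 5) (nat_lit 467) (nat_lit 355) (nat_lit 318))) (XT.nd (nat_lit 78) (nat_lit 760) (nat_lit 0) (XT.lf (nat_lit 0) (nat_lit 7879896830) (nat_lit 380) (nat_lit 1375199016) (nat_lit 76) (nat_lit 1181356761) (nat_lit 159) (nat_lit 5) (nat_lit 164) (nat_lit 5) (nat_lit 160) (nat_lit 5) (nat_lit 468) (nat_lit 355) (nat_lit 317)) (XT.nd (nat_lit 78) (nat_lit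 304) (nat_lit 0) (XT.lf (nat_lit 0) (nat_lit 1719674208) (nat_lit 456) (nat_lit 3328977850) (nat_lit 76) (nat_lit 5490976844) (nat_lit 153) (nat_lit 5) (nat_lit 159) (nat_lit 5) (nat_lit 154) (nat_lit 5) (nat_lit 469) (nat_lit 355) (nat_lit 316)) (XT.lf (nat_lit 0) (nat_lit 5312509606) (nat_lit 304) (nat_lit 728108520) (nat_lit 380) (nat_lit 4604044188) (nat_lit 149) (nat_lit 5) (nat_lit 153) (nat_lit 5) (nat_lit 154) (nat_lit 5) (nat_lit 470) (nat_lit 355) (nat_lit 315))))) (XT.nd (nat_lit 156) (nat_lit 684) (nat_lit 0) (XT.nd (nat_lit 78) (nat_lit 380) (nat_lit 0) (XT.lf (nat_lit 0) (nat_lit 3358011723) (nat_lit 304) (nat_lit 7108002150) (nat_lit 380) (nat_lit 285421863) (nat_lit 145) (nat_lit 5) (nat_lit 149) (nat_lit 5) (nat_lit 150) (nat_lit 5) (nat_lit 471) (nat_lit 355) (nat_lit 314)) (XT.lf (nat_lit 0) (nat_lit 1337647323) (nat_lit 304) (nat_lit 2727401171) (nat_lit 380) (nat_lit 6794771101) (nat_lit 140) (nat_lit 5) (nat_lit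 144) (nat_lit 5) (nat_lit 145) (nat_lit 5) (nat_lit 472) (nat_lit 355) (nat_lit 313))) (XT.nd (nat_lit 78) (nat_lit 684) (nat_lit 0) (XT.lf (nat_lit 0) (nat_lit 8510169675) (nat_lit 380) (nat_lit 722295304) (nat_lit 76) (nat_lit 1737639157) (nat_lit 140) (nat_lit 5) (nat_lit 145) (nat_lit 5) (nat_lit 141) (nat_lit 5) (nat_lit 473) (nat_lit 355) (nat_lit 312)) (XT.nd (nat_lit 78) (nat_lit 304) (nat_lit 0) (XT.lf (nat_lit 0) (nat_lit 1958923054) (nat_lit 380) (nat_lit 2832470706) (nat_lit 76) (nat_lit 6290484868) (nat_lit 135) (nat_lit 5) (nat_lit 140) (nat_lit 5) (nat_lit 136) (nat_lit 5) (nat_lit 474) (nat_lit 355) (nat_lit 311)) (XT.lf (nat_lit 0) (nat_lit 6198069597) (nat_lit 304) (nat_lit 231604532) (nat_lit 380) (nat_lit 4765960181) (nat_lit 131) (nat_lit 5) (nat_lit 135) (nat_lit 5) (nat_lit 136) (nat_lit 5) (nat_lit 475) (nat_lit 355) (nat_lit 310)))))) (XT.nd (nat_lit 390) (nat_lit 1444) (nat_lit 0) (XT.nd (nat_lit 156) (nat_lit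 608) (nat_lit 0) (XT.nd (nat_lit 78) (nat_lit 304) (nat_lit 0) (XT.lf (nat_lit 0) (nat_lit 4079354435) (nat_lit 304) (nat_lit 6936319191) (nat_lit 380) (nat_lit 295474811) (nat_lit 127) (nat_lit 5) (nat_lit 131) (nat_lit 5) (nat_lit 132) (nat_lit 5) (nat_lit 476) (nat_lit 355) (nat_lit 309)) (XT.lf (nat_lit 0) (nat_lit 1890844700) (nat_lit 228) (nat_lit 2316842100) (nat_lit 304) (nat_lit 7220748394) (nat_lit 123) (nat_lit 5) (nat_lit 126) (nat_lit 5) (nat_lit 127) (nat_lit 5) (nat_lit 477) (nat_lit 355) (nat_lit 308))) (XT.nd (nat_lit 78) (nat_lit 608) (nat_lit 0) (XT.lf (nat_lit 0) (nat_lit 8813191014) (nat_lit 304) (nat_lit 352929286) (nat_lit 76) (nat_lit 2381583608) (nat_lit 123) (nat_lit 5) (nat_lit 127) (nat_lit 5) (nat_lit 124) (nat_lit 5) (nat_lit 478) (nat_lit 355) (nat_lit 307)) (XT.nd (nat_lit 78) (nat_lit 228) (nat_lit 0) (XT.lf (nat_lit 0) (nat_lit 1844275533) (nat_lit 380) (nat_lit 2642696889) (nat_lit 76) (nat_lit 7181606876)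 (nat_lit 118) (nat_lit 5) (nat_lit 123) (nat_lit 5) (nat_lit 119) (nat_lit 5) (nat_lit 479) (nat_lit 355) (nat_lit 306)) (XT.lf (nat_lit 0) (nat_lit 6479505889) (nat_lit 304) (nat_lit 4997816260) (nat_lit 76) (nat_lit 314158916) (nat_lit 115) (nat_lit 5) (nat_lit 119) (nat_lit 5) (nat_lit 116) (nat_lit 5) (nat_lit 480) (nat_lit 355) (nat_lit 305))))) (XT.nd (nat_lit 234) (nat_lit 836) (nat_lit 0) (XT.nd (nat_lit 78) (nat_lit 304) (nat_lit 0) (XT.lf (nat_lit 0) (nat_lit 4486449287) (nat_lit 304) (nat_lit 6750749959) (nat_lit 380) (nat_lit 679046454) (nat_lit 111) (nat_lit 5) (nat_lit 115) (nat_lit 5) (nat_lit 116) (nat_lit 5) (nat_lit 481) (nat_lit 355) (nat_lit 304)) (XT.nd (nat_lit 78) (nat_lit 0) (nat_lit 0) (XT.lf (nat_lit 0) (nat_lit 2105692832) (nat_lit 228) (nat_lit 1888363509) (nat_lit 304) (nat_lit 8048912098) (nat_lit 107) (nat_lit 5) (nat_lit 110) (nat_lit 5) (nat_lit 111) (nat_lit 5) (nat_lit 482) (nat_lit 355) (nat_lit 303))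 (XT.lf (nat_lit 0) (nat_lit 8774999538) (nat_lit 304) (nat_lit 344310989) (nat_lit 76) (nat_lit 3052355920) (nat_lit 107) (nat_lit 5) (nat_lit 111) (nat_lit 5) (nat_lit 108) (nat_lit 5) (nat_lit 483) (nat_lit 355) (nat_lit 302)))) (XT.nd (nat_lit 78) (nat_lit 456) (nat_lit 0) (XT.lf (nat_lit 0) (nat_lit 1359381596) (nat_lit 380) (nat_lit 2838403039) (nat_lit 76) (nat_lit 8104409741) (nat_lit 102) (nat_lit 5) (nat_lit 107) (nat_lit 5) (nat_lit 103) (nat_lit 5) (nat_lit 484) (nat_lit 355) (nat_lit 301)) (XT.nd (nat_lit 78) (nat_lit 228) (nat_lit 0) (XT.lf (nat_lit 0) (nat_lit 6172985381) (nat_lit 304) (nat_lit 5412744575) (nat_lit 76) (nat_lit 848995555) (nat_lit 99) (nat_lit 5) (nat_lit 103) (nat_lit 5) (nat_lit 100) (nat_lit 5) (nat_lit 485) (nat_lit 355) (nat_lit 300)) (XT.lf (nat_lit 0) (nat_lit 4500031681) (nat_lit 228) (nat_lit 6613518428) (nat_lit 304) (nat_lit 1455743382) (nat_lit 96) (nat_lit 5) (nat_lit 99) (nat_lit 5) (nat_lit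 100) (nat_lit 5) (nat_lit 486) (nat_lit 355) (nat_lit 299))))))))
noncomputable def xc41 : XT := (XT.nd (nat_lit 1560) (nat_lit 608) (nat_lit 0) (XT.nd (nat_lit 780) (nat_lit 1596) (nat_lit 0) (XT.nd (nat_lit 390) (nat_lit 988) (nat_lit 0) (XT.nd (nat_lit 156) (nat_lit 760) (nat_lit 0) (XT.nd (nat_lit 78) (nat_lit 0) (nat_lit 0) (XT.lf (nat_lit 0) (nat_lit 1901264364) (nat_lit 228) (nat_lit 1503394829) (nat_lit 304) (nat_lit 9301376400) (nat_lit 92) (nat_lit 5) (nat_lit 95) (nat_lit 5) (nat_lit 96) (nat_lit 5) (nat_lit 487) (nat_lit 355) (nat_lit 298)) (XT.lf (nat_lit 0) (nat_lit 8376118032) (nat_lit 304) (nat_lit 777745724) (nat_lit 76) (nat_lit 3690789520) (nat_lit 92) (nat_lit 5) (nat_lit 96) (nat_lit 5) (nat_lit 93) (nat_lit 5) (nat_lit 488) (nat_lit 355) (nat_lit 297))) (XT.nd (nat_lit 78) (nat_lit 456) (nat_lit 0) (XT.lf (nat_lit 0) (nat_lit 482264369) (nat_lit 304) (nat_lit 3502650848) (nat_lit 76) (nat_lit 9000521293) (nat_lit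 88) (nat_lit 5) (nat_lit 92) (nat_lit 5) (nat_lit 89) (nat_lit 5) (nat_lit 489) (nat_lit 355) (nat_lit 296)) (XT.nd (nat_lit 78) (nat_lit 228) (nat_lit 0) (XT.lf (nat_lit 0) (nat_lit 5486137743) (nat_lit 304) (nat_lit 6325482546) (nat_lit 76) (nat_lit 1316546550) (nat_lit 85) (nat_lit 5) (nat_lit 89) (nat_lit 5) (nat_lit 86) (nat_lit 5) (nat_lit 490) (nat_lit 355) (nat_lit 295)) (XT.lf (nat_lit 0) (nat_lit 4036243472) (nat_lit 228) (nat_lit 6585940626) (nat_lit 304) (nat_lit 2650925767) (nat_lit 82) (nat_lit 5) (nat_lit 85) (nat_lit 5) (nat_lit 86) (nat_lit 5) (nat_lit 491) (nat_lit 355) (nat_lit 294))))) (XT.nd (nat_lit 156) (nat_lit 684) (nat_lit 0) (XT.nd (nat_lit 78) (nat_lit 0) (nat_lit 0) (XT.lf (nat_lit 0) (nat_lit 1191812150) (nat_lit 228) (nat_lit 1222561687) (nat_lit 304) (nat_lit 11006133568) (nat_lit 78) (nat_lit 5) (nat_lit 81) (nat_lit 5) (nat_lit 82) (nat_lit 5) (nat_lit 492) (nat_lit 355) (nat_lit 293)) (XT.lf (nat_lit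 0) (nat_lit 7591536930) (nat_lit 304) (nat_lit 1739564049) (nat_lit 76) (nat_lit 4238480396) (nat_lit 78) (nat_lit 5) (nat_lit 82) (nat_lit 5) (nat_lit 79) (nat_lit 5) (nat_lit 493) (nat_lit 355) (nat_lit 292))) (XT.nd (nat_lit 78) (nat_lit 456) (nat_lit 0) (XT.lf (nat_lit 0) (nat_lit 8992052813) (nat_lit 228) (nat_lit 3903575258) (nat_lit 304) (nat_lit 825541057) (nat_lit 75) (nat_lit 5) (nat_lit 78) (nat_lit 5) (nat_lit 79) (nat_lit 5) (nat_lit 494) (nat_lit 355) (nat_lit 291)) (XT.nd (nat_lit 78) (nat_lit 228) (nat_lit 0) (XT.lf (nat_lit 0) (nat_lit 4390883362) (nat_lit 228) (nat_lit 7826193581) (nat_lit 76) (nat_lit 1657757014) (nat_lit 72) (nat_lit 5) (nat_lit 75) (nat_lit 5) (nat_lit 73) (nat_lit 5) (nat_lit 495) (nat_lit 355) (nat_lit 290)) (XT.lf (nat_lit 0) (nat_lit 3005688235) (nat_lit 228) (nat_lit 6729311192) (nat_lit 304) (nat_lit 4295775177) (nat_lit 69) (nat_lit 5) (nat_lit 72) (nat_lit 5) (nat_lit 73) (nat_lit 5) (nat_lit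 496) (nat_lit 355) (nat_lit 289)))))) (XT.nd (nat_lit 390) (nat_lit 684) (nat_lit 0) (XT.nd (nat_lit 156) (nat_lit 684) (nat_lit 0) (XT.nd (nat_lit 78) (nat_lit 152) (nat_lit 0) (XT.lf (nat_lit 0) (nat_lit 993120615) (nat_lit 304) (nat_lit 112688458) (nat_lit 76) (nat_lit 13083695201) (nat_lit 68) (nat_lit 5) (nat_lit 72) (nat_lit 5) (nat_lit 69) (nat_lit 5) (nat_lit 497) (nat_lit 355) (nat_lit 288)) (XT.lf (nat_lit 0) (nat_lit 6390630216) (nat_lit 228) (nat_lit 3322070317) (nat_lit 76) (nat_lit 4636932977) (nat_lit 66) (nat_lit 5) (nat_lit 69) (nat_lit 5) (nat_lit 67) (nat_lit 5) (nat_lit 498) (nat_lit 355) (nat_lit 287))) (XT.nd (nat_lit 78) (nat_lit 456) (nat_lit 0) (XT.lf (nat_lit 0) (nat_lit 7899491016) (nat_lit 228) (nat_lit 4014083797) (nat_lit 304) (nat_lit 2599040820) (nat_lit 63) (nat_lit 5) (nat_lit 66) (nat_lit 5) (nat_lit 67) (nat_lit 5) (nat_lit 499) (nat_lit 355) (nat_lit 286)) (XT.nd (nat_lit 78) (nat_lit 228) (nat_lit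 0) (XT.lf (nat_lit 0) (nat_lit 2853418203) (nat_lit 228) (nat_lit 10011534970) (nat_lit 76) (nat_lit 1813073528) (nat_lit 60) (nat_lit 5) (nat_lit 63) (nat_lit 5) (nat_lit 61) (nat_lit 5) (nat_lit 500) (nat_lit 355) (nat_lit 285)) (XT.lf (nat_lit 0) (nat_lit 1312462313) (nat_lit 228) (nat_lit 7105748127) (nat_lit 304) (nat_lit 6427430251) (nat_lit 57) (nat_lit 5) (nat_lit 60) (nat_lit 5) (nat_lit 61) (nat_lit 5) (nat_lit 501) (nat_lit 355) (nat_lit 284))))) (XT.nd (nat_lit 156) (nat_lit 456) (nat_lit 0) (XT.nd (nat_lit 78) (nat_lit 228) (nat_lit 0) (XT.lf (nat_lit 0) (nat_lit 12923003435) (nat_lit 228) (nat_lit 1197081237) (nat_lit 304) (nat_lit 896006569) (nat_lit 57) (nat_lit 5) (nat_lit 60) (nat_lit 5) (nat_lit 61) (nat_lit 5) (nat_lit 502) (nat_lit 355) (nat_lit 283)) (XT.lf (nat_lit 0) (nat_lit 4737006151) (nat_lit 228) (nat_lit 5624519965) (nat_lit 76) (nat_lit 4826744278) (nat_lit 54) (nat_lit 5) (nat_lit 57) (nat_lit 5) (nat_lit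 55) (nat_lit 5) (nat_lit 503) (nat_lit 355) (nat_lit 282))) (XT.nd (nat_lit 78) (nat_lit 228) (nat_lit 0) (XT.lf (nat_lit 0) (nat_lit 6109857595) (nat_lit 228) (nat_lit 4381817840) (nat_lit 304) (nat_lit 4871679368) (nat_lit 51) (nat_lit 5) (nat_lit 54) (nat_lit 5) (nat_lit 55) (nat_lit 5) (nat_lit 504) (nat_lit 355) (nat_lit 281)) (XT.nd (nat_lit 78) (nat_lit 0) (nat_lit 0) (XT.lf (nat_lit 0) (nat_lit 834033216) (nat_lit 228) (nat_lit 12985658579) (nat_lit 76) (nat_lit 1721637012) (nat_lit 48) (nat_lit 5) (nat_lit 51) (nat_lit 5) (nat_lit 49) (nat_lit 5) (nat_lit 505) (nat_lit 355) (nat_lit 280)) (XT.lf (nat_lit 0) (nat_lit 6639605457) (nat_lit 228) (nat_lit 1131807310) (nat_lit 76) (nat_lit 7949785944) (nat_lit 48) (nat_lit 5) (nat_lit 51) (nat_lit 5) (nat_lit 49) (nat_lit 5) (nat_lit 506) (nat_lit 355) (nat_lit 279))))))) (XT.nd (nat_lit 53742) (nat_lit 0) (nat_lit 18088) (XT.nd (nat_lit 53352) (nat_lit 0) (nat_lit 24092) (XT.nd (nat_lit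 156) (nat_lit 152) (nat_lit 0) (XT.nd (nat_lit 78) (nat_lit 228) (nat_lit 0) (XT.lf (nat_lit 0) (nat_lit 11030306147) (nat_lit 228) (nat_lit 1562785810) (nat_lit 304) (nat_lit 3310938000) (nat_lit 45) (nat_lit 5) (nat_lit 48) (nat_lit 5) (nat_lit 49) (nat_lit 5) (nat_lit 507) (nat_lit 355) (nat_lit 278)) (XT.lf (nat_lit 0) (nat_lit 2588294468) (nat_lit 228) (nat_lit 8754135503) (nat_lit 76) (nat_lit 4746814721) (nat_lit 42) (nat_lit 5) (nat_lit 45) (nat_lit 5) (nat_lit 43) (nat_lit 5) (nat_lit 508) (nat_lit 355) (nat_lit 277))) (XT.nd (nat_lit 53040) (nat_lit 0) (nat_lit 27208) (XT.lf (nat_lit 0) (nat_lit 3516691075) (nat_lit 152) (nat_lit 5070951962) (nat_lit 228) (nat_lit 7689553679) (nat_lit 40) (nat_lit 5) (nat_lit 42) (nat_lit 5) (nat_lit 43) (nat_lit 5) (nat_lit 509) (nat_lit 355) (nat_lit 276)) (XT.nd (nat_lit 78) (nat_lit 836) (nat_lit 0) (XT.lf (nat_lit 0) (nat_lit 3449639516) (nat_lit 836) (nat_lit 159088003) (nat_lit 836) (nat_lit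 159088003) (nat_lit 409) (nat_lit 4) (nat_lit 420) (nat_lit 5) (nat_lit 420) (nat_lit 4) (nat_lit 428) (nat_lit 356) (nat_lit 356)) (XT.lf (nat_lit 0) (nat_lit 3453351571) (nat_lit 836) (nat_lit 2105289729) (nat_lit 0) (nat_lit 2023094570) (nat_lit 398) (nat_lit 5) (nat_lit 409) (nat_lit 4) (nat_lit 398) (nat_lit 4) (nat_lit 429) (nat_lit 356) (nat_lit 355))))) (XT.nd (nat_lit 156) (nat_lit 1520) (nat_lit 0) (XT.nd (nat_lit 78) (nat_lit 836) (nat_lit 0) (XT.lf (nat_lit 0) (nat_lit 4059213597) (nat_lit 760) (nat_lit 3201343364) (nat_lit 760) (nat_lit 368873616) (nat_lit 388) (nat_lit 4) (nat_lit 398) (nat_lit 5) (nat_lit 398) (nat_lit 4) (nat_lit 430) (nat_lit 356) (nat_lit 354)) (XT.lf (nat_lit 0) (nat_lit 2628021298) (nat_lit 760) (nat_lit 755745743) (nat_lit 836) (nat_lit 4294594195) (nat_lit 377) (nat_lit 5) (nat_lit 387) (nat_lit 5) (nat_lit 388) (nat_lit 4) (nat_lit 431) (nat_lit 356) (nat_lit 353))) (XT.nd (nat_lit 78) (nat_lit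 760) (nat_lit 0) (XT.lf (nat_lit 0) (nat_lit 1190235740) (nat_lit 760) (nat_lit 5992248685) (nat_lit 760) (nat_lit 546218054) (nat_lit 367) (nat_lit 4) (nat_lit 377) (nat_lit 5) (nat_lit 377) (nat_lit 4) (nat_lit 432) (nat_lit 356) (nat_lit 352)) (XT.nd (nat_lit 78) (nat_lit 684) (nat_lit 0) (XT.lf (nat_lit 0) (nat_lit 3206436733) (nat_lit 836) (nat_lit 264456261) (nat_lit 76) (nat_lit 4309286185) (nat_lit 366) (nat_lit 5) (nat_lit 377) (nat_lit 5) (nat_lit 367) (nat_lit 4) (nat_lit 433) (nat_lit 356) (nat_lit 351)) (XT.lf (nat_lit 0) (nat_lit 6130785710) (nat_lit 684) (nat_lit 870338774) (nat_lit 760) (nat_lit 832002843) (nat_lit 357) (nat_lit 5) (nat_lit 366) (nat_lit 5) (nat_lit 367) (nat_lit 4) (nat_lit 434) (nat_lit 356) (nat_lit 350)))))) (XT.nd (nat_lit 390) (nat_lit 3116) (nat_lit 0) (XT.nd (nat_lit 156) (nat_lit 1444) (nat_lit 0) (XT.nd (nat_lit 78) (nat_lit 684) (nat_lit 0) (XT.lf (nat_lit 0) (nat_lit 2924561003) (nat_lit 760)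 (nat_lit 3167495144) (nat_lit 76) (nat_lit 1795108081) (nat_lit 347) (nat_lit 5) (nat_lit 357) (nat_lit 5) (nat_lit 348) (nat_lit 4) (nat_lit 435) (nat_lit 356) (nat_lit 349)) (XT.lf (nat_lit 0) (nat_lit 3301069307) (nat_lit 684) (nat_lit 3418214235) (nat_lit 760) (nat_lit 1223404977) (nat_lit 338) (nat_lit 5) (nat_lit 347) (nat_lit 5) (nat_lit 348) (nat_lit 4) (nat_lit 436) (nat_lit 356) (nat_lit 348))) (XT.nd (nat_lit 78) (nat_lit 684) (nat_lit 0) (XT.lf (nat_lit 0) (nat_lit 1868253477) (nat_lit 684) (nat_lit 657649749) (nat_lit 760) (nat_lit 5473697638) (nat_lit 328) (nat_lit 5) (nat_lit 337) (nat_lit 5) (nat_lit 338) (nat_lit 5) (nat_lit 437) (nat_lit 356) (nat_lit 347)) (XT.nd (nat_lit 78) (nat_lit 76) (nat_lit 0) (XT.lf (nat_lit 0) (nat_lit 414386891) (nat_lit 608) (nat_lit 5903886172) (nat_lit 684) (nat_lit 1739527520) (nat_lit 320) (nat_lit 5) (nat_lit 328) (nat_lit 5) (nat_lit 329) (nat_lit 4) (nat_lit 438) (nat_lit 356) (nat_lit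 346)) (XT.lf (nat_lit 0) (nat_lit 2024639678) (nat_lit 684) (nat_lit 1043493624) (nat_lit 76) (nat_lit 5049113221) (nat_lit 319) (nat_lit 5) (nat_lit 328) (nat_lit 5) (nat_lit 320) (nat_lit 5) (nat_lit 439) (nat_lit 356) (nat_lit 345))))) (XT.nd (nat_lit 234) (nat_lit 1216) (nat_lit 0) (XT.nd (nat_lit 78) (nat_lit 1292) (nat_lit 0) (XT.lf (nat_lit 0) (nat_lit 5669658594) (nat_lit 608) (nat_lit 145894776) (nat_lit 684) (nat_lit 2362602938) (nat_lit 311) (nat_lit 5) (nat_lit 319) (nat_lit 5) (nat_lit 320) (nat_lit 5) (nat_lit 440) (nat_lit 356) (nat_lit 344)) (XT.nd (nat_lit 78) (nat_lit 608) (nat_lit 0) (XT.lf (nat_lit 0) (nat_lit 1414541126) (nat_lit 684) (nat_lit 4003616495) (nat_lit 76) (nat_lit 2822110375) (nat_lit 302) (nat_lit 5) (nat_lit 311) (nat_lit 5) (nat_lit 303) (nat_lit 5) (nat_lit 441) (nat_lit 356) (nat_lit 343)) (XT.lf (nat_lit 0) (nat_lit 2784779480) (nat_lit 608) (nat_lit 2425593383) (nat_lit 684) (nat_lit 3093441118)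 (nat_lit 294) (nat_lit 5) (nat_lit 302) (nat_lit 5) (nat_lit 303) (nat_lit 5) (nat_lit 442) (nat_lit 356) (nat_lit 342)))) (XT.nd (nat_lit 78) (nat_lit 608) (nat_lit 0) (XT.lf (nat_lit 0) (nat_lit 683001852) (nat_lit 608) (nat_lit 7048262378) (nat_lit 76) (nat_lit 637696625) (nat_lit 286) (nat_lit 5) (nat_lit 294) (nat_lit 5) (nat_lit 287) (nat_lit 5) (nat_lit 443) (nat_lit 356) (nat_lit 341)) (XT.nd (nat_lit 78) (nat_lit 608) (nat_lit 0) (XT.lf (nat_lit 0) (nat_lit 4486482602) (nat_lit 608) (nat_lit 182656314) (nat_lit 76) (nat_lit 3766004196) (nat_lit 286) (nat_lit 5) (nat_lit 294) (nat_lit 5) (nat_lit 287) (nat_lit 5) (nat_lit 444) (nat_lit 356) (nat_lit 340)) (XT.lf (nat_lit 0) (nat_lit 6828217846) (nat_lit 608) (nat_lit 1522880743) (nat_lit 684) (nat_lit 151849113) (nat_lit 278) (nat_lit 5) (nat_lit 286) (nat_lit 5) (nat_lit 287) (nat_lit 5) (nat_lit 445) (nat_lit 356) (nat_lit 339))))))))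
noncomputable def xc42 : XT := (XT.nd (nat_lit 1560) (nat_lit 5548) (nat_lit 0) (XT.nd (nat_lit 780) (nat_lit 3420) (nat_lit 0) (XT.nd (nat_lit 390) (nat_lit 2508) (nat_lit 0) (XT.nd (nat_lit 156) (nat_lit 1216) (nat_lit 0) (XT.nd (nat_lit 78) (nat_lit 532) (nat_lit 0) (XT.lf (nat_lit 0) (nat_lit 3660404260) (nat_lit 608) (nat_lit 3209109412) (nat_lit 76) (nat_lit 1702345420) (nat_lit 270) (nat_lit 5) (nat_lit 278) (nat_lit 5) (nat_lit 271) (nat_lit 5) (nat_lit 446) (nat_lit 356) (nat_lit 338)) (XT.lf (nat_lit 0) (nat_lit 3879141118) (nat_lit 532) (nat_lit 3655774636) (nat_lit 608) (nat_lit 1107451957) (nat_lit 263) (nat_lit 5) (nat_lit 270) (nat_lit 5) (nat_lit 271) (nat_lit 5) (nat_lit 447) (nat_lit 356) (nat_lit 337))) (XT.nd (nat_lit 78) (nat_lit 608) (nat_lit 0) (XT.lf (nat_lit 0) (nat_lit 2369170219) (nat_lit 532) (nat_lit 345850507) (nat_lit 608) (nat_lit 5999330675) (nat_lit 255) (nat_lit 5) (nat_lit 262) (nat_lit 5) (nat_lit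 263) (nat_lit 5) (nat_lit 448) (nat_lit 356) (nat_lit 336)) (XT.nd (nat_lit 78) (nat_lit 76) (nat_lit 0) (XT.lf (nat_lit 0) (nat_lit 822197665) (nat_lit 532) (nat_lit 5776265018) (nat_lit 608) (nat_lit 2189178703) (nat_lit 248) (nat_lit 5) (nat_lit 255) (nat_lit 5) (nat_lit 256) (nat_lit 5) (nat_lit 449) (nat_lit 356) (nat_lit 335)) (XT.lf (nat_lit 0) (nat_lit 1662435731) (nat_lit 608) (nat_lit 739433801) (nat_lit 76) (nat_lit 6460556892) (nat_lit 247) (nat_lit 5) (nat_lit 255) (nat_lit 5) (nat_lit 248) (nat_lit 5) (nat_lit 450) (nat_lit 356) (nat_lit 334))))) (XT.nd (nat_lit 156) (nat_lit 1444) (nat_lit 0) (XT.nd (nat_lit 78) (nat_lit 608) (nat_lit 0) (XT.lf (nat_lit 0) (nat_lit 5555256805) (nat_lit 532) (nat_lit 2323811868) (nat_lit 76) (nat_lit 1059479330) (nat_lit 241) (nat_lit 5) (nat_lit 248) (nat_lit 5) (nat_lit 242) (nat_lit 5) (nat_lit 451) (nat_lit 356) (nat_lit 333)) (XT.lf (nat_lit 0) (nat_lit 500831747) (nat_lit 608) (nat_lit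 3940961907) (nat_lit 76) (nat_lit 4574376672) (nat_lit 233) (nat_lit 5) (nat_lit 241) (nat_lit 5) (nat_lit 234) (nat_lit 5) (nat_lit 452) (nat_lit 356) (nat_lit 332))) (XT.nd (nat_lit 78) (nat_lit 988) (nat_lit 0) (XT.lf (nat_lit 0) (nat_lit 3499846955) (nat_lit 456) (nat_lit 900068684) (nat_lit 532) (nat_lit 4695330571) (nat_lit 227) (nat_lit 5) (nat_lit 233) (nat_lit 5) (nat_lit 234) (nat_lit 5) (nat_lit 453) (nat_lit 356) (nat_lit 331)) (XT.nd (nat_lit 78) (nat_lit 532) (nat_lit 0) (XT.lf (nat_lit 0) (nat_lit 1891929630) (nat_lit 456) (nat_lit 6486079646) (nat_lit 532) (nat_lit 797873773) (nat_lit 221) (nat_lit 5) (nat_lit 227) (nat_lit 5) (nat_lit 228) (nat_lit 5) (nat_lit 454) (nat_lit 356) (nat_lit 330)) (XT.lf (nat_lit 0) (nat_lit 240984708) (nat_lit 456) (nat_lit 2884899029) (nat_lit 532) (nat_lit 6132035767) (nat_lit 214) (nat_lit 5) (nat_lit 220) (nat_lit 5) (nat_lit 221) (nat_lit 5) (nat_lit 455) (nat_lit 356) (nat_lit 329))))))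 (XT.nd (nat_lit 390) (nat_lit 1596) (nat_lit 0) (XT.nd (nat_lit 156) (nat_lit 1292) (nat_lit 0) (XT.nd (nat_lit 78) (nat_lit 532) (nat_lit 0) (XT.lf (nat_lit 0) (nat_lit 7116838816) (nat_lit 532) (nat_lit 1419365298) (nat_lit 76) (nat_lit 805298975) (nat_lit 214) (nat_lit 5) (nat_lit 221) (nat_lit 5) (nat_lit 215) (nat_lit 5) (nat_lit 456) (nat_lit 356) (nat_lit 328)) (XT.lf (nat_lit 0) (nat_lit 1744042781) (nat_lit 532) (nat_lit 3125817302) (nat_lit 76) (nat_lit 4556543969) (nat_lit 207) (nat_lit 5) (nat_lit 214) (nat_lit 5) (nat_lit 208) (nat_lit 5) (nat_lit 457) (nat_lit 356) (nat_lit 327))) (XT.nd (nat_lit 78) (nat_lit 912) (nat_lit 0) (XT.lf (nat_lit 0) (nat_lit 4645775703) (nat_lit 380) (nat_lit 1102667718) (nat_lit 456) (nat_lit 3764543359) (nat_lit 202) (nat_lit 5) (nat_lit 207) (nat_lit 5) (nat_lit 208) (nat_lit 5) (nat_lit 458) (nat_lit 356) (nat_lit 326)) (XT.nd (nat_lit 78) (nat_lit 380) (nat_lit 0) (XT.lf (nat_lit 0) (nat_lit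 233373153) (nat_lit 532) (nat_lit 6649716752) (nat_lit 76) (nat_lit 2718085576) (nat_lit 195) (nat_lit 5) (nat_lit 202) (nat_lit 5) (nat_lit 196) (nat_lit 5) (nat_lit 459) (nat_lit 356) (nat_lit 325)) (XT.lf (nat_lit 0) (nat_lit 1203099427) (nat_lit 380) (nat_lit 3052618476) (nat_lit 456) (nat_lit 5435014838) (nat_lit 190) (nat_lit 5) (nat_lit 195) (nat_lit 5) (nat_lit 196) (nat_lit 5) (nat_lit 460) (nat_lit 356) (nat_lit 324))))) (XT.nd (nat_lit 156) (nat_lit 1140) (nat_lit 0) (XT.nd (nat_lit 78) (nat_lit 456) (nat_lit 0) (XT.lf (nat_lit 0) (nat_lit 8356137737) (nat_lit 456) (nat_lit 566478249) (nat_lit 76) (nat_lit 859512597) (nat_lit 190) (nat_lit 5) (nat_lit 196) (nat_lit 5) (nat_lit 191) (nat_lit 5) (nat_lit 461) (nat_lit 356) (nat_lit 323)) (XT.lf (nat_lit 0) (nat_lit 2645575548) (nat_lit 456) (nat_lit 2381967288) (nat_lit 76) (nat_lit 4847117869) (nat_lit 184) (nat_lit 5) (nat_lit 190) (nat_lit 5) (nat_lit 185) (nat_lit 5) (nat_lit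 462) (nat_lit 356) (nat_lit 322))) (XT.nd (nat_lit 78) (nat_lit 760) (nat_lit 0) (XT.lf (nat_lit 0) (nat_lit 5736433341) (nat_lit 380) (nat_lit 1032486801) (nat_lit 456) (nat_lit 3200145995) (nat_lit 179) (nat_lit 5) (nat_lit 184) (nat_lit 5) (nat_lit 185) (nat_lit 5) (nat_lit 463) (nat_lit 356) (nat_lit 321)) (XT.nd (nat_lit 78) (nat_lit 304) (nat_lit 0) (XT.lf (nat_lit 0) (nat_lit 907553644) (nat_lit 456) (nat_lit 6136324130) (nat_lit 76) (nat_lit 3021161653) (nat_lit 173) (nat_lit 5) (nat_lit 179) (nat_lit 5) (nat_lit 174) (nat_lit 5) (nat_lit 464) (nat_lit 356) (nat_lit 320)) (XT.lf (nat_lit 0) (nat_lit 2065637280) (nat_lit 304) (nat_lit 2986596107) (nat_lit 380) (nat_lit 5110322214) (nat_lit 169) (nat_lit 5) (nat_lit 173) (nat_lit 5) (nat_lit 174) (nat_lit 5) (nat_lit 465) (nat_lit 356) (nat_lit 319))))))) (XT.nd (nat_lit 780) (nat_lit 2660) (nat_lit 0) (XT.nd (nat_lit 390) (nat_lit 1368) (nat_lit 0) (XT.nd (nat_lit 156) (nat_lit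 1064) (nat_lit 0) (XT.nd (nat_lit 78) (nat_lit 76) (nat_lit 0) (XT.lf (nat_lit 0) (nat_lit 166230472) (nat_lit 380) (nat_lit 9112661774) (nat_lit 456) (nat_lit 983148143) (nat_lit 164) (nat_lit 5) (nat_lit 169) (nat_lit 5) (nat_lit 170) (nat_lit 5) (nat_lit 466) (nat_lit 356) (nat_lit 318)) (XT.lf (nat_lit 0) (nat_lit 3207939340) (nat_lit 456) (nat_lit 1781071755) (nat_lit 76) (nat_lit 5373611057) (nat_lit 163) (nat_lit 5) (nat_lit 169) (nat_lit 5) (nat_lit 164) (nat_lit 5) (nat_lit 467) (nat_lit 356) (nat_lit 317))) (XT.nd (nat_lit 78) (nat_lit 760) (nat_lit 0) (XT.lf (nat_lit 0) (nat_lit 6700987825) (nat_lit 304) (nat_lit 762425539) (nat_lit 380) (nat_lit 3001797632) (nat_lit 159) (nat_lit 5) (nat_lit 163) (nat_lit 5) (nat_lit 164) (nat_lit 5) (nat_lit 468) (nat_lit 356) (nat_lit 316)) (XT.nd (nat_lit 78) (nat_lit 304) (nat_lit 0) (XT.lf (nat_lit 0) (nat_lit 1234553650) (nat_lit 456) (nat_lit 5811644942) (nat_lit 76) (nat_lit 3523160879)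 (nat_lit 153) (nat_lit 5) (nat_lit 159) (nat_lit 5) (nat_lit 154) (nat_lit 5) (nat_lit 469) (nat_lit 356) (nat_lit 315)) (XT.lf (nat_lit 0) (nat_lit 2756350982) (nat_lit 304) (nat_lit 2758092852) (nat_lit 380) (nat_lit 5160770124) (nat_lit 149) (nat_lit 5) (nat_lit 153) (nat_lit 5) (nat_lit 154) (nat_lit 5) (nat_lit 470) (nat_lit 356) (nat_lit 314))))) (XT.nd (nat_lit 156) (nat_lit 988) (nat_lit 0) (XT.nd (nat_lit 78) (nat_lit 76) (nat_lit 0) (XT.lf (nat_lit 0) (nat_lit 709659450) (nat_lit 304) (nat_lit 9175469150) (nat_lit 380) (nat_lit 897952999) (nat_lit 145) (nat_lit 5) (nat_lit 149) (nat_lit 5) (nat_lit 150) (nat_lit 5) (nat_lit 471) (nat_lit 356) (nat_lit 313)) (XT.lf (nat_lit 0) (nat_lit 3427588698) (nat_lit 380) (nat_lit 1396064623) (nat_lit 76) (nat_lit 6068550918) (nat_lit 144) (nat_lit 5) (nat_lit 149) (nat_lit 5) (nat_lit 145) (nat_lit 5) (nat_lit 472) (nat_lit 356) (nat_lit 312))) (XT.nd (nat_lit 78) (nat_lit 684) (nat_lit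 0) (XT.lf (nat_lit 0) (nat_lit 7467321235) (nat_lit 304) (nat_lit 360712022) (nat_lit 380) (nat_lit 3175349054) (nat_lit 140) (nat_lit 5) (nat_lit 144) (nat_lit 5) (nat_lit 145) (nat_lit 5) (nat_lit 473) (nat_lit 356) (nat_lit 311)) (XT.nd (nat_lit 78) (nat_lit 304) (nat_lit 0) (XT.lf (nat_lit 0) (nat_lit 1207807674) (nat_lit 380) (nat_lit 5750485957) (nat_lit 76) (nat_lit 4157857744) (nat_lit 135) (nat_lit 5) (nat_lit 140) (nat_lit 5) (nat_lit 136) (nat_lit 5) (nat_lit 474) (nat_lit 356) (nat_lit 310)) (XT.lf (nat_lit 0) (nat_lit 3201223580) (nat_lit 304) (nat_lit 2434242965) (nat_lit 380) (nat_lit 5595302356) (nat_lit 131) (nat_lit 5) (nat_lit 135) (nat_lit 5) (nat_lit 136) (nat_lit 5) (nat_lit 475) (nat_lit 356) (nat_lit 309)))))) (XT.nd (nat_lit 390) (nat_lit 1444) (nat_lit 0) (XT.nd (nat_lit 156) (nat_lit 836) (nat_lit 0) (XT.nd (nat_lit 78) (nat_lit 76) (nat_lit 0) (XT.lf (nat_lit 0) (nat_lit 981412525) (nat_lit 304) (nat_lit 9182109577)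 (nat_lit 380) (nat_lit 1183919805) (nat_lit 127) (nat_lit 5) (nat_lit 131) (nat_lit 5) (nat_lit 132) (nat_lit 5) (nat_lit 476) (nat_lit 356) (nat_lit 308)) (XT.lf (nat_lit 0) (nat_lit 3295139516) (nat_lit 380) (nat_lit 1302104569) (nat_lit 76) (nat_lit 6868315034) (nat_lit 126) (nat_lit 5) (nat_lit 131) (nat_lit 5) (nat_lit 127) (nat_lit 5) (nat_lit 477) (nat_lit 356) (nat_lit 307))) (XT.nd (nat_lit 78) (nat_lit 608) (nat_lit 0) (XT.lf (nat_lit 0) (nat_lit 7853836393) (nat_lit 304) (nat_lit 3625398519) (nat_lit 76) (nat_lit 106529068) (nat_lit 123) (nat_lit 5) (nat_lit 127) (nat_lit 5) (nat_lit 124) (nat_lit 5) (nat_lit 478) (nat_lit 356) (nat_lit 306)) (XT.nd (nat_lit 78) (nat_lit 228) (nat_lit 0) (XT.lf (nat_lit 0) (nat_lit 814940197) (nat_lit 380) (nat_lit 6030359069) (nat_lit 76) (nat_lit 4862369659) (nat_lit 118) (nat_lit 5) (nat_lit 123) (nat_lit 5) (nat_lit 119) (nat_lit 5) (nat_lit 479) (nat_lit 356) (nat_lit 305)) (XT.lf (nat_lit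 0) (nat_lit 3323521248) (nat_lit 228) (nat_lit 2079165824) (nat_lit 304) (nat_lit 6428833290) (nat_lit 115) (nat_lit 5) (nat_lit 118) (nat_lit 5) (nat_lit 119) (nat_lit 5) (nat_lit 480) (nat_lit 356) (nat_lit 304))))) (XT.nd (nat_lit 234) (nat_lit 836) (nat_lit 0) (XT.nd (nat_lit 78) (nat_lit 304) (nat_lit 0) (XT.lf (nat_lit 0) (nat_lit 903634187) (nat_lit 304) (nat_lit 9197204384) (nat_lit 380) (nat_lit 1856637263) (nat_lit 111) (nat_lit 5) (nat_lit 115) (nat_lit 5) (nat_lit 116) (nat_lit 5) (nat_lit 481) (nat_lit 356) (nat_lit 303)) (XT.nd (nat_lit 78) (nat_lit 228) (nat_lit 0) (XT.lf (nat_lit 0) (nat_lit 2795502403) (nat_lit 380) (nat_lit 1577510179) (nat_lit 76) (nat_lit 7712067055) (nat_lit 110) (nat_lit 5) (nat_lit 115) (nat_lit 5) (nat_lit 111) (nat_lit 5) (nat_lit 482) (nat_lit 356) (nat_lit 302)) (XT.lf (nat_lit 0) (nat_lit 7527217291) (nat_lit 304) (nat_lit 4113869920) (nat_lit 76) (nat_lit 573675001) (nat_lit 107) (nat_lit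 5) (nat_lit 111) (nat_lit 5) (nat_lit 108) (nat_lit 5) (nat_lit 483) (nat_lit 356) (nat_lit 301)))) (XT.nd (nat_lit 78) (nat_lit 456) (nat_lit 0) (XT.lf (nat_lit 0) (nat_lit 37862541) (nat_lit 380) (nat_lit 6732419363) (nat_lit 76) (nat_lit 5576127284) (nat_lit 102) (nat_lit 5) (nat_lit 107) (nat_lit 5) (nat_lit 103) (nat_lit 5) (nat_lit 484) (nat_lit 356) (nat_lit 300)) (XT.nd (nat_lit 78) (nat_lit 228) (nat_lit 0) (XT.lf (nat_lit 0) (nat_lit 3042855394) (nat_lit 228) (nat_lit 1754989427) (nat_lit 304) (nat_lit 7682167932) (nat_lit 99) (nat_lit 5) (nat_lit 102) (nat_lit 5) (nat_lit 103) (nat_lit 5) (nat_lit 485) (nat_lit 356) (nat_lit 299)) (XT.lf (nat_lit 0) (nat_lit 394544433) (nat_lit 228) (nat_lit 9283731176) (nat_lit 304) (nat_lit 2937507802) (nat_lit 96) (nat_lit 5) (nat_lit 99) (nat_lit 5) (nat_lit 100) (nat_lit 5) (nat_lit 486) (nat_lit 356) (nat_lit 298))))))))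
noncomputable def xc43 : XT := (XT.nd (nat_lit 1638) (nat_lit 152) (nat_lit 0) (XT.nd (nat_lit 780) (nat_lit 2052) (nat_lit 0) (XT.nd (nat_lit 390) (nat_lit 988) (nat_lit 0) (XT.nd (nat_lit 156) (nat_lit 532) (nat_lit 0) (XT.nd (nat_lit 78) (nat_lit 228) (nat_lit 0) (XT.lf (nat_lit 0) (nat_lit 1907939128) (nat_lit 304) (nat_lit 2304691302) (nat_lit 76) (nat_lit 8540775280) (nat_lit 95) (nat_lit 5) (nat_lit 99) (nat_lit 5) (nat_lit 96) (nat_lit 5) (nat_lit 487) (nat_lit 356) (nat_lit 297)) (XT.lf (nat_lit 0) (nat_lit 6824575414) (nat_lit 304) (nat_lit 5083051435) (nat_lit 76) (nat_lit 985492994) (nat_lit 92) (nat_lit 5) (nat_lit 96) (nat_lit 5) (nat_lit 93) (nat_lit 5) (nat_lit 488) (nat_lit 356) (nat_lit 296))) (XT.nd (nat_lit 78) (nat_lit 304) (nat_lit 0) (XT.lf (nat_lit 0) (nat_lit 5085016702) (nat_lit 228) (nat_lit 6787501044) (nat_lit 304) (nat_lit 1162451048) (nat_lit 89) (nat_lit 5) (nat_lit 92) (nat_lit 5) (nat_lit 93) (nat_lit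 5) (nat_lit 489) (nat_lit 356) (nat_lit 295)) (XT.nd (nat_lit 78) (nat_lit 0) (nat_lit 0) (XT.lf (nat_lit 0) (nat_lit 2274242557) (nat_lit 228) (nat_lit 1522802153) (nat_lit 304) (nat_lit 9381997828) (nat_lit 85) (nat_lit 5) (nat_lit 88) (nat_lit 5) (nat_lit 89) (nat_lit 5) (nat_lit 490) (nat_lit 356) (nat_lit 294)) (XT.lf (nat_lit 0) (nat_lit 8875564880) (nat_lit 304) (nat_lit 624208094) (nat_lit 76) (nat_lit 3825363114) (nat_lit 85) (nat_lit 5) (nat_lit 89) (nat_lit 5) (nat_lit 86) (nat_lit 5) (nat_lit 491) (nat_lit 356) (nat_lit 293))))) (XT.nd (nat_lit 156) (nat_lit 456) (nat_lit 0) (XT.nd (nat_lit 78) (nat_lit 228) (nat_lit 0) (XT.lf (nat_lit 0) (nat_lit 606046742) (nat_lit 304) (nat_lit 3571087745) (nat_lit 76) (nat_lit 9296298125) (nat_lit 81) (nat_lit 5) (nat_lit 85) (nat_lit 5) (nat_lit 82) (nat_lit 5) (nat_lit 492) (nat_lit 356) (nat_lit 292)) (XT.lf (nat_lit 0) (nat_lit 5719043528) (nat_lit 304) (nat_lit 6622162888) (nat_lit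 76) (nat_lit 1282583493) (nat_lit 78) (nat_lit 5) (nat_lit 82) (nat_lit 5) (nat_lit 79) (nat_lit 5) (nat_lit 493) (nat_lit 356) (nat_lit 291))) (XT.nd (nat_lit 78) (nat_lit 228) (nat_lit 0) (XT.lf (nat_lit 0) (nat_lit 4006633404) (nat_lit 228) (nat_lit 6963217249) (nat_lit 304) (nat_lit 2806592689) (nat_lit 75) (nat_lit 5) (nat_lit 78) (nat_lit 5) (nat_lit 79) (nat_lit 5) (nat_lit 494) (nat_lit 356) (nat_lit 290)) (XT.nd (nat_lit 78) (nat_lit 0) (nat_lit 0) (XT.lf (nat_lit 0) (nat_lit 927151179) (nat_lit 152) (nat_lit 1443547655) (nat_lit 228) (nat_lit 11560968878) (nat_lit 72) (nat_lit 5) (nat_lit 74) (nat_lit 5) (nat_lit 75) (nat_lit 5) (nat_lit 495) (nat_lit 356) (nat_lit 289)) (XT.lf (nat_lit 0) (nat_lit 7665104068) (nat_lit 228) (nat_lit 2240210211) (nat_lit 76) (nat_lit 4183288297) (nat_lit 72) (nat_lit 5) (nat_lit 75) (nat_lit 5) (nat_lit 73) (nat_lit 5) (nat_lit 496) (nat_lit 356) (nat_lit 288)))))) (XT.nd (nat_lit 390) (nat_lit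 1140) (nat_lit 0) (XT.nd (nat_lit 156) (nat_lit 456) (nat_lit 0) (XT.nd (nat_lit 78) (nat_lit 228) (nat_lit 0) (XT.lf (nat_lit 0) (nat_lit 8770529589) (nat_lit 228) (nat_lit 4320133250) (nat_lit 304) (nat_lit 1157507989) (nat_lit 69) (nat_lit 5) (nat_lit 72) (nat_lit 5) (nat_lit 73) (nat_lit 5) (nat_lit 497) (nat_lit 356) (nat_lit 287)) (XT.lf (nat_lit 0) (nat_lit 4178046703) (nat_lit 228) (nat_lit 8826688828) (nat_lit 76) (nat_lit 1405257555) (nat_lit 66) (nat_lit 5) (nat_lit 69) (nat_lit 5) (nat_lit 67) (nat_lit 5) (nat_lit 498) (nat_lit 356) (nat_lit 286))) (XT.nd (nat_lit 78) (nat_lit 228) (nat_lit 0) (XT.lf (nat_lit 0) (nat_lit 2284352042) (nat_lit 228) (nat_lit 7359851837) (nat_lit 304) (nat_lit 4929907080) (nat_lit 63) (nat_lit 5) (nat_lit 66) (nat_lit 5) (nat_lit 67) (nat_lit 5) (nat_lit 499) (nat_lit 356) (nat_lit 285)) (XT.nd (nat_lit 78) (nat_lit 152) (nat_lit 0) (XT.lf (nat_lit 0) (nat_lit 490513595) (nat_lit 304) (nat_lit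 1081107917) (nat_lit 76) (nat_lit 13169455346) (nat_lit 62) (nat_lit 5) (nat_lit 66) (nat_lit 5) (nat_lit 63) (nat_lit 5) (nat_lit 500) (nat_lit 356) (nat_lit 284)) (XT.lf (nat_lit 0) (nat_lit 6009170603) (nat_lit 228) (nat_lit 4556616096) (nat_lit 76) (nat_lit 4343826855) (nat_lit 60) (nat_lit 5) (nat_lit 63) (nat_lit 5) (nat_lit 61) (nat_lit 5) (nat_lit 501) (nat_lit 356) (nat_lit 283))))) (XT.nd (nat_lit 234) (nat_lit 684) (nat_lit 0) (XT.nd (nat_lit 78) (nat_lit 228) (nat_lit 0) (XT.lf (nat_lit 0) (nat_lit 6956656201) (nat_lit 228) (nat_lit 4704319397) (nat_lit 304) (nat_lit 3420089889) (nat_lit 57) (nat_lit 5) (nat_lit 60) (nat_lit 5) (nat_lit 61) (nat_lit 5) (nat_lit 502) (nat_lit 356) (nat_lit 282)) (XT.nd (nat_lit 78) (nat_lit 0) (nat_lit 0) (XT.lf (nat_lit 0) (nat_lit 2163138015) (nat_lit 228) (nat_lit 11799372596) (nat_lit 76) (nat_lit 1292719562) (nat_lit 54) (nat_lit 5) (nat_lit 57) (nat_lit 5) (nat_lit 55) (nat_lit 5) (nat_lit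 503) (nat_lit 356) (nat_lit 281)) (XT.lf (nat_lit 0) (nat_lit 7858358855) (nat_lit 228) (nat_lit 181433133) (nat_lit 76) (nat_lit 7391711563) (nat_lit 54) (nat_lit 5) (nat_lit 57) (nat_lit 5) (nat_lit 55) (nat_lit 5) (nat_lit 504) (nat_lit 356) (nat_lit 280)))) (XT.nd (nat_lit 78) (nat_lit 456) (nat_lit 0) (XT.lf (nat_lit 0) (nat_lit 11751082128) (nat_lit 228) (nat_lit 1953527237) (nat_lit 304) (nat_lit 1905950524) (nat_lit 51) (nat_lit 5) (nat_lit 54) (nat_lit 5) (nat_lit 55) (nat_lit 5) (nat_lit 505) (nat_lit 356) (nat_lit 279)) (XT.nd (nat_lit 78) (nat_lit 228) (nat_lit 0) (XT.lf (nat_lit 0) (nat_lit 3866666021) (nat_lit 228) (nat_lit 7679134078) (nat_lit 76) (nat_lit 4246036241) (nat_lit 48) (nat_lit 5) (nat_lit 51) (nat_lit 5) (nat_lit 49) (nat_lit 5) (nat_lit 506) (nat_lit 356) (nat_lit 278)) (XT.lf (nat_lit 0) (nat_lit 4359832284) (nat_lit 228) (nat_lit 5397688029) (nat_lit 304) (nat_lit 6218399918) (nat_lit 45) (nat_lit 5) (nat_lit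 48) (nat_lit 5) (nat_lit 49) (nat_lit 5) (nat_lit 507) (nat_lit 356) (nat_lit 277))))))) (XT.nd (nat_lit 53664) (nat_lit 0) (nat_lit 17784) (XT.nd (nat_lit 53274) (nat_lit 0) (nat_lit 23788) (XT.nd (nat_lit 53040) (nat_lit 0) (nat_lit 26980) (XT.nd (nat_lit 52962) (nat_lit 0) (nat_lit 28652) (XT.lf (nat_lit 0) (nat_lit 509560545) (nat_lit 152) (nat_lit 15278537382) (nat_lit 228) (nat_lit 375149747) (nat_lit 43) (nat_lit 5) (nat_lit 45) (nat_lit 5) (nat_lit 46) (nat_lit 4) (nat_lit 508) (nat_lit 356) (nat_lit 276)) (XT.lf (nat_lit 0) (nat_lit 582187487) (nat_lit 912) (nat_lit 2558631438) (nat_lit 0) (nat_lit 582187487) (nat_lit 420) (nat_lit 5) (nat_lit 432) (nat_lit 4) (nat_lit 420) (nat_lit 4) (nat_lit 426) (nat_lit 357) (nat_lit 357))) (XT.nd (nat_lit 78) (nat_lit 836) (nat_lit 0) (XT.lf (nat_lit 0) (nat_lit 817067513) (nat_lit 836) (nat_lit 4080673688) (nat_lit 836) (nat_lit 2592634304) (nat_lit 409) (nat_lit 4) (nat_lit 420) (nat_lit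 5) (nat_lit 420) (nat_lit 4) (nat_lit 427) (nat_lit 357) (nat_lit 356)) (XT.nd (nat_lit 78) (nat_lit 760) (nat_lit 0) (XT.lf (nat_lit 0) (nat_lit 1120354596) (nat_lit 912) (nat_lit 683785239) (nat_lit 76) (nat_lit 5732022613) (nat_lit 408) (nat_lit 5) (nat_lit 420) (nat_lit 5) (nat_lit 409) (nat_lit 4) (nat_lit 428) (nat_lit 357) (nat_lit 355)) (XT.lf (nat_lit 0) (nat_lit 4843956598) (nat_lit 836) (nat_lit 2186519706) (nat_lit 0) (nat_lit 552624709) (nat_lit 398) (nat_lit 5) (nat_lit 409) (nat_lit 4) (nat_lit 398) (nat_lit 4) (nat_lit 429) (nat_lit 357) (nat_lit 354))))) (XT.nd (nat_lit 156) (nat_lit 1596) (nat_lit 0) (XT.nd (nat_lit 78) (nat_lit 760) (nat_lit 0) (XT.lf (nat_lit 0) (nat_lit 972837464) (nat_lit 836) (nat_lit 3700918589) (nat_lit 76) (nat_lit 2957590099) (nat_lit 387) (nat_lit 5) (nat_lit 398) (nat_lit 5) (nat_lit 388) (nat_lit 4) (nat_lit 430) (nat_lit 357) (nat_lit 353)) (XT.lf (nat_lit 0) (nat_lit 2453026748) (nat_lit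 760) (nat_lit 2233527772) (nat_lit 836) (nat_lit 2994356106) (nat_lit 377) (nat_lit 5) (nat_lit 387) (nat_lit 5) (nat_lit 388) (nat_lit 4) (nat_lit 431) (nat_lit 357) (nat_lit 352))) (XT.nd (nat_lit 78) (nat_lit 760) (nat_lit 0) (XT.lf (nat_lit 0) (nat_lit 700276931) (nat_lit 836) (nat_lit 6757156063) (nat_lit 76) (nat_lit 274598045) (nat_lit 366) (nat_lit 5) (nat_lit 377) (nat_lit 5) (nat_lit 367) (nat_lit 4) (nat_lit 432) (nat_lit 357) (nat_lit 351)) (XT.nd (nat_lit 78) (nat_lit 760) (nat_lit 0) (XT.lf (nat_lit 0) (nat_lit 4413333200) (nat_lit 836) (nat_lit 526809685) (nat_lit 76) (nat_lit 2843942619) (nat_lit 366) (nat_lit 5) (nat_lit 377) (nat_lit 5) (nat_lit 367) (nat_lit 4) (nat_lit 433) (nat_lit 357) (nat_lit 350)) (XT.lf (nat_lit 0) (nat_lit 332114439) (nat_lit 760) (nat_lit 2014802299) (nat_lit 76) (nat_lit 5490748886) (nat_lit 356) (nat_lit 5) (nat_lit 366) (nat_lit 5) (nat_lit 357) (nat_lit 5) (nat_lit 434) (nat_lit 357) (nat_lit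 349)))))) (XT.nd (nat_lit 390) (nat_lit 3192) (nat_lit 0) (XT.nd (nat_lit 156) (nat_lit 1444) (nat_lit 0) (XT.nd (nat_lit 78) (nat_lit 684) (nat_lit 0) (XT.lf (nat_lit 0) (nat_lit 4034160563) (nat_lit 760) (nat_lit 3525091856) (nat_lit 76) (nat_lit 333214185) (nat_lit 347) (nat_lit 5) (nat_lit 357) (nat_lit 5) (nat_lit 348) (nat_lit 4) (nat_lit 435) (nat_lit 357) (nat_lit 348)) (XT.lf (nat_lit 0) (nat_lit 2898384641) (nat_lit 684) (nat_lit 4896560772) (nat_lit 760) (nat_lit 153724236) (nat_lit 338) (nat_lit 5) (nat_lit 347) (nat_lit 5) (nat_lit 348) (nat_lit 4) (nat_lit 436) (nat_lit 357) (nat_lit 347))) (XT.nd (nat_lit 78) (nat_lit 684) (nat_lit 0) (XT.lf (nat_lit 0) (nat_lit 1406629291) (nat_lit 684) (nat_lit 2140757616) (nat_lit 760) (nat_lit 4458739545) (nat_lit 328) (nat_lit 5) (nat_lit 337) (nat_lit 5) (nat_lit 338) (nat_lit 5) (nat_lit 437) (nat_lit 357) (nat_lit 346)) (XT.nd (nat_lit 78) (nat_lit 684) (nat_lit 0) (XT.lf (nat_lit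 0) (nat_lit 7296561928) (nat_lit 760) (nat_lit 89823163) (nat_lit 76) (nat_lit 678804978) (nat_lit 328) (nat_lit 5) (nat_lit 338) (nat_lit 5) (nat_lit 329) (nat_lit 4) (nat_lit 438) (nat_lit 357) (nat_lit 345)) (XT.lf (nat_lit 0) (nat_lit 2951479229) (nat_lit 684) (nat_lit 1602996907) (nat_lit 76) (nat_lit 3570660323) (nat_lit 319) (nat_lit 5) (nat_lit 328) (nat_lit 5) (nat_lit 320) (nat_lit 5) (nat_lit 439) (nat_lit 357) (nat_lit 344))))) (XT.nd (nat_lit 234) (nat_lit 1292) (nat_lit 0) (XT.nd (nat_lit 78) (nat_lit 1292) (nat_lit 0) (XT.lf (nat_lit 0) (nat_lit 5062587174) (nat_lit 608) (nat_lit 1645735363) (nat_lit 684) (nat_lit 1478405116) (nat_lit 311) (nat_lit 5) (nat_lit 319) (nat_lit 5) (nat_lit 320) (nat_lit 5) (nat_lit 440) (nat_lit 357) (nat_lit 343)) (XT.nd (nat_lit 78) (nat_lit 608) (nat_lit 0) (XT.lf (nat_lit 0) (nat_lit 2243010058) (nat_lit 684) (nat_lit 4672881646) (nat_lit 76) (nat_lit 1333715470) (nat_lit 302) (nat_lit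 5) (nat_lit 311) (nat_lit 5) (nat_lit 303) (nat_lit 5) (nat_lit 441) (nat_lit 357) (nat_lit 342)) (XT.lf (nat_lit 0) (nat_lit 2066076199) (nat_lit 608) (nat_lit 3938376345) (nat_lit 684) (nat_lit 2309388400) (nat_lit 294) (nat_lit 5) (nat_lit 302) (nat_lit 5) (nat_lit 303) (nat_lit 5) (nat_lit 442) (nat_lit 357) (nat_lit 341)))) (XT.nd (nat_lit 78) (nat_lit 684) (nat_lit 0) (XT.lf (nat_lit 0) (nat_lit 540729117) (nat_lit 532) (nat_lit 877162308) (nat_lit 608) (nat_lit 6961772185) (nat_lit 286) (nat_lit 5) (nat_lit 293) (nat_lit 5) (nat_lit 294) (nat_lit 5) (nat_lit 443) (nat_lit 357) (nat_lit 340)) (XT.nd (nat_lit 78) (nat_lit 684) (nat_lit 0) (XT.lf (nat_lit 0) (nat_lit 5186336612) (nat_lit 608) (nat_lit 1008028027) (nat_lit 76) (nat_lit 2252181939) (nat_lit 286) (nat_lit 5) (nat_lit 294) (nat_lit 5) (nat_lit 287) (nat_lit 5) (nat_lit 444) (nat_lit 357) (nat_lit 339)) (XT.lf (nat_lit 0) (nat_lit 494879861) (nat_lit 684) (nat_lit 2566547656)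 (nat_lit 76) (nat_lit 5453547651) (nat_lit 277) (nat_lit 5) (nat_lit 286) (nat_lit 5) (nat_lit 278) (nat_lit 5) (nat_lit 445) (nat_lit 357) (nat_lit 338))))))))
noncomputable def xc44 : XT := (XT.nd (nat_lit 1560) (nat_lit 5624) (nat_lit 0) (XT.nd (nat_lit 780) (nat_lit 3572) (nat_lit 0) (XT.nd (nat_lit 390) (nat_lit 2052) (nat_lit 0) (XT.nd (nat_lit 156) (nat_lit 1216) (nat_lit 0) (XT.nd (nat_lit 78) (nat_lit 532) (nat_lit 0) (XT.lf (nat_lit 0) (nat_lit 4260266365) (nat_lit 608) (nat_lit 4156636758) (nat_lit 76) (nat_lit 167861224) (nat_lit 270) (nat_lit 5) (nat_lit 278) (nat_lit 5) (nat_lit 271) (nat_lit 5) (nat_lit 446) (nat_lit 357) (nat_lit 337)) (XT.lf (nat_lit 0) (nat_lit 2878534595) (nat_lit 532) (nat_lit 5221334901) (nat_lit 608) (nat_lit 556101636) (nat_lit 263) (nat_lit 5) (nat_lit 270) (nat_lit 5) (nat_lit 271) (nat_lit 5) (nat_lit 447) (nat_lit 357) (nat_lit 336))) (XT.nd (nat_lit 78) (nat_lit 608) (nat_lit 0) (XT.lf (nat_lit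 0) (nat_lit 1297252907) (nat_lit 532) (nat_lit 1926628925) (nat_lit 608) (nat_lit 5504706558) (nat_lit 255) (nat_lit 5) (nat_lit 262) (nat_lit 5) (nat_lit 263) (nat_lit 5) (nat_lit 448) (nat_lit 357) (nat_lit 335)) (XT.nd (nat_lit 78) (nat_lit 608) (nat_lit 0) (XT.lf (nat_lit 0) (nat_lit 7063643310) (nat_lit 608) (nat_lit 304765483) (nat_lit 76) (nat_lit 1434343191) (nat_lit 255) (nat_lit 5) (nat_lit 263) (nat_lit 5) (nat_lit 256) (nat_lit 5) (nat_lit 449) (nat_lit 357) (nat_lit 334)) (XT.lf (nat_lit 0) (nat_lit 2076612605) (nat_lit 608) (nat_lit 1928902412) (nat_lit 76) (nat_lit 4872563370) (nat_lit 247) (nat_lit 5) (nat_lit 255) (nat_lit 5) (nat_lit 248) (nat_lit 5) (nat_lit 450) (nat_lit 357) (nat_lit 333))))) (XT.nd (nat_lit 156) (nat_lit 988) (nat_lit 0) (XT.nd (nat_lit 78) (nat_lit 608) (nat_lit 0) (XT.lf (nat_lit 0) (nat_lit 5376439822) (nat_lit 456) (nat_lit 550513979) (nat_lit 532) (nat_lit 3028095764) (nat_lit 241) (nat_lit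 5) (nat_lit 247) (nat_lit 5) (nat_lit 248) (nat_lit 5) (nat_lit 451) (nat_lit 357) (nat_lit 332)) (XT.lf (nat_lit 0) (nat_lit 811820057) (nat_lit 608) (nat_lit 5268482596) (nat_lit 76) (nat_lit 2953114085) (nat_lit 233) (nat_lit 5) (nat_lit 241) (nat_lit 5) (nat_lit 234) (nat_lit 5) (nat_lit 452) (nat_lit 357) (nat_lit 331))) (XT.nd (nat_lit 78) (nat_lit 532) (nat_lit 0) (XT.lf (nat_lit 0) (nat_lit 2114248646) (nat_lit 456) (nat_lit 2560537067) (nat_lit 532) (nat_lit 4438429273) (nat_lit 227) (nat_lit 5) (nat_lit 233) (nat_lit 5) (nat_lit 234) (nat_lit 5) (nat_lit 453) (nat_lit 357) (nat_lit 330)) (XT.nd (nat_lit 78) (nat_lit 76) (nat_lit 0) (XT.lf (nat_lit 0) (nat_lit 440004558) (nat_lit 456) (nat_lit 8165736402) (nat_lit 532) (nat_lit 589053634) (nat_lit 221) (nat_lit 5) (nat_lit 227) (nat_lit 5) (nat_lit 228) (nat_lit 5) (nat_lit 454) (nat_lit 357) (nat_lit 329)) (XT.lf (nat_lit 0) (nat_lit 3303562728) (nat_lit 532) (nat_lit 1274557722)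 (nat_lit 76) (nat_lit 4699251530) (nat_lit 220) (nat_lit 5) (nat_lit 227) (nat_lit 5) (nat_lit 221) (nat_lit 5) (nat_lit 455) (nat_lit 357) (nat_lit 328)))))) (XT.nd (nat_lit 390) (nat_lit 1672) (nat_lit 0) (XT.nd (nat_lit 156) (nat_lit 912) (nat_lit 0) (XT.nd (nat_lit 78) (nat_lit 532) (nat_lit 0) (XT.lf (nat_lit 0) (nat_lit 6355136085) (nat_lit 456) (nat_lit 899127663) (nat_lit 532) (nat_lit 2107496898) (nat_lit 214) (nat_lit 5) (nat_lit 220) (nat_lit 5) (nat_lit 221) (nat_lit 5) (nat_lit 456) (nat_lit 357) (nat_lit 327)) (XT.lf (nat_lit 0) (nat_lit 1816754115) (nat_lit 532) (nat_lit 4789947929) (nat_lit 76) (nat_lit 2840802738) (nat_lit 207) (nat_lit 5) (nat_lit 214) (nat_lit 5) (nat_lit 208) (nat_lit 5) (nat_lit 457) (nat_lit 357) (nat_lit 326))) (XT.nd (nat_lit 78) (nat_lit 532) (nat_lit 0) (XT.lf (nat_lit 0) (nat_lit 2919338546) (nat_lit 380) (nat_lit 2864558029) (nat_lit 456) (nat_lit 3750936098) (nat_lit 202) (nat_lit 5) (nat_lit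 207) (nat_lit 5) (nat_lit 208) (nat_lit 5) (nat_lit 458) (nat_lit 357) (nat_lit 325)) (XT.nd (nat_lit 78) (nat_lit 0) (nat_lit 0) (XT.lf (nat_lit 0) (nat_lit 197466944) (nat_lit 532) (nat_lit 8472591957) (nat_lit 76) (nat_lit 953947408) (nat_lit 195) (nat_lit 5) (nat_lit 202) (nat_lit 5) (nat_lit 196) (nat_lit 5) (nat_lit 459) (nat_lit 357) (nat_lit 324)) (XT.lf (nat_lit 0) (nat_lit 4186198792) (nat_lit 532) (nat_lit 675466060) (nat_lit 76) (nat_lit 4852570975) (nat_lit 195) (nat_lit 5) (nat_lit 202) (nat_lit 5) (nat_lit 196) (nat_lit 5) (nat_lit 460) (nat_lit 357) (nat_lit 323))))) (XT.nd (nat_lit 156) (nat_lit 836) (nat_lit 0) (XT.nd (nat_lit 78) (nat_lit 456) (nat_lit 0) (XT.lf (nat_lit 0) (nat_lit 7294227199) (nat_lit 380) (nat_lit 956739787) (nat_lit 456) (nat_lit 1555377716) (nat_lit 190) (nat_lit 5) (nat_lit 195) (nat_lit 5) (nat_lit 196) (nat_lit 5) (nat_lit 461) (nat_lit 357) (nat_lit 322)) (XT.lf (nat_lit 0) (nat_lit 2473220362)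 (nat_lit 456) (nat_lit 4410943131) (nat_lit 76) (nat_lit 3015623438) (nat_lit 184) (nat_lit 5) (nat_lit 190) (nat_lit 5) (nat_lit 185) (nat_lit 5) (nat_lit 462) (nat_lit 357) (nat_lit 321))) (XT.nd (nat_lit 78) (nat_lit 456) (nat_lit 0) (XT.lf (nat_lit 0) (nat_lit 3640613018) (nat_lit 380) (nat_lit 2917277392) (nat_lit 456) (nat_lit 3437075443) (nat_lit 179) (nat_lit 5) (nat_lit 184) (nat_lit 5) (nat_lit 185) (nat_lit 5) (nat_lit 463) (nat_lit 357) (nat_lit 320)) (XT.nd (nat_lit 78) (nat_lit 0) (nat_lit 0) (XT.lf (nat_lit 0) (nat_lit 622094403) (nat_lit 456) (nat_lit 8338915817) (nat_lit 76) (nat_lit 1130992431) (nat_lit 173) (nat_lit 5) (nat_lit 179) (nat_lit 5) (nat_lit 174) (nat_lit 5) (nat_lit 464) (nat_lit 357) (nat_lit 319)) (XT.lf (nat_lit 0) (nat_lit 4728510965) (nat_lit 456) (nat_lit 203618427) (nat_lit 76) (nat_lit 5258154698) (nat_lit 173) (nat_lit 5) (nat_lit 179) (nat_lit 5) (nat_lit 174) (nat_lit 5) (nat_lit 465) (nat_lit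 357) (nat_lit 318))))))) (XT.nd (nat_lit 780) (nat_lit 2432) (nat_lit 0) (XT.nd (nat_lit 390) (nat_lit 1368) (nat_lit 0) (XT.nd (nat_lit 156) (nat_lit 1064) (nat_lit 0) (XT.nd (nat_lit 78) (nat_lit 456) (nat_lit 0) (XT.lf (nat_lit 0) (nat_lit 8122543841) (nat_lit 304) (nat_lit 798032859) (nat_lit 380) (nat_lit 1369884040) (nat_lit 169) (nat_lit 5) (nat_lit 173) (nat_lit 5) (nat_lit 174) (nat_lit 5) (nat_lit 466) (nat_lit 357) (nat_lit 317)) (XT.lf (nat_lit 0) (nat_lit 2782088408) (nat_lit 456) (nat_lit 4204724234) (nat_lit 76) (nat_lit 3405163824) (nat_lit 163) (nat_lit 5) (nat_lit 169) (nat_lit 5) (nat_lit 164) (nat_lit 5) (nat_lit 467) (nat_lit 357) (nat_lit 316))) (XT.nd (nat_lit 78) (nat_lit 760) (nat_lit 0) (XT.lf (nat_lit 0) (nat_lit 4205612176) (nat_lit 304) (nat_lit 2791583208) (nat_lit 380) (nat_lit 3498177266) (nat_lit 159) (nat_lit 5) (nat_lit 163) (nat_lit 5) (nat_lit 164) (nat_lit 5) (nat_lit 468) (nat_lit 357) (nat_lit 315))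 (XT.nd (nat_lit 78) (nat_lit 304) (nat_lit 0) (XT.lf (nat_lit 0) (nat_lit 690326617) (nat_lit 456) (nat_lit 8424698821) (nat_lit 76) (nat_lit 1485647293) (nat_lit 153) (nat_lit 5) (nat_lit 159) (nat_lit 5) (nat_lit 154) (nat_lit 5) (nat_lit 469) (nat_lit 357) (nat_lit 314)) (XT.lf (nat_lit 0) (nat_lit 68866880) (nat_lit 304) (nat_lit 4859923092) (nat_lit 380) (nat_lit 5778565782) (nat_lit 149) (nat_lit 5) (nat_lit 153) (nat_lit 5) (nat_lit 154) (nat_lit 5) (nat_lit 470) (nat_lit 357) (nat_lit 313))))) (XT.nd (nat_lit 156) (nat_lit 988) (nat_lit 0) (XT.nd (nat_lit 78) (nat_lit 380) (nat_lit 0) (XT.lf (nat_lit 0) (nat_lit 8767873196) (nat_lit 304) (nat_lit 492687403) (nat_lit 380) (nat_lit 1555441080) (nat_lit 149) (nat_lit 5) (nat_lit 153) (nat_lit 5) (nat_lit 154) (nat_lit 5) (nat_lit 471) (nat_lit 357) (nat_lit 312)) (XT.lf (nat_lit 0) (nat_lit 2738159874) (nat_lit 380) (nat_lit 4246063824) (nat_lit 76) (nat_lit 3941797275) (nat_lit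 144) (nat_lit 5) (nat_lit 149) (nat_lit 5) (nat_lit 145) (nat_lit 5) (nat_lit 472) (nat_lit 357) (nat_lit 311))) (XT.nd (nat_lit 78) (nat_lit 684) (nat_lit 0) (XT.lf (nat_lit 0) (nat_lit 4540345909) (nat_lit 304) (nat_lit 2555920150) (nat_lit 380) (nat_lit 3941779755) (nat_lit 140) (nat_lit 5) (nat_lit 144) (nat_lit 5) (nat_lit 145) (nat_lit 5) (nat_lit 473) (nat_lit 357) (nat_lit 310)) (XT.nd (nat_lit 78) (nat_lit 304) (nat_lit 0) (XT.lf (nat_lit 0) (nat_lit 393927909) (nat_lit 380) (nat_lit 8806705228) (nat_lit 76) (nat_lit 1951431282) (nat_lit 135) (nat_lit 5) (nat_lit 140) (nat_lit 5) (nat_lit 136) (nat_lit 5) (nat_lit 474) (nat_lit 357) (nat_lit 309)) (XT.lf (nat_lit 0) (nat_lit 65122215) (nat_lit 304) (nat_lit 4712931648) (nat_lit 380) (nat_lit 6489498740) (nat_lit 131) (nat_lit 5) (nat_lit 135) (nat_lit 5) (nat_lit 136) (nat_lit 5) (nat_lit 475) (nat_lit 357) (nat_lit 308)))))) (XT.nd (nat_lit 390) (nat_lit 1444) (nat_lit 0) (XT.nd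 (nat_lit 156) (nat_lit 608) (nat_lit 0) (XT.nd (nat_lit 78) (nat_lit 380) (nat_lit 0) (XT.lf (nat_lit 0) (nat_lit 9156000250) (nat_lit 304) (nat_lit 106566629) (nat_lit 380) (nat_lit 2122529580) (nat_lit 131) (nat_lit 5) (nat_lit 135) (nat_lit 5) (nat_lit 136) (nat_lit 5) (nat_lit 476) (nat_lit 357) (nat_lit 307)) (XT.lf (nat_lit 0) (nat_lit 2330368210) (nat_lit 380) (nat_lit 4612206964) (nat_lit 76) (nat_lit 4561529811) (nat_lit 126) (nat_lit 5) (nat_lit 131) (nat_lit 5) (nat_lit 127) (nat_lit 5) (nat_lit 477) (nat_lit 357) (nat_lit 306))) (XT.nd (nat_lit 78) (nat_lit 380) (nat_lit 0) (XT.lf (nat_lit 0) (nat_lit 4568338982) (nat_lit 228) (nat_lit 2275431210) (nat_lit 304) (nat_lit 4781445551) (nat_lit 123) (nat_lit 5) (nat_lit 126) (nat_lit 5) (nat_lit 127) (nat_lit 5) (nat_lit 478) (nat_lit 357) (nat_lit 305)) (XT.nd (nat_lit 78) (nat_lit 76) (nat_lit 0) (XT.lf (nat_lit 0) (nat_lit 2181921314) (nat_lit 304) (nat_lit 9281585028) (nat_lit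 380) (nat_lit 284921053) (nat_lit 119) (nat_lit 5) (nat_lit 123) (nat_lit 5) (nat_lit 124) (nat_lit 5) (nat_lit 479) (nat_lit 357) (nat_lit 304)) (XT.lf (nat_lit 0) (nat_lit 4262560103) (nat_lit 380) (nat_lit 292649096) (nat_lit 76) (nat_lit 7317986681) (nat_lit 118) (nat_lit 5) (nat_lit 123) (nat_lit 5) (nat_lit 119) (nat_lit 5) (nat_lit 480) (nat_lit 357) (nat_lit 303))))) (XT.nd (nat_lit 234) (nat_lit 608) (nat_lit 0) (XT.nd (nat_lit 78) (nat_lit 608) (nat_lit 0) (XT.lf (nat_lit 0) (nat_lit 8914496575) (nat_lit 304) (nat_lit 2792276602) (nat_lit 76) (nat_lit 293302477) (nat_lit 115) (nat_lit 5) (nat_lit 119) (nat_lit 5) (nat_lit 116) (nat_lit 5) (nat_lit 481) (nat_lit 357) (nat_lit 302)) (XT.nd (nat_lit 78) (nat_lit 228) (nat_lit 0) (XT.lf (nat_lit 0) (nat_lit 1541896394) (nat_lit 380) (nat_lit 5383813883) (nat_lit 76) (nat_lit 5202944401) (nat_lit 110) (nat_lit 5) (nat_lit 115) (nat_lit 5) (nat_lit 111) (nat_lit 5) (nat_lit 482) (nat_lit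 357) (nat_lit 301)) (XT.lf (nat_lit 0) (nat_lit 4209688663) (nat_lit 228) (nat_lit 2013006143) (nat_lit 304) (nat_lit 6036660776) (nat_lit 107) (nat_lit 5) (nat_lit 110) (nat_lit 5) (nat_lit 111) (nat_lit 5) (nat_lit 483) (nat_lit 357) (nat_lit 300)))) (XT.nd (nat_lit 78) (nat_lit 304) (nat_lit 0) (XT.lf (nat_lit 0) (nat_lit 1601135482) (nat_lit 304) (nat_lit 9418226651) (nat_lit 380) (nat_lit 1372863312) (nat_lit 103) (nat_lit 5) (nat_lit 107) (nat_lit 5) (nat_lit 108) (nat_lit 5) (nat_lit 484) (nat_lit 357) (nat_lit 299)) (XT.nd (nat_lit 78) (nat_lit 228) (nat_lit 0) (XT.lf (nat_lit 0) (nat_lit 3363638770) (nat_lit 380) (nat_lit 1084598241) (nat_lit 76) (nat_lit 8078599980) (nat_lit 102) (nat_lit 5) (nat_lit 107) (nat_lit 5) (nat_lit 103) (nat_lit 5) (nat_lit 485) (nat_lit 357) (nat_lit 298)) (XT.lf (nat_lit 0) (nat_lit 8195187973) (nat_lit 304) (nat_lit 3819798276) (nat_lit 76) (nat_lit 648599033) (nat_lit 99) (nat_lit 5) (nat_lit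 103) (nat_lit 5) (nat_lit 100) (nat_lit 5) (nat_lit 486) (nat_lit 357) (nat_lit 297))))))))
noncomputable def xc45 : XT := (XT.nd (nat_lit 1560) (nat_lit 228) (nat_lit 0) (XT.nd (nat_lit 780) (nat_lit 1824) (nat_lit 0) (XT.nd (nat_lit 390) (nat_lit 988) (nat_lit 0) (XT.nd (nat_lit 156) (nat_lit 532) (nat_lit 0) (XT.nd (nat_lit 78) (nat_lit 228) (nat_lit 0) (XT.lf (nat_lit 0) (nat_lit 350218107) (nat_lit 304) (nat_lit 6645901181) (nat_lit 76) (nat_lit 5806225272) (nat_lit 95) (nat_lit 5) (nat_lit 99) (nat_lit 5) (nat_lit 96) (nat_lit 5) (nat_lit 487) (nat_lit 357) (nat_lit 296)) (XT.lf (nat_lit 0) (nat_lit 3380123130) (nat_lit 228) (nat_lit 1830253727) (nat_lit 304) (nat_lit 7732811388) (nat_lit 92) (nat_lit 5) (nat_lit 95) (nat_lit 5) (nat_lit 96) (nat_lit 5) (nat_lit 488) (nat_lit 357) (nat_lit 295))) (XT.nd (nat_lit 78) (nat_lit 304) (nat_lit 0) (XT.lf (nat_lit 0) (nat_lit 519777484) (nat_lit 228) (nat_lit 9675901486) (nat_lit 304)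 (nat_lit 2890611030) (nat_lit 89) (nat_lit 5) (nat_lit 92) (nat_lit 5) (nat_lit 93) (nat_lit 5) (nat_lit 489) (nat_lit 357) (nat_lit 294)) (XT.nd (nat_lit 78) (nat_lit 228) (nat_lit 0) (XT.lf (nat_lit 0) (nat_lit 2055702721) (nat_lit 304) (nat_lit 2398194623) (nat_lit 76) (nat_lit 8777407750) (nat_lit 88) (nat_lit 5) (nat_lit 92) (nat_lit 5) (nat_lit 89) (nat_lit 5) (nat_lit 490) (nat_lit 357) (nat_lit 293)) (XT.lf (nat_lit 0) (nat_lit 7078297276) (nat_lit 304) (nat_lit 5399297372) (nat_lit 76) (nat_lit 900922508) (nat_lit 85) (nat_lit 5) (nat_lit 89) (nat_lit 5) (nat_lit 86) (nat_lit 5) (nat_lit 491) (nat_lit 357) (nat_lit 292))))) (XT.nd (nat_lit 156) (nat_lit 456) (nat_lit 0) (XT.nd (nat_lit 78) (nat_lit 304) (nat_lit 0) (XT.lf (nat_lit 0) (nat_lit 5030771359) (nat_lit 228) (nat_lit 7207317388) (nat_lit 304) (nat_lit 1289849812) (nat_lit 82) (nat_lit 5) (nat_lit 85) (nat_lit 5) (nat_lit 86) (nat_lit 5) (nat_lit 492) (nat_lit 357) (nat_lit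 291)) (XT.lf (nat_lit 0) (nat_lit 1990049581) (nat_lit 228) (nat_lit 1788413202) (nat_lit 304) (nat_lit 9901232579) (nat_lit 78) (nat_lit 5) (nat_lit 81) (nat_lit 5) (nat_lit 82) (nat_lit 5) (nat_lit 493) (nat_lit 357) (nat_lit 290))) (XT.nd (nat_lit 78) (nat_lit 456) (nat_lit 0) (XT.lf (nat_lit 0) (nat_lit 8971139363) (nat_lit 304) (nat_lit 1138487501) (nat_lit 76) (nat_lit 3723884543) (nat_lit 78) (nat_lit 5) (nat_lit 82) (nat_lit 5) (nat_lit 79) (nat_lit 5) (nat_lit 494) (nat_lit 357) (nat_lit 289)) (XT.nd (nat_lit 78) (nat_lit 152) (nat_lit 0) (XT.lf (nat_lit 0) (nat_lit 307847439) (nat_lit 304) (nat_lit 4325812658) (nat_lit 76) (nat_lit 9356023309) (nat_lit 74) (nat_lit 5) (nat_lit 78) (nat_lit 5) (nat_lit 75) (nat_lit 5) (nat_lit 495) (nat_lit 357) (nat_lit 288)) (XT.lf (nat_lit 0) (nat_lit 5532477442) (nat_lit 228) (nat_lit 7625137886) (nat_lit 76) (nat_lit 990398447) (nat_lit 72) (nat_lit 5) (nat_lit 75) (nat_lit 5) (nat_lit 73)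 (nat_lit 5) (nat_lit 496) (nat_lit 357) (nat_lit 287)))))) (XT.nd (nat_lit 390) (nat_lit 912) (nat_lit 0) (XT.nd (nat_lit 156) (nat_lit 608) (nat_lit 0) (XT.nd (nat_lit 78) (nat_lit 76) (nat_lit 0) (XT.lf (nat_lit 0) (nat_lit 3277489130) (nat_lit 228) (nat_lit 7624867778) (nat_lit 304) (nat_lit 3406338704) (nat_lit 69) (nat_lit 5) (nat_lit 72) (nat_lit 5) (nat_lit 73) (nat_lit 5) (nat_lit 497) (nat_lit 357) (nat_lit 286)) (XT.lf (nat_lit 0) (nat_lit 1893166413) (nat_lit 304) (nat_lit 55678656) (nat_lit 76) (nat_lit 12523275687) (nat_lit 68) (nat_lit 5) (nat_lit 72) (nat_lit 5) (nat_lit 69) (nat_lit 5) (nat_lit 498) (nat_lit 357) (nat_lit 285))) (XT.nd (nat_lit 78) (nat_lit 456) (nat_lit 0) (XT.lf (nat_lit 0) (nat_lit 7311538550) (nat_lit 228) (nat_lit 3470963705) (nat_lit 76) (nat_lit 3854692075) (nat_lit 66) (nat_lit 5) (nat_lit 69) (nat_lit 5) (nat_lit 67) (nat_lit 5) (nat_lit 499) (nat_lit 357) (nat_lit 284)) (XT.nd (nat_lit 78) (nat_lit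 228) (nat_lit 0) (XT.lf (nat_lit 0) (nat_lit 7825901542) (nat_lit 228) (nat_lit 5036997544) (nat_lit 304) (nat_lit 1942177869) (nat_lit 63) (nat_lit 5) (nat_lit 66) (nat_lit 5) (nat_lit 67) (nat_lit 5) (nat_lit 500) (nat_lit 357) (nat_lit 283)) (XT.lf (nat_lit 0) (nat_lit 3520538454) (nat_lit 228) (nat_lit 10598707849) (nat_lit 76) (nat_lit 856247800) (nat_lit 60) (nat_lit 5) (nat_lit 63) (nat_lit 5) (nat_lit 61) (nat_lit 5) (nat_lit 501) (nat_lit 357) (nat_lit 282))))) (XT.nd (nat_lit 156) (nat_lit 684) (nat_lit 0) (XT.nd (nat_lit 78) (nat_lit 0) (nat_lit 0) (XT.lf (nat_lit 0) (nat_lit 798274314) (nat_lit 228) (nat_lit 8314620984) (nat_lit 304) (nat_lit 6035239700) (nat_lit 57) (nat_lit 5) (nat_lit 60) (nat_lit 5) (nat_lit 61) (nat_lit 5) (nat_lit 502) (nat_lit 357) (nat_lit 281)) (XT.lf (nat_lit 0) (nat_lit 12495582329) (nat_lit 228) (nat_lit 2353630993) (nat_lit 304) (nat_lit 474373110) (nat_lit 57) (nat_lit 5) (nat_lit 60) (nat_lit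 5) (nat_lit 61) (nat_lit 5) (nat_lit 503) (nat_lit 357) (nat_lit 280))) (XT.nd (nat_lit 78) (nat_lit 456) (nat_lit 0) (XT.lf (nat_lit 0) (nat_lit 5173668011) (nat_lit 228) (nat_lit 6588715704) (nat_lit 76) (nat_lit 3738605718) (nat_lit 54) (nat_lit 5) (nat_lit 57) (nat_lit 5) (nat_lit 55) (nat_lit 5) (nat_lit 504) (nat_lit 357) (nat_lit 279)) (XT.nd (nat_lit 78) (nat_lit 228) (nat_lit 0) (XT.lf (nat_lit 0) (nat_lit 5223289988) (nat_lit 228) (nat_lit 5735234632) (nat_lit 304) (nat_lit 4722749030) (nat_lit 51) (nat_lit 5) (nat_lit 54) (nat_lit 5) (nat_lit 55) (nat_lit 5) (nat_lit 505) (nat_lit 357) (nat_lit 278)) (XT.lf (nat_lit 0) (nat_lit 999235199) (nat_lit 228) (nat_lit 14429445896) (nat_lit 76) (nat_lit 435986278) (nat_lit 48) (nat_lit 5) (nat_lit 51) (nat_lit 5) (nat_lit 49) (nat_lit 5) (nat_lit 506) (nat_lit 357) (nat_lit 277))))))) (XT.nd (nat_lit 53508) (nat_lit 0) (nat_lit 18924) (XT.nd (nat_lit 53118) (nat_lit 0) (nat_lit 25232)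 (XT.nd (nat_lit 52884) (nat_lit 0) (nat_lit 28500) (XT.nd (nat_lit 78) (nat_lit 228) (nat_lit 0) (XT.lf (nat_lit 0) (nat_lit 6842838384) (nat_lit 228) (nat_lit 2482622881) (nat_lit 76) (nat_lit 6724235021) (nat_lit 48) (nat_lit 5) (nat_lit 51) (nat_lit 5) (nat_lit 49) (nat_lit 5) (nat_lit 507) (nat_lit 357) (nat_lit 276)) (XT.lf (nat_lit 0) (nat_lit 9761924823) (nat_lit 228) (nat_lit 3067252787) (nat_lit 304) (nat_lit 3408730887) (nat_lit 45) (nat_lit 5) (nat_lit 48) (nat_lit 5) (nat_lit 49) (nat_lit 5) (nat_lit 508) (nat_lit 357) (nat_lit 275))) (XT.nd (nat_lit 78) (nat_lit 1824) (nat_lit 0) (XT.lf (nat_lit 0) (nat_lit 1339824305) (nat_lit 912) (nat_lit 1000516588) (nat_lit 0) (nat_lit 1339824305) (nat_lit 444) (nat_lit 5) (nat_lit 456) (nat_lit 4) (nat_lit 444) (nat_lit 4) (nat_lit 424) (nat_lit 358) (nat_lit 358)) (XT.nd (nat_lit 78) (nat_lit 912) (nat_lit 0) (XT.lf (nat_lit 0) (nat_lit 3827056903) (nat_lit 912) (nat_lit 2561969102)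 (nat_lit 912) (nat_lit 1013812927) (nat_lit 432) (nat_lit 4) (nat_lit 444) (nat_lit 5) (nat_lit 444) (nat_lit 4) (nat_lit 425) (nat_lit 358) (nat_lit 357)) (XT.lf (nat_lit 0) (nat_lit 2287390133) (nat_lit 836) (nat_lit 362781391) (nat_lit 912) (nat_lit 4796481374) (nat_lit 420) (nat_lit 5) (nat_lit 431) (nat_lit 5) (nat_lit 432) (nat_lit 4) (nat_lit 426) (nat_lit 358) (nat_lit 356))))) (XT.nd (nat_lit 156) (nat_lit 2356) (nat_lit 0) (XT.nd (nat_lit 78) (nat_lit 76) (nat_lit 0) (XT.lf (nat_lit 0) (nat_lit 737512535) (nat_lit 836) (nat_lit 5609467943) (nat_lit 836) (nat_lit 1144766245) (nat_lit 409) (nat_lit 4) (nat_lit 420) (nat_lit 5) (nat_lit 420) (nat_lit 4) (nat_lit 427) (nat_lit 358) (nat_lit 355)) (XT.lf (nat_lit 0) (nat_lit 2515737711) (nat_lit 912) (nat_lit 813168522) (nat_lit 76) (nat_lit 4209109342) (nat_lit 408) (nat_lit 5) (nat_lit 420) (nat_lit 5) (nat_lit 409) (nat_lit 4) (nat_lit 428) (nat_lit 358) (nat_lit 354))) (XT.nd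 (nat_lit 78) (nat_lit 1596) (nat_lit 0) (XT.lf (nat_lit 0) (nat_lit 5230387375) (nat_lit 760) (nat_lit 971374416) (nat_lit 836) (nat_lit 1383943904) (nat_lit 398) (nat_lit 5) (nat_lit 408) (nat_lit 5) (nat_lit 409) (nat_lit 4) (nat_lit 429) (nat_lit 358) (nat_lit 353)) (XT.nd (nat_lit 78) (nat_lit 760) (nat_lit 0) (XT.lf (nat_lit 0) (nat_lit 2269890020) (nat_lit 836) (nat_lit 3916674927) (nat_lit 76) (nat_lit 1448017397) (nat_lit 387) (nat_lit 5) (nat_lit 398) (nat_lit 5) (nat_lit 388) (nat_lit 4) (nat_lit 430) (nat_lit 358) (nat_lit 352)) (XT.lf (nat_lit 0) (nat_lit 2195060784) (nat_lit 760) (nat_lit 3754567899) (nat_lit 836) (nat_lit 1735197702) (nat_lit 377) (nat_lit 5) (nat_lit 387) (nat_lit 5) (nat_lit 388) (nat_lit 4) (nat_lit 431) (nat_lit 358) (nat_lit 351)))))) (XT.nd (nat_lit 390) (nat_lit 3268) (nat_lit 0) (XT.nd (nat_lit 156) (nat_lit 2204) (nat_lit 0) (XT.nd (nat_lit 78) (nat_lit 0) (nat_lit 0) (XT.lf (nat_lit 0) (nat_lit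 663555543) (nat_lit 760) (nat_lit 1243393951) (nat_lit 836) (nat_lit 5829553232) (nat_lit 366) (nat_lit 5) (nat_lit 376) (nat_lit 5) (nat_lit 377) (nat_lit 5) (nat_lit 432) (nat_lit 358) (nat_lit 350)) (XT.lf (nat_lit 0) (nat_lit 5580134032) (nat_lit 836) (nat_lit 873858937) (nat_lit 76) (nat_lit 1335361659) (nat_lit 366) (nat_lit 5) (nat_lit 377) (nat_lit 5) (nat_lit 367) (nat_lit 4) (nat_lit 433) (nat_lit 358) (nat_lit 349))) (XT.nd (nat_lit 78) (nat_lit 1444) (nat_lit 0) (XT.lf (nat_lit 0) (nat_lit 1444477000) (nat_lit 760) (nat_lit 2418797508) (nat_lit 76) (nat_lit 3980188121) (nat_lit 356) (nat_lit 5) (nat_lit 366) (nat_lit 5) (nat_lit 357) (nat_lit 5) (nat_lit 434) (nat_lit 358) (nat_lit 348)) (XT.nd (nat_lit 78) (nat_lit 760) (nat_lit 0) (XT.lf (nat_lit 0) (nat_lit 3921013767) (nat_lit 684) (nat_lit 1189387792) (nat_lit 760) (nat_lit 2788584481) (nat_lit 347) (nat_lit 5) (nat_lit 356) (nat_lit 5) (nat_lit 357) (nat_lit 5) (nat_lit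 435) (nat_lit 358) (nat_lit 347)) (XT.lf (nat_lit 0) (nat_lit 862091518) (nat_lit 760) (nat_lit 5553927258) (nat_lit 76) (nat_lit 1539889210) (nat_lit 337) (nat_lit 5) (nat_lit 347) (nat_lit 5) (nat_lit 338) (nat_lit 5) (nat_lit 436) (nat_lit 358) (nat_lit 346))))) (XT.nd (nat_lit 234) (nat_lit 1900) (nat_lit 0) (XT.nd (nat_lit 78) (nat_lit 684) (nat_lit 0) (XT.lf (nat_lit 0) (nat_lit 855586416) (nat_lit 684) (nat_lit 3671462746) (nat_lit 760) (nat_lit 3486978412) (nat_lit 328) (nat_lit 5) (nat_lit 337) (nat_lit 5) (nat_lit 338) (nat_lit 5) (nat_lit 437) (nat_lit 358) (nat_lit 345)) (XT.nd (nat_lit 78) (nat_lit 608) (nat_lit 0) (XT.lf (nat_lit 0) (nat_lit 165560268) (nat_lit 760) (nat_lit 684912597) (nat_lit 76) (nat_lit 7223290119) (nat_lit 327) (nat_lit 5) (nat_lit 337) (nat_lit 5) (nat_lit 328) (nat_lit 5) (nat_lit 438) (nat_lit 358) (nat_lit 344)) (XT.lf (nat_lit 0) (nat_lit 3835995245) (nat_lit 684) (nat_lit 2253694954) (nat_lit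 76) (nat_lit 2044711203) (nat_lit 319) (nat_lit 5) (nat_lit 328) (nat_lit 5) (nat_lit 320) (nat_lit 5) (nat_lit 439) (nat_lit 358) (nat_lit 343)))) (XT.nd (nat_lit 78) (nat_lit 1292) (nat_lit 0) (XT.lf (nat_lit 0) (nat_lit 4363895974) (nat_lit 608) (nat_lit 3194868099) (nat_lit 684) (nat_lit 637910011) (nat_lit 311) (nat_lit 5) (nat_lit 319) (nat_lit 5) (nat_lit 320) (nat_lit 5) (nat_lit 440) (nat_lit 358) (nat_lit 342)) (XT.nd (nat_lit 78) (nat_lit 608) (nat_lit 0) (XT.lf (nat_lit 0) (nat_lit 2822608030) (nat_lit 608) (nat_lit 206742282) (nat_lit 684) (nat_lit 5230956785) (nat_lit 302) (nat_lit 5) (nat_lit 310) (nat_lit 5) (nat_lit 311) (nat_lit 5) (nat_lit 441) (nat_lit 358) (nat_lit 341)) (XT.lf (nat_lit 0) (nat_lit 1252705933) (nat_lit 608) (nat_lit 5502323468) (nat_lit 684) (nat_lit 1570226734) (nat_lit 294) (nat_lit 5) (nat_lit 302) (nat_lit 5) (nat_lit 303) (nat_lit 5) (nat_lit 442) (nat_lit 358) (nat_lit 340))))))))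
noncomputable def xc46 : XT := (XT.nd (nat_lit 1560) (nat_lit 5852) (nat_lit 0) (XT.nd (nat_lit 780) (nat_lit 3724) (nat_lit 0) (XT.nd (nat_lit 390) (nat_lit 2280) (nat_lit 0) (XT.nd (nat_lit 156) (nat_lit 1748) (nat_lit 0) (XT.nd (nat_lit 78) (nat_lit 532) (nat_lit 0) (XT.lf (nat_lit 0) (nat_lit 2114835418) (nat_lit 684) (nat_lit 335302367) (nat_lit 76) (nat_lit 5941495501) (nat_lit 293) (nat_lit 5) (nat_lit 302) (nat_lit 5) (nat_lit 294) (nat_lit 5) (nat_lit 443) (nat_lit 358) (nat_lit 339)) (XT.lf (nat_lit 0) (nat_lit 5842082118) (nat_lit 608) (nat_lit 1929904554) (nat_lit 76) (nat_lit 687353552) (nat_lit 286) (nat_lit 5) (nat_lit 294) (nat_lit 5) (nat_lit 287) (nat_lit 5) (nat_lit 444) (nat_lit 358) (nat_lit 338))) (XT.nd (nat_lit 78) (nat_lit 1064) (nat_lit 0) (XT.lf (nat_lit 0) (nat_lit 1094649140) (nat_lit 684) (nat_lit 3557447485) (nat_lit 76) (nat_lit 3876283702) (nat_lit 277) (nat_lit 5) (nat_lit 286) (nat_lit 5) (nat_lit 278)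 (nat_lit 5) (nat_lit 445) (nat_lit 358) (nat_lit 337)) (XT.nd (nat_lit 78) (nat_lit 532) (nat_lit 0) (XT.lf (nat_lit 0) (nat_lit 3385724198) (nat_lit 532) (nat_lit 1438348468) (nat_lit 608) (nat_lit 3774816101) (nat_lit 270) (nat_lit 5) (nat_lit 277) (nat_lit 5) (nat_lit 278) (nat_lit 5) (nat_lit 446) (nat_lit 358) (nat_lit 336)) (XT.lf (nat_lit 0) (nat_lit 1777735730) (nat_lit 532) (nat_lit 6841599569) (nat_lit 608) (nat_lit 51647063) (nat_lit 263) (nat_lit 5) (nat_lit 270) (nat_lit 5) (nat_lit 271) (nat_lit 5) (nat_lit 447) (nat_lit 358) (nat_lit 335))))) (XT.nd (nat_lit 156) (nat_lit 1672) (nat_lit 0) (XT.nd (nat_lit 78) (nat_lit 0) (nat_lit 0) (XT.lf (nat_lit 0) (nat_lit 123489869) (nat_lit 532) (nat_lit 3562865991) (nat_lit 608) (nat_lit 5057885544) (nat_lit 255) (nat_lit 5) (nat_lit 262) (nat_lit 5) (nat_lit 263) (nat_lit 5) (nat_lit 448) (nat_lit 358) (nat_lit 334)) (XT.lf (nat_lit 0) (nat_lit 7294823531) (nat_lit 532) (nat_lit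 194404273) (nat_lit 608) (nat_lit 1329914987) (nat_lit 255) (nat_lit 5) (nat_lit 262) (nat_lit 5) (nat_lit 263) (nat_lit 5) (nat_lit 449) (nat_lit 358) (nat_lit 333))) (XT.nd (nat_lit 78) (nat_lit 1064) (nat_lit 0) (XT.lf (nat_lit 0) (nat_lit 2443677310) (nat_lit 608) (nat_lit 3222159753) (nat_lit 76) (nat_lit 3229314241) (nat_lit 247) (nat_lit 5) (nat_lit 255) (nat_lit 5) (nat_lit 248) (nat_lit 5) (nat_lit 450) (nat_lit 358) (nat_lit 332)) (XT.nd (nat_lit 78) (nat_lit 608) (nat_lit 0) (XT.lf (nat_lit 0) (nat_lit 4026652680) (nat_lit 456) (nat_lit 2231716213) (nat_lit 532) (nat_lit 2714466582) (nat_lit 241) (nat_lit 5) (nat_lit 247) (nat_lit 5) (nat_lit 248) (nat_lit 5) (nat_lit 451) (nat_lit 358) (nat_lit 331)) (XT.lf (nat_lit 0) (nat_lit 1074241669) (nat_lit 608) (nat_lit 6703162301) (nat_lit 76) (nat_lit 1274699837) (nat_lit 233) (nat_lit 5) (nat_lit 241) (nat_lit 5) (nat_lit 234) (nat_lit 5) (nat_lit 452) (nat_lit 358) (nat_lit 330))))))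 (XT.nd (nat_lit 390) (nat_lit 1748) (nat_lit 0) (XT.nd (nat_lit 156) (nat_lit 1520) (nat_lit 0) (XT.nd (nat_lit 78) (nat_lit 0) (nat_lit 0) (XT.lf (nat_lit 0) (nat_lit 620860090) (nat_lit 456) (nat_lit 4280060958) (nat_lit 532) (nat_lit 4231706732) (nat_lit 227) (nat_lit 5) (nat_lit 233) (nat_lit 5) (nat_lit 234) (nat_lit 5) (nat_lit 453) (nat_lit 358) (nat_lit 329)) (XT.lf (nat_lit 0) (nat_lit 8103717940) (nat_lit 456) (nat_lit 692229058) (nat_lit 532) (nat_lit 418978976) (nat_lit 227) (nat_lit 5) (nat_lit 233) (nat_lit 5) (nat_lit 234) (nat_lit 5) (nat_lit 454) (nat_lit 358) (nat_lit 328))) (XT.nd (nat_lit 78) (nat_lit 988) (nat_lit 0) (XT.lf (nat_lit 0) (nat_lit 3433241851) (nat_lit 532) (nat_lit 2896778120) (nat_lit 76) (nat_lit 2968224604) (nat_lit 220) (nat_lit 5) (nat_lit 227) (nat_lit 5) (nat_lit 221) (nat_lit 5) (nat_lit 455) (nat_lit 358) (nat_lit 327)) (XT.nd (nat_lit 78) (nat_lit 532) (nat_lit 0) (XT.lf (nat_lit 0) (nat_lit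 4672215023) (nat_lit 456) (nat_lit 2675005552) (nat_lit 532) (nat_lit 2036147113) (nat_lit 214) (nat_lit 5) (nat_lit 220) (nat_lit 5) (nat_lit 221) (nat_lit 5) (nat_lit 456) (nat_lit 358) (nat_lit 326)) (XT.lf (nat_lit 0) (nat_lit 1838300688) (nat_lit 532) (nat_lit 6567482439) (nat_lit 76) (nat_lit 1064296780) (nat_lit 207) (nat_lit 5) (nat_lit 214) (nat_lit 5) (nat_lit 208) (nat_lit 5) (nat_lit 457) (nat_lit 358) (nat_lit 325))))) (XT.nd (nat_lit 156) (nat_lit 1292) (nat_lit 0) (XT.nd (nat_lit 78) (nat_lit 76) (nat_lit 0) (XT.lf (nat_lit 0) (nat_lit 1078778491) (nat_lit 380) (nat_lit 4689176281) (nat_lit 456) (nat_lit 3790202795) (nat_lit 202) (nat_lit 5) (nat_lit 207) (nat_lit 5) (nat_lit 208) (nat_lit 5) (nat_lit 458) (nat_lit 358) (nat_lit 324)) (XT.lf (nat_lit 0) (nat_lit 119466182) (nat_lit 456) (nat_lit 759967857) (nat_lit 76) (nat_lit 8768687242) (nat_lit 201) (nat_lit 5) (nat_lit 207) (nat_lit 5) (nat_lit 202) (nat_lit 5) (nat_lit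 459) (nat_lit 358) (nat_lit 323))) (XT.nd (nat_lit 78) (nat_lit 836) (nat_lit 0) (XT.lf (nat_lit 0) (nat_lit 4072159592) (nat_lit 532) (nat_lit 2654548671) (nat_lit 76) (nat_lit 3012363305) (nat_lit 195) (nat_lit 5) (nat_lit 202) (nat_lit 5) (nat_lit 196) (nat_lit 5) (nat_lit 460) (nat_lit 358) (nat_lit 322)) (XT.nd (nat_lit 78) (nat_lit 456) (nat_lit 0) (XT.lf (nat_lit 0) (nat_lit 5249972207) (nat_lit 380) (nat_lit 2848883244) (nat_lit 456) (nat_lit 1733086439) (nat_lit 190) (nat_lit 5) (nat_lit 195) (nat_lit 5) (nat_lit 196) (nat_lit 5) (nat_lit 461) (nat_lit 358) (nat_lit 321)) (XT.lf (nat_lit 0) (nat_lit 2246782550) (nat_lit 456) (nat_lit 6560000479) (nat_lit 76) (nat_lit 1119645361) (nat_lit 184) (nat_lit 5) (nat_lit 190) (nat_lit 5) (nat_lit 185) (nat_lit 5) (nat_lit 462) (nat_lit 358) (nat_lit 320))))))) (XT.nd (nat_lit 780) (nat_lit 2812) (nat_lit 0) (XT.nd (nat_lit 390) (nat_lit 1444) (nat_lit 0) (XT.nd (nat_lit 156) (nat_lit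 1140) (nat_lit 0) (XT.nd (nat_lit 78) (nat_lit 76) (nat_lit 0) (XT.lf (nat_lit 0) (nat_lit 1423897339) (nat_lit 380) (nat_lit 4868587292) (nat_lit 456) (nat_lit 3729902040) (nat_lit 179) (nat_lit 5) (nat_lit 184) (nat_lit 5) (nat_lit 185) (nat_lit 5) (nat_lit 463) (nat_lit 358) (nat_lit 319)) (XT.lf (nat_lit 0) (nat_lit 289732271) (nat_lit 456) (nat_lit 543307965) (nat_lit 76) (nat_lit 9287288779) (nat_lit 178) (nat_lit 5) (nat_lit 184) (nat_lit 5) (nat_lit 179) (nat_lit 5) (nat_lit 464) (nat_lit 358) (nat_lit 318))) (XT.nd (nat_lit 78) (nat_lit 760) (nat_lit 0) (XT.lf (nat_lit 0) (nat_lit 4362777712) (nat_lit 456) (nat_lit 2568995912) (nat_lit 76) (nat_lit 3287504252) (nat_lit 173) (nat_lit 5) (nat_lit 179) (nat_lit 5) (nat_lit 174) (nat_lit 5) (nat_lit 465) (nat_lit 358) (nat_lit 317)) (XT.nd (nat_lit 78) (nat_lit 456) (nat_lit 0) (XT.lf (nat_lit 0) (nat_lit 5687190098) (nat_lit 304) (nat_lit 2827954744) (nat_lit 380) (nat_lit 1805103656)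 (nat_lit 169) (nat_lit 5) (nat_lit 173) (nat_lit 5) (nat_lit 174) (nat_lit 5) (nat_lit 466) (nat_lit 358) (nat_lit 316)) (XT.lf (nat_lit 0) (nat_lit 2298906321) (nat_lit 456) (nat_lit 6755621419) (nat_lit 76) (nat_lit 1368366407) (nat_lit 163) (nat_lit 5) (nat_lit 169) (nat_lit 5) (nat_lit 164) (nat_lit 5) (nat_lit 467) (nat_lit 358) (nat_lit 315))))) (XT.nd (nat_lit 156) (nat_lit 1064) (nat_lit 0) (XT.nd (nat_lit 78) (nat_lit 76) (nat_lit 0) (XT.lf (nat_lit 0) (nat_lit 1582075592) (nat_lit 304) (nat_lit 4891212384) (nat_lit 380) (nat_lit 4053816863) (nat_lit 159) (nat_lit 5) (nat_lit 163) (nat_lit 5) (nat_lit 164) (nat_lit 5) (nat_lit 468) (nat_lit 358) (nat_lit 314)) (XT.lf (nat_lit 0) (nat_lit 94378658) (nat_lit 380) (nat_lit 532680588) (nat_lit 76) (nat_lit 10006369739) (nat_lit 158) (nat_lit 5) (nat_lit 163) (nat_lit 5) (nat_lit 159) (nat_lit 5) (nat_lit 469) (nat_lit 358) (nat_lit 313))) (XT.nd (nat_lit 78) (nat_lit 684) (nat_lit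 0) (XT.lf (nat_lit 0) (nat_lit 4301288170) (nat_lit 456) (nat_lit 2714916797) (nat_lit 76) (nat_lit 3724538119) (nat_lit 153) (nat_lit 5) (nat_lit 159) (nat_lit 5) (nat_lit 154) (nat_lit 5) (nat_lit 470) (nat_lit 358) (nat_lit 312)) (XT.nd (nat_lit 78) (nat_lit 380) (nat_lit 0) (XT.lf (nat_lit 0) (nat_lit 5909847350) (nat_lit 304) (nat_lit 2682055567) (nat_lit 380) (nat_lit 2258309209) (nat_lit 149) (nat_lit 5) (nat_lit 153) (nat_lit 5) (nat_lit 154) (nat_lit 5) (nat_lit 471) (nat_lit 358) (nat_lit 311)) (XT.lf (nat_lit 0) (nat_lit 1987806764) (nat_lit 380) (nat_lit 7231011411) (nat_lit 76) (nat_lit 1742638581) (nat_lit 144) (nat_lit 5) (nat_lit 149) (nat_lit 5) (nat_lit 145) (nat_lit 5) (nat_lit 472) (nat_lit 358) (nat_lit 310)))))) (XT.nd (nat_lit 390) (nat_lit 1444) (nat_lit 0) (XT.nd (nat_lit 156) (nat_lit 1064) (nat_lit 0) (XT.nd (nat_lit 78) (nat_lit 0) (nat_lit 0) (XT.lf (nat_lit 0) (nat_lit 1477395492) (nat_lit 304) (nat_lit 4825753780)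 (nat_lit 380) (nat_lit 4771187597) (nat_lit 140) (nat_lit 5) (nat_lit 144) (nat_lit 5) (nat_lit 145) (nat_lit 5) (nat_lit 473) (nat_lit 358) (nat_lit 309)) (XT.lf (nat_lit 0) (nat_lit 10382071559) (nat_lit 304) (nat_lit 325452688) (nat_lit 380) (nat_lit 481895825) (nat_lit 140) (nat_lit 5) (nat_lit 144) (nat_lit 5) (nat_lit 145) (nat_lit 5) (nat_lit 474) (nat_lit 358) (nat_lit 308))) (XT.nd (nat_lit 78) (nat_lit 684) (nat_lit 0) (XT.lf (nat_lit 0) (nat_lit 3877950800) (nat_lit 380) (nat_lit 3169345408) (nat_lit 76) (nat_lit 4258286613) (nat_lit 135) (nat_lit 5) (nat_lit 140) (nat_lit 5) (nat_lit 136) (nat_lit 5) (nat_lit 475) (nat_lit 358) (nat_lit 307)) (XT.nd (nat_lit 78) (nat_lit 380) (nat_lit 0) (XT.lf (nat_lit 0) (nat_lit 5841671912) (nat_lit 304) (nat_lit 2477424403) (nat_lit 380) (nat_lit 3104897712) (nat_lit 131) (nat_lit 5) (nat_lit 135) (nat_lit 5) (nat_lit 136) (nat_lit 5) (nat_lit 476) (nat_lit 358) (nat_lit 306)) (XT.lf (nat_lit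 0) (nat_lit 1300717921) (nat_lit 380) (nat_lit 8065559332) (nat_lit 76) (nat_lit 2178056185) (nat_lit 126) (nat_lit 5) (nat_lit 131) (nat_lit 5) (nat_lit 127) (nat_lit 5) (nat_lit 477) (nat_lit 358) (nat_lit 305))))) (XT.nd (nat_lit 234) (nat_lit 836) (nat_lit 0) (XT.nd (nat_lit 78) (nat_lit 380) (nat_lit 0) (XT.lf (nat_lit 0) (nat_lit 1031201779) (nat_lit 228) (nat_lit 4737829040) (nat_lit 304) (nat_lit 5897315160) (nat_lit 123) (nat_lit 5) (nat_lit 126) (nat_lit 5) (nat_lit 127) (nat_lit 5) (nat_lit 478) (nat_lit 358) (nat_lit 304)) (XT.nd (nat_lit 78) (nat_lit 380) (nat_lit 0) (XT.lf (nat_lit 0) (nat_lit 10336583125) (nat_lit 304) (nat_lit 1446463339) (nat_lit 76) (nat_lit 7554844) (nat_lit 123) (nat_lit 5) (nat_lit 127) (nat_lit 5) (nat_lit 124) (nat_lit 5) (nat_lit 479) (nat_lit 358) (nat_lit 303)) (XT.lf (nat_lit 0) (nat_lit 3077232348) (nat_lit 380) (nat_lit 4012501119) (nat_lit 76) (nat_lit 4826419408) (nat_lit 118) (nat_lit 5)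 (nat_lit 123) (nat_lit 5) (nat_lit 119) (nat_lit 5) (nat_lit 480) (nat_lit 358) (nat_lit 302)))) (XT.nd (nat_lit 78) (nat_lit 608) (nat_lit 0) (XT.lf (nat_lit 0) (nat_lit 5403193331) (nat_lit 228) (nat_lit 2277777811) (nat_lit 304) (nat_lit 4363025460) (nat_lit 115) (nat_lit 5) (nat_lit 118) (nat_lit 5) (nat_lit 119) (nat_lit 5) (nat_lit 481) (nat_lit 358) (nat_lit 301)) (XT.nd (nat_lit 78) (nat_lit 228) (nat_lit 0) (XT.lf (nat_lit 0) (nat_lit 219075149) (nat_lit 380) (nat_lit 9342327489) (nat_lit 76) (nat_lit 2612581444) (nat_lit 110) (nat_lit 5) (nat_lit 115) (nat_lit 5) (nat_lit 111) (nat_lit 5) (nat_lit 482) (nat_lit 358) (nat_lit 300)) (XT.lf (nat_lit 0) (nat_lit 161151032) (nat_lit 228) (nat_lit 4691012201) (nat_lit 304) (nat_lit 7453475961) (nat_lit 107) (nat_lit 5) (nat_lit 110) (nat_lit 5) (nat_lit 111) (nat_lit 5) (nat_lit 483) (nat_lit 358) (nat_lit 299))))))))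
noncomputable def xc47 : XT := (XT.nd (nat_lit 1638) (nat_lit 684) (nat_lit 0) (XT.nd (nat_lit 780) (nat_lit 2052) (nat_lit 0) (XT.nd (nat_lit 390) (nat_lit 1064) (nat_lit 0) (XT.nd (nat_lit 156) (nat_lit 532) (nat_lit 0) (XT.nd (nat_lit 78) (nat_lit 380) (nat_lit 0) (XT.lf (nat_lit 0) (nat_lit 9599704658) (nat_lit 304) (nat_lit 2534305933) (nat_lit 76) (nat_lit 305480984) (nat_lit 107) (nat_lit 5) (nat_lit 111) (nat_lit 5) (nat_lit 108) (nat_lit 5) (nat_lit 484) (nat_lit 358) (nat_lit 298)) (XT.lf (nat_lit 0) (nat_lit 1877867404) (nat_lit 380) (nat_lit 5328732200) (nat_lit 76) (nat_lit 5368455737) (nat_lit 102) (nat_lit 5) (nat_lit 107) (nat_lit 5) (nat_lit 103) (nat_lit 5) (nat_lit 485) (nat_lit 358) (nat_lit 297))) (XT.nd (nat_lit 78) (nat_lit 304) (nat_lit 0) (XT.lf (nat_lit 0) (nat_lit 4510798902) (nat_lit 228) (nat_lit 2145304180) (nat_lit 304) (nat_lit 6056766819) (nat_lit 99) (nat_lit 5) (nat_lit 102) (nat_lit 5) (nat_lit 103)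 (nat_lit 5) (nat_lit 486) (nat_lit 358) (nat_lit 296)) (XT.nd (nat_lit 78) (nat_lit 76) (nat_lit 0) (XT.lf (nat_lit 0) (nat_lit 1695515824) (nat_lit 228) (nat_lit 9858944858) (nat_lit 304) (nat_lit 1298488926) (nat_lit 96) (nat_lit 5) (nat_lit 99) (nat_lit 5) (nat_lit 100) (nat_lit 5) (nat_lit 487) (nat_lit 358) (nat_lit 295)) (XT.lf (nat_lit 0) (nat_lit 3535980258) (nat_lit 304) (nat_lit 1203743386) (nat_lit 76) (nat_lit 8255092652) (nat_lit 95) (nat_lit 5) (nat_lit 99) (nat_lit 5) (nat_lit 96) (nat_lit 5) (nat_lit 488) (nat_lit 358) (nat_lit 294))))) (XT.nd (nat_lit 156) (nat_lit 532) (nat_lit 0) (XT.nd (nat_lit 78) (nat_lit 304) (nat_lit 0) (XT.lf (nat_lit 0) (nat_lit 8470343222) (nat_lit 304) (nat_lit 4156251637) (nat_lit 76) (nat_lit 512341975) (nat_lit 92) (nat_lit 5) (nat_lit 96) (nat_lit 5) (nat_lit 93) (nat_lit 5) (nat_lit 489) (nat_lit 358) (nat_lit 293)) (XT.lf (nat_lit 0) (nat_lit 252845968) (nat_lit 304) (nat_lit 7207466157)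 (nat_lit 76) (nat_lit 5824834535) (nat_lit 88) (nat_lit 5) (nat_lit 92) (nat_lit 5) (nat_lit 89) (nat_lit 5) (nat_lit 490) (nat_lit 358) (nat_lit 292))) (XT.nd (nat_lit 78) (nat_lit 304) (nat_lit 0) (XT.lf (nat_lit 0) (nat_lit 3075782383) (nat_lit 228) (nat_lit 2141592763) (nat_lit 304) (nat_lit 8216144883) (nat_lit 85) (nat_lit 5) (nat_lit 88) (nat_lit 5) (nat_lit 89) (nat_lit 5) (nat_lit 491) (nat_lit 358) (nat_lit 291)) (XT.nd (nat_lit 78) (nat_lit 304) (nat_lit 0) (XT.lf (nat_lit 0) (nat_lit 10310401912) (nat_lit 304) (nat_lit 15632198) (nat_lit 76) (nat_lit 3258242615) (nat_lit 85) (nat_lit 5) (nat_lit 89) (nat_lit 5) (nat_lit 86) (nat_lit 5) (nat_lit 492) (nat_lit 358) (nat_lit 290)) (XT.lf (nat_lit 0) (nat_lit 1787269296) (nat_lit 304) (nat_lit 3162039842) (nat_lit 76) (nat_lit 8787645809) (nat_lit 81) (nat_lit 5) (nat_lit 85) (nat_lit 5) (nat_lit 82) (nat_lit 5) (nat_lit 493) (nat_lit 358) (nat_lit 289)))))) (XT.nd (nat_lit 390)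 (nat_lit 1140) (nat_lit 0) (XT.nd (nat_lit 156) (nat_lit 456) (nat_lit 0) (XT.nd (nat_lit 78) (nat_lit 228) (nat_lit 0) (XT.lf (nat_lit 0) (nat_lit 6918379385) (nat_lit 304) (nat_lit 6405596230) (nat_lit 76) (nat_lit 568026708) (nat_lit 78) (nat_lit 5) (nat_lit 82) (nat_lit 5) (nat_lit 79) (nat_lit 5) (nat_lit 494) (nat_lit 358) (nat_lit 288)) (XT.lf (nat_lit 0) (nat_lit 4293085245) (nat_lit 228) (nat_lit 7901224129) (nat_lit 304) (nat_lit 1854997316) (nat_lit 75) (nat_lit 5) (nat_lit 78) (nat_lit 5) (nat_lit 79) (nat_lit 5) (nat_lit 495) (nat_lit 358) (nat_lit 287))) (XT.nd (nat_lit 78) (nat_lit 228) (nat_lit 0) (XT.lf (nat_lit 0) (nat_lit 1003374521) (nat_lit 152) (nat_lit 2328512024) (nat_lit 228) (nat_lit 10877232886) (nat_lit 72) (nat_lit 5) (nat_lit 74) (nat_lit 5) (nat_lit 75) (nat_lit 5) (nat_lit 496) (nat_lit 358) (nat_lit 286)) (XT.nd (nat_lit 78) (nat_lit 228) (nat_lit 0) (XT.lf (nat_lit 0) (nat_lit 8645745741) (nat_lit 228)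 (nat_lit 2366347813) (nat_lit 76) (nat_lit 3358828121) (nat_lit 72) (nat_lit 5) (nat_lit 75) (nat_lit 5) (nat_lit 73) (nat_lit 5) (nat_lit 497) (nat_lit 358) (nat_lit 285)) (XT.lf (nat_lit 0) (nat_lit 8718731132) (nat_lit 228) (nat_lit 5380319347) (nat_lit 304) (nat_lit 436246117) (nat_lit 69) (nat_lit 5) (nat_lit 72) (nat_lit 5) (nat_lit 73) (nat_lit 5) (nat_lit 498) (nat_lit 358) (nat_lit 284))))) (XT.nd (nat_lit 234) (nat_lit 608) (nat_lit 0) (XT.nd (nat_lit 78) (nat_lit 304) (nat_lit 0) (XT.lf (nat_lit 0) (nat_lit 4907875721) (nat_lit 228) (nat_lit 9382425645) (nat_lit 76) (nat_lit 411724886) (nat_lit 66) (nat_lit 5) (nat_lit 69) (nat_lit 5) (nat_lit 67) (nat_lit 5) (nat_lit 499) (nat_lit 358) (nat_lit 283)) (XT.nd (nat_lit 78) (nat_lit 76) (nat_lit 0) (XT.lf (nat_lit 0) (nat_lit 1800667644) (nat_lit 228) (nat_lit 8600291183) (nat_lit 304) (nat_lit 4470115599) (nat_lit 63) (nat_lit 5) (nat_lit 66) (nat_lit 5) (nat_lit 67) (nat_lit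 5) (nat_lit 500) (nat_lit 358) (nat_lit 282)) (XT.lf (nat_lit 0) (nat_lit 972535587) (nat_lit 304) (nat_lit 1784539456) (nat_lit 76) (nat_lit 12285809182) (nat_lit 62) (nat_lit 5) (nat_lit 66) (nat_lit 5) (nat_lit 63) (nat_lit 5) (nat_lit 501) (nat_lit 358) (nat_lit 281)))) (XT.nd (nat_lit 78) (nat_lit 456) (nat_lit 0) (XT.lf (nat_lit 0) (nat_lit 6510908398) (nat_lit 228) (nat_lit 5481708258) (nat_lit 76) (nat_lit 3223988146) (nat_lit 60) (nat_lit 5) (nat_lit 63) (nat_lit 5) (nat_lit 61) (nat_lit 5) (nat_lit 502) (nat_lit 358) (nat_lit 280)) (XT.nd (nat_lit 78) (nat_lit 228) (nat_lit 0) (XT.lf (nat_lit 0) (nat_lit 6108154511) (nat_lit 228) (nat_lit 6084075373) (nat_lit 304) (nat_lit 3200926282) (nat_lit 57) (nat_lit 5) (nat_lit 60) (nat_lit 5) (nat_lit 61) (nat_lit 5) (nat_lit 503) (nat_lit 358) (nat_lit 279)) (XT.lf (nat_lit 0) (nat_lit 2377871714) (nat_lit 152) (nat_lit 19133348) (nat_lit 228) (nat_lit 13175625536) (nat_lit 54) (nat_lit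 5) (nat_lit 56) (nat_lit 5) (nat_lit 57) (nat_lit 5) (nat_lit 504) (nat_lit 358) (nat_lit 278))))))) (XT.nd (nat_lit 53352) (nat_lit 0) (nat_lit 21432) (XT.nd (nat_lit 52962) (nat_lit 0) (nat_lit 27588) (XT.nd (nat_lit 156) (nat_lit 456) (nat_lit 0) (XT.nd (nat_lit 78) (nat_lit 228) (nat_lit 0) (XT.lf (nat_lit 0) (nat_lit 8129186004) (nat_lit 228) (nat_lit 1485345511) (nat_lit 76) (nat_lit 6139436813) (nat_lit 54) (nat_lit 5) (nat_lit 57) (nat_lit 5) (nat_lit 55) (nat_lit 5) (nat_lit 505) (nat_lit 358) (nat_lit 277)) (XT.lf (nat_lit 0) (nat_lit 10528458554) (nat_lit 228) (nat_lit 3479125159) (nat_lit 304) (nat_lit 1930717637) (nat_lit 51) (nat_lit 5) (nat_lit 54) (nat_lit 5) (nat_lit 55) (nat_lit 5) (nat_lit 506) (nat_lit 358) (nat_lit 276))) (XT.nd (nat_lit 78) (nat_lit 228) (nat_lit 0) (XT.lf (nat_lit 0) (nat_lit 3861218965) (nat_lit 228) (nat_lit 9472844736) (nat_lit 76) (nat_lit 2791057038) (nat_lit 48) (nat_lit 5) (nat_lit 51) (nat_lit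 5) (nat_lit 49) (nat_lit 5) (nat_lit 507) (nat_lit 358) (nat_lit 275)) (XT.nd (nat_lit 52650) (nat_lit 0) (nat_lit 31236) (XT.lf (nat_lit 0) (nat_lit 2644754303) (nat_lit 228) (nat_lit 7138385938) (nat_lit 304) (nat_lit 6531481069) (nat_lit 45) (nat_lit 5) (nat_lit 48) (nat_lit 5) (nat_lit 49) (nat_lit 5) (nat_lit 508) (nat_lit 358) (nat_lit 274)) (XT.lf (nat_lit 0) (nat_lit 595781777) (nat_lit 912) (nat_lit 1521761644) (nat_lit 912) (nat_lit 1521761644) (nat_lit 456) (nat_lit 4) (nat_lit 468) (nat_lit 5) (nat_lit 468) (nat_lit 4) (nat_lit 422) (nat_lit 359) (nat_lit 359))))) (XT.nd (nat_lit 156) (nat_lit 2736) (nat_lit 0) (XT.nd (nat_lit 78) (nat_lit 836) (nat_lit 0) (XT.lf (nat_lit 0) (nat_lit 587967992) (nat_lit 988) (nat_lit 423006339) (nat_lit 76) (nat_lit 6308364143) (nat_lit 455) (nat_lit 5) (nat_lit 468) (nat_lit 5) (nat_lit 456) (nat_lit 4) (nat_lit 423) (nat_lit 359) (nat_lit 358)) (XT.lf (nat_lit 0) (nat_lit 4224491226) (nat_lit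 912) (nat_lit 2039308954) (nat_lit 0) (nat_lit 1097215752) (nat_lit 444) (nat_lit 5) (nat_lit 456) (nat_lit 4) (nat_lit 444) (nat_lit 4) (nat_lit 424) (nat_lit 359) (nat_lit 357))) (XT.nd (nat_lit 78) (nat_lit 1748) (nat_lit 0) (XT.lf (nat_lit 0) (nat_lit 489059462) (nat_lit 988) (nat_lit 3657175531) (nat_lit 76) (nat_lit 3257907188) (nat_lit 431) (nat_lit 5) (nat_lit 444) (nat_lit 5) (nat_lit 432) (nat_lit 4) (nat_lit 425) (nat_lit 359) (nat_lit 356)) (XT.nd (nat_lit 78) (nat_lit 912) (nat_lit 0) (XT.lf (nat_lit 0) (nat_lit 2160021458) (nat_lit 836) (nat_lit 1945491654) (nat_lit 912) (nat_lit 3342996078) (nat_lit 420) (nat_lit 5) (nat_lit 431) (nat_lit 5) (nat_lit 432) (nat_lit 4) (nat_lit 426) (nat_lit 359) (nat_lit 355)) (XT.lf (nat_lit 0) (nat_lit 260042451) (nat_lit 912) (nat_lit 6917829122) (nat_lit 76) (nat_lit 316583907) (nat_lit 408) (nat_lit 5) (nat_lit 420) (nat_lit 5) (nat_lit 409) (nat_lit 4) (nat_lit 427) (nat_lit 359) (nat_lit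 354)))))) (XT.nd (nat_lit 390) (nat_lit 2964) (nat_lit 0) (XT.nd (nat_lit 156) (nat_lit 2432) (nat_lit 0) (XT.nd (nat_lit 78) (nat_lit 760) (nat_lit 0) (XT.lf (nat_lit 0) (nat_lit 3872693480) (nat_lit 912) (nat_lit 1022486789) (nat_lit 76) (nat_lit 2646052193) (nat_lit 408) (nat_lit 5) (nat_lit 420) (nat_lit 5) (nat_lit 409) (nat_lit 4) (nat_lit 428) (nat_lit 359) (nat_lit 353)) (XT.lf (nat_lit 0) (nat_lit 4980248539) (nat_lit 760) (nat_lit 2544649746) (nat_lit 836) (nat_lit 64700684) (nat_lit 398) (nat_lit 5) (nat_lit 408) (nat_lit 5) (nat_lit 409) (nat_lit 4) (nat_lit 429) (nat_lit 359) (nat_lit 352))) (XT.nd (nat_lit 78) (nat_lit 1596) (nat_lit 0) (XT.lf (nat_lit 0) (nat_lit 3423317359) (nat_lit 760) (nat_lit 104994879) (nat_lit 836) (nat_lit 4110862449) (nat_lit 387) (nat_lit 5) (nat_lit 397) (nat_lit 5) (nat_lit 398) (nat_lit 5) (nat_lit 430) (nat_lit 359) (nat_lit 351)) (XT.nd (nat_lit 78) (nat_lit 836) (nat_lit 0) (XT.lf (nat_lit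 0) (nat_lit 1854022241) (nat_lit 760) (nat_lit 5319462611) (nat_lit 836) (nat_lit 516625198) (nat_lit 377) (nat_lit 5) (nat_lit 387) (nat_lit 5) (nat_lit 388) (nat_lit 4) (nat_lit 431) (nat_lit 359) (nat_lit 350)) (XT.lf (nat_lit 0) (nat_lit 265872601) (nat_lit 760) (nat_lit 2809583690) (nat_lit 836) (nat_lit 4666853543) (nat_lit 366) (nat_lit 5) (nat_lit 376) (nat_lit 5) (nat_lit 377) (nat_lit 5) (nat_lit 432) (nat_lit 359) (nat_lit 349))))) (XT.nd (nat_lit 234) (nat_lit 1520) (nat_lit 0) (XT.nd (nat_lit 78) (nat_lit 1444) (nat_lit 0) (XT.lf (nat_lit 0) (nat_lit 6488791991) (nat_lit 760) (nat_lit 219932754) (nat_lit 836) (nat_lit 1087235311) (nat_lit 366) (nat_lit 5) (nat_lit 376) (nat_lit 5) (nat_lit 377) (nat_lit 5) (nat_lit 433) (nat_lit 359) (nat_lit 348)) (XT.nd (nat_lit 78) (nat_lit 684) (nat_lit 0) (XT.lf (nat_lit 0) (nat_lit 2516432924) (nat_lit 760) (nat_lit 2909083759) (nat_lit 76) (nat_lit 2425111966) (nat_lit 356) (nat_lit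 5) (nat_lit 366) (nat_lit 5) (nat_lit 357) (nat_lit 5) (nat_lit 434) (nat_lit 359) (nat_lit 347)) (XT.lf (nat_lit 0) (nat_lit 3385748211) (nat_lit 684) (nat_lit 2762725371) (nat_lit 760) (nat_lit 1758356158) (nat_lit 347) (nat_lit 5) (nat_lit 356) (nat_lit 5) (nat_lit 357) (nat_lit 5) (nat_lit 435) (nat_lit 359) (nat_lit 346)))) (XT.nd (nat_lit 78) (nat_lit 760) (nat_lit 0) (XT.lf (nat_lit 0) (nat_lit 1816591444) (nat_lit 684) (nat_lit 17961843) (nat_lit 760) (nat_lit 6129949719) (nat_lit 337) (nat_lit 5) (nat_lit 346) (nat_lit 5) (nat_lit 347) (nat_lit 5) (nat_lit 436) (nat_lit 359) (nat_lit 345)) (XT.nd (nat_lit 78) (nat_lit 76) (nat_lit 0) (XT.lf (nat_lit 0) (nat_lit 214908758) (nat_lit 684) (nat_lit 5250365417) (nat_lit 760) (nat_lit 2558033155) (nat_lit 328) (nat_lit 5) (nat_lit 337) (nat_lit 5) (nat_lit 338) (nat_lit 5) (nat_lit 437) (nat_lit 359) (nat_lit 344)) (XT.lf (nat_lit 0) (nat_lit 1052505379) (nat_lit 760) (nat_lit 1379452281)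 (nat_lit 76) (nat_lit 5651560791) (nat_lit 327) (nat_lit 5) (nat_lit 337) (nat_lit 5) (nat_lit 328) (nat_lit 5) (nat_lit 438) (nat_lit 359) (nat_lit 343))))))))
noncomputable def xc48 : XT := (XT.nd (nat_lit 1560) (nat_lit 6384) (nat_lit 0) (XT.nd (nat_lit 780) (nat_lit 4180) (nat_lit 0) (XT.nd (nat_lit 390) (nat_lit 2356) (nat_lit 0) (XT.nd (nat_lit 156) (nat_lit 1292) (nat_lit 0) (XT.nd (nat_lit 78) (nat_lit 684) (nat_lit 0) (XT.lf (nat_lit 0) (nat_lit 4678534594) (nat_lit 684) (nat_lit 2995842940) (nat_lit 76) (nat_lit 470667448) (nat_lit 319) (nat_lit 5) (nat_lit 328) (nat_lit 5) (nat_lit 320) (nat_lit 5) (nat_lit 439) (nat_lit 359) (nat_lit 342)) (XT.lf (nat_lit 0) (nat_lit 157123889) (nat_lit 684) (nat_lit 4635722216) (nat_lit 76) (nat_lit 3415132724) (nat_lit 310) (nat_lit 5) (nat_lit 319) (nat_lit 5) (nat_lit 311) (nat_lit 5) (nat_lit 440) (nat_lit 359) (nat_lit 341))) (XT.nd (nat_lit 78) (nat_lit 684) (nat_lit 0) (XT.lf (nat_lit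 0) (nat_lit 1966087810) (nat_lit 608) (nat_lit 1815542704) (nat_lit 684) (nat_lit 4490586241) (nat_lit 302) (nat_lit 5) (nat_lit 310) (nat_lit 5) (nat_lit 311) (nat_lit 5) (nat_lit 441) (nat_lit 359) (nat_lit 340)) (XT.nd (nat_lit 78) (nat_lit 76) (nat_lit 0) (XT.lf (nat_lit 0) (nat_lit 344349714) (nat_lit 608) (nat_lit 7118048063) (nat_lit 684) (nat_lit 875666252) (nat_lit 294) (nat_lit 5) (nat_lit 302) (nat_lit 5) (nat_lit 303) (nat_lit 5) (nat_lit 442) (nat_lit 359) (nat_lit 339)) (XT.lf (nat_lit 0) (nat_lit 2771842826) (nat_lit 684) (nat_lit 1299559500) (nat_lit 76) (nat_lit 4333517540) (nat_lit 293) (nat_lit 5) (nat_lit 302) (nat_lit 5) (nat_lit 294) (nat_lit 5) (nat_lit 443) (nat_lit 359) (nat_lit 338))))) (XT.nd (nat_lit 156) (nat_lit 1140) (nat_lit 0) (XT.nd (nat_lit 78) (nat_lit 684) (nat_lit 0) (XT.lf (nat_lit 0) (nat_lit 5518646939) (nat_lit 532) (nat_lit 941441799) (nat_lit 608) (nat_lit 2013318082) (nat_lit 286) (nat_lit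 5) (nat_lit 293) (nat_lit 5) (nat_lit 294) (nat_lit 5) (nat_lit 444) (nat_lit 359) (nat_lit 337)) (XT.lf (nat_lit 0) (nat_lit 1649685456) (nat_lit 684) (nat_lit 4646832026) (nat_lit 76) (nat_lit 2246670676) (nat_lit 277) (nat_lit 5) (nat_lit 286) (nat_lit 5) (nat_lit 278) (nat_lit 5) (nat_lit 445) (nat_lit 359) (nat_lit 336))) (XT.nd (nat_lit 78) (nat_lit 608) (nat_lit 0) (XT.lf (nat_lit 0) (nat_lit 2243174601) (nat_lit 532) (nat_lit 3100983504) (nat_lit 608) (nat_lit 3270237510) (nat_lit 270) (nat_lit 5) (nat_lit 277) (nat_lit 5) (nat_lit 278) (nat_lit 5) (nat_lit 446) (nat_lit 359) (nat_lit 335)) (XT.nd (nat_lit 78) (nat_lit 0) (nat_lit 0) (XT.lf (nat_lit 0) (nat_lit 400783388) (nat_lit 608) (nat_lit 8113731184) (nat_lit 76) (nat_lit 172839980) (nat_lit 262) (nat_lit 5) (nat_lit 270) (nat_lit 5) (nat_lit 263) (nat_lit 5) (nat_lit 447) (nat_lit 359) (nat_lit 334)) (XT.lf (nat_lit 0) (nat_lit 4110107484) (nat_lit 608) (nat_lit 1137462910)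 (nat_lit 76) (nat_lit 3513596524) (nat_lit 262) (nat_lit 5) (nat_lit 270) (nat_lit 5) (nat_lit 263) (nat_lit 5) (nat_lit 448) (nat_lit 359) (nat_lit 333)))))) (XT.nd (nat_lit 390) (nat_lit 1976) (nat_lit 0) (XT.nd (nat_lit 156) (nat_lit 1064) (nat_lit 0) (XT.nd (nat_lit 78) (nat_lit 608) (nat_lit 0) (XT.lf (nat_lit 0) (nat_lit 5980494535) (nat_lit 532) (nat_lit 1898086811) (nat_lit 608) (nat_lit 958174920) (nat_lit 255) (nat_lit 5) (nat_lit 262) (nat_lit 5) (nat_lit 263) (nat_lit 5) (nat_lit 449) (nat_lit 359) (nat_lit 332)) (XT.lf (nat_lit 0) (nat_lit 2763773792) (nat_lit 608) (nat_lit 4619712984) (nat_lit 76) (nat_lit 1530165095) (nat_lit 247) (nat_lit 5) (nat_lit 255) (nat_lit 5) (nat_lit 248) (nat_lit 5) (nat_lit 450) (nat_lit 359) (nat_lit 331))) (XT.nd (nat_lit 78) (nat_lit 608) (nat_lit 0) (XT.lf (nat_lit 0) (nat_lit 2571955044) (nat_lit 456) (nat_lit 3970706744) (nat_lit 532) (nat_lit 2449390324) (nat_lit 241) (nat_lit 5) (nat_lit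 247) (nat_lit 5) (nat_lit 248) (nat_lit 5) (nat_lit 451) (nat_lit 359) (nat_lit 330)) (XT.nd (nat_lit 78) (nat_lit 0) (nat_lit 0) (XT.lf (nat_lit 0) (nat_lit 823578153) (nat_lit 532) (nat_lit 467657685) (nat_lit 608) (nat_lit 7780942298) (nat_lit 233) (nat_lit 5) (nat_lit 240) (nat_lit 5) (nat_lit 241) (nat_lit 5) (nat_lit 452) (nat_lit 359) (nat_lit 329)) (XT.lf (nat_lit 0) (nat_lit 5084779008) (nat_lit 608) (nat_lit 968039618) (nat_lit 76) (nat_lit 3100546208) (nat_lit 233) (nat_lit 5) (nat_lit 241) (nat_lit 5) (nat_lit 234) (nat_lit 5) (nat_lit 453) (nat_lit 359) (nat_lit 328))))) (XT.nd (nat_lit 156) (nat_lit 988) (nat_lit 0) (XT.nd (nat_lit 78) (nat_lit 532) (nat_lit 0) (XT.lf (nat_lit 0) (nat_lit 6463850156) (nat_lit 456) (nat_lit 2483781050) (nat_lit 532) (nat_lit 288675296) (nat_lit 227) (nat_lit 5) (nat_lit 233) (nat_lit 5) (nat_lit 234) (nat_lit 5) (nat_lit 454) (nat_lit 359) (nat_lit 327)) (XT.lf (nat_lit 0) (nat_lit 3513407330)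 (nat_lit 532) (nat_lit 4629473207) (nat_lit 76) (nat_lit 1177696231) (nat_lit 220) (nat_lit 5) (nat_lit 227) (nat_lit 5) (nat_lit 221) (nat_lit 5) (nat_lit 455) (nat_lit 359) (nat_lit 326))) (XT.nd (nat_lit 78) (nat_lit 532) (nat_lit 0) (XT.lf (nat_lit 0) (nat_lit 2878118615) (nat_lit 456) (nat_lit 4512329114) (nat_lit 532) (nat_lit 2015990917) (nat_lit 214) (nat_lit 5) (nat_lit 220) (nat_lit 5) (nat_lit 221) (nat_lit 5) (nat_lit 456) (nat_lit 359) (nat_lit 325)) (XT.nd (nat_lit 78) (nat_lit 0) (nat_lit 0) (XT.lf (nat_lit 0) (nat_lit 1029828640) (nat_lit 456) (nat_lit 783952246) (nat_lit 532) (nat_lit 7680255596) (nat_lit 207) (nat_lit 5) (nat_lit 213) (nat_lit 5) (nat_lit 214) (nat_lit 5) (nat_lit 457) (nat_lit 359) (nat_lit 324)) (XT.lf (nat_lit 0) (nat_lit 5706303397) (nat_lit 532) (nat_lit 865129142) (nat_lit 76) (nat_lit 3011424234) (nat_lit 207) (nat_lit 5) (nat_lit 214) (nat_lit 5) (nat_lit 208) (nat_lit 5) (nat_lit 458) (nat_lit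 359) (nat_lit 323))))))) (XT.nd (nat_lit 780) (nat_lit 3040) (nat_lit 0) (XT.nd (nat_lit 390) (nat_lit 1596) (nat_lit 0) (XT.nd (nat_lit 156) (nat_lit 836) (nat_lit 0) (XT.nd (nat_lit 78) (nat_lit 456) (nat_lit 0) (XT.lf (nat_lit 0) (nat_lit 3562129) (nat_lit 456) (nat_lit 2777791941) (nat_lit 76) (nat_lit 6892091349) (nat_lit 201) (nat_lit 5) (nat_lit 207) (nat_lit 5) (nat_lit 202) (nat_lit 5) (nat_lit 459) (nat_lit 359) (nat_lit 322)) (XT.lf (nat_lit 0) (nat_lit 3905744264) (nat_lit 532) (nat_lit 4750703383) (nat_lit 76) (nat_lit 1108958285) (nat_lit 195) (nat_lit 5) (nat_lit 202) (nat_lit 5) (nat_lit 196) (nat_lit 5) (nat_lit 460) (nat_lit 359) (nat_lit 321))) (XT.nd (nat_lit 78) (nat_lit 456) (nat_lit 0) (XT.lf (nat_lit 0) (nat_lit 3087851473) (nat_lit 380) (nat_lit 4806237320) (nat_lit 456) (nat_lit 1964954487) (nat_lit 190) (nat_lit 5) (nat_lit 195) (nat_lit 5) (nat_lit 196) (nat_lit 5) (nat_lit 461) (nat_lit 359) (nat_lit 320))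 (XT.nd (nat_lit 78) (nat_lit 0) (nat_lit 0) (XT.lf (nat_lit 0) (nat_lit 1118966124) (nat_lit 380) (nat_lit 852743767) (nat_lit 456) (nat_lit 7982774909) (nat_lit 184) (nat_lit 5) (nat_lit 189) (nat_lit 5) (nat_lit 190) (nat_lit 5) (nat_lit 462) (nat_lit 359) (nat_lit 319)) (XT.lf (nat_lit 0) (nat_lit 5978536806) (nat_lit 456) (nat_lit 902588072) (nat_lit 76) (nat_lit 3170095708) (nat_lit 184) (nat_lit 5) (nat_lit 190) (nat_lit 5) (nat_lit 185) (nat_lit 5) (nat_lit 463) (nat_lit 359) (nat_lit 318))))) (XT.nd (nat_lit 156) (nat_lit 760) (nat_lit 0) (XT.nd (nat_lit 78) (nat_lit 456) (nat_lit 0) (XT.lf (nat_lit 0) (nat_lit 7202904726) (nat_lit 380) (nat_lit 2867293894) (nat_lit 456) (nat_lit 79598500) (nat_lit 179) (nat_lit 5) (nat_lit 184) (nat_lit 5) (nat_lit 185) (nat_lit 5) (nat_lit 464) (nat_lit 359) (nat_lit 317)) (XT.lf (nat_lit 0) (nat_lit 3941478714) (nat_lit 456) (nat_lit 5058513980) (nat_lit 76) (nat_lit 1249823865) (nat_lit 173)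 (nat_lit 5) (nat_lit 179) (nat_lit 5) (nat_lit 174) (nat_lit 5) (nat_lit 465) (nat_lit 359) (nat_lit 316))) (XT.nd (nat_lit 78) (nat_lit 456) (nat_lit 0) (XT.lf (nat_lit 0) (nat_lit 3126801729) (nat_lit 304) (nat_lit 4927002069) (nat_lit 380) (nat_lit 2297784224) (nat_lit 169) (nat_lit 5) (nat_lit 173) (nat_lit 5) (nat_lit 174) (nat_lit 5) (nat_lit 466) (nat_lit 359) (nat_lit 315)) (XT.nd (nat_lit 78) (nat_lit 0) (nat_lit 0) (XT.lf (nat_lit 0) (nat_lit 1015674112) (nat_lit 380) (nat_lit 747381984) (nat_lit 456) (nat_lit 8692234178) (nat_lit 163) (nat_lit 5) (nat_lit 168) (nat_lit 5) (nat_lit 169) (nat_lit 5) (nat_lit 467) (nat_lit 359) (nat_lit 314)) (XT.lf (nat_lit 0) (nat_lit 5899086326) (nat_lit 456) (nat_lit 1155297470) (nat_lit 76) (nat_lit 3505884197) (nat_lit 163) (nat_lit 5) (nat_lit 169) (nat_lit 5) (nat_lit 164) (nat_lit 5) (nat_lit 468) (nat_lit 359) (nat_lit 313)))))) (XT.nd (nat_lit 390) (nat_lit 1596) (nat_lit 0) (XT.nd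 (nat_lit 156) (nat_lit 684) (nat_lit 0) (XT.nd (nat_lit 78) (nat_lit 456) (nat_lit 0) (XT.lf (nat_lit 0) (nat_lit 7311420347) (nat_lit 304) (nat_lit 2812838303) (nat_lit 380) (nat_lit 542958188) (nat_lit 159) (nat_lit 5) (nat_lit 163) (nat_lit 5) (nat_lit 164) (nat_lit 5) (nat_lit 469) (nat_lit 359) (nat_lit 312)) (XT.lf (nat_lit 0) (nat_lit 3615137850) (nat_lit 456) (nat_lit 5629531813) (nat_lit 76) (nat_lit 1531050469) (nat_lit 153) (nat_lit 5) (nat_lit 159) (nat_lit 5) (nat_lit 154) (nat_lit 5) (nat_lit 470) (nat_lit 359) (nat_lit 311))) (XT.nd (nat_lit 78) (nat_lit 380) (nat_lit 0) (XT.lf (nat_lit 0) (nat_lit 2919084564) (nat_lit 304) (nat_lit 4944655108) (nat_lit 380) (nat_lit 3022289760) (nat_lit 149) (nat_lit 5) (nat_lit 153) (nat_lit 5) (nat_lit 154) (nat_lit 5) (nat_lit 471) (nat_lit 359) (nat_lit 310)) (XT.nd (nat_lit 78) (nat_lit 0) (nat_lit 0) (XT.lf (nat_lit 0) (nat_lit 642892379) (nat_lit 304) (nat_lit 536828177) (nat_lit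 380) (nat_lit 9818735219) (nat_lit 144) (nat_lit 5) (nat_lit 148) (nat_lit 5) (nat_lit 149) (nat_lit 5) (nat_lit 472) (nat_lit 359) (nat_lit 309)) (XT.lf (nat_lit 0) (nat_lit 5459556987) (nat_lit 380) (nat_lit 1700137241) (nat_lit 76) (nat_lit 3952351781) (nat_lit 144) (nat_lit 5) (nat_lit 149) (nat_lit 5) (nat_lit 145) (nat_lit 5) (nat_lit 473) (nat_lit 359) (nat_lit 308))))) (XT.nd (nat_lit 234) (nat_lit 608) (nat_lit 0) (XT.nd (nat_lit 78) (nat_lit 684) (nat_lit 0) (XT.lf (nat_lit 0) (nat_lit 7145099022) (nat_lit 304) (nat_lit 2685419968) (nat_lit 380) (nat_lit 1397278482) (nat_lit 140) (nat_lit 5) (nat_lit 144) (nat_lit 5) (nat_lit 145) (nat_lit 5) (nat_lit 474) (nat_lit 359) (nat_lit 307)) (XT.nd (nat_lit 78) (nat_lit 304) (nat_lit 0) (XT.lf (nat_lit 0) (nat_lit 2915288522) (nat_lit 380) (nat_lit 6542869730) (nat_lit 76) (nat_lit 1887106534) (nat_lit 135) (nat_lit 5) (nat_lit 140) (nat_lit 5) (nat_lit 136) (nat_lit 5) (nat_lit 475)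 (nat_lit 359) (nat_lit 306)) (XT.lf (nat_lit 0) (nat_lit 2386313482) (nat_lit 304) (nat_lit 4925851274) (nat_lit 380) (nat_lit 4152396622) (nat_lit 131) (nat_lit 5) (nat_lit 135) (nat_lit 5) (nat_lit 136) (nat_lit 5) (nat_lit 476) (nat_lit 359) (nat_lit 305)))) (XT.nd (nat_lit 78) (nat_lit 532) (nat_lit 0) (XT.lf (nat_lit 0) (nat_lit 208160901) (nat_lit 380) (nat_lit 78116891) (nat_lit 76) (nat_lit 11299934943) (nat_lit 130) (nat_lit 5) (nat_lit 135) (nat_lit 5) (nat_lit 131) (nat_lit 5) (nat_lit 477) (nat_lit 359) (nat_lit 304)) (XT.nd (nat_lit 78) (nat_lit 228) (nat_lit 0) (XT.lf (nat_lit 0) (nat_lit 4645712671) (nat_lit 380) (nat_lit 2616940630) (nat_lit 76) (nat_lit 4446187198) (nat_lit 126) (nat_lit 5) (nat_lit 131) (nat_lit 5) (nat_lit 127) (nat_lit 5) (nat_lit 478) (nat_lit 359) (nat_lit 303)) (XT.lf (nat_lit 0) (nat_lit 6624848270) (nat_lit 228) (nat_lit 2549649269) (nat_lit 304) (nat_lit 2659373638) (nat_lit 123) (nat_lit 5)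 (nat_lit 126) (nat_lit 5) (nat_lit 127) (nat_lit 5) (nat_lit 479) (nat_lit 359) (nat_lit 302))))))))
noncomputable def xc49 : XT := (XT.nd (nat_lit 1560) (nat_lit 1520) (nat_lit 0) (XT.nd (nat_lit 780) (nat_lit 1824) (nat_lit 0) (XT.nd (nat_lit 390) (nat_lit 1140) (nat_lit 0) (XT.nd (nat_lit 156) (nat_lit 608) (nat_lit 0) (XT.nd (nat_lit 78) (nat_lit 228) (nat_lit 0) (XT.lf (nat_lit 0) (nat_lit 1824660467) (nat_lit 380) (nat_lit 7881082163) (nat_lit 76) (nat_lit 2255097131) (nat_lit 118) (nat_lit 5) (nat_lit 123) (nat_lit 5) (nat_lit 119) (nat_lit 5) (nat_lit 480) (nat_lit 359) (nat_lit 301)) (XT.lf (nat_lit 0) (nat_lit 1446644963) (nat_lit 228) (nat_lit 4934935122) (nat_lit 304) (nat_lit 5708039786) (nat_lit 115) (nat_lit 5) (nat_lit 118) (nat_lit 5) (nat_lit 119) (nat_lit 5) (nat_lit 481) (nat_lit 359) (nat_lit 300))) (XT.nd (nat_lit 78) (nat_lit 608) (nat_lit 0) (XT.lf (nat_lit 0) (nat_lit 10995361722) (nat_lit 228) (nat_lit 44845593)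 (nat_lit 304) (nat_lit 1180556884) (nat_lit 115) (nat_lit 5) (nat_lit 118) (nat_lit 5) (nat_lit 119) (nat_lit 5) (nat_lit 482) (nat_lit 359) (nat_lit 299)) (XT.nd (nat_lit 78) (nat_lit 228) (nat_lit 0) (XT.lf (nat_lit 0) (nat_lit 3437557252) (nat_lit 380) (nat_lit 3989441030) (nat_lit 76) (nat_lit 4926183470) (nat_lit 110) (nat_lit 5) (nat_lit 115) (nat_lit 5) (nat_lit 111) (nat_lit 5) (nat_lit 483) (nat_lit 359) (nat_lit 298)) (XT.lf (nat_lit 0) (nat_lit 5667661449) (nat_lit 228) (nat_lit 2468355060) (nat_lit 304) (nat_lit 4351999268) (nat_lit 107) (nat_lit 5) (nat_lit 110) (nat_lit 5) (nat_lit 111) (nat_lit 5) (nat_lit 484) (nat_lit 359) (nat_lit 297))))) (XT.nd (nat_lit 156) (nat_lit 532) (nat_lit 0) (XT.nd (nat_lit 78) (nat_lit 228) (nat_lit 0) (XT.lf (nat_lit 0) (nat_lit 320191831) (nat_lit 380) (nat_lit 9731118442) (nat_lit 76) (nat_lit 2573771558) (nat_lit 102) (nat_lit 5) (nat_lit 107) (nat_lit 5) (nat_lit 103) (nat_lit 5) (nat_lit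 485) (nat_lit 359) (nat_lit 296)) (XT.lf (nat_lit 0) (nat_lit 13824635) (nat_lit 228) (nat_lit 5034929521) (nat_lit 304) (nat_lit 7715135704) (nat_lit 99) (nat_lit 5) (nat_lit 102) (nat_lit 5) (nat_lit 103) (nat_lit 5) (nat_lit 486) (nat_lit 359) (nat_lit 295))) (XT.nd (nat_lit 78) (nat_lit 532) (nat_lit 0) (XT.lf (nat_lit 0) (nat_lit 9896939927) (nat_lit 304) (nat_lit 2891637390) (nat_lit 76) (nat_lit 116395687) (nat_lit 99) (nat_lit 5) (nat_lit 103) (nat_lit 5) (nat_lit 100) (nat_lit 5) (nat_lit 487) (nat_lit 359) (nat_lit 294)) (XT.nd (nat_lit 78) (nat_lit 228) (nat_lit 0) (XT.lf (nat_lit 0) (nat_lit 1809341013) (nat_lit 304) (nat_lit 5906222589) (nat_lit 76) (nat_lit 5332288400) (nat_lit 95) (nat_lit 5) (nat_lit 99) (nat_lit 5) (nat_lit 96) (nat_lit 5) (nat_lit 488) (nat_lit 359) (nat_lit 293)) (XT.lf (nat_lit 0) (nat_lit 4185666343) (nat_lit 228) (nat_lit 2503532392) (nat_lit 304) (nat_lit 6503863909) (nat_lit 92) (nat_lit 5) (nat_lit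 95) (nat_lit 5) (nat_lit 96) (nat_lit 5) (nat_lit 489) (nat_lit 359) (nat_lit 292)))))) (XT.nd (nat_lit 390) (nat_lit 760) (nat_lit 0) (XT.nd (nat_lit 156) (nat_lit 760) (nat_lit 0) (XT.nd (nat_lit 78) (nat_lit 76) (nat_lit 0) (XT.lf (nat_lit 0) (nat_lit 1144680518) (nat_lit 228) (nat_lit 10547368676) (nat_lit 304) (nat_lit 1648620394) (nat_lit 89) (nat_lit 5) (nat_lit 92) (nat_lit 5) (nat_lit 93) (nat_lit 5) (nat_lit 490) (nat_lit 359) (nat_lit 291)) (XT.lf (nat_lit 0) (nat_lit 3297695389) (nat_lit 304) (nat_lit 1977496401) (nat_lit 76) (nat_lit 8214861953) (nat_lit 88) (nat_lit 5) (nat_lit 92) (nat_lit 5) (nat_lit 89) (nat_lit 5) (nat_lit 491) (nat_lit 359) (nat_lit 290))) (XT.nd (nat_lit 78) (nat_lit 532) (nat_lit 0) (XT.lf (nat_lit 0) (nat_lit 8337479808) (nat_lit 304) (nat_lit 5166737978) (nat_lit 76) (nat_lit 137657500) (nat_lit 85) (nat_lit 5) (nat_lit 89) (nat_lit 5) (nat_lit 86) (nat_lit 5) (nat_lit 492) (nat_lit 359) (nat_lit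 289)) (XT.nd (nat_lit 78) (nat_lit 304) (nat_lit 0) (XT.lf (nat_lit 0) (nat_lit 5332394080) (nat_lit 228) (nat_lit 8189366616) (nat_lit 304) (nat_lit 274098549) (nat_lit 82) (nat_lit 5) (nat_lit 85) (nat_lit 5) (nat_lit 86) (nat_lit 5) (nat_lit 493) (nat_lit 359) (nat_lit 288)) (XT.lf (nat_lit 0) (nat_lit 2085158331) (nat_lit 228) (nat_lit 2717235760) (nat_lit 304) (nat_lit 9149712368) (nat_lit 78) (nat_lit 5) (nat_lit 81) (nat_lit 5) (nat_lit 82) (nat_lit 5) (nat_lit 494) (nat_lit 359) (nat_lit 287))))) (XT.nd (nat_lit 156) (nat_lit 456) (nat_lit 0) (XT.nd (nat_lit 78) (nat_lit 304) (nat_lit 0) (XT.lf (nat_lit 0) (nat_lit 10013485863) (nat_lit 304) (nat_lit 1241514122) (nat_lit 76) (nat_lit 2855707606) (nat_lit 78) (nat_lit 5) (nat_lit 82) (nat_lit 5) (nat_lit 79) (nat_lit 5) (nat_lit 495) (nat_lit 359) (nat_lit 286)) (XT.lf (nat_lit 0) (nat_lit 1085039094) (nat_lit 304) (nat_lit 4642449364) (nat_lit 76) (nat_lit 8544003638) (nat_lit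 74) (nat_lit 5) (nat_lit 78) (nat_lit 5) (nat_lit 75) (nat_lit 5) (nat_lit 496) (nat_lit 359) (nat_lit 285))) (XT.nd (nat_lit 78) (nat_lit 304) (nat_lit 0) (XT.lf (nat_lit 0) (nat_lit 6285207642) (nat_lit 152) (nat_lit 41912019) (nat_lit 228) (nat_lit 8107610252) (nat_lit 72) (nat_lit 5) (nat_lit 74) (nat_lit 5) (nat_lit 75) (nat_lit 5) (nat_lit 497) (nat_lit 359) (nat_lit 284)) (XT.nd (nat_lit 78) (nat_lit 76) (nat_lit 0) (XT.lf (nat_lit 0) (nat_lit 2824535252) (nat_lit 228) (nat_lit 8898487565) (nat_lit 304) (nat_lit 2877230049) (nat_lit 69) (nat_lit 5) (nat_lit 72) (nat_lit 5) (nat_lit 73) (nat_lit 5) (nat_lit 498) (nat_lit 359) (nat_lit 283)) (XT.lf (nat_lit 0) (nat_lit 2442806941) (nat_lit 304) (nat_lit 724760694) (nat_lit 76) (nat_lit 11600853831) (nat_lit 68) (nat_lit 5) (nat_lit 72) (nat_lit 5) (nat_lit 69) (nat_lit 5) (nat_lit 499) (nat_lit 359) (nat_lit 282))))))) (XT.nd (nat_lit 53196) (nat_lit 0) (nat_lit 24928) (XT.nd (nat_lit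 390) (nat_lit 684) (nat_lit 0) (XT.nd (nat_lit 156) (nat_lit 456) (nat_lit 0) (XT.nd (nat_lit 78) (nat_lit 228) (nat_lit 0) (XT.lf (nat_lit 0) (nat_lit 7880051253) (nat_lit 228) (nat_lit 4356903036) (nat_lit 76) (nat_lit 2701632127) (nat_lit 66) (nat_lit 5) (nat_lit 69) (nat_lit 5) (nat_lit 67) (nat_lit 5) (nat_lit 500) (nat_lit 359) (nat_lit 281)) (XT.lf (nat_lit 0) (nat_lit 7015554940) (nat_lit 228) (nat_lit 6444712471) (nat_lit 304) (nat_lit 1651202715) (nat_lit 63) (nat_lit 5) (nat_lit 66) (nat_lit 5) (nat_lit 67) (nat_lit 5) (nat_lit 501) (nat_lit 359) (nat_lit 280))) (XT.nd (nat_lit 78) (nat_lit 228) (nat_lit 0) (XT.lf (nat_lit 0) (nat_lit 3338274392) (nat_lit 152) (nat_lit 489280432) (nat_lit 228) (nat_lit 11459475715) (nat_lit 60) (nat_lit 5) (nat_lit 62) (nat_lit 5) (nat_lit 63) (nat_lit 5) (nat_lit 502) (nat_lit 359) (nat_lit 279)) (XT.nd (nat_lit 78) (nat_lit 228) (nat_lit 0) (XT.lf (nat_lit 0) (nat_lit 9447700167) (nat_lit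 228) (nat_lit 469299221) (nat_lit 76) (nat_lit 5547806038) (nat_lit 60) (nat_lit 5) (nat_lit 63) (nat_lit 5) (nat_lit 61) (nat_lit 5) (nat_lit 503) (nat_lit 359) (nat_lit 278)) (XT.lf (nat_lit 0) (nat_lit 11318663150) (nat_lit 228) (nat_lit 3901990991) (nat_lit 304) (nat_lit 424673554) (nat_lit 57) (nat_lit 5) (nat_lit 60) (nat_lit 5) (nat_lit 61) (nat_lit 5) (nat_lit 504) (nat_lit 359) (nat_lit 277))))) (XT.nd (nat_lit 156) (nat_lit 228) (nat_lit 0) (XT.nd (nat_lit 78) (nat_lit 228) (nat_lit 0) (XT.lf (nat_lit 0) (nat_lit 5240940642) (nat_lit 228) (nat_lit 8326032736) (nat_lit 76) (nat_lit 2261189922) (nat_lit 54) (nat_lit 5) (nat_lit 57) (nat_lit 5) (nat_lit 55) (nat_lit 5) (nat_lit 505) (nat_lit 359) (nat_lit 276)) (XT.lf (nat_lit 0) (nat_lit 3563541531) (nat_lit 228) (nat_lit 7492661332) (nat_lit 304) (nat_lit 4957556169) (nat_lit 51) (nat_lit 5) (nat_lit 54) (nat_lit 5) (nat_lit 55) (nat_lit 5) (nat_lit 506) (nat_lit 359) (nat_lit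 275))) (XT.nd (nat_lit 78) (nat_lit 152) (nat_lit 0) (XT.lf (nat_lit 0) (nat_lit 794509979) (nat_lit 304) (nat_lit 470113541) (nat_lit 76) (nat_lit 14937939306) (nat_lit 50) (nat_lit 5) (nat_lit 54) (nat_lit 5) (nat_lit 51) (nat_lit 5) (nat_lit 507) (nat_lit 359) (nat_lit 274)) (XT.nd (nat_lit 52494) (nat_lit 0) (nat_lit 32908) (XT.lf (nat_lit 0) (nat_lit 6670084119) (nat_lit 228) (nat_lit 4620788676) (nat_lit 76) (nat_lit 5102117544) (nat_lit 48) (nat_lit 5) (nat_lit 51) (nat_lit 5) (nat_lit 49) (nat_lit 5) (nat_lit 508) (nat_lit 359) (nat_lit 273)) (XT.lf (nat_lit 0) (nat_lit 2238040329) (nat_lit 1140) (nat_lit 681168010) (nat_lit 1140) (nat_lit 681168010) (nat_lit 481) (nat_lit 4) (nat_lit 496) (nat_lit 5) (nat_lit 496) (nat_lit 4) (nat_lit 420) (nat_lit 360) (nat_lit 360)))))) (XT.nd (nat_lit 390) (nat_lit 4180) (nat_lit 0) (XT.nd (nat_lit 156) (nat_lit 1900) (nat_lit 0) (XT.nd (nat_lit 78) (nat_lit 912) (nat_lit 0) (XT.lf (nat_lit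 0) (nat_lit 2230883711) (nat_lit 988) (nat_lit 4420536174) (nat_lit 0) (nat_lit 587967992) (nat_lit 468) (nat_lit 5) (nat_lit 481) (nat_lit 4) (nat_lit 468) (nat_lit 4) (nat_lit 421) (nat_lit 360) (nat_lit 359)) (XT.lf (nat_lit 0) (nat_lit 1154163010) (nat_lit 912) (nat_lit 4689376889) (nat_lit 912) (nat_lit 1435759485) (nat_lit 456) (nat_lit 4) (nat_lit 468) (nat_lit 5) (nat_lit 468) (nat_lit 4) (nat_lit 422) (nat_lit 360) (nat_lit 358))) (XT.nd (nat_lit 78) (nat_lit 1824) (nat_lit 0) (XT.lf (nat_lit 0) (nat_lit 2140635004) (nat_lit 988) (nat_lit 508653992) (nat_lit 76) (nat_lit 4671210171) (nat_lit 455) (nat_lit 5) (nat_lit 468) (nat_lit 5) (nat_lit 456) (nat_lit 4) (nat_lit 423) (nat_lit 360) (nat_lit 357)) (XT.nd (nat_lit 78) (nat_lit 988) (nat_lit 0) (XT.lf (nat_lit 0) (nat_lit 5205409029) (nat_lit 836) (nat_lit 530383994) (nat_lit 912) (nat_lit 1627210908) (nat_lit 444) (nat_lit 5) (nat_lit 455) (nat_lit 5) (nat_lit 456) (nat_lit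 4) (nat_lit 424) (nat_lit 360) (nat_lit 356)) (XT.lf (nat_lit 0) (nat_lit 1940943883) (nat_lit 988) (nat_lit 3823110070) (nat_lit 76) (nat_lit 1642632926) (nat_lit 431) (nat_lit 5) (nat_lit 444) (nat_lit 5) (nat_lit 432) (nat_lit 4) (nat_lit 425) (nat_lit 360) (nat_lit 355))))) (XT.nd (nat_lit 234) (nat_lit 2432) (nat_lit 0) (XT.nd (nat_lit 78) (nat_lit 912) (nat_lit 0) (XT.lf (nat_lit 0) (nat_lit 1954407547) (nat_lit 836) (nat_lit 3568902553) (nat_lit 912) (nat_lit 1928425537) (nat_lit 420) (nat_lit 5) (nat_lit 431) (nat_lit 5) (nat_lit 432) (nat_lit 4) (nat_lit 426) (nat_lit 360) (nat_lit 354)) (XT.nd (nat_lit 78) (nat_lit 0) (nat_lit 0) (XT.lf (nat_lit 0) (nat_lit 320162536) (nat_lit 836) (nat_lit 1299573379) (nat_lit 912) (nat_lit 5878488818) (nat_lit 408) (nat_lit 5) (nat_lit 419) (nat_lit 5) (nat_lit 420) (nat_lit 5) (nat_lit 427) (nat_lit 360) (nat_lit 353)) (XT.lf (nat_lit 0) (nat_lit 5191754045) (nat_lit 912) (nat_lit 1311822126)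 (nat_lit 76) (nat_lit 1042238203) (nat_lit 408) (nat_lit 5) (nat_lit 420) (nat_lit 5) (nat_lit 409) (nat_lit 4) (nat_lit 428) (nat_lit 360) (nat_lit 352)))) (XT.nd (nat_lit 78) (nat_lit 1596) (nat_lit 0) (XT.lf (nat_lit 0) (nat_lit 1199454080) (nat_lit 836) (nat_lit 2952971111) (nat_lit 76) (nat_lit 3442272059) (nat_lit 397) (nat_lit 5) (nat_lit 408) (nat_lit 5) (nat_lit 398) (nat_lit 5) (nat_lit 429) (nat_lit 360) (nat_lit 351)) (XT.nd (nat_lit 78) (nat_lit 836) (nat_lit 0) (XT.lf (nat_lit 0) (nat_lit 3037234162) (nat_lit 760) (nat_lit 1720488654) (nat_lit 836) (nat_lit 2887219663) (nat_lit 387) (nat_lit 5) (nat_lit 397) (nat_lit 5) (nat_lit 398) (nat_lit 5) (nat_lit 430) (nat_lit 360) (nat_lit 350)) (XT.lf (nat_lit 0) (nat_lit 653159138) (nat_lit 836) (nat_lit 6271283412) (nat_lit 76) (nat_lit 772235200) (nat_lit 376) (nat_lit 5) (nat_lit 387) (nat_lit 5) (nat_lit 377) (nat_lit 5) (nat_lit 431) (nat_lit 360) (nat_lit 349))))))))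
noncomputable def xc50 : XT := (XT.nd (nat_lit 1560) (nat_lit 7068) (nat_lit 0) (XT.nd (nat_lit 780) (nat_lit 4636) (nat_lit 0) (XT.nd (nat_lit 390) (nat_lit 2660) (nat_lit 0) (XT.nd (nat_lit 156) (nat_lit 2128) (nat_lit 0) (XT.nd (nat_lit 78) (nat_lit 836) (nat_lit 0) (XT.lf (nat_lit 0) (nat_lit 4205854569) (nat_lit 836) (nat_lit 213647840) (nat_lit 76) (nat_lit 3329960247) (nat_lit 376) (nat_lit 5) (nat_lit 387) (nat_lit 5) (nat_lit 377) (nat_lit 5) (nat_lit 432) (nat_lit 360) (nat_lit 348)) (XT.lf (nat_lit 0) (nat_lit 3400455) (nat_lit 836) (nat_lit 1834578485) (nat_lit 76) (nat_lit 5965772010) (nat_lit 365) (nat_lit 5) (nat_lit 376) (nat_lit 5) (nat_lit 366) (nat_lit 5) (nat_lit 433) (nat_lit 360) (nat_lit 347))) (XT.nd (nat_lit 78) (nat_lit 1444) (nat_lit 0) (XT.lf (nat_lit 0) (nat_lit 3548402588) (nat_lit 760) (nat_lit 3485853322) (nat_lit 76) (nat_lit 824910589) (nat_lit 356) (nat_lit 5) (nat_lit 366) (nat_lit 5) (nat_lit 357)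 (nat_lit 5) (nat_lit 434) (nat_lit 360) (nat_lit 346)) (XT.nd (nat_lit 78) (nat_lit 760) (nat_lit 0) (XT.lf (nat_lit 0) (nat_lit 2763604215) (nat_lit 684) (nat_lit 4382987303) (nat_lit 760) (nat_lit 769453106) (nat_lit 347) (nat_lit 5) (nat_lit 356) (nat_lit 5) (nat_lit 357) (nat_lit 5) (nat_lit 435) (nat_lit 360) (nat_lit 345)) (XT.lf (nat_lit 0) (nat_lit 1132475370) (nat_lit 684) (nat_lit 1643906607) (nat_lit 760) (nat_lit 5197889596) (nat_lit 337) (nat_lit 5) (nat_lit 346) (nat_lit 5) (nat_lit 347) (nat_lit 5) (nat_lit 436) (nat_lit 360) (nat_lit 344))))) (XT.nd (nat_lit 156) (nat_lit 1900) (nat_lit 0) (XT.nd (nat_lit 78) (nat_lit 760) (nat_lit 0) (XT.lf (nat_lit 0) (nat_lit 6365777849) (nat_lit 760) (nat_lit 508892022) (nat_lit 76) (nat_lit 1159232525) (nat_lit 337) (nat_lit 5) (nat_lit 347) (nat_lit 5) (nat_lit 338) (nat_lit 5) (nat_lit 437) (nat_lit 360) (nat_lit 343)) (XT.lf (nat_lit 0) (nat_lit 1898140310) (nat_lit 760) (nat_lit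 2164228741) (nat_lit 76) (nat_lit 4032280955) (nat_lit 327) (nat_lit 5) (nat_lit 337) (nat_lit 5) (nat_lit 328) (nat_lit 5) (nat_lit 438) (nat_lit 360) (nat_lit 342))) (XT.nd (nat_lit 78) (nat_lit 1292) (nat_lit 0) (XT.lf (nat_lit 0) (nat_lit 4319608353) (nat_lit 608) (nat_lit 1167398858) (nat_lit 684) (nat_lit 2669912574) (nat_lit 319) (nat_lit 5) (nat_lit 327) (nat_lit 5) (nat_lit 328) (nat_lit 5) (nat_lit 439) (nat_lit 360) (nat_lit 341)) (XT.nd (nat_lit 78) (nat_lit 608) (nat_lit 0) (XT.lf (nat_lit 0) (nat_lit 901295717) (nat_lit 684) (nat_lit 5536115718) (nat_lit 76) (nat_lit 1783178325) (nat_lit 310) (nat_lit 5) (nat_lit 319) (nat_lit 5) (nat_lit 311) (nat_lit 5) (nat_lit 440) (nat_lit 360) (nat_lit 340)) (XT.lf (nat_lit 0) (nat_lit 1015778911) (nat_lit 608) (nat_lit 3475592319) (nat_lit 684) (nat_lit 3794145078) (nat_lit 302) (nat_lit 5) (nat_lit 310) (nat_lit 5) (nat_lit 311) (nat_lit 5) (nat_lit 441) (nat_lit 360) (nat_lit 339))))))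 (XT.nd (nat_lit 390) (nat_lit 2204) (nat_lit 0) (XT.nd (nat_lit 156) (nat_lit 1748) (nat_lit 0) (XT.nd (nat_lit 78) (nat_lit 684) (nat_lit 0) (XT.lf (nat_lit 0) (nat_lit 7698599769) (nat_lit 608) (nat_lit 435342767) (nat_lit 684) (nat_lit 218184966) (nat_lit 302) (nat_lit 5) (nat_lit 310) (nat_lit 5) (nat_lit 311) (nat_lit 5) (nat_lit 442) (nat_lit 360) (nat_lit 338)) (XT.lf (nat_lit 0) (nat_lit 3385660528) (nat_lit 684) (nat_lit 2359512181) (nat_lit 76) (nat_lit 2674426065) (nat_lit 293) (nat_lit 5) (nat_lit 302) (nat_lit 5) (nat_lit 294) (nat_lit 5) (nat_lit 443) (nat_lit 360) (nat_lit 337))) (XT.nd (nat_lit 78) (nat_lit 1216) (nat_lit 0) (XT.lf (nat_lit 0) (nat_lit 4407029973) (nat_lit 532) (nat_lit 2632319831) (nat_lit 608) (nat_lit 1449427056) (nat_lit 286) (nat_lit 5) (nat_lit 293) (nat_lit 5) (nat_lit 294) (nat_lit 5) (nat_lit 444) (nat_lit 360) (nat_lit 336)) (XT.nd (nat_lit 78) (nat_lit 532) (nat_lit 0) (XT.lf (nat_lit 0) (nat_lit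 2160206470) (nat_lit 684) (nat_lit 5835128489) (nat_lit 76) (nat_lit 564069506) (nat_lit 277) (nat_lit 5) (nat_lit 286) (nat_lit 5) (nat_lit 278) (nat_lit 5) (nat_lit 445) (nat_lit 360) (nat_lit 335)) (XT.lf (nat_lit 0) (nat_lit 1001157177) (nat_lit 532) (nat_lit 4818465110) (nat_lit 608) (nat_lit 2811690771) (nat_lit 270) (nat_lit 5) (nat_lit 277) (nat_lit 5) (nat_lit 278) (nat_lit 5) (nat_lit 446) (nat_lit 360) (nat_lit 334))))) (XT.nd (nat_lit 156) (nat_lit 1596) (nat_lit 0) (XT.nd (nat_lit 78) (nat_lit 532) (nat_lit 0) (XT.lf (nat_lit 0) (nat_lit 821565378) (nat_lit 608) (nat_lit 732209889) (nat_lit 76) (nat_lit 7151072201) (nat_lit 269) (nat_lit 5) (nat_lit 277) (nat_lit 5) (nat_lit 270) (nat_lit 5) (nat_lit 447) (nat_lit 360) (nat_lit 333)) (XT.lf (nat_lit 0) (nat_lit 4489285900) (nat_lit 608) (nat_lit 2498254218) (nat_lit 76) (nat_lit 1791951789) (nat_lit 262) (nat_lit 5) (nat_lit 270) (nat_lit 5) (nat_lit 263) (nat_lit 5) (nat_lit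 448) (nat_lit 360) (nat_lit 332))) (XT.nd (nat_lit 78) (nat_lit 1064) (nat_lit 0) (XT.lf (nat_lit 0) (nat_lit 4564109289) (nat_lit 532) (nat_lit 3658310868) (nat_lit 608) (nat_lit 633367890) (nat_lit 255) (nat_lit 5) (nat_lit 262) (nat_lit 5) (nat_lit 263) (nat_lit 5) (nat_lit 449) (nat_lit 360) (nat_lit 331)) (XT.nd (nat_lit 78) (nat_lit 456) (nat_lit 0) (XT.lf (nat_lit 0) (nat_lit 2809963616) (nat_lit 532) (nat_lit 228547847) (nat_lit 608) (nat_lit 5895046200) (nat_lit 247) (nat_lit 5) (nat_lit 254) (nat_lit 5) (nat_lit 255) (nat_lit 5) (nat_lit 450) (nat_lit 360) (nat_lit 330)) (XT.lf (nat_lit 0) (nat_lit 1011776445) (nat_lit 456) (nat_lit 5768167529) (nat_lit 532) (nat_lit 2232763041) (nat_lit 241) (nat_lit 5) (nat_lit 247) (nat_lit 5) (nat_lit 248) (nat_lit 5) (nat_lit 451) (nat_lit 360) (nat_lit 329))))))) (XT.nd (nat_lit 780) (nat_lit 3192) (nat_lit 0) (XT.nd (nat_lit 390) (nat_lit 1824) (nat_lit 0) (XT.nd (nat_lit 156) (nat_lit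 1444) (nat_lit 0) (XT.nd (nat_lit 78) (nat_lit 532) (nat_lit 0) (XT.lf (nat_lit 0) (nat_lit 1473929532) (nat_lit 532) (nat_lit 806879226) (nat_lit 76) (nat_lit 6812617999) (nat_lit 240) (nat_lit 5) (nat_lit 247) (nat_lit 5) (nat_lit 241) (nat_lit 5) (nat_lit 452) (nat_lit 360) (nat_lit 328)) (XT.lf (nat_lit 0) (nat_lit 5224799274) (nat_lit 608) (nat_lit 2656371060) (nat_lit 76) (nat_lit 1294296590) (nat_lit 233) (nat_lit 5) (nat_lit 241) (nat_lit 5) (nat_lit 234) (nat_lit 5) (nat_lit 453) (nat_lit 360) (nat_lit 327))) (XT.nd (nat_lit 78) (nat_lit 988) (nat_lit 0) (XT.lf (nat_lit 0) (nat_lit 4715725463) (nat_lit 456) (nat_lit 4335519477) (nat_lit 532) (nat_lit 207891783) (nat_lit 227) (nat_lit 5) (nat_lit 233) (nat_lit 5) (nat_lit 234) (nat_lit 5) (nat_lit 454) (nat_lit 360) (nat_lit 326)) (XT.nd (nat_lit 78) (nat_lit 456) (nat_lit 0) (XT.lf (nat_lit 0) (nat_lit 2866538418) (nat_lit 456) (nat_lit 681980049) (nat_lit 532) (nat_lit 5795770290)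 (nat_lit 220) (nat_lit 5) (nat_lit 226) (nat_lit 5) (nat_lit 227) (nat_lit 5) (nat_lit 455) (nat_lit 360) (nat_lit 325)) (XT.lf (nat_lit 0) (nat_lit 972143294) (nat_lit 456) (nat_lit 6411818869) (nat_lit 532) (nat_lit 2047020406) (nat_lit 214) (nat_lit 5) (nat_lit 220) (nat_lit 5) (nat_lit 221) (nat_lit 5) (nat_lit 456) (nat_lit 360) (nat_lit 324))))) (XT.nd (nat_lit 156) (nat_lit 1292) (nat_lit 0) (XT.nd (nat_lit 78) (nat_lit 456) (nat_lit 0) (XT.lf (nat_lit 0) (nat_lit 1751762156) (nat_lit 532) (nat_lit 951208486) (nat_lit 76) (nat_lit 6816241716) (nat_lit 213) (nat_lit 5) (nat_lit 220) (nat_lit 5) (nat_lit 214) (nat_lit 5) (nat_lit 457) (nat_lit 360) (nat_lit 323)) (XT.lf (nat_lit 0) (nat_lit 5600979174) (nat_lit 532) (nat_lit 2908983648) (nat_lit 76) (nat_lit 1098935936) (nat_lit 207) (nat_lit 5) (nat_lit 214) (nat_lit 5) (nat_lit 208) (nat_lit 5) (nat_lit 458) (nat_lit 360) (nat_lit 322))) (XT.nd (nat_lit 78) (nat_lit 912) (nat_lit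 0) (XT.lf (nat_lit 0) (nat_lit 4787530753) (nat_lit 380) (nat_lit 4746447642) (nat_lit 456) (nat_lit 166264535) (nat_lit 202) (nat_lit 5) (nat_lit 207) (nat_lit 5) (nat_lit 208) (nat_lit 5) (nat_lit 459) (nat_lit 360) (nat_lit 321)) (XT.nd (nat_lit 78) (nat_lit 380) (nat_lit 0) (XT.lf (nat_lit 0) (nat_lit 2822736775) (nat_lit 456) (nat_lit 869798075) (nat_lit 532) (nat_lit 6100601448) (nat_lit 195) (nat_lit 5) (nat_lit 201) (nat_lit 5) (nat_lit 202) (nat_lit 5) (nat_lit 460) (nat_lit 360) (nat_lit 320)) (XT.lf (nat_lit 0) (nat_lit 807017106) (nat_lit 380) (nat_lit 6829569604) (nat_lit 456) (nat_lit 2251072789) (nat_lit 190) (nat_lit 5) (nat_lit 195) (nat_lit 5) (nat_lit 196) (nat_lit 5) (nat_lit 461) (nat_lit 360) (nat_lit 319)))))) (XT.nd (nat_lit 390) (nat_lit 1596) (nat_lit 0) (XT.nd (nat_lit 156) (nat_lit 1140) (nat_lit 0) (XT.nd (nat_lit 78) (nat_lit 380) (nat_lit 0) (XT.lf (nat_lit 0) (nat_lit 1658315564) (nat_lit 456) (nat_lit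 1240247439) (nat_lit 76) (nat_lit 7085195742) (nat_lit 189) (nat_lit 5) (nat_lit 195) (nat_lit 5) (nat_lit 190) (nat_lit 5) (nat_lit 462) (nat_lit 360) (nat_lit 318)) (XT.lf (nat_lit 0) (nat_lit 5620024824) (nat_lit 456) (nat_lit 3331471529) (nat_lit 76) (nat_lit 1129900529) (nat_lit 184) (nat_lit 5) (nat_lit 190) (nat_lit 5) (nat_lit 185) (nat_lit 5) (nat_lit 463) (nat_lit 360) (nat_lit 317))) (XT.nd (nat_lit 78) (nat_lit 760) (nat_lit 0) (XT.lf (nat_lit 0) (nat_lit 4704899307) (nat_lit 380) (nat_lit 4967410507) (nat_lit 456) (nat_lit 508451138) (nat_lit 179) (nat_lit 5) (nat_lit 184) (nat_lit 5) (nat_lit 185) (nat_lit 5) (nat_lit 464) (nat_lit 360) (nat_lit 316)) (XT.nd (nat_lit 78) (nat_lit 304) (nat_lit 0) (XT.lf (nat_lit 0) (nat_lit 2603021105) (nat_lit 380) (nat_lit 867057162) (nat_lit 456) (nat_lit 6811721259) (nat_lit 173) (nat_lit 5) (nat_lit 178) (nat_lit 5) (nat_lit 179) (nat_lit 5) (nat_lit 465) (nat_lit 360) (nat_lit 315))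 (XT.lf (nat_lit 0) (nat_lit 440374659) (nat_lit 304) (nat_lit 7095997992) (nat_lit 380) (nat_lit 2848118952) (nat_lit 169) (nat_lit 5) (nat_lit 173) (nat_lit 5) (nat_lit 174) (nat_lit 5) (nat_lit 466) (nat_lit 360) (nat_lit 314))))) (XT.nd (nat_lit 234) (nat_lit 836) (nat_lit 0) (XT.nd (nat_lit 78) (nat_lit 684) (nat_lit 0) (XT.lf (nat_lit 0) (nat_lit 1190449300) (nat_lit 380) (nat_lit 1750027059) (nat_lit 76) (nat_lit 7548378753) (nat_lit 168) (nat_lit 5) (nat_lit 173) (nat_lit 5) (nat_lit 169) (nat_lit 5) (nat_lit 467) (nat_lit 360) (nat_lit 313)) (XT.nd (nat_lit 78) (nat_lit 304) (nat_lit 0) (XT.lf (nat_lit 0) (nat_lit 5277879314) (nat_lit 456) (nat_lit 4000482095) (nat_lit 76) (nat_lit 1316443428) (nat_lit 163) (nat_lit 5) (nat_lit 169) (nat_lit 5) (nat_lit 164) (nat_lit 5) (nat_lit 468) (nat_lit 360) (nat_lit 312)) (XT.lf (nat_lit 0) (nat_lit 4391919791) (nat_lit 304) (nat_lit 5069851406) (nat_lit 380) (nat_lit 1240808094) (nat_lit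 159) (nat_lit 5) (nat_lit 163) (nat_lit 5) (nat_lit 164) (nat_lit 5) (nat_lit 469) (nat_lit 360) (nat_lit 311)))) (XT.nd (nat_lit 78) (nat_lit 380) (nat_lit 0) (XT.lf (nat_lit 0) (nat_lit 2130357410) (nat_lit 380) (nat_lit 744096564) (nat_lit 456) (nat_lit 7937758957) (nat_lit 153) (nat_lit 5) (nat_lit 158) (nat_lit 5) (nat_lit 159) (nat_lit 5) (nat_lit 470) (nat_lit 360) (nat_lit 310)) (XT.nd (nat_lit 78) (nat_lit 380) (nat_lit 0) (XT.lf (nat_lit 0) (nat_lit 7077120124) (nat_lit 456) (nat_lit 202891685) (nat_lit 76) (nat_lit 3643429136) (nat_lit 153) (nat_lit 5) (nat_lit 159) (nat_lit 5) (nat_lit 154) (nat_lit 5) (nat_lit 471) (nat_lit 360) (nat_lit 309)) (XT.lf (nat_lit 0) (nat_lit 338882696) (nat_lit 380) (nat_lit 2558545941) (nat_lit 76) (nat_lit 8139097935) (nat_lit 148) (nat_lit 5) (nat_lit 153) (nat_lit 5) (nat_lit 149) (nat_lit 5) (nat_lit 472) (nat_lit 360) (nat_lit 308))))))))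
noncomputable def xc51 : XT := (XT.nd (nat_lit 1638) (nat_lit 2812) (nat_lit 0) (XT.nd (nat_lit 780) (nat_lit 2280) (nat_lit 0) (XT.nd (nat_lit 390) (nat_lit 1216) (nat_lit 0) (XT.nd (nat_lit 156) (nat_lit 684) (nat_lit 0) (XT.nd (nat_lit 78) (nat_lit 304) (nat_lit 0) (XT.lf (nat_lit 0) (nat_lit 4564459900) (nat_lit 380) (nat_lit 4994909316) (nat_lit 76) (nat_lit 1591832775) (nat_lit 144) (nat_lit 5) (nat_lit 149) (nat_lit 5) (nat_lit 145) (nat_lit 5) (nat_lit 473) (nat_lit 360) (nat_lit 307)) (XT.lf (nat_lit 0) (nat_lit 3770417754) (nat_lit 304) (nat_lit 5121536000) (nat_lit 380) (nat_lit 2375869063) (nat_lit 140) (nat_lit 5) (nat_lit 144) (nat_lit 5) (nat_lit 145) (nat_lit 5) (nat_lit 474) (nat_lit 360) (nat_lit 306))) (XT.nd (nat_lit 78) (nat_lit 304) (nat_lit 0) (XT.lf (nat_lit 0) (nat_lit 1325235008) (nat_lit 304) (nat_lit 567717689) (nat_lit 380) (nat_lit 9493596100) (nat_lit 135) (nat_lit 5) (nat_lit 139) (nat_lit 5) (nat_lit 140)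 (nat_lit 5) (nat_lit 475) (nat_lit 360) (nat_lit 305)) (XT.nd (nat_lit 78) (nat_lit 304) (nat_lit 0) (XT.lf (nat_lit 0) (nat_lit 6249242734) (nat_lit 380) (nat_lit 1195541959) (nat_lit 76) (nat_lit 4061872420) (nat_lit 135) (nat_lit 5) (nat_lit 140) (nat_lit 5) (nat_lit 136) (nat_lit 5) (nat_lit 476) (nat_lit 360) (nat_lit 304)) (XT.lf (nat_lit 0) (nat_lit 7876184226) (nat_lit 304) (nat_lit 2828977879) (nat_lit 380) (nat_lit 923755420) (nat_lit 131) (nat_lit 5) (nat_lit 135) (nat_lit 5) (nat_lit 136) (nat_lit 5) (nat_lit 477) (nat_lit 360) (nat_lit 303))))) (XT.nd (nat_lit 156) (nat_lit 608) (nat_lit 0) (XT.nd (nat_lit 78) (nat_lit 228) (nat_lit 0) (XT.lf (nat_lit 0) (nat_lit 3463802908) (nat_lit 380) (nat_lit 6396854985) (nat_lit 76) (nat_lit 1892249522) (nat_lit 126) (nat_lit 5) (nat_lit 131) (nat_lit 5) (nat_lit 127) (nat_lit 5) (nat_lit 478) (nat_lit 360) (nat_lit 302)) (XT.lf (nat_lit 0) (nat_lit 2758994742) (nat_lit 228) (nat_lit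 5187645744) (nat_lit 304) (nat_lit 3932216551) (nat_lit 123) (nat_lit 5) (nat_lit 126) (nat_lit 5) (nat_lit 127) (nat_lit 5) (nat_lit 479) (nat_lit 360) (nat_lit 301))) (XT.nd (nat_lit 78) (nat_lit 228) (nat_lit 0) (XT.lf (nat_lit 0) (nat_lit 104700741) (nat_lit 304) (nat_lit 402264281) (nat_lit 380) (nat_lit 11500256805) (nat_lit 118) (nat_lit 5) (nat_lit 122) (nat_lit 5) (nat_lit 123) (nat_lit 5) (nat_lit 480) (nat_lit 360) (nat_lit 300)) (XT.nd (nat_lit 78) (nat_lit 228) (nat_lit 0) (XT.lf (nat_lit 0) (nat_lit 5031163982) (nat_lit 380) (nat_lit 2626524300) (nat_lit 76) (nat_lit 4478968068) (nat_lit 118) (nat_lit 5) (nat_lit 123) (nat_lit 5) (nat_lit 119) (nat_lit 5) (nat_lit 481) (nat_lit 360) (nat_lit 299)) (XT.lf (nat_lit 0) (nat_lit 6852150925) (nat_lit 228) (nat_lit 2799822282) (nat_lit 304) (nat_lit 2616583832) (nat_lit 115) (nat_lit 5) (nat_lit 118) (nat_lit 5) (nat_lit 119) (nat_lit 5) (nat_lit 482) (nat_lit 360) (nat_lit 298))))))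 (XT.nd (nat_lit 390) (nat_lit 1064) (nat_lit 0) (XT.nd (nat_lit 156) (nat_lit 608) (nat_lit 0) (XT.nd (nat_lit 78) (nat_lit 228) (nat_lit 0) (XT.lf (nat_lit 0) (nat_lit 1954129333) (nat_lit 380) (nat_lit 8292584628) (nat_lit 76) (nat_lit 2155771797) (nat_lit 110) (nat_lit 5) (nat_lit 115) (nat_lit 5) (nat_lit 111) (nat_lit 5) (nat_lit 483) (nat_lit 360) (nat_lit 297)) (XT.lf (nat_lit 0) (nat_lit 1272072026) (nat_lit 228) (nat_lit 5331788662) (nat_lit 304) (nat_lit 5934433653) (nat_lit 107) (nat_lit 5) (nat_lit 110) (nat_lit 5) (nat_lit 111) (nat_lit 5) (nat_lit 484) (nat_lit 360) (nat_lit 296))) (XT.nd (nat_lit 78) (nat_lit 608) (nat_lit 0) (XT.lf (nat_lit 0) (nat_lit 11070602718) (nat_lit 228) (nat_lit 291196416) (nat_lit 304) (nat_lit 1314715713) (nat_lit 107) (nat_lit 5) (nat_lit 110) (nat_lit 5) (nat_lit 111) (nat_lit 5) (nat_lit 485) (nat_lit 360) (nat_lit 295)) (XT.nd (nat_lit 78) (nat_lit 228) (nat_lit 0) (XT.lf (nat_lit 0) (nat_lit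 3398399242) (nat_lit 380) (nat_lit 4583632804) (nat_lit 76) (nat_lit 4834115351) (nat_lit 102) (nat_lit 5) (nat_lit 107) (nat_lit 5) (nat_lit 103) (nat_lit 5) (nat_lit 486) (nat_lit 360) (nat_lit 294)) (XT.lf (nat_lit 0) (nat_lit 5321063687) (nat_lit 228) (nat_lit 2874694005) (nat_lit 304) (nat_lit 4762489396) (nat_lit 99) (nat_lit 5) (nat_lit 102) (nat_lit 5) (nat_lit 103) (nat_lit 5) (nat_lit 487) (nat_lit 360) (nat_lit 293))))) (XT.nd (nat_lit 234) (nat_lit 532) (nat_lit 0) (XT.nd (nat_lit 78) (nat_lit 228) (nat_lit 0) (XT.lf (nat_lit 0) (nat_lit 7836008) (nat_lit 304) (nat_lit 10773489512) (nat_lit 76) (nat_lit 2321429562) (nat_lit 95) (nat_lit 5) (nat_lit 99) (nat_lit 5) (nat_lit 96) (nat_lit 5) (nat_lit 488) (nat_lit 360) (nat_lit 292)) (XT.nd (nat_lit 78) (nat_lit 228) (nat_lit 0) (XT.lf (nat_lit 0) (nat_lit 4840942295) (nat_lit 304) (nat_lit 770828579) (nat_lit 76) (nat_lit 7637129879) (nat_lit 95) (nat_lit 5) (nat_lit 99) (nat_lit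 5) (nat_lit 96) (nat_lit 5) (nat_lit 489) (nat_lit 360) (nat_lit 291)) (XT.lf (nat_lit 0) (nat_lit 9488335510) (nat_lit 228) (nat_lit 305212967) (nat_lit 304) (nat_lit 3603964105) (nat_lit 92) (nat_lit 5) (nat_lit 95) (nat_lit 5) (nat_lit 96) (nat_lit 5) (nat_lit 490) (nat_lit 360) (nat_lit 290)))) (XT.nd (nat_lit 78) (nat_lit 228) (nat_lit 0) (XT.lf (nat_lit 0) (nat_lit 1320650316) (nat_lit 304) (nat_lit 7160246641) (nat_lit 76) (nat_lit 5067200609) (nat_lit 88) (nat_lit 5) (nat_lit 92) (nat_lit 5) (nat_lit 89) (nat_lit 5) (nat_lit 491) (nat_lit 360) (nat_lit 289)) (XT.nd (nat_lit 78) (nat_lit 0) (nat_lit 0) (XT.lf (nat_lit 0) (nat_lit 3190229590) (nat_lit 228) (nat_lit 3115886446) (nat_lit 304) (nat_lit 7394889447) (nat_lit 85) (nat_lit 5) (nat_lit 88) (nat_lit 5) (nat_lit 89) (nat_lit 5) (nat_lit 492) (nat_lit 360) (nat_lit 288)) (XT.lf (nat_lit 0) (nat_lit 11416513038) (nat_lit 304) (nat_lit 95167232) (nat_lit 76) (nat_lit 2344786849)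 (nat_lit 85) (nat_lit 5) (nat_lit 89) (nat_lit 5) (nat_lit 86) (nat_lit 5) (nat_lit 493) (nat_lit 360) (nat_lit 287))))))) (XT.nd (nat_lit 780) (nat_lit 912) (nat_lit 0) (XT.nd (nat_lit 390) (nat_lit 912) (nat_lit 0) (XT.nd (nat_lit 156) (nat_lit 456) (nat_lit 0) (XT.nd (nat_lit 78) (nat_lit 228) (nat_lit 0) (XT.lf (nat_lit 0) (nat_lit 2631773657) (nat_lit 304) (nat_lit 3451417537) (nat_lit 76) (nat_lit 7930467792) (nat_lit 81) (nat_lit 5) (nat_lit 85) (nat_lit 5) (nat_lit 82) (nat_lit 5) (nat_lit 494) (nat_lit 360) (nat_lit 286)) (XT.lf (nat_lit 0) (nat_lit 7272287539) (nat_lit 228) (nat_lit 510235903) (nat_lit 304) (nat_lit 6390943517) (nat_lit 78) (nat_lit 5) (nat_lit 81) (nat_lit 5) (nat_lit 82) (nat_lit 5) (nat_lit 495) (nat_lit 360) (nat_lit 285))) (XT.nd (nat_lit 78) (nat_lit 228) (nat_lit 0) (XT.lf (nat_lit 0) (nat_lit 3871117687) (nat_lit 228) (nat_lit 9209696872) (nat_lit 304) (nat_lit 1254766005) (nat_lit 75) (nat_lit 5) (nat_lit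 78) (nat_lit 5) (nat_lit 79) (nat_lit 5) (nat_lit 496) (nat_lit 360) (nat_lit 284)) (XT.nd (nat_lit 78) (nat_lit 0) (nat_lit 0) (XT.lf (nat_lit 0) (nat_lit 360365780) (nat_lit 152) (nat_lit 3586392762) (nat_lit 228) (nat_lit 10553363022) (nat_lit 72) (nat_lit 5) (nat_lit 74) (nat_lit 5) (nat_lit 75) (nat_lit 5) (nat_lit 497) (nat_lit 360) (nat_lit 283)) (XT.lf (nat_lit 0) (nat_lit 9282819202) (nat_lit 228) (nat_lit 3213053061) (nat_lit 76) (nat_lit 2170969105) (nat_lit 72) (nat_lit 5) (nat_lit 75) (nat_lit 5) (nat_lit 73) (nat_lit 5) (nat_lit 498) (nat_lit 360) (nat_lit 282))))) (XT.nd (nat_lit 156) (nat_lit 456) (nat_lit 0) (XT.nd (nat_lit 78) (nat_lit 228) (nat_lit 0) (XT.lf (nat_lit 0) (nat_lit 7946660799) (nat_lit 228) (nat_lit 6817667534) (nat_lit 304) (nat_lit 71792688) (nat_lit 69) (nat_lit 5) (nat_lit 72) (nat_lit 5) (nat_lit 73) (nat_lit 5) (nat_lit 499) (nat_lit 360) (nat_lit 281)) (XT.lf (nat_lit 0) (nat_lit 4320529560) (nat_lit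 152) (nat_lit 969218046) (nat_lit 228) (nat_lit 9718080600) (nat_lit 66) (nat_lit 5) (nat_lit 68) (nat_lit 5) (nat_lit 69) (nat_lit 5) (nat_lit 500) (nat_lit 360) (nat_lit 280))) (XT.nd (nat_lit 78) (nat_lit 228) (nat_lit 0) (XT.lf (nat_lit 0) (nat_lit 574227330) (nat_lit 228) (nat_lit 10229569607) (nat_lit 304) (nat_lit 4378238314) (nat_lit 63) (nat_lit 5) (nat_lit 66) (nat_lit 5) (nat_lit 67) (nat_lit 5) (nat_lit 501) (nat_lit 360) (nat_lit 279)) (XT.nd (nat_lit 78) (nat_lit 152) (nat_lit 0) (XT.lf (nat_lit 0) (nat_lit 1096582004) (nat_lit 304) (nat_lit 3232464482) (nat_lit 76) (nat_lit 11029697348) (nat_lit 62) (nat_lit 5) (nat_lit 66) (nat_lit 5) (nat_lit 63) (nat_lit 5) (nat_lit 502) (nat_lit 360) (nat_lit 278)) (XT.lf (nat_lit 0) (nat_lit 6652408400) (nat_lit 228) (nat_lit 7162880020) (nat_lit 76) (nat_lit 1722516680) (nat_lit 60) (nat_lit 5) (nat_lit 63) (nat_lit 5) (nat_lit 61) (nat_lit 5) (nat_lit 503) (nat_lit 360) (nat_lit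 277)))))) (XT.nd (nat_lit 52650) (nat_lit 0) (nat_lit 30932) (XT.nd (nat_lit 156) (nat_lit 456) (nat_lit 0) (XT.nd (nat_lit 78) (nat_lit 228) (nat_lit 0) (XT.lf (nat_lit 0) (nat_lit 4503527388) (nat_lit 228) (nat_lit 7859957597) (nat_lit 304) (nat_lit 3356079934) (nat_lit 57) (nat_lit 5) (nat_lit 60) (nat_lit 5) (nat_lit 61) (nat_lit 5) (nat_lit 504) (nat_lit 360) (nat_lit 276)) (XT.lf (nat_lit 0) (nat_lit 523037369) (nat_lit 152) (nat_lit 1747048453) (nat_lit 228) (nat_lit 13634253240) (nat_lit 54) (nat_lit 5) (nat_lit 56) (nat_lit 5) (nat_lit 57) (nat_lit 5) (nat_lit 505) (nat_lit 360) (nat_lit 275))) (XT.nd (nat_lit 78) (nat_lit 456) (nat_lit 0) (XT.lf (nat_lit 0) (nat_lit 8033304811) (nat_lit 228) (nat_lit 3559359798) (nat_lit 76) (nat_lit 4498311050) (nat_lit 54) (nat_lit 5) (nat_lit 57) (nat_lit 5) (nat_lit 55) (nat_lit 5) (nat_lit 506) (nat_lit 360) (nat_lit 274)) (XT.nd (nat_lit 78) (nat_lit 228) (nat_lit 0) (XT.lf (nat_lit 0)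 (nat_lit 8535550734) (nat_lit 228) (nat_lit 5408443419) (nat_lit 304) (nat_lit 2336706715) (nat_lit 51) (nat_lit 5) (nat_lit 54) (nat_lit 5) (nat_lit 55) (nat_lit 5) (nat_lit 507) (nat_lit 360) (nat_lit 273)) (XT.lf (nat_lit 0) (nat_lit 3476928777) (nat_lit 228) (nat_lit 12061509861) (nat_lit 76) (nat_lit 934844872) (nat_lit 48) (nat_lit 5) (nat_lit 51) (nat_lit 5) (nat_lit 49) (nat_lit 5) (nat_lit 508) (nat_lit 360) (nat_lit 272))))) (XT.nd (nat_lit 234) (nat_lit 1900) (nat_lit 0) (XT.nd (nat_lit 78) (nat_lit 1216) (nat_lit 0) (XT.lf (nat_lit 0) (nat_lit 176861467) (nat_lit 1900) (nat_lit 3209706016) (nat_lit 0) (nat_lit 176861467) (nat_lit 496) (nat_lit 5) (nat_lit 521) (nat_lit 4) (nat_lit 496) (nat_lit 4) (nat_lit 418) (nat_lit 361) (nat_lit 361)) (XT.nd (nat_lit 78) (nat_lit 1216) (nat_lit 0) (XT.lf (nat_lit 0) (nat_lit 3917977542) (nat_lit 1900) (nat_lit 1036716378) (nat_lit 0) (nat_lit 2208688028) (nat_lit 496) (nat_lit 5) (nat_lit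 521) (nat_lit 4) (nat_lit 496) (nat_lit 4) (nat_lit 419) (nat_lit 361) (nat_lit 360)) (XT.lf (nat_lit 0) (nat_lit 307752359) (nat_lit 1216) (nat_lit 2763403780) (nat_lit 76) (nat_lit 4130244522) (nat_lit 480) (nat_lit 5) (nat_lit 496) (nat_lit 5) (nat_lit 481) (nat_lit 4) (nat_lit 420) (nat_lit 361) (nat_lit 359)))) (XT.nd (nat_lit 78) (nat_lit 988) (nat_lit 0) (XT.lf (nat_lit 0) (nat_lit 2738348983) (nat_lit 912) (nat_lit 1106367971) (nat_lit 988) (nat_lit 3395909739) (nat_lit 468) (nat_lit 5) (nat_lit 480) (nat_lit 5) (nat_lit 481) (nat_lit 4) (nat_lit 421) (nat_lit 361) (nat_lit 358)) (XT.nd (nat_lit 78) (nat_lit 0) (nat_lit 0) (XT.lf (nat_lit 0) (nat_lit 132780431) (nat_lit 988) (nat_lit 6240294263) (nat_lit 76) (nat_lit 908275249) (nat_lit 455) (nat_lit 5) (nat_lit 468) (nat_lit 5) (nat_lit 456) (nat_lit 4) (nat_lit 422) (nat_lit 361) (nat_lit 357)) (XT.lf (nat_lit 0) (nat_lit 3657000875) (nat_lit 988) (nat_lit 669525141) (nat_lit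 76) (nat_lit 2996504148) (nat_lit 455) (nat_lit 5) (nat_lit 468) (nat_lit 5) (nat_lit 456) (nat_lit 4) (nat_lit 423) (nat_lit 361) (nat_lit 356))))))))
noncomputable def xc52 : XT := (XT.nd (nat_lit 1560) (nat_lit 8664) (nat_lit 0) (XT.nd (nat_lit 780) (nat_lit 5472) (nat_lit 0) (XT.nd (nat_lit 390) (nat_lit 3268) (nat_lit 0) (XT.nd (nat_lit 156) (nat_lit 1748) (nat_lit 0) (XT.nd (nat_lit 78) (nat_lit 988) (nat_lit 0) (XT.lf (nat_lit 0) (nat_lit 5006248045) (nat_lit 836) (nat_lit 2211927760) (nat_lit 912) (nat_lit 148038784) (nat_lit 444) (nat_lit 5) (nat_lit 455) (nat_lit 5) (nat_lit 456) (nat_lit 4) (nat_lit 424) (nat_lit 361) (nat_lit 355)) (XT.lf (nat_lit 0) (nat_lit 3343455639) (nat_lit 912) (nat_lit 12330458) (nat_lit 988) (nat_lit 4054817972) (nat_lit 431) (nat_lit 5) (nat_lit 443) (nat_lit 5) (nat_lit 444) (nat_lit 5) (nat_lit 425) (nat_lit 361) (nat_lit 354))) (XT.nd (nat_lit 78) (nat_lit 912) (nat_lit 0) (XT.lf (nat_lit 0) (nat_lit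 1670467765) (nat_lit 836) (nat_lit 5233650720) (nat_lit 912) (nat_lit 552215018) (nat_lit 420) (nat_lit 5) (nat_lit 431) (nat_lit 5) (nat_lit 432) (nat_lit 4) (nat_lit 426) (nat_lit 361) (nat_lit 353)) (XT.nd (nat_lit 78) (nat_lit 836) (nat_lit 0) (XT.lf (nat_lit 0) (nat_lit 2943893956) (nat_lit 912) (nat_lit 17952653) (nat_lit 76) (nat_lit 4541477350) (nat_lit 419) (nat_lit 5) (nat_lit 431) (nat_lit 5) (nat_lit 420) (nat_lit 5) (nat_lit 427) (nat_lit 361) (nat_lit 352)) (XT.lf (nat_lit 0) (nat_lit 5866428920) (nat_lit 836) (nat_lit 610974615) (nat_lit 912) (nat_lit 1074280236) (nat_lit 408) (nat_lit 5) (nat_lit 419) (nat_lit 5) (nat_lit 420) (nat_lit 5) (nat_lit 428) (nat_lit 361) (nat_lit 351))))) (XT.nd (nat_lit 156) (nat_lit 1672) (nat_lit 0) (XT.nd (nat_lit 78) (nat_lit 760) (nat_lit 0) (XT.lf (nat_lit 0) (nat_lit 2424620794) (nat_lit 836) (nat_lit 3378590037) (nat_lit 76) (nat_lit 1797946209) (nat_lit 397) (nat_lit 5) (nat_lit 408)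 (nat_lit 5) (nat_lit 398) (nat_lit 5) (nat_lit 429) (nat_lit 361) (nat_lit 350)) (XT.lf (nat_lit 0) (nat_lit 2569223380) (nat_lit 760) (nat_lit 3379854065) (nat_lit 836) (nat_lit 1703001066) (nat_lit 387) (nat_lit 5) (nat_lit 397) (nat_lit 5) (nat_lit 398) (nat_lit 5) (nat_lit 430) (nat_lit 361) (nat_lit 349))) (XT.nd (nat_lit 78) (nat_lit 836) (nat_lit 0) (XT.lf (nat_lit 0) (nat_lit 904418211) (nat_lit 760) (nat_lit 878326387) (nat_lit 836) (nat_lit 5921697445) (nat_lit 376) (nat_lit 5) (nat_lit 386) (nat_lit 5) (nat_lit 387) (nat_lit 5) (nat_lit 431) (nat_lit 361) (nat_lit 348)) (XT.nd (nat_lit 78) (nat_lit 836) (nat_lit 0) (XT.lf (nat_lit 0) (nat_lit 5299458719) (nat_lit 836) (nat_lit 773434211) (nat_lit 76) (nat_lit 1685053646) (nat_lit 376) (nat_lit 5) (nat_lit 387) (nat_lit 5) (nat_lit 377) (nat_lit 5) (nat_lit 432) (nat_lit 361) (nat_lit 347)) (XT.lf (nat_lit 0) (nat_lit 1040461824) (nat_lit 836) (nat_lit 2454289769) (nat_lit 76)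 (nat_lit 4318018917) (nat_lit 365) (nat_lit 5) (nat_lit 376) (nat_lit 5) (nat_lit 366) (nat_lit 5) (nat_lit 433) (nat_lit 361) (nat_lit 346)))))) (XT.nd (nat_lit 390) (nat_lit 2584) (nat_lit 0) (XT.nd (nat_lit 156) (nat_lit 1444) (nat_lit 0) (XT.nd (nat_lit 78) (nat_lit 760) (nat_lit 0) (XT.lf (nat_lit 0) (nat_lit 3714237511) (nat_lit 684) (nat_lit 831954776) (nat_lit 760) (nat_lit 3322779206) (nat_lit 356) (nat_lit 5) (nat_lit 365) (nat_lit 5) (nat_lit 366) (nat_lit 5) (nat_lit 434) (nat_lit 361) (nat_lit 345)) (XT.lf (nat_lit 0) (nat_lit 176171256) (nat_lit 760) (nat_lit 5873455528) (nat_lit 76) (nat_lit 1876984342) (nat_lit 346) (nat_lit 5) (nat_lit 356) (nat_lit 5) (nat_lit 347) (nat_lit 5) (nat_lit 435) (nat_lit 361) (nat_lit 344))) (XT.nd (nat_lit 78) (nat_lit 760) (nat_lit 0) (XT.lf (nat_lit 0) (nat_lit 359697693) (nat_lit 684) (nat_lit 3318118387) (nat_lit 760) (nat_lit 4307604053) (nat_lit 337) (nat_lit 5) (nat_lit 346) (nat_lit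 5) (nat_lit 347) (nat_lit 5) (nat_lit 436) (nat_lit 361) (nat_lit 343)) (XT.nd (nat_lit 78) (nat_lit 760) (nat_lit 0) (XT.lf (nat_lit 0) (nat_lit 6723621114) (nat_lit 684) (nat_lit 507216899) (nat_lit 760) (nat_lit 814940422) (nat_lit 337) (nat_lit 5) (nat_lit 346) (nat_lit 5) (nat_lit 347) (nat_lit 5) (nat_lit 437) (nat_lit 361) (nat_lit 342)) (XT.lf (nat_lit 0) (nat_lit 2702796683) (nat_lit 760) (nat_lit 3039549734) (nat_lit 76) (nat_lit 2364815602) (nat_lit 327) (nat_lit 5) (nat_lit 337) (nat_lit 5) (nat_lit 328) (nat_lit 5) (nat_lit 438) (nat_lit 361) (nat_lit 341))))) (XT.nd (nat_lit 156) (nat_lit 1292) (nat_lit 0) (XT.nd (nat_lit 78) (nat_lit 684) (nat_lit 0) (XT.lf (nat_lit 0) (nat_lit 3395844619) (nat_lit 608) (nat_lit 2861724183) (nat_lit 684) (nat_lit 1912544891) (nat_lit 319) (nat_lit 5) (nat_lit 327) (nat_lit 5) (nat_lit 328) (nat_lit 5) (nat_lit 439) (nat_lit 361) (nat_lit 340)) (XT.lf (nat_lit 0) (nat_lit 1603263609) (nat_lit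 684) (nat_lit 6530169977) (nat_lit 76) (nat_lit 101161071) (nat_lit 310) (nat_lit 5) (nat_lit 319) (nat_lit 5) (nat_lit 311) (nat_lit 5) (nat_lit 440) (nat_lit 361) (nat_lit 339))) (XT.nd (nat_lit 78) (nat_lit 1292) (nat_lit 0) (XT.lf (nat_lit 0) (nat_lit 5159037076) (nat_lit 684) (nat_lit 28315043) (nat_lit 76) (nat_lit 3112855127) (nat_lit 310) (nat_lit 5) (nat_lit 319) (nat_lit 5) (nat_lit 311) (nat_lit 5) (nat_lit 441) (nat_lit 361) (nat_lit 338)) (XT.nd (nat_lit 78) (nat_lit 608) (nat_lit 0) (XT.lf (nat_lit 0) (nat_lit 401318125) (nat_lit 684) (nat_lit 1752356915) (nat_lit 76) (nat_lit 6213642331) (nat_lit 301) (nat_lit 5) (nat_lit 310) (nat_lit 5) (nat_lit 302) (nat_lit 5) (nat_lit 442) (nat_lit 361) (nat_lit 337)) (XT.lf (nat_lit 0) (nat_lit 3956529237) (nat_lit 684) (nat_lit 3515576077) (nat_lit 76) (nat_lit 963570454) (nat_lit 293) (nat_lit 5) (nat_lit 302) (nat_lit 5) (nat_lit 294) (nat_lit 5) (nat_lit 443) (nat_lit 361) (nat_lit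 336))))))) (XT.nd (nat_lit 780) (nat_lit 4104) (nat_lit 0) (XT.nd (nat_lit 390) (nat_lit 2204) (nat_lit 0) (XT.nd (nat_lit 156) (nat_lit 1140) (nat_lit 0) (XT.nd (nat_lit 78) (nat_lit 684) (nat_lit 0) (XT.lf (nat_lit 0) (nat_lit 3198761350) (nat_lit 532) (nat_lit 4376809066) (nat_lit 608) (nat_lit 929976401) (nat_lit 286) (nat_lit 5) (nat_lit 293) (nat_lit 5) (nat_lit 294) (nat_lit 5) (nat_lit 444) (nat_lit 361) (nat_lit 335)) (XT.lf (nat_lit 0) (nat_lit 1446366795) (nat_lit 608) (nat_lit 1187757300) (nat_lit 684) (nat_lit 5942757280) (nat_lit 277) (nat_lit 5) (nat_lit 285) (nat_lit 5) (nat_lit 286) (nat_lit 5) (nat_lit 445) (nat_lit 361) (nat_lit 334))) (XT.nd (nat_lit 78) (nat_lit 1140) (nat_lit 0) (XT.lf (nat_lit 0) (nat_lit 6252864468) (nat_lit 684) (nat_lit 336345286) (nat_lit 76) (nat_lit 2060393723) (nat_lit 277) (nat_lit 5) (nat_lit 286) (nat_lit 5) (nat_lit 278) (nat_lit 5) (nat_lit 446) (nat_lit 361) (nat_lit 333)) (XT.nd (nat_lit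 78) (nat_lit 532) (nat_lit 0) (XT.lf (nat_lit 0) (nat_lit 1202492770) (nat_lit 608) (nat_lit 2132002900) (nat_lit 76) (nat_lit 5389159979) (nat_lit 269) (nat_lit 5) (nat_lit 277) (nat_lit 5) (nat_lit 270) (nat_lit 5) (nat_lit 447) (nat_lit 361) (nat_lit 332)) (XT.lf (nat_lit 0) (nat_lit 4823238028) (nat_lit 608) (nat_lit 3961037289) (nat_lit 76) (nat_lit 14964274) (nat_lit 262) (nat_lit 5) (nat_lit 270) (nat_lit 5) (nat_lit 263) (nat_lit 5) (nat_lit 448) (nat_lit 361) (nat_lit 331))))) (XT.nd (nat_lit 156) (nat_lit 1064) (nat_lit 0) (XT.nd (nat_lit 78) (nat_lit 608) (nat_lit 0) (XT.lf (nat_lit 0) (nat_lit 3045112347) (nat_lit 532) (nat_lit 5475766726) (nat_lit 608) (nat_lit 355366522) (nat_lit 255) (nat_lit 5) (nat_lit 262) (nat_lit 5) (nat_lit 263) (nat_lit 5) (nat_lit 449) (nat_lit 361) (nat_lit 330)) (XT.lf (nat_lit 0) (nat_lit 1211345518) (nat_lit 532) (nat_lit 2065611632) (nat_lit 608) (nat_lit 5677740156) (nat_lit 247) (nat_lit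 5) (nat_lit 254) (nat_lit 5) (nat_lit 255) (nat_lit 5) (nat_lit 450) (nat_lit 361) (nat_lit 329))) (XT.nd (nat_lit 78) (nat_lit 1064) (nat_lit 0) (XT.lf (nat_lit 0) (nat_lit 6974557917) (nat_lit 608) (nat_lit 645911132) (nat_lit 76) (nat_lit 1414254243) (nat_lit 247) (nat_lit 5) (nat_lit 255) (nat_lit 5) (nat_lit 248) (nat_lit 5) (nat_lit 451) (nat_lit 361) (nat_lit 328)) (XT.nd (nat_lit 78) (nat_lit 532) (nat_lit 0) (XT.lf (nat_lit 0) (nat_lit 1614745532) (nat_lit 532) (nat_lit 2533026733) (nat_lit 76) (nat_lit 4968238718) (nat_lit 240) (nat_lit 5) (nat_lit 247) (nat_lit 5) (nat_lit 241) (nat_lit 5) (nat_lit 452) (nat_lit 361) (nat_lit 327)) (XT.lf (nat_lit 0) (nat_lit 4742253140) (nat_lit 532) (nat_lit 578508643) (nat_lit 608) (nat_lit 3878186437) (nat_lit 233) (nat_lit 5) (nat_lit 240) (nat_lit 5) (nat_lit 241) (nat_lit 5) (nat_lit 453) (nat_lit 361) (nat_lit 326)))))) (XT.nd (nat_lit 390) (nat_lit 2128) (nat_lit 0) (XT.nd (nat_lit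 156) (nat_lit 988) (nat_lit 0) (XT.nd (nat_lit 78) (nat_lit 532) (nat_lit 0) (XT.lf (nat_lit 0) (nat_lit 2858658323) (nat_lit 456) (nat_lit 6248170511) (nat_lit 532) (nat_lit 176596757) (nat_lit 227) (nat_lit 5) (nat_lit 233) (nat_lit 5) (nat_lit 234) (nat_lit 5) (nat_lit 454) (nat_lit 361) (nat_lit 325)) (XT.lf (nat_lit 0) (nat_lit 923261877) (nat_lit 456) (nat_lit 2619046404) (nat_lit 532) (nat_lit 5827007174) (nat_lit 220) (nat_lit 5) (nat_lit 226) (nat_lit 5) (nat_lit 227) (nat_lit 5) (nat_lit 455) (nat_lit 361) (nat_lit 324))) (XT.nd (nat_lit 78) (nat_lit 988) (nat_lit 0) (XT.lf (nat_lit 0) (nat_lit 7334555636) (nat_lit 532) (nat_lit 1032733890) (nat_lit 76) (nat_lit 1089583669) (nat_lit 220) (nat_lit 5) (nat_lit 227) (nat_lit 5) (nat_lit 221) (nat_lit 5) (nat_lit 456) (nat_lit 361) (nat_lit 323)) (XT.nd (nat_lit 78) (nat_lit 456) (nat_lit 0) (XT.lf (nat_lit 0) (nat_lit 1646387880) (nat_lit 532) (nat_lit 3031786092) (nat_lit 76)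 (nat_lit 4867560084) (nat_lit 213) (nat_lit 5) (nat_lit 220) (nat_lit 5) (nat_lit 214) (nat_lit 5) (nat_lit 457) (nat_lit 361) (nat_lit 322)) (XT.lf (nat_lit 0) (nat_lit 4562818890) (nat_lit 456) (nat_lit 887882486) (nat_lit 532) (nat_lit 4185617150) (nat_lit 207) (nat_lit 5) (nat_lit 213) (nat_lit 5) (nat_lit 214) (nat_lit 5) (nat_lit 458) (nat_lit 361) (nat_lit 321))))) (XT.nd (nat_lit 234) (nat_lit 1216) (nat_lit 0) (XT.nd (nat_lit 78) (nat_lit 532) (nat_lit 0) (XT.lf (nat_lit 0) (nat_lit 2563688493) (nat_lit 380) (nat_lit 6776215337) (nat_lit 456) (nat_lit 388634802) (nat_lit 202) (nat_lit 5) (nat_lit 207) (nat_lit 5) (nat_lit 208) (nat_lit 5) (nat_lit 459) (nat_lit 361) (nat_lit 320)) (XT.nd (nat_lit 78) (nat_lit 0) (nat_lit 0) (XT.lf (nat_lit 0) (nat_lit 505652526) (nat_lit 456) (nat_lit 2928867233) (nat_lit 532) (nat_lit 6387712343) (nat_lit 195) (nat_lit 5) (nat_lit 201) (nat_lit 5) (nat_lit 202) (nat_lit 5) (nat_lit 460) (nat_lit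 361) (nat_lit 319)) (XT.lf (nat_lit 0) (nat_lit 7336593798) (nat_lit 532) (nat_lit 1572527277) (nat_lit 76) (nat_lit 1008473784) (nat_lit 195) (nat_lit 5) (nat_lit 202) (nat_lit 5) (nat_lit 196) (nat_lit 5) (nat_lit 461) (nat_lit 361) (nat_lit 318)))) (XT.nd (nat_lit 78) (nat_lit 760) (nat_lit 0) (XT.lf (nat_lit 0) (nat_lit 1299002772) (nat_lit 456) (nat_lit 3704842317) (nat_lit 76) (nat_lit 5010566089) (nat_lit 189) (nat_lit 5) (nat_lit 195) (nat_lit 5) (nat_lit 190) (nat_lit 5) (nat_lit 462) (nat_lit 361) (nat_lit 317)) (XT.nd (nat_lit 78) (nat_lit 380) (nat_lit 0) (XT.lf (nat_lit 0) (nat_lit 4224177039) (nat_lit 380) (nat_lit 989812689) (nat_lit 456) (nat_lit 4898994034) (nat_lit 184) (nat_lit 5) (nat_lit 189) (nat_lit 5) (nat_lit 190) (nat_lit 5) (nat_lit 463) (nat_lit 361) (nat_lit 316)) (XT.lf (nat_lit 0) (nat_lit 2083969439) (nat_lit 380) (nat_lit 7136157908) (nat_lit 456) (nat_lit 993143432) (nat_lit 179) (nat_lit 5) (nat_lit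 184) (nat_lit 5) (nat_lit 185) (nat_lit 5) (nat_lit 464) (nat_lit 361) (nat_lit 315))))))))
noncomputable def xc53 : XT := (XT.nd (nat_lit 1560) (nat_lit 4028) (nat_lit 0) (XT.nd (nat_lit 780) (nat_lit 2280) (nat_lit 0) (XT.nd (nat_lit 390) (nat_lit 1444) (nat_lit 0) (XT.nd (nat_lit 156) (nat_lit 1064) (nat_lit 0) (XT.nd (nat_lit 78) (nat_lit 380) (nat_lit 0) (XT.lf (nat_lit 0) (nat_lit 2952204547) (nat_lit 456) (nat_lit 117124285) (nat_lit 76) (nat_lit 7245834225) (nat_lit 178) (nat_lit 5) (nat_lit 184) (nat_lit 5) (nat_lit 179) (nat_lit 5) (nat_lit 465) (nat_lit 361) (nat_lit 314)) (XT.lf (nat_lit 0) (nat_lit 6978056516) (nat_lit 456) (nat_lit 2342020392) (nat_lit 76) (nat_lit 1098587075) (nat_lit 173) (nat_lit 5) (nat_lit 179) (nat_lit 5) (nat_lit 174) (nat_lit 5) (nat_lit 466) (nat_lit 361) (nat_lit 313))) (XT.nd (nat_lit 78) (nat_lit 684) (nat_lit 0) (XT.lf (nat_lit 0) (nat_lit 567774861) (nat_lit 380) (nat_lit 4629982817) (nat_lit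 76) (nat_lit 5326105881) (nat_lit 168) (nat_lit 5) (nat_lit 173) (nat_lit 5) (nat_lit 169) (nat_lit 5) (nat_lit 467) (nat_lit 361) (nat_lit 312)) (XT.nd (nat_lit 78) (nat_lit 304) (nat_lit 0) (XT.lf (nat_lit 0) (nat_lit 3649259318) (nat_lit 380) (nat_lit 956099761) (nat_lit 456) (nat_lit 6025451120) (nat_lit 163) (nat_lit 5) (nat_lit 168) (nat_lit 5) (nat_lit 169) (nat_lit 5) (nat_lit 468) (nat_lit 361) (nat_lit 311)) (XT.lf (nat_lit 0) (nat_lit 1341735157) (nat_lit 304) (nat_lit 7399616989) (nat_lit 380) (nat_lit 1998190483) (nat_lit 159) (nat_lit 5) (nat_lit 163) (nat_lit 5) (nat_lit 164) (nat_lit 5) (nat_lit 469) (nat_lit 361) (nat_lit 310))))) (XT.nd (nat_lit 156) (nat_lit 988) (nat_lit 0) (XT.nd (nat_lit 78) (nat_lit 380) (nat_lit 0) (XT.lf (nat_lit 0) (nat_lit 2091343476) (nat_lit 380) (nat_lit 1015190652) (nat_lit 76) (nat_lit 7743453717) (nat_lit 158) (nat_lit 5) (nat_lit 163) (nat_lit 5) (nat_lit 159) (nat_lit 5) (nat_lit 470)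 (nat_lit 361) (nat_lit 309)) (XT.lf (nat_lit 0) (nat_lit 6250230474) (nat_lit 456) (nat_lit 3419946444) (nat_lit 76) (nat_lit 1291914522) (nat_lit 153) (nat_lit 5) (nat_lit 159) (nat_lit 5) (nat_lit 154) (nat_lit 5) (nat_lit 471) (nat_lit 361) (nat_lit 308))) (XT.nd (nat_lit 78) (nat_lit 684) (nat_lit 0) (XT.lf (nat_lit 0) (nat_lit 5185190874) (nat_lit 304) (nat_lit 5325191480) (nat_lit 380) (nat_lit 565693013) (nat_lit 149) (nat_lit 5) (nat_lit 153) (nat_lit 5) (nat_lit 154) (nat_lit 5) (nat_lit 472) (nat_lit 361) (nat_lit 307)) (XT.nd (nat_lit 78) (nat_lit 304) (nat_lit 0) (XT.lf (nat_lit 0) (nat_lit 2758762635) (nat_lit 304) (nat_lit 854701415) (nat_lit 380) (nat_lit 7578436979) (nat_lit 144) (nat_lit 5) (nat_lit 148) (nat_lit 5) (nat_lit 149) (nat_lit 5) (nat_lit 473) (nat_lit 361) (nat_lit 306)) (XT.lf (nat_lit 0) (nat_lit 256704352) (nat_lit 304) (nat_lit 7634756122) (nat_lit 380) (nat_lit 3418051330) (nat_lit 140) (nat_lit 5) (nat_lit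 144) (nat_lit 5) (nat_lit 145) (nat_lit 5) (nat_lit 474) (nat_lit 361) (nat_lit 305)))))) (XT.nd (nat_lit 390) (nat_lit 1216) (nat_lit 0) (XT.nd (nat_lit 156) (nat_lit 684) (nat_lit 0) (XT.nd (nat_lit 78) (nat_lit 304) (nat_lit 0) (XT.lf (nat_lit 0) (nat_lit 834750013) (nat_lit 380) (nat_lit 2275782429) (nat_lit 76) (nat_lit 8318434449) (nat_lit 139) (nat_lit 5) (nat_lit 144) (nat_lit 5) (nat_lit 140) (nat_lit 5) (nat_lit 475) (nat_lit 361) (nat_lit 304)) (XT.lf (nat_lit 0) (nat_lit 5138472073) (nat_lit 380) (nat_lit 4888010575) (nat_lit 76) (nat_lit 1523643919) (nat_lit 135) (nat_lit 5) (nat_lit 140) (nat_lit 5) (nat_lit 136) (nat_lit 5) (nat_lit 476) (nat_lit 361) (nat_lit 303))) (XT.nd (nat_lit 78) (nat_lit 380) (nat_lit 0) (XT.lf (nat_lit 0) (nat_lit 4099777074) (nat_lit 304) (nat_lit 5449520008) (nat_lit 380) (nat_lit 2123991784) (nat_lit 131) (nat_lit 5) (nat_lit 135) (nat_lit 5) (nat_lit 136) (nat_lit 5) (nat_lit 477) (nat_lit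 361) (nat_lit 302)) (XT.nd (nat_lit 78) (nat_lit 0) (nat_lit 0) (XT.lf (nat_lit 0) (nat_lit 1470177460) (nat_lit 304) (nat_lit 750840283) (nat_lit 380) (nat_lit 9577582670) (nat_lit 126) (nat_lit 5) (nat_lit 130) (nat_lit 5) (nat_lit 131) (nat_lit 5) (nat_lit 478) (nat_lit 361) (nat_lit 301)) (XT.lf (nat_lit 0) (nat_lit 6660628317) (nat_lit 380) (nat_lit 1238429855) (nat_lit 76) (nat_lit 4026356403) (nat_lit 126) (nat_lit 5) (nat_lit 131) (nat_lit 5) (nat_lit 127) (nat_lit 5) (nat_lit 479) (nat_lit 361) (nat_lit 300))))) (XT.nd (nat_lit 156) (nat_lit 608) (nat_lit 0) (XT.nd (nat_lit 78) (nat_lit 380) (nat_lit 0) (XT.lf (nat_lit 0) (nat_lit 8065758168) (nat_lit 228) (nat_lit 3140136746) (nat_lit 304) (nat_lit 848532832) (nat_lit 123) (nat_lit 5) (nat_lit 126) (nat_lit 5) (nat_lit 127) (nat_lit 5) (nat_lit 480) (nat_lit 361) (nat_lit 299)) (XT.lf (nat_lit 0) (nat_lit 3622293562) (nat_lit 380) (nat_lit 6831849167) (nat_lit 76) (nat_lit 1731119750)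 (nat_lit 118) (nat_lit 5) (nat_lit 123) (nat_lit 5) (nat_lit 119) (nat_lit 5) (nat_lit 481) (nat_lit 361) (nat_lit 298))) (XT.nd (nat_lit 78) (nat_lit 380) (nat_lit 0) (XT.lf (nat_lit 0) (nat_lit 2556492046) (nat_lit 228) (nat_lit 5638808600) (nat_lit 304) (nat_lit 4122818564) (nat_lit 115) (nat_lit 5) (nat_lit 118) (nat_lit 5) (nat_lit 119) (nat_lit 5) (nat_lit 482) (nat_lit 361) (nat_lit 297)) (XT.nd (nat_lit 78) (nat_lit 304) (nat_lit 0) (XT.lf (nat_lit 0) (nat_lit 406816853) (nat_lit 304) (nat_lit 299202000) (nat_lit 76) (nat_lit 11747441312) (nat_lit 114) (nat_lit 5) (nat_lit 118) (nat_lit 5) (nat_lit 115) (nat_lit 5) (nat_lit 483) (nat_lit 361) (nat_lit 296)) (XT.lf (nat_lit 0) (nat_lit 5021930700) (nat_lit 380) (nat_lit 3238222180) (nat_lit 76) (nat_lit 4329808218) (nat_lit 110) (nat_lit 5) (nat_lit 115) (nat_lit 5) (nat_lit 111) (nat_lit 5) (nat_lit 484) (nat_lit 361) (nat_lit 295))))))) (XT.nd (nat_lit 780) (nat_lit 1824) (nat_lit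 0) (XT.nd (nat_lit 390) (nat_lit 1064) (nat_lit 0) (XT.nd (nat_lit 156) (nat_lit 532) (nat_lit 0) (XT.nd (nat_lit 78) (nat_lit 380) (nat_lit 0) (XT.lf (nat_lit 0) (nat_lit 6483384094) (nat_lit 228) (nat_lit 3255556058) (nat_lit 304) (nat_lit 2990060031) (nat_lit 107) (nat_lit 5) (nat_lit 110) (nat_lit 5) (nat_lit 111) (nat_lit 5) (nat_lit 485) (nat_lit 361) (nat_lit 294)) (XT.lf (nat_lit 0) (nat_lit 1675373355) (nat_lit 380) (nat_lit 9341992271) (nat_lit 76) (nat_lit 1852877737) (nat_lit 102) (nat_lit 5) (nat_lit 107) (nat_lit 5) (nat_lit 103) (nat_lit 5) (nat_lit 486) (nat_lit 361) (nat_lit 293))) (XT.nd (nat_lit 78) (nat_lit 304) (nat_lit 0) (XT.lf (nat_lit 0) (nat_lit 465466660) (nat_lit 228) (nat_lit 5956444382) (nat_lit 304) (nat_lit 6591448426) (nat_lit 99) (nat_lit 5) (nat_lit 102) (nat_lit 5) (nat_lit 103) (nat_lit 5) (nat_lit 487) (nat_lit 361) (nat_lit 292)) (XT.nd (nat_lit 78) (nat_lit 304) (nat_lit 0) (XT.lf (nat_lit 0) (nat_lit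 10528371695) (nat_lit 228) (nat_lit 759048605) (nat_lit 304) (nat_lit 1871436780) (nat_lit 99) (nat_lit 5) (nat_lit 102) (nat_lit 5) (nat_lit 103) (nat_lit 5) (nat_lit 488) (nat_lit 361) (nat_lit 291)) (XT.lf (nat_lit 0) (nat_lit 2944673572) (nat_lit 304) (nat_lit 5838451006) (nat_lit 76) (nat_lit 4522951988) (nat_lit 95) (nat_lit 5) (nat_lit 99) (nat_lit 5) (nat_lit 96) (nat_lit 5) (nat_lit 489) (nat_lit 361) (nat_lit 290))))) (XT.nd (nat_lit 156) (nat_lit 608) (nat_lit 0) (XT.nd (nat_lit 78) (nat_lit 228) (nat_lit 0) (XT.lf (nat_lit 0) (nat_lit 4319929436) (nat_lit 228) (nat_lit 3524978418) (nat_lit 304) (nat_lit 5610827980) (nat_lit 92) (nat_lit 5) (nat_lit 95) (nat_lit 5) (nat_lit 96) (nat_lit 5) (nat_lit 490) (nat_lit 361) (nat_lit 289)) (XT.lf (nat_lit 0) (nat_lit 1088304518) (nat_lit 228) (nat_lit 11775405903) (nat_lit 304) (nat_lit 744266593) (nat_lit 89) (nat_lit 5) (nat_lit 92) (nat_lit 5) (nat_lit 93) (nat_lit 5) (nat_lit 491)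 (nat_lit 361) (nat_lit 288))) (XT.nd (nat_lit 78) (nat_lit 532) (nat_lit 0) (XT.lf (nat_lit 0) (nat_lit 4211527688) (nat_lit 304) (nat_lit 2239299137) (nat_lit 76) (nat_lit 7310943404) (nat_lit 88) (nat_lit 5) (nat_lit 92) (nat_lit 5) (nat_lit 89) (nat_lit 5) (nat_lit 492) (nat_lit 361) (nat_lit 287)) (XT.nd (nat_lit 78) (nat_lit 304) (nat_lit 0) (XT.lf (nat_lit 0) (nat_lit 8284869826) (nat_lit 228) (nat_lit 988330451) (nat_lit 304) (nat_lit 4645006077) (nat_lit 85) (nat_lit 5) (nat_lit 88) (nat_lit 5) (nat_lit 89) (nat_lit 5) (nat_lit 493) (nat_lit 361) (nat_lit 286)) (XT.lf (nat_lit 0) (nat_lit 393918380) (nat_lit 304) (nat_lit 9137864110) (nat_lit 76) (nat_lit 4545136522) (nat_lit 81) (nat_lit 5) (nat_lit 85) (nat_lit 5) (nat_lit 82) (nat_lit 5) (nat_lit 494) (nat_lit 361) (nat_lit 285)))))) (XT.nd (nat_lit 390) (nat_lit 912) (nat_lit 0) (XT.nd (nat_lit 156) (nat_lit 684) (nat_lit 0) (XT.nd (nat_lit 78) (nat_lit 0) (nat_lit 0) (XT.lf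 (nat_lit 0) (nat_lit 1477304573) (nat_lit 228) (nat_lit 4011474580) (nat_lit 304) (nat_lit 8749065612) (nat_lit 78) (nat_lit 5) (nat_lit 81) (nat_lit 5) (nat_lit 82) (nat_lit 5) (nat_lit 495) (nat_lit 361) (nat_lit 284)) (XT.lf (nat_lit 0) (nat_lit 10720995959) (nat_lit 304) (nat_lit 2048871328) (nat_lit 76) (nat_lit 1631412570) (nat_lit 78) (nat_lit 5) (nat_lit 82) (nat_lit 5) (nat_lit 79) (nat_lit 5) (nat_lit 496) (nat_lit 361) (nat_lit 283))) (XT.nd (nat_lit 78) (nat_lit 380) (nat_lit 0) (XT.lf (nat_lit 0) (nat_lit 1518962455) (nat_lit 304) (nat_lit 5674326867) (nat_lit 76) (nat_lit 7373528283) (nat_lit 74) (nat_lit 5) (nat_lit 78) (nat_lit 5) (nat_lit 75) (nat_lit 5) (nat_lit 497) (nat_lit 361) (nat_lit 282)) (XT.nd (nat_lit 78) (nat_lit 228) (nat_lit 0) (XT.lf (nat_lit 0) (nat_lit 5325852368) (nat_lit 152) (nat_lit 1459522184) (nat_lit 228) (nat_lit 7949555827) (nat_lit 72) (nat_lit 5) (nat_lit 74) (nat_lit 5) (nat_lit 75) (nat_lit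 5) (nat_lit 498) (nat_lit 361) (nat_lit 281)) (XT.lf (nat_lit 0) (nat_lit 1645440766) (nat_lit 228) (nat_lit 10553282425) (nat_lit 304) (nat_lit 2706850052) (nat_lit 69) (nat_lit 5) (nat_lit 72) (nat_lit 5) (nat_lit 73) (nat_lit 5) (nat_lit 499) (nat_lit 361) (nat_lit 280))))) (XT.nd (nat_lit 234) (nat_lit 456) (nat_lit 0) (XT.nd (nat_lit 78) (nat_lit 380) (nat_lit 0) (XT.lf (nat_lit 0) (nat_lit 2643450277) (nat_lit 304) (nat_lit 2121753443) (nat_lit 76) (nat_lit 10313334863) (nat_lit 68) (nat_lit 5) (nat_lit 72) (nat_lit 5) (nat_lit 69) (nat_lit 5) (nat_lit 500) (nat_lit 361) (nat_lit 279)) (XT.nd (nat_lit 78) (nat_lit 228) (nat_lit 0) (XT.lf (nat_lit 0) (nat_lit 8097375264) (nat_lit 228) (nat_lit 5982138375) (nat_lit 76) (nat_lit 1174434477) (nat_lit 66) (nat_lit 5) (nat_lit 69) (nat_lit 5) (nat_lit 67) (nat_lit 5) (nat_lit 501) (nat_lit 361) (nat_lit 278)) (XT.lf (nat_lit 0) (nat_lit 5465880462) (nat_lit 228) (nat_lit 8240826106) (nat_lit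 304) (nat_lit 1725232715) (nat_lit 63) (nat_lit 5) (nat_lit 66) (nat_lit 5) (nat_lit 67) (nat_lit 5) (nat_lit 502) (nat_lit 361) (nat_lit 277)))) (XT.nd (nat_lit 78) (nat_lit 228) (nat_lit 0) (XT.lf (nat_lit 0) (nat_lit 1542838139) (nat_lit 152) (nat_lit 2237288018) (nat_lit 228) (nat_lit 11832560304) (nat_lit 60) (nat_lit 5) (nat_lit 62) (nat_lit 5) (nat_lit 63) (nat_lit 5) (nat_lit 503) (nat_lit 361) (nat_lit 276)) (XT.nd (nat_lit 78) (nat_lit 228) (nat_lit 0) (XT.lf (nat_lit 0) (nat_lit 9430153556) (nat_lit 228) (nat_lit 2479521913) (nat_lit 76) (nat_lit 3885991794) (nat_lit 60) (nat_lit 5) (nat_lit 63) (nat_lit 5) (nat_lit 61) (nat_lit 5) (nat_lit 504) (nat_lit 361) (nat_lit 275)) (XT.lf (nat_lit 0) (nat_lit 9388459593) (nat_lit 228) (nat_lit 5846266698) (nat_lit 304) (nat_lit 746750494) (nat_lit 57) (nat_lit 5) (nat_lit 60) (nat_lit 5) (nat_lit 61) (nat_lit 5) (nat_lit 505) (nat_lit 361) (nat_lit 274))))))))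
noncomputable def xc54 : XT := (XT.nd (nat_lit 53664) (nat_lit 0) (nat_lit 13908) (XT.nd (nat_lit 52884) (nat_lit 0) (nat_lit 24776) (XT.nd (nat_lit 52494) (nat_lit 0) (nat_lit 30780) (XT.nd (nat_lit 156) (nat_lit 76) (nat_lit 0) (XT.nd (nat_lit 78) (nat_lit 228) (nat_lit 0) (XT.lf (nat_lit 0) (nat_lit 4938766071) (nat_lit 228) (nat_lit 10840893563) (nat_lit 76) (nat_lit 390300639) (nat_lit 54) (nat_lit 5) (nat_lit 57) (nat_lit 5) (nat_lit 55) (nat_lit 5) (nat_lit 506) (nat_lit 361) (nat_lit 273)) (XT.lf (nat_lit 0) (nat_lit 1125850410) (nat_lit 228) (nat_lit 9658614960) (nat_lit 304) (nat_lit 5576519913) (nat_lit 51) (nat_lit 5) (nat_lit 54) (nat_lit 5) (nat_lit 55) (nat_lit 5) (nat_lit 507) (nat_lit 361) (nat_lit 272))) (XT.nd (nat_lit 52182) (nat_lit 0) (nat_lit 35796) (XT.lf (nat_lit 0) (nat_lit 227909986) (nat_lit 304) (nat_lit 3139853471) (nat_lit 76) (nat_lit 13187259094) (nat_lit 50) (nat_lit 5) (nat_lit 54) (nat_lit 5) (nat_lit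 51) (nat_lit 5) (nat_lit 508) (nat_lit 361) (nat_lit 271)) (XT.nd (nat_lit 78) (nat_lit 1748) (nat_lit 0) (XT.lf (nat_lit 0) (nat_lit 1056792903) (nat_lit 1748) (nat_lit 1414615098) (nat_lit 0) (nat_lit 1056792903) (nat_lit 544) (nat_lit 5) (nat_lit 567) (nat_lit 4) (nat_lit 544) (nat_lit 4) (nat_lit 416) (nat_lit 362) (nat_lit 362)) (XT.lf (nat_lit 0) (nat_lit 2446038810) (nat_lit 1748) (nat_lit 3211759398) (nat_lit 1748) (nat_lit 1433414588) (nat_lit 521) (nat_lit 4) (nat_lit 544) (nat_lit 5) (nat_lit 544) (nat_lit 4) (nat_lit 417) (nat_lit 362) (nat_lit 361))))) (XT.nd (nat_lit 156) (nat_lit 3116) (nat_lit 0) (XT.nd (nat_lit 78) (nat_lit 0) (nat_lit 0) (XT.lf (nat_lit 0) (nat_lit 662555612) (nat_lit 1824) (nat_lit 1408917519) (nat_lit 1900) (nat_lit 5055899270) (nat_lit 496) (nat_lit 5) (nat_lit 520) (nat_lit 5) (nat_lit 521) (nat_lit 4) (nat_lit 418) (nat_lit 362) (nat_lit 360)) (XT.lf (nat_lit 0) (nat_lit 5592391158) (nat_lit 1900)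 (nat_lit 1108519716) (nat_lit 0) (nat_lit 463852308) (nat_lit 496) (nat_lit 5) (nat_lit 521) (nat_lit 4) (nat_lit 496) (nat_lit 4) (nat_lit 419) (nat_lit 362) (nat_lit 359))) (XT.nd (nat_lit 78) (nat_lit 1900) (nat_lit 0) (XT.lf (nat_lit 0) (nat_lit 1924395753) (nat_lit 1216) (nat_lit 2884175147) (nat_lit 76) (nat_lit 2394682684) (nat_lit 480) (nat_lit 5) (nat_lit 496) (nat_lit 5) (nat_lit 481) (nat_lit 4) (nat_lit 420) (nat_lit 362) (nat_lit 358)) (XT.nd (nat_lit 78) (nat_lit 988) (nat_lit 0) (XT.lf (nat_lit 0) (nat_lit 2580444105) (nat_lit 912) (nat_lit 2846585775) (nat_lit 988) (nat_lit 1816136345) (nat_lit 468) (nat_lit 5) (nat_lit 480) (nat_lit 5) (nat_lit 481) (nat_lit 4) (nat_lit 421) (nat_lit 362) (nat_lit 357)) (XT.lf (nat_lit 0) (nat_lit 838440350) (nat_lit 912) (nat_lit 812967792) (nat_lit 988) (nat_lit 5633084727) (nat_lit 455) (nat_lit 5) (nat_lit 467) (nat_lit 5) (nat_lit 468) (nat_lit 5) (nat_lit 422) (nat_lit 362) (nat_lit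 356)))))) (XT.nd (nat_lit 390) (nat_lit 3268) (nat_lit 0) (XT.nd (nat_lit 156) (nat_lit 1824) (nat_lit 0) (XT.nd (nat_lit 78) (nat_lit 912) (nat_lit 0) (XT.lf (nat_lit 0) (nat_lit 5137660258) (nat_lit 988) (nat_lit 905682874) (nat_lit 76) (nat_lit 1283589326) (nat_lit 455) (nat_lit 5) (nat_lit 468) (nat_lit 5) (nat_lit 456) (nat_lit 4) (nat_lit 423) (nat_lit 362) (nat_lit 355)) (XT.lf (nat_lit 0) (nat_lit 1277235055) (nat_lit 912) (nat_lit 2647687580) (nat_lit 76) (nat_lit 3445702846) (nat_lit 443) (nat_lit 5) (nat_lit 455) (nat_lit 5) (nat_lit 444) (nat_lit 5) (nat_lit 424) (nat_lit 362) (nat_lit 354))) (XT.nd (nat_lit 78) (nat_lit 912) (nat_lit 0) (XT.lf (nat_lit 0) (nat_lit 3015298128) (nat_lit 912) (nat_lit 1729833842) (nat_lit 988) (nat_lit 2670543496) (nat_lit 431) (nat_lit 5) (nat_lit 443) (nat_lit 5) (nat_lit 444) (nat_lit 5) (nat_lit 425) (nat_lit 362) (nat_lit 353)) (XT.nd (nat_lit 78) (nat_lit 0) (nat_lit 0) (XT.lf (nat_lit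 0) (nat_lit 775864340) (nat_lit 912) (nat_lit 6159318199) (nat_lit 76) (nat_lit 527019964) (nat_lit 419) (nat_lit 5) (nat_lit 431) (nat_lit 5) (nat_lit 420) (nat_lit 5) (nat_lit 426) (nat_lit 362) (nat_lit 352)) (XT.lf (nat_lit 0) (nat_lit 4233432363) (nat_lit 912) (nat_lit 430719168) (nat_lit 76) (nat_lit 2845595693) (nat_lit 419) (nat_lit 5) (nat_lit 431) (nat_lit 5) (nat_lit 420) (nat_lit 5) (nat_lit 427) (nat_lit 362) (nat_lit 351))))) (XT.nd (nat_lit 156) (nat_lit 1596) (nat_lit 0) (XT.nd (nat_lit 78) (nat_lit 760) (nat_lit 0) (XT.lf (nat_lit 0) (nat_lit 172242404) (nat_lit 912) (nat_lit 2147229522) (nat_lit 76) (nat_lit 5239285064) (nat_lit 407) (nat_lit 5) (nat_lit 419) (nat_lit 5) (nat_lit 408) (nat_lit 5) (nat_lit 428) (nat_lit 362) (nat_lit 350)) (XT.lf (nat_lit 0) (nat_lit 3612128475) (nat_lit 836) (nat_lit 3885954039) (nat_lit 76) (nat_lit 110906758) (nat_lit 397) (nat_lit 5) (nat_lit 408) (nat_lit 5) (nat_lit 398) (nat_lit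 5) (nat_lit 429) (nat_lit 362) (nat_lit 349))) (XT.nd (nat_lit 78) (nat_lit 836) (nat_lit 0) (XT.lf (nat_lit 0) (nat_lit 2019101478) (nat_lit 760) (nat_lit 5083741842) (nat_lit 836) (nat_lit 557742258) (nat_lit 387) (nat_lit 5) (nat_lit 397) (nat_lit 5) (nat_lit 398) (nat_lit 5) (nat_lit 430) (nat_lit 362) (nat_lit 348)) (XT.nd (nat_lit 78) (nat_lit 0) (nat_lit 0) (XT.lf (nat_lit 0) (nat_lit 294648351) (nat_lit 760) (nat_lit 2584370618) (nat_lit 836) (nat_lit 4834460710) (nat_lit 376) (nat_lit 5) (nat_lit 386) (nat_lit 5) (nat_lit 387) (nat_lit 5) (nat_lit 431) (nat_lit 362) (nat_lit 347)) (XT.lf (nat_lit 0) (nat_lit 6350577154) (nat_lit 760) (nat_lit 4422947) (nat_lit 836) (nat_lit 1412798770) (nat_lit 376) (nat_lit 5) (nat_lit 386) (nat_lit 5) (nat_lit 387) (nat_lit 5) (nat_lit 432) (nat_lit 362) (nat_lit 346))))))) (XT.nd (nat_lit 780) (nat_lit 5168) (nat_lit 0) (XT.nd (nat_lit 390) (nat_lit 2660) (nat_lit 0) (XT.nd (nat_lit 156) (nat_lit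 1520) (nat_lit 0) (XT.nd (nat_lit 78) (nat_lit 684) (nat_lit 0) (XT.lf (nat_lit 0) (nat_lit 2038614772) (nat_lit 836) (nat_lit 3159485890) (nat_lit 76) (nat_lit 2625062793) (nat_lit 365) (nat_lit 5) (nat_lit 376) (nat_lit 5) (nat_lit 366) (nat_lit 5) (nat_lit 433) (nat_lit 362) (nat_lit 345)) (XT.lf (nat_lit 0) (nat_lit 2963724284) (nat_lit 684) (nat_lit 2546797603) (nat_lit 760) (nat_lit 2369519018) (nat_lit 356) (nat_lit 5) (nat_lit 365) (nat_lit 5) (nat_lit 366) (nat_lit 5) (nat_lit 434) (nat_lit 362) (nat_lit 344))) (XT.nd (nat_lit 78) (nat_lit 760) (nat_lit 0) (XT.lf (nat_lit 0) (nat_lit 1071670415) (nat_lit 760) (nat_lit 6687982578) (nat_lit 76) (nat_lit 178808937) (nat_lit 346) (nat_lit 5) (nat_lit 356) (nat_lit 5) (nat_lit 347) (nat_lit 5) (nat_lit 435) (nat_lit 362) (nat_lit 343)) (XT.nd (nat_lit 78) (nat_lit 760) (nat_lit 0) (XT.lf (nat_lit 0) (nat_lit 4542468708) (nat_lit 760) (nat_lit 495460230) (nat_lit 76) (nat_lit 2959958930)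 (nat_lit 346) (nat_lit 5) (nat_lit 356) (nat_lit 5) (nat_lit 347) (nat_lit 5) (nat_lit 436) (nat_lit 362) (nat_lit 342)) (XT.lf (nat_lit 0) (nat_lit 5104427) (nat_lit 760) (nat_lit 2232706936) (nat_lit 76) (nat_lit 5821063002) (nat_lit 336) (nat_lit 5) (nat_lit 346) (nat_lit 5) (nat_lit 337) (nat_lit 5) (nat_lit 437) (nat_lit 362) (nat_lit 341))))) (XT.nd (nat_lit 156) (nat_lit 1368) (nat_lit 0) (XT.nd (nat_lit 78) (nat_lit 608) (nat_lit 0) (XT.lf (nat_lit 0) (nat_lit 3466790050) (nat_lit 760) (nat_lit 4005758522) (nat_lit 76) (nat_lit 648510823) (nat_lit 327) (nat_lit 5) (nat_lit 337) (nat_lit 5) (nat_lit 328) (nat_lit 5) (nat_lit 438) (nat_lit 362) (nat_lit 340)) (XT.lf (nat_lit 0) (nat_lit 2380707008) (nat_lit 608) (nat_lit 4606718042) (nat_lit 684) (nat_lit 1197268761) (nat_lit 319) (nat_lit 5) (nat_lit 327) (nat_lit 5) (nat_lit 328) (nat_lit 5) (nat_lit 439) (nat_lit 362) (nat_lit 339))) (XT.nd (nat_lit 78) (nat_lit 684) (nat_lit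 0) (XT.lf (nat_lit 0) (nat_lit 620775443) (nat_lit 608) (nat_lit 1653261474) (nat_lit 684) (nat_lit 5975747414) (nat_lit 310) (nat_lit 5) (nat_lit 318) (nat_lit 5) (nat_lit 319) (nat_lit 5) (nat_lit 440) (nat_lit 362) (nat_lit 338)) (XT.nd (nat_lit 78) (nat_lit 684) (nat_lit 0) (XT.lf (nat_lit 0) (nat_lit 5791912651) (nat_lit 684) (nat_lit 1152417504) (nat_lit 76) (nat_lit 1371824719) (nat_lit 310) (nat_lit 5) (nat_lit 319) (nat_lit 5) (nat_lit 311) (nat_lit 5) (nat_lit 441) (nat_lit 362) (nat_lit 337)) (XT.lf (nat_lit 0) (nat_lit 975669435) (nat_lit 684) (nat_lit 2947570329) (nat_lit 76) (nat_lit 4460634835) (nat_lit 301) (nat_lit 5) (nat_lit 310) (nat_lit 5) (nat_lit 302) (nat_lit 5) (nat_lit 442) (nat_lit 362) (nat_lit 336)))))) (XT.nd (nat_lit 390) (nat_lit 2736) (nat_lit 0) (XT.nd (nat_lit 156) (nat_lit 1292) (nat_lit 0) (XT.nd (nat_lit 78) (nat_lit 532) (nat_lit 0) (XT.lf (nat_lit 0) (nat_lit 3679586061) (nat_lit 608) (nat_lit 810348078)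 (nat_lit 684) (nat_lit 3963117785) (nat_lit 293) (nat_lit 5) (nat_lit 301) (nat_lit 5) (nat_lit 302) (nat_lit 5) (nat_lit 443) (nat_lit 362) (nat_lit 335)) (XT.lf (nat_lit 0) (nat_lit 1893367237) (nat_lit 532) (nat_lit 6175593616) (nat_lit 608) (nat_lit 454762409) (nat_lit 286) (nat_lit 5) (nat_lit 293) (nat_lit 5) (nat_lit 294) (nat_lit 5) (nat_lit 444) (nat_lit 362) (nat_lit 334))) (XT.nd (nat_lit 78) (nat_lit 608) (nat_lit 0) (XT.lf (nat_lit 0) (nat_lit 65846695) (nat_lit 608) (nat_lit 3002131163) (nat_lit 684) (nat_lit 5527720809) (nat_lit 277) (nat_lit 5) (nat_lit 285) (nat_lit 5) (nat_lit 286) (nat_lit 5) (nat_lit 445) (nat_lit 362) (nat_lit 333)) (XT.nd (nat_lit 78) (nat_lit 608) (nat_lit 0) (XT.lf (nat_lit 0) (nat_lit 6648993447) (nat_lit 684) (nat_lit 1759880721) (nat_lit 76) (nat_lit 260301097) (nat_lit 277) (nat_lit 5) (nat_lit 286) (nat_lit 5) (nat_lit 278) (nat_lit 5) (nat_lit 446) (nat_lit 362) (nat_lit 332)) (XT.lf (nat_lit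 0) (nat_lit 1538845967) (nat_lit 608) (nat_lit 3632683140) (nat_lit 76) (nat_lit 3572354740) (nat_lit 269) (nat_lit 5) (nat_lit 277) (nat_lit 5) (nat_lit 270) (nat_lit 5) (nat_lit 447) (nat_lit 362) (nat_lit 331))))) (XT.nd (nat_lit 234) (nat_lit 1596) (nat_lit 0) (XT.nd (nat_lit 78) (nat_lit 608) (nat_lit 0) (XT.lf (nat_lit 0) (nat_lit 3281831795) (nat_lit 532) (nat_lit 1842223975) (nat_lit 608) (nat_lit 3696122729) (nat_lit 262) (nat_lit 5) (nat_lit 269) (nat_lit 5) (nat_lit 270) (nat_lit 5) (nat_lit 448) (nat_lit 362) (nat_lit 330)) (XT.nd (nat_lit 78) (nat_lit 76) (nat_lit 0) (XT.lf (nat_lit 0) (nat_lit 1422908025) (nat_lit 532) (nat_lit 7351167115) (nat_lit 608) (nat_lit 124061796) (nat_lit 255) (nat_lit 5) (nat_lit 262) (nat_lit 5) (nat_lit 263) (nat_lit 5) (nat_lit 449) (nat_lit 362) (nat_lit 329)) (XT.lf (nat_lit 0) (nat_lit 3472333657) (nat_lit 608) (nat_lit 485817837) (nat_lit 76) (nat_lit 5019065010) (nat_lit 254) (nat_lit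 5) (nat_lit 262) (nat_lit 5) (nat_lit 255) (nat_lit 5) (nat_lit 450) (nat_lit 362) (nat_lit 328)))) (XT.nd (nat_lit 78) (nat_lit 1064) (nat_lit 0) (XT.lf (nat_lit 0) (nat_lit 6659238764) (nat_lit 532) (nat_lit 473426078) (nat_lit 608) (nat_lit 1925323038) (nat_lit 247) (nat_lit 5) (nat_lit 254) (nat_lit 5) (nat_lit 255) (nat_lit 5) (nat_lit 451) (nat_lit 362) (nat_lit 327)) (XT.nd (nat_lit 78) (nat_lit 532) (nat_lit 0) (XT.lf (nat_lit 0) (nat_lit 1708391844) (nat_lit 532) (nat_lit 4366342665) (nat_lit 76) (nat_lit 3065312105) (nat_lit 240) (nat_lit 5) (nat_lit 247) (nat_lit 5) (nat_lit 241) (nat_lit 5) (nat_lit 452) (nat_lit 362) (nat_lit 326)) (XT.lf (nat_lit 0) (nat_lit 2848846898) (nat_lit 532) (nat_lit 2529007606) (nat_lit 608) (nat_lit 3845860418) (nat_lit 233) (nat_lit 5) (nat_lit 240) (nat_lit 5) (nat_lit 241) (nat_lit 5) (nat_lit 453) (nat_lit 362) (nat_lit 325))))))))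
noncomputable def xc55 : XT := (XT.nd (nat_lit 1638) (nat_lit 4788) (nat_lit 0) (XT.nd (nat_lit 780) (nat_lit 3040) (nat_lit 0) (XT.nd (nat_lit 390) (nat_lit 1748) (nat_lit 0) (XT.nd (nat_lit 156) (nat_lit 1444) (nat_lit 0) (XT.nd (nat_lit 78) (nat_lit 76) (nat_lit 0) (XT.lf (nat_lit 0) (nat_lit 891920473) (nat_lit 456) (nat_lit 8222484213) (nat_lit 532) (nat_lit 194777945) (nat_lit 227) (nat_lit 5) (nat_lit 233) (nat_lit 5) (nat_lit 234) (nat_lit 5) (nat_lit 454) (nat_lit 362) (nat_lit 324)) (XT.lf (nat_lit 0) (nat_lit 3494373340) (nat_lit 532) (nat_lit 1116744225) (nat_lit 76) (nat_lit 4784557136) (nat_lit 226) (nat_lit 5) (nat_lit 233) (nat_lit 5) (nat_lit 227) (nat_lit 5) (nat_lit 455) (nat_lit 362) (nat_lit 323))) (XT.nd (nat_lit 78) (nat_lit 988) (nat_lit 0) (XT.lf (nat_lit 0) (nat_lit 6341317115) (nat_lit 456) (nat_lit 907031927) (nat_lit 532) (nat_lit 2235648831) (nat_lit 220) (nat_lit 5) (nat_lit 226) (nat_lit 5) (nat_lit 227)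 (nat_lit 5) (nat_lit 456) (nat_lit 362) (nat_lit 322)) (XT.nd (nat_lit 78) (nat_lit 456) (nat_lit 0) (XT.lf (nat_lit 0) (nat_lit 1490930403) (nat_lit 532) (nat_lit 5226226478) (nat_lit 76) (nat_lit 2856588819) (nat_lit 213) (nat_lit 5) (nat_lit 220) (nat_lit 5) (nat_lit 214) (nat_lit 5) (nat_lit 457) (nat_lit 362) (nat_lit 321)) (XT.lf (nat_lit 0) (nat_lit 2303682927) (nat_lit 456) (nat_lit 2953608503) (nat_lit 532) (nat_lit 4407797791) (nat_lit 207) (nat_lit 5) (nat_lit 213) (nat_lit 5) (nat_lit 214) (nat_lit 5) (nat_lit 458) (nat_lit 362) (nat_lit 320))))) (XT.nd (nat_lit 156) (nat_lit 1292) (nat_lit 0) (XT.nd (nat_lit 78) (nat_lit 76) (nat_lit 0) (XT.lf (nat_lit 0) (nat_lit 223278508) (nat_lit 380) (nat_lit 8871477048) (nat_lit 456) (nat_lit 663588537) (nat_lit 202) (nat_lit 5) (nat_lit 207) (nat_lit 5) (nat_lit 208) (nat_lit 5) (nat_lit 459) (nat_lit 362) (nat_lit 319)) (XT.lf (nat_lit 0) (nat_lit 3136832979) (nat_lit 456) (nat_lit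 1904704643) (nat_lit 76) (nat_lit 4811062426) (nat_lit 201) (nat_lit 5) (nat_lit 207) (nat_lit 5) (nat_lit 202) (nat_lit 5) (nat_lit 460) (nat_lit 362) (nat_lit 318))) (XT.nd (nat_lit 78) (nat_lit 836) (nat_lit 0) (XT.lf (nat_lit 0) (nat_lit 5881102303) (nat_lit 456) (nat_lit 1115807413) (nat_lit 532) (nat_lit 2951893036) (nat_lit 195) (nat_lit 5) (nat_lit 201) (nat_lit 5) (nat_lit 202) (nat_lit 5) (nat_lit 461) (nat_lit 362) (nat_lit 317)) (XT.nd (nat_lit 78) (nat_lit 380) (nat_lit 0) (XT.lf (nat_lit 0) (nat_lit 886365540) (nat_lit 456) (nat_lit 6290460459) (nat_lit 76) (nat_lit 2869773425) (nat_lit 189) (nat_lit 5) (nat_lit 195) (nat_lit 5) (nat_lit 190) (nat_lit 5) (nat_lit 462) (nat_lit 362) (nat_lit 316)) (XT.lf (nat_lit 0) (nat_lit 1568920437) (nat_lit 380) (nat_lit 3192799543) (nat_lit 456) (nat_lit 5384244679) (nat_lit 184) (nat_lit 5) (nat_lit 189) (nat_lit 5) (nat_lit 190) (nat_lit 5) (nat_lit 463) (nat_lit 362) (nat_lit 315))))))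 (XT.nd (nat_lit 390) (nat_lit 1444) (nat_lit 0) (XT.nd (nat_lit 156) (nat_lit 1140) (nat_lit 0) (XT.nd (nat_lit 78) (nat_lit 456) (nat_lit 0) (XT.lf (nat_lit 0) (nat_lit 8717764977) (nat_lit 456) (nat_lit 652244703) (nat_lit 76) (nat_lit 877243848) (nat_lit 184) (nat_lit 5) (nat_lit 190) (nat_lit 5) (nat_lit 185) (nat_lit 5) (nat_lit 464) (nat_lit 362) (nat_lit 314)) (XT.lf (nat_lit 0) (nat_lit 2396380353) (nat_lit 456) (nat_lit 2927577545) (nat_lit 76) (nat_lit 5025787821) (nat_lit 178) (nat_lit 5) (nat_lit 184) (nat_lit 5) (nat_lit 179) (nat_lit 5) (nat_lit 465) (nat_lit 362) (nat_lit 313))) (XT.nd (nat_lit 78) (nat_lit 760) (nat_lit 0) (XT.lf (nat_lit 0) (nat_lit 5201430050) (nat_lit 380) (nat_lit 1173100403) (nat_lit 456) (nat_lit 4079670229) (nat_lit 173) (nat_lit 5) (nat_lit 178) (nat_lit 5) (nat_lit 179) (nat_lit 5) (nat_lit 466) (nat_lit 362) (nat_lit 312)) (XT.nd (nat_lit 78) (nat_lit 456) (nat_lit 0) (XT.lf (nat_lit 0) (nat_lit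 2921067651) (nat_lit 304) (nat_lit 7526087191) (nat_lit 380) (nat_lit 113291677) (nat_lit 169) (nat_lit 5) (nat_lit 173) (nat_lit 5) (nat_lit 174) (nat_lit 5) (nat_lit 467) (nat_lit 362) (nat_lit 311)) (XT.lf (nat_lit 0) (nat_lit 565646103) (nat_lit 380) (nat_lit 3318536591) (nat_lit 456) (nat_lit 6784057091) (nat_lit 163) (nat_lit 5) (nat_lit 168) (nat_lit 5) (nat_lit 169) (nat_lit 5) (nat_lit 468) (nat_lit 362) (nat_lit 310))))) (XT.nd (nat_lit 234) (nat_lit 684) (nat_lit 0) (XT.nd (nat_lit 78) (nat_lit 760) (nat_lit 0) (XT.lf (nat_lit 0) (nat_lit 7974667623) (nat_lit 456) (nat_lit 1816193449) (nat_lit 76) (nat_lit 987021303) (nat_lit 163) (nat_lit 5) (nat_lit 169) (nat_lit 5) (nat_lit 164) (nat_lit 5) (nat_lit 469) (nat_lit 362) (nat_lit 309)) (XT.nd (nat_lit 78) (nat_lit 380) (nat_lit 0) (XT.lf (nat_lit 0) (nat_lit 1263447881) (nat_lit 380) (nat_lit 4265212175) (nat_lit 76) (nat_lit 5360440658) (nat_lit 158) (nat_lit 5) (nat_lit 163)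 (nat_lit 5) (nat_lit 159) (nat_lit 5) (nat_lit 470) (nat_lit 362) (nat_lit 308)) (XT.lf (nat_lit 0) (nat_lit 4223146187) (nat_lit 380) (nat_lit 1148101874) (nat_lit 456) (nat_lit 5630977986) (nat_lit 153) (nat_lit 5) (nat_lit 158) (nat_lit 5) (nat_lit 159) (nat_lit 5) (nat_lit 471) (nat_lit 362) (nat_lit 307)))) (XT.nd (nat_lit 78) (nat_lit 380) (nat_lit 0) (XT.lf (nat_lit 0) (nat_lit 1754404826) (nat_lit 304) (nat_lit 7826391733) (nat_lit 380) (nat_lit 1536425482) (nat_lit 149) (nat_lit 5) (nat_lit 153) (nat_lit 5) (nat_lit 154) (nat_lit 5) (nat_lit 472) (nat_lit 362) (nat_lit 306)) (XT.nd (nat_lit 78) (nat_lit 304) (nat_lit 0) (XT.lf (nat_lit 0) (nat_lit 2616729286) (nat_lit 380) (nat_lit 777212903) (nat_lit 76) (nat_lit 7840006238) (nat_lit 148) (nat_lit 5) (nat_lit 153) (nat_lit 5) (nat_lit 149) (nat_lit 5) (nat_lit 473) (nat_lit 362) (nat_lit 305)) (XT.lf (nat_lit 0) (nat_lit 6850705098) (nat_lit 380) (nat_lit 3352861348) (nat_lit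 76) (nat_lit 1148873169) (nat_lit 144) (nat_lit 5) (nat_lit 149) (nat_lit 5) (nat_lit 145) (nat_lit 5) (nat_lit 474) (nat_lit 362) (nat_lit 304))))))) (XT.nd (nat_lit 780) (nat_lit 2204) (nat_lit 0) (XT.nd (nat_lit 390) (nat_lit 1216) (nat_lit 0) (XT.nd (nat_lit 156) (nat_lit 684) (nat_lit 0) (XT.nd (nat_lit 78) (nat_lit 380) (nat_lit 0) (XT.lf (nat_lit 0) (nat_lit 5470622719) (nat_lit 304) (nat_lit 5720948631) (nat_lit 380) (nat_lit 281285056) (nat_lit 140) (nat_lit 5) (nat_lit 144) (nat_lit 5) (nat_lit 145) (nat_lit 5) (nat_lit 475) (nat_lit 362) (nat_lit 303)) (XT.lf (nat_lit 0) (nat_lit 2864128324) (nat_lit 304) (nat_lit 1106982588) (nat_lit 380) (nat_lit 7624041999) (nat_lit 135) (nat_lit 5) (nat_lit 139) (nat_lit 5) (nat_lit 140) (nat_lit 5) (nat_lit 476) (nat_lit 362) (nat_lit 302))) (XT.nd (nat_lit 78) (nat_lit 380) (nat_lit 0) (XT.lf (nat_lit 0) (nat_lit 178790315) (nat_lit 304) (nat_lit 8150328712) (nat_lit 380) (nat_lit 3390252521)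 (nat_lit 131) (nat_lit 5) (nat_lit 135) (nat_lit 5) (nat_lit 136) (nat_lit 5) (nat_lit 477) (nat_lit 362) (nat_lit 301)) (XT.nd (nat_lit 78) (nat_lit 304) (nat_lit 0) (XT.lf (nat_lit 0) (nat_lit 941692419) (nat_lit 380) (nat_lit 2541733310) (nat_lit 76) (nat_lit 8362015230) (nat_lit 130) (nat_lit 5) (nat_lit 135) (nat_lit 5) (nat_lit 131) (nat_lit 5) (nat_lit 478) (nat_lit 362) (nat_lit 300)) (XT.lf (nat_lit 0) (nat_lit 5326690500) (nat_lit 380) (nat_lit 5347310892) (nat_lit 76) (nat_lit 1299345981) (nat_lit 126) (nat_lit 5) (nat_lit 131) (nat_lit 5) (nat_lit 127) (nat_lit 5) (nat_lit 479) (nat_lit 362) (nat_lit 299))))) (XT.nd (nat_lit 156) (nat_lit 608) (nat_lit 0) (XT.nd (nat_lit 78) (nat_lit 380) (nat_lit 0) (XT.lf (nat_lit 0) (nat_lit 3868625609) (nat_lit 228) (nat_lit 5956435756) (nat_lit 304) (nat_lit 2278237092) (nat_lit 123) (nat_lit 5) (nat_lit 126) (nat_lit 5) (nat_lit 127) (nat_lit 5) (nat_lit 480) (nat_lit 362) (nat_lit 298))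 (XT.lf (nat_lit 0) (nat_lit 1038316294) (nat_lit 304) (nat_lit 1113939890) (nat_lit 380) (nat_lit 10083244337) (nat_lit 118) (nat_lit 5) (nat_lit 122) (nat_lit 5) (nat_lit 123) (nat_lit 5) (nat_lit 481) (nat_lit 362) (nat_lit 297))) (XT.nd (nat_lit 78) (nat_lit 608) (nat_lit 0) (XT.lf (nat_lit 0) (nat_lit 6681910945) (nat_lit 380) (nat_lit 1868468522) (nat_lit 76) (nat_lit 3818844831) (nat_lit 118) (nat_lit 5) (nat_lit 123) (nat_lit 5) (nat_lit 119) (nat_lit 5) (nat_lit 482) (nat_lit 362) (nat_lit 296)) (XT.nd (nat_lit 78) (nat_lit 380) (nat_lit 0) (XT.lf (nat_lit 0) (nat_lit 7674086767) (nat_lit 228) (nat_lit 3646614264) (nat_lit 304) (nat_lit 1184550676) (nat_lit 115) (nat_lit 5) (nat_lit 118) (nat_lit 5) (nat_lit 119) (nat_lit 5) (nat_lit 483) (nat_lit 362) (nat_lit 295)) (XT.lf (nat_lit 0) (nat_lit 3377588607) (nat_lit 380) (nat_lit 7889265409) (nat_lit 76) (nat_lit 1376422645) (nat_lit 110) (nat_lit 5) (nat_lit 115) (nat_lit 5) (nat_lit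 111) (nat_lit 5) (nat_lit 484) (nat_lit 362) (nat_lit 294)))))) (XT.nd (nat_lit 390) (nat_lit 1064) (nat_lit 0) (XT.nd (nat_lit 156) (nat_lit 912) (nat_lit 0) (XT.nd (nat_lit 78) (nat_lit 0) (nat_lit 0) (XT.lf (nat_lit 0) (nat_lit 1737305312) (nat_lit 228) (nat_lit 6307453680) (nat_lit 304) (nat_lit 4738553535) (nat_lit 107) (nat_lit 5) (nat_lit 110) (nat_lit 5) (nat_lit 111) (nat_lit 5) (nat_lit 485) (nat_lit 362) (nat_lit 293)) (XT.lf (nat_lit 0) (nat_lit 11597548726) (nat_lit 228) (nat_lit 1222562241) (nat_lit 304) (nat_lit 105741379) (nat_lit 107) (nat_lit 5) (nat_lit 110) (nat_lit 5) (nat_lit 111) (nat_lit 5) (nat_lit 486) (nat_lit 362) (nat_lit 292))) (XT.nd (nat_lit 78) (nat_lit 532) (nat_lit 0) (XT.lf (nat_lit 0) (nat_lit 4603509937) (nat_lit 380) (nat_lit 4494844428) (nat_lit 76) (nat_lit 3971401282) (nat_lit 102) (nat_lit 5) (nat_lit 107) (nat_lit 5) (nat_lit 103) (nat_lit 5) (nat_lit 487) (nat_lit 362) (nat_lit 291)) (XT.nd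 (nat_lit 78) (nat_lit 304) (nat_lit 0) (XT.lf (nat_lit 0) (nat_lit 5475645341) (nat_lit 228) (nat_lit 3945044564) (nat_lit 304) (nat_lit 3795529939) (nat_lit 99) (nat_lit 5) (nat_lit 102) (nat_lit 5) (nat_lit 103) (nat_lit 5) (nat_lit 488) (nat_lit 362) (nat_lit 290)) (XT.lf (nat_lit 0) (nat_lit 972472811) (nat_lit 304) (nat_lit 11074084006) (nat_lit 76) (nat_lit 1318599212) (nat_lit 95) (nat_lit 5) (nat_lit 99) (nat_lit 5) (nat_lit 96) (nat_lit 5) (nat_lit 489) (nat_lit 362) (nat_lit 289))))) (XT.nd (nat_lit 234) (nat_lit 532) (nat_lit 0) (XT.nd (nat_lit 78) (nat_lit 532) (nat_lit 0) (XT.lf (nat_lit 0) (nat_lit 5826212991) (nat_lit 304) (nat_lit 1004712245) (nat_lit 76) (nat_lit 6684819942) (nat_lit 95) (nat_lit 5) (nat_lit 99) (nat_lit 5) (nat_lit 96) (nat_lit 5) (nat_lit 490) (nat_lit 362) (nat_lit 288)) (XT.nd (nat_lit 78) (nat_lit 304) (nat_lit 0) (XT.lf (nat_lit 0) (nat_lit 9324266676) (nat_lit 228) (nat_lit 1476769803) (nat_lit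 304) (nat_lit 2867829462) (nat_lit 92) (nat_lit 5) (nat_lit 95) (nat_lit 5) (nat_lit 96) (nat_lit 5) (nat_lit 491) (nat_lit 362) (nat_lit 287)) (XT.lf (nat_lit 0) (nat_lit 2059102887) (nat_lit 304) (nat_lit 7800281699) (nat_lit 76) (nat_lit 3964684579) (nat_lit 88) (nat_lit 5) (nat_lit 92) (nat_lit 5) (nat_lit 89) (nat_lit 5) (nat_lit 492) (nat_lit 362) (nat_lit 286)))) (XT.nd (nat_lit 78) (nat_lit 304) (nat_lit 0) (XT.lf (nat_lit 0) (nat_lit 2617752399) (nat_lit 228) (nat_lit 4448235752) (nat_lit 304) (nat_lit 6915612885) (nat_lit 85) (nat_lit 5) (nat_lit 88) (nat_lit 5) (nat_lit 89) (nat_lit 5) (nat_lit 493) (nat_lit 362) (nat_lit 285)) (XT.nd (nat_lit 78) (nat_lit 304) (nat_lit 0) (XT.lf (nat_lit 0) (nat_lit 12196428962) (nat_lit 304) (nat_lit 863028987) (nat_lit 76) (nat_lit 1082357239) (nat_lit 85) (nat_lit 5) (nat_lit 89) (nat_lit 5) (nat_lit 86) (nat_lit 5) (nat_lit 494) (nat_lit 362) (nat_lit 284)) (XT.lf (nat_lit 0) (nat_lit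 3141775554) (nat_lit 304) (nat_lit 4439861249) (nat_lit 76) (nat_lit 6722021014) (nat_lit 81) (nat_lit 5) (nat_lit 85) (nat_lit 5) (nat_lit 82) (nat_lit 5) (nat_lit 495) (nat_lit 362) (nat_lit 283))))))))
noncomputable def xc56 : XT := (XT.nd (nat_lit 53508) (nat_lit 0) (nat_lit 19684) (XT.nd (nat_lit 780) (nat_lit 456) (nat_lit 0) (XT.nd (nat_lit 390) (nat_lit 912) (nat_lit 0) (XT.nd (nat_lit 156) (nat_lit 456) (nat_lit 0) (XT.nd (nat_lit 78) (nat_lit 228) (nat_lit 0) (XT.lf (nat_lit 0) (nat_lit 6355500544) (nat_lit 228) (nat_lit 1960788576) (nat_lit 304) (nat_lit 6151957854) (nat_lit 78) (nat_lit 5) (nat_lit 81) (nat_lit 5) (nat_lit 82) (nat_lit 5) (nat_lit 496) (nat_lit 362) (nat_lit 282)) (XT.lf (nat_lit 0) (nat_lit 2739381918) (nat_lit 228) (nat_lit 10891829354) (nat_lit 304) (nat_lit 1004178274) (nat_lit 75) (nat_lit 5) (nat_lit 78) (nat_lit 5) (nat_lit 79) (nat_lit 5) (nat_lit 497) (nat_lit 362) (nat_lit 281))) (XT.nd (nat_lit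 78) (nat_lit 380) (nat_lit 0) (XT.lf (nat_lit 0) (nat_lit 4223349941) (nat_lit 304) (nat_lit 990508945) (nat_lit 76) (nat_lit 9590814906) (nat_lit 74) (nat_lit 5) (nat_lit 78) (nat_lit 5) (nat_lit 75) (nat_lit 5) (nat_lit 498) (nat_lit 362) (nat_lit 280)) (XT.nd (nat_lit 78) (nat_lit 228) (nat_lit 0) (XT.lf (nat_lit 0) (nat_lit 9577655856) (nat_lit 228) (nat_lit 4782520688) (nat_lit 76) (nat_lit 616320966) (nat_lit 72) (nat_lit 5) (nat_lit 75) (nat_lit 5) (nat_lit 73) (nat_lit 5) (nat_lit 499) (nat_lit 362) (nat_lit 279)) (XT.lf (nat_lit 0) (nat_lit 6451810432) (nat_lit 228) (nat_lit 8635840013) (nat_lit 304) (nat_lit 63135207) (nat_lit 69) (nat_lit 5) (nat_lit 72) (nat_lit 5) (nat_lit 73) (nat_lit 5) (nat_lit 500) (nat_lit 362) (nat_lit 278))))) (XT.nd (nat_lit 156) (nat_lit 684) (nat_lit 0) (XT.nd (nat_lit 78) (nat_lit 0) (nat_lit 0) (XT.lf (nat_lit 0) (nat_lit 2584257094) (nat_lit 152) (nat_lit 2739104657) (nat_lit 228) (nat_lit 10004206754)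 (nat_lit 66) (nat_lit 5) (nat_lit 68) (nat_lit 5) (nat_lit 69) (nat_lit 5) (nat_lit 501) (nat_lit 362) (nat_lit 277)) (XT.lf (nat_lit 0) (nat_lit 10862409436) (nat_lit 228) (nat_lit 1380051440) (nat_lit 76) (nat_lit 3264504469) (nat_lit 66) (nat_lit 5) (nat_lit 69) (nat_lit 5) (nat_lit 67) (nat_lit 5) (nat_lit 502) (nat_lit 362) (nat_lit 276))) (XT.nd (nat_lit 78) (nat_lit 380) (nat_lit 0) (XT.lf (nat_lit 0) (nat_lit 862945219) (nat_lit 304) (nat_lit 5428741566) (nat_lit 76) (nat_lit 9397127725) (nat_lit 62) (nat_lit 5) (nat_lit 66) (nat_lit 5) (nat_lit 63) (nat_lit 5) (nat_lit 503) (nat_lit 362) (nat_lit 275)) (XT.nd (nat_lit 78) (nat_lit 228) (nat_lit 0) (XT.lf (nat_lit 0) (nat_lit 6267821024) (nat_lit 152) (nat_lit 167015740) (nat_lit 228) (nat_lit 9438521264) (nat_lit 60) (nat_lit 5) (nat_lit 62) (nat_lit 5) (nat_lit 63) (nat_lit 5) (nat_lit 504) (nat_lit 362) (nat_lit 274)) (XT.lf (nat_lit 0) (nat_lit 2138121838) (nat_lit 228) (nat_lit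 10036517074) (nat_lit 304) (nat_lit 3885824050) (nat_lit 57) (nat_lit 5) (nat_lit 60) (nat_lit 5) (nat_lit 61) (nat_lit 5) (nat_lit 505) (nat_lit 362) (nat_lit 273)))))) (XT.nd (nat_lit 52338) (nat_lit 0) (nat_lit 32604) (XT.nd (nat_lit 156) (nat_lit 228) (nat_lit 0) (XT.nd (nat_lit 78) (nat_lit 152) (nat_lit 0) (XT.lf (nat_lit 0) (nat_lit 1787086242) (nat_lit 304) (nat_lit 2077521755) (nat_lit 76) (nat_lit 12385821588) (nat_lit 56) (nat_lit 5) (nat_lit 60) (nat_lit 5) (nat_lit 57) (nat_lit 5) (nat_lit 506) (nat_lit 362) (nat_lit 272)) (XT.lf (nat_lit 0) (nat_lit 7570075407) (nat_lit 228) (nat_lit 6409052931) (nat_lit 76) (nat_lit 2463580460) (nat_lit 54) (nat_lit 5) (nat_lit 57) (nat_lit 5) (nat_lit 55) (nat_lit 5) (nat_lit 507) (nat_lit 362) (nat_lit 271))) (XT.nd (nat_lit 52026) (nat_lit 0) (nat_lit 39140) (XT.lf (nat_lit 0) (nat_lit 5766442642) (nat_lit 228) (nat_lit 7746572128) (nat_lit 304) (nat_lit 3124933017) (nat_lit 51) (nat_lit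 5) (nat_lit 54) (nat_lit 5) (nat_lit 55) (nat_lit 5) (nat_lit 508) (nat_lit 362) (nat_lit 270)) (XT.nd (nat_lit 78) (nat_lit 76) (nat_lit 0) (XT.lf (nat_lit 0) (nat_lit 420775588) (nat_lit 1596) (nat_lit 1537116479) (nat_lit 1596) (nat_lit 1537116479) (nat_lit 567) (nat_lit 4) (nat_lit 588) (nat_lit 5) (nat_lit 588) (nat_lit 4) (nat_lit 414) (nat_lit 363) (nat_lit 363)) (XT.lf (nat_lit 0) (nat_lit 415257040) (nat_lit 1672) (nat_lit 1011370717) (nat_lit 76) (nat_lit 5596396078) (nat_lit 566) (nat_lit 5) (nat_lit 588) (nat_lit 5) (nat_lit 567) (nat_lit 4) (nat_lit 415) (nat_lit 363) (nat_lit 362))))) (XT.nd (nat_lit 156) (nat_lit 3040) (nat_lit 0) (XT.nd (nat_lit 78) (nat_lit 1824) (nat_lit 0) (XT.lf (nat_lit 0) (nat_lit 3892629281) (nat_lit 1748) (nat_lit 2864097126) (nat_lit 0) (nat_lit 300372765) (nat_lit 544) (nat_lit 5) (nat_lit 567) (nat_lit 4) (nat_lit 544) (nat_lit 4) (nat_lit 416) (nat_lit 363) (nat_lit 361)) (XT.lf (nat_lit 0)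 (nat_lit 305539469) (nat_lit 1824) (nat_lit 4718542091) (nat_lit 76) (nat_lit 2068481174) (nat_lit 520) (nat_lit 5) (nat_lit 544) (nat_lit 5) (nat_lit 521) (nat_lit 4) (nat_lit 417) (nat_lit 363) (nat_lit 360))) (XT.nd (nat_lit 78) (nat_lit 1216) (nat_lit 0) (XT.lf (nat_lit 0) (nat_lit 543915177) (nat_lit 1824) (nat_lit 3212984085) (nat_lit 1900) (nat_lit 3372331513) (nat_lit 496) (nat_lit 5) (nat_lit 520) (nat_lit 5) (nat_lit 521) (nat_lit 4) (nat_lit 418) (nat_lit 363) (nat_lit 359)) (XT.nd (nat_lit 78) (nat_lit 1140) (nat_lit 0) (XT.lf (nat_lit 0) (nat_lit 72929324) (nat_lit 1900) (nat_lit 1261300228) (nat_lit 76) (nat_lit 5833113725) (nat_lit 495) (nat_lit 5) (nat_lit 520) (nat_lit 5) (nat_lit 496) (nat_lit 5) (nat_lit 419) (nat_lit 363) (nat_lit 358)) (XT.lf (nat_lit 0) (nat_lit 3506095421) (nat_lit 1216) (nat_lit 3078188312) (nat_lit 76) (nat_lit 622205363) (nat_lit 480) (nat_lit 5) (nat_lit 496) (nat_lit 5) (nat_lit 481) (nat_lit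 4) (nat_lit 420) (nat_lit 363) (nat_lit 357))))))) (XT.nd (nat_lit 780) (nat_lit 5776) (nat_lit 0) (XT.nd (nat_lit 390) (nat_lit 3420) (nat_lit 0) (XT.nd (nat_lit 156) (nat_lit 1824) (nat_lit 0) (XT.nd (nat_lit 78) (nat_lit 988) (nat_lit 0) (XT.lf (nat_lit 0) (nat_lit 2349020721) (nat_lit 912) (nat_lit 4625554072) (nat_lit 988) (nat_lit 272510040) (nat_lit 468) (nat_lit 5) (nat_lit 480) (nat_lit 5) (nat_lit 481) (nat_lit 4) (nat_lit 421) (nat_lit 363) (nat_lit 356)) (XT.lf (nat_lit 0) (nat_lit 554775687) (nat_lit 912) (nat_lit 2585724938) (nat_lit 988) (nat_lit 4148396185) (nat_lit 455) (nat_lit 5) (nat_lit 467) (nat_lit 5) (nat_lit 468) (nat_lit 5) (nat_lit 422) (nat_lit 363) (nat_lit 355))) (XT.nd (nat_lit 78) (nat_lit 1824) (nat_lit 0) (XT.lf (nat_lit 0) (nat_lit 6111845868) (nat_lit 912) (nat_lit 474428237) (nat_lit 988) (nat_lit 745871865) (nat_lit 455) (nat_lit 5) (nat_lit 467) (nat_lit 5) (nat_lit 468) (nat_lit 5) (nat_lit 423)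 (nat_lit 363) (nat_lit 354)) (XT.nd (nat_lit 78) (nat_lit 912) (nat_lit 0) (XT.lf (nat_lit 0) (nat_lit 2664685279) (nat_lit 912) (nat_lit 3013189783) (nat_lit 76) (nat_lit 1698516895) (nat_lit 443) (nat_lit 5) (nat_lit 455) (nat_lit 5) (nat_lit 444) (nat_lit 5) (nat_lit 424) (nat_lit 363) (nat_lit 353)) (XT.lf (nat_lit 0) (nat_lit 2609998520) (nat_lit 912) (nat_lit 3488721028) (nat_lit 988) (nat_lit 1323399647) (nat_lit 431) (nat_lit 5) (nat_lit 443) (nat_lit 5) (nat_lit 444) (nat_lit 5) (nat_lit 425) (nat_lit 363) (nat_lit 352))))) (XT.nd (nat_lit 156) (nat_lit 2508) (nat_lit 0) (XT.nd (nat_lit 78) (nat_lit 0) (nat_lit 0) (XT.lf (nat_lit 0) (nat_lit 845214644) (nat_lit 836) (nat_lit 1222618368) (nat_lit 912) (nat_lit 5401388432) (nat_lit 419) (nat_lit 5) (nat_lit 430) (nat_lit 5) (nat_lit 431) (nat_lit 5) (nat_lit 426) (nat_lit 363) (nat_lit 351)) (XT.lf (nat_lit 0) (nat_lit 5486778132) (nat_lit 912) (nat_lit 922497865) (nat_lit 76)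 (nat_lit 1108262627) (nat_lit 419) (nat_lit 5) (nat_lit 431) (nat_lit 5) (nat_lit 420) (nat_lit 5) (nat_lit 427) (nat_lit 363) (nat_lit 350))) (XT.nd (nat_lit 78) (nat_lit 1596) (nat_lit 0) (XT.lf (nat_lit 0) (nat_lit 1367694448) (nat_lit 912) (nat_lit 2696668501) (nat_lit 76) (nat_lit 3502699034) (nat_lit 407) (nat_lit 5) (nat_lit 419) (nat_lit 5) (nat_lit 408) (nat_lit 5) (nat_lit 428) (nat_lit 363) (nat_lit 349)) (XT.nd (nat_lit 78) (nat_lit 836) (nat_lit 0) (XT.lf (nat_lit 0) (nat_lit 3132067186) (nat_lit 760) (nat_lit 1641030282) (nat_lit 836) (nat_lit 2844886458) (nat_lit 397) (nat_lit 5) (nat_lit 407) (nat_lit 5) (nat_lit 408) (nat_lit 5) (nat_lit 429) (nat_lit 363) (nat_lit 348)) (XT.lf (nat_lit 0) (nat_lit 541805570) (nat_lit 836) (nat_lit 6287378807) (nat_lit 76) (nat_lit 841211353) (nat_lit 386) (nat_lit 5) (nat_lit 397) (nat_lit 5) (nat_lit 387) (nat_lit 5) (nat_lit 430) (nat_lit 363) (nat_lit 347)))))) (XT.nd (nat_lit 390)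 (nat_lit 2736) (nat_lit 0) (XT.nd (nat_lit 156) (nat_lit 2280) (nat_lit 0) (XT.nd (nat_lit 78) (nat_lit 760) (nat_lit 0) (XT.lf (nat_lit 0) (nat_lit 3939922061) (nat_lit 836) (nat_lit 393739668) (nat_lit 76) (nat_lit 3390182275) (nat_lit 386) (nat_lit 5) (nat_lit 397) (nat_lit 5) (nat_lit 387) (nat_lit 5) (nat_lit 431) (nat_lit 363) (nat_lit 346)) (XT.lf (nat_lit 0) (nat_lit 5622179141) (nat_lit 760) (nat_lit 1762067866) (nat_lit 836) (nat_lit 394549313) (nat_lit 376) (nat_lit 5) (nat_lit 386) (nat_lit 5) (nat_lit 387) (nat_lit 5) (nat_lit 432) (nat_lit 363) (nat_lit 345))) (XT.nd (nat_lit 78) (nat_lit 1444) (nat_lit 0) (XT.lf (nat_lit 0) (nat_lit 2998250731) (nat_lit 836) (nat_lit 3950443394) (nat_lit 76) (nat_lit 886239734) (nat_lit 365) (nat_lit 5) (nat_lit 376) (nat_lit 5) (nat_lit 366) (nat_lit 5) (nat_lit 433) (nat_lit 363) (nat_lit 344)) (XT.nd (nat_lit 78) (nat_lit 760) (nat_lit 0) (XT.lf (nat_lit 0) (nat_lit 2127014761) (nat_lit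 684) (nat_lit 4309327750) (nat_lit 760) (nat_lit 1456145105) (nat_lit 356) (nat_lit 5) (nat_lit 365) (nat_lit 5) (nat_lit 366) (nat_lit 5) (nat_lit 434) (nat_lit 363) (nat_lit 343)) (XT.lf (nat_lit 0) (nat_lit 349840145) (nat_lit 684) (nat_lit 1587956988) (nat_lit 760) (nat_lit 6013698266) (nat_lit 346) (nat_lit 5) (nat_lit 355) (nat_lit 5) (nat_lit 356) (nat_lit 5) (nat_lit 435) (nat_lit 363) (nat_lit 342))))) (XT.nd (nat_lit 234) (nat_lit 1292) (nat_lit 0) (XT.nd (nat_lit 78) (nat_lit 1444) (nat_lit 0) (XT.lf (nat_lit 0) (nat_lit 5370333262) (nat_lit 760) (nat_lit 1434032026) (nat_lit 76) (nat_lit 1207321292) (nat_lit 346) (nat_lit 5) (nat_lit 356) (nat_lit 5) (nat_lit 347) (nat_lit 5) (nat_lit 436) (nat_lit 363) (nat_lit 341)) (XT.nd (nat_lit 78) (nat_lit 684) (nat_lit 0) (XT.lf (nat_lit 0) (nat_lit 774463843) (nat_lit 760) (nat_lit 3238265814) (nat_lit 76) (nat_lit 4060518308) (nat_lit 336) (nat_lit 5) (nat_lit 346) (nat_lit 5) (nat_lit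 337) (nat_lit 5) (nat_lit 437) (nat_lit 363) (nat_lit 340)) (XT.lf (nat_lit 0) (nat_lit 3065615859) (nat_lit 684) (nat_lit 1132154857) (nat_lit 760) (nat_lit 3938429853) (nat_lit 327) (nat_lit 5) (nat_lit 336) (nat_lit 5) (nat_lit 337) (nat_lit 5) (nat_lit 438) (nat_lit 363) (nat_lit 339)))) (XT.nd (nat_lit 78) (nat_lit 684) (nat_lit 0) (XT.lf (nat_lit 0) (nat_lit 1273797425) (nat_lit 608) (nat_lit 6403064748) (nat_lit 684) (nat_lit 523803683) (nat_lit 319) (nat_lit 5) (nat_lit 327) (nat_lit 5) (nat_lit 328) (nat_lit 5) (nat_lit 439) (nat_lit 363) (nat_lit 338)) (XT.nd (nat_lit 78) (nat_lit 608) (nat_lit 0) (XT.lf (nat_lit 0) (nat_lit 2907760329) (nat_lit 684) (nat_lit 549664610) (nat_lit 76) (nat_lit 4808862167) (nat_lit 318) (nat_lit 5) (nat_lit 327) (nat_lit 5) (nat_lit 319) (nat_lit 5) (nat_lit 440) (nat_lit 363) (nat_lit 337)) (XT.lf (nat_lit 0) (nat_lit 5960384522) (nat_lit 608) (nat_lit 426032595) (nat_lit 684) (nat_lit 1947024911)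 (nat_lit 310) (nat_lit 5) (nat_lit 318) (nat_lit 5) (nat_lit 319) (nat_lit 5) (nat_lit 441) (nat_lit 363) (nat_lit 336))))))))
noncomputable def xc57 : XT := (XT.nd (nat_lit 1560) (nat_lit 5852) (nat_lit 0) (XT.nd (nat_lit 780) (nat_lit 3952) (nat_lit 0) (XT.nd (nat_lit 390) (nat_lit 2280) (nat_lit 0) (XT.nd (nat_lit 156) (nat_lit 1216) (nat_lit 0) (XT.nd (nat_lit 78) (nat_lit 608) (nat_lit 0) (XT.lf (nat_lit 0) (nat_lit 1507955736) (nat_lit 684) (nat_lit 4238220085) (nat_lit 76) (nat_lit 2655658192) (nat_lit 301) (nat_lit 5) (nat_lit 310) (nat_lit 5) (nat_lit 302) (nat_lit 5) (nat_lit 442) (nat_lit 363) (nat_lit 335)) (XT.lf (nat_lit 0) (nat_lit 2336605304) (nat_lit 608) (nat_lit 2650904526) (nat_lit 684) (nat_lit 3484195721) (nat_lit 293) (nat_lit 5) (nat_lit 301) (nat_lit 5) (nat_lit 302) (nat_lit 5) (nat_lit 443) (nat_lit 363) (nat_lit 334))) (XT.nd (nat_lit 78) (nat_lit 684) (nat_lit 0) (XT.lf (nat_lit 0) (nat_lit 490335717) (nat_lit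 532) (nat_lit 8029378887) (nat_lit 608) (nat_lit 23598723) (nat_lit 286) (nat_lit 5) (nat_lit 293) (nat_lit 5) (nat_lit 294) (nat_lit 5) (nat_lit 444) (nat_lit 363) (nat_lit 333)) (XT.nd (nat_lit 78) (nat_lit 608) (nat_lit 0) (XT.lf (nat_lit 0) (nat_lit 3467407805) (nat_lit 608) (nat_lit 1395495105) (nat_lit 76) (nat_lit 3752851414) (nat_lit 285) (nat_lit 5) (nat_lit 293) (nat_lit 5) (nat_lit 286) (nat_lit 5) (nat_lit 445) (nat_lit 363) (nat_lit 332)) (XT.lf (nat_lit 0) (nat_lit 5396327522) (nat_lit 608) (nat_lit 1615827896) (nat_lit 684) (nat_lit 1677800863) (nat_lit 277) (nat_lit 5) (nat_lit 285) (nat_lit 5) (nat_lit 286) (nat_lit 5) (nat_lit 446) (nat_lit 363) (nat_lit 331))))) (XT.nd (nat_lit 156) (nat_lit 1140) (nat_lit 0) (XT.nd (nat_lit 78) (nat_lit 532) (nat_lit 0) (XT.lf (nat_lit 0) (nat_lit 1830756873) (nat_lit 608) (nat_lit 5234839111) (nat_lit 76) (nat_lit 1699944013) (nat_lit 269) (nat_lit 5) (nat_lit 277) (nat_lit 5) (nat_lit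 270) (nat_lit 5) (nat_lit 447) (nat_lit 363) (nat_lit 330)) (XT.lf (nat_lit 0) (nat_lit 1623239469) (nat_lit 532) (nat_lit 3757123854) (nat_lit 608) (nat_lit 3462183392) (nat_lit 262) (nat_lit 5) (nat_lit 269) (nat_lit 5) (nat_lit 270) (nat_lit 5) (nat_lit 448) (nat_lit 363) (nat_lit 329))) (XT.nd (nat_lit 78) (nat_lit 1064) (nat_lit 0) (XT.lf (nat_lit 0) (nat_lit 64219032) (nat_lit 608) (nat_lit 301966915) (nat_lit 76) (nat_lit 8555189287) (nat_lit 261) (nat_lit 5) (nat_lit 269) (nat_lit 5) (nat_lit 262) (nat_lit 5) (nat_lit 449) (nat_lit 363) (nat_lit 328)) (XT.nd (nat_lit 78) (nat_lit 532) (nat_lit 0) (XT.lf (nat_lit 0) (nat_lit 3630071111) (nat_lit 608) (nat_lit 2271377912) (nat_lit 76) (nat_lit 3099567993) (nat_lit 254) (nat_lit 5) (nat_lit 262) (nat_lit 5) (nat_lit 255) (nat_lit 5) (nat_lit 450) (nat_lit 363) (nat_lit 327)) (XT.lf (nat_lit 0) (nat_lit 4815200353) (nat_lit 532) (nat_lit 2439171402) (nat_lit 608) (nat_lit 1828137250)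 (nat_lit 247) (nat_lit 5) (nat_lit 254) (nat_lit 5) (nat_lit 255) (nat_lit 5) (nat_lit 451) (nat_lit 363) (nat_lit 326)))))) (XT.nd (nat_lit 390) (nat_lit 1900) (nat_lit 0) (XT.nd (nat_lit 156) (nat_lit 988) (nat_lit 0) (XT.nd (nat_lit 78) (nat_lit 532) (nat_lit 0) (XT.lf (nat_lit 0) (nat_lit 1754905192) (nat_lit 532) (nat_lit 6307545967) (nat_lit 76) (nat_lit 1103091914) (nat_lit 240) (nat_lit 5) (nat_lit 247) (nat_lit 5) (nat_lit 241) (nat_lit 5) (nat_lit 452) (nat_lit 363) (nat_lit 325)) (XT.lf (nat_lit 0) (nat_lit 846820039) (nat_lit 532) (nat_lit 4540764679) (nat_lit 608) (nat_lit 3862362327) (nat_lit 233) (nat_lit 5) (nat_lit 240) (nat_lit 5) (nat_lit 241) (nat_lit 5) (nat_lit 453) (nat_lit 363) (nat_lit 324))) (XT.nd (nat_lit 78) (nat_lit 988) (nat_lit 0) (XT.lf (nat_lit 0) (nat_lit 8160408622) (nat_lit 532) (nat_lit 927282869) (nat_lit 608) (nat_lit 248452131) (nat_lit 233) (nat_lit 5) (nat_lit 240) (nat_lit 5) (nat_lit 241) (nat_lit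 5) (nat_lit 454) (nat_lit 363) (nat_lit 323)) (XT.nd (nat_lit 78) (nat_lit 456) (nat_lit 0) (XT.lf (nat_lit 0) (nat_lit 3404069009) (nat_lit 532) (nat_lit 3255544075) (nat_lit 76) (nat_lit 2763776260) (nat_lit 226) (nat_lit 5) (nat_lit 233) (nat_lit 5) (nat_lit 227) (nat_lit 5) (nat_lit 455) (nat_lit 363) (nat_lit 322)) (XT.lf (nat_lit 0) (nat_lit 4139498814) (nat_lit 456) (nat_lit 2981184320) (nat_lit 532) (nat_lit 2391776615) (nat_lit 220) (nat_lit 5) (nat_lit 226) (nat_lit 5) (nat_lit 227) (nat_lit 5) (nat_lit 456) (nat_lit 363) (nat_lit 321))))) (XT.nd (nat_lit 156) (nat_lit 1368) (nat_lit 0) (XT.nd (nat_lit 78) (nat_lit 0) (nat_lit 0) (XT.lf (nat_lit 0) (nat_lit 1285328763) (nat_lit 532) (nat_lit 7535390209) (nat_lit 76) (nat_lit 782539307) (nat_lit 213) (nat_lit 5) (nat_lit 220) (nat_lit 5) (nat_lit 214) (nat_lit 5) (nat_lit 457) (nat_lit 363) (nat_lit 320)) (XT.lf (nat_lit 0) (nat_lit 5013904654) (nat_lit 532) (nat_lit 70073041)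 (nat_lit 76) (nat_lit 4611379806) (nat_lit 213) (nat_lit 5) (nat_lit 220) (nat_lit 5) (nat_lit 214) (nat_lit 5) (nat_lit 458) (nat_lit 363) (nat_lit 319))) (XT.nd (nat_lit 78) (nat_lit 912) (nat_lit 0) (XT.lf (nat_lit 0) (nat_lit 7575824828) (nat_lit 456) (nat_lit 1245205927) (nat_lit 532) (nat_lit 968188380) (nat_lit 207) (nat_lit 5) (nat_lit 213) (nat_lit 5) (nat_lit 214) (nat_lit 5) (nat_lit 459) (nat_lit 363) (nat_lit 318)) (XT.nd (nat_lit 78) (nat_lit 456) (nat_lit 0) (XT.lf (nat_lit 0) (nat_lit 2790881073) (nat_lit 456) (nat_lit 4426402900) (nat_lit 76) (nat_lit 2667137609) (nat_lit 201) (nat_lit 5) (nat_lit 207) (nat_lit 5) (nat_lit 202) (nat_lit 5) (nat_lit 460) (nat_lit 363) (nat_lit 317)) (XT.lf (nat_lit 0) (nat_lit 3291516536) (nat_lit 456) (nat_lit 3320467181) (nat_lit 532) (nat_lit 3369420051) (nat_lit 195) (nat_lit 5) (nat_lit 201) (nat_lit 5) (nat_lit 202) (nat_lit 5) (nat_lit 461) (nat_lit 363) (nat_lit 316))))))) (XT.nd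 (nat_lit 780) (nat_lit 2660) (nat_lit 0) (XT.nd (nat_lit 390) (nat_lit 1520) (nat_lit 0) (XT.nd (nat_lit 156) (nat_lit 1216) (nat_lit 0) (XT.nd (nat_lit 78) (nat_lit 0) (nat_lit 0) (XT.lf (nat_lit 0) (nat_lit 420242049) (nat_lit 456) (nat_lit 8998115834) (nat_lit 76) (nat_lit 661978223) (nat_lit 189) (nat_lit 5) (nat_lit 195) (nat_lit 5) (nat_lit 190) (nat_lit 5) (nat_lit 462) (nat_lit 363) (nat_lit 315)) (XT.lf (nat_lit 0) (nat_lit 4263456264) (nat_lit 456) (nat_lit 1193443269) (nat_lit 76) (nat_lit 4723444612) (nat_lit 189) (nat_lit 5) (nat_lit 195) (nat_lit 5) (nat_lit 190) (nat_lit 5) (nat_lit 463) (nat_lit 363) (nat_lit 314))) (XT.nd (nat_lit 78) (nat_lit 836) (nat_lit 0) (XT.lf (nat_lit 0) (nat_lit 6788764545) (nat_lit 380) (nat_lit 1395370337) (nat_lit 456) (nat_lit 2098205459) (nat_lit 184) (nat_lit 5) (nat_lit 189) (nat_lit 5) (nat_lit 190) (nat_lit 5) (nat_lit 464) (nat_lit 363) (nat_lit 313)) (XT.nd (nat_lit 78) (nat_lit 380)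 (nat_lit 0) (XT.lf (nat_lit 0) (nat_lit 1785487174) (nat_lit 456) (nat_lit 5863579904) (nat_lit 76) (nat_lit 2736832006) (nat_lit 178) (nat_lit 5) (nat_lit 184) (nat_lit 5) (nat_lit 179) (nat_lit 5) (nat_lit 465) (nat_lit 363) (nat_lit 312)) (XT.lf (nat_lit 0) (nat_lit 2192308850) (nat_lit 380) (nat_lit 3530459191) (nat_lit 456) (nat_lit 4768403391) (nat_lit 173) (nat_lit 5) (nat_lit 178) (nat_lit 5) (nat_lit 179) (nat_lit 5) (nat_lit 466) (nat_lit 363) (nat_lit 311))))) (XT.nd (nat_lit 156) (nat_lit 1140) (nat_lit 0) (XT.nd (nat_lit 78) (nat_lit 380) (nat_lit 0) (XT.lf (nat_lit 0) (nat_lit 9739910703) (nat_lit 456) (nat_lit 181804105) (nat_lit 76) (nat_lit 676812095) (nat_lit 173) (nat_lit 5) (nat_lit 179) (nat_lit 5) (nat_lit 174) (nat_lit 5) (nat_lit 467) (nat_lit 363) (nat_lit 310)) (XT.lf (nat_lit 0) (nat_lit 3122604895) (nat_lit 380) (nat_lit 2614151438) (nat_lit 76) (nat_lit 4970181186) (nat_lit 168) (nat_lit 5) (nat_lit 173) (nat_lit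 5) (nat_lit 169) (nat_lit 5) (nat_lit 468) (nat_lit 363) (nat_lit 309))) (XT.nd (nat_lit 78) (nat_lit 760) (nat_lit 0) (XT.lf (nat_lit 0) (nat_lit 5720162804) (nat_lit 380) (nat_lit 1448279818) (nat_lit 456) (nat_lit 3649030432) (nat_lit 163) (nat_lit 5) (nat_lit 168) (nat_lit 5) (nat_lit 169) (nat_lit 5) (nat_lit 469) (nat_lit 363) (nat_lit 308)) (XT.nd (nat_lit 78) (nat_lit 380) (nat_lit 0) (XT.lf (nat_lit 0) (nat_lit 376610832) (nat_lit 380) (nat_lit 7648921696) (nat_lit 76) (nat_lit 2904310983) (nat_lit 158) (nat_lit 5) (nat_lit 163) (nat_lit 5) (nat_lit 159) (nat_lit 5) (nat_lit 470) (nat_lit 363) (nat_lit 307)) (XT.lf (nat_lit 0) (nat_lit 760688909) (nat_lit 380) (nat_lit 3680670993) (nat_lit 456) (nat_lit 6602469965) (nat_lit 153) (nat_lit 5) (nat_lit 158) (nat_lit 5) (nat_lit 159) (nat_lit 5) (nat_lit 471) (nat_lit 363) (nat_lit 306)))))) (XT.nd (nat_lit 390) (nat_lit 1596) (nat_lit 0) (XT.nd (nat_lit 156) (nat_lit 684) (nat_lit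 0) (XT.nd (nat_lit 78) (nat_lit 380) (nat_lit 0) (XT.lf (nat_lit 0) (nat_lit 8602609616) (nat_lit 456) (nat_lit 1789665129) (nat_lit 76) (nat_lit 767517091) (nat_lit 153) (nat_lit 5) (nat_lit 159) (nat_lit 5) (nat_lit 154) (nat_lit 5) (nat_lit 472) (nat_lit 363) (nat_lit 305)) (XT.lf (nat_lit 0) (nat_lit 1577094232) (nat_lit 380) (nat_lit 4414660351) (nat_lit 76) (nat_lit 5285541504) (nat_lit 148) (nat_lit 5) (nat_lit 153) (nat_lit 5) (nat_lit 149) (nat_lit 5) (nat_lit 473) (nat_lit 363) (nat_lit 304))) (XT.nd (nat_lit 78) (nat_lit 380) (nat_lit 0) (XT.lf (nat_lit 0) (nat_lit 4288227044) (nat_lit 304) (nat_lit 1471124643) (nat_lit 380) (nat_lit 5637469953) (nat_lit 144) (nat_lit 5) (nat_lit 148) (nat_lit 5) (nat_lit 149) (nat_lit 5) (nat_lit 474) (nat_lit 363) (nat_lit 303)) (XT.nd (nat_lit 78) (nat_lit 76) (nat_lit 0) (XT.lf (nat_lit 0) (nat_lit 1641283761) (nat_lit 304) (nat_lit 8404604275) (nat_lit 380) (nat_lit 1472436994) (nat_lit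 140) (nat_lit 5) (nat_lit 144) (nat_lit 5) (nat_lit 145) (nat_lit 5) (nat_lit 475) (nat_lit 363) (nat_lit 302)) (XT.lf (nat_lit 0) (nat_lit 2757116911) (nat_lit 380) (nat_lit 1073491189) (nat_lit 76) (nat_lit 7810937395) (nat_lit 139) (nat_lit 5) (nat_lit 144) (nat_lit 5) (nat_lit 140) (nat_lit 5) (nat_lit 476) (nat_lit 363) (nat_lit 301))))) (XT.nd (nat_lit 234) (nat_lit 608) (nat_lit 0) (XT.nd (nat_lit 78) (nat_lit 684) (nat_lit 0) (XT.lf (nat_lit 0) (nat_lit 7069394951) (nat_lit 380) (nat_lit 3837317760) (nat_lit 76) (nat_lit 859966022) (nat_lit 135) (nat_lit 5) (nat_lit 140) (nat_lit 5) (nat_lit 136) (nat_lit 5) (nat_lit 477) (nat_lit 363) (nat_lit 300)) (XT.nd (nat_lit 78) (nat_lit 380) (nat_lit 0) (XT.lf (nat_lit 0) (nat_lit 5210066401) (nat_lit 304) (nat_lit 6285133888) (nat_lit 380) (nat_lit 398568712) (nat_lit 131) (nat_lit 5) (nat_lit 135) (nat_lit 5) (nat_lit 136) (nat_lit 5) (nat_lit 478) (nat_lit 363) (nat_lit 299)) (XT.lf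 (nat_lit 0) (nat_lit 2407463226) (nat_lit 304) (nat_lit 1528853804) (nat_lit 380) (nat_lit 8086516934) (nat_lit 126) (nat_lit 5) (nat_lit 130) (nat_lit 5) (nat_lit 131) (nat_lit 5) (nat_lit 479) (nat_lit 363) (nat_lit 298)))) (XT.nd (nat_lit 78) (nat_lit 608) (nat_lit 0) (XT.lf (nat_lit 0) (nat_lit 8380383916) (nat_lit 380) (nat_lit 472799912) (nat_lit 76) (nat_lit 3300687300) (nat_lit 126) (nat_lit 5) (nat_lit 131) (nat_lit 5) (nat_lit 127) (nat_lit 5) (nat_lit 480) (nat_lit 363) (nat_lit 297)) (XT.nd (nat_lit 78) (nat_lit 304) (nat_lit 0) (XT.lf (nat_lit 0) (nat_lit 647525246) (nat_lit 304) (nat_lit 3396511842) (nat_lit 76) (nat_lit 8242812092) (nat_lit 122) (nat_lit 5) (nat_lit 126) (nat_lit 5) (nat_lit 123) (nat_lit 5) (nat_lit 481) (nat_lit 363) (nat_lit 296)) (XT.lf (nat_lit 0) (nat_lit 5116523744) (nat_lit 380) (nat_lit 6413733545) (nat_lit 76) (nat_lit 891528793) (nat_lit 118) (nat_lit 5) (nat_lit 123) (nat_lit 5) (nat_lit 119)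 (nat_lit 5) (nat_lit 482) (nat_lit 363) (nat_lit 295))))))))
noncomputable def xc58 : XT := (XT.nd (nat_lit 1560) (nat_lit 912) (nat_lit 0) (XT.nd (nat_lit 780) (nat_lit 1748) (nat_lit 0) (XT.nd (nat_lit 390) (nat_lit 988) (nat_lit 0) (XT.nd (nat_lit 156) (nat_lit 912) (nat_lit 0) (XT.nd (nat_lit 78) (nat_lit 76) (nat_lit 0) (XT.lf (nat_lit 0) (nat_lit 3035956955) (nat_lit 228) (nat_lit 6670479656) (nat_lit 304) (nat_lit 2852354424) (nat_lit 115) (nat_lit 5) (nat_lit 118) (nat_lit 5) (nat_lit 119) (nat_lit 5) (nat_lit 483) (nat_lit 363) (nat_lit 294)) (XT.lf (nat_lit 0) (nat_lit 1672951519) (nat_lit 304) (nat_lit 12136706) (nat_lit 76) (nat_lit 11013118471) (nat_lit 114) (nat_lit 5) (nat_lit 118) (nat_lit 5) (nat_lit 115) (nat_lit 5) (nat_lit 484) (nat_lit 363) (nat_lit 293))) (XT.nd (nat_lit 78) (nat_lit 608) (nat_lit 0) (XT.lf (nat_lit 0) (nat_lit 6299169731) (nat_lit 380) (nat_lit 3127926340) (nat_lit 76) (nat_lit 3411965535) (nat_lit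 110) (nat_lit 5) (nat_lit 115) (nat_lit 5) (nat_lit 111) (nat_lit 5) (nat_lit 485) (nat_lit 363) (nat_lit 292)) (XT.nd (nat_lit 78) (nat_lit 380) (nat_lit 0) (XT.lf (nat_lit 0) (nat_lit 6658813134) (nat_lit 228) (nat_lit 4376637128) (nat_lit 304) (nat_lit 1946932593) (nat_lit 107) (nat_lit 5) (nat_lit 110) (nat_lit 5) (nat_lit 111) (nat_lit 5) (nat_lit 486) (nat_lit 363) (nat_lit 291)) (XT.lf (nat_lit 0) (nat_lit 2714360942) (nat_lit 380) (nat_lit 9613285076) (nat_lit 76) (nat_lit 800321330) (nat_lit 102) (nat_lit 5) (nat_lit 107) (nat_lit 5) (nat_lit 103) (nat_lit 5) (nat_lit 487) (nat_lit 363) (nat_lit 290))))) (XT.nd (nat_lit 156) (nat_lit 760) (nat_lit 0) (XT.nd (nat_lit 78) (nat_lit 0) (nat_lit 0) (XT.lf (nat_lit 0) (nat_lit 257142970) (nat_lit 228) (nat_lit 7222333847) (nat_lit 304) (nat_lit 5795996010) (nat_lit 99) (nat_lit 5) (nat_lit 102) (nat_lit 5) (nat_lit 103) (nat_lit 5) (nat_lit 488) (nat_lit 363) (nat_lit 289)) (XT.lf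 (nat_lit 0) (nat_lit 10391837744) (nat_lit 228) (nat_lit 1976147776) (nat_lit 304) (nat_lit 1057381085) (nat_lit 99) (nat_lit 5) (nat_lit 102) (nat_lit 5) (nat_lit 103) (nat_lit 5) (nat_lit 489) (nat_lit 363) (nat_lit 288))) (XT.nd (nat_lit 78) (nat_lit 456) (nat_lit 0) (XT.lf (nat_lit 0) (nat_lit 3759222216) (nat_lit 304) (nat_lit 6442126686) (nat_lit 76) (nat_lit 3375764250) (nat_lit 95) (nat_lit 5) (nat_lit 99) (nat_lit 5) (nat_lit 96) (nat_lit 5) (nat_lit 490) (nat_lit 363) (nat_lit 287)) (XT.nd (nat_lit 78) (nat_lit 228) (nat_lit 0) (XT.lf (nat_lit 0) (nat_lit 3783082851) (nat_lit 228) (nat_lit 4897255848) (nat_lit 304) (nat_lit 5050969355) (nat_lit 92) (nat_lit 5) (nat_lit 95) (nat_lit 5) (nat_lit 96) (nat_lit 5) (nat_lit 491) (nat_lit 363) (nat_lit 286)) (XT.lf (nat_lit 0) (nat_lit 350442663) (nat_lit 228) (nat_lit 13362864752) (nat_lit 304) (nat_lit 175010841) (nat_lit 89) (nat_lit 5) (nat_lit 92) (nat_lit 5) (nat_lit 93) (nat_lit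 5) (nat_lit 492) (nat_lit 363) (nat_lit 285)))))) (XT.nd (nat_lit 390) (nat_lit 912) (nat_lit 0) (XT.nd (nat_lit 156) (nat_lit 532) (nat_lit 0) (XT.nd (nat_lit 78) (nat_lit 228) (nat_lit 0) (XT.lf (nat_lit 0) (nat_lit 4799533694) (nat_lit 304) (nat_lit 3184223386) (nat_lit 76) (nat_lit 6062808494) (nat_lit 88) (nat_lit 5) (nat_lit 92) (nat_lit 5) (nat_lit 89) (nat_lit 5) (nat_lit 493) (nat_lit 363) (nat_lit 284)) (XT.lf (nat_lit 0) (nat_lit 7410776236) (nat_lit 228) (nat_lit 2473633547) (nat_lit 304) (nat_lit 4323281236) (nat_lit 85) (nat_lit 5) (nat_lit 88) (nat_lit 5) (nat_lit 89) (nat_lit 5) (nat_lit 494) (nat_lit 363) (nat_lit 283))) (XT.nd (nat_lit 78) (nat_lit 228) (nat_lit 0) (XT.lf (nat_lit 0) (nat_lit 722154419) (nat_lit 304) (nat_lit 10518774803) (nat_lit 76) (nat_lit 3130371457) (nat_lit 81) (nat_lit 5) (nat_lit 85) (nat_lit 5) (nat_lit 82) (nat_lit 5) (nat_lit 495) (nat_lit 363) (nat_lit 282)) (XT.nd (nat_lit 78) (nat_lit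 0) (nat_lit 0) (XT.lf (nat_lit 0) (nat_lit 164736350) (nat_lit 228) (nat_lit 5674526382) (nat_lit 304) (nat_lit 8697775208) (nat_lit 78) (nat_lit 5) (nat_lit 81) (nat_lit 5) (nat_lit 82) (nat_lit 5) (nat_lit 496) (nat_lit 363) (nat_lit 281)) (XT.lf (nat_lit 0) (nat_lit 11095129067) (nat_lit 304) (nat_lit 3562699154) (nat_lit 76) (nat_lit 47533408) (nat_lit 78) (nat_lit 5) (nat_lit 82) (nat_lit 5) (nat_lit 79) (nat_lit 5) (nat_lit 497) (nat_lit 363) (nat_lit 280))))) (XT.nd (nat_lit 156) (nat_lit 456) (nat_lit 0) (XT.nd (nat_lit 78) (nat_lit 152) (nat_lit 0) (XT.lf (nat_lit 0) (nat_lit 1610748240) (nat_lit 304) (nat_lit 7424037928) (nat_lit 76) (nat_lit 5841012638) (nat_lit 74) (nat_lit 5) (nat_lit 78) (nat_lit 5) (nat_lit 75) (nat_lit 5) (nat_lit 498) (nat_lit 363) (nat_lit 279)) (XT.lf (nat_lit 0) (nat_lit 3648551565) (nat_lit 152) (nat_lit 3253127430) (nat_lit 228) (nat_lit 8147211033) (nat_lit 72) (nat_lit 5) (nat_lit 74) (nat_lit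 5) (nat_lit 75) (nat_lit 5) (nat_lit 499) (nat_lit 363) (nat_lit 278))) (XT.nd (nat_lit 78) (nat_lit 456) (nat_lit 0) (XT.lf (nat_lit 0) (nat_lit 12331915165) (nat_lit 228) (nat_lit 259684775) (nat_lit 76) (nat_lit 2633173396) (nat_lit 72) (nat_lit 5) (nat_lit 75) (nat_lit 5) (nat_lit 73) (nat_lit 5) (nat_lit 500) (nat_lit 363) (nat_lit 277)) (XT.nd (nat_lit 78) (nat_lit 152) (nat_lit 0) (XT.lf (nat_lit 0) (nat_lit 2495528794) (nat_lit 304) (nat_lit 4250426209) (nat_lit 76) (nat_lit 8656673082) (nat_lit 68) (nat_lit 5) (nat_lit 72) (nat_lit 5) (nat_lit 69) (nat_lit 5) (nat_lit 501) (nat_lit 363) (nat_lit 276)) (XT.lf (nat_lit 0) (nat_lit 7227644017) (nat_lit 152) (nat_lit 740901378) (nat_lit 228) (nat_lit 7614800152) (nat_lit 66) (nat_lit 5) (nat_lit 68) (nat_lit 5) (nat_lit 69) (nat_lit 5) (nat_lit 502) (nat_lit 363) (nat_lit 275))))))) (XT.nd (nat_lit 52572) (nat_lit 0) (nat_lit 27740) (XT.nd (nat_lit 390) (nat_lit 0) (nat_lit 0) (XT.nd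 (nat_lit 156) (nat_lit 608) (nat_lit 0) (XT.nd (nat_lit 78) (nat_lit 76) (nat_lit 0) (XT.lf (nat_lit 0) (nat_lit 3172332423) (nat_lit 228) (nat_lit 10429927726) (nat_lit 304) (nat_lit 2164392452) (nat_lit 63) (nat_lit 5) (nat_lit 66) (nat_lit 5) (nat_lit 67) (nat_lit 5) (nat_lit 503) (nat_lit 363) (nat_lit 274)) (XT.lf (nat_lit 0) (nat_lit 3378861677) (nat_lit 304) (nat_lit 995589128) (nat_lit 76) (nat_lit 11578166845) (nat_lit 62) (nat_lit 5) (nat_lit 66) (nat_lit 5) (nat_lit 63) (nat_lit 5) (nat_lit 504) (nat_lit 363) (nat_lit 273))) (XT.nd (nat_lit 78) (nat_lit 456) (nat_lit 0) (XT.lf (nat_lit 0) (nat_lit 9054584475) (nat_lit 228) (nat_lit 5248313899) (nat_lit 76) (nat_lit 1838105796) (nat_lit 60) (nat_lit 5) (nat_lit 63) (nat_lit 5) (nat_lit 61) (nat_lit 5) (nat_lit 505) (nat_lit 363) (nat_lit 272)) (XT.nd (nat_lit 78) (nat_lit 228) (nat_lit 0) (XT.lf (nat_lit 0) (nat_lit 6699189506) (nat_lit 228) (nat_lit 8191569235) (nat_lit 304)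 (nat_lit 1441460940) (nat_lit 57) (nat_lit 5) (nat_lit 60) (nat_lit 5) (nat_lit 61) (nat_lit 5) (nat_lit 506) (nat_lit 363) (nat_lit 271)) (XT.lf (nat_lit 0) (nat_lit 2374205905) (nat_lit 152) (nat_lit 1904235083) (nat_lit 228) (nat_lit 12247884929) (nat_lit 54) (nat_lit 5) (nat_lit 56) (nat_lit 5) (nat_lit 57) (nat_lit 5) (nat_lit 507) (nat_lit 363) (nat_lit 270))))) (XT.nd (nat_lit 51948) (nat_lit 0) (nat_lit 38912) (XT.nd (nat_lit 51870) (nat_lit 0) (nat_lit 42180) (XT.lf (nat_lit 0) (nat_lit 10155669547) (nat_lit 228) (nat_lit 2069088561) (nat_lit 76) (nat_lit 4498121013) (nat_lit 54) (nat_lit 5) (nat_lit 57) (nat_lit 5) (nat_lit 55) (nat_lit 5) (nat_lit 508) (nat_lit 363) (nat_lit 269)) (XT.lf (nat_lit 0) (nat_lit 2312382888) (nat_lit 1444) (nat_lit 575674096) (nat_lit 1444) (nat_lit 575674096) (nat_lit 609) (nat_lit 4) (nat_lit 628) (nat_lit 5) (nat_lit 628) (nat_lit 4) (nat_lit 412) (nat_lit 364) (nat_lit 364))) (XT.nd (nat_lit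 78) (nat_lit 1672) (nat_lit 0) (XT.lf (nat_lit 0) (nat_lit 2302450779) (nat_lit 1596) (nat_lit 4240728854) (nat_lit 0) (nat_lit 415257040) (nat_lit 588) (nat_lit 5) (nat_lit 609) (nat_lit 4) (nat_lit 588) (nat_lit 4) (nat_lit 413) (nat_lit 364) (nat_lit 363)) (XT.nd (nat_lit 78) (nat_lit 76) (nat_lit 0) (XT.lf (nat_lit 0) (nat_lit 807629745) (nat_lit 1596) (nat_lit 4960236629) (nat_lit 1596) (nat_lit 1222852949) (nat_lit 567) (nat_lit 4) (nat_lit 588) (nat_lit 5) (nat_lit 588) (nat_lit 4) (nat_lit 414) (nat_lit 364) (nat_lit 362)) (XT.lf (nat_lit 0) (nat_lit 2207704861) (nat_lit 1672) (nat_lit 1091731564) (nat_lit 76) (nat_lit 3724742253) (nat_lit 566) (nat_lit 5) (nat_lit 588) (nat_lit 5) (nat_lit 567) (nat_lit 4) (nat_lit 415) (nat_lit 364) (nat_lit 361)))))) (XT.nd (nat_lit 390) (nat_lit 4636) (nat_lit 0) (XT.nd (nat_lit 156) (nat_lit 3040) (nat_lit 0) (XT.nd (nat_lit 78) (nat_lit 1824) (nat_lit 0) (XT.lf (nat_lit 0) (nat_lit 4080093928)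 (nat_lit 1672) (nat_lit 1568289301) (nat_lit 1748) (nat_lit 1410604663) (nat_lit 544) (nat_lit 5) (nat_lit 566) (nat_lit 5) (nat_lit 567) (nat_lit 4) (nat_lit 416) (nat_lit 364) (nat_lit 360)) (XT.lf (nat_lit 0) (nat_lit 1991501677) (nat_lit 1824) (nat_lit 4872377884) (nat_lit 76) (nat_lit 231242163) (nat_lit 520) (nat_lit 5) (nat_lit 544) (nat_lit 5) (nat_lit 521) (nat_lit 4) (nat_lit 417) (nat_lit 364) (nat_lit 359))) (XT.nd (nat_lit 78) (nat_lit 1216) (nat_lit 0) (XT.lf (nat_lit 0) (nat_lit 353851706) (nat_lit 1824) (nat_lit 5054483448) (nat_lit 1900) (nat_lit 1724145137) (nat_lit 496) (nat_lit 5) (nat_lit 520) (nat_lit 5) (nat_lit 521) (nat_lit 4) (nat_lit 418) (nat_lit 364) (nat_lit 358)) (XT.nd (nat_lit 78) (nat_lit 1140) (nat_lit 0) (XT.lf (nat_lit 0) (nat_lit 1666424745) (nat_lit 1900) (nat_lit 1499266901) (nat_lit 76) (nat_lit 4005348618) (nat_lit 495) (nat_lit 5) (nat_lit 520) (nat_lit 5) (nat_lit 496) (nat_lit 5) (nat_lit 419)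 (nat_lit 364) (nat_lit 357)) (XT.lf (nat_lit 0) (nat_lit 3857617791) (nat_lit 1140) (nat_lit 1203668862) (nat_lit 1216) (nat_lit 2149665515) (nat_lit 480) (nat_lit 5) (nat_lit 495) (nat_lit 5) (nat_lit 496) (nat_lit 5) (nat_lit 420) (nat_lit 364) (nat_lit 356))))) (XT.nd (nat_lit 234) (nat_lit 2660) (nat_lit 0) (XT.nd (nat_lit 78) (nat_lit 988) (nat_lit 0) (XT.lf (nat_lit 0) (nat_lit 1219369737) (nat_lit 988) (nat_lit 5216418147) (nat_lit 76) (nat_lit 816435726) (nat_lit 467) (nat_lit 5) (nat_lit 480) (nat_lit 5) (nat_lit 468) (nat_lit 5) (nat_lit 421) (nat_lit 364) (nat_lit 355)) (XT.nd (nat_lit 78) (nat_lit 76) (nat_lit 0) (XT.lf (nat_lit 0) (nat_lit 196045453) (nat_lit 912) (nat_lit 4398620889) (nat_lit 988) (nat_lit 2700016660) (nat_lit 455) (nat_lit 5) (nat_lit 467) (nat_lit 5) (nat_lit 468) (nat_lit 5) (nat_lit 422) (nat_lit 364) (nat_lit 354)) (XT.lf (nat_lit 0) (nat_lit 661680308) (nat_lit 988) (nat_lit 1623476837) (nat_lit 76)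 (nat_lit 5053316072) (nat_lit 454) (nat_lit 5) (nat_lit 467) (nat_lit 5) (nat_lit 455) (nat_lit 5) (nat_lit 423) (nat_lit 364) (nat_lit 353)))) (XT.nd (nat_lit 78) (nat_lit 1824) (nat_lit 0) (XT.lf (nat_lit 0) (nat_lit 3927283498) (nat_lit 836) (nat_lit 90099023) (nat_lit 912) (nat_lit 3366141281) (nat_lit 443) (nat_lit 5) (nat_lit 454) (nat_lit 5) (nat_lit 455) (nat_lit 5) (nat_lit 424) (nat_lit 364) (nat_lit 352)) (XT.nd (nat_lit 78) (nat_lit 912) (nat_lit 0) (XT.lf (nat_lit 0) (nat_lit 2127397874) (nat_lit 912) (nat_lit 5289681775) (nat_lit 988) (nat_lit 12858134) (nat_lit 431) (nat_lit 5) (nat_lit 443) (nat_lit 5) (nat_lit 444) (nat_lit 5) (nat_lit 425) (nat_lit 364) (nat_lit 351)) (XT.lf (nat_lit 0) (nat_lit 305216537) (nat_lit 836) (nat_lit 3022027260) (nat_lit 912) (nat_lit 4150304912) (nat_lit 419) (nat_lit 5) (nat_lit 430) (nat_lit 5) (nat_lit 431) (nat_lit 5) (nat_lit 426) (nat_lit 364) (nat_lit 350))))))))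
noncomputable def xc59 : XT := (XT.nd (nat_lit 1638) (nat_lit 7676) (nat_lit 0) (XT.nd (nat_lit 780) (nat_lit 5852) (nat_lit 0) (XT.nd (nat_lit 390) (nat_lit 3040) (nat_lit 0) (XT.nd (nat_lit 156) (nat_lit 1596) (nat_lit 0) (XT.nd (nat_lit 78) (nat_lit 912) (nat_lit 0) (XT.lf (nat_lit 0) (nat_lit 6028715486) (nat_lit 836) (nat_lit 680123093) (nat_lit 912) (nat_lit 817774316) (nat_lit 419) (nat_lit 5) (nat_lit 430) (nat_lit 5) (nat_lit 431) (nat_lit 5) (nat_lit 427) (nat_lit 364) (nat_lit 349)) (XT.lf (nat_lit 0) (nat_lit 2526634078) (nat_lit 912) (nat_lit 3326812314) (nat_lit 76) (nat_lit 1723295113) (nat_lit 407) (nat_lit 5) (nat_lit 419) (nat_lit 5) (nat_lit 408) (nat_lit 5) (nat_lit 428) (nat_lit 364) (nat_lit 348))) (XT.nd (nat_lit 78) (nat_lit 836) (nat_lit 0) (XT.lf (nat_lit 0) (nat_lit 2459263254) (nat_lit 760) (nat_lit 3439080445) (nat_lit 836) (nat_lit 1729993616) (nat_lit 397) (nat_lit 5) (nat_lit 407) (nat_lit 5) (nat_lit 408)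 (nat_lit 5) (nat_lit 429) (nat_lit 364) (nat_lit 347)) (XT.nd (nat_lit 78) (nat_lit 0) (nat_lit 0) (XT.lf (nat_lit 0) (nat_lit 654638002) (nat_lit 760) (nat_lit 947978142) (nat_lit 836) (nat_lit 6078777409) (nat_lit 386) (nat_lit 5) (nat_lit 396) (nat_lit 5) (nat_lit 397) (nat_lit 5) (nat_lit 430) (nat_lit 364) (nat_lit 346)) (XT.lf (nat_lit 0) (nat_lit 4965737737) (nat_lit 836) (nat_lit 1161282797) (nat_lit 76) (nat_lit 1608521189) (nat_lit 386) (nat_lit 5) (nat_lit 397) (nat_lit 5) (nat_lit 387) (nat_lit 5) (nat_lit 431) (nat_lit 364) (nat_lit 345))))) (XT.nd (nat_lit 156) (nat_lit 1444) (nat_lit 0) (XT.nd (nat_lit 78) (nat_lit 760) (nat_lit 0) (XT.lf (nat_lit 0) (nat_lit 577675231) (nat_lit 836) (nat_lit 2984625169) (nat_lit 76) (nat_lit 4228788540) (nat_lit 375) (nat_lit 5) (nat_lit 386) (nat_lit 5) (nat_lit 376) (nat_lit 5) (nat_lit 432) (nat_lit 364) (nat_lit 344)) (XT.lf (nat_lit 0) (nat_lit 3014580228) (nat_lit 760) (nat_lit 911081143)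 (nat_lit 836) (nat_lit 3922306661) (nat_lit 365) (nat_lit 5) (nat_lit 375) (nat_lit 5) (nat_lit 376) (nat_lit 5) (nat_lit 433) (nat_lit 364) (nat_lit 343))) (XT.nd (nat_lit 78) (nat_lit 760) (nat_lit 0) (XT.lf (nat_lit 0) (nat_lit 1203780822) (nat_lit 684) (nat_lit 6120236405) (nat_lit 760) (nat_lit 582299280) (nat_lit 356) (nat_lit 5) (nat_lit 365) (nat_lit 5) (nat_lit 366) (nat_lit 5) (nat_lit 434) (nat_lit 364) (nat_lit 342)) (XT.nd (nat_lit 78) (nat_lit 684) (nat_lit 0) (XT.lf (nat_lit 0) (nat_lit 2770228154) (nat_lit 760) (nat_lit 631724551) (nat_lit 76) (nat_lit 4563857197) (nat_lit 355) (nat_lit 5) (nat_lit 365) (nat_lit 5) (nat_lit 356) (nat_lit 5) (nat_lit 435) (nat_lit 364) (nat_lit 341)) (XT.lf (nat_lit 0) (nat_lit 5561781532) (nat_lit 684) (nat_lit 601522952) (nat_lit 760) (nat_lit 1863485795) (nat_lit 346) (nat_lit 5) (nat_lit 355) (nat_lit 5) (nat_lit 356) (nat_lit 5) (nat_lit 436) (nat_lit 364) (nat_lit 340)))))) (XT.nd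 (nat_lit 390) (nat_lit 3116) (nat_lit 0) (XT.nd (nat_lit 156) (nat_lit 1292) (nat_lit 0) (XT.nd (nat_lit 78) (nat_lit 684) (nat_lit 0) (XT.lf (nat_lit 0) (nat_lit 1504127624) (nat_lit 760) (nat_lit 4333937157) (nat_lit 76) (nat_lit 2250945912) (nat_lit 336) (nat_lit 5) (nat_lit 346) (nat_lit 5) (nat_lit 337) (nat_lit 5) (nat_lit 437) (nat_lit 364) (nat_lit 339)) (XT.lf (nat_lit 0) (nat_lit 1920957506) (nat_lit 684) (nat_lit 2972311067) (nat_lit 760) (nat_lit 3259378043) (nat_lit 327) (nat_lit 5) (nat_lit 336) (nat_lit 5) (nat_lit 337) (nat_lit 5) (nat_lit 438) (nat_lit 364) (nat_lit 338))) (XT.nd (nat_lit 78) (nat_lit 608) (nat_lit 0) (XT.lf (nat_lit 0) (nat_lit 73746160) (nat_lit 608) (nat_lit 33165680) (nat_lit 684) (nat_lit 8111105907) (nat_lit 318) (nat_lit 5) (nat_lit 326) (nat_lit 5) (nat_lit 327) (nat_lit 5) (nat_lit 439) (nat_lit 364) (nat_lit 337)) (XT.nd (nat_lit 78) (nat_lit 608) (nat_lit 0) (XT.lf (nat_lit 0) (nat_lit 3505039205)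 (nat_lit 684) (nat_lit 1804610433) (nat_lit 76) (nat_lit 2974452678) (nat_lit 318) (nat_lit 5) (nat_lit 327) (nat_lit 5) (nat_lit 319) (nat_lit 5) (nat_lit 440) (nat_lit 364) (nat_lit 336)) (XT.lf (nat_lit 0) (nat_lit 4654630043) (nat_lit 608) (nat_lit 2294753288) (nat_lit 684) (nat_lit 1402560160) (nat_lit 310) (nat_lit 5) (nat_lit 318) (nat_lit 5) (nat_lit 319) (nat_lit 5) (nat_lit 441) (nat_lit 364) (nat_lit 335))))) (XT.nd (nat_lit 234) (nat_lit 1748) (nat_lit 0) (XT.nd (nat_lit 78) (nat_lit 684) (nat_lit 0) (XT.lf (nat_lit 0) (nat_lit 1998385765) (nat_lit 684) (nat_lit 5624812321) (nat_lit 76) (nat_lit 798004569) (nat_lit 301) (nat_lit 5) (nat_lit 310) (nat_lit 5) (nat_lit 302) (nat_lit 5) (nat_lit 442) (nat_lit 364) (nat_lit 334)) (XT.nd (nat_lit 78) (nat_lit 76) (nat_lit 0) (XT.lf (nat_lit 0) (nat_lit 897096825) (nat_lit 608) (nat_lit 4546015332) (nat_lit 684) (nat_lit 3048658590) (nat_lit 293) (nat_lit 5) (nat_lit 301) (nat_lit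 5) (nat_lit 302) (nat_lit 5) (nat_lit 443) (nat_lit 364) (nat_lit 333)) (XT.lf (nat_lit 0) (nat_lit 374580382) (nat_lit 684) (nat_lit 1009089870) (nat_lit 76) (nat_lit 7180293888) (nat_lit 292) (nat_lit 5) (nat_lit 301) (nat_lit 5) (nat_lit 293) (nat_lit 5) (nat_lit 444) (nat_lit 364) (nat_lit 332)))) (XT.nd (nat_lit 78) (nat_lit 1216) (nat_lit 0) (XT.lf (nat_lit 0) (nat_lit 3824462529) (nat_lit 608) (nat_lit 2954609929) (nat_lit 76) (nat_lit 1858145911) (nat_lit 285) (nat_lit 5) (nat_lit 293) (nat_lit 5) (nat_lit 286) (nat_lit 5) (nat_lit 445) (nat_lit 364) (nat_lit 331)) (XT.nd (nat_lit 78) (nat_lit 608) (nat_lit 0) (XT.lf (nat_lit 0) (nat_lit 3782349172) (nat_lit 608) (nat_lit 3551726598) (nat_lit 684) (nat_lit 1378047244) (nat_lit 277) (nat_lit 5) (nat_lit 285) (nat_lit 5) (nat_lit 286) (nat_lit 5) (nat_lit 446) (nat_lit 364) (nat_lit 330)) (XT.lf (nat_lit 0) (nat_lit 1847998069) (nat_lit 532) (nat_lit 231847198) (nat_lit 608) (nat_lit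 6708757216) (nat_lit 269) (nat_lit 5) (nat_lit 276) (nat_lit 5) (nat_lit 277) (nat_lit 5) (nat_lit 447) (nat_lit 364) (nat_lit 329))))))) (XT.nd (nat_lit 780) (nat_lit 3876) (nat_lit 0) (XT.nd (nat_lit 390) (nat_lit 1596) (nat_lit 0) (XT.nd (nat_lit 156) (nat_lit 1596) (nat_lit 0) (XT.nd (nat_lit 78) (nat_lit 608) (nat_lit 0) (XT.lf (nat_lit 0) (nat_lit 5593059550) (nat_lit 608) (nat_lit 136313152) (nat_lit 76) (nat_lit 3136964344) (nat_lit 269) (nat_lit 5) (nat_lit 277) (nat_lit 5) (nat_lit 270) (nat_lit 5) (nat_lit 448) (nat_lit 364) (nat_lit 328)) (XT.lf (nat_lit 0) (nat_lit 225495491) (nat_lit 608) (nat_lit 2122461995) (nat_lit 76) (nat_lit 6597686586) (nat_lit 261) (nat_lit 5) (nat_lit 269) (nat_lit 5) (nat_lit 262) (nat_lit 5) (nat_lit 449) (nat_lit 364) (nat_lit 327))) (XT.nd (nat_lit 78) (nat_lit 1064) (nat_lit 0) (XT.lf (nat_lit 0) (nat_lit 3742366515) (nat_lit 608) (nat_lit 4161921939) (nat_lit 76) (nat_lit 1121977023) (nat_lit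 254) (nat_lit 5) (nat_lit 262) (nat_lit 5) (nat_lit 255) (nat_lit 5) (nat_lit 450) (nat_lit 364) (nat_lit 326)) (XT.nd (nat_lit 78) (nat_lit 532) (nat_lit 0) (XT.lf (nat_lit 0) (nat_lit 2865464165) (nat_lit 532) (nat_lit 4464957912) (nat_lit 608) (nat_lit 1778060289) (nat_lit 247) (nat_lit 5) (nat_lit 254) (nat_lit 5) (nat_lit 255) (nat_lit 5) (nat_lit 451) (nat_lit 364) (nat_lit 325)) (XT.lf (nat_lit 0) (nat_lit 828944209) (nat_lit 456) (nat_lit 931406919) (nat_lit 532) (nat_lit 7432038289) (nat_lit 240) (nat_lit 5) (nat_lit 246) (nat_lit 5) (nat_lit 247) (nat_lit 5) (nat_lit 452) (nat_lit 364) (nat_lit 324))))) (XT.nd (nat_lit 156) (nat_lit 1064) (nat_lit 0) (XT.nd (nat_lit 78) (nat_lit 532) (nat_lit 0) (XT.lf (nat_lit 0) (nat_lit 5358166943) (nat_lit 532) (nat_lit 1248026925) (nat_lit 76) (nat_lit 2671296794) (nat_lit 240) (nat_lit 5) (nat_lit 247) (nat_lit 5) (nat_lit 241) (nat_lit 5) (nat_lit 453) (nat_lit 364) (nat_lit 323)) (XT.lf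 (nat_lit 0) (nat_lit 6015310151) (nat_lit 532) (nat_lit 3011673218) (nat_lit 608) (nat_lit 337329677) (nat_lit 233) (nat_lit 5) (nat_lit 240) (nat_lit 5) (nat_lit 241) (nat_lit 5) (nat_lit 454) (nat_lit 364) (nat_lit 322))) (XT.nd (nat_lit 78) (nat_lit 532) (nat_lit 0) (XT.lf (nat_lit 0) (nat_lit 3265365448) (nat_lit 532) (nat_lit 5506085162) (nat_lit 76) (nat_lit 681139533) (nat_lit 226) (nat_lit 5) (nat_lit 233) (nat_lit 5) (nat_lit 227) (nat_lit 5) (nat_lit 455) (nat_lit 364) (nat_lit 321)) (XT.nd (nat_lit 78) (nat_lit 76) (nat_lit 0) (XT.lf (nat_lit 0) (nat_lit 1825132625) (nat_lit 456) (nat_lit 5119206907) (nat_lit 532) (nat_lit 2598073816) (nat_lit 220) (nat_lit 5) (nat_lit 226) (nat_lit 5) (nat_lit 227) (nat_lit 5) (nat_lit 456) (nat_lit 364) (nat_lit 320)) (XT.lf (nat_lit 0) (nat_lit 1040594457) (nat_lit 532) (nat_lit 330601414) (nat_lit 76) (nat_lit 8262865650) (nat_lit 219) (nat_lit 5) (nat_lit 226) (nat_lit 5) (nat_lit 220)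 (nat_lit 5) (nat_lit 457) (nat_lit 364) (nat_lit 319)))))) (XT.nd (nat_lit 390) (nat_lit 2052) (nat_lit 0) (XT.nd (nat_lit 156) (nat_lit 912) (nat_lit 0) (XT.nd (nat_lit 78) (nat_lit 456) (nat_lit 0) (XT.lf (nat_lit 0) (nat_lit 4735697733) (nat_lit 532) (nat_lit 2528570595) (nat_lit 76) (nat_lit 2462561868) (nat_lit 213) (nat_lit 5) (nat_lit 220) (nat_lit 5) (nat_lit 214) (nat_lit 5) (nat_lit 458) (nat_lit 364) (nat_lit 318)) (XT.lf (nat_lit 0) (nat_lit 5051171954) (nat_lit 456) (nat_lit 3453318502) (nat_lit 532) (nat_lit 1316968041) (nat_lit 207) (nat_lit 5) (nat_lit 213) (nat_lit 5) (nat_lit 214) (nat_lit 5) (nat_lit 459) (nat_lit 364) (nat_lit 317))) (XT.nd (nat_lit 78) (nat_lit 456) (nat_lit 0) (XT.lf (nat_lit 0) (nat_lit 2393245343) (nat_lit 456) (nat_lit 7067062869) (nat_lit 76) (nat_lit 457466631) (nat_lit 201) (nat_lit 5) (nat_lit 207) (nat_lit 5) (nat_lit 202) (nat_lit 5) (nat_lit 460) (nat_lit 364) (nat_lit 316)) (XT.nd (nat_lit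 78) (nat_lit 0) (nat_lit 0) (XT.lf (nat_lit 0) (nat_lit 582062147) (nat_lit 456) (nat_lit 5592968004) (nat_lit 532) (nat_lit 3840513234) (nat_lit 195) (nat_lit 5) (nat_lit 201) (nat_lit 5) (nat_lit 202) (nat_lit 5) (nat_lit 461) (nat_lit 364) (nat_lit 315)) (XT.lf (nat_lit 0) (nat_lit 8413223497) (nat_lit 456) (nat_lit 1623191022) (nat_lit 532) (nat_lit 78773502) (nat_lit 195) (nat_lit 5) (nat_lit 201) (nat_lit 5) (nat_lit 202) (nat_lit 5) (nat_lit 462) (nat_lit 364) (nat_lit 314))))) (XT.nd (nat_lit 234) (nat_lit 760) (nat_lit 0) (XT.nd (nat_lit 78) (nat_lit 836) (nat_lit 0) (XT.lf (nat_lit 0) (nat_lit 3722140432) (nat_lit 456) (nat_lit 4057660112) (nat_lit 76) (nat_lit 2436272413) (nat_lit 189) (nat_lit 5) (nat_lit 195) (nat_lit 5) (nat_lit 190) (nat_lit 5) (nat_lit 463) (nat_lit 364) (nat_lit 313)) (XT.nd (nat_lit 78) (nat_lit 456) (nat_lit 0) (XT.lf (nat_lit 0) (nat_lit 3853241505) (nat_lit 380) (nat_lit 3749416920) (nat_lit 456)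 (nat_lit 2716213942) (nat_lit 184) (nat_lit 5) (nat_lit 189) (nat_lit 5) (nat_lit 190) (nat_lit 5) (nat_lit 464) (nat_lit 364) (nat_lit 312)) (XT.lf (nat_lit 0) (nat_lit 1119285445) (nat_lit 456) (nat_lit 8926282735) (nat_lit 76) (nat_lit 378069150) (nat_lit 178) (nat_lit 5) (nat_lit 184) (nat_lit 5) (nat_lit 179) (nat_lit 5) (nat_lit 465) (nat_lit 364) (nat_lit 311)))) (XT.nd (nat_lit 78) (nat_lit 760) (nat_lit 0) (XT.lf (nat_lit 0) (nat_lit 5021418641) (nat_lit 456) (nat_lit 932140304) (nat_lit 76) (nat_lit 4576053687) (nat_lit 178) (nat_lit 5) (nat_lit 184) (nat_lit 5) (nat_lit 179) (nat_lit 5) (nat_lit 466) (nat_lit 364) (nat_lit 310)) (XT.nd (nat_lit 78) (nat_lit 380) (nat_lit 0) (XT.lf (nat_lit 0) (nat_lit 7251651020) (nat_lit 380) (nat_lit 1755608586) (nat_lit 456) (nat_lit 1630334530) (nat_lit 173) (nat_lit 5) (nat_lit 178) (nat_lit 5) (nat_lit 179) (nat_lit 5) (nat_lit 467) (nat_lit 364) (nat_lit 309)) (XT.lf (nat_lit 0) (nat_lit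 2307652702) (nat_lit 380) (nat_lit 5916982416) (nat_lit 76) (nat_lit 2522536945) (nat_lit 168) (nat_lit 5) (nat_lit 173) (nat_lit 5) (nat_lit 169) (nat_lit 5) (nat_lit 468) (nat_lit 364) (nat_lit 308))))))))
noncomputable def xc60 : XT := (XT.nd (nat_lit 1560) (nat_lit 3648) (nat_lit 0) (XT.nd (nat_lit 780) (nat_lit 2204) (nat_lit 0) (XT.nd (nat_lit 390) (nat_lit 1292) (nat_lit 0) (XT.nd (nat_lit 156) (nat_lit 1140) (nat_lit 0) (XT.nd (nat_lit 78) (nat_lit 0) (nat_lit 0) (XT.lf (nat_lit 0) (nat_lit 2340486669) (nat_lit 380) (nat_lit 3970730222) (nat_lit 456) (nat_lit 4547336179) (nat_lit 163) (nat_lit 5) (nat_lit 168) (nat_lit 5) (nat_lit 169) (nat_lit 5) (nat_lit 469) (nat_lit 364) (nat_lit 307)) (XT.lf (nat_lit 0) (nat_lit 10396366840) (nat_lit 456) (nat_lit 196622681) (nat_lit 76) (nat_lit 379141887) (nat_lit 163) (nat_lit 5) (nat_lit 169) (nat_lit 5) (nat_lit 164) (nat_lit 5) (nat_lit 470) (nat_lit 364) (nat_lit 306))) (XT.nd (nat_lit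 78) (nat_lit 760) (nat_lit 0) (XT.lf (nat_lit 0) (nat_lit 3470127526) (nat_lit 380) (nat_lit 2800695467) (nat_lit 76) (nat_lit 4815897700) (nat_lit 158) (nat_lit 5) (nat_lit 163) (nat_lit 5) (nat_lit 159) (nat_lit 5) (nat_lit 471) (nat_lit 364) (nat_lit 305)) (XT.nd (nat_lit 78) (nat_lit 380) (nat_lit 0) (XT.lf (nat_lit 0) (nat_lit 5744204688) (nat_lit 380) (nat_lit 1843714901) (nat_lit 456) (nat_lit 3615632226) (nat_lit 153) (nat_lit 5) (nat_lit 158) (nat_lit 5) (nat_lit 159) (nat_lit 5) (nat_lit 472) (nat_lit 364) (nat_lit 304)) (XT.lf (nat_lit 0) (nat_lit 476239469) (nat_lit 380) (nat_lit 8191187826) (nat_lit 76) (nat_lit 2654891943) (nat_lit 148) (nat_lit 5) (nat_lit 153) (nat_lit 5) (nat_lit 149) (nat_lit 5) (nat_lit 473) (nat_lit 364) (nat_lit 303))))) (XT.nd (nat_lit 156) (nat_lit 988) (nat_lit 0) (XT.nd (nat_lit 78) (nat_lit 0) (nat_lit 0) (XT.lf (nat_lit 0) (nat_lit 428890374) (nat_lit 304) (nat_lit 4184928228) (nat_lit 380)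 (nat_lit 6828919758) (nat_lit 144) (nat_lit 5) (nat_lit 148) (nat_lit 5) (nat_lit 149) (nat_lit 5) (nat_lit 474) (nat_lit 364) (nat_lit 302)) (XT.lf (nat_lit 0) (nat_lit 8852553561) (nat_lit 380) (nat_lit 2300164524) (nat_lit 76) (nat_lit 412479692) (nat_lit 144) (nat_lit 5) (nat_lit 149) (nat_lit 5) (nat_lit 145) (nat_lit 5) (nat_lit 475) (nat_lit 364) (nat_lit 301))) (XT.nd (nat_lit 78) (nat_lit 608) (nat_lit 0) (XT.lf (nat_lit 0) (nat_lit 1498463514) (nat_lit 380) (nat_lit 5116865801) (nat_lit 76) (nat_lit 5073944206) (nat_lit 139) (nat_lit 5) (nat_lit 144) (nat_lit 5) (nat_lit 140) (nat_lit 5) (nat_lit 476) (nat_lit 364) (nat_lit 300)) (XT.nd (nat_lit 78) (nat_lit 304) (nat_lit 0) (XT.lf (nat_lit 0) (nat_lit 3805900185) (nat_lit 304) (nat_lit 1953277087) (nat_lit 380) (nat_lit 6056260772) (nat_lit 135) (nat_lit 5) (nat_lit 139) (nat_lit 5) (nat_lit 140) (nat_lit 5) (nat_lit 477) (nat_lit 364) (nat_lit 299)) (XT.lf (nat_lit 0) (nat_lit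 963037953) (nat_lit 304) (nat_lit 9162679652) (nat_lit 380) (nat_lit 1817996007) (nat_lit 131) (nat_lit 5) (nat_lit 135) (nat_lit 5) (nat_lit 136) (nat_lit 5) (nat_lit 478) (nat_lit 364) (nat_lit 298)))))) (XT.nd (nat_lit 390) (nat_lit 1216) (nat_lit 0) (XT.nd (nat_lit 156) (nat_lit 608) (nat_lit 0) (XT.nd (nat_lit 78) (nat_lit 304) (nat_lit 0) (XT.lf (nat_lit 0) (nat_lit 2500909322) (nat_lit 380) (nat_lit 1943700959) (nat_lit 76) (nat_lit 7629044540) (nat_lit 130) (nat_lit 5) (nat_lit 135) (nat_lit 5) (nat_lit 131) (nat_lit 5) (nat_lit 479) (nat_lit 364) (nat_lit 297)) (XT.lf (nat_lit 0) (nat_lit 6894290674) (nat_lit 380) (nat_lit 4913771727) (nat_lit 76) (nat_lit 397643295) (nat_lit 126) (nat_lit 5) (nat_lit 131) (nat_lit 5) (nat_lit 127) (nat_lit 5) (nat_lit 480) (nat_lit 364) (nat_lit 296))) (XT.nd (nat_lit 78) (nat_lit 380) (nat_lit 0) (XT.lf (nat_lit 0) (nat_lit 4362986585) (nat_lit 228) (nat_lit 7046050218) (nat_lit 304) (nat_lit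 930690843) (nat_lit 123) (nat_lit 5) (nat_lit 126) (nat_lit 5) (nat_lit 127) (nat_lit 5) (nat_lit 481) (nat_lit 364) (nat_lit 295)) (XT.nd (nat_lit 78) (nat_lit 0) (nat_lit 0) (XT.lf (nat_lit 0) (nat_lit 1347313922) (nat_lit 304) (nat_lit 2148562697) (nat_lit 380) (nat_lit 8980001528) (nat_lit 118) (nat_lit 5) (nat_lit 122) (nat_lit 5) (nat_lit 123) (nat_lit 5) (nat_lit 482) (nat_lit 364) (nat_lit 294)) (XT.lf (nat_lit 0) (nat_lit 8033732652) (nat_lit 380) (nat_lit 1736147699) (nat_lit 76) (nat_lit 2844043885) (nat_lit 118) (nat_lit 5) (nat_lit 123) (nat_lit 5) (nat_lit 119) (nat_lit 5) (nat_lit 483) (nat_lit 364) (nat_lit 293))))) (XT.nd (nat_lit 156) (nat_lit 608) (nat_lit 0) (XT.nd (nat_lit 78) (nat_lit 380) (nat_lit 0) (XT.lf (nat_lit 0) (nat_lit 7870919108) (nat_lit 228) (nat_lit 4820328526) (nat_lit 304) (nat_lit 62905576) (nat_lit 115) (nat_lit 5) (nat_lit 118) (nat_lit 5) (nat_lit 119) (nat_lit 5) (nat_lit 484) (nat_lit 364) (nat_lit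 292)) (XT.lf (nat_lit 0) (nat_lit 4493237034) (nat_lit 380) (nat_lit 8130885396) (nat_lit 76) (nat_lit 272311871) (nat_lit 110) (nat_lit 5) (nat_lit 115) (nat_lit 5) (nat_lit 111) (nat_lit 5) (nat_lit 485) (nat_lit 364) (nat_lit 291))) (XT.nd (nat_lit 78) (nat_lit 380) (nat_lit 0) (XT.lf (nat_lit 0) (nat_lit 1558058126) (nat_lit 228) (nat_lit 7620414860) (nat_lit 304) (nat_lit 3862303455) (nat_lit 107) (nat_lit 5) (nat_lit 110) (nat_lit 5) (nat_lit 111) (nat_lit 5) (nat_lit 486) (nat_lit 364) (nat_lit 290)) (XT.nd (nat_lit 78) (nat_lit 304) (nat_lit 0) (XT.lf (nat_lit 0) (nat_lit 778098132) (nat_lit 304) (nat_lit 1703759147) (nat_lit 76) (nat_lit 10705672619) (nat_lit 106) (nat_lit 5) (nat_lit 110) (nat_lit 5) (nat_lit 107) (nat_lit 5) (nat_lit 487) (nat_lit 364) (nat_lit 289)) (XT.lf (nat_lit 0) (nat_lit 5496321826) (nat_lit 380) (nat_lit 5061911747) (nat_lit 76) (nat_lit 2777739648) (nat_lit 102) (nat_lit 5) (nat_lit 107) (nat_lit 5)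 (nat_lit 103) (nat_lit 5) (nat_lit 488) (nat_lit 364) (nat_lit 288))))))) (XT.nd (nat_lit 780) (nat_lit 1596) (nat_lit 0) (XT.nd (nat_lit 390) (nat_lit 988) (nat_lit 0) (XT.nd (nat_lit 156) (nat_lit 532) (nat_lit 0) (XT.nd (nat_lit 78) (nat_lit 304) (nat_lit 0) (XT.lf (nat_lit 0) (nat_lit 4974716708) (nat_lit 228) (nat_lit 5359135740) (nat_lit 304) (nat_lit 3153034113) (nat_lit 99) (nat_lit 5) (nat_lit 102) (nat_lit 5) (nat_lit 103) (nat_lit 5) (nat_lit 489) (nat_lit 364) (nat_lit 287)) (XT.lf (nat_lit 0) (nat_lit 1589149090) (nat_lit 228) (nat_lit 26097449) (nat_lit 304) (nat_lit 12025174846) (nat_lit 95) (nat_lit 5) (nat_lit 98) (nat_lit 5) (nat_lit 99) (nat_lit 5) (nat_lit 490) (nat_lit 364) (nat_lit 286))) (XT.nd (nat_lit 78) (nat_lit 532) (nat_lit 0) (XT.lf (nat_lit 0) (nat_lit 6494248979) (nat_lit 304) (nat_lit 1905995170) (nat_lit 76) (nat_lit 5395214419) (nat_lit 95) (nat_lit 5) (nat_lit 99) (nat_lit 5) (nat_lit 96) (nat_lit 5)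 (nat_lit 491) (nat_lit 364) (nat_lit 285)) (XT.nd (nat_lit 78) (nat_lit 304) (nat_lit 0) (XT.lf (nat_lit 0) (nat_lit 8493027939) (nat_lit 228) (nat_lit 2998694924) (nat_lit 304) (nat_lit 2461455804) (nat_lit 92) (nat_lit 5) (nat_lit 95) (nat_lit 5) (nat_lit 96) (nat_lit 5) (nat_lit 492) (nat_lit 364) (nat_lit 284)) (XT.lf (nat_lit 0) (nat_lit 2470152449) (nat_lit 304) (nat_lit 9128980028) (nat_lit 76) (nat_lit 2514048879) (nat_lit 88) (nat_lit 5) (nat_lit 92) (nat_lit 5) (nat_lit 89) (nat_lit 5) (nat_lit 493) (nat_lit 364) (nat_lit 283))))) (XT.nd (nat_lit 156) (nat_lit 760) (nat_lit 0) (XT.nd (nat_lit 78) (nat_lit 0) (nat_lit 0) (XT.lf (nat_lit 0) (nat_lit 1356643659) (nat_lit 228) (nat_lit 6142122569) (nat_lit 304) (nat_lit 6776665820) (nat_lit 85) (nat_lit 5) (nat_lit 88) (nat_lit 5) (nat_lit 89) (nat_lit 5) (nat_lit 494) (nat_lit 364) (nat_lit 282)) (XT.lf (nat_lit 0) (nat_lit 12115574603) (nat_lit 228) (nat_lit 539670117) (nat_lit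 304) (nat_lit 1785137185) (nat_lit 85) (nat_lit 5) (nat_lit 88) (nat_lit 5) (nat_lit 89) (nat_lit 5) (nat_lit 495) (nat_lit 364) (nat_lit 281))) (XT.nd (nat_lit 78) (nat_lit 456) (nat_lit 0) (XT.lf (nat_lit 0) (nat_lit 3318540733) (nat_lit 304) (nat_lit 6129901006) (nat_lit 76) (nat_lit 5158646088) (nat_lit 81) (nat_lit 5) (nat_lit 85) (nat_lit 5) (nat_lit 82) (nat_lit 5) (nat_lit 496) (nat_lit 364) (nat_lit 280)) (XT.nd (nat_lit 78) (nat_lit 228) (nat_lit 0) (XT.lf (nat_lit 0) (nat_lit 4737022151) (nat_lit 228) (nat_lit 3780007645) (nat_lit 304) (nat_lit 6259529267) (nat_lit 78) (nat_lit 5) (nat_lit 81) (nat_lit 5) (nat_lit 82) (nat_lit 5) (nat_lit 497) (nat_lit 364) (nat_lit 279)) (XT.lf (nat_lit 0) (nat_lit 894616568) (nat_lit 228) (nat_lit 12951771697) (nat_lit 304) (nat_lit 1102493465) (nat_lit 75) (nat_lit 5) (nat_lit 78) (nat_lit 5) (nat_lit 79) (nat_lit 5) (nat_lit 498) (nat_lit 364) (nat_lit 278)))))) (XT.nd (nat_lit 390) (nat_lit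 912) (nat_lit 0) (XT.nd (nat_lit 156) (nat_lit 456) (nat_lit 0) (XT.nd (nat_lit 78) (nat_lit 152) (nat_lit 0) (XT.lf (nat_lit 0) (nat_lit 4162740890) (nat_lit 304) (nat_lit 3051911549) (nat_lit 76) (nat_lit 7908266790) (nat_lit 74) (nat_lit 5) (nat_lit 78) (nat_lit 5) (nat_lit 75) (nat_lit 5) (nat_lit 499) (nat_lit 364) (nat_lit 277)) (XT.lf (nat_lit 0) (nat_lit 8212388897) (nat_lit 152) (nat_lit 1326851639) (nat_lit 228) (nat_lit 5760636733) (nat_lit 72) (nat_lit 5) (nat_lit 74) (nat_lit 5) (nat_lit 75) (nat_lit 5) (nat_lit 500) (nat_lit 364) (nat_lit 276))) (XT.nd (nat_lit 78) (nat_lit 228) (nat_lit 0) (XT.lf (nat_lit 0) (nat_lit 4229740205) (nat_lit 228) (nat_lit 10839468729) (nat_lit 304) (nat_lit 410246760) (nat_lit 69) (nat_lit 5) (nat_lit 72) (nat_lit 5) (nat_lit 73) (nat_lit 5) (nat_lit 501) (nat_lit 364) (nat_lit 275)) (XT.nd (nat_lit 78) (nat_lit 0) (nat_lit 0) (XT.lf (nat_lit 0) (nat_lit 108618033) (nat_lit 152) (nat_lit 4897236395)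 (nat_lit 228) (nat_lit 10655617918) (nat_lit 66) (nat_lit 5) (nat_lit 68) (nat_lit 5) (nat_lit 69) (nat_lit 5) (nat_lit 502) (nat_lit 364) (nat_lit 274)) (XT.lf (nat_lit 0) (nat_lit 10575956376) (nat_lit 228) (nat_lit 4068517573) (nat_lit 76) (nat_lit 1201577706) (nat_lit 66) (nat_lit 5) (nat_lit 69) (nat_lit 5) (nat_lit 67) (nat_lit 5) (nat_lit 503) (nat_lit 364) (nat_lit 273))))) (XT.nd (nat_lit 234) (nat_lit 456) (nat_lit 0) (XT.nd (nat_lit 78) (nat_lit 152) (nat_lit 0) (XT.lf (nat_lit 0) (nat_lit 270938090) (nat_lit 304) (nat_lit 8379199064) (nat_lit 76) (nat_lit 7383141889) (nat_lit 62) (nat_lit 5) (nat_lit 66) (nat_lit 5) (nat_lit 63) (nat_lit 5) (nat_lit 504) (nat_lit 364) (nat_lit 272)) (XT.nd (nat_lit 78) (nat_lit 0) (nat_lit 0) (XT.lf (nat_lit 0) (nat_lit 3394383502) (nat_lit 152) (nat_lit 2475725631) (nat_lit 228) (nat_lit 10353087464) (nat_lit 60) (nat_lit 5) (nat_lit 62) (nat_lit 5) (nat_lit 63) (nat_lit 5) (nat_lit 505)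 (nat_lit 364) (nat_lit 271)) (XT.lf (nat_lit 0) (nat_lit 11631059709) (nat_lit 228) (nat_lit 981665623) (nat_lit 76) (nat_lit 3803191250) (nat_lit 60) (nat_lit 5) (nat_lit 63) (nat_lit 5) (nat_lit 61) (nat_lit 5) (nat_lit 506) (nat_lit 364) (nat_lit 270)))) (XT.nd (nat_lit 78) (nat_lit 152) (nat_lit 0) (XT.lf (nat_lit 0) (nat_lit 941344040) (nat_lit 304) (nat_lit 5441497661) (nat_lit 76) (nat_lit 10228366273) (nat_lit 56) (nat_lit 5) (nat_lit 60) (nat_lit 5) (nat_lit 57) (nat_lit 5) (nat_lit 507) (nat_lit 364) (nat_lit 269)) (XT.nd (nat_lit 51714) (nat_lit 0) (nat_lit 43624) (XT.lf (nat_lit 0) (nat_lit 6737862345) (nat_lit 228) (nat_lit 10042016850) (nat_lit 76) (nat_lit 29496189) (nat_lit 54) (nat_lit 5) (nat_lit 57) (nat_lit 5) (nat_lit 55) (nat_lit 5) (nat_lit 508) (nat_lit 364) (nat_lit 268)) (XT.lf (nat_lit 0) (nat_lit 407220190) (nat_lit 1444) (nat_lit 2619919279) (nat_lit 0) (nat_lit 407220190) (nat_lit 628) (nat_lit 5) (nat_lit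 647) (nat_lit 4) (nat_lit 628) (nat_lit 4) (nat_lit 410) (nat_lit 365) (nat_lit 365))))))))
noncomputable def xc61 : XT := (XT.nd (nat_lit 1638) (nat_lit 10640) (nat_lit 0) (XT.nd (nat_lit 780) (nat_lit 7144) (nat_lit 0) (XT.nd (nat_lit 390) (nat_lit 6536) (nat_lit 0) (XT.nd (nat_lit 156) (nat_lit 3192) (nat_lit 0) (XT.nd (nat_lit 78) (nat_lit 1520) (nat_lit 0) (XT.lf (nat_lit 0) (nat_lit 4245491937) (nat_lit 1444) (nat_lit 370196840) (nat_lit 0) (nat_lit 2282055571) (nat_lit 628) (nat_lit 5) (nat_lit 647) (nat_lit 4) (nat_lit 628) (nat_lit 4) (nat_lit 411) (nat_lit 365) (nat_lit 364)) (XT.lf (nat_lit 0) (nat_lit 766051213) (nat_lit 1520) (nat_lit 2340950528) (nat_lit 76) (nat_lit 3821062694) (nat_lit 608) (nat_lit 5) (nat_lit 628) (nat_lit 5) (nat_lit 609) (nat_lit 4) (nat_lit 412) (nat_lit 365) (nat_lit 363))) (XT.nd (nat_lit 78) (nat_lit 1672) (nat_lit 0) (XT.lf (nat_lit 0) (nat_lit 2641392690) (nat_lit 1520) (nat_lit 1525419393) (nat_lit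 1596) (nat_lit 2792836116) (nat_lit 588) (nat_lit 5) (nat_lit 608) (nat_lit 5) (nat_lit 609) (nat_lit 4) (nat_lit 413) (nat_lit 365) (nat_lit 362)) (XT.nd (nat_lit 78) (nat_lit 0) (nat_lit 0) (XT.lf (nat_lit 0) (nat_lit 586830757) (nat_lit 1672) (nat_lit 6290834868) (nat_lit 76) (nat_lit 115083448) (nat_lit 566) (nat_lit 5) (nat_lit 588) (nat_lit 5) (nat_lit 567) (nat_lit 4) (nat_lit 414) (nat_lit 365) (nat_lit 361)) (XT.lf (nat_lit 0) (nat_lit 3967379058) (nat_lit 1672) (nat_lit 1240472111) (nat_lit 76) (nat_lit 1818877901) (nat_lit 566) (nat_lit 5) (nat_lit 588) (nat_lit 5) (nat_lit 567) (nat_lit 4) (nat_lit 415) (nat_lit 365) (nat_lit 360))))) (XT.nd (nat_lit 156) (nat_lit 3040) (nat_lit 0) (XT.nd (nat_lit 78) (nat_lit 1748) (nat_lit 0) (XT.lf (nat_lit 0) (nat_lit 307248793) (nat_lit 1748) (nat_lit 3167711117) (nat_lit 76) (nat_lit 3587227890) (nat_lit 543) (nat_lit 5) (nat_lit 566) (nat_lit 5) (nat_lit 544) (nat_lit 5) (nat_lit 416)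 (nat_lit 365) (nat_lit 359)) (XT.lf (nat_lit 0) (nat_lit 1990621252) (nat_lit 1748) (nat_lit 1664115980) (nat_lit 1824) (nat_lit 3444123580) (nat_lit 520) (nat_lit 5) (nat_lit 543) (nat_lit 5) (nat_lit 544) (nat_lit 5) (nat_lit 417) (nat_lit 365) (nat_lit 358))) (XT.nd (nat_lit 78) (nat_lit 1216) (nat_lit 0) (XT.lf (nat_lit 0) (nat_lit 92290663) (nat_lit 1824) (nat_lit 6934137766) (nat_lit 1900) (nat_lit 110693796) (nat_lit 496) (nat_lit 5) (nat_lit 520) (nat_lit 5) (nat_lit 521) (nat_lit 4) (nat_lit 418) (nat_lit 365) (nat_lit 357)) (XT.nd (nat_lit 78) (nat_lit 1140) (nat_lit 0) (XT.lf (nat_lit 0) (nat_lit 3226289212) (nat_lit 1900) (nat_lit 1809232304) (nat_lit 76) (nat_lit 2140599694) (nat_lit 495) (nat_lit 5) (nat_lit 520) (nat_lit 5) (nat_lit 496) (nat_lit 5) (nat_lit 419) (nat_lit 365) (nat_lit 356)) (XT.lf (nat_lit 0) (nat_lit 3510465274) (nat_lit 1140) (nat_lit 3076641538) (nat_lit 1216) (nat_lit 629607186) (nat_lit 480) (nat_lit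 5) (nat_lit 495) (nat_lit 5) (nat_lit 496) (nat_lit 5) (nat_lit 420) (nat_lit 365) (nat_lit 355)))))) (XT.nd (nat_lit 390) (nat_lit 3344) (nat_lit 0) (XT.nd (nat_lit 156) (nat_lit 2812) (nat_lit 0) (XT.nd (nat_lit 78) (nat_lit 0) (nat_lit 0) (XT.lf (nat_lit 0) (nat_lit 1640403783) (nat_lit 912) (nat_lit 1039529066) (nat_lit 988) (nat_lit 4578646395) (nat_lit 467) (nat_lit 5) (nat_lit 479) (nat_lit 5) (nat_lit 480) (nat_lit 5) (nat_lit 421) (nat_lit 365) (nat_lit 354)) (XT.lf (nat_lit 0) (nat_lit 6016020101) (nat_lit 988) (nat_lit 234771044) (nat_lit 76) (nat_lit 1051031678) (nat_lit 467) (nat_lit 5) (nat_lit 480) (nat_lit 5) (nat_lit 468) (nat_lit 5) (nat_lit 422) (nat_lit 365) (nat_lit 353))) (XT.nd (nat_lit 78) (nat_lit 1824) (nat_lit 0) (XT.lf (nat_lit 0) (nat_lit 2024797842) (nat_lit 988) (nat_lit 2107186369) (nat_lit 76) (nat_lit 3214096161) (nat_lit 454) (nat_lit 5) (nat_lit 467) (nat_lit 5) (nat_lit 455) (nat_lit 5) (nat_lit 423)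 (nat_lit 365) (nat_lit 352)) (XT.nd (nat_lit 78) (nat_lit 988) (nat_lit 0) (XT.lf (nat_lit 0) (nat_lit 3403935108) (nat_lit 836) (nat_lit 1942780790) (nat_lit 912) (nat_lit 2045090743) (nat_lit 443) (nat_lit 5) (nat_lit 454) (nat_lit 5) (nat_lit 455) (nat_lit 5) (nat_lit 424) (nat_lit 365) (nat_lit 351)) (XT.lf (nat_lit 0) (nat_lit 1245048934) (nat_lit 988) (nat_lit 5880018475) (nat_lit 76) (nat_lit 313903065) (nat_lit 430) (nat_lit 5) (nat_lit 443) (nat_lit 5) (nat_lit 431) (nat_lit 5) (nat_lit 425) (nat_lit 365) (nat_lit 350))))) (XT.nd (nat_lit 234) (nat_lit 1596) (nat_lit 0) (XT.nd (nat_lit 78) (nat_lit 1748) (nat_lit 0) (XT.lf (nat_lit 0) (nat_lit 4553160646) (nat_lit 988) (nat_lit 309669848) (nat_lit 76) (nat_lit 2624385669) (nat_lit 430) (nat_lit 5) (nat_lit 443) (nat_lit 5) (nat_lit 431) (nat_lit 5) (nat_lit 426) (nat_lit 365) (nat_lit 349)) (XT.nd (nat_lit 78) (nat_lit 836) (nat_lit 0) (XT.lf (nat_lit 0) (nat_lit 361533308) (nat_lit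 912) (nat_lit 2162677396) (nat_lit 76) (nat_lit 5012652216) (nat_lit 418) (nat_lit 5) (nat_lit 430) (nat_lit 5) (nat_lit 419) (nat_lit 5) (nat_lit 427) (nat_lit 365) (nat_lit 348)) (XT.lf (nat_lit 0) (nat_lit 3549222744) (nat_lit 836) (nat_lit 100948460) (nat_lit 912) (nat_lit 3937615039) (nat_lit 407) (nat_lit 5) (nat_lit 418) (nat_lit 5) (nat_lit 419) (nat_lit 5) (nat_lit 428) (nat_lit 365) (nat_lit 347)))) (XT.nd (nat_lit 78) (nat_lit 836) (nat_lit 0) (XT.lf (nat_lit 0) (nat_lit 1705103836) (nat_lit 760) (nat_lit 5282474956) (nat_lit 836) (nat_lit 652489303) (nat_lit 397) (nat_lit 5) (nat_lit 407) (nat_lit 5) (nat_lit 408) (nat_lit 5) (nat_lit 429) (nat_lit 365) (nat_lit 346)) (XT.nd (nat_lit 78) (nat_lit 760) (nat_lit 0) (XT.lf (nat_lit 0) (nat_lit 2633150027) (nat_lit 836) (nat_lit 160168166) (nat_lit 76) (nat_lit 4900322996) (nat_lit 396) (nat_lit 5) (nat_lit 407) (nat_lit 5) (nat_lit 397) (nat_lit 5) (nat_lit 430) (nat_lit 365)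 (nat_lit 345)) (XT.lf (nat_lit 0) (nat_lit 5735003133) (nat_lit 760) (nat_lit 221389501) (nat_lit 836) (nat_lit 1792194306) (nat_lit 386) (nat_lit 5) (nat_lit 396) (nat_lit 5) (nat_lit 397) (nat_lit 5) (nat_lit 431) (nat_lit 365) (nat_lit 344))))))) (XT.nd (nat_lit 780) (nat_lit 4864) (nat_lit 0) (XT.nd (nat_lit 390) (nat_lit 2736) (nat_lit 0) (XT.nd (nat_lit 156) (nat_lit 1444) (nat_lit 0) (XT.nd (nat_lit 78) (nat_lit 760) (nat_lit 0) (XT.lf (nat_lit 0) (nat_lit 1507259453) (nat_lit 836) (nat_lit 3900083602) (nat_lit 76) (nat_lit 2397368234) (nat_lit 375) (nat_lit 5) (nat_lit 386) (nat_lit 5) (nat_lit 376) (nat_lit 5) (nat_lit 432) (nat_lit 365) (nat_lit 343)) (XT.lf (nat_lit 0) (nat_lit 2053377527) (nat_lit 760) (nat_lit 2768056568) (nat_lit 836) (nat_lit 3040832516) (nat_lit 365) (nat_lit 5) (nat_lit 375) (nat_lit 5) (nat_lit 376) (nat_lit 5) (nat_lit 433) (nat_lit 365) (nat_lit 342))) (XT.nd (nat_lit 78) (nat_lit 684) (nat_lit 0)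 (XT.lf (nat_lit 0) (nat_lit 191606230) (nat_lit 684) (nat_lit 57820557) (nat_lit 760) (nat_lit 7672065938) (nat_lit 355) (nat_lit 5) (nat_lit 364) (nat_lit 5) (nat_lit 365) (nat_lit 5) (nat_lit 434) (nat_lit 365) (nat_lit 341)) (XT.nd (nat_lit 78) (nat_lit 684) (nat_lit 0) (XT.lf (nat_lit 0) (nat_lit 3566801888) (nat_lit 760) (nat_lit 1696049313) (nat_lit 76) (nat_lit 2718609613) (nat_lit 355) (nat_lit 5) (nat_lit 365) (nat_lit 5) (nat_lit 356) (nat_lit 5) (nat_lit 435) (nat_lit 365) (nat_lit 340)) (XT.lf (nat_lit 0) (nat_lit 4449964612) (nat_lit 684) (nat_lit 2476087144) (nat_lit 760) (nat_lit 1117065963) (nat_lit 346) (nat_lit 5) (nat_lit 355) (nat_lit 5) (nat_lit 356) (nat_lit 5) (nat_lit 436) (nat_lit 365) (nat_lit 339))))) (XT.nd (nat_lit 156) (nat_lit 1292) (nat_lit 0) (XT.nd (nat_lit 78) (nat_lit 684) (nat_lit 0) (XT.lf (nat_lit 0) (nat_lit 2194381913) (nat_lit 760) (nat_lit 5520150640) (nat_lit 76) (nat_lit 391636178) (nat_lit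 336) (nat_lit 5) (nat_lit 346) (nat_lit 5) (nat_lit 337) (nat_lit 5) (nat_lit 437) (nat_lit 365) (nat_lit 338)) (XT.lf (nat_lit 0) (nat_lit 685228776) (nat_lit 684) (nat_lit 4864061069) (nat_lit 760) (nat_lit 2621199469) (nat_lit 327) (nat_lit 5) (nat_lit 336) (nat_lit 5) (nat_lit 337) (nat_lit 5) (nat_lit 438) (nat_lit 365) (nat_lit 337))) (XT.nd (nat_lit 78) (nat_lit 1216) (nat_lit 0) (XT.lf (nat_lit 0) (nat_lit 710159418) (nat_lit 760) (nat_lit 1218371868) (nat_lit 76) (nat_lit 6307777513) (nat_lit 326) (nat_lit 5) (nat_lit 336) (nat_lit 5) (nat_lit 327) (nat_lit 5) (nat_lit 439) (nat_lit 365) (nat_lit 336)) (XT.nd (nat_lit 78) (nat_lit 608) (nat_lit 0) (XT.lf (nat_lit 0) (nat_lit 4062077287) (nat_lit 684) (nat_lit 3152695743) (nat_lit 76) (nat_lit 1088544527) (nat_lit 318) (nat_lit 5) (nat_lit 327) (nat_lit 5) (nat_lit 319) (nat_lit 5) (nat_lit 440) (nat_lit 365) (nat_lit 335)) (XT.lf (nat_lit 0) (nat_lit 3255167540) (nat_lit 608)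 (nat_lit 4216839362) (nat_lit 684) (nat_lit 899840122) (nat_lit 310) (nat_lit 5) (nat_lit 318) (nat_lit 5) (nat_lit 319) (nat_lit 5) (nat_lit 441) (nat_lit 365) (nat_lit 334)))))) (XT.nd (nat_lit 390) (nat_lit 2356) (nat_lit 0) (XT.nd (nat_lit 156) (nat_lit 1824) (nat_lit 0) (XT.nd (nat_lit 78) (nat_lit 0) (nat_lit 0) (XT.lf (nat_lit 0) (nat_lit 1326628141) (nat_lit 608) (nat_lit 1127846434) (nat_lit 684) (nat_lit 5987367091) (nat_lit 301) (nat_lit 5) (nat_lit 309) (nat_lit 5) (nat_lit 310) (nat_lit 5) (nat_lit 442) (nat_lit 365) (nat_lit 333)) (XT.lf (nat_lit 0) (nat_lit 5861071872) (nat_lit 684) (nat_lit 631116679) (nat_lit 76) (nat_lit 2020983790) (nat_lit 301) (nat_lit 5) (nat_lit 310) (nat_lit 5) (nat_lit 302) (nat_lit 5) (nat_lit 443) (nat_lit 365) (nat_lit 332))) (XT.nd (nat_lit 78) (nat_lit 1140) (nat_lit 0) (XT.lf (nat_lit 0) (nat_lit 736887154) (nat_lit 684) (nat_lit 2603202865) (nat_lit 76) (nat_lit 5245805228) (nat_lit 292)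 (nat_lit 5) (nat_lit 301) (nat_lit 5) (nat_lit 293) (nat_lit 5) (nat_lit 444) (nat_lit 365) (nat_lit 331)) (XT.nd (nat_lit 78) (nat_lit 608) (nat_lit 0) (XT.lf (nat_lit 0) (nat_lit 4046519499) (nat_lit 532) (nat_lit 92938450) (nat_lit 608) (nat_lit 4520637754) (nat_lit 285) (nat_lit 5) (nat_lit 292) (nat_lit 5) (nat_lit 293) (nat_lit 5) (nat_lit 445) (nat_lit 365) (nat_lit 330)) (XT.lf (nat_lit 0) (nat_lit 2068473320) (nat_lit 608) (nat_lit 5544694918) (nat_lit 684) (nat_lit 1122550169) (nat_lit 277) (nat_lit 5) (nat_lit 285) (nat_lit 5) (nat_lit 286) (nat_lit 5) (nat_lit 446) (nat_lit 365) (nat_lit 329))))) (XT.nd (nat_lit 234) (nat_lit 1140) (nat_lit 0) (XT.nd (nat_lit 78) (nat_lit 608) (nat_lit 0) (XT.lf (nat_lit 0) (nat_lit 52177723) (nat_lit 532) (nat_lit 2244084689) (nat_lit 608) (nat_lit 6516616868) (nat_lit 269) (nat_lit 5) (nat_lit 276) (nat_lit 5) (nat_lit 277) (nat_lit 5) (nat_lit 447) (nat_lit 365) (nat_lit 328)) (XT.nd (nat_lit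 78) (nat_lit 608) (nat_lit 0) (XT.lf (nat_lit 0) (nat_lit 5772541605) (nat_lit 608) (nat_lit 1976682326) (nat_lit 76) (nat_lit 1142128615) (nat_lit 269) (nat_lit 5) (nat_lit 277) (nat_lit 5) (nat_lit 270) (nat_lit 5) (nat_lit 448) (nat_lit 365) (nat_lit 327)) (XT.lf (nat_lit 0) (nat_lit 341974623) (nat_lit 608) (nat_lit 4046902504) (nat_lit 76) (nat_lit 4582481617) (nat_lit 261) (nat_lit 5) (nat_lit 269) (nat_lit 5) (nat_lit 262) (nat_lit 5) (nat_lit 449) (nat_lit 365) (nat_lit 326)))) (XT.nd (nat_lit 78) (nat_lit 608) (nat_lit 0) (XT.lf (nat_lit 0) (nat_lit 2888643811) (nat_lit 532) (nat_lit 926636431) (nat_lit 608) (nat_lit 5237571216) (nat_lit 254) (nat_lit 5) (nat_lit 261) (nat_lit 5) (nat_lit 262) (nat_lit 5) (nat_lit 450) (nat_lit 365) (nat_lit 325)) (XT.nd (nat_lit 78) (nat_lit 76) (nat_lit 0) (XT.lf (nat_lit 0) (nat_lit 809265597) (nat_lit 532) (nat_lit 6551580037) (nat_lit 608) (nat_lit 1775072517) (nat_lit 247) (nat_lit 5) (nat_lit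 254) (nat_lit 5) (nat_lit 255) (nat_lit 5) (nat_lit 451) (nat_lit 365) (nat_lit 324)) (XT.lf (nat_lit 0) (nat_lit 1734883294) (nat_lit 608) (nat_lit 1298632338) (nat_lit 76) (nat_lit 6186877510) (nat_lit 246) (nat_lit 5) (nat_lit 254) (nat_lit 5) (nat_lit 247) (nat_lit 5) (nat_lit 452) (nat_lit 365) (nat_lit 323))))))))
noncomputable def xc62 : XT := (XT.nd (nat_lit 1560) (nat_lit 4712) (nat_lit 0) (XT.nd (nat_lit 780) (nat_lit 3192) (nat_lit 0) (XT.nd (nat_lit 390) (nat_lit 1824) (nat_lit 0) (XT.nd (nat_lit 156) (nat_lit 1064) (nat_lit 0) (XT.nd (nat_lit 78) (nat_lit 532) (nat_lit 0) (XT.lf (nat_lit 0) (nat_lit 5287589548) (nat_lit 532) (nat_lit 3440555697) (nat_lit 76) (nat_lit 578251333) (nat_lit 240) (nat_lit 5) (nat_lit 247) (nat_lit 5) (nat_lit 241) (nat_lit 5) (nat_lit 453) (nat_lit 365) (nat_lit 322)) (XT.lf (nat_lit 0) (nat_lit 3760638056) (nat_lit 532) (nat_lit 5158716286) (nat_lit 608) (nat_lit 474605653) (nat_lit 233) (nat_lit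 5) (nat_lit 240) (nat_lit 5) (nat_lit 241) (nat_lit 5) (nat_lit 454) (nat_lit 365) (nat_lit 321))) (XT.nd (nat_lit 78) (nat_lit 532) (nat_lit 0) (XT.lf (nat_lit 0) (nat_lit 1604213148) (nat_lit 456) (nat_lit 1483627810) (nat_lit 532) (nat_lit 6395254936) (nat_lit 226) (nat_lit 5) (nat_lit 232) (nat_lit 5) (nat_lit 233) (nat_lit 5) (nat_lit 455) (nat_lit 365) (nat_lit 320)) (XT.nd (nat_lit 78) (nat_lit 532) (nat_lit 0) (XT.lf (nat_lit 0) (nat_lit 6723162141) (nat_lit 532) (nat_lit 594784669) (nat_lit 76) (nat_lit 2255845348) (nat_lit 226) (nat_lit 5) (nat_lit 233) (nat_lit 5) (nat_lit 227) (nat_lit 5) (nat_lit 456) (nat_lit 365) (nat_lit 319)) (XT.lf (nat_lit 0) (nat_lit 765319076) (nat_lit 532) (nat_lit 2821107650) (nat_lit 76) (nat_lit 6079567031) (nat_lit 219) (nat_lit 5) (nat_lit 226) (nat_lit 5) (nat_lit 220) (nat_lit 5) (nat_lit 457) (nat_lit 365) (nat_lit 318))))) (XT.nd (nat_lit 156) (nat_lit 912) (nat_lit 0) (XT.nd (nat_lit 78)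 (nat_lit 456) (nat_lit 0) (XT.lf (nat_lit 0) (nat_lit 4407604529) (nat_lit 532) (nat_lit 5102987067) (nat_lit 76) (nat_lit 249227192) (nat_lit 213) (nat_lit 5) (nat_lit 220) (nat_lit 5) (nat_lit 214) (nat_lit 5) (nat_lit 458) (nat_lit 365) (nat_lit 317)) (XT.lf (nat_lit 0) (nat_lit 2409716195) (nat_lit 456) (nat_lit 5728019548) (nat_lit 532) (nat_lit 1717484576) (nat_lit 207) (nat_lit 5) (nat_lit 213) (nat_lit 5) (nat_lit 214) (nat_lit 5) (nat_lit 459) (nat_lit 365) (nat_lit 316))) (XT.nd (nat_lit 78) (nat_lit 456) (nat_lit 0) (XT.lf (nat_lit 0) (nat_lit 112747588) (nat_lit 380) (nat_lit 1842988166) (nat_lit 456) (nat_lit 7996697837) (nat_lit 201) (nat_lit 5) (nat_lit 206) (nat_lit 5) (nat_lit 207) (nat_lit 5) (nat_lit 460) (nat_lit 365) (nat_lit 315)) (XT.nd (nat_lit 78) (nat_lit 456) (nat_lit 0) (XT.lf (nat_lit 0) (nat_lit 5700475273) (nat_lit 456) (nat_lit 2218836228) (nat_lit 76) (nat_lit 2131631539) (nat_lit 201) (nat_lit 5) (nat_lit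 207) (nat_lit 5) (nat_lit 202) (nat_lit 5) (nat_lit 461) (nat_lit 365) (nat_lit 314)) (XT.lf (nat_lit 0) (nat_lit 5550445185) (nat_lit 456) (nat_lit 3975723931) (nat_lit 532) (nat_lit 625132370) (nat_lit 195) (nat_lit 5) (nat_lit 201) (nat_lit 5) (nat_lit 202) (nat_lit 5) (nat_lit 462) (nat_lit 365) (nat_lit 313)))))) (XT.nd (nat_lit 390) (nat_lit 1520) (nat_lit 0) (XT.nd (nat_lit 156) (nat_lit 836) (nat_lit 0) (XT.nd (nat_lit 78) (nat_lit 380) (nat_lit 0) (XT.lf (nat_lit 0) (nat_lit 3127373732) (nat_lit 456) (nat_lit 7045429987) (nat_lit 76) (nat_lit 80565117) (nat_lit 189) (nat_lit 5) (nat_lit 195) (nat_lit 5) (nat_lit 190) (nat_lit 5) (nat_lit 463) (nat_lit 365) (nat_lit 312)) (XT.lf (nat_lit 0) (nat_lit 793175287) (nat_lit 380) (nat_lit 6174160947) (nat_lit 456) (nat_lit 3389643123) (nat_lit 184) (nat_lit 5) (nat_lit 189) (nat_lit 5) (nat_lit 190) (nat_lit 5) (nat_lit 464) (nat_lit 365) (nat_lit 311))) (XT.nd (nat_lit 78) (nat_lit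 760) (nat_lit 0) (XT.lf (nat_lit 0) (nat_lit 421837805) (nat_lit 456) (nat_lit 1645806088) (nat_lit 76) (nat_lit 8394844887) (nat_lit 183) (nat_lit 5) (nat_lit 189) (nat_lit 5) (nat_lit 184) (nat_lit 5) (nat_lit 465) (nat_lit 365) (nat_lit 310)) (XT.nd (nat_lit 78) (nat_lit 380) (nat_lit 0) (XT.lf (nat_lit 0) (nat_lit 4279143433) (nat_lit 456) (nat_lit 4155091528) (nat_lit 76) (nat_lit 2135125671) (nat_lit 178) (nat_lit 5) (nat_lit 184) (nat_lit 5) (nat_lit 179) (nat_lit 5) (nat_lit 466) (nat_lit 365) (nat_lit 309)) (XT.lf (nat_lit 0) (nat_lit 3953734417) (nat_lit 380) (nat_lit 4269736077) (nat_lit 456) (nat_lit 2454701921) (nat_lit 173) (nat_lit 5) (nat_lit 178) (nat_lit 5) (nat_lit 179) (nat_lit 5) (nat_lit 467) (nat_lit 365) (nat_lit 308))))) (XT.nd (nat_lit 156) (nat_lit 1140) (nat_lit 0) (XT.nd (nat_lit 78) (nat_lit 0) (nat_lit 0) (XT.lf (nat_lit 0) (nat_lit 1435333978) (nat_lit 380) (nat_lit 9351560609) (nat_lit 76) (nat_lit 2138062)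 (nat_lit 168) (nat_lit 5) (nat_lit 173) (nat_lit 5) (nat_lit 169) (nat_lit 5) (nat_lit 468) (nat_lit 365) (nat_lit 307)) (XT.lf (nat_lit 0) (nat_lit 5403770371) (nat_lit 380) (nat_lit 1156669875) (nat_lit 76) (nat_lit 4340675966) (nat_lit 168) (nat_lit 5) (nat_lit 173) (nat_lit 5) (nat_lit 169) (nat_lit 5) (nat_lit 469) (nat_lit 365) (nat_lit 306))) (XT.nd (nat_lit 78) (nat_lit 760) (nat_lit 0) (XT.lf (nat_lit 0) (nat_lit 7233852195) (nat_lit 380) (nat_lit 2225217475) (nat_lit 456) (nat_lit 1556221892) (nat_lit 163) (nat_lit 5) (nat_lit 168) (nat_lit 5) (nat_lit 169) (nat_lit 5) (nat_lit 470) (nat_lit 365) (nat_lit 305)) (XT.nd (nat_lit 78) (nat_lit 380) (nat_lit 0) (XT.lf (nat_lit 0) (nat_lit 2444569218) (nat_lit 380) (nat_lit 6487857258) (nat_lit 76) (nat_lit 2198740884) (nat_lit 158) (nat_lit 5) (nat_lit 163) (nat_lit 5) (nat_lit 159) (nat_lit 5) (nat_lit 471) (nat_lit 365) (nat_lit 304)) (XT.lf (nat_lit 0) (nat_lit 1976210773) (nat_lit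 380) (nat_lit 4542302112) (nat_lit 456) (nat_lit 4730362565) (nat_lit 153) (nat_lit 5) (nat_lit 158) (nat_lit 5) (nat_lit 159) (nat_lit 5) (nat_lit 472) (nat_lit 365) (nat_lit 303))))))) (XT.nd (nat_lit 780) (nat_lit 2356) (nat_lit 0) (XT.nd (nat_lit 390) (nat_lit 1292) (nat_lit 0) (XT.nd (nat_lit 156) (nat_lit 684) (nat_lit 0) (XT.nd (nat_lit 78) (nat_lit 380) (nat_lit 0) (XT.lf (nat_lit 0) (nat_lit 10634465560) (nat_lit 380) (nat_lit 44209430) (nat_lit 456) (nat_lit 690167920) (nat_lit 153) (nat_lit 5) (nat_lit 158) (nat_lit 5) (nat_lit 159) (nat_lit 5) (nat_lit 473) (nat_lit 365) (nat_lit 302)) (XT.lf (nat_lit 0) (nat_lit 3429291557) (nat_lit 380) (nat_lit 3525385153) (nat_lit 76) (nat_lit 4535218368) (nat_lit 148) (nat_lit 5) (nat_lit 153) (nat_lit 5) (nat_lit 149) (nat_lit 5) (nat_lit 474) (nat_lit 365) (nat_lit 301))) (XT.nd (nat_lit 78) (nat_lit 380) (nat_lit 0) (XT.lf (nat_lit 0) (nat_lit 5235320753) (nat_lit 304) (nat_lit 2387736139)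 (nat_lit 380) (nat_lit 3990196996) (nat_lit 144) (nat_lit 5) (nat_lit 148) (nat_lit 5) (nat_lit 149) (nat_lit 5) (nat_lit 475) (nat_lit 365) (nat_lit 300)) (XT.nd (nat_lit 78) (nat_lit 0) (nat_lit 0) (XT.lf (nat_lit 0) (nat_lit 176061312) (nat_lit 380) (nat_lit 9305144705) (nat_lit 76) (nat_lit 2257521605) (nat_lit 139) (nat_lit 5) (nat_lit 144) (nat_lit 5) (nat_lit 140) (nat_lit 5) (nat_lit 476) (nat_lit 365) (nat_lit 299)) (XT.lf (nat_lit 0) (nat_lit 4393342191) (nat_lit 380) (nat_lit 463373574) (nat_lit 76) (nat_lit 7009045037) (nat_lit 139) (nat_lit 5) (nat_lit 144) (nat_lit 5) (nat_lit 140) (nat_lit 5) (nat_lit 477) (nat_lit 365) (nat_lit 298))))) (XT.nd (nat_lit 156) (nat_lit 608) (nat_lit 0) (XT.nd (nat_lit 78) (nat_lit 380) (nat_lit 0) (XT.lf (nat_lit 0) (nat_lit 8606559379) (nat_lit 304) (nat_lit 107211007) (nat_lit 380) (nat_lit 3281188228) (nat_lit 135) (nat_lit 5) (nat_lit 139) (nat_lit 5) (nat_lit 140) (nat_lit 5) (nat_lit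 478) (nat_lit 365) (nat_lit 297)) (XT.lf (nat_lit 0) (nat_lit 1015177580) (nat_lit 380) (nat_lit 6412723812) (nat_lit 76) (nat_lit 4698023021) (nat_lit 130) (nat_lit 5) (nat_lit 135) (nat_lit 5) (nat_lit 131) (nat_lit 5) (nat_lit 479) (nat_lit 365) (nat_lit 296))) (XT.nd (nat_lit 78) (nat_lit 304) (nat_lit 0) (XT.lf (nat_lit 0) (nat_lit 2735185364) (nat_lit 304) (nat_lit 2622925583) (nat_lit 380) (nat_lit 6900873302) (nat_lit 126) (nat_lit 5) (nat_lit 130) (nat_lit 5) (nat_lit 131) (nat_lit 5) (nat_lit 480) (nat_lit 365) (nat_lit 295)) (XT.nd (nat_lit 78) (nat_lit 304) (nat_lit 0) (XT.lf (nat_lit 0) (nat_lit 9809350808) (nat_lit 380) (nat_lit 317908786) (nat_lit 76) (nat_lit 2267016730) (nat_lit 126) (nat_lit 5) (nat_lit 131) (nat_lit 5) (nat_lit 127) (nat_lit 5) (nat_lit 481) (nat_lit 365) (nat_lit 294)) (XT.lf (nat_lit 0) (nat_lit 1834374280) (nat_lit 304) (nat_lit 3430028311) (nat_lit 76) (nat_lit 7266818306) (nat_lit 122) (nat_lit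 5) (nat_lit 126) (nat_lit 5) (nat_lit 123) (nat_lit 5) (nat_lit 482) (nat_lit 365) (nat_lit 293)))))) (XT.nd (nat_lit 390) (nat_lit 1216) (nat_lit 0) (XT.nd (nat_lit 156) (nat_lit 608) (nat_lit 0) (XT.nd (nat_lit 78) (nat_lit 228) (nat_lit 0) (XT.lf (nat_lit 0) (nat_lit 6043422651) (nat_lit 304) (nat_lit 269577623) (nat_lit 380) (nat_lit 6357451313) (nat_lit 118) (nat_lit 5) (nat_lit 122) (nat_lit 5) (nat_lit 123) (nat_lit 5) (nat_lit 483) (nat_lit 365) (nat_lit 292)) (XT.lf (nat_lit 0) (nat_lit 2886225813) (nat_lit 228) (nat_lit 8032494057) (nat_lit 304) (nat_lit 1892996599) (nat_lit 115) (nat_lit 5) (nat_lit 118) (nat_lit 5) (nat_lit 119) (nat_lit 5) (nat_lit 484) (nat_lit 365) (nat_lit 291))) (XT.nd (nat_lit 78) (nat_lit 532) (nat_lit 0) (XT.lf (nat_lit 0) (nat_lit 2636758212) (nat_lit 304) (nat_lit 355746206) (nat_lit 76) (nat_lit 9962738581) (nat_lit 114) (nat_lit 5) (nat_lit 118) (nat_lit 5) (nat_lit 115) (nat_lit 5) (nat_lit 485)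 (nat_lit 365) (nat_lit 290)) (XT.nd (nat_lit 78) (nat_lit 228) (nat_lit 0) (XT.lf (nat_lit 0) (nat_lit 7272517377) (nat_lit 380) (nat_lit 3658102338) (nat_lit 76) (nat_lit 2169954960) (nat_lit 110) (nat_lit 5) (nat_lit 115) (nat_lit 5) (nat_lit 111) (nat_lit 5) (nat_lit 486) (nat_lit 365) (nat_lit 289)) (XT.lf (nat_lit 0) (nat_lit 6194123998) (nat_lit 228) (nat_lit 5834498507) (nat_lit 304) (nat_lit 1219637865) (nat_lit 107) (nat_lit 5) (nat_lit 110) (nat_lit 5) (nat_lit 111) (nat_lit 5) (nat_lit 487) (nat_lit 365) (nat_lit 288))))) (XT.nd (nat_lit 234) (nat_lit 608) (nat_lit 0) (XT.nd (nat_lit 78) (nat_lit 228) (nat_lit 0) (XT.lf (nat_lit 0) (nat_lit 2849117494) (nat_lit 304) (nat_lit 594648342) (nat_lit 380) (nat_lit 9954512545) (nat_lit 102) (nat_lit 5) (nat_lit 106) (nat_lit 5) (nat_lit 107) (nat_lit 5) (nat_lit 488) (nat_lit 365) (nat_lit 287)) (XT.nd (nat_lit 78) (nat_lit 228) (nat_lit 0) (XT.lf (nat_lit 0) (nat_lit 8228003035)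 (nat_lit 380) (nat_lit 603712236) (nat_lit 76) (nat_lit 4718542319) (nat_lit 102) (nat_lit 5) (nat_lit 107) (nat_lit 5) (nat_lit 103) (nat_lit 5) (nat_lit 489) (nat_lit 365) (nat_lit 286)) (XT.lf (nat_lit 0) (nat_lit 9603652487) (nat_lit 228) (nat_lit 3536632965) (nat_lit 304) (nat_lit 564343722) (nat_lit 99) (nat_lit 5) (nat_lit 102) (nat_lit 5) (nat_lit 103) (nat_lit 5) (nat_lit 490) (nat_lit 365) (nat_lit 285)))) (XT.nd (nat_lit 78) (nat_lit 304) (nat_lit 0) (XT.lf (nat_lit 0) (nat_lit 4255067187) (nat_lit 304) (nat_lit 7718620941) (nat_lit 76) (nat_lit 1887391370) (nat_lit 95) (nat_lit 5) (nat_lit 99) (nat_lit 5) (nat_lit 96) (nat_lit 5) (nat_lit 491) (nat_lit 365) (nat_lit 284)) (XT.nd (nat_lit 78) (nat_lit 76) (nat_lit 0) (XT.lf (nat_lit 0) (nat_lit 2573463788) (nat_lit 228) (nat_lit 6623936205) (nat_lit 304) (nat_lit 4822502426) (nat_lit 92) (nat_lit 5) (nat_lit 95) (nat_lit 5) (nat_lit 96) (nat_lit 5) (nat_lit 492) (nat_lit 365)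 (nat_lit 283)) (XT.lf (nat_lit 0) (nat_lit 74382835) (nat_lit 304) (nat_lit 1064807561) (nat_lit 76) (nat_lit 13042335071) (nat_lit 91) (nat_lit 5) (nat_lit 95) (nat_lit 5) (nat_lit 92) (nat_lit 5) (nat_lit 493) (nat_lit 365) (nat_lit 282))))))))
noncomputable def xc63 : XT := (XT.nd (nat_lit 53118) (nat_lit 0) (nat_lit 23408) (XT.nd (nat_lit 780) (nat_lit 760) (nat_lit 0) (XT.nd (nat_lit 390) (nat_lit 912) (nat_lit 0) (XT.nd (nat_lit 156) (nat_lit 532) (nat_lit 0) (XT.nd (nat_lit 78) (nat_lit 228) (nat_lit 0) (XT.lf (nat_lit 0) (nat_lit 5063117881) (nat_lit 304) (nat_lit 4814737189) (nat_lit 76) (nat_lit 4466718665) (nat_lit 88) (nat_lit 5) (nat_lit 92) (nat_lit 5) (nat_lit 89) (nat_lit 5) (nat_lit 494) (nat_lit 365) (nat_lit 281)) (XT.lf (nat_lit 0) (nat_lit 5851014613) (nat_lit 228) (nat_lit 4320419823) (nat_lit 304) (nat_lit 4339052395) (nat_lit 85) (nat_lit 5) (nat_lit 88) (nat_lit 5) (nat_lit 89) (nat_lit 5) (nat_lit 495) (nat_lit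 365) (nat_lit 280))) (XT.nd (nat_lit 78) (nat_lit 228) (nat_lit 0) (XT.lf (nat_lit 0) (nat_lit 715079630) (nat_lit 304) (nat_lit 12607751057) (nat_lit 76) (nat_lit 1356354519) (nat_lit 81) (nat_lit 5) (nat_lit 85) (nat_lit 5) (nat_lit 82) (nat_lit 5) (nat_lit 496) (nat_lit 365) (nat_lit 279)) (XT.nd (nat_lit 78) (nat_lit 228) (nat_lit 0) (XT.lf (nat_lit 0) (nat_lit 5866594771) (nat_lit 304) (nat_lit 1831844189) (nat_lit 76) (nat_lit 7151156959) (nat_lit 81) (nat_lit 5) (nat_lit 85) (nat_lit 5) (nat_lit 82) (nat_lit 5) (nat_lit 497) (nat_lit 365) (nat_lit 278)) (XT.lf (nat_lit 0) (nat_lit 9223334175) (nat_lit 228) (nat_lit 1925571980) (nat_lit 304) (nat_lit 3873953374) (nat_lit 78) (nat_lit 5) (nat_lit 81) (nat_lit 5) (nat_lit 82) (nat_lit 5) (nat_lit 498) (nat_lit 365) (nat_lit 277))))) (XT.nd (nat_lit 156) (nat_lit 456) (nat_lit 0) (XT.nd (nat_lit 78) (nat_lit 152) (nat_lit 0) (XT.lf (nat_lit 0) (nat_lit 1360575532) (nat_lit 304) (nat_lit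 9896081403) (nat_lit 76) (nat_lit 3941941050) (nat_lit 74) (nat_lit 5) (nat_lit 78) (nat_lit 5) (nat_lit 75) (nat_lit 5) (nat_lit 499) (nat_lit 365) (nat_lit 276)) (XT.lf (nat_lit 0) (nat_lit 1248490853) (nat_lit 152) (nat_lit 5427542530) (nat_lit 228) (nat_lit 8700743477) (nat_lit 72) (nat_lit 5) (nat_lit 74) (nat_lit 5) (nat_lit 75) (nat_lit 5) (nat_lit 500) (nat_lit 365) (nat_lit 275))) (XT.nd (nat_lit 78) (nat_lit 456) (nat_lit 0) (XT.lf (nat_lit 0) (nat_lit 12136133532) (nat_lit 228) (nat_lit 2868348226) (nat_lit 76) (nat_lit 553270893) (nat_lit 72) (nat_lit 5) (nat_lit 75) (nat_lit 5) (nat_lit 73) (nat_lit 5) (nat_lit 501) (nat_lit 365) (nat_lit 274)) (XT.nd (nat_lit 78) (nat_lit 152) (nat_lit 0) (XT.lf (nat_lit 0) (nat_lit 1998516607) (nat_lit 304) (nat_lit 7116475069) (nat_lit 76) (nat_lit 6625877865) (nat_lit 68) (nat_lit 5) (nat_lit 72) (nat_lit 5) (nat_lit 69) (nat_lit 5) (nat_lit 502) (nat_lit 365) (nat_lit 273)) (XT.lf (nat_lit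 0) (nat_lit 4437653536) (nat_lit 152) (nat_lit 3060607154) (nat_lit 228) (nat_lit 8428595320) (nat_lit 66) (nat_lit 5) (nat_lit 68) (nat_lit 5) (nat_lit 69) (nat_lit 5) (nat_lit 503) (nat_lit 365) (nat_lit 272)))))) (XT.nd (nat_lit 51870) (nat_lit 0) (nat_lit 40432) (XT.nd (nat_lit 156) (nat_lit 456) (nat_lit 0) (XT.nd (nat_lit 78) (nat_lit 76) (nat_lit 0) (XT.lf (nat_lit 0) (nat_lit 128412291) (nat_lit 228) (nat_lit 13017592745) (nat_lit 304) (nat_lit 2969797063) (nat_lit 63) (nat_lit 5) (nat_lit 66) (nat_lit 5) (nat_lit 67) (nat_lit 5) (nat_lit 504) (nat_lit 365) (nat_lit 271)) (XT.lf (nat_lit 0) (nat_lit 2630897670) (nat_lit 304) (nat_lit 4267012002) (nat_lit 76) (nat_lit 9408944135) (nat_lit 62) (nat_lit 5) (nat_lit 66) (nat_lit 5) (nat_lit 63) (nat_lit 5) (nat_lit 505) (nat_lit 365) (nat_lit 270))) (XT.nd (nat_lit 78) (nat_lit 304) (nat_lit 0) (XT.lf (nat_lit 0) (nat_lit 7713885827) (nat_lit 152) (nat_lit 609603143) (nat_lit 228)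 (nat_lit 8177452007) (nat_lit 60) (nat_lit 5) (nat_lit 62) (nat_lit 5) (nat_lit 63) (nat_lit 5) (nat_lit 506) (nat_lit 365) (nat_lit 269)) (XT.nd (nat_lit 78) (nat_lit 76) (nat_lit 0) (XT.lf (nat_lit 0) (nat_lit 3243094261) (nat_lit 228) (nat_lit 10944010843) (nat_lit 304) (nat_lit 2510661326) (nat_lit 57) (nat_lit 5) (nat_lit 60) (nat_lit 5) (nat_lit 61) (nat_lit 5) (nat_lit 507) (nat_lit 365) (nat_lit 268)) (XT.lf (nat_lit 0) (nat_lit 3259624092) (nat_lit 304) (nat_lit 1345553471) (nat_lit 76) (nat_lit 12292265507) (nat_lit 56) (nat_lit 5) (nat_lit 60) (nat_lit 5) (nat_lit 57) (nat_lit 5) (nat_lit 508) (nat_lit 365) (nat_lit 267))))) (XT.nd (nat_lit 234) (nat_lit 3040) (nat_lit 0) (XT.nd (nat_lit 78) (nat_lit 2736) (nat_lit 0) (XT.lf (nat_lit 0) (nat_lit 1413983604) (nat_lit 1292) (nat_lit 578846109) (nat_lit 0) (nat_lit 1413983604) (nat_lit 664) (nat_lit 5) (nat_lit 681) (nat_lit 4) (nat_lit 664) (nat_lit 4) (nat_lit 408) (nat_lit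 366) (nat_lit 366)) (XT.nd (nat_lit 78) (nat_lit 1444) (nat_lit 0) (XT.lf (nat_lit 0) (nat_lit 3624995021) (nat_lit 1292) (nat_lit 2629297864) (nat_lit 1292) (nat_lit 586538669) (nat_lit 647) (nat_lit 4) (nat_lit 664) (nat_lit 5) (nat_lit 664) (nat_lit 4) (nat_lit 409) (nat_lit 366) (nat_lit 365)) (XT.lf (nat_lit 0) (nat_lit 1588917477) (nat_lit 1368) (nat_lit 1200380426) (nat_lit 1444) (nat_lit 4079978366) (nat_lit 628) (nat_lit 5) (nat_lit 646) (nat_lit 5) (nat_lit 647) (nat_lit 4) (nat_lit 410) (nat_lit 366) (nat_lit 364)))) (XT.nd (nat_lit 78) (nat_lit 3040) (nat_lit 0) (XT.lf (nat_lit 0) (nat_lit 6177613407) (nat_lit 1444) (nat_lit 435008281) (nat_lit 0) (nat_lit 286534333) (nat_lit 628) (nat_lit 5) (nat_lit 647) (nat_lit 4) (nat_lit 628) (nat_lit 4) (nat_lit 411) (nat_lit 366) (nat_lit 363)) (XT.nd (nat_lit 78) (nat_lit 1520) (nat_lit 0) (XT.lf (nat_lit 0) (nat_lit 2636317761) (nat_lit 1520) (nat_lit 2452910934) (nat_lit 76) (nat_lit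 1840699136) (nat_lit 608) (nat_lit 5) (nat_lit 628) (nat_lit 5) (nat_lit 609) (nat_lit 4) (nat_lit 412) (nat_lit 366) (nat_lit 362)) (XT.lf (nat_lit 0) (nat_lit 2495822287) (nat_lit 1520) (nat_lit 3506299019) (nat_lit 1596) (nat_lit 960089436) (nat_lit 588) (nat_lit 5) (nat_lit 608) (nat_lit 5) (nat_lit 609) (nat_lit 4) (nat_lit 413) (nat_lit 366) (nat_lit 361))))))) (XT.nd (nat_lit 780) (nat_lit 6840) (nat_lit 0) (XT.nd (nat_lit 390) (nat_lit 4940) (nat_lit 0) (XT.nd (nat_lit 156) (nat_lit 3572) (nat_lit 0) (XT.nd (nat_lit 78) (nat_lit 0) (nat_lit 0) (XT.lf (nat_lit 0) (nat_lit 508161830) (nat_lit 1596) (nat_lit 1851586762) (nat_lit 1672) (nat_lit 4636040877) (nat_lit 566) (nat_lit 5) (nat_lit 587) (nat_lit 5) (nat_lit 588) (nat_lit 5) (nat_lit 414) (nat_lit 366) (nat_lit 360)) (XT.lf (nat_lit 0) (nat_lit 5572207011) (nat_lit 1596) (nat_lit 123564953) (nat_lit 1672) (nat_lit 1334888000) (nat_lit 566) (nat_lit 5) (nat_lit 587) (nat_lit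 5) (nat_lit 588) (nat_lit 5) (nat_lit 415) (nat_lit 366) (nat_lit 359))) (XT.nd (nat_lit 78) (nat_lit 1824) (nat_lit 0) (XT.lf (nat_lit 0) (nat_lit 1973769258) (nat_lit 1748) (nat_lit 3435566904) (nat_lit 76) (nat_lit 1657265103) (nat_lit 543) (nat_lit 5) (nat_lit 566) (nat_lit 5) (nat_lit 544) (nat_lit 5) (nat_lit 416) (nat_lit 366) (nat_lit 358)) (XT.nd (nat_lit 78) (nat_lit 76) (nat_lit 0) (XT.lf (nat_lit 0) (nat_lit 1686786569) (nat_lit 1748) (nat_lit 3600067972) (nat_lit 1824) (nat_lit 1817107800) (nat_lit 520) (nat_lit 5) (nat_lit 543) (nat_lit 5) (nat_lit 544) (nat_lit 5) (nat_lit 417) (nat_lit 366) (nat_lit 357)) (XT.lf (nat_lit 0) (nat_lit 1462278812) (nat_lit 1824) (nat_lit 258568311) (nat_lit 76) (nat_lit 5421862857) (nat_lit 519) (nat_lit 5) (nat_lit 543) (nat_lit 5) (nat_lit 520) (nat_lit 5) (nat_lit 418) (nat_lit 366) (nat_lit 356))))) (XT.nd (nat_lit 156) (nat_lit 1900) (nat_lit 0) (XT.nd (nat_lit 78) (nat_lit 1216) (nat_lit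 0) (XT.lf (nat_lit 0) (nat_lit 4753134435) (nat_lit 1900) (nat_lit 2191317991) (nat_lit 76) (nat_lit 238135678) (nat_lit 495) (nat_lit 5) (nat_lit 520) (nat_lit 5) (nat_lit 496) (nat_lit 5) (nat_lit 419) (nat_lit 366) (nat_lit 355)) (XT.lf (nat_lit 0) (nat_lit 844972840) (nat_lit 1216) (nat_lit 4138535329) (nat_lit 76) (nat_lit 2240239368) (nat_lit 479) (nat_lit 5) (nat_lit 495) (nat_lit 5) (nat_lit 480) (nat_lit 5) (nat_lit 420) (nat_lit 366) (nat_lit 354))) (XT.nd (nat_lit 78) (nat_lit 988) (nat_lit 0) (XT.lf (nat_lit 0) (nat_lit 1165607012) (nat_lit 912) (nat_lit 2946599768) (nat_lit 988) (nat_lit 3154005219) (nat_lit 467) (nat_lit 5) (nat_lit 479) (nat_lit 5) (nat_lit 480) (nat_lit 5) (nat_lit 421) (nat_lit 366) (nat_lit 353)) (XT.nd (nat_lit 78) (nat_lit 912) (nat_lit 0) (XT.lf (nat_lit 0) (nat_lit 99288188) (nat_lit 988) (nat_lit 743533913) (nat_lit 76) (nat_lit 6467370035) (nat_lit 466) (nat_lit 5) (nat_lit 479) (nat_lit 5) (nat_lit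 467) (nat_lit 5) (nat_lit 422) (nat_lit 366) (nat_lit 352)) (XT.lf (nat_lit 0) (nat_lit 3353797536) (nat_lit 988) (nat_lit 2666775694) (nat_lit 76) (nat_lit 1334494044) (nat_lit 454) (nat_lit 5) (nat_lit 467) (nat_lit 5) (nat_lit 455) (nat_lit 5) (nat_lit 423) (nat_lit 366) (nat_lit 351)))))) (XT.nd (nat_lit 390) (nat_lit 3268) (nat_lit 0) (XT.nd (nat_lit 156) (nat_lit 1748) (nat_lit 0) (XT.nd (nat_lit 78) (nat_lit 988) (nat_lit 0) (XT.lf (nat_lit 0) (nat_lit 2804349710) (nat_lit 836) (nat_lit 3837682552) (nat_lit 912) (nat_lit 759434948) (nat_lit 443) (nat_lit 5) (nat_lit 454) (nat_lit 5) (nat_lit 455) (nat_lit 5) (nat_lit 424) (nat_lit 366) (nat_lit 350)) (XT.lf (nat_lit 0) (nat_lit 902513741) (nat_lit 912) (nat_lit 1575380177) (nat_lit 988) (nat_lit 4971289163) (nat_lit 430) (nat_lit 5) (nat_lit 442) (nat_lit 5) (nat_lit 443) (nat_lit 5) (nat_lit 425) (nat_lit 366) (nat_lit 349))) (XT.nd (nat_lit 78) (nat_lit 1748) (nat_lit 0) (XT.lf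 (nat_lit 0) (nat_lit 5746522398) (nat_lit 988) (nat_lit 998760308) (nat_lit 76) (nat_lit 752935728) (nat_lit 430) (nat_lit 5) (nat_lit 443) (nat_lit 5) (nat_lit 431) (nat_lit 5) (nat_lit 426) (nat_lit 366) (nat_lit 348)) (XT.nd (nat_lit 78) (nat_lit 836) (nat_lit 0) (XT.lf (nat_lit 0) (nat_lit 1494739178) (nat_lit 912) (nat_lit 2912504673) (nat_lit 76) (nat_lit 3141140741) (nat_lit 418) (nat_lit 5) (nat_lit 430) (nat_lit 5) (nat_lit 419) (nat_lit 5) (nat_lit 427) (nat_lit 366) (nat_lit 347)) (XT.lf (nat_lit 0) (nat_lit 2756807119) (nat_lit 836) (nat_lit 1992912087) (nat_lit 912) (nat_lit 2850261867) (nat_lit 407) (nat_lit 5) (nat_lit 418) (nat_lit 5) (nat_lit 419) (nat_lit 5) (nat_lit 428) (nat_lit 366) (nat_lit 346))))) (XT.nd (nat_lit 234) (nat_lit 1672) (nat_lit 0) (XT.nd (nat_lit 78) (nat_lit 760) (nat_lit 0) (XT.lf (nat_lit 0) (nat_lit 382959699) (nat_lit 836) (nat_lit 6786407153) (nat_lit 76) (nat_lit 483763622) (nat_lit 396) (nat_lit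 5) (nat_lit 407) (nat_lit 5) (nat_lit 397) (nat_lit 5) (nat_lit 429) (nat_lit 366) (nat_lit 345)) (XT.nd (nat_lit 78) (nat_lit 760) (nat_lit 0) (XT.lf (nat_lit 0) (nat_lit 3632013649) (nat_lit 836) (nat_lit 1048528241) (nat_lit 76) (nat_lit 3026637508) (nat_lit 396) (nat_lit 5) (nat_lit 407) (nat_lit 5) (nat_lit 397) (nat_lit 5) (nat_lit 430) (nat_lit 366) (nat_lit 344)) (XT.lf (nat_lit 0) (nat_lit 4802371437) (nat_lit 760) (nat_lit 2119351255) (nat_lit 836) (nat_lit 841073128) (nat_lit 386) (nat_lit 5) (nat_lit 396) (nat_lit 5) (nat_lit 397) (nat_lit 5) (nat_lit 431) (nat_lit 366) (nat_lit 343)))) (XT.nd (nat_lit 78) (nat_lit 836) (nat_lit 0) (XT.lf (nat_lit 0) (nat_lit 2399742480) (nat_lit 836) (nat_lit 4900789805) (nat_lit 76) (nat_lit 519187658) (nat_lit 375) (nat_lit 5) (nat_lit 386) (nat_lit 5) (nat_lit 376) (nat_lit 5) (nat_lit 432) (nat_lit 366) (nat_lit 342)) (XT.nd (nat_lit 78) (nat_lit 76) (nat_lit 0) (XT.lf (nat_lit 0) (nat_lit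 1006452556) (nat_lit 760) (nat_lit 4673637105) (nat_lit 836) (nat_lit 2197862154) (nat_lit 365) (nat_lit 5) (nat_lit 375) (nat_lit 5) (nat_lit 376) (nat_lit 5) (nat_lit 433) (nat_lit 366) (nat_lit 341)) (XT.lf (nat_lit 0) (nat_lit 1053210848) (nat_lit 836) (nat_lit 911621746) (nat_lit 76) (nat_lit 5972798483) (nat_lit 364) (nat_lit 5) (nat_lit 375) (nat_lit 5) (nat_lit 365) (nat_lit 5) (nat_lit 434) (nat_lit 366) (nat_lit 340))))))))
noncomputable def xc64 : XT := (XT.nd (nat_lit 1560) (nat_lit 6764) (nat_lit 0) (XT.nd (nat_lit 780) (nat_lit 4484) (nat_lit 0) (XT.nd (nat_lit 390) (nat_lit 2584) (nat_lit 0) (XT.nd (nat_lit 156) (nat_lit 1520) (nat_lit 0) (XT.nd (nat_lit 78) (nat_lit 684) (nat_lit 0) (XT.lf (nat_lit 0) (nat_lit 4325559323) (nat_lit 760) (nat_lit 2848139739) (nat_lit 76) (nat_lit 824800637) (nat_lit 355) (nat_lit 5) (nat_lit 365) (nat_lit 5) (nat_lit 356) (nat_lit 5) (nat_lit 435) (nat_lit 366) (nat_lit 339)) (XT.lf (nat_lit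 0) (nat_lit 3249869548) (nat_lit 684) (nat_lit 4401061743) (nat_lit 760) (nat_lit 409902872) (nat_lit 346) (nat_lit 5) (nat_lit 355) (nat_lit 5) (nat_lit 356) (nat_lit 5) (nat_lit 436) (nat_lit 366) (nat_lit 338))) (XT.nd (nat_lit 78) (nat_lit 760) (nat_lit 0) (XT.lf (nat_lit 0) (nat_lit 1317169843) (nat_lit 684) (nat_lit 1538315318) (nat_lit 760) (nat_lit 5269043891) (nat_lit 336) (nat_lit 5) (nat_lit 345) (nat_lit 5) (nat_lit 346) (nat_lit 5) (nat_lit 437) (nat_lit 366) (nat_lit 337)) (XT.nd (nat_lit 78) (nat_lit 760) (nat_lit 0) (XT.lf (nat_lit 0) (nat_lit 6170260442) (nat_lit 760) (nat_lit 633634263) (nat_lit 76) (nat_lit 1385757583) (nat_lit 336) (nat_lit 5) (nat_lit 346) (nat_lit 5) (nat_lit 337) (nat_lit 5) (nat_lit 438) (nat_lit 366) (nat_lit 336)) (XT.lf (nat_lit 0) (nat_lit 1274307031) (nat_lit 760) (nat_lit 2601561969) (nat_lit 76) (nat_lit 4380119969) (nat_lit 326) (nat_lit 5) (nat_lit 336) (nat_lit 5) (nat_lit 327) (nat_lit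 5) (nat_lit 439) (nat_lit 366) (nat_lit 335))))) (XT.nd (nat_lit 156) (nat_lit 1368) (nat_lit 0) (XT.nd (nat_lit 78) (nat_lit 608) (nat_lit 0) (XT.lf (nat_lit 0) (nat_lit 3723789890) (nat_lit 608) (nat_lit 860892616) (nat_lit 684) (nat_lit 3739146070) (nat_lit 318) (nat_lit 5) (nat_lit 326) (nat_lit 5) (nat_lit 327) (nat_lit 5) (nat_lit 440) (nat_lit 366) (nat_lit 334)) (XT.lf (nat_lit 0) (nat_lit 1761448202) (nat_lit 608) (nat_lit 6193044577) (nat_lit 684) (nat_lit 438667650) (nat_lit 310) (nat_lit 5) (nat_lit 318) (nat_lit 5) (nat_lit 319) (nat_lit 5) (nat_lit 441) (nat_lit 366) (nat_lit 333))) (XT.nd (nat_lit 78) (nat_lit 1292) (nat_lit 0) (XT.lf (nat_lit 0) (nat_lit 2876269167) (nat_lit 684) (nat_lit 241288755) (nat_lit 76) (nat_lit 5346203857) (nat_lit 309) (nat_lit 5) (nat_lit 318) (nat_lit 5) (nat_lit 310) (nat_lit 5) (nat_lit 442) (nat_lit 366) (nat_lit 332)) (XT.nd (nat_lit 78) (nat_lit 684) (nat_lit 0) (XT.lf (nat_lit 0) (nat_lit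 6243858015) (nat_lit 684) (nat_lit 2243978135) (nat_lit 76) (nat_lit 48036471) (nat_lit 301) (nat_lit 5) (nat_lit 310) (nat_lit 5) (nat_lit 302) (nat_lit 5) (nat_lit 443) (nat_lit 366) (nat_lit 331)) (XT.lf (nat_lit 0) (nat_lit 1057186050) (nat_lit 684) (nat_lit 4295502493) (nat_lit 76) (nat_lit 3256561514) (nat_lit 292) (nat_lit 5) (nat_lit 301) (nat_lit 5) (nat_lit 293) (nat_lit 5) (nat_lit 444) (nat_lit 366) (nat_lit 330)))))) (XT.nd (nat_lit 390) (nat_lit 2128) (nat_lit 0) (XT.nd (nat_lit 156) (nat_lit 1216) (nat_lit 0) (XT.nd (nat_lit 78) (nat_lit 608) (nat_lit 0) (XT.lf (nat_lit 0) (nat_lit 2299122100) (nat_lit 532) (nat_lit 2125384410) (nat_lit 608) (nat_lit 4259649010) (nat_lit 285) (nat_lit 5) (nat_lit 292) (nat_lit 5) (nat_lit 293) (nat_lit 5) (nat_lit 445) (nat_lit 366) (nat_lit 329)) (XT.lf (nat_lit 0) (nat_lit 254027858) (nat_lit 608) (nat_lit 7595514414) (nat_lit 684) (nat_lit 911209443) (nat_lit 277) (nat_lit 5) (nat_lit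 285) (nat_lit 5) (nat_lit 286) (nat_lit 5) (nat_lit 446) (nat_lit 366) (nat_lit 328))) (XT.nd (nat_lit 78) (nat_lit 1140) (nat_lit 0) (XT.lf (nat_lit 0) (nat_lit 2480895161) (nat_lit 684) (nat_lit 1821845507) (nat_lit 76) (nat_lit 4535623201) (nat_lit 276) (nat_lit 5) (nat_lit 285) (nat_lit 5) (nat_lit 277) (nat_lit 5) (nat_lit 447) (nat_lit 366) (nat_lit 327)) (XT.nd (nat_lit 78) (nat_lit 608) (nat_lit 0) (XT.lf (nat_lit 0) (nat_lit 4991825663) (nat_lit 532) (nat_lit 922504573) (nat_lit 608) (nat_lit 3003363779) (nat_lit 269) (nat_lit 5) (nat_lit 276) (nat_lit 5) (nat_lit 277) (nat_lit 5) (nat_lit 448) (nat_lit 366) (nat_lit 326)) (XT.lf (nat_lit 0) (nat_lit 413702106) (nat_lit 608) (nat_lit 6076043125) (nat_lit 76) (nat_lit 2508784104) (nat_lit 261) (nat_lit 5) (nat_lit 269) (nat_lit 5) (nat_lit 262) (nat_lit 5) (nat_lit 449) (nat_lit 366) (nat_lit 325))))) (XT.nd (nat_lit 156) (nat_lit 1596) (nat_lit 0) (XT.nd (nat_lit 78) (nat_lit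 0) (nat_lit 0) (XT.lf (nat_lit 0) (nat_lit 799974751) (nat_lit 532) (nat_lit 3050621418) (nat_lit 608) (nat_lit 5230154109) (nat_lit 254) (nat_lit 5) (nat_lit 261) (nat_lit 5) (nat_lit 262) (nat_lit 5) (nat_lit 450) (nat_lit 366) (nat_lit 324)) (XT.lf (nat_lit 0) (nat_lit 7354446730) (nat_lit 608) (nat_lit 1336441103) (nat_lit 76) (nat_lit 473763435) (nat_lit 254) (nat_lit 5) (nat_lit 262) (nat_lit 5) (nat_lit 255) (nat_lit 5) (nat_lit 451) (nat_lit 366) (nat_lit 323))) (XT.nd (nat_lit 78) (nat_lit 988) (nat_lit 0) (XT.lf (nat_lit 0) (nat_lit 1668778719) (nat_lit 608) (nat_lit 3523125261) (nat_lit 76) (nat_lit 4057855508) (nat_lit 246) (nat_lit 5) (nat_lit 254) (nat_lit 5) (nat_lit 247) (nat_lit 5) (nat_lit 452) (nat_lit 366) (nat_lit 322)) (XT.nd (nat_lit 78) (nat_lit 532) (nat_lit 0) (XT.lf (nat_lit 0) (nat_lit 3583476181) (nat_lit 456) (nat_lit 1597220773) (nat_lit 532) (nat_lit 4155881731) (nat_lit 240) (nat_lit 5) (nat_lit 246) (nat_lit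 5) (nat_lit 247) (nat_lit 5) (nat_lit 453) (nat_lit 366) (nat_lit 321)) (XT.lf (nat_lit 0) (nat_lit 1395508153) (nat_lit 532) (nat_lit 7369254048) (nat_lit 608) (nat_lit 660333892) (nat_lit 233) (nat_lit 5) (nat_lit 240) (nat_lit 5) (nat_lit 241) (nat_lit 5) (nat_lit 454) (nat_lit 366) (nat_lit 320))))))) (XT.nd (nat_lit 780) (nat_lit 3420) (nat_lit 0) (XT.nd (nat_lit 390) (nat_lit 1824) (nat_lit 0) (XT.nd (nat_lit 156) (nat_lit 988) (nat_lit 0) (XT.nd (nat_lit 78) (nat_lit 456) (nat_lit 0) (XT.lf (nat_lit 0) (nat_lit 2872240471) (nat_lit 608) (nat_lit 843901580) (nat_lit 76) (nat_lit 5798760221) (nat_lit 232) (nat_lit 5) (nat_lit 240) (nat_lit 5) (nat_lit 233) (nat_lit 5) (nat_lit 455) (nat_lit 366) (nat_lit 319)) (XT.lf (nat_lit 0) (nat_lit 6465742413) (nat_lit 532) (nat_lit 3103672115) (nat_lit 76) (nat_lit 37020392) (nat_lit 226) (nat_lit 5) (nat_lit 233) (nat_lit 5) (nat_lit 227) (nat_lit 5) (nat_lit 456) (nat_lit 366) (nat_lit 318)))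 (XT.nd (nat_lit 78) (nat_lit 456) (nat_lit 0) (XT.lf (nat_lit 0) (nat_lit 440786318) (nat_lit 532) (nat_lit 5426565386) (nat_lit 76) (nat_lit 3832087971) (nat_lit 219) (nat_lit 5) (nat_lit 226) (nat_lit 5) (nat_lit 220) (nat_lit 5) (nat_lit 457) (nat_lit 366) (nat_lit 317)) (XT.nd (nat_lit 78) (nat_lit 0) (nat_lit 0) (XT.lf (nat_lit 0) (nat_lit 1986385222) (nat_lit 456) (nat_lit 2056463078) (nat_lit 532) (nat_lit 5751220875) (nat_lit 213) (nat_lit 5) (nat_lit 219) (nat_lit 5) (nat_lit 220) (nat_lit 5) (nat_lit 458) (nat_lit 366) (nat_lit 316)) (XT.lf (nat_lit 0) (nat_lit 7722892483) (nat_lit 532) (nat_lit 344993532) (nat_lit 76) (nat_lit 1822586433) (nat_lit 213) (nat_lit 5) (nat_lit 220) (nat_lit 5) (nat_lit 214) (nat_lit 5) (nat_lit 459) (nat_lit 366) (nat_lit 315))))) (XT.nd (nat_lit 156) (nat_lit 912) (nat_lit 0) (XT.nd (nat_lit 78) (nat_lit 380) (nat_lit 0) (XT.lf (nat_lit 0) (nat_lit 1487507438) (nat_lit 532) (nat_lit 2712217083)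 (nat_lit 76) (nat_lit 5788500365) (nat_lit 206) (nat_lit 5) (nat_lit 213) (nat_lit 5) (nat_lit 207) (nat_lit 5) (nat_lit 460) (nat_lit 366) (nat_lit 314)) (XT.lf (nat_lit 0) (nat_lit 4953780705) (nat_lit 380) (nat_lit 225786404) (nat_lit 456) (nat_lit 4908220821) (nat_lit 201) (nat_lit 5) (nat_lit 206) (nat_lit 5) (nat_lit 207) (nat_lit 5) (nat_lit 461) (nat_lit 366) (nat_lit 313))) (XT.nd (nat_lit 78) (nat_lit 456) (nat_lit 0) (XT.lf (nat_lit 0) (nat_lit 2566260917) (nat_lit 456) (nat_lit 6397685637) (nat_lit 532) (nat_lit 1225026111) (nat_lit 195) (nat_lit 5) (nat_lit 201) (nat_lit 5) (nat_lit 202) (nat_lit 5) (nat_lit 462) (nat_lit 366) (nat_lit 312)) (XT.nd (nat_lit 78) (nat_lit 0) (nat_lit 0) (XT.lf (nat_lit 0) (nat_lit 118588334) (nat_lit 380) (nat_lit 2375759596) (nat_lit 456) (nat_lit 7797589979) (nat_lit 189) (nat_lit 5) (nat_lit 194) (nat_lit 5) (nat_lit 195) (nat_lit 5) (nat_lit 463) (nat_lit 366) (nat_lit 311)) (XT.lf (nat_lit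 0) (nat_lit 6293453730) (nat_lit 456) (nat_lit 2361254307) (nat_lit 76) (nat_lit 1741657526) (nat_lit 189) (nat_lit 5) (nat_lit 195) (nat_lit 5) (nat_lit 190) (nat_lit 5) (nat_lit 464) (nat_lit 366) (nat_lit 310)))))) (XT.nd (nat_lit 390) (nat_lit 1824) (nat_lit 0) (XT.nd (nat_lit 156) (nat_lit 760) (nat_lit 0) (XT.nd (nat_lit 78) (nat_lit 456) (nat_lit 0) (XT.lf (nat_lit 0) (nat_lit 5602379097) (nat_lit 380) (nat_lit 4578104350) (nat_lit 456) (nat_lit 322159486) (nat_lit 184) (nat_lit 5) (nat_lit 189) (nat_lit 5) (nat_lit 190) (nat_lit 5) (nat_lit 465) (nat_lit 366) (nat_lit 309)) (XT.lf (nat_lit 0) (nat_lit 3101622816) (nat_lit 380) (nat_lit 382276579) (nat_lit 456) (nat_lit 7126766662) (nat_lit 178) (nat_lit 5) (nat_lit 183) (nat_lit 5) (nat_lit 184) (nat_lit 5) (nat_lit 466) (nat_lit 366) (nat_lit 308))) (XT.nd (nat_lit 78) (nat_lit 380) (nat_lit 0) (XT.lf (nat_lit 0) (nat_lit 526221452) (nat_lit 380) (nat_lit 6857561833) (nat_lit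 456) (nat_lit 3336583420) (nat_lit 173) (nat_lit 5) (nat_lit 178) (nat_lit 5) (nat_lit 179) (nat_lit 5) (nat_lit 467) (nat_lit 366) (nat_lit 307)) (XT.nd (nat_lit 78) (nat_lit 304) (nat_lit 0) (XT.lf (nat_lit 0) (nat_lit 536020445) (nat_lit 456) (nat_lit 2076495397) (nat_lit 76) (nat_lit 8219405573) (nat_lit 172) (nat_lit 5) (nat_lit 178) (nat_lit 5) (nat_lit 173) (nat_lit 5) (nat_lit 468) (nat_lit 366) (nat_lit 306)) (XT.lf (nat_lit 0) (nat_lit 4454202044) (nat_lit 380) (nat_lit 4755599480) (nat_lit 76) (nat_lit 1735208551) (nat_lit 168) (nat_lit 5) (nat_lit 173) (nat_lit 5) (nat_lit 169) (nat_lit 5) (nat_lit 469) (nat_lit 366) (nat_lit 305))))) (XT.nd (nat_lit 234) (nat_lit 1064) (nat_lit 0) (XT.nd (nat_lit 78) (nat_lit 380) (nat_lit 0) (XT.lf (nat_lit 0) (nat_lit 3556043049) (nat_lit 380) (nat_lit 4910421691) (nat_lit 456) (nat_lit 2593581418) (nat_lit 163) (nat_lit 5) (nat_lit 168) (nat_lit 5) (nat_lit 169) (nat_lit 5) (nat_lit 470)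 (nat_lit 366) (nat_lit 304)) (XT.nd (nat_lit 78) (nat_lit 0) (nat_lit 0) (XT.lf (nat_lit 0) (nat_lit 861750240) (nat_lit 304) (nat_lit 500845483) (nat_lit 380) (nat_lit 9814625319) (nat_lit 158) (nat_lit 5) (nat_lit 162) (nat_lit 5) (nat_lit 163) (nat_lit 5) (nat_lit 471) (nat_lit 366) (nat_lit 303)) (XT.lf (nat_lit 0) (nat_lit 5401452699) (nat_lit 380) (nat_lit 1904867550) (nat_lit 76) (nat_lit 3989310617) (nat_lit 158) (nat_lit 5) (nat_lit 163) (nat_lit 5) (nat_lit 159) (nat_lit 5) (nat_lit 472) (nat_lit 366) (nat_lit 302)))) (XT.nd (nat_lit 78) (nat_lit 684) (nat_lit 0) (XT.lf (nat_lit 0) (nat_lit 6697476928) (nat_lit 380) (nat_lit 2832775832) (nat_lit 456) (nat_lit 1885972807) (nat_lit 153) (nat_lit 5) (nat_lit 158) (nat_lit 5) (nat_lit 159) (nat_lit 5) (nat_lit 473) (nat_lit 366) (nat_lit 301)) (XT.nd (nat_lit 78) (nat_lit 304) (nat_lit 0) (XT.lf (nat_lit 0) (nat_lit 2185819035) (nat_lit 380) (nat_lit 7615513973) (nat_lit 76) (nat_lit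 1737367022) (nat_lit 148) (nat_lit 5) (nat_lit 153) (nat_lit 5) (nat_lit 149) (nat_lit 5) (nat_lit 474) (nat_lit 366) (nat_lit 300)) (XT.lf (nat_lit 0) (nat_lit 1060096651) (nat_lit 304) (nat_lit 5273890134) (nat_lit 380) (nat_lit 5328984007) (nat_lit 144) (nat_lit 5) (nat_lit 148) (nat_lit 5) (nat_lit 149) (nat_lit 5) (nat_lit 475) (nat_lit 366) (nat_lit 299))))))))
noncomputable def xc65 : XT := (XT.nd (nat_lit 1560) (nat_lit 2128) (nat_lit 0) (XT.nd (nat_lit 780) (nat_lit 1976) (nat_lit 0) (XT.nd (nat_lit 390) (nat_lit 1216) (nat_lit 0) (XT.nd (nat_lit 156) (nat_lit 684) (nat_lit 0) (XT.nd (nat_lit 78) (nat_lit 380) (nat_lit 0) (XT.lf (nat_lit 0) (nat_lit 9951573277) (nat_lit 304) (nat_lit 627637484) (nat_lit 380) (nat_lit 1210234349) (nat_lit 144) (nat_lit 5) (nat_lit 148) (nat_lit 5) (nat_lit 149) (nat_lit 5) (nat_lit 476) (nat_lit 366) (nat_lit 298)) (XT.lf (nat_lit 0) (nat_lit 2988317251) (nat_lit 380) (nat_lit 4828669616) (nat_lit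 76) (nat_lit 4100340613) (nat_lit 139) (nat_lit 5) (nat_lit 144) (nat_lit 5) (nat_lit 140) (nat_lit 5) (nat_lit 477) (nat_lit 366) (nat_lit 297))) (XT.nd (nat_lit 78) (nat_lit 380) (nat_lit 0) (XT.lf (nat_lit 0) (nat_lit 4152980930) (nat_lit 304) (nat_lit 3108853495) (nat_lit 380) (nat_lit 4785629086) (nat_lit 135) (nat_lit 5) (nat_lit 139) (nat_lit 5) (nat_lit 140) (nat_lit 5) (nat_lit 478) (nat_lit 366) (nat_lit 296)) (XT.nd (nat_lit 78) (nat_lit 76) (nat_lit 0) (XT.lf (nat_lit 0) (nat_lit 1143439485) (nat_lit 304) (nat_lit 10492236353) (nat_lit 380) (nat_lit 544229348) (nat_lit 131) (nat_lit 5) (nat_lit 135) (nat_lit 5) (nat_lit 136) (nat_lit 5) (nat_lit 479) (nat_lit 366) (nat_lit 295)) (XT.lf (nat_lit 0) (nat_lit 3770211329) (nat_lit 380) (nat_lit 1950892117) (nat_lit 76) (nat_lit 6592644852) (nat_lit 130) (nat_lit 5) (nat_lit 135) (nat_lit 5) (nat_lit 131) (nat_lit 5) (nat_lit 480) (nat_lit 366) (nat_lit 294))))) (XT.nd (nat_lit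 156) (nat_lit 608) (nat_lit 0) (XT.nd (nat_lit 78) (nat_lit 304) (nat_lit 0) (XT.lf (nat_lit 0) (nat_lit 7349777307) (nat_lit 304) (nat_lit 826209713) (nat_lit 380) (nat_lit 4273962636) (nat_lit 126) (nat_lit 5) (nat_lit 130) (nat_lit 5) (nat_lit 131) (nat_lit 5) (nat_lit 481) (nat_lit 366) (nat_lit 293)) (XT.lf (nat_lit 0) (nat_lit 112699130) (nat_lit 304) (nat_lit 8345722432) (nat_lit 76) (nat_lit 4129787795) (nat_lit 122) (nat_lit 5) (nat_lit 126) (nat_lit 5) (nat_lit 123) (nat_lit 5) (nat_lit 482) (nat_lit 366) (nat_lit 292))) (XT.nd (nat_lit 78) (nat_lit 304) (nat_lit 0) (XT.lf (nat_lit 0) (nat_lit 1032486431) (nat_lit 304) (nat_lit 3508897375) (nat_lit 380) (nat_lit 8187055068) (nat_lit 118) (nat_lit 5) (nat_lit 122) (nat_lit 5) (nat_lit 123) (nat_lit 5) (nat_lit 483) (nat_lit 366) (nat_lit 291)) (XT.nd (nat_lit 78) (nat_lit 304) (nat_lit 0) (XT.lf (nat_lit 0) (nat_lit 9089997813) (nat_lit 380) (nat_lit 2229114531) (nat_lit 76)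 (nat_lit 1551733523) (nat_lit 118) (nat_lit 5) (nat_lit 123) (nat_lit 5) (nat_lit 119) (nat_lit 5) (nat_lit 484) (nat_lit 366) (nat_lit 290)) (XT.lf (nat_lit 0) (nat_lit 741604628) (nat_lit 304) (nat_lit 5577409180) (nat_lit 76) (nat_lit 6696244965) (nat_lit 114) (nat_lit 5) (nat_lit 118) (nat_lit 5) (nat_lit 115) (nat_lit 5) (nat_lit 485) (nat_lit 366) (nat_lit 289)))))) (XT.nd (nat_lit 390) (nat_lit 836) (nat_lit 0) (XT.nd (nat_lit 156) (nat_lit 608) (nat_lit 0) (XT.nd (nat_lit 78) (nat_lit 228) (nat_lit 0) (XT.lf (nat_lit 0) (nat_lit 4136542215) (nat_lit 304) (nat_lit 1175041307) (nat_lit 380) (nat_lit 7850322533) (nat_lit 110) (nat_lit 5) (nat_lit 114) (nat_lit 5) (nat_lit 115) (nat_lit 5) (nat_lit 486) (nat_lit 366) (nat_lit 288)) (XT.lf (nat_lit 0) (nat_lit 733761535) (nat_lit 228) (nat_lit 9273952572) (nat_lit 304) (nat_lit 3303077134) (nat_lit 107) (nat_lit 5) (nat_lit 110) (nat_lit 5) (nat_lit 111) (nat_lit 5) (nat_lit 487) (nat_lit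 366) (nat_lit 287))) (XT.nd (nat_lit 78) (nat_lit 532) (nat_lit 0) (XT.lf (nat_lit 0) (nat_lit 1352292299) (nat_lit 304) (nat_lit 2726764442) (nat_lit 76) (nat_lit 9382730232) (nat_lit 106) (nat_lit 5) (nat_lit 110) (nat_lit 5) (nat_lit 107) (nat_lit 5) (nat_lit 488) (nat_lit 366) (nat_lit 286)) (XT.nd (nat_lit 78) (nat_lit 228) (nat_lit 0) (XT.lf (nat_lit 0) (nat_lit 6079050901) (nat_lit 380) (nat_lit 6286169031) (nat_lit 76) (nat_lit 1249695821) (nat_lit 102) (nat_lit 5) (nat_lit 107) (nat_lit 5) (nat_lit 103) (nat_lit 5) (nat_lit 489) (nat_lit 366) (nat_lit 285)) (XT.lf (nat_lit 0) (nat_lit 3816658907) (nat_lit 228) (nat_lit 7120633309) (nat_lit 304) (nat_lit 2833075944) (nat_lit 99) (nat_lit 5) (nat_lit 102) (nat_lit 5) (nat_lit 103) (nat_lit 5) (nat_lit 490) (nat_lit 366) (nat_lit 284))))) (XT.nd (nat_lit 156) (nat_lit 532) (nat_lit 0) (XT.nd (nat_lit 78) (nat_lit 0) (nat_lit 0) (XT.lf (nat_lit 0) (nat_lit 210487156) (nat_lit 228)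 (nat_lit 1738151002) (nat_lit 304) (nat_lit 11979823961) (nat_lit 95) (nat_lit 5) (nat_lit 98) (nat_lit 5) (nat_lit 99) (nat_lit 5) (nat_lit 491) (nat_lit 366) (nat_lit 283)) (XT.lf (nat_lit 0) (nat_lit 6846597355) (nat_lit 304) (nat_lit 3477084123) (nat_lit 76) (nat_lit 3764491034) (nat_lit 95) (nat_lit 5) (nat_lit 99) (nat_lit 5) (nat_lit 96) (nat_lit 5) (nat_lit 492) (nat_lit 366) (nat_lit 282))) (XT.nd (nat_lit 78) (nat_lit 304) (nat_lit 0) (XT.lf (nat_lit 0) (nat_lit 6991921845) (nat_lit 228) (nat_lit 4875062695) (nat_lit 304) (nat_lit 2383603196) (nat_lit 92) (nat_lit 5) (nat_lit 95) (nat_lit 5) (nat_lit 96) (nat_lit 5) (nat_lit 493) (nat_lit 366) (nat_lit 281)) (XT.nd (nat_lit 78) (nat_lit 0) (nat_lit 0) (XT.lf (nat_lit 0) (nat_lit 2554822055) (nat_lit 304) (nat_lit 11149595268) (nat_lit 76) (nat_lit 711159622) (nat_lit 88) (nat_lit 5) (nat_lit 92) (nat_lit 5) (nat_lit 89) (nat_lit 5) (nat_lit 494) (nat_lit 366) (nat_lit 280))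 (XT.lf (nat_lit 0) (nat_lit 7609172994) (nat_lit 304) (nat_lit 588826590) (nat_lit 76) (nat_lit 6384569770) (nat_lit 88) (nat_lit 5) (nat_lit 92) (nat_lit 5) (nat_lit 89) (nat_lit 5) (nat_lit 495) (nat_lit 366) (nat_lit 279))))))) (XT.nd (nat_lit 780) (nat_lit 228) (nat_lit 0) (XT.nd (nat_lit 390) (nat_lit 836) (nat_lit 0) (XT.nd (nat_lit 156) (nat_lit 532) (nat_lit 0) (XT.nd (nat_lit 78) (nat_lit 304) (nat_lit 0) (XT.lf (nat_lit 0) (nat_lit 10261804686) (nat_lit 228) (nat_lit 2537792082) (nat_lit 304) (nat_lit 1952605126) (nat_lit 85) (nat_lit 5) (nat_lit 88) (nat_lit 5) (nat_lit 89) (nat_lit 5) (nat_lit 496) (nat_lit 366) (nat_lit 278)) (XT.lf (nat_lit 0) (nat_lit 3162403991) (nat_lit 304) (nat_lit 8525930748) (nat_lit 76) (nat_lit 3235773717) (nat_lit 81) (nat_lit 5) (nat_lit 85) (nat_lit 5) (nat_lit 82) (nat_lit 5) (nat_lit 497) (nat_lit 366) (nat_lit 277))) (XT.nd (nat_lit 78) (nat_lit 304) (nat_lit 0) (XT.lf (nat_lit 0) (nat_lit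 2412150131) (nat_lit 228) (nat_lit 5972754253) (nat_lit 304) (nat_lit 6713663900) (nat_lit 78) (nat_lit 5) (nat_lit 81) (nat_lit 5) (nat_lit 82) (nat_lit 5) (nat_lit 498) (nat_lit 366) (nat_lit 276)) (XT.nd (nat_lit 78) (nat_lit 304) (nat_lit 0) (XT.lf (nat_lit 0) (nat_lit 13628842364) (nat_lit 228) (nat_lit 108993244) (nat_lit 304) (nat_lit 1538162085) (nat_lit 78) (nat_lit 5) (nat_lit 81) (nat_lit 5) (nat_lit 82) (nat_lit 5) (nat_lit 499) (nat_lit 366) (nat_lit 275)) (XT.lf (nat_lit 0) (nat_lit 3762229832) (nat_lit 304) (nat_lit 5834133959) (nat_lit 76) (nat_lit 5858717296) (nat_lit 74) (nat_lit 5) (nat_lit 78) (nat_lit 5) (nat_lit 75) (nat_lit 5) (nat_lit 500) (nat_lit 366) (nat_lit 274))))) (XT.nd (nat_lit 156) (nat_lit 456) (nat_lit 0) (XT.nd (nat_lit 78) (nat_lit 228) (nat_lit 0) (XT.lf (nat_lit 0) (nat_lit 5505304287) (nat_lit 152) (nat_lit 3659610788) (nat_lit 228) (nat_lit 6472290102) (nat_lit 72) (nat_lit 5) (nat_lit 74) (nat_lit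 5) (nat_lit 75) (nat_lit 5) (nat_lit 501) (nat_lit 366) (nat_lit 273)) (XT.lf (nat_lit 0) (nat_lit 1274100223) (nat_lit 228) (nat_lit 13434150237) (nat_lit 304) (nat_lit 1114069358) (nat_lit 69) (nat_lit 5) (nat_lit 72) (nat_lit 5) (nat_lit 73) (nat_lit 5) (nat_lit 502) (nat_lit 366) (nat_lit 272))) (XT.nd (nat_lit 78) (nat_lit 380) (nat_lit 0) (XT.lf (nat_lit 0) (nat_lit 4356326456) (nat_lit 304) (nat_lit 3072416773) (nat_lit 76) (nat_lit 8580586913) (nat_lit 68) (nat_lit 5) (nat_lit 72) (nat_lit 5) (nat_lit 69) (nat_lit 5) (nat_lit 503) (nat_lit 366) (nat_lit 271)) (XT.nd (nat_lit 78) (nat_lit 228) (nat_lit 0) (XT.lf (nat_lit 0) (nat_lit 8685252379) (nat_lit 152) (nat_lit 1262367193) (nat_lit 228) (nat_lit 6251785684) (nat_lit 66) (nat_lit 5) (nat_lit 68) (nat_lit 5) (nat_lit 69) (nat_lit 5) (nat_lit 504) (nat_lit 366) (nat_lit 270)) (XT.lf (nat_lit 0) (nat_lit 4296157434) (nat_lit 228) (nat_lit 11405954387) (nat_lit 304) (nat_lit 690142586)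 (nat_lit 63) (nat_lit 5) (nat_lit 66) (nat_lit 5) (nat_lit 67) (nat_lit 5) (nat_lit 505) (nat_lit 366) (nat_lit 269)))))) (XT.nd (nat_lit 51792) (nat_lit 0) (nat_lit 38456) (XT.nd (nat_lit 51558) (nat_lit 0) (nat_lit 45904) (XT.nd (nat_lit 78) (nat_lit 152) (nat_lit 0) (XT.lf (nat_lit 0) (nat_lit 4946626752) (nat_lit 304) (nat_lit 238769925) (nat_lit 76) (nat_lit 11402331983) (nat_lit 62) (nat_lit 5) (nat_lit 66) (nat_lit 5) (nat_lit 63) (nat_lit 5) (nat_lit 506) (nat_lit 366) (nat_lit 268)) (XT.lf (nat_lit 0) (nat_lit 10743145057) (nat_lit 228) (nat_lit 4839289114) (nat_lit 76) (nat_lit 1203461899) (nat_lit 60) (nat_lit 5) (nat_lit 63) (nat_lit 5) (nat_lit 61) (nat_lit 5) (nat_lit 507) (nat_lit 366) (nat_lit 267))) (XT.nd (nat_lit 78) (nat_lit 1292) (nat_lit 0) (XT.lf (nat_lit 0) (nat_lit 1522558617) (nat_lit 1140) (nat_lit 929329227) (nat_lit 1140) (nat_lit 929329227) (nat_lit 681) (nat_lit 4) (nat_lit 696) (nat_lit 5) (nat_lit 696)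 (nat_lit 4) (nat_lit 406) (nat_lit 367) (nat_lit 367)) (XT.nd (nat_lit 78) (nat_lit 0) (nat_lit 0) (XT.lf (nat_lit 0) (nat_lit 922037798) (nat_lit 1216) (nat_lit 586538669) (nat_lit 1292) (nat_lit 5279255926) (nat_lit 664) (nat_lit 5) (nat_lit 680) (nat_lit 5) (nat_lit 681) (nat_lit 4) (nat_lit 407) (nat_lit 367) (nat_lit 366)) (XT.lf (nat_lit 0) (nat_lit 4875858924) (nat_lit 1292) (nat_lit 1188996814) (nat_lit 0) (nat_lit 749485350) (nat_lit 664) (nat_lit 5) (nat_lit 681) (nat_lit 4) (nat_lit 664) (nat_lit 4) (nat_lit 408) (nat_lit 367) (nat_lit 365))))) (XT.nd (nat_lit 234) (nat_lit 4636) (nat_lit 0) (XT.nd (nat_lit 78) (nat_lit 1444) (nat_lit 0) (XT.lf (nat_lit 0) (nat_lit 1405817335) (nat_lit 1368) (nat_lit 3289327650) (nat_lit 76) (nat_lit 2146924648) (nat_lit 646) (nat_lit 5) (nat_lit 664) (nat_lit 5) (nat_lit 647) (nat_lit 4) (nat_lit 409) (nat_lit 367) (nat_lit 364)) (XT.nd (nat_lit 78) (nat_lit 76) (nat_lit 0) (XT.lf (nat_lit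 0) (nat_lit 1479228737) (nat_lit 1368) (nat_lit 3259258277) (nat_lit 1444) (nat_lit 2132660657) (nat_lit 628) (nat_lit 5) (nat_lit 646) (nat_lit 5) (nat_lit 647) (nat_lit 4) (nat_lit 410) (nat_lit 367) (nat_lit 363)) (XT.lf (nat_lit 0) (nat_lit 1173294053) (nat_lit 1444) (nat_lit 583835186) (nat_lit 76) (nat_lit 5144467108) (nat_lit 627) (nat_lit 5) (nat_lit 646) (nat_lit 5) (nat_lit 628) (nat_lit 5) (nat_lit 411) (nat_lit 367) (nat_lit 362)))) (XT.nd (nat_lit 78) (nat_lit 3192) (nat_lit 0) (XT.lf (nat_lit 0) (nat_lit 4300893938) (nat_lit 1444) (nat_lit 175530749) (nat_lit 1520) (nat_lit 2456755108) (nat_lit 608) (nat_lit 5) (nat_lit 627) (nat_lit 5) (nat_lit 628) (nat_lit 5) (nat_lit 412) (nat_lit 367) (nat_lit 361)) (XT.nd (nat_lit 78) (nat_lit 1596) (nat_lit 0) (XT.lf (nat_lit 0) (nat_lit 829167081) (nat_lit 1596) (nat_lit 4687908876) (nat_lit 76) (nat_lit 1448994887) (nat_lit 587) (nat_lit 5) (nat_lit 608) (nat_lit 5) (nat_lit 588)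 (nat_lit 5) (nat_lit 413) (nat_lit 367) (nat_lit 360)) (XT.lf (nat_lit 0) (nat_lit 245650213) (nat_lit 1596) (nat_lit 3855949016) (nat_lit 1672) (nat_lit 2898621955) (nat_lit 566) (nat_lit 5) (nat_lit 587) (nat_lit 5) (nat_lit 588) (nat_lit 5) (nat_lit 414) (nat_lit 367) (nat_lit 359))))))))
noncomputable def xc66 : XT := (XT.nd (nat_lit 1560) (nat_lit 10032) (nat_lit 0) (XT.nd (nat_lit 780) (nat_lit 5928) (nat_lit 0) (XT.nd (nat_lit 390) (nat_lit 4028) (nat_lit 0) (XT.nd (nat_lit 156) (nat_lit 3648) (nat_lit 0) (XT.nd (nat_lit 78) (nat_lit 1672) (nat_lit 0) (XT.lf (nat_lit 0) (nat_lit 364372842) (nat_lit 1672) (nat_lit 1759555479) (nat_lit 76) (nat_lit 4911768663) (nat_lit 565) (nat_lit 5) (nat_lit 587) (nat_lit 5) (nat_lit 566) (nat_lit 5) (nat_lit 415) (nat_lit 367) (nat_lit 358)) (XT.lf (nat_lit 0) (nat_lit 3296931146) (nat_lit 1672) (nat_lit 313213044) (nat_lit 1748) (nat_lit 3462228329) (nat_lit 543) (nat_lit 5) (nat_lit 565) (nat_lit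 5) (nat_lit 566) (nat_lit 5) (nat_lit 416) (nat_lit 367) (nat_lit 357))) (XT.nd (nat_lit 78) (nat_lit 1900) (nat_lit 0) (XT.lf (nat_lit 0) (nat_lit 1312672397) (nat_lit 1748) (nat_lit 5574299922) (nat_lit 1824) (nat_lit 223486418) (nat_lit 520) (nat_lit 5) (nat_lit 543) (nat_lit 5) (nat_lit 544) (nat_lit 5) (nat_lit 417) (nat_lit 367) (nat_lit 356)) (XT.nd (nat_lit 78) (nat_lit 1824) (nat_lit 0) (XT.lf (nat_lit 0) (nat_lit 3003418332) (nat_lit 1824) (nat_lit 681105779) (nat_lit 76) (nat_lit 3465106953) (nat_lit 519) (nat_lit 5) (nat_lit 543) (nat_lit 5) (nat_lit 520) (nat_lit 5) (nat_lit 418) (nat_lit 367) (nat_lit 355)) (XT.lf (nat_lit 0) (nat_lit 4533343071) (nat_lit 1824) (nat_lit 1725418669) (nat_lit 1900) (nat_lit 931457693) (nat_lit 495) (nat_lit 5) (nat_lit 519) (nat_lit 5) (nat_lit 520) (nat_lit 5) (nat_lit 419) (nat_lit 367) (nat_lit 354))))) (XT.nd (nat_lit 156) (nat_lit 1900) (nat_lit 0) (XT.nd (nat_lit 78) (nat_lit 912) (nat_lit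 0) (XT.lf (nat_lit 0) (nat_lit 2278070610) (nat_lit 1216) (nat_lit 4648671744) (nat_lit 76) (nat_lit 305347026) (nat_lit 479) (nat_lit 5) (nat_lit 495) (nat_lit 5) (nat_lit 480) (nat_lit 5) (nat_lit 420) (nat_lit 367) (nat_lit 353)) (XT.lf (nat_lit 0) (nat_lit 616707669) (nat_lit 912) (nat_lit 4894674250) (nat_lit 988) (nat_lit 1763850377) (nat_lit 467) (nat_lit 5) (nat_lit 479) (nat_lit 5) (nat_lit 480) (nat_lit 5) (nat_lit 421) (nat_lit 367) (nat_lit 352))) (XT.nd (nat_lit 78) (nat_lit 1824) (nat_lit 0) (XT.lf (nat_lit 0) (nat_lit 1441045314) (nat_lit 988) (nat_lit 1342236601) (nat_lit 76) (nat_lit 4536353314) (nat_lit 466) (nat_lit 5) (nat_lit 479) (nat_lit 5) (nat_lit 467) (nat_lit 5) (nat_lit 422) (nat_lit 367) (nat_lit 351)) (XT.nd (nat_lit 78) (nat_lit 912) (nat_lit 0) (XT.lf (nat_lit 0) (nat_lit 4059039295) (nat_lit 912) (nat_lit 594018030) (nat_lit 988) (nat_lit 2712302987) (nat_lit 454) (nat_lit 5) (nat_lit 466) (nat_lit 5)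 (nat_lit 467) (nat_lit 5) (nat_lit 423) (nat_lit 367) (nat_lit 350)) (XT.lf (nat_lit 0) (nat_lit 484886396) (nat_lit 912) (nat_lit 5287407167) (nat_lit 76) (nat_lit 1640151934) (nat_lit 442) (nat_lit 5) (nat_lit 454) (nat_lit 5) (nat_lit 443) (nat_lit 5) (nat_lit 424) (nat_lit 367) (nat_lit 349)))))) (XT.nd (nat_lit 390) (nat_lit 3192) (nat_lit 0) (XT.nd (nat_lit 156) (nat_lit 1824) (nat_lit 0) (XT.nd (nat_lit 78) (nat_lit 0) (nat_lit 0) (XT.lf (nat_lit 0) (nat_lit 165952316) (nat_lit 912) (nat_lit 3512492789) (nat_lit 988) (nat_lit 3782293848) (nat_lit 430) (nat_lit 5) (nat_lit 442) (nat_lit 5) (nat_lit 443) (nat_lit 5) (nat_lit 425) (nat_lit 367) (nat_lit 348)) (XT.lf (nat_lit 0) (nat_lit 5736476856) (nat_lit 912) (nat_lit 1176980249) (nat_lit 988) (nat_lit 596989530) (nat_lit 430) (nat_lit 5) (nat_lit 442) (nat_lit 5) (nat_lit 443) (nat_lit 5) (nat_lit 426) (nat_lit 367) (nat_lit 347))) (XT.nd (nat_lit 78) (nat_lit 912) (nat_lit 0)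 (XT.lf (nat_lit 0) (nat_lit 2593012947) (nat_lit 912) (nat_lit 3742363757) (nat_lit 76) (nat_lit 1225911919) (nat_lit 418) (nat_lit 5) (nat_lit 430) (nat_lit 5) (nat_lit 419) (nat_lit 5) (nat_lit 427) (nat_lit 367) (nat_lit 346)) (XT.nd (nat_lit 78) (nat_lit 76) (nat_lit 0) (XT.lf (nat_lit 0) (nat_lit 1883935784) (nat_lit 836) (nat_lit 3930436029) (nat_lit 912) (nat_lit 1799185714) (nat_lit 407) (nat_lit 5) (nat_lit 418) (nat_lit 5) (nat_lit 419) (nat_lit 5) (nat_lit 428) (nat_lit 367) (nat_lit 345)) (XT.lf (nat_lit 0) (nat_lit 1383627505) (nat_lit 912) (nat_lit 66438320) (nat_lit 76) (nat_lit 6217237083) (nat_lit 406) (nat_lit 5) (nat_lit 418) (nat_lit 5) (nat_lit 407) (nat_lit 5) (nat_lit 429) (nat_lit 367) (nat_lit 344))))) (XT.nd (nat_lit 156) (nat_lit 1596) (nat_lit 0) (XT.nd (nat_lit 78) (nat_lit 836) (nat_lit 0) (XT.lf (nat_lit 0) (nat_lit 4595348377) (nat_lit 836) (nat_lit 2019376294) (nat_lit 76) (nat_lit 1107373823) (nat_lit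 396) (nat_lit 5) (nat_lit 407) (nat_lit 5) (nat_lit 397) (nat_lit 5) (nat_lit 430) (nat_lit 367) (nat_lit 343)) (XT.lf (nat_lit 0) (nat_lit 72179288) (nat_lit 836) (nat_lit 3992068320) (nat_lit 76) (nat_lit 3714128476) (nat_lit 385) (nat_lit 5) (nat_lit 396) (nat_lit 5) (nat_lit 386) (nat_lit 5) (nat_lit 431) (nat_lit 367) (nat_lit 342))) (XT.nd (nat_lit 78) (nat_lit 836) (nat_lit 0) (XT.lf (nat_lit 0) (nat_lit 1839546288) (nat_lit 760) (nat_lit 1425181238) (nat_lit 836) (nat_lit 4571208196) (nat_lit 375) (nat_lit 5) (nat_lit 385) (nat_lit 5) (nat_lit 386) (nat_lit 5) (nat_lit 432) (nat_lit 367) (nat_lit 341)) (XT.nd (nat_lit 78) (nat_lit 836) (nat_lit 0) (XT.lf (nat_lit 0) (nat_lit 6502786802) (nat_lit 836) (nat_lit 124944793) (nat_lit 76) (nat_lit 1267281757) (nat_lit 375) (nat_lit 5) (nat_lit 386) (nat_lit 5) (nat_lit 376) (nat_lit 5) (nat_lit 433) (nat_lit 367) (nat_lit 340)) (XT.lf (nat_lit 0) (nat_lit 1821093573) (nat_lit 836) (nat_lit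 2098974692) (nat_lit 76) (nat_lit 4035063471) (nat_lit 364) (nat_lit 5) (nat_lit 375) (nat_lit 5) (nat_lit 365) (nat_lit 5) (nat_lit 434) (nat_lit 367) (nat_lit 339))))))) (XT.nd (nat_lit 780) (nat_lit 4560) (nat_lit 0) (XT.nd (nat_lit 390) (nat_lit 2584) (nat_lit 0) (XT.nd (nat_lit 156) (nat_lit 1444) (nat_lit 0) (XT.nd (nat_lit 78) (nat_lit 760) (nat_lit 0) (XT.lf (nat_lit 0) (nat_lit 3920981146) (nat_lit 684) (nat_lit 1133174181) (nat_lit 760) (nat_lit 2962630765) (nat_lit 355) (nat_lit 5) (nat_lit 364) (nat_lit 5) (nat_lit 365) (nat_lit 5) (nat_lit 435) (nat_lit 367) (nat_lit 338)) (XT.lf (nat_lit 0) (nat_lit 254893398) (nat_lit 760) (nat_lit 6120597773) (nat_lit 76) (nat_lit 1704421847) (nat_lit 345) (nat_lit 5) (nat_lit 355) (nat_lit 5) (nat_lit 346) (nat_lit 5) (nat_lit 436) (nat_lit 367) (nat_lit 337))) (XT.nd (nat_lit 78) (nat_lit 1444) (nat_lit 0) (XT.lf (nat_lit 0) (nat_lit 3480908983) (nat_lit 760) (nat_lit 44162155) (nat_lit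 76) (nat_lit 4619163471) (nat_lit 345) (nat_lit 5) (nat_lit 355) (nat_lit 5) (nat_lit 346) (nat_lit 5) (nat_lit 437) (nat_lit 367) (nat_lit 336)) (XT.nd (nat_lit 78) (nat_lit 760) (nat_lit 0) (XT.lf (nat_lit 0) (nat_lit 6171844699) (nat_lit 684) (nat_lit 589281684) (nat_lit 760) (nat_lit 1448922619) (nat_lit 336) (nat_lit 5) (nat_lit 345) (nat_lit 5) (nat_lit 346) (nat_lit 5) (nat_lit 438) (nat_lit 367) (nat_lit 335)) (XT.lf (nat_lit 0) (nat_lit 1799097105) (nat_lit 760) (nat_lit 4077333765) (nat_lit 76) (nat_lit 2400644684) (nat_lit 326) (nat_lit 5) (nat_lit 336) (nat_lit 5) (nat_lit 327) (nat_lit 5) (nat_lit 439) (nat_lit 367) (nat_lit 334))))) (XT.nd (nat_lit 156) (nat_lit 1368) (nat_lit 0) (XT.nd (nat_lit 78) (nat_lit 608) (nat_lit 0) (XT.lf (nat_lit 0) (nat_lit 2196479725) (nat_lit 608) (nat_lit 2878498554) (nat_lit 684) (nat_lit 3270626768) (nat_lit 318) (nat_lit 5) (nat_lit 326) (nat_lit 5) (nat_lit 327) (nat_lit 5) (nat_lit 440)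 (nat_lit 367) (nat_lit 333)) (XT.lf (nat_lit 0) (nat_lit 172886259) (nat_lit 608) (nat_lit 8224143915) (nat_lit 684) (nat_lit 18861894) (nat_lit 310) (nat_lit 5) (nat_lit 318) (nat_lit 5) (nat_lit 319) (nat_lit 5) (nat_lit 441) (nat_lit 367) (nat_lit 332))) (XT.nd (nat_lit 78) (nat_lit 1292) (nat_lit 0) (XT.lf (nat_lit 0) (nat_lit 3266337555) (nat_lit 684) (nat_lit 1887161866) (nat_lit 76) (nat_lit 3333424114) (nat_lit 309) (nat_lit 5) (nat_lit 318) (nat_lit 5) (nat_lit 310) (nat_lit 5) (nat_lit 442) (nat_lit 367) (nat_lit 331)) (XT.nd (nat_lit 78) (nat_lit 684) (nat_lit 0) (XT.lf (nat_lit 0) (nat_lit 4592826631) (nat_lit 608) (nat_lit 2005993762) (nat_lit 684) (nat_lit 1960916104) (nat_lit 301) (nat_lit 5) (nat_lit 309) (nat_lit 5) (nat_lit 310) (nat_lit 5) (nat_lit 443) (nat_lit 367) (nat_lit 330)) (XT.lf (nat_lit 0) (nat_lit 1335602677) (nat_lit 684) (nat_lit 6086652400) (nat_lit 76) (nat_lit 1211782650) (nat_lit 292) (nat_lit 5) (nat_lit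 301) (nat_lit 5) (nat_lit 293) (nat_lit 5) (nat_lit 444) (nat_lit 367) (nat_lit 329)))))) (XT.nd (nat_lit 390) (nat_lit 2204) (nat_lit 0) (XT.nd (nat_lit 156) (nat_lit 1824) (nat_lit 0) (XT.nd (nat_lit 78) (nat_lit 0) (nat_lit 0) (XT.lf (nat_lit 0) (nat_lit 452200127) (nat_lit 532) (nat_lit 4215295223) (nat_lit 608) (nat_lit 4042156397) (nat_lit 285) (nat_lit 5) (nat_lit 292) (nat_lit 5) (nat_lit 293) (nat_lit 5) (nat_lit 445) (nat_lit 367) (nat_lit 328)) (XT.lf (nat_lit 0) (nat_lit 7141025461) (nat_lit 532) (nat_lit 919020847) (nat_lit 608) (nat_lit 726851328) (nat_lit 285) (nat_lit 5) (nat_lit 292) (nat_lit 5) (nat_lit 293) (nat_lit 5) (nat_lit 446) (nat_lit 367) (nat_lit 327))) (XT.nd (nat_lit 78) (nat_lit 1140) (nat_lit 0) (XT.lf (nat_lit 0) (nat_lit 2622833937) (nat_lit 684) (nat_lit 3796990134) (nat_lit 76) (nat_lit 2445461811) (nat_lit 276) (nat_lit 5) (nat_lit 285) (nat_lit 5) (nat_lit 277) (nat_lit 5) (nat_lit 447) (nat_lit 367)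 (nat_lit 326)) (XT.nd (nat_lit 78) (nat_lit 608) (nat_lit 0) (XT.lf (nat_lit 0) (nat_lit 2958790991) (nat_lit 532) (nat_lit 3061597094) (nat_lit 608) (nat_lit 2924945560) (nat_lit 269) (nat_lit 5) (nat_lit 276) (nat_lit 5) (nat_lit 277) (nat_lit 5) (nat_lit 448) (nat_lit 367) (nat_lit 325)) (XT.lf (nat_lit 0) (nat_lit 440706069) (nat_lit 608) (nat_lit 8210679599) (nat_lit 76) (nat_lit 375780831) (nat_lit 261) (nat_lit 5) (nat_lit 269) (nat_lit 5) (nat_lit 262) (nat_lit 5) (nat_lit 449) (nat_lit 367) (nat_lit 324))))) (XT.nd (nat_lit 234) (nat_lit 1064) (nat_lit 0) (XT.nd (nat_lit 78) (nat_lit 1140) (nat_lit 0) (XT.lf (nat_lit 0) (nat_lit 3850003685) (nat_lit 608) (nat_lit 1376658602) (nat_lit 76) (nat_lit 3883277084) (nat_lit 261) (nat_lit 5) (nat_lit 269) (nat_lit 5) (nat_lit 262) (nat_lit 5) (nat_lit 450) (nat_lit 367) (nat_lit 323)) (XT.nd (nat_lit 78) (nat_lit 608) (nat_lit 0) (XT.lf (nat_lit 0) (nat_lit 5605163149) (nat_lit 532)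 (nat_lit 1714350845) (nat_lit 608) (nat_lit 1875013172) (nat_lit 254) (nat_lit 5) (nat_lit 261) (nat_lit 5) (nat_lit 262) (nat_lit 5) (nat_lit 451) (nat_lit 367) (nat_lit 322)) (XT.lf (nat_lit 0) (nat_lit 1556629426) (nat_lit 608) (nat_lit 5856278662) (nat_lit 76) (nat_lit 1867699526) (nat_lit 246) (nat_lit 5) (nat_lit 254) (nat_lit 5) (nat_lit 247) (nat_lit 5) (nat_lit 452) (nat_lit 367) (nat_lit 321)))) (XT.nd (nat_lit 78) (nat_lit 608) (nat_lit 0) (XT.lf (nat_lit 0) (nat_lit 1187757764) (nat_lit 456) (nat_lit 3843529506) (nat_lit 532) (nat_lit 4336884749) (nat_lit 240) (nat_lit 5) (nat_lit 246) (nat_lit 5) (nat_lit 247) (nat_lit 5) (nat_lit 453) (nat_lit 367) (nat_lit 320)) (XT.nd (nat_lit 78) (nat_lit 608) (nat_lit 0) (XT.lf (nat_lit 0) (nat_lit 8389559843) (nat_lit 456) (nat_lit 181785365) (nat_lit 532) (nat_lit 886224365) (nat_lit 240) (nat_lit 5) (nat_lit 246) (nat_lit 5) (nat_lit 247) (nat_lit 5) (nat_lit 454) (nat_lit 367) (nat_lit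 319)) (XT.lf (nat_lit 0) (nat_lit 2619596181) (nat_lit 608) (nat_lit 3382920634) (nat_lit 76) (nat_lit 3545482599) (nat_lit 232) (nat_lit 5) (nat_lit 240) (nat_lit 5) (nat_lit 233) (nat_lit 5) (nat_lit 455) (nat_lit 367) (nat_lit 318))))))))
noncomputable def xc67 : XT := (XT.nd (nat_lit 1638) (nat_lit 4560) (nat_lit 0) (XT.nd (nat_lit 780) (nat_lit 3040) (nat_lit 0) (XT.nd (nat_lit 390) (nat_lit 1672) (nat_lit 0) (XT.nd (nat_lit 156) (nat_lit 988) (nat_lit 0) (XT.nd (nat_lit 78) (nat_lit 532) (nat_lit 0) (XT.lf (nat_lit 0) (nat_lit 3899069139) (nat_lit 456) (nat_lit 2275836529) (nat_lit 532) (nat_lit 3465390242) (nat_lit 226) (nat_lit 5) (nat_lit 232) (nat_lit 5) (nat_lit 233) (nat_lit 5) (nat_lit 456) (nat_lit 367) (nat_lit 317)) (XT.lf (nat_lit 0) (nat_lit 66868914) (nat_lit 532) (nat_lit 8147996371) (nat_lit 76) (nat_lit 1519547105) (nat_lit 219) (nat_lit 5) (nat_lit 226) (nat_lit 5) (nat_lit 220) (nat_lit 5) (nat_lit 457) (nat_lit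 367) (nat_lit 316))) (XT.nd (nat_lit 78) (nat_lit 988) (nat_lit 0) (XT.lf (nat_lit 0) (nat_lit 3635215684) (nat_lit 532) (nat_lit 792093530) (nat_lit 76) (nat_lit 5402406981) (nat_lit 219) (nat_lit 5) (nat_lit 226) (nat_lit 5) (nat_lit 220) (nat_lit 5) (nat_lit 458) (nat_lit 367) (nat_lit 315)) (XT.nd (nat_lit 78) (nat_lit 532) (nat_lit 0) (XT.lf (nat_lit 0) (nat_lit 6737912122) (nat_lit 456) (nat_lit 539535897) (nat_lit 532) (nat_lit 2649427684) (nat_lit 213) (nat_lit 5) (nat_lit 219) (nat_lit 5) (nat_lit 220) (nat_lit 5) (nat_lit 459) (nat_lit 367) (nat_lit 314)) (XT.lf (nat_lit 0) (nat_lit 969034863) (nat_lit 532) (nat_lit 5655211194) (nat_lit 76) (nat_lit 3401303542) (nat_lit 206) (nat_lit 5) (nat_lit 213) (nat_lit 5) (nat_lit 207) (nat_lit 5) (nat_lit 460) (nat_lit 367) (nat_lit 313))))) (XT.nd (nat_lit 156) (nat_lit 1292) (nat_lit 0) (XT.nd (nat_lit 78) (nat_lit 0) (nat_lit 0) (XT.lf (nat_lit 0) (nat_lit 1940673921) (nat_lit 380)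 (nat_lit 2680654477) (nat_lit 456) (nat_lit 5504579569) (nat_lit 201) (nat_lit 5) (nat_lit 206) (nat_lit 5) (nat_lit 207) (nat_lit 5) (nat_lit 461) (nat_lit 367) (nat_lit 312)) (XT.lf (nat_lit 0) (nat_lit 8353035636) (nat_lit 456) (nat_lit 533410825) (nat_lit 76) (nat_lit 1341699684) (nat_lit 201) (nat_lit 5) (nat_lit 207) (nat_lit 5) (nat_lit 202) (nat_lit 5) (nat_lit 462) (nat_lit 367) (nat_lit 311))) (XT.nd (nat_lit 78) (nat_lit 760) (nat_lit 0) (XT.lf (nat_lit 0) (nat_lit 1828479070) (nat_lit 532) (nat_lit 3055517438) (nat_lit 76) (nat_lit 5447685506) (nat_lit 194) (nat_lit 5) (nat_lit 201) (nat_lit 5) (nat_lit 195) (nat_lit 5) (nat_lit 463) (nat_lit 367) (nat_lit 310)) (XT.nd (nat_lit 78) (nat_lit 380) (nat_lit 0) (XT.lf (nat_lit 0) (nat_lit 4801498945) (nat_lit 380) (nat_lit 774711320) (nat_lit 456) (nat_lit 4860926895) (nat_lit 189) (nat_lit 5) (nat_lit 194) (nat_lit 5) (nat_lit 195) (nat_lit 5) (nat_lit 464) (nat_lit 367) (nat_lit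 309)) (XT.lf (nat_lit 0) (nat_lit 2258866422) (nat_lit 380) (nat_lit 7158141014) (nat_lit 456) (nat_lit 1127331745) (nat_lit 184) (nat_lit 5) (nat_lit 189) (nat_lit 5) (nat_lit 190) (nat_lit 5) (nat_lit 465) (nat_lit 367) (nat_lit 308)))))) (XT.nd (nat_lit 390) (nat_lit 1824) (nat_lit 0) (XT.nd (nat_lit 156) (nat_lit 760) (nat_lit 0) (XT.nd (nat_lit 78) (nat_lit 380) (nat_lit 0) (XT.lf (nat_lit 0) (nat_lit 2649713911) (nat_lit 456) (nat_lit 349403562) (nat_lit 76) (nat_lit 7654140851) (nat_lit 183) (nat_lit 5) (nat_lit 189) (nat_lit 5) (nat_lit 184) (nat_lit 5) (nat_lit 466) (nat_lit 367) (nat_lit 307)) (XT.lf (nat_lit 0) (nat_lit 6507555953) (nat_lit 456) (nat_lit 2992463726) (nat_lit 76) (nat_lit 1263780129) (nat_lit 178) (nat_lit 5) (nat_lit 184) (nat_lit 5) (nat_lit 179) (nat_lit 5) (nat_lit 467) (nat_lit 367) (nat_lit 306))) (XT.nd (nat_lit 78) (nat_lit 380) (nat_lit 0) (XT.lf (nat_lit 0) (nat_lit 5170288914) (nat_lit 380) (nat_lit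 5289793485) (nat_lit 456) (nat_lit 416119171) (nat_lit 173) (nat_lit 5) (nat_lit 178) (nat_lit 5) (nat_lit 179) (nat_lit 5) (nat_lit 468) (nat_lit 367) (nat_lit 305)) (XT.nd (nat_lit 78) (nat_lit 0) (nat_lit 0) (XT.lf (nat_lit 0) (nat_lit 2495806313) (nat_lit 304) (nat_lit 957352996) (nat_lit 380) (nat_lit 7537272166) (nat_lit 168) (nat_lit 5) (nat_lit 172) (nat_lit 5) (nat_lit 173) (nat_lit 5) (nat_lit 469) (nat_lit 367) (nat_lit 304)) (XT.lf (nat_lit 0) (nat_lit 7417335861) (nat_lit 380) (nat_lit 253448549) (nat_lit 76) (nat_lit 3435644871) (nat_lit 168) (nat_lit 5) (nat_lit 173) (nat_lit 5) (nat_lit 169) (nat_lit 5) (nat_lit 470) (nat_lit 367) (nat_lit 303))))) (XT.nd (nat_lit 234) (nat_lit 684) (nat_lit 0) (XT.nd (nat_lit 78) (nat_lit 684) (nat_lit 0) (XT.lf (nat_lit 0) (nat_lit 255447122) (nat_lit 456) (nat_lit 3031799016) (nat_lit 76) (nat_lit 7937020372) (nat_lit 162) (nat_lit 5) (nat_lit 168) (nat_lit 5) (nat_lit 163) (nat_lit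 5) (nat_lit 471) (nat_lit 367) (nat_lit 302)) (XT.nd (nat_lit 78) (nat_lit 380) (nat_lit 0) (XT.lf (nat_lit 0) (nat_lit 4237503424) (nat_lit 380) (nat_lit 5898123309) (nat_lit 76) (nat_lit 1208185614) (nat_lit 158) (nat_lit 5) (nat_lit 163) (nat_lit 5) (nat_lit 159) (nat_lit 5) (nat_lit 472) (nat_lit 367) (nat_lit 301)) (XT.lf (nat_lit 0) (nat_lit 2621157195) (nat_lit 380) (nat_lit 5700414067) (nat_lit 456) (nat_lit 3143730430) (nat_lit 153) (nat_lit 5) (nat_lit 158) (nat_lit 5) (nat_lit 159) (nat_lit 5) (nat_lit 473) (nat_lit 367) (nat_lit 300)))) (XT.nd (nat_lit 78) (nat_lit 608) (nat_lit 0) (XT.lf (nat_lit 0) (nat_lit 889360774) (nat_lit 456) (nat_lit 263640825) (nat_lit 76) (nat_lit 10436041808) (nat_lit 152) (nat_lit 5) (nat_lit 158) (nat_lit 5) (nat_lit 153) (nat_lit 5) (nat_lit 474) (nat_lit 367) (nat_lit 299)) (XT.nd (nat_lit 78) (nat_lit 304) (nat_lit 0) (XT.lf (nat_lit 0) (nat_lit 5003286931) (nat_lit 380) (nat_lit 3216759400)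 (nat_lit 76) (nat_lit 3493952669) (nat_lit 148) (nat_lit 5) (nat_lit 153) (nat_lit 5) (nat_lit 149) (nat_lit 5) (nat_lit 475) (nat_lit 367) (nat_lit 298)) (XT.lf (nat_lit 0) (nat_lit 5602422221) (nat_lit 304) (nat_lit 3606962665) (nat_lit 380) (nat_lit 2631870955) (nat_lit 144) (nat_lit 5) (nat_lit 148) (nat_lit 5) (nat_lit 149) (nat_lit 5) (nat_lit 476) (nat_lit 367) (nat_lit 297))))))) (XT.nd (nat_lit 780) (nat_lit 2280) (nat_lit 0) (XT.nd (nat_lit 390) (nat_lit 912) (nat_lit 0) (XT.nd (nat_lit 156) (nat_lit 988) (nat_lit 0) (XT.nd (nat_lit 78) (nat_lit 0) (nat_lit 0) (XT.lf (nat_lit 0) (nat_lit 1518841033) (nat_lit 380) (nat_lit 9341614886) (nat_lit 76) (nat_lit 1110196587) (nat_lit 139) (nat_lit 5) (nat_lit 144) (nat_lit 5) (nat_lit 140) (nat_lit 5) (nat_lit 477) (nat_lit 367) (nat_lit 296)) (XT.lf (nat_lit 0) (nat_lit 5747751717) (nat_lit 380) (nat_lit 443718611) (nat_lit 76) (nat_lit 5910210339) (nat_lit 139) (nat_lit 5) (nat_lit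 144) (nat_lit 5) (nat_lit 140) (nat_lit 5) (nat_lit 478) (nat_lit 367) (nat_lit 295))) (XT.nd (nat_lit 78) (nat_lit 684) (nat_lit 0) (XT.lf (nat_lit 0) (nat_lit 8688081233) (nat_lit 304) (nat_lit 1394628934) (nat_lit 380) (nat_lit 2152189834) (nat_lit 135) (nat_lit 5) (nat_lit 139) (nat_lit 5) (nat_lit 140) (nat_lit 5) (nat_lit 479) (nat_lit 367) (nat_lit 294)) (XT.nd (nat_lit 78) (nat_lit 304) (nat_lit 0) (XT.lf (nat_lit 0) (nat_lit 2133274520) (nat_lit 380) (nat_lit 6753506365) (nat_lit 76) (nat_lit 3483172327) (nat_lit 130) (nat_lit 5) (nat_lit 135) (nat_lit 5) (nat_lit 131) (nat_lit 5) (nat_lit 480) (nat_lit 367) (nat_lit 293)) (XT.lf (nat_lit 0) (nat_lit 2454123847) (nat_lit 304) (nat_lit 4035962798) (nat_lit 380) (nat_lit 6017047197) (nat_lit 126) (nat_lit 5) (nat_lit 130) (nat_lit 5) (nat_lit 131) (nat_lit 5) (nat_lit 481) (nat_lit 367) (nat_lit 292))))) (XT.nd (nat_lit 156) (nat_lit 608) (nat_lit 0) (XT.nd (nat_lit 78) (nat_lit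 304) (nat_lit 0) (XT.lf (nat_lit 0) (nat_lit 10951028563) (nat_lit 380) (nat_lit 773312777) (nat_lit 76) (nat_lit 922376874) (nat_lit 126) (nat_lit 5) (nat_lit 131) (nat_lit 5) (nat_lit 127) (nat_lit 5) (nat_lit 482) (nat_lit 367) (nat_lit 291)) (XT.lf (nat_lit 0) (nat_lit 2726343754) (nat_lit 304) (nat_lit 4083642700) (nat_lit 76) (nat_lit 5977759278) (nat_lit 122) (nat_lit 5) (nat_lit 126) (nat_lit 5) (nat_lit 123) (nat_lit 5) (nat_lit 483) (nat_lit 367) (nat_lit 290))) (XT.nd (nat_lit 78) (nat_lit 304) (nat_lit 0) (XT.lf (nat_lit 0) (nat_lit 5452992221) (nat_lit 304) (nat_lit 1767972948) (nat_lit 380) (nat_lit 5710267408) (nat_lit 118) (nat_lit 5) (nat_lit 122) (nat_lit 5) (nat_lit 123) (nat_lit 5) (nat_lit 484) (nat_lit 367) (nat_lit 289)) (XT.nd (nat_lit 78) (nat_lit 76) (nat_lit 0) (XT.lf (nat_lit 0) (nat_lit 2106749514) (nat_lit 228) (nat_lit 9728248793) (nat_lit 304) (nat_lit 1242000467) (nat_lit 115) (nat_lit 5) (nat_lit 118)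 (nat_lit 5) (nat_lit 119) (nat_lit 5) (nat_lit 485) (nat_lit 367) (nat_lit 288)) (XT.lf (nat_lit 0) (nat_lit 3300782770) (nat_lit 304) (nat_lit 1330965353) (nat_lit 76) (nat_lit 8592928905) (nat_lit 114) (nat_lit 5) (nat_lit 118) (nat_lit 5) (nat_lit 115) (nat_lit 5) (nat_lit 486) (nat_lit 367) (nat_lit 287)))))) (XT.nd (nat_lit 390) (nat_lit 1140) (nat_lit 0) (XT.nd (nat_lit 156) (nat_lit 608) (nat_lit 0) (XT.nd (nat_lit 78) (nat_lit 228) (nat_lit 0) (XT.lf (nat_lit 0) (nat_lit 7944329851) (nat_lit 380) (nat_lit 4830047715) (nat_lit 76) (nat_lit 600236317) (nat_lit 110) (nat_lit 5) (nat_lit 115) (nat_lit 5) (nat_lit 111) (nat_lit 5) (nat_lit 487) (nat_lit 367) (nat_lit 286)) (XT.lf (nat_lit 0) (nat_lit 5087741321) (nat_lit 228) (nat_lit 7632905014) (nat_lit 304) (nat_lit 806105172) (nat_lit 107) (nat_lit 5) (nat_lit 110) (nat_lit 5) (nat_lit 111) (nat_lit 5) (nat_lit 488) (nat_lit 367) (nat_lit 285))) (XT.nd (nat_lit 78) (nat_lit 228)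 (nat_lit 0) (XT.lf (nat_lit 0) (nat_lit 1525888254) (nat_lit 304) (nat_lit 2343179381) (nat_lit 380) (nat_lit 9812160488) (nat_lit 102) (nat_lit 5) (nat_lit 106) (nat_lit 5) (nat_lit 107) (nat_lit 5) (nat_lit 489) (nat_lit 367) (nat_lit 284)) (XT.nd (nat_lit 78) (nat_lit 228) (nat_lit 0) (XT.lf (nat_lit 0) (nat_lit 8671169997) (nat_lit 380) (nat_lit 2115432391) (nat_lit 76) (nat_lit 3051200919) (nat_lit 102) (nat_lit 5) (nat_lit 107) (nat_lit 5) (nat_lit 103) (nat_lit 5) (nat_lit 490) (nat_lit 367) (nat_lit 283)) (XT.lf (nat_lit 0) (nat_lit 8161185921) (nat_lit 228) (nat_lit 5444660239) (nat_lit 304) (nat_lit 390933200) (nat_lit 99) (nat_lit 5) (nat_lit 102) (nat_lit 5) (nat_lit 103) (nat_lit 5) (nat_lit 491) (nat_lit 367) (nat_lit 282))))) (XT.nd (nat_lit 234) (nat_lit 532) (nat_lit 0) (XT.nd (nat_lit 78) (nat_lit 304) (nat_lit 0) (XT.lf (nat_lit 0) (nat_lit 4433383148) (nat_lit 304) (nat_lit 9671108591) (nat_lit 76) (nat_lit 53624178)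 (nat_lit 95) (nat_lit 5) (nat_lit 99) (nat_lit 5) (nat_lit 96) (nat_lit 5) (nat_lit 492) (nat_lit 367) (nat_lit 281)) (XT.nd (nat_lit 78) (nat_lit 76) (nat_lit 0) (XT.lf (nat_lit 0) (nat_lit 687602954) (nat_lit 228) (nat_lit 8709491860) (nat_lit 304) (nat_lit 4924569839) (nat_lit 92) (nat_lit 5) (nat_lit 95) (nat_lit 5) (nat_lit 96) (nat_lit 5) (nat_lit 493) (nat_lit 367) (nat_lit 280)) (XT.lf (nat_lit 0) (nat_lit 5549565) (nat_lit 304) (nat_lit 3158680110) (nat_lit 76) (nat_lit 11323586761) (nat_lit 91) (nat_lit 5) (nat_lit 95) (nat_lit 5) (nat_lit 92) (nat_lit 5) (nat_lit 494) (nat_lit 367) (nat_lit 279)))) (XT.nd (nat_lit 78) (nat_lit 304) (nat_lit 0) (XT.lf (nat_lit 0) (nat_lit 5002774139) (nat_lit 304) (nat_lit 7135130955) (nat_lit 76) (nat_lit 2518046278) (nat_lit 88) (nat_lit 5) (nat_lit 92) (nat_lit 5) (nat_lit 89) (nat_lit 5) (nat_lit 495) (nat_lit 367) (nat_lit 278)) (XT.nd (nat_lit 78) (nat_lit 76) (nat_lit 0) (XT.lf (nat_lit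 0) (nat_lit 3600993395) (nat_lit 228) (nat_lit 6533601569) (nat_lit 304) (nat_lit 4692161007) (nat_lit 85) (nat_lit 5) (nat_lit 88) (nat_lit 5) (nat_lit 89) (nat_lit 5) (nat_lit 496) (nat_lit 367) (nat_lit 277)) (XT.lf (nat_lit 0) (nat_lit 380476288) (nat_lit 304) (nat_lit 409059253) (nat_lit 76) (nat_lit 14211048764) (nat_lit 84) (nat_lit 5) (nat_lit 88) (nat_lit 5) (nat_lit 85) (nat_lit 5) (nat_lit 497) (nat_lit 367) (nat_lit 276))))))))
noncomputable def xc68 : XT := (XT.nd (nat_lit 52806) (nat_lit 0) (nat_lit 23104) (XT.nd (nat_lit 52026) (nat_lit 0) (nat_lit 40052) (XT.nd (nat_lit 390) (nat_lit 912) (nat_lit 0) (XT.nd (nat_lit 156) (nat_lit 456) (nat_lit 0) (XT.nd (nat_lit 78) (nat_lit 228) (nat_lit 0) (XT.lf (nat_lit 0) (nat_lit 5564197599) (nat_lit 304) (nat_lit 4530767576) (nat_lit 76) (nat_lit 5080854539) (nat_lit 81) (nat_lit 5) (nat_lit 85) (nat_lit 5) (nat_lit 82) (nat_lit 5) (nat_lit 498) (nat_lit 367) (nat_lit 275)) (XT.lf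 (nat_lit 0) (nat_lit 6598669119) (nat_lit 228) (nat_lit 4273493480) (nat_lit 304) (nat_lit 4481985848) (nat_lit 78) (nat_lit 5) (nat_lit 81) (nat_lit 5) (nat_lit 82) (nat_lit 5) (nat_lit 499) (nat_lit 367) (nat_lit 274))) (XT.nd (nat_lit 78) (nat_lit 152) (nat_lit 0) (XT.lf (nat_lit 0) (nat_lit 767688209) (nat_lit 304) (nat_lit 13096841033) (nat_lit 76) (nat_lit 1670871398) (nat_lit 74) (nat_lit 5) (nat_lit 78) (nat_lit 5) (nat_lit 75) (nat_lit 5) (nat_lit 500) (nat_lit 367) (nat_lit 273)) (XT.nd (nat_lit 78) (nat_lit 152) (nat_lit 0) (XT.lf (nat_lit 0) (nat_lit 6119714712) (nat_lit 304) (nat_lit 1856363475) (nat_lit 76) (nat_lit 7742459717) (nat_lit 74) (nat_lit 5) (nat_lit 78) (nat_lit 5) (nat_lit 75) (nat_lit 5) (nat_lit 501) (nat_lit 367) (nat_lit 272)) (XT.lf (nat_lit 0) (nat_lit 9682926345) (nat_lit 152) (nat_lit 1929186517) (nat_lit 228) (nat_lit 4292558429) (nat_lit 72) (nat_lit 5) (nat_lit 74) (nat_lit 5) (nat_lit 75) (nat_lit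 5) (nat_lit 502) (nat_lit 367) (nat_lit 271))))) (XT.nd (nat_lit 156) (nat_lit 456) (nat_lit 0) (XT.nd (nat_lit 78) (nat_lit 152) (nat_lit 0) (XT.lf (nat_lit 0) (nat_lit 1150944381) (nat_lit 304) (nat_lit 10727504283) (nat_lit 76) (nat_lit 4215017276) (nat_lit 68) (nat_lit 5) (nat_lit 72) (nat_lit 5) (nat_lit 69) (nat_lit 5) (nat_lit 503) (nat_lit 367) (nat_lit 270)) (XT.lf (nat_lit 0) (nat_lit 901787250) (nat_lit 152) (nat_lit 5775355720) (nat_lit 228) (nat_lit 9607699975) (nat_lit 66) (nat_lit 5) (nat_lit 68) (nat_lit 5) (nat_lit 69) (nat_lit 5) (nat_lit 504) (nat_lit 367) (nat_lit 269))) (XT.nd (nat_lit 78) (nat_lit 456) (nat_lit 0) (XT.lf (nat_lit 0) (nat_lit 12359921322) (nat_lit 228) (nat_lit 3626125051) (nat_lit 76) (nat_lit 493080001) (nat_lit 66) (nat_lit 5) (nat_lit 69) (nat_lit 5) (nat_lit 67) (nat_lit 5) (nat_lit 505) (nat_lit 367) (nat_lit 268)) (XT.nd (nat_lit 78) (nat_lit 152) (nat_lit 0) (XT.lf (nat_lit 0) (nat_lit 1524023333)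 (nat_lit 304) (nat_lit 8300524592) (nat_lit 76) (nat_lit 6851268252) (nat_lit 62) (nat_lit 5) (nat_lit 66) (nat_lit 5) (nat_lit 63) (nat_lit 5) (nat_lit 506) (nat_lit 367) (nat_lit 267)) (XT.lf (nat_lit 0) (nat_lit 3759609533) (nat_lit 152) (nat_lit 3485591398) (nat_lit 228) (nat_lit 9630289470) (nat_lit 60) (nat_lit 5) (nat_lit 62) (nat_lit 5) (nat_lit 63) (nat_lit 5) (nat_lit 507) (nat_lit 367) (nat_lit 266)))))) (XT.nd (nat_lit 390) (nat_lit 5776) (nat_lit 0) (XT.nd (nat_lit 156) (nat_lit 2508) (nat_lit 0) (XT.nd (nat_lit 78) (nat_lit 0) (nat_lit 0) (XT.lf (nat_lit 0) (nat_lit 159717919) (nat_lit 1140) (nat_lit 3038190589) (nat_lit 0) (nat_lit 159717919) (nat_lit 696) (nat_lit 5) (nat_lit 711) (nat_lit 4) (nat_lit 696) (nat_lit 4) (nat_lit 404) (nat_lit 368) (nat_lit 368)) (XT.lf (nat_lit 0) (nat_lit 3670382387) (nat_lit 1140) (nat_lit 1565471419) (nat_lit 0) (nat_lit 1502589986) (nat_lit 696) (nat_lit 5) (nat_lit 711) (nat_lit 4)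 (nat_lit 696) (nat_lit 4) (nat_lit 405) (nat_lit 368) (nat_lit 367))) (XT.nd (nat_lit 78) (nat_lit 1292) (nat_lit 0) (XT.lf (nat_lit 0) (nat_lit 268810395) (nat_lit 1216) (nat_lit 3750082068) (nat_lit 76) (nat_lit 2744226921) (nat_lit 680) (nat_lit 5) (nat_lit 696) (nat_lit 5) (nat_lit 681) (nat_lit 4) (nat_lit 406) (nat_lit 368) (nat_lit 366)) (XT.nd (nat_lit 78) (nat_lit 76) (nat_lit 0) (XT.lf (nat_lit 0) (nat_lit 846053490) (nat_lit 1216) (nat_lit 2729563804) (nat_lit 1292) (nat_lit 3213380015) (nat_lit 664) (nat_lit 5) (nat_lit 680) (nat_lit 5) (nat_lit 681) (nat_lit 4) (nat_lit 407) (nat_lit 368) (nat_lit 365)) (XT.lf (nat_lit 0) (nat_lit 85471996) (nat_lit 1292) (nat_lit 1292435206) (nat_lit 76) (nat_lit 5438387280) (nat_lit 663) (nat_lit 5) (nat_lit 680) (nat_lit 5) (nat_lit 664) (nat_lit 5) (nat_lit 408) (nat_lit 368) (nat_lit 364))))) (XT.nd (nat_lit 156) (nat_lit 3116) (nat_lit 0) (XT.nd (nat_lit 78) (nat_lit 1368) (nat_lit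 0) (XT.lf (nat_lit 0) (nat_lit 3359954483) (nat_lit 1368) (nat_lit 3430693643) (nat_lit 76) (nat_lit 54011051) (nat_lit 646) (nat_lit 5) (nat_lit 664) (nat_lit 5) (nat_lit 647) (nat_lit 4) (nat_lit 409) (nat_lit 368) (nat_lit 363)) (XT.lf (nat_lit 0) (nat_lit 1305236850) (nat_lit 1368) (nat_lit 5352177092) (nat_lit 1444) (nat_lit 217027478) (nat_lit 628) (nat_lit 5) (nat_lit 646) (nat_lit 5) (nat_lit 647) (nat_lit 4) (nat_lit 410) (nat_lit 368) (nat_lit 362))) (XT.nd (nat_lit 78) (nat_lit 3040) (nat_lit 0) (XT.lf (nat_lit 0) (nat_lit 3029972766) (nat_lit 1444) (nat_lit 804152303) (nat_lit 76) (nat_lit 3071192887) (nat_lit 627) (nat_lit 5) (nat_lit 646) (nat_lit 5) (nat_lit 628) (nat_lit 5) (nat_lit 411) (nat_lit 368) (nat_lit 361)) (XT.nd (nat_lit 78) (nat_lit 1596) (nat_lit 0) (XT.lf (nat_lit 0) (nat_lit 4047256280) (nat_lit 1444) (nat_lit 2251033091) (nat_lit 1520) (nat_lit 639308314) (nat_lit 608) (nat_lit 5) (nat_lit 627) (nat_lit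 5) (nat_lit 628) (nat_lit 5) (nat_lit 412) (nat_lit 368) (nat_lit 360)) (XT.lf (nat_lit 0) (nat_lit 1983807541) (nat_lit 1520) (nat_lit 594536062) (nat_lit 1596) (nat_lit 4392797813) (nat_lit 587) (nat_lit 5) (nat_lit 607) (nat_lit 5) (nat_lit 608) (nat_lit 5) (nat_lit 413) (nat_lit 368) (nat_lit 359))))))) (XT.nd (nat_lit 780) (nat_lit 6840) (nat_lit 0) (XT.nd (nat_lit 390) (nat_lit 4940) (nat_lit 0) (XT.nd (nat_lit 156) (nat_lit 3496) (nat_lit 0) (XT.nd (nat_lit 78) (nat_lit 1672) (nat_lit 0) (XT.lf (nat_lit 0) (nat_lit 5812860179) (nat_lit 1596) (nat_lit 83837168) (nat_lit 76) (nat_lit 1109352721) (nat_lit 587) (nat_lit 5) (nat_lit 608) (nat_lit 5) (nat_lit 588) (nat_lit 5) (nat_lit 414) (nat_lit 368) (nat_lit 358)) (XT.lf (nat_lit 0) (nat_lit 2014648517) (nat_lit 1672) (nat_lit 2137993223) (nat_lit 76) (nat_lit 2889318458) (nat_lit 565) (nat_lit 5) (nat_lit 587) (nat_lit 5) (nat_lit 566) (nat_lit 5) (nat_lit 415) (nat_lit 368) (nat_lit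 357))) (XT.nd (nat_lit 78) (nat_lit 1824) (nat_lit 0) (XT.lf (nat_lit 0) (nat_lit 2882740478) (nat_lit 1672) (nat_lit 2343388097) (nat_lit 1748) (nat_lit 1853192983) (nat_lit 543) (nat_lit 5) (nat_lit 565) (nat_lit 5) (nat_lit 566) (nat_lit 5) (nat_lit 416) (nat_lit 368) (nat_lit 356)) (XT.nd (nat_lit 78) (nat_lit 0) (nat_lit 0) (XT.lf (nat_lit 0) (nat_lit 856184763) (nat_lit 1748) (nat_lit 466670898) (nat_lit 1824) (nat_lit 5795262628) (nat_lit 519) (nat_lit 5) (nat_lit 542) (nat_lit 5) (nat_lit 543) (nat_lit 5) (nat_lit 417) (nat_lit 368) (nat_lit 355)) (XT.lf (nat_lit 0) (nat_lit 4512837420) (nat_lit 1824) (nat_lit 1174634886) (nat_lit 76) (nat_lit 1470469129) (nat_lit 519) (nat_lit 5) (nat_lit 543) (nat_lit 5) (nat_lit 520) (nat_lit 5) (nat_lit 418) (nat_lit 368) (nat_lit 354))))) (XT.nd (nat_lit 156) (nat_lit 1900) (nat_lit 0) (XT.nd (nat_lit 78) (nat_lit 1140) (nat_lit 0) (XT.lf (nat_lit 0) (nat_lit 528154606) (nat_lit 1900) (nat_lit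 3200182459) (nat_lit 76) (nat_lit 3470799274) (nat_lit 494) (nat_lit 5) (nat_lit 519) (nat_lit 5) (nat_lit 495) (nat_lit 5) (nat_lit 419) (nat_lit 368) (nat_lit 353)) (XT.lf (nat_lit 0) (nat_lit 1997851465) (nat_lit 1140) (nat_lit 1691637300) (nat_lit 1216) (nat_lit 3552116127) (nat_lit 479) (nat_lit 5) (nat_lit 494) (nat_lit 5) (nat_lit 495) (nat_lit 5) (nat_lit 420) (nat_lit 368) (nat_lit 352))) (XT.nd (nat_lit 78) (nat_lit 1900) (nat_lit 0) (XT.lf (nat_lit 0) (nat_lit 6878049226) (nat_lit 1216) (nat_lit 6424126) (nat_lit 76) (nat_lit 401169472) (nat_lit 479) (nat_lit 5) (nat_lit 495) (nat_lit 5) (nat_lit 480) (nat_lit 5) (nat_lit 421) (nat_lit 368) (nat_lit 351)) (XT.nd (nat_lit 78) (nat_lit 912) (nat_lit 0) (XT.lf (nat_lit 0) (nat_lit 2749897892) (nat_lit 988) (nat_lit 2015805133) (nat_lit 76) (nat_lit 2564758950) (nat_lit 466) (nat_lit 5) (nat_lit 479) (nat_lit 5) (nat_lit 467) (nat_lit 5) (nat_lit 422) (nat_lit 368) (nat_lit 350))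 (XT.lf (nat_lit 0) (nat_lit 3345589674) (nat_lit 912) (nat_lit 2582693822) (nat_lit 988) (nat_lit 1448576092) (nat_lit 454) (nat_lit 5) (nat_lit 466) (nat_lit 5) (nat_lit 467) (nat_lit 5) (nat_lit 423) (nat_lit 368) (nat_lit 349)))))) (XT.nd (nat_lit 390) (nat_lit 3268) (nat_lit 0) (XT.nd (nat_lit 156) (nat_lit 2660) (nat_lit 0) (XT.nd (nat_lit 78) (nat_lit 0) (nat_lit 0) (XT.lf (nat_lit 0) (nat_lit 1362033315) (nat_lit 836) (nat_lit 325377964) (nat_lit 912) (nat_lit 5737261954) (nat_lit 442) (nat_lit 5) (nat_lit 453) (nat_lit 5) (nat_lit 454) (nat_lit 5) (nat_lit 424) (nat_lit 368) (nat_lit 348)) (XT.lf (nat_lit 0) (nat_lit 4849321333) (nat_lit 912) (nat_lit 640404033) (nat_lit 76) (nat_lit 1983874297) (nat_lit 442) (nat_lit 5) (nat_lit 454) (nat_lit 5) (nat_lit 443) (nat_lit 5) (nat_lit 425) (nat_lit 368) (nat_lit 347))) (XT.nd (nat_lit 78) (nat_lit 1672) (nat_lit 0) (XT.lf (nat_lit 0) (nat_lit 521139908) (nat_lit 988) (nat_lit 2636627641)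 (nat_lit 76) (nat_lit 4366117508) (nat_lit 429) (nat_lit 5) (nat_lit 442) (nat_lit 5) (nat_lit 430) (nat_lit 5) (nat_lit 426) (nat_lit 368) (nat_lit 346)) (XT.nd (nat_lit 78) (nat_lit 836) (nat_lit 0) (XT.lf (nat_lit 0) (nat_lit 2918075903) (nat_lit 836) (nat_lit 743536939) (nat_lit 912) (nat_lit 3913870679) (nat_lit 418) (nat_lit 5) (nat_lit 429) (nat_lit 5) (nat_lit 430) (nat_lit 5) (nat_lit 427) (nat_lit 368) (nat_lit 345)) (XT.lf (nat_lit 0) (nat_lit 930266436) (nat_lit 836) (nat_lit 5914280098) (nat_lit 912) (nat_lit 783974394) (nat_lit 407) (nat_lit 5) (nat_lit 418) (nat_lit 5) (nat_lit 419) (nat_lit 5) (nat_lit 428) (nat_lit 368) (nat_lit 344))))) (XT.nd (nat_lit 234) (nat_lit 1596) (nat_lit 0) (XT.nd (nat_lit 78) (nat_lit 1596) (nat_lit 0) (XT.lf (nat_lit 0) (nat_lit 2358276872) (nat_lit 912) (nat_lit 1072766485) (nat_lit 76) (nat_lit 4251636069) (nat_lit 406) (nat_lit 5) (nat_lit 418) (nat_lit 5) (nat_lit 407) (nat_lit 5) (nat_lit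 429) (nat_lit 368) (nat_lit 343)) (XT.nd (nat_lit 78) (nat_lit 836) (nat_lit 0) (XT.lf (nat_lit 0) (nat_lit 4659552166) (nat_lit 760) (nat_lit 869626012) (nat_lit 836) (nat_lit 2209113225) (nat_lit 396) (nat_lit 5) (nat_lit 406) (nat_lit 5) (nat_lit 407) (nat_lit 5) (nat_lit 430) (nat_lit 368) (nat_lit 342)) (XT.lf (nat_lit 0) (nat_lit 938329230) (nat_lit 836) (nat_lit 5113668627) (nat_lit 76) (nat_lit 1743241019) (nat_lit 385) (nat_lit 5) (nat_lit 396) (nat_lit 5) (nat_lit 386) (nat_lit 5) (nat_lit 431) (nat_lit 368) (nat_lit 341)))) (XT.nd (nat_lit 78) (nat_lit 836) (nat_lit 0) (XT.lf (nat_lit 0) (nat_lit 671687019) (nat_lit 760) (nat_lit 3425343090) (nat_lit 836) (nat_lit 3756445353) (nat_lit 375) (nat_lit 5) (nat_lit 385) (nat_lit 5) (nat_lit 386) (nat_lit 5) (nat_lit 432) (nat_lit 368) (nat_lit 340)) (XT.nd (nat_lit 78) (nat_lit 836) (nat_lit 0) (XT.lf (nat_lit 0) (nat_lit 6579974708) (nat_lit 760) (nat_lit 720827874) (nat_lit 836)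 (nat_lit 612436245) (nat_lit 375) (nat_lit 5) (nat_lit 385) (nat_lit 5) (nat_lit 386) (nat_lit 5) (nat_lit 433) (nat_lit 368) (nat_lit 339)) (XT.lf (nat_lit 0) (nat_lit 2552132060) (nat_lit 836) (nat_lit 3373431188) (nat_lit 76) (nat_lit 2048463200) (nat_lit 364) (nat_lit 5) (nat_lit 375) (nat_lit 5) (nat_lit 365) (nat_lit 5) (nat_lit 434) (nat_lit 368) (nat_lit 338))))))))
noncomputable def xc69 : XT := (XT.nd (nat_lit 1560) (nat_lit 6992) (nat_lit 0) (XT.nd (nat_lit 780) (nat_lit 3952) (nat_lit 0) (XT.nd (nat_lit 390) (nat_lit 2584) (nat_lit 0) (XT.nd (nat_lit 156) (nat_lit 1444) (nat_lit 0) (XT.nd (nat_lit 78) (nat_lit 760) (nat_lit 0) (XT.lf (nat_lit 0) (nat_lit 2598429542) (nat_lit 684) (nat_lit 3152841585) (nat_lit 760) (nat_lit 2285088131) (nat_lit 355) (nat_lit 5) (nat_lit 364) (nat_lit 5) (nat_lit 365) (nat_lit 5) (nat_lit 435) (nat_lit 368) (nat_lit 337)) (XT.lf (nat_lit 0) (nat_lit 575041741) (nat_lit 684) (nat_lit 303029844)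 (nat_lit 760) (nat_lit 7222236182) (nat_lit 345) (nat_lit 5) (nat_lit 354) (nat_lit 5) (nat_lit 355) (nat_lit 5) (nat_lit 436) (nat_lit 368) (nat_lit 336))) (XT.nd (nat_lit 78) (nat_lit 1444) (nat_lit 0) (XT.lf (nat_lit 0) (nat_lit 4077174054) (nat_lit 760) (nat_lit 1478002705) (nat_lit 76) (nat_lit 2609990863) (nat_lit 345) (nat_lit 5) (nat_lit 355) (nat_lit 5) (nat_lit 346) (nat_lit 5) (nat_lit 437) (nat_lit 368) (nat_lit 335)) (XT.nd (nat_lit 78) (nat_lit 760) (nat_lit 0) (XT.lf (nat_lit 0) (nat_lit 4688014264) (nat_lit 684) (nat_lit 2635286663) (nat_lit 760) (nat_lit 908362899) (nat_lit 336) (nat_lit 5) (nat_lit 345) (nat_lit 5) (nat_lit 346) (nat_lit 5) (nat_lit 438) (nat_lit 368) (nat_lit 334)) (XT.lf (nat_lit 0) (nat_lit 2284735440) (nat_lit 760) (nat_lit 5646265989) (nat_lit 76) (nat_lit 368575393) (nat_lit 326) (nat_lit 5) (nat_lit 336) (nat_lit 5) (nat_lit 327) (nat_lit 5) (nat_lit 439) (nat_lit 368) (nat_lit 333))))) (XT.nd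 (nat_lit 156) (nat_lit 1900) (nat_lit 0) (XT.nd (nat_lit 78) (nat_lit 76) (nat_lit 0) (XT.lf (nat_lit 0) (nat_lit 575397081) (nat_lit 608) (nat_lit 4950598319) (nat_lit 684) (nat_lit 2842803338) (nat_lit 318) (nat_lit 5) (nat_lit 326) (nat_lit 5) (nat_lit 327) (nat_lit 5) (nat_lit 440) (nat_lit 368) (nat_lit 332)) (XT.lf (nat_lit 0) (nat_lit 377224983) (nat_lit 684) (nat_lit 1506048001) (nat_lit 76) (nat_lit 6556287128) (nat_lit 317) (nat_lit 5) (nat_lit 326) (nat_lit 5) (nat_lit 318) (nat_lit 5) (nat_lit 441) (nat_lit 368) (nat_lit 331))) (XT.nd (nat_lit 78) (nat_lit 1292) (nat_lit 0) (XT.lf (nat_lit 0) (nat_lit 3616219358) (nat_lit 684) (nat_lit 3629035597) (nat_lit 76) (nat_lit 1266253328) (nat_lit 309) (nat_lit 5) (nat_lit 318) (nat_lit 5) (nat_lit 310) (nat_lit 5) (nat_lit 442) (nat_lit 368) (nat_lit 330)) (XT.nd (nat_lit 78) (nat_lit 684) (nat_lit 0) (XT.lf (nat_lit 0) (nat_lit 2796780483) (nat_lit 608) (nat_lit 4116969990) (nat_lit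 684) (nat_lit 1671269808) (nat_lit 301) (nat_lit 5) (nat_lit 309) (nat_lit 5) (nat_lit 310) (nat_lit 5) (nat_lit 443) (nat_lit 368) (nat_lit 329)) (XT.lf (nat_lit 0) (nat_lit 676945089) (nat_lit 608) (nat_lit 901152007) (nat_lit 684) (nat_lit 7082053867) (nat_lit 292) (nat_lit 5) (nat_lit 300) (nat_lit 5) (nat_lit 301) (nat_lit 5) (nat_lit 444) (nat_lit 368) (nat_lit 328)))))) (XT.nd (nat_lit 390) (nat_lit 2128) (nat_lit 0) (XT.nd (nat_lit 156) (nat_lit 1292) (nat_lit 0) (XT.nd (nat_lit 78) (nat_lit 532) (nat_lit 0) (XT.lf (nat_lit 0) (nat_lit 4878226100) (nat_lit 684) (nat_lit 1475363895) (nat_lit 76) (nat_lit 2382810261) (nat_lit 292) (nat_lit 5) (nat_lit 301) (nat_lit 5) (nat_lit 293) (nat_lit 5) (nat_lit 445) (nat_lit 368) (nat_lit 327)) (XT.lf (nat_lit 0) (nat_lit 5163127383) (nat_lit 532) (nat_lit 3075217548) (nat_lit 608) (nat_lit 575949857) (nat_lit 285) (nat_lit 5) (nat_lit 292) (nat_lit 5) (nat_lit 293) (nat_lit 5) (nat_lit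 446) (nat_lit 368) (nat_lit 326))) (XT.nd (nat_lit 78) (nat_lit 608) (nat_lit 0) (XT.lf (nat_lit 0) (nat_lit 2721795631) (nat_lit 684) (nat_lit 5874715041) (nat_lit 76) (nat_lit 297151978) (nat_lit 276) (nat_lit 5) (nat_lit 285) (nat_lit 5) (nat_lit 277) (nat_lit 5) (nat_lit 447) (nat_lit 368) (nat_lit 325)) (XT.nd (nat_lit 78) (nat_lit 76) (nat_lit 0) (XT.lf (nat_lit 0) (nat_lit 822433220) (nat_lit 532) (nat_lit 5260809518) (nat_lit 608) (nat_lit 2891189818) (nat_lit 269) (nat_lit 5) (nat_lit 276) (nat_lit 5) (nat_lit 277) (nat_lit 5) (nat_lit 448) (nat_lit 368) (nat_lit 324)) (XT.lf (nat_lit 0) (nat_lit 444085786) (nat_lit 608) (nat_lit 1388115717) (nat_lit 76) (nat_lit 7224658189) (nat_lit 268) (nat_lit 5) (nat_lit 276) (nat_lit 5) (nat_lit 269) (nat_lit 5) (nat_lit 449) (nat_lit 368) (nat_lit 323))))) (XT.nd (nat_lit 156) (nat_lit 1064) (nat_lit 0) (XT.nd (nat_lit 78) (nat_lit 532) (nat_lit 0) (XT.lf (nat_lit 0) (nat_lit 3810331500)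 (nat_lit 608) (nat_lit 3648515361) (nat_lit 76) (nat_lit 1681646741) (nat_lit 261) (nat_lit 5) (nat_lit 269) (nat_lit 5) (nat_lit 262) (nat_lit 5) (nat_lit 450) (nat_lit 368) (nat_lit 322)) (XT.lf (nat_lit 0) (nat_lit 3272430494) (nat_lit 532) (nat_lit 3970733103) (nat_lit 608) (nat_lit 1982651365) (nat_lit 254) (nat_lit 5) (nat_lit 261) (nat_lit 5) (nat_lit 262) (nat_lit 5) (nat_lit 451) (nat_lit 368) (nat_lit 321))) (XT.nd (nat_lit 78) (nat_lit 456) (nat_lit 0) (XT.lf (nat_lit 0) (nat_lit 1011362258) (nat_lit 532) (nat_lit 389558448) (nat_lit 608) (nat_lit 7911978326) (nat_lit 246) (nat_lit 5) (nat_lit 253) (nat_lit 5) (nat_lit 254) (nat_lit 5) (nat_lit 452) (nat_lit 368) (nat_lit 320)) (XT.nd (nat_lit 78) (nat_lit 456) (nat_lit 0) (XT.lf (nat_lit 0) (nat_lit 4844057372) (nat_lit 608) (nat_lit 1301082790) (nat_lit 76) (nat_lit 3255953697) (nat_lit 246) (nat_lit 5) (nat_lit 254) (nat_lit 5) (nat_lit 247) (nat_lit 5) (nat_lit 453) (nat_lit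 368) (nat_lit 319)) (XT.lf (nat_lit 0) (nat_lit 5853095407) (nat_lit 456) (nat_lit 2501400269) (nat_lit 532) (nat_lit 1136588130) (nat_lit 240) (nat_lit 5) (nat_lit 246) (nat_lit 5) (nat_lit 247) (nat_lit 5) (nat_lit 454) (nat_lit 368) (nat_lit 318))))))) (XT.nd (nat_lit 780) (nat_lit 3116) (nat_lit 0) (XT.nd (nat_lit 390) (nat_lit 1824) (nat_lit 0) (XT.nd (nat_lit 156) (nat_lit 988) (nat_lit 0) (XT.nd (nat_lit 78) (nat_lit 456) (nat_lit 0) (XT.lf (nat_lit 0) (nat_lit 2319393397) (nat_lit 608) (nat_lit 6034879248) (nat_lit 76) (nat_lit 1228335964) (nat_lit 232) (nat_lit 5) (nat_lit 240) (nat_lit 5) (nat_lit 233) (nat_lit 5) (nat_lit 455) (nat_lit 368) (nat_lit 317)) (XT.lf (nat_lit 0) (nat_lit 1181297965) (nat_lit 456) (nat_lit 4655129561) (nat_lit 532) (nat_lit 3839243087) (nat_lit 226) (nat_lit 5) (nat_lit 232) (nat_lit 5) (nat_lit 233) (nat_lit 5) (nat_lit 456) (nat_lit 368) (nat_lit 316))) (XT.nd (nat_lit 78) (nat_lit 988) (nat_lit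 0) (XT.lf (nat_lit 0) (nat_lit 8563063651) (nat_lit 456) (nat_lit 859987777) (nat_lit 532) (nat_lit 347557448) (nat_lit 226) (nat_lit 5) (nat_lit 232) (nat_lit 5) (nat_lit 233) (nat_lit 5) (nat_lit 457) (nat_lit 368) (nat_lit 315)) (XT.nd (nat_lit 78) (nat_lit 456) (nat_lit 0) (XT.lf (nat_lit 0) (nat_lit 3191356919) (nat_lit 532) (nat_lit 3660953198) (nat_lit 76) (nat_lit 3014327508) (nat_lit 219) (nat_lit 5) (nat_lit 226) (nat_lit 5) (nat_lit 220) (nat_lit 5) (nat_lit 458) (nat_lit 368) (nat_lit 314)) (XT.lf (nat_lit 0) (nat_lit 3800738538) (nat_lit 456) (nat_lit 2993770755) (nat_lit 532) (nat_lit 3170069441) (nat_lit 213) (nat_lit 5) (nat_lit 219) (nat_lit 5) (nat_lit 220) (nat_lit 5) (nat_lit 459) (nat_lit 368) (nat_lit 313))))) (XT.nd (nat_lit 156) (nat_lit 1292) (nat_lit 0) (XT.nd (nat_lit 78) (nat_lit 0) (nat_lit 0) (XT.lf (nat_lit 0) (nat_lit 399382677) (nat_lit 532) (nat_lit 8718867564) (nat_lit 76) (nat_lit 946186770) (nat_lit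 206) (nat_lit 5) (nat_lit 213) (nat_lit 5) (nat_lit 207) (nat_lit 5) (nat_lit 460) (nat_lit 368) (nat_lit 312)) (XT.lf (nat_lit 0) (nat_lit 4019269159) (nat_lit 532) (nat_lit 1178430066) (nat_lit 76) (nat_lit 4967744295) (nat_lit 206) (nat_lit 5) (nat_lit 213) (nat_lit 5) (nat_lit 207) (nat_lit 5) (nat_lit 461) (nat_lit 368) (nat_lit 311))) (XT.nd (nat_lit 78) (nat_lit 912) (nat_lit 0) (XT.lf (nat_lit 0) (nat_lit 6539176137) (nat_lit 380) (nat_lit 1175608449) (nat_lit 456) (nat_lit 2553620948) (nat_lit 201) (nat_lit 5) (nat_lit 206) (nat_lit 5) (nat_lit 207) (nat_lit 5) (nat_lit 462) (nat_lit 368) (nat_lit 310)) (XT.nd (nat_lit 78) (nat_lit 380) (nat_lit 0) (XT.lf (nat_lit 0) (nat_lit 1110454581) (nat_lit 532) (nat_lit 6352495834) (nat_lit 76) (nat_lit 2910047352) (nat_lit 194) (nat_lit 5) (nat_lit 201) (nat_lit 5) (nat_lit 195) (nat_lit 5) (nat_lit 463) (nat_lit 368) (nat_lit 309)) (XT.lf (nat_lit 0) (nat_lit 1430717443) (nat_lit 380)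 (nat_lit 3386351958) (nat_lit 456) (nat_lit 5662205839) (nat_lit 189) (nat_lit 5) (nat_lit 194) (nat_lit 5) (nat_lit 195) (nat_lit 5) (nat_lit 464) (nat_lit 368) (nat_lit 308)))))) (XT.nd (nat_lit 390) (nat_lit 1824) (nat_lit 0) (XT.nd (nat_lit 156) (nat_lit 836) (nat_lit 0) (XT.nd (nat_lit 78) (nat_lit 456) (nat_lit 0) (XT.lf (nat_lit 0) (nat_lit 8607131946) (nat_lit 456) (nat_lit 1196435758) (nat_lit 76) (nat_lit 783924250) (nat_lit 189) (nat_lit 5) (nat_lit 195) (nat_lit 5) (nat_lit 190) (nat_lit 5) (nat_lit 465) (nat_lit 368) (nat_lit 307)) (XT.lf (nat_lit 0) (nat_lit 1780895524) (nat_lit 456) (nat_lit 3888096790) (nat_lit 76) (nat_lit 5028069106) (nat_lit 183) (nat_lit 5) (nat_lit 189) (nat_lit 5) (nat_lit 184) (nat_lit 5) (nat_lit 466) (nat_lit 368) (nat_lit 306))) (XT.nd (nat_lit 78) (nat_lit 456) (nat_lit 0) (XT.lf (nat_lit 0) (nat_lit 4164520578) (nat_lit 380) (nat_lit 1423749032) (nat_lit 456) (nat_lit 5220342652) (nat_lit 178)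 (nat_lit 5) (nat_lit 183) (nat_lit 5) (nat_lit 184) (nat_lit 5) (nat_lit 467) (nat_lit 368) (nat_lit 305)) (XT.nd (nat_lit 78) (nat_lit 76) (nat_lit 0) (XT.lf (nat_lit 0) (nat_lit 1449812613) (nat_lit 380) (nat_lit 8039012911) (nat_lit 456) (nat_lit 1433227911) (nat_lit 173) (nat_lit 5) (nat_lit 178) (nat_lit 5) (nat_lit 179) (nat_lit 5) (nat_lit 468) (nat_lit 368) (nat_lit 304)) (XT.lf (nat_lit 0) (nat_lit 2414668234) (nat_lit 456) (nat_lit 1326001946) (nat_lit 76) (nat_lit 7296439673) (nat_lit 172) (nat_lit 5) (nat_lit 178) (nat_lit 5) (nat_lit 173) (nat_lit 5) (nat_lit 469) (nat_lit 368) (nat_lit 303))))) (XT.nd (nat_lit 234) (nat_lit 760) (nat_lit 0) (XT.nd (nat_lit 78) (nat_lit 760) (nat_lit 0) (XT.lf (nat_lit 0) (nat_lit 6333578268) (nat_lit 380) (nat_lit 4151057070) (nat_lit 76) (nat_lit 669377651) (nat_lit 168) (nat_lit 5) (nat_lit 173) (nat_lit 5) (nat_lit 169) (nat_lit 5) (nat_lit 470) (nat_lit 368) (nat_lit 302)) (XT.nd (nat_lit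 78) (nat_lit 380) (nat_lit 0) (XT.lf (nat_lit 0) (nat_lit 4215515318) (nat_lit 380) (nat_lit 6139984101) (nat_lit 456) (nat_lit 917262110) (nat_lit 163) (nat_lit 5) (nat_lit 168) (nat_lit 5) (nat_lit 169) (nat_lit 5) (nat_lit 471) (nat_lit 368) (nat_lit 301)) (XT.lf (nat_lit 0) (nat_lit 1351577341) (nat_lit 304) (nat_lit 1672660418) (nat_lit 380) (nat_lit 8369240446) (nat_lit 158) (nat_lit 5) (nat_lit 162) (nat_lit 5) (nat_lit 163) (nat_lit 5) (nat_lit 472) (nat_lit 368) (nat_lit 300)))) (XT.nd (nat_lit 78) (nat_lit 760) (nat_lit 0) (XT.lf (nat_lit 0) (nat_lit 7062519394) (nat_lit 380) (nat_lit 1575159158) (nat_lit 76) (nat_lit 2878204725) (nat_lit 158) (nat_lit 5) (nat_lit 163) (nat_lit 5) (nat_lit 159) (nat_lit 5) (nat_lit 473) (nat_lit 368) (nat_lit 299)) (XT.nd (nat_lit 78) (nat_lit 380) (nat_lit 0) (XT.lf (nat_lit 0) (nat_lit 7085290334) (nat_lit 380) (nat_lit 4117891299) (nat_lit 456) (nat_lit 437122515) (nat_lit 153) (nat_lit 5)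 (nat_lit 158) (nat_lit 5) (nat_lit 159) (nat_lit 5) (nat_lit 474) (nat_lit 368) (nat_lit 298)) (XT.lf (nat_lit 0) (nat_lit 3617095563) (nat_lit 380) (nat_lit 7623871247) (nat_lit 76) (nat_lit 525658514) (nat_lit 148) (nat_lit 5) (nat_lit 153) (nat_lit 5) (nat_lit 149) (nat_lit 5) (nat_lit 475) (nat_lit 368) (nat_lit 297))))))))
noncomputable def xc70 : XT := (XT.nd (nat_lit 1560) (nat_lit 1976) (nat_lit 0) (XT.nd (nat_lit 780) (nat_lit 2280) (nat_lit 0) (XT.nd (nat_lit 390) (nat_lit 912) (nat_lit 0) (XT.nd (nat_lit 156) (nat_lit 988) (nat_lit 0) (XT.nd (nat_lit 78) (nat_lit 76) (nat_lit 0) (XT.lf (nat_lit 0) (nat_lit 1107775544) (nat_lit 304) (nat_lit 6668812903) (nat_lit 380) (nat_lit 4118225818) (nat_lit 144) (nat_lit 5) (nat_lit 148) (nat_lit 5) (nat_lit 149) (nat_lit 5) (nat_lit 476) (nat_lit 368) (nat_lit 296)) (XT.lf (nat_lit 0) (nat_lit 10178287) (nat_lit 380) (nat_lit 1965274714) (nat_lit 76) (nat_lit 10049786971) (nat_lit 143)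 (nat_lit 5) (nat_lit 148) (nat_lit 5) (nat_lit 144) (nat_lit 5) (nat_lit 477) (nat_lit 368) (nat_lit 295))) (XT.nd (nat_lit 78) (nat_lit 684) (nat_lit 0) (XT.lf (nat_lit 0) (nat_lit 4195951305) (nat_lit 380) (nat_lit 5134795814) (nat_lit 76) (nat_lit 2826383767) (nat_lit 139) (nat_lit 5) (nat_lit 144) (nat_lit 5) (nat_lit 140) (nat_lit 5) (nat_lit 478) (nat_lit 368) (nat_lit 294)) (XT.nd (nat_lit 78) (nat_lit 380) (nat_lit 0) (XT.lf (nat_lit 0) (nat_lit 3906138062) (nat_lit 304) (nat_lit 4576766646) (nat_lit 380) (nat_lit 3808405613) (nat_lit 135) (nat_lit 5) (nat_lit 139) (nat_lit 5) (nat_lit 140) (nat_lit 5) (nat_lit 479) (nat_lit 368) (nat_lit 293)) (XT.lf (nat_lit 0) (nat_lit 428899946) (nat_lit 380) (nat_lit 11710413208) (nat_lit 76) (nat_lit 288663051) (nat_lit 130) (nat_lit 5) (nat_lit 135) (nat_lit 5) (nat_lit 131) (nat_lit 5) (nat_lit 480) (nat_lit 368) (nat_lit 292))))) (XT.nd (nat_lit 156) (nat_lit 608) (nat_lit 0) (XT.nd (nat_lit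 78) (nat_lit 304) (nat_lit 0) (XT.lf (nat_lit 0) (nat_lit 4752937354) (nat_lit 380) (nat_lit 2563235776) (nat_lit 76) (nat_lit 5249639200) (nat_lit 130) (nat_lit 5) (nat_lit 135) (nat_lit 5) (nat_lit 131) (nat_lit 5) (nat_lit 481) (nat_lit 368) (nat_lit 291)) (XT.lf (nat_lit 0) (nat_lit 6800090852) (nat_lit 304) (nat_lit 2374163735) (nat_lit 380) (nat_lit 3531934608) (nat_lit 126) (nat_lit 5) (nat_lit 130) (nat_lit 5) (nat_lit 131) (nat_lit 5) (nat_lit 482) (nat_lit 368) (nat_lit 290))) (XT.nd (nat_lit 78) (nat_lit 304) (nat_lit 0) (XT.lf (nat_lit 0) (nat_lit 848043816) (nat_lit 304) (nat_lit 9345602600) (nat_lit 76) (nat_lit 2655131493) (nat_lit 122) (nat_lit 5) (nat_lit 126) (nat_lit 5) (nat_lit 123) (nat_lit 5) (nat_lit 483) (nat_lit 368) (nat_lit 289)) (XT.nd (nat_lit 78) (nat_lit 0) (nat_lit 0) (XT.lf (nat_lit 0) (nat_lit 92913967) (nat_lit 304) (nat_lit 5198547081) (nat_lit 380) (nat_lit 7701827790) (nat_lit 118) (nat_lit 5) (nat_lit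 122) (nat_lit 5) (nat_lit 123) (nat_lit 5) (nat_lit 484) (nat_lit 368) (nat_lit 288)) (XT.lf (nat_lit 0) (nat_lit 9791056353) (nat_lit 304) (nat_lit 62557346) (nat_lit 380) (nat_lit 3286478946) (nat_lit 118) (nat_lit 5) (nat_lit 122) (nat_lit 5) (nat_lit 123) (nat_lit 5) (nat_lit 485) (nat_lit 368) (nat_lit 287)))))) (XT.nd (nat_lit 390) (nat_lit 1064) (nat_lit 0) (XT.nd (nat_lit 156) (nat_lit 608) (nat_lit 0) (XT.nd (nat_lit 78) (nat_lit 304) (nat_lit 0) (XT.lf (nat_lit 0) (nat_lit 1244231274) (nat_lit 304) (nat_lit 6908887890) (nat_lit 76) (nat_lit 5135694951) (nat_lit 114) (nat_lit 5) (nat_lit 118) (nat_lit 5) (nat_lit 115) (nat_lit 5) (nat_lit 486) (nat_lit 368) (nat_lit 286)) (XT.lf (nat_lit 0) (nat_lit 2868806117) (nat_lit 304) (nat_lit 2962164492) (nat_lit 380) (nat_lit 7608916516) (nat_lit 110) (nat_lit 5) (nat_lit 114) (nat_lit 5) (nat_lit 115) (nat_lit 5) (nat_lit 487) (nat_lit 368) (nat_lit 285))) (XT.nd (nat_lit 78) (nat_lit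 608) (nat_lit 0) (XT.lf (nat_lit 0) (nat_lit 10539103019) (nat_lit 380) (nat_lit 728223379) (nat_lit 76) (nat_lit 2326062031) (nat_lit 110) (nat_lit 5) (nat_lit 115) (nat_lit 5) (nat_lit 111) (nat_lit 5) (nat_lit 488) (nat_lit 368) (nat_lit 284)) (XT.nd (nat_lit 78) (nat_lit 304) (nat_lit 0) (XT.lf (nat_lit 0) (nat_lit 1619754825) (nat_lit 304) (nat_lit 4399338526) (nat_lit 76) (nat_lit 7729675986) (nat_lit 106) (nat_lit 5) (nat_lit 110) (nat_lit 5) (nat_lit 107) (nat_lit 5) (nat_lit 489) (nat_lit 368) (nat_lit 283)) (XT.lf (nat_lit 0) (nat_lit 5731867376) (nat_lit 304) (nat_lit 625219361) (nat_lit 380) (nat_lit 7549553194) (nat_lit 102) (nat_lit 5) (nat_lit 106) (nat_lit 5) (nat_lit 107) (nat_lit 5) (nat_lit 490) (nat_lit 368) (nat_lit 282))))) (XT.nd (nat_lit 156) (nat_lit 760) (nat_lit 0) (XT.nd (nat_lit 78) (nat_lit 76) (nat_lit 0) (XT.lf (nat_lit 0) (nat_lit 1998087478) (nat_lit 228) (nat_lit 9234082901) (nat_lit 304) (nat_lit 2834637455)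 (nat_lit 99) (nat_lit 5) (nat_lit 102) (nat_lit 5) (nat_lit 103) (nat_lit 5) (nat_lit 491) (nat_lit 368) (nat_lit 281)) (XT.lf (nat_lit 0) (nat_lit 1976750804) (nat_lit 304) (nat_lit 1815761999) (nat_lit 76) (nat_lit 10436848464) (nat_lit 98) (nat_lit 5) (nat_lit 102) (nat_lit 5) (nat_lit 99) (nat_lit 5) (nat_lit 492) (nat_lit 368) (nat_lit 280))) (XT.nd (nat_lit 78) (nat_lit 532) (nat_lit 0) (XT.lf (nat_lit 0) (nat_lit 6883914672) (nat_lit 304) (nat_lit 5722167309) (nat_lit 76) (nat_lit 1787958978) (nat_lit 95) (nat_lit 5) (nat_lit 99) (nat_lit 5) (nat_lit 96) (nat_lit 5) (nat_lit 493) (nat_lit 368) (nat_lit 279)) (XT.nd (nat_lit 78) (nat_lit 304) (nat_lit 0) (XT.lf (nat_lit 0) (nat_lit 4816466076) (nat_lit 228) (nat_lit 7110841468) (nat_lit 304) (nat_lit 2633944984) (nat_lit 92) (nat_lit 5) (nat_lit 95) (nat_lit 5) (nat_lit 96) (nat_lit 5) (nat_lit 494) (nat_lit 368) (nat_lit 278)) (XT.lf (nat_lit 0) (nat_lit 854495058) (nat_lit 228)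 (nat_lit 1468264979) (nat_lit 304) (nat_lit 12408470739) (nat_lit 88) (nat_lit 5) (nat_lit 91) (nat_lit 5) (nat_lit 92) (nat_lit 5) (nat_lit 495) (nat_lit 368) (nat_lit 277))))))) (XT.nd (nat_lit 780) (nat_lit 304) (nat_lit 0) (XT.nd (nat_lit 390) (nat_lit 912) (nat_lit 0) (XT.nd (nat_lit 156) (nat_lit 532) (nat_lit 0) (XT.nd (nat_lit 78) (nat_lit 228) (nat_lit 0) (XT.lf (nat_lit 0) (nat_lit 7406612438) (nat_lit 304) (nat_lit 3204922945) (nat_lit 76) (nat_lit 4291459360) (nat_lit 88) (nat_lit 5) (nat_lit 92) (nat_lit 5) (nat_lit 89) (nat_lit 5) (nat_lit 496) (nat_lit 368) (nat_lit 276)) (XT.lf (nat_lit 0) (nat_lit 7719128428) (nat_lit 228) (nat_lit 4903039104) (nat_lit 304) (nat_lit 2455425946) (nat_lit 85) (nat_lit 5) (nat_lit 88) (nat_lit 5) (nat_lit 89) (nat_lit 5) (nat_lit 497) (nat_lit 368) (nat_lit 275))) (XT.nd (nat_lit 78) (nat_lit 228) (nat_lit 0) (XT.lf (nat_lit 0) (nat_lit 2672785614) (nat_lit 304) (nat_lit 11634187593) (nat_lit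 76) (nat_lit 947928787) (nat_lit 81) (nat_lit 5) (nat_lit 85) (nat_lit 5) (nat_lit 82) (nat_lit 5) (nat_lit 498) (nat_lit 368) (nat_lit 274)) (XT.nd (nat_lit 78) (nat_lit 228) (nat_lit 0) (XT.lf (nat_lit 0) (nat_lit 7923218507) (nat_lit 304) (nat_lit 617459642) (nat_lit 76) (nat_lit 6893703220) (nat_lit 81) (nat_lit 5) (nat_lit 85) (nat_lit 5) (nat_lit 82) (nat_lit 5) (nat_lit 499) (nat_lit 368) (nat_lit 273)) (XT.lf (nat_lit 0) (nat_lit 10708224186) (nat_lit 228) (nat_lit 2610870445) (nat_lit 304) (nat_lit 2297547009) (nat_lit 78) (nat_lit 5) (nat_lit 81) (nat_lit 5) (nat_lit 82) (nat_lit 5) (nat_lit 500) (nat_lit 368) (nat_lit 272))))) (XT.nd (nat_lit 156) (nat_lit 456) (nat_lit 0) (XT.nd (nat_lit 78) (nat_lit 152) (nat_lit 0) (XT.lf (nat_lit 0) (nat_lit 3020532447) (nat_lit 304) (nat_lit 9344608085) (nat_lit 76) (nat_lit 3436218312) (nat_lit 74) (nat_lit 5) (nat_lit 78) (nat_lit 5) (nat_lit 75) (nat_lit 5) (nat_lit 501) (nat_lit 368)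 (nat_lit 271)) (XT.lf (nat_lit 0) (nat_lit 2069106515) (nat_lit 152) (nat_lit 6380054613) (nat_lit 228) (nat_lit 7539606491) (nat_lit 72) (nat_lit 5) (nat_lit 74) (nat_lit 5) (nat_lit 75) (nat_lit 5) (nat_lit 502) (nat_lit 368) (nat_lit 270))) (XT.nd (nat_lit 78) (nat_lit 456) (nat_lit 0) (XT.lf (nat_lit 0) (nat_lit 13786154241) (nat_lit 152) (nat_lit 234190387) (nat_lit 228) (nat_lit 2158900299) (nat_lit 72) (nat_lit 5) (nat_lit 74) (nat_lit 5) (nat_lit 75) (nat_lit 5) (nat_lit 503) (nat_lit 368) (nat_lit 269)) (XT.nd (nat_lit 78) (nat_lit 152) (nat_lit 0) (XT.lf (nat_lit 0) (nat_lit 3358115214) (nat_lit 304) (nat_lit 6997127646) (nat_lit 76) (nat_lit 6016409360) (nat_lit 68) (nat_lit 5) (nat_lit 72) (nat_lit 5) (nat_lit 69) (nat_lit 5) (nat_lit 504) (nat_lit 368) (nat_lit 268)) (XT.lf (nat_lit 0) (nat_lit 4838796253) (nat_lit 152) (nat_lit 4138659586) (nat_lit 228) (nat_lit 7589748565) (nat_lit 66) (nat_lit 5) (nat_lit 68) (nat_lit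 5) (nat_lit 69) (nat_lit 5) (nat_lit 505) (nat_lit 368) (nat_lit 267)))))) (XT.nd (nat_lit 51480) (nat_lit 0) (nat_lit 42940) (XT.nd (nat_lit 51246) (nat_lit 0) (nat_lit 48184) (XT.nd (nat_lit 78) (nat_lit 76) (nat_lit 0) (XT.lf (nat_lit 0) (nat_lit 177138585) (nat_lit 228) (nat_lit 14566568986) (nat_lit 304) (nat_lit 2022269575) (nat_lit 63) (nat_lit 5) (nat_lit 66) (nat_lit 5) (nat_lit 67) (nat_lit 5) (nat_lit 506) (nat_lit 368) (nat_lit 266)) (XT.lf (nat_lit 0) (nat_lit 3687083962) (nat_lit 304) (nat_lit 4590214591) (nat_lit 76) (nat_lit 8689382344) (nat_lit 62) (nat_lit 5) (nat_lit 66) (nat_lit 5) (nat_lit 63) (nat_lit 5) (nat_lit 507) (nat_lit 368) (nat_lit 265))) (XT.nd (nat_lit 78) (nat_lit 2128) (nat_lit 0) (XT.lf (nat_lit 0) (nat_lit 1276950119) (nat_lit 988) (nat_lit 781826217) (nat_lit 0) (nat_lit 1276950119) (nat_lit 724) (nat_lit 5) (nat_lit 737) (nat_lit 4) (nat_lit 724) (nat_lit 4) (nat_lit 402) (nat_lit 369) (nat_lit 369))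 (XT.nd (nat_lit 78) (nat_lit 1140) (nat_lit 0) (XT.lf (nat_lit 0) (nat_lit 2853153379) (nat_lit 988) (nat_lit 3047587489) (nat_lit 988) (nat_lit 792216276) (nat_lit 711) (nat_lit 4) (nat_lit 724) (nat_lit 5) (nat_lit 724) (nat_lit 4) (nat_lit 403) (nat_lit 369) (nat_lit 368)) (XT.lf (nat_lit 0) (nat_lit 596477411) (nat_lit 1064) (nat_lit 1909956684) (nat_lit 1140) (nat_lit 4209301762) (nat_lit 696) (nat_lit 5) (nat_lit 710) (nat_lit 5) (nat_lit 711) (nat_lit 4) (nat_lit 404) (nat_lit 369) (nat_lit 367))))) (XT.nd (nat_lit 234) (nat_lit 2812) (nat_lit 0) (XT.nd (nat_lit 78) (nat_lit 2432) (nat_lit 0) (XT.lf (nat_lit 0) (nat_lit 5109400162) (nat_lit 1064) (nat_lit 704318661) (nat_lit 1140) (nat_lit 926081205) (nat_lit 696) (nat_lit 5) (nat_lit 710) (nat_lit 5) (nat_lit 711) (nat_lit 4) (nat_lit 405) (nat_lit 369) (nat_lit 366)) (XT.nd (nat_lit 78) (nat_lit 1216) (nat_lit 0) (XT.lf (nat_lit 0) (nat_lit 2342137204) (nat_lit 1216) (nat_lit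 3856724541) (nat_lit 76) (nat_lit 566146951) (nat_lit 680) (nat_lit 5) (nat_lit 696) (nat_lit 5) (nat_lit 681) (nat_lit 4) (nat_lit 406) (nat_lit 369) (nat_lit 365)) (XT.lf (nat_lit 0) (nat_lit 708037225) (nat_lit 1216) (nat_lit 4905149960) (nat_lit 1292) (nat_lit 1178414575) (nat_lit 664) (nat_lit 5) (nat_lit 680) (nat_lit 5) (nat_lit 681) (nat_lit 4) (nat_lit 407) (nat_lit 369) (nat_lit 364)))) (XT.nd (nat_lit 78) (nat_lit 2736) (nat_lit 0) (XT.lf (nat_lit 0) (nat_lit 2059152931) (nat_lit 1292) (nat_lit 1476097210) (nat_lit 76) (nat_lit 3284076455) (nat_lit 663) (nat_lit 5) (nat_lit 680) (nat_lit 5) (nat_lit 664) (nat_lit 5) (nat_lit 408) (nat_lit 369) (nat_lit 363)) (XT.nd (nat_lit 78) (nat_lit 1444) (nat_lit 0) (XT.lf (nat_lit 0) (nat_lit 3198592503) (nat_lit 1292) (nat_lit 2099369660) (nat_lit 1368) (nat_lit 1550442595) (nat_lit 646) (nat_lit 5) (nat_lit 663) (nat_lit 5) (nat_lit 664) (nat_lit 5) (nat_lit 409) (nat_lit 369) (nat_lit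 362)) (XT.lf (nat_lit 0) (nat_lit 1051870376) (nat_lit 1368) (nat_lit 597811584) (nat_lit 1444) (nat_lit 5229182667) (nat_lit 627) (nat_lit 5) (nat_lit 645) (nat_lit 5) (nat_lit 646) (nat_lit 5) (nat_lit 410) (nat_lit 369) (nat_lit 361))))))))
noncomputable def xc71 : XT := (XT.nd (nat_lit 1638) (nat_lit 10032) (nat_lit 0) (XT.nd (nat_lit 780) (nat_lit 7144) (nat_lit 0) (XT.nd (nat_lit 390) (nat_lit 6536) (nat_lit 0) (XT.nd (nat_lit 156) (nat_lit 3192) (nat_lit 0) (XT.nd (nat_lit 78) (nat_lit 1520) (nat_lit 0) (XT.lf (nat_lit 0) (nat_lit 4856787218) (nat_lit 1444) (nat_lit 1089463718) (nat_lit 76) (nat_lit 964203019) (nat_lit 627) (nat_lit 5) (nat_lit 646) (nat_lit 5) (nat_lit 628) (nat_lit 5) (nat_lit 411) (nat_lit 369) (nat_lit 360)) (XT.lf (nat_lit 0) (nat_lit 1132046668) (nat_lit 1520) (nat_lit 3222516591) (nat_lit 76) (nat_lit 2588713219) (nat_lit 607) (nat_lit 5) (nat_lit 627) (nat_lit 5) (nat_lit 608) (nat_lit 5) (nat_lit 412)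 (nat_lit 369) (nat_lit 359))) (XT.nd (nat_lit 78) (nat_lit 1672) (nat_lit 0) (XT.lf (nat_lit 0) (nat_lit 1612976565) (nat_lit 1520) (nat_lit 2693648332) (nat_lit 1596) (nat_lit 2670806077) (nat_lit 587) (nat_lit 5) (nat_lit 607) (nat_lit 5) (nat_lit 608) (nat_lit 5) (nat_lit 413) (nat_lit 369) (nat_lit 358)) (XT.nd (nat_lit 78) (nat_lit 1596) (nat_lit 0) (XT.lf (nat_lit 0) (nat_lit 482469366) (nat_lit 1596) (nat_lit 486916713) (nat_lit 76) (nat_lit 6043672822) (nat_lit 586) (nat_lit 5) (nat_lit 607) (nat_lit 5) (nat_lit 587) (nat_lit 5) (nat_lit 414) (nat_lit 369) (nat_lit 357)) (XT.lf (nat_lit 0) (nat_lit 3634093486) (nat_lit 1672) (nat_lit 2585247614) (nat_lit 76) (nat_lit 830284301) (nat_lit 565) (nat_lit 5) (nat_lit 587) (nat_lit 5) (nat_lit 566) (nat_lit 5) (nat_lit 415) (nat_lit 369) (nat_lit 356))))) (XT.nd (nat_lit 156) (nat_lit 3040) (nat_lit 0) (XT.nd (nat_lit 78) (nat_lit 1824) (nat_lit 0) (XT.lf (nat_lit 0) (nat_lit 2399421052)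 (nat_lit 1672) (nat_lit 4412032022) (nat_lit 1748) (nat_lit 276216096) (nat_lit 543) (nat_lit 5) (nat_lit 565) (nat_lit 5) (nat_lit 566) (nat_lit 5) (nat_lit 416) (nat_lit 369) (nat_lit 355)) (XT.lf (nat_lit 0) (nat_lit 317271448) (nat_lit 1748) (nat_lit 2527610680) (nat_lit 1824) (nat_lit 4282064359) (nat_lit 519) (nat_lit 5) (nat_lit 542) (nat_lit 5) (nat_lit 543) (nat_lit 5) (nat_lit 417) (nat_lit 369) (nat_lit 354))) (XT.nd (nat_lit 78) (nat_lit 3040) (nat_lit 0) (XT.lf (nat_lit 0) (nat_lit 5424518275) (nat_lit 1748) (nat_lit 570312578) (nat_lit 1824) (nat_lit 1172739441) (nat_lit 519) (nat_lit 5) (nat_lit 542) (nat_lit 5) (nat_lit 543) (nat_lit 5) (nat_lit 418) (nat_lit 369) (nat_lit 353)) (XT.nd (nat_lit 78) (nat_lit 1140) (nat_lit 0) (XT.lf (nat_lit 0) (nat_lit 1943587795) (nat_lit 1900) (nat_lit 3822243956) (nat_lit 76) (nat_lit 1443494677) (nat_lit 494) (nat_lit 5) (nat_lit 519) (nat_lit 5) (nat_lit 495) (nat_lit 5) (nat_lit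 419) (nat_lit 369) (nat_lit 352)) (XT.lf (nat_lit 0) (nat_lit 1337169322) (nat_lit 1140) (nat_lit 3733900436) (nat_lit 1216) (nat_lit 2181402266) (nat_lit 479) (nat_lit 5) (nat_lit 494) (nat_lit 5) (nat_lit 495) (nat_lit 5) (nat_lit 420) (nat_lit 369) (nat_lit 351)))))) (XT.nd (nat_lit 390) (nat_lit 4332) (nat_lit 0) (XT.nd (nat_lit 156) (nat_lit 1824) (nat_lit 0) (XT.nd (nat_lit 78) (nat_lit 912) (nat_lit 0) (XT.lf (nat_lit 0) (nat_lit 918462634) (nat_lit 1216) (nat_lit 711718772) (nat_lit 76) (nat_lit 5666844009) (nat_lit 478) (nat_lit 5) (nat_lit 494) (nat_lit 5) (nat_lit 479) (nat_lit 5) (nat_lit 421) (nat_lit 369) (nat_lit 350)) (XT.lf (nat_lit 0) (nat_lit 4026359199) (nat_lit 988) (nat_lit 2764503655) (nat_lit 76) (nat_lit 551813771) (nat_lit 466) (nat_lit 5) (nat_lit 479) (nat_lit 5) (nat_lit 467) (nat_lit 5) (nat_lit 422) (nat_lit 369) (nat_lit 349))) (XT.nd (nat_lit 78) (nat_lit 912) (nat_lit 0) (XT.lf (nat_lit 0) (nat_lit 2556618090)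 (nat_lit 912) (nat_lit 4614578479) (nat_lit 988) (nat_lit 218548632) (nat_lit 454) (nat_lit 5) (nat_lit 466) (nat_lit 5) (nat_lit 467) (nat_lit 5) (nat_lit 423) (nat_lit 369) (nat_lit 348)) (XT.nd (nat_lit 78) (nat_lit 0) (nat_lit 0) (XT.lf (nat_lit 0) (nat_lit 510923435) (nat_lit 836) (nat_lit 2356610109) (nat_lit 912) (nat_lit 4570541042) (nat_lit 442) (nat_lit 5) (nat_lit 453) (nat_lit 5) (nat_lit 454) (nat_lit 5) (nat_lit 424) (nat_lit 369) (nat_lit 347)) (XT.lf (nat_lit 0) (nat_lit 5965492575) (nat_lit 836) (nat_lit 23011721) (nat_lit 912) (nat_lit 1499315506) (nat_lit 442) (nat_lit 5) (nat_lit 453) (nat_lit 5) (nat_lit 454) (nat_lit 5) (nat_lit 425) (nat_lit 369) (nat_lit 346))))) (XT.nd (nat_lit 234) (nat_lit 2432) (nat_lit 0) (XT.nd (nat_lit 78) (nat_lit 912) (nat_lit 0) (XT.lf (nat_lit 0) (nat_lit 1597626297) (nat_lit 988) (nat_lit 3582342362) (nat_lit 76) (nat_lit 2358664904) (nat_lit 429) (nat_lit 5) (nat_lit 442) (nat_lit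 5) (nat_lit 430) (nat_lit 5) (nat_lit 426) (nat_lit 369) (nat_lit 345)) (XT.nd (nat_lit 78) (nat_lit 76) (nat_lit 0) (XT.lf (nat_lit 0) (nat_lit 1929375696) (nat_lit 836) (nat_lit 2775115624) (nat_lit 912) (nat_lit 2886412866) (nat_lit 418) (nat_lit 5) (nat_lit 429) (nat_lit 5) (nat_lit 430) (nat_lit 5) (nat_lit 427) (nat_lit 369) (nat_lit 344)) (XT.lf (nat_lit 0) (nat_lit 195870662) (nat_lit 912) (nat_lit 106463504) (nat_lit 76) (nat_lit 7342464200) (nat_lit 417) (nat_lit 5) (nat_lit 429) (nat_lit 5) (nat_lit 418) (nat_lit 5) (nat_lit 428) (nat_lit 369) (nat_lit 343)))) (XT.nd (nat_lit 78) (nat_lit 1596) (nat_lit 0) (XT.lf (nat_lit 0) (nat_lit 3298458941) (nat_lit 912) (nat_lit 2160819311) (nat_lit 76) (nat_lit 2240164428) (nat_lit 406) (nat_lit 5) (nat_lit 418) (nat_lit 5) (nat_lit 407) (nat_lit 5) (nat_lit 429) (nat_lit 369) (nat_lit 342)) (XT.nd (nat_lit 78) (nat_lit 836) (nat_lit 0) (XT.lf (nat_lit 0) (nat_lit 3526746201) (nat_lit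 760) (nat_lit 2909069889) (nat_lit 836) (nat_lit 1319909450) (nat_lit 396) (nat_lit 5) (nat_lit 406) (nat_lit 5) (nat_lit 407) (nat_lit 5) (nat_lit 430) (nat_lit 369) (nat_lit 341)) (XT.lf (nat_lit 0) (nat_lit 1491447257) (nat_lit 760) (nat_lit 279112112) (nat_lit 836) (nat_lit 6042904411) (nat_lit 385) (nat_lit 5) (nat_lit 395) (nat_lit 5) (nat_lit 396) (nat_lit 5) (nat_lit 431) (nat_lit 369) (nat_lit 340))))))) (XT.nd (nat_lit 780) (nat_lit 4864) (nat_lit 0) (XT.nd (nat_lit 390) (nat_lit 2812) (nat_lit 0) (XT.nd (nat_lit 156) (nat_lit 1520) (nat_lit 0) (XT.nd (nat_lit 78) (nat_lit 836) (nat_lit 0) (XT.lf (nat_lit 0) (nat_lit 4897337185) (nat_lit 836) (nat_lit 573993558) (nat_lit 76) (nat_lit 2401008084) (nat_lit 385) (nat_lit 5) (nat_lit 396) (nat_lit 5) (nat_lit 386) (nat_lit 5) (nat_lit 432) (nat_lit 369) (nat_lit 339)) (XT.lf (nat_lit 0) (nat_lit 137380529) (nat_lit 836) (nat_lit 2637060282) (nat_lit 76) (nat_lit 5158227642) (nat_lit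 374) (nat_lit 5) (nat_lit 385) (nat_lit 5) (nat_lit 375) (nat_lit 5) (nat_lit 433) (nat_lit 369) (nat_lit 338))) (XT.nd (nat_lit 78) (nat_lit 760) (nat_lit 0) (XT.lf (nat_lit 0) (nat_lit 3246612989) (nat_lit 836) (nat_lit 4735491019) (nat_lit 76) (nat_lit 12218610) (nat_lit 364) (nat_lit 5) (nat_lit 375) (nat_lit 5) (nat_lit 365) (nat_lit 5) (nat_lit 434) (nat_lit 369) (nat_lit 337)) (XT.nd (nat_lit 78) (nat_lit 76) (nat_lit 0) (XT.lf (nat_lit 0) (nat_lit 1187721345) (nat_lit 684) (nat_lit 5224032433) (nat_lit 760) (nat_lit 1645581617) (nat_lit 355) (nat_lit 5) (nat_lit 364) (nat_lit 5) (nat_lit 365) (nat_lit 5) (nat_lit 435) (nat_lit 369) (nat_lit 336)) (XT.lf (nat_lit 0) (nat_lit 1480748316) (nat_lit 760) (nat_lit 898613178) (nat_lit 76) (nat_lit 5742408221) (nat_lit 354) (nat_lit 5) (nat_lit 364) (nat_lit 5) (nat_lit 355) (nat_lit 5) (nat_lit 436) (nat_lit 369) (nat_lit 335))))) (XT.nd (nat_lit 156) (nat_lit 1444) (nat_lit 0) (XT.nd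 (nat_lit 78) (nat_lit 684) (nat_lit 0) (XT.lf (nat_lit 0) (nat_lit 4635962265) (nat_lit 760) (nat_lit 3002189014) (nat_lit 76) (nat_lit 549356059) (nat_lit 345) (nat_lit 5) (nat_lit 355) (nat_lit 5) (nat_lit 346) (nat_lit 5) (nat_lit 437) (nat_lit 369) (nat_lit 334)) (XT.lf (nat_lit 0) (nat_lit 3113243989) (nat_lit 684) (nat_lit 4734643720) (nat_lit 760) (nat_lit 406799863) (nat_lit 336) (nat_lit 5) (nat_lit 345) (nat_lit 5) (nat_lit 346) (nat_lit 5) (nat_lit 438) (nat_lit 369) (nat_lit 333))) (XT.nd (nat_lit 78) (nat_lit 684) (nat_lit 0) (XT.lf (nat_lit 0) (nat_lit 1003006486) (nat_lit 684) (nat_lit 1739701289) (nat_lit 760) (nat_lit 5580567913) (nat_lit 326) (nat_lit 5) (nat_lit 335) (nat_lit 5) (nat_lit 336) (nat_lit 5) (nat_lit 439) (nat_lit 369) (nat_lit 332)) (XT.nd (nat_lit 78) (nat_lit 684) (nat_lit 0) (XT.lf (nat_lit 0) (nat_lit 5945312986) (nat_lit 760) (nat_lit 1125141224) (nat_lit 76) (nat_lit 1322816491) (nat_lit 326) (nat_lit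 5) (nat_lit 336) (nat_lit 5) (nat_lit 327) (nat_lit 5) (nat_lit 440) (nat_lit 369) (nat_lit 331)) (XT.lf (nat_lit 0) (nat_lit 735930475) (nat_lit 684) (nat_lit 3279070582) (nat_lit 76) (nat_lit 4449598979) (nat_lit 317) (nat_lit 5) (nat_lit 326) (nat_lit 5) (nat_lit 318) (nat_lit 5) (nat_lit 441) (nat_lit 369) (nat_lit 330)))))) (XT.nd (nat_lit 390) (nat_lit 2432) (nat_lit 0) (XT.nd (nat_lit 156) (nat_lit 1216) (nat_lit 0) (XT.nd (nat_lit 78) (nat_lit 608) (nat_lit 0) (XT.lf (nat_lit 0) (nat_lit 3064187622) (nat_lit 608) (nat_lit 867496527) (nat_lit 684) (nat_lit 4605728873) (nat_lit 309) (nat_lit 5) (nat_lit 317) (nat_lit 5) (nat_lit 318) (nat_lit 5) (nat_lit 442) (nat_lit 369) (nat_lit 329)) (XT.lf (nat_lit 0) (nat_lit 903374062) (nat_lit 608) (nat_lit 6285081667) (nat_lit 684) (nat_lit 1423284481) (nat_lit 301) (nat_lit 5) (nat_lit 309) (nat_lit 5) (nat_lit 310) (nat_lit 5) (nat_lit 443) (nat_lit 369) (nat_lit 328))) (XT.nd (nat_lit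 78) (nat_lit 1140) (nat_lit 0) (XT.lf (nat_lit 0) (nat_lit 1795705536) (nat_lit 684) (nat_lit 1283790800) (nat_lit 76) (nat_lit 5607884844) (nat_lit 300) (nat_lit 5) (nat_lit 309) (nat_lit 5) (nat_lit 301) (nat_lit 5) (nat_lit 444) (nat_lit 369) (nat_lit 327)) (XT.nd (nat_lit 78) (nat_lit 532) (nat_lit 0) (XT.lf (nat_lit 0) (nat_lit 5050663074) (nat_lit 684) (nat_lit 3496684889) (nat_lit 76) (nat_lit 217185939) (nat_lit 292) (nat_lit 5) (nat_lit 301) (nat_lit 5) (nat_lit 293) (nat_lit 5) (nat_lit 445) (nat_lit 369) (nat_lit 326)) (XT.lf (nat_lit 0) (nat_lit 3084819345) (nat_lit 532) (nat_lit 5290384214) (nat_lit 608) (nat_lit 467936442) (nat_lit 285) (nat_lit 5) (nat_lit 292) (nat_lit 5) (nat_lit 293) (nat_lit 5) (nat_lit 446) (nat_lit 369) (nat_lit 325))))) (XT.nd (nat_lit 234) (nat_lit 1140) (nat_lit 0) (XT.nd (nat_lit 78) (nat_lit 608) (nat_lit 0) (XT.lf (nat_lit 0) (nat_lit 854852178) (nat_lit 608) (nat_lit 1935533642) (nat_lit 684)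 (nat_lit 6132868150) (nat_lit 276) (nat_lit 5) (nat_lit 284) (nat_lit 5) (nat_lit 285) (nat_lit 5) (nat_lit 447) (nat_lit 369) (nat_lit 324)) (XT.nd (nat_lit 78) (nat_lit 608) (nat_lit 0) (XT.lf (nat_lit 0) (nat_lit 6112125996) (nat_lit 684) (nat_lit 1399486991) (nat_lit 76) (nat_lit 1493205027) (nat_lit 276) (nat_lit 5) (nat_lit 285) (nat_lit 5) (nat_lit 277) (nat_lit 5) (nat_lit 448) (nat_lit 369) (nat_lit 323)) (XT.lf (nat_lit 0) (nat_lit 411625825) (nat_lit 608) (nat_lit 3689238164) (nat_lit 76) (nat_lit 4987000905) (nat_lit 268) (nat_lit 5) (nat_lit 276) (nat_lit 5) (nat_lit 269) (nat_lit 5) (nat_lit 449) (nat_lit 369) (nat_lit 322)))) (XT.nd (nat_lit 78) (nat_lit 608) (nat_lit 0) (XT.lf (nat_lit 0) (nat_lit 3141652966) (nat_lit 532) (nat_lit 588538306) (nat_lit 608) (nat_lit 5442261139) (nat_lit 261) (nat_lit 5) (nat_lit 268) (nat_lit 5) (nat_lit 269) (nat_lit 5) (nat_lit 450) (nat_lit 369) (nat_lit 321)) (XT.nd (nat_lit 78) (nat_lit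 76) (nat_lit 0) (XT.lf (nat_lit 0) (nat_lit 832276606) (nat_lit 532) (nat_lit 6289972127) (nat_lit 608) (nat_lit 2136340530) (nat_lit 254) (nat_lit 5) (nat_lit 261) (nat_lit 5) (nat_lit 262) (nat_lit 5) (nat_lit 451) (nat_lit 369) (nat_lit 320)) (XT.lf (nat_lit 0) (nat_lit 1221654523) (nat_lit 608) (nat_lit 1503604317) (nat_lit 76) (nat_lit 6620986304) (nat_lit 253) (nat_lit 5) (nat_lit 261) (nat_lit 5) (nat_lit 254) (nat_lit 5) (nat_lit 452) (nat_lit 369) (nat_lit 319))))))))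
noncomputable def xc72 : XT := (XT.nd (nat_lit 1560) (nat_lit 5092) (nat_lit 0) (XT.nd (nat_lit 780) (nat_lit 2964) (nat_lit 0) (XT.nd (nat_lit 390) (nat_lit 1900) (nat_lit 0) (XT.nd (nat_lit 156) (nat_lit 1064) (nat_lit 0) (XT.nd (nat_lit 78) (nat_lit 456) (nat_lit 0) (XT.lf (nat_lit 0) (nat_lit 4618805692) (nat_lit 608) (nat_lit 3884280353) (nat_lit 76) (nat_lit 932273636) (nat_lit 246) (nat_lit 5) (nat_lit 254) (nat_lit 5) (nat_lit 247) (nat_lit 5) (nat_lit 453) (nat_lit 369) (nat_lit 318)) (XT.lf (nat_lit 0) (nat_lit 3205830101) (nat_lit 456) (nat_lit 4885772234) (nat_lit 532) (nat_lit 1434500125) (nat_lit 240) (nat_lit 5) (nat_lit 246) (nat_lit 5) (nat_lit 247) (nat_lit 5) (nat_lit 454) (nat_lit 369) (nat_lit 317))) (XT.nd (nat_lit 78) (nat_lit 456) (nat_lit 0) (XT.lf (nat_lit 0) (nat_lit 810184840) (nat_lit 532) (nat_lit 1168918948) (nat_lit 608) (nat_lit 7639487856) (nat_lit 232) (nat_lit 5) (nat_lit 239) (nat_lit 5) (nat_lit 240)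 (nat_lit 5) (nat_lit 455) (nat_lit 369) (nat_lit 316)) (XT.nd (nat_lit 78) (nat_lit 456) (nat_lit 0) (XT.lf (nat_lit 0) (nat_lit 5460653472) (nat_lit 608) (nat_lit 1629710091) (nat_lit 76) (nat_lit 2621999774) (nat_lit 232) (nat_lit 5) (nat_lit 240) (nat_lit 5) (nat_lit 233) (nat_lit 5) (nat_lit 456) (nat_lit 369) (nat_lit 315)) (XT.lf (nat_lit 0) (nat_lit 5701015228) (nat_lit 456) (nat_lit 3315520894) (nat_lit 532) (nat_lit 791380302) (nat_lit 226) (nat_lit 5) (nat_lit 232) (nat_lit 5) (nat_lit 233) (nat_lit 5) (nat_lit 457) (nat_lit 369) (nat_lit 314))))) (XT.nd (nat_lit 156) (nat_lit 912) (nat_lit 0) (XT.nd (nat_lit 78) (nat_lit 456) (nat_lit 0) (XT.lf (nat_lit 0) (nat_lit 2698201015) (nat_lit 532) (nat_lit 6647370621) (nat_lit 76) (nat_lit 559534248) (nat_lit 219) (nat_lit 5) (nat_lit 226) (nat_lit 5) (nat_lit 220) (nat_lit 5) (nat_lit 458) (nat_lit 369) (nat_lit 313)) (XT.lf (nat_lit 0) (nat_lit 745036843) (nat_lit 456) (nat_lit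 5516859370) (nat_lit 532) (nat_lit 3741939922) (nat_lit 213) (nat_lit 5) (nat_lit 219) (nat_lit 5) (nat_lit 220) (nat_lit 5) (nat_lit 459) (nat_lit 369) (nat_lit 312))) (XT.nd (nat_lit 78) (nat_lit 912) (nat_lit 0) (XT.lf (nat_lit 0) (nat_lit 8316786926) (nat_lit 456) (nat_lit 1585454786) (nat_lit 532) (nat_lit 202191751) (nat_lit 213) (nat_lit 5) (nat_lit 219) (nat_lit 5) (nat_lit 220) (nat_lit 5) (nat_lit 460) (nat_lit 369) (nat_lit 311)) (XT.nd (nat_lit 78) (nat_lit 380) (nat_lit 0) (XT.lf (nat_lit 0) (nat_lit 3378795427) (nat_lit 532) (nat_lit 4393357315) (nat_lit 76) (nat_lit 2434144507) (nat_lit 206) (nat_lit 5) (nat_lit 213) (nat_lit 5) (nat_lit 207) (nat_lit 5) (nat_lit 461) (nat_lit 369) (nat_lit 310)) (XT.lf (nat_lit 0) (nat_lit 3252310478) (nat_lit 380) (nat_lit 3781622079) (nat_lit 456) (nat_lit 3276134273) (nat_lit 201) (nat_lit 5) (nat_lit 206) (nat_lit 5) (nat_lit 207) (nat_lit 5) (nat_lit 462) (nat_lit 369) (nat_lit 309))))))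 (XT.nd (nat_lit 390) (nat_lit 1216) (nat_lit 0) (XT.nd (nat_lit 156) (nat_lit 1216) (nat_lit 0) (XT.nd (nat_lit 78) (nat_lit 0) (nat_lit 0) (XT.lf (nat_lit 0) (nat_lit 339222929) (nat_lit 532) (nat_lit 9775195094) (nat_lit 76) (nat_lit 301498745) (nat_lit 194) (nat_lit 5) (nat_lit 201) (nat_lit 5) (nat_lit 195) (nat_lit 5) (nat_lit 463) (nat_lit 369) (nat_lit 308)) (XT.lf (nat_lit 0) (nat_lit 4017694636) (nat_lit 532) (nat_lit 2039760345) (nat_lit 76) (nat_lit 4465302122) (nat_lit 194) (nat_lit 5) (nat_lit 201) (nat_lit 5) (nat_lit 195) (nat_lit 5) (nat_lit 464) (nat_lit 369) (nat_lit 307))) (XT.nd (nat_lit 78) (nat_lit 836) (nat_lit 0) (XT.lf (nat_lit 0) (nat_lit 5869908082) (nat_lit 380) (nat_lit 1900600822) (nat_lit 456) (nat_lit 2861209878) (nat_lit 189) (nat_lit 5) (nat_lit 194) (nat_lit 5) (nat_lit 195) (nat_lit 5) (nat_lit 465) (nat_lit 369) (nat_lit 306)) (XT.nd (nat_lit 78) (nat_lit 380) (nat_lit 0) (XT.lf (nat_lit 0) (nat_lit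 856965731) (nat_lit 456) (nat_lit 7556522930) (nat_lit 76) (nat_lit 2329006617) (nat_lit 183) (nat_lit 5) (nat_lit 189) (nat_lit 5) (nat_lit 184) (nat_lit 5) (nat_lit 466) (nat_lit 369) (nat_lit 305)) (XT.lf (nat_lit 0) (nat_lit 418347363) (nat_lit 380) (nat_lit 4203355389) (nat_lit 456) (nat_lit 6233196110) (nat_lit 178) (nat_lit 5) (nat_lit 183) (nat_lit 5) (nat_lit 184) (nat_lit 5) (nat_lit 467) (nat_lit 369) (nat_lit 304))))) (XT.nd (nat_lit 156) (nat_lit 760) (nat_lit 0) (XT.nd (nat_lit 78) (nat_lit 456) (nat_lit 0) (XT.lf (nat_lit 0) (nat_lit 8476591797) (nat_lit 456) (nat_lit 2372337794) (nat_lit 76) (nat_lit 120323781) (nat_lit 178) (nat_lit 5) (nat_lit 184) (nat_lit 5) (nat_lit 179) (nat_lit 5) (nat_lit 468) (nat_lit 369) (nat_lit 303)) (XT.lf (nat_lit 0) (nat_lit 1335264004) (nat_lit 456) (nat_lit 5248985037) (nat_lit 76) (nat_lit 4500875624) (nat_lit 172) (nat_lit 5) (nat_lit 178) (nat_lit 5) (nat_lit 173) (nat_lit 5) (nat_lit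 469) (nat_lit 369) (nat_lit 302))) (XT.nd (nat_lit 78) (nat_lit 456) (nat_lit 0) (XT.lf (nat_lit 0) (nat_lit 3003744254) (nat_lit 304) (nat_lit 2202232871) (nat_lit 380) (nat_lit 5997014614) (nat_lit 168) (nat_lit 5) (nat_lit 172) (nat_lit 5) (nat_lit 173) (nat_lit 5) (nat_lit 470) (nat_lit 369) (nat_lit 301)) (XT.nd (nat_lit 78) (nat_lit 76) (nat_lit 0) (XT.lf (nat_lit 0) (nat_lit 99328020) (nat_lit 380) (nat_lit 9069848011) (nat_lit 456) (nat_lit 2153738694) (nat_lit 163) (nat_lit 5) (nat_lit 168) (nat_lit 5) (nat_lit 169) (nat_lit 5) (nat_lit 471) (nat_lit 369) (nat_lit 300)) (XT.lf (nat_lit 0) (nat_lit 1777551893) (nat_lit 456) (nat_lit 2852820318) (nat_lit 76) (nat_lit 6813948268) (nat_lit 162) (nat_lit 5) (nat_lit 168) (nat_lit 5) (nat_lit 163) (nat_lit 5) (nat_lit 472) (nat_lit 369) (nat_lit 299))))))) (XT.nd (nat_lit 780) (nat_lit 2356) (nat_lit 0) (XT.nd (nat_lit 390) (nat_lit 1368) (nat_lit 0) (XT.nd (nat_lit 156) (nat_lit 684)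 (nat_lit 0) (XT.nd (nat_lit 78) (nat_lit 380) (nat_lit 0) (XT.lf (nat_lit 0) (nat_lit 5689555805) (nat_lit 304) (nat_lit 71086225) (nat_lit 380) (nat_lit 5807187350) (nat_lit 158) (nat_lit 5) (nat_lit 162) (nat_lit 5) (nat_lit 163) (nat_lit 5) (nat_lit 473) (nat_lit 369) (nat_lit 298)) (XT.lf (nat_lit 0) (nat_lit 2697191838) (nat_lit 380) (nat_lit 7157947937) (nat_lit 456) (nat_lit 1838033766) (nat_lit 153) (nat_lit 5) (nat_lit 158) (nat_lit 5) (nat_lit 159) (nat_lit 5) (nat_lit 474) (nat_lit 369) (nat_lit 297))) (XT.nd (nat_lit 78) (nat_lit 608) (nat_lit 0) (XT.lf (nat_lit 0) (nat_lit 2187010951) (nat_lit 456) (nat_lit 367909497) (nat_lit 76) (nat_lit 9265707113) (nat_lit 152) (nat_lit 5) (nat_lit 158) (nat_lit 5) (nat_lit 153) (nat_lit 5) (nat_lit 475) (nat_lit 369) (nat_lit 296)) (XT.nd (nat_lit 78) (nat_lit 304) (nat_lit 0) (XT.lf (nat_lit 0) (nat_lit 6303205478) (nat_lit 380) (nat_lit 3487778615) (nat_lit 76) (nat_lit 2158698376)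 (nat_lit 148) (nat_lit 5) (nat_lit 153) (nat_lit 5) (nat_lit 149) (nat_lit 5) (nat_lit 476) (nat_lit 369) (nat_lit 295)) (XT.lf (nat_lit 0) (nat_lit 5390286835) (nat_lit 304) (nat_lit 5132012088) (nat_lit 380) (nat_lit 1558608053) (nat_lit 144) (nat_lit 5) (nat_lit 148) (nat_lit 5) (nat_lit 149) (nat_lit 5) (nat_lit 477) (nat_lit 369) (nat_lit 294))))) (XT.nd (nat_lit 156) (nat_lit 988) (nat_lit 0) (XT.nd (nat_lit 78) (nat_lit 0) (nat_lit 0) (XT.lf (nat_lit 0) (nat_lit 2235529210) (nat_lit 304) (nat_lit 345575228) (nat_lit 380) (nat_lit 9633225882) (nat_lit 139) (nat_lit 5) (nat_lit 143) (nat_lit 5) (nat_lit 144) (nat_lit 5) (nat_lit 478) (nat_lit 369) (nat_lit 293)) (XT.lf (nat_lit 0) (nat_lit 6823827898) (nat_lit 380) (nat_lit 1014451198) (nat_lit 76) (nat_lit 4511115258) (nat_lit 139) (nat_lit 5) (nat_lit 144) (nat_lit 5) (nat_lit 140) (nat_lit 5) (nat_lit 479) (nat_lit 369) (nat_lit 292))) (XT.nd (nat_lit 78) (nat_lit 684) (nat_lit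 0) (XT.lf (nat_lit 0) (nat_lit 8179518194) (nat_lit 304) (nat_lit 2994359047) (nat_lit 380) (nat_lit 1312832998) (nat_lit 135) (nat_lit 5) (nat_lit 139) (nat_lit 5) (nat_lit 140) (nat_lit 5) (nat_lit 480) (nat_lit 369) (nat_lit 291)) (XT.nd (nat_lit 78) (nat_lit 304) (nat_lit 0) (XT.lf (nat_lit 0) (nat_lit 2963945929) (nat_lit 380) (nat_lit 7704091357) (nat_lit 76) (nat_lit 1957969083) (nat_lit 130) (nat_lit 5) (nat_lit 135) (nat_lit 5) (nat_lit 131) (nat_lit 5) (nat_lit 481) (nat_lit 369) (nat_lit 290)) (XT.lf (nat_lit 0) (nat_lit 1563386062) (nat_lit 304) (nat_lit 5771689973) (nat_lit 380) (nat_lit 5432310941) (nat_lit 126) (nat_lit 5) (nat_lit 130) (nat_lit 5) (nat_lit 131) (nat_lit 5) (nat_lit 482) (nat_lit 369) (nat_lit 289)))))) (XT.nd (nat_lit 390) (nat_lit 1444) (nat_lit 0) (XT.nd (nat_lit 156) (nat_lit 608) (nat_lit 0) (XT.nd (nat_lit 78) (nat_lit 304) (nat_lit 0) (XT.lf (nat_lit 0) (nat_lit 11066123934) (nat_lit 304) (nat_lit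 746792800) (nat_lit 380) (nat_lit 1098292704) (nat_lit 126) (nat_lit 5) (nat_lit 130) (nat_lit 5) (nat_lit 131) (nat_lit 5) (nat_lit 483) (nat_lit 369) (nat_lit 288)) (XT.lf (nat_lit 0) (nat_lit 3325776418) (nat_lit 304) (nat_lit 5358974516) (nat_lit 76) (nat_lit 4371787099) (nat_lit 122) (nat_lit 5) (nat_lit 126) (nat_lit 5) (nat_lit 123) (nat_lit 5) (nat_lit 484) (nat_lit 369) (nat_lit 287))) (XT.nd (nat_lit 78) (nat_lit 304) (nat_lit 0) (XT.lf (nat_lit 0) (nat_lit 4240854881) (nat_lit 304) (nat_lit 3595875805) (nat_lit 380) (nat_lit 5367635120) (nat_lit 118) (nat_lit 5) (nat_lit 122) (nat_lit 5) (nat_lit 123) (nat_lit 5) (nat_lit 485) (nat_lit 369) (nat_lit 286)) (XT.nd (nat_lit 78) (nat_lit 76) (nat_lit 0) (XT.lf (nat_lit 0) (nat_lit 695271556) (nat_lit 228) (nat_lit 11761985932) (nat_lit 304) (nat_lit 897505579) (nat_lit 115) (nat_lit 5) (nat_lit 118) (nat_lit 5) (nat_lit 119) (nat_lit 5) (nat_lit 486) (nat_lit 369) (nat_lit 285))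 (XT.lf (nat_lit 0) (nat_lit 3666710009) (nat_lit 304) (nat_lit 2940432442) (nat_lit 76) (nat_lit 6899496064) (nat_lit 114) (nat_lit 5) (nat_lit 118) (nat_lit 5) (nat_lit 115) (nat_lit 5) (nat_lit 487) (nat_lit 369) (nat_lit 284))))) (XT.nd (nat_lit 234) (nat_lit 836) (nat_lit 0) (XT.nd (nat_lit 78) (nat_lit 304) (nat_lit 0) (XT.lf (nat_lit 0) (nat_lit 7005798121) (nat_lit 304) (nat_lit 1318861933) (nat_lit 380) (nat_lit 5336483413) (nat_lit 110) (nat_lit 5) (nat_lit 114) (nat_lit 5) (nat_lit 115) (nat_lit 5) (nat_lit 488) (nat_lit 369) (nat_lit 283)) (XT.nd (nat_lit 78) (nat_lit 76) (nat_lit 0) (XT.lf (nat_lit 0) (nat_lit 3336364492) (nat_lit 228) (nat_lit 9776480606) (nat_lit 304) (nat_lit 705151901) (nat_lit 107) (nat_lit 5) (nat_lit 110) (nat_lit 5) (nat_lit 111) (nat_lit 5) (nat_lit 489) (nat_lit 369) (nat_lit 282)) (XT.lf (nat_lit 0) (nat_lit 3988941965) (nat_lit 304) (nat_lit 447423895) (nat_lit 76) (nat_lit 9540643023) (nat_lit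 106) (nat_lit 5) (nat_lit 110) (nat_lit 5) (nat_lit 107) (nat_lit 5) (nat_lit 490) (nat_lit 369) (nat_lit 281)))) (XT.nd (nat_lit 78) (nat_lit 532) (nat_lit 0) (XT.lf (nat_lit 0) (nat_lit 8808131156) (nat_lit 380) (nat_lit 4285477244) (nat_lit 76) (nat_lit 1044686276) (nat_lit 102) (nat_lit 5) (nat_lit 107) (nat_lit 5) (nat_lit 103) (nat_lit 5) (nat_lit 491) (nat_lit 369) (nat_lit 280)) (XT.nd (nat_lit 78) (nat_lit 304) (nat_lit 0) (XT.lf (nat_lit 0) (nat_lit 6060063608) (nat_lit 228) (nat_lit 7705259068) (nat_lit 304) (nat_lit 536651138) (nat_lit 99) (nat_lit 5) (nat_lit 102) (nat_lit 5) (nat_lit 103) (nat_lit 5) (nat_lit 492) (nat_lit 369) (nat_lit 279)) (XT.lf (nat_lit 0) (nat_lit 2149542255) (nat_lit 228) (nat_lit 2158932198) (nat_lit 304) (nat_lit 10159630267) (nat_lit 95) (nat_lit 5) (nat_lit 98) (nat_lit 5) (nat_lit 99) (nat_lit 5) (nat_lit 493) (nat_lit 369) (nat_lit 278))))))))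
noncomputable def xc73 : XT := (XT.nd (nat_lit 52494) (nat_lit 0) (nat_lit 27892) (XT.nd (nat_lit 780) (nat_lit 760) (nat_lit 0) (XT.nd (nat_lit 390) (nat_lit 988) (nat_lit 0) (XT.nd (nat_lit 156) (nat_lit 532) (nat_lit 0) (XT.nd (nat_lit 78) (nat_lit 228) (nat_lit 0) (XT.lf (nat_lit 0) (nat_lit 9291742773) (nat_lit 304) (nat_lit 1855100222) (nat_lit 76) (nat_lit 3489675786) (nat_lit 95) (nat_lit 5) (nat_lit 99) (nat_lit 5) (nat_lit 96) (nat_lit 5) (nat_lit 494) (nat_lit 369) (nat_lit 277)) (XT.lf (nat_lit 0) (nat_lit 8868111683) (nat_lit 228) (nat_lit 5549059616) (nat_lit 304) (nat_lit 390279928) (nat_lit 92) (nat_lit 5) (nat_lit 95) (nat_lit 5) (nat_lit 96) (nat_lit 5) (nat_lit 495) (nat_lit 369) (nat_lit 276))) (XT.nd (nat_lit 78) (nat_lit 228) (nat_lit 0) (XT.lf (nat_lit 0) (nat_lit 4618102233) (nat_lit 304) (nat_lit 10151497187) (nat_lit 76) (nat_lit 211278231) (nat_lit 88) (nat_lit 5) (nat_lit 92) (nat_lit 5) (nat_lit 89) (nat_lit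 5) (nat_lit 496) (nat_lit 369) (nat_lit 275)) (XT.nd (nat_lit 78) (nat_lit 0) (nat_lit 0) (XT.lf (nat_lit 0) (nat_lit 654314595) (nat_lit 228) (nat_lit 9119002459) (nat_lit 304) (nat_lit 5383366137) (nat_lit 85) (nat_lit 5) (nat_lit 88) (nat_lit 5) (nat_lit 89) (nat_lit 5) (nat_lit 497) (nat_lit 369) (nat_lit 274)) (XT.lf (nat_lit 0) (nat_lit 11762510578) (nat_lit 228) (nat_lit 3308256271) (nat_lit 304) (nat_lit 264455378) (nat_lit 85) (nat_lit 5) (nat_lit 88) (nat_lit 5) (nat_lit 89) (nat_lit 5) (nat_lit 498) (nat_lit 369) (nat_lit 273))))) (XT.nd (nat_lit 156) (nat_lit 456) (nat_lit 0) (XT.nd (nat_lit 78) (nat_lit 228) (nat_lit 0) (XT.lf (nat_lit 0) (nat_lit 4929905009) (nat_lit 304) (nat_lit 7941456359) (nat_lit 76) (nat_lit 2644565393) (nat_lit 81) (nat_lit 5) (nat_lit 85) (nat_lit 5) (nat_lit 82) (nat_lit 5) (nat_lit 499) (nat_lit 369) (nat_lit 272)) (XT.lf (nat_lit 0) (nat_lit 3261411223) (nat_lit 228) (nat_lit 7001901488) (nat_lit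 304) (nat_lit 5436123689) (nat_lit 78) (nat_lit 5) (nat_lit 81) (nat_lit 5) (nat_lit 82) (nat_lit 5) (nat_lit 500) (nat_lit 369) (nat_lit 271))) (XT.nd (nat_lit 78) (nat_lit 456) (nat_lit 0) (XT.lf (nat_lit 0) (nat_lit 14745516010) (nat_lit 228) (nat_lit 982875528) (nat_lit 304) (nat_lit 157724635) (nat_lit 78) (nat_lit 5) (nat_lit 81) (nat_lit 5) (nat_lit 82) (nat_lit 5) (nat_lit 501) (nat_lit 369) (nat_lit 270)) (XT.nd (nat_lit 78) (nat_lit 152) (nat_lit 0) (XT.lf (nat_lit 0) (nat_lit 5231549087) (nat_lit 304) (nat_lit 5673205583) (nat_lit 76) (nat_lit 5169619231) (nat_lit 74) (nat_lit 5) (nat_lit 78) (nat_lit 5) (nat_lit 75) (nat_lit 5) (nat_lit 502) (nat_lit 369) (nat_lit 269)) (XT.lf (nat_lit 0) (nat_lit 5943399792) (nat_lit 152) (nat_lit 4808067607) (nat_lit 228) (nat_lit 5514409113) (nat_lit 72) (nat_lit 5) (nat_lit 74) (nat_lit 5) (nat_lit 75) (nat_lit 5) (nat_lit 503) (nat_lit 369) (nat_lit 268)))))) (XT.nd (nat_lit 51324) (nat_lit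 0) (nat_lit 48108) (XT.nd (nat_lit 156) (nat_lit 456) (nat_lit 0) (XT.nd (nat_lit 78) (nat_lit 76) (nat_lit 0) (XT.lf (nat_lit 0) (nat_lit 1367298196) (nat_lit 228) (nat_lit 15043091468) (nat_lit 304) (nat_lit 50247397) (nat_lit 69) (nat_lit 5) (nat_lit 72) (nat_lit 5) (nat_lit 73) (nat_lit 5) (nat_lit 504) (nat_lit 369) (nat_lit 267)) (XT.lf (nat_lit 0) (nat_lit 5524616181) (nat_lit 304) (nat_lit 3345329788) (nat_lit 76) (nat_lit 7787152521) (nat_lit 68) (nat_lit 5) (nat_lit 72) (nat_lit 5) (nat_lit 69) (nat_lit 5) (nat_lit 505) (nat_lit 369) (nat_lit 266))) (XT.nd (nat_lit 78) (nat_lit 304) (nat_lit 0) (XT.lf (nat_lit 0) (nat_lit 8702366927) (nat_lit 152) (nat_lit 2537269718) (nat_lit 228) (nat_lit 5617259212) (nat_lit 66) (nat_lit 5) (nat_lit 68) (nat_lit 5) (nat_lit 69) (nat_lit 5) (nat_lit 506) (nat_lit 369) (nat_lit 265)) (XT.nd (nat_lit 51012) (nat_lit 0) (nat_lit 51300) (XT.lf (nat_lit 0) (nat_lit 55102776) (nat_lit 304) (nat_lit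 13106908610) (nat_lit 76) (nat_lit 3897737855) (nat_lit 62) (nat_lit 5) (nat_lit 66) (nat_lit 5) (nat_lit 63) (nat_lit 5) (nat_lit 507) (nat_lit 369) (nat_lit 264)) (XT.lf (nat_lit 0) (nat_lit 1539233435) (nat_lit 836) (nat_lit 888298796) (nat_lit 836) (nat_lit 888298796) (nat_lit 737) (nat_lit 4) (nat_lit 748) (nat_lit 5) (nat_lit 748) (nat_lit 4) (nat_lit 400) (nat_lit 370) (nat_lit 370))))) (XT.nd (nat_lit 156) (nat_lit 2204) (nat_lit 0) (XT.nd (nat_lit 78) (nat_lit 0) (nat_lit 0) (XT.lf (nat_lit 0) (nat_lit 731579736) (nat_lit 912) (nat_lit 792216276) (nat_lit 988) (nat_lit 5127561650) (nat_lit 724) (nat_lit 5) (nat_lit 736) (nat_lit 5) (nat_lit 737) (nat_lit 4) (nat_lit 401) (nat_lit 370) (nat_lit 369)) (XT.lf (nat_lit 0) (nat_lit 4817683371) (nat_lit 988) (nat_lit 1592669930) (nat_lit 0) (nat_lit 261833521) (nat_lit 724) (nat_lit 5) (nat_lit 737) (nat_lit 4) (nat_lit 724) (nat_lit 4) (nat_lit 402) (nat_lit 370) (nat_lit 368))) (XT.nd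 (nat_lit 78) (nat_lit 1140) (nat_lit 0) (XT.lf (nat_lit 0) (nat_lit 1414947901) (nat_lit 1064) (nat_lit 3908803338) (nat_lit 76) (nat_lit 1370480720) (nat_lit 710) (nat_lit 5) (nat_lit 724) (nat_lit 5) (nat_lit 711) (nat_lit 4) (nat_lit 403) (nat_lit 370) (nat_lit 367)) (XT.nd (nat_lit 78) (nat_lit 76) (nat_lit 0) (XT.lf (nat_lit 0) (nat_lit 492231391) (nat_lit 1064) (nat_lit 4174611128) (nat_lit 1140) (nat_lit 2050792593) (nat_lit 696) (nat_lit 5) (nat_lit 710) (nat_lit 5) (nat_lit 711) (nat_lit 4) (nat_lit 404) (nat_lit 370) (nat_lit 366)) (XT.lf (nat_lit 0) (nat_lit 1180857083) (nat_lit 1140) (nat_lit 1773564026) (nat_lit 76) (nat_lit 3787826287) (nat_lit 695) (nat_lit 5) (nat_lit 710) (nat_lit 5) (nat_lit 696) (nat_lit 5) (nat_lit 405) (nat_lit 370) (nat_lit 365))))))) (XT.nd (nat_lit 780) (nat_lit 10336) (nat_lit 0) (XT.nd (nat_lit 390) (nat_lit 4712) (nat_lit 0) (XT.nd (nat_lit 156) (nat_lit 2736) (nat_lit 0) (XT.nd (nat_lit 78)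 (nat_lit 1292) (nat_lit 0) (XT.lf (nat_lit 0) (nat_lit 2732097682) (nat_lit 1140) (nat_lit 1665225749) (nat_lit 1216) (nat_lit 2370804505) (nat_lit 680) (nat_lit 5) (nat_lit 695) (nat_lit 5) (nat_lit 696) (nat_lit 5) (nat_lit 406) (nat_lit 370) (nat_lit 364)) (XT.lf (nat_lit 0) (nat_lit 500360458) (nat_lit 1216) (nat_lit 317299189) (nat_lit 1292) (nat_lit 5977838600) (nat_lit 663) (nat_lit 5) (nat_lit 679) (nat_lit 5) (nat_lit 680) (nat_lit 5) (nat_lit 407) (nat_lit 370) (nat_lit 363))) (XT.nd (nat_lit 78) (nat_lit 2736) (nat_lit 0) (XT.lf (nat_lit 0) (nat_lit 4003794697) (nat_lit 1292) (nat_lit 1722505458) (nat_lit 76) (nat_lit 1097489455) (nat_lit 663) (nat_lit 5) (nat_lit 680) (nat_lit 5) (nat_lit 664) (nat_lit 5) (nat_lit 408) (nat_lit 370) (nat_lit 362)) (XT.nd (nat_lit 78) (nat_lit 1368) (nat_lit 0) (XT.lf (nat_lit 0) (nat_lit 349330591) (nat_lit 1368) (nat_lit 3936009284) (nat_lit 76) (nat_lit 2568183169) (nat_lit 645) (nat_lit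 5) (nat_lit 663) (nat_lit 5) (nat_lit 646) (nat_lit 5) (nat_lit 409) (nat_lit 370) (nat_lit 361)) (XT.lf (nat_lit 0) (nat_lit 722364712) (nat_lit 1368) (nat_lit 2771614514) (nat_lit 1444) (nat_lit 3390505190) (nat_lit 627) (nat_lit 5) (nat_lit 645) (nat_lit 5) (nat_lit 646) (nat_lit 5) (nat_lit 410) (nat_lit 370) (nat_lit 360))))) (XT.nd (nat_lit 156) (nat_lit 3192) (nat_lit 0) (XT.nd (nat_lit 78) (nat_lit 1520) (nat_lit 0) (XT.lf (nat_lit 0) (nat_lit 5469224542) (nat_lit 1368) (nat_lit 1192974846) (nat_lit 1444) (nat_lit 254652057) (nat_lit 627) (nat_lit 5) (nat_lit 645) (nat_lit 5) (nat_lit 646) (nat_lit 5) (nat_lit 411) (nat_lit 370) (nat_lit 359)) (XT.lf (nat_lit 0) (nat_lit 2865068057) (nat_lit 1520) (nat_lit 3625444862) (nat_lit 76) (nat_lit 459775419) (nat_lit 607) (nat_lit 5) (nat_lit 627) (nat_lit 5) (nat_lit 608) (nat_lit 5) (nat_lit 412) (nat_lit 370) (nat_lit 358))) (XT.nd (nat_lit 78) (nat_lit 1672) (nat_lit 0) (XT.lf (nat_lit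 0) (nat_lit 1175247137) (nat_lit 1520) (nat_lit 4829908722) (nat_lit 1596) (nat_lit 979976784) (nat_lit 587) (nat_lit 5) (nat_lit 607) (nat_lit 5) (nat_lit 608) (nat_lit 5) (nat_lit 413) (nat_lit 370) (nat_lit 357)) (XT.nd (nat_lit 78) (nat_lit 1596) (nat_lit 0) (XT.lf (nat_lit 0) (nat_lit 2119701128) (nat_lit 1596) (nat_lit 972612448) (nat_lit 76) (nat_lit 3928855874) (nat_lit 586) (nat_lit 5) (nat_lit 607) (nat_lit 5) (nat_lit 587) (nat_lit 5) (nat_lit 414) (nat_lit 370) (nat_lit 356)) (XT.lf (nat_lit 0) (nat_lit 3948705079) (nat_lit 1596) (nat_lit 1282967623) (nat_lit 1672) (nat_lit 1826856298) (nat_lit 565) (nat_lit 5) (nat_lit 586) (nat_lit 5) (nat_lit 587) (nat_lit 5) (nat_lit 415) (nat_lit 370) (nat_lit 355)))))) (XT.nd (nat_lit 390) (nat_lit 3800) (nat_lit 0) (XT.nd (nat_lit 156) (nat_lit 4788) (nat_lit 0) (XT.nd (nat_lit 78) (nat_lit 0) (nat_lit 0) (XT.lf (nat_lit 0) (nat_lit 1252673383) (nat_lit 1748) (nat_lit 5258876570) (nat_lit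 76) (nat_lit 585703849) (nat_lit 542) (nat_lit 5) (nat_lit 565) (nat_lit 5) (nat_lit 543) (nat_lit 5) (nat_lit 416) (nat_lit 370) (nat_lit 354)) (XT.lf (nat_lit 0) (nat_lit 4337923262) (nat_lit 1748) (nat_lit 288663955) (nat_lit 76) (nat_lit 2510552550) (nat_lit 542) (nat_lit 5) (nat_lit 565) (nat_lit 5) (nat_lit 543) (nat_lit 5) (nat_lit 417) (nat_lit 370) (nat_lit 353))) (XT.nd (nat_lit 78) (nat_lit 2964) (nat_lit 0) (XT.lf (nat_lit 0) (nat_lit 274168871) (nat_lit 1824) (nat_lit 2394613285) (nat_lit 76) (nat_lit 4509578596) (nat_lit 518) (nat_lit 5) (nat_lit 542) (nat_lit 5) (nat_lit 519) (nat_lit 5) (nat_lit 418) (nat_lit 370) (nat_lit 352)) (XT.nd (nat_lit 78) (nat_lit 1140) (nat_lit 0) (XT.lf (nat_lit 0) (nat_lit 2699470420) (nat_lit 1824) (nat_lit 632247731) (nat_lit 1900) (nat_lit 3889114397) (nat_lit 494) (nat_lit 5) (nat_lit 518) (nat_lit 5) (nat_lit 519) (nat_lit 5) (nat_lit 419) (nat_lit 370) (nat_lit 351)) (XT.lf (nat_lit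 0) (nat_lit 603161158) (nat_lit 1140) (nat_lit 5818185368) (nat_lit 1216) (nat_lit 843388690) (nat_lit 479) (nat_lit 5) (nat_lit 494) (nat_lit 5) (nat_lit 495) (nat_lit 5) (nat_lit 420) (nat_lit 370) (nat_lit 350))))) (XT.nd (nat_lit 234) (nat_lit 1824) (nat_lit 0) (XT.nd (nat_lit 78) (nat_lit 1900) (nat_lit 0) (XT.lf (nat_lit 0) (nat_lit 2210134410) (nat_lit 1216) (nat_lit 1496235152) (nat_lit 76) (nat_lit 3603321170) (nat_lit 478) (nat_lit 5) (nat_lit 494) (nat_lit 5) (nat_lit 479) (nat_lit 5) (nat_lit 421) (nat_lit 370) (nat_lit 349)) (XT.nd (nat_lit 78) (nat_lit 988) (nat_lit 0) (XT.lf (nat_lit 0) (nat_lit 3757570448) (nat_lit 912) (nat_lit 1523249302) (nat_lit 988) (nat_lit 2075266416) (nat_lit 466) (nat_lit 5) (nat_lit 478) (nat_lit 5) (nat_lit 479) (nat_lit 5) (nat_lit 422) (nat_lit 370) (nat_lit 348)) (XT.lf (nat_lit 0) (nat_lit 965431678) (nat_lit 988) (nat_lit 5718558587) (nat_lit 76) (nat_lit 719904910) (nat_lit 453) (nat_lit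 5) (nat_lit 466) (nat_lit 5) (nat_lit 454) (nat_lit 5) (nat_lit 423) (nat_lit 370) (nat_lit 347)))) (XT.nd (nat_lit 78) (nat_lit 1824) (nat_lit 0) (XT.lf (nat_lit 0) (nat_lit 4017636970) (nat_lit 988) (nat_lit 412141648) (nat_lit 76) (nat_lit 3023037775) (nat_lit 453) (nat_lit 5) (nat_lit 466) (nat_lit 5) (nat_lit 454) (nat_lit 5) (nat_lit 424) (nat_lit 370) (nat_lit 346)) (XT.nd (nat_lit 78) (nat_lit 988) (nat_lit 0) (XT.lf (nat_lit 0) (nat_lit 5007630722) (nat_lit 836) (nat_lit 2100924858) (nat_lit 912) (nat_lit 394607072) (nat_lit 442) (nat_lit 5) (nat_lit 453) (nat_lit 5) (nat_lit 454) (nat_lit 5) (nat_lit 425) (nat_lit 370) (nat_lit 345)) (XT.lf (nat_lit 0) (nat_lit 2640721413) (nat_lit 988) (nat_lit 4607608759) (nat_lit 76) (nat_lit 306445289) (nat_lit 429) (nat_lit 5) (nat_lit 442) (nat_lit 5) (nat_lit 430) (nat_lit 5) (nat_lit 426) (nat_lit 370) (nat_lit 344))))))))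
noncomputable def xc74 : XT := (XT.nd (nat_lit 1560) (nat_lit 7752) (nat_lit 0) (XT.nd (nat_lit 780) (nat_lit 5244) (nat_lit 0) (XT.nd (nat_lit 390) (nat_lit 2356) (nat_lit 0) (XT.nd (nat_lit 156) (nat_lit 2432) (nat_lit 0) (XT.nd (nat_lit 78) (nat_lit 76) (nat_lit 0) (XT.lf (nat_lit 0) (nat_lit 860663032) (nat_lit 836) (nat_lit 4853329106) (nat_lit 912) (nat_lit 1893725830) (nat_lit 418) (nat_lit 5) (nat_lit 429) (nat_lit 5) (nat_lit 430) (nat_lit 5) (nat_lit 427) (nat_lit 370) (nat_lit 343)) (XT.lf (nat_lit 0) (nat_lit 1149041438) (nat_lit 912) (nat_lit 1228023553) (nat_lit 76) (nat_lit 5284948192) (nat_lit 417) (nat_lit 5) (nat_lit 429) (nat_lit 5) (nat_lit 418) (nat_lit 5) (nat_lit 428) (nat_lit 370) (nat_lit 342))) (XT.nd (nat_lit 78) (nat_lit 1596) (nat_lit 0) (XT.lf (nat_lit 0) (nat_lit 4204542411) (nat_lit 912) (nat_lit 3331023486) (nat_lit 76) (nat_lit 182033349) (nat_lit 406) (nat_lit 5) (nat_lit 418) (nat_lit 5) (nat_lit 407)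 (nat_lit 5) (nat_lit 429) (nat_lit 370) (nat_lit 341)) (XT.nd (nat_lit 78) (nat_lit 836) (nat_lit 0) (XT.lf (nat_lit 0) (nat_lit 2311291130) (nat_lit 760) (nat_lit 4997041175) (nat_lit 836) (nat_lit 466221145) (nat_lit 396) (nat_lit 5) (nat_lit 406) (nat_lit 5) (nat_lit 407) (nat_lit 5) (nat_lit 430) (nat_lit 370) (nat_lit 340)) (XT.lf (nat_lit 0) (nat_lit 205297048) (nat_lit 760) (nat_lit 2373874538) (nat_lit 836) (nat_lit 5253686846) (nat_lit 385) (nat_lit 5) (nat_lit 395) (nat_lit 5) (nat_lit 396) (nat_lit 5) (nat_lit 431) (nat_lit 370) (nat_lit 339))))) (XT.nd (nat_lit 156) (nat_lit 1520) (nat_lit 0) (XT.nd (nat_lit 78) (nat_lit 836) (nat_lit 0) (XT.lf (nat_lit 0) (nat_lit 5667103868) (nat_lit 836) (nat_lit 1895678584) (nat_lit 76) (nat_lit 329727937) (nat_lit 385) (nat_lit 5) (nat_lit 396) (nat_lit 5) (nat_lit 386) (nat_lit 5) (nat_lit 432) (nat_lit 370) (nat_lit 338)) (XT.lf (nat_lit 0) (nat_lit 843284742) (nat_lit 836) (nat_lit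 4031343306) (nat_lit 76) (nat_lit 3078791826) (nat_lit 374) (nat_lit 5) (nat_lit 385) (nat_lit 5) (nat_lit 375) (nat_lit 5) (nat_lit 433) (nat_lit 370) (nat_lit 337))) (XT.nd (nat_lit 78) (nat_lit 760) (nat_lit 0) (XT.lf (nat_lit 0) (nat_lit 1816419106) (nat_lit 760) (nat_lit 2102037422) (nat_lit 836) (nat_lit 4097298727) (nat_lit 364) (nat_lit 5) (nat_lit 374) (nat_lit 5) (nat_lit 375) (nat_lit 5) (nat_lit 434) (nat_lit 370) (nat_lit 336)) (XT.nd (nat_lit 78) (nat_lit 760) (nat_lit 0) (XT.lf (nat_lit 0) (nat_lit 7037886036) (nat_lit 836) (nat_lit 307608704) (nat_lit 76) (nat_lit 734187516) (nat_lit 364) (nat_lit 5) (nat_lit 375) (nat_lit 5) (nat_lit 365) (nat_lit 5) (nat_lit 435) (nat_lit 370) (nat_lit 335)) (XT.lf (nat_lit 0) (nat_lit 2050353315) (nat_lit 760) (nat_lit 2454008343) (nat_lit 76) (nat_lit 3640201746) (nat_lit 354) (nat_lit 5) (nat_lit 364) (nat_lit 5) (nat_lit 355) (nat_lit 5) (nat_lit 436) (nat_lit 370) (nat_lit 334))))))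 (XT.nd (nat_lit 390) (nat_lit 2432) (nat_lit 0) (XT.nd (nat_lit 156) (nat_lit 1368) (nat_lit 0) (XT.nd (nat_lit 78) (nat_lit 760) (nat_lit 0) (XT.lf (nat_lit 0) (nat_lit 3583451479) (nat_lit 684) (nat_lit 1584327774) (nat_lit 760) (nat_lit 3043277535) (nat_lit 345) (nat_lit 5) (nat_lit 354) (nat_lit 5) (nat_lit 355) (nat_lit 5) (nat_lit 437) (nat_lit 370) (nat_lit 333)) (XT.lf (nat_lit 0) (nat_lit 55229212) (nat_lit 760) (nat_lit 6832576302) (nat_lit 76) (nat_lit 1391316485) (nat_lit 335) (nat_lit 5) (nat_lit 345) (nat_lit 5) (nat_lit 336) (nat_lit 5) (nat_lit 438) (nat_lit 370) (nat_lit 332))) (XT.nd (nat_lit 78) (nat_lit 1368) (nat_lit 0) (XT.lf (nat_lit 0) (nat_lit 3169500353) (nat_lit 760) (nat_lit 733383532) (nat_lit 76) (nat_lit 4445371433) (nat_lit 335) (nat_lit 5) (nat_lit 345) (nat_lit 5) (nat_lit 336) (nat_lit 5) (nat_lit 439) (nat_lit 370) (nat_lit 331)) (XT.nd (nat_lit 78) (nat_lit 684) (nat_lit 0) (XT.lf (nat_lit 0) (nat_lit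 5501602323) (nat_lit 684) (nat_lit 833855130) (nat_lit 760) (nat_lit 2083525839) (nat_lit 326) (nat_lit 5) (nat_lit 335) (nat_lit 5) (nat_lit 336) (nat_lit 5) (nat_lit 440) (nat_lit 370) (nat_lit 330)) (XT.lf (nat_lit 0) (nat_lit 1055250279) (nat_lit 684) (nat_lit 5147751902) (nat_lit 76) (nat_lit 2288069774) (nat_lit 317) (nat_lit 5) (nat_lit 326) (nat_lit 5) (nat_lit 318) (nat_lit 5) (nat_lit 441) (nat_lit 370) (nat_lit 329))))) (XT.nd (nat_lit 156) (nat_lit 1824) (nat_lit 0) (XT.nd (nat_lit 78) (nat_lit 0) (nat_lit 0) (XT.lf (nat_lit 0) (nat_lit 1141067439) (nat_lit 608) (nat_lit 3074852886) (nat_lit 684) (nat_lit 4348666288) (nat_lit 309) (nat_lit 5) (nat_lit 317) (nat_lit 5) (nat_lit 318) (nat_lit 5) (nat_lit 442) (nat_lit 370) (nat_lit 328)) (XT.lf (nat_lit 0) (nat_lit 7430108783) (nat_lit 684) (nat_lit 1073864056) (nat_lit 76) (nat_lit 135792624) (nat_lit 309) (nat_lit 5) (nat_lit 318) (nat_lit 5) (nat_lit 310) (nat_lit 5) (nat_lit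 443) (nat_lit 370) (nat_lit 327))) (XT.nd (nat_lit 78) (nat_lit 1140) (nat_lit 0) (XT.lf (nat_lit 0) (nat_lit 1977136222) (nat_lit 684) (nat_lit 3334337372) (nat_lit 76) (nat_lit 3404493007) (nat_lit 300) (nat_lit 5) (nat_lit 309) (nat_lit 5) (nat_lit 301) (nat_lit 5) (nat_lit 444) (nat_lit 370) (nat_lit 326)) (XT.nd (nat_lit 78) (nat_lit 532) (nat_lit 0) (XT.lf (nat_lit 0) (nat_lit 3162172883) (nat_lit 608) (nat_lit 2032964382) (nat_lit 684) (nat_lit 3598721187) (nat_lit 292) (nat_lit 5) (nat_lit 300) (nat_lit 5) (nat_lit 301) (nat_lit 5) (nat_lit 445) (nat_lit 370) (nat_lit 325)) (XT.lf (nat_lit 0) (nat_lit 905286325) (nat_lit 532) (nat_lit 7565389538) (nat_lit 608) (nat_lit 402768726) (nat_lit 285) (nat_lit 5) (nat_lit 292) (nat_lit 5) (nat_lit 293) (nat_lit 5) (nat_lit 446) (nat_lit 370) (nat_lit 324))))))) (XT.nd (nat_lit 780) (nat_lit 3724) (nat_lit 0) (XT.nd (nat_lit 390) (nat_lit 2204) (nat_lit 0) (XT.nd (nat_lit 156) (nat_lit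 1140) (nat_lit 0) (XT.nd (nat_lit 78) (nat_lit 608) (nat_lit 0) (XT.lf (nat_lit 0) (nat_lit 2827591746) (nat_lit 608) (nat_lit 1395861530) (nat_lit 76) (nat_lit 4730638961) (nat_lit 284) (nat_lit 5) (nat_lit 292) (nat_lit 5) (nat_lit 285) (nat_lit 5) (nat_lit 447) (nat_lit 370) (nat_lit 323)) (XT.lf (nat_lit 0) (nat_lit 5317038169) (nat_lit 608) (nat_lit 791963976) (nat_lit 684) (nat_lit 2927460732) (nat_lit 276) (nat_lit 5) (nat_lit 284) (nat_lit 5) (nat_lit 285) (nat_lit 5) (nat_lit 448) (nat_lit 370) (nat_lit 322))) (XT.nd (nat_lit 78) (nat_lit 532) (nat_lit 0) (XT.lf (nat_lit 0) (nat_lit 335523666) (nat_lit 608) (nat_lit 6096002599) (nat_lit 76) (nat_lit 2688823796) (nat_lit 268) (nat_lit 5) (nat_lit 276) (nat_lit 5) (nat_lit 269) (nat_lit 5) (nat_lit 449) (nat_lit 370) (nat_lit 321)) (XT.nd (nat_lit 78) (nat_lit 0) (nat_lit 0) (XT.lf (nat_lit 0) (nat_lit 673583450) (nat_lit 532) (nat_lit 2943614982) (nat_lit 608) (nat_lit 5588476959)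 (nat_lit 261) (nat_lit 5) (nat_lit 268) (nat_lit 5) (nat_lit 269) (nat_lit 5) (nat_lit 450) (nat_lit 370) (nat_lit 320)) (XT.lf (nat_lit 0) (nat_lit 6967865053) (nat_lit 608) (nat_lit 1693746439) (nat_lit 76) (nat_lit 631028567) (nat_lit 261) (nat_lit 5) (nat_lit 269) (nat_lit 5) (nat_lit 262) (nat_lit 5) (nat_lit 451) (nat_lit 370) (nat_lit 319))))) (XT.nd (nat_lit 156) (nat_lit 1064) (nat_lit 0) (XT.nd (nat_lit 78) (nat_lit 532) (nat_lit 0) (XT.lf (nat_lit 0) (nat_lit 1003860567) (nat_lit 608) (nat_lit 4114301059) (nat_lit 76) (nat_lit 4262795399) (nat_lit 253) (nat_lit 5) (nat_lit 261) (nat_lit 5) (nat_lit 254) (nat_lit 5) (nat_lit 452) (nat_lit 370) (nat_lit 318)) (XT.lf (nat_lit 0) (nat_lit 2882947600) (nat_lit 532) (nat_lit 1474357088) (nat_lit 608) (nat_lit 5113641016) (nat_lit 246) (nat_lit 5) (nat_lit 253) (nat_lit 5) (nat_lit 254) (nat_lit 5) (nat_lit 453) (nat_lit 370) (nat_lit 317))) (XT.nd (nat_lit 78) (nat_lit 608) (nat_lit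 0) (XT.lf (nat_lit 0) (nat_lit 446725780) (nat_lit 456) (nat_lit 7335836309) (nat_lit 532) (nat_lit 1780077179) (nat_lit 240) (nat_lit 5) (nat_lit 246) (nat_lit 5) (nat_lit 247) (nat_lit 5) (nat_lit 454) (nat_lit 370) (nat_lit 316)) (XT.nd (nat_lit 78) (nat_lit 532) (nat_lit 0) (XT.lf (nat_lit 0) (nat_lit 1612822163) (nat_lit 532) (nat_lit 2022687400) (nat_lit 76) (nat_lit 6020168501) (nat_lit 239) (nat_lit 5) (nat_lit 246) (nat_lit 5) (nat_lit 240) (nat_lit 5) (nat_lit 455) (nat_lit 370) (nat_lit 315)) (XT.lf (nat_lit 0) (nat_lit 5045133118) (nat_lit 608) (nat_lit 4539709498) (nat_lit 76) (nat_lit 165591915) (nat_lit 232) (nat_lit 5) (nat_lit 240) (nat_lit 5) (nat_lit 233) (nat_lit 5) (nat_lit 456) (nat_lit 370) (nat_lit 314)))))) (XT.nd (nat_lit 390) (nat_lit 1748) (nat_lit 0) (XT.nd (nat_lit 156) (nat_lit 988) (nat_lit 0) (XT.nd (nat_lit 78) (nat_lit 532) (nat_lit 0) (XT.lf (nat_lit 0) (nat_lit 2723537207) (nat_lit 456) (nat_lit 5838706892)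 (nat_lit 532) (nat_lit 1284518953) (nat_lit 226) (nat_lit 5) (nat_lit 232) (nat_lit 5) (nat_lit 233) (nat_lit 5) (nat_lit 457) (nat_lit 370) (nat_lit 313)) (XT.lf (nat_lit 0) (nat_lit 179446782) (nat_lit 456) (nat_lit 1989021843) (nat_lit 532) (nat_lit 7776409150) (nat_lit 219) (nat_lit 5) (nat_lit 225) (nat_lit 5) (nat_lit 226) (nat_lit 5) (nat_lit 458) (nat_lit 370) (nat_lit 312))) (XT.nd (nat_lit 78) (nat_lit 988) (nat_lit 0) (XT.lf (nat_lit 0) (nat_lit 5695179626) (nat_lit 532) (nat_lit 2398516255) (nat_lit 76) (nat_lit 1950651829) (nat_lit 219) (nat_lit 5) (nat_lit 226) (nat_lit 5) (nat_lit 220) (nat_lit 5) (nat_lit 459) (nat_lit 370) (nat_lit 311)) (XT.nd (nat_lit 78) (nat_lit 532) (nat_lit 0) (XT.lf (nat_lit 0) (nat_lit 5112911715) (nat_lit 456) (nat_lit 4187793239) (nat_lit 532) (nat_lit 844936487) (nat_lit 213) (nat_lit 5) (nat_lit 219) (nat_lit 5) (nat_lit 220) (nat_lit 5) (nat_lit 460) (nat_lit 370) (nat_lit 310)) (XT.lf (nat_lit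 0) (nat_lit 2516781294) (nat_lit 456) (nat_lit 171387361) (nat_lit 532) (nat_lit 7560546270) (nat_lit 206) (nat_lit 5) (nat_lit 212) (nat_lit 5) (nat_lit 213) (nat_lit 5) (nat_lit 461) (nat_lit 370) (nat_lit 309))))) (XT.nd (nat_lit 234) (nat_lit 836) (nat_lit 0) (XT.nd (nat_lit 78) (nat_lit 912) (nat_lit 0) (XT.lf (nat_lit 0) (nat_lit 6302412373) (nat_lit 532) (nat_lit 156072982) (nat_lit 76) (nat_lit 3894817018) (nat_lit 206) (nat_lit 5) (nat_lit 213) (nat_lit 5) (nat_lit 207) (nat_lit 5) (nat_lit 462) (nat_lit 370) (nat_lit 308)) (XT.nd (nat_lit 78) (nat_lit 532) (nat_lit 0) (XT.lf (nat_lit 0) (nat_lit 7614053224) (nat_lit 380) (nat_lit 2388495221) (nat_lit 456) (nat_lit 457160976) (nat_lit 201) (nat_lit 5) (nat_lit 206) (nat_lit 5) (nat_lit 207) (nat_lit 5) (nat_lit 463) (nat_lit 370) (nat_lit 307)) (XT.lf (nat_lit 0) (nat_lit 3174469116) (nat_lit 532) (nat_lit 5617968206) (nat_lit 76) (nat_lit 1775228546) (nat_lit 194) (nat_lit 5)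 (nat_lit 201) (nat_lit 5) (nat_lit 195) (nat_lit 5) (nat_lit 464) (nat_lit 370) (nat_lit 306)))) (XT.nd (nat_lit 78) (nat_lit 456) (nat_lit 0) (XT.lf (nat_lit 0) (nat_lit 2215889361) (nat_lit 380) (nat_lit 4669547885) (nat_lit 456) (nat_lit 3792027224) (nat_lit 189) (nat_lit 5) (nat_lit 194) (nat_lit 5) (nat_lit 195) (nat_lit 5) (nat_lit 465) (nat_lit 370) (nat_lit 305)) (XT.nd (nat_lit 78) (nat_lit 456) (nat_lit 0) (XT.lf (nat_lit 0) (nat_lit 10226614482) (nat_lit 380) (nat_lit 445458114) (nat_lit 456) (nat_lit 117357492) (nat_lit 189) (nat_lit 5) (nat_lit 194) (nat_lit 5) (nat_lit 195) (nat_lit 5) (nat_lit 466) (nat_lit 370) (nat_lit 304)) (XT.lf (nat_lit 0) (nat_lit 3621627722) (nat_lit 456) (nat_lit 3414791243) (nat_lit 76) (nat_lit 3865975766) (nat_lit 183) (nat_lit 5) (nat_lit 189) (nat_lit 5) (nat_lit 184) (nat_lit 5) (nat_lit 467) (nat_lit 370) (nat_lit 303))))))))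
noncomputable def xc75 : XT := (XT.nd (nat_lit 1638) (nat_lit 3344) (nat_lit 0) (XT.nd (nat_lit 780) (nat_lit 2584) (nat_lit 0) (XT.nd (nat_lit 390) (nat_lit 1368) (nat_lit 0) (XT.nd (nat_lit 156) (nat_lit 760) (nat_lit 0) (XT.nd (nat_lit 78) (nat_lit 456) (nat_lit 0) (XT.lf (nat_lit 0) (nat_lit 4691333942) (nat_lit 380) (nat_lit 2744141287) (nat_lit 456) (nat_lit 3582094842) (nat_lit 178) (nat_lit 5) (nat_lit 183) (nat_lit 5) (nat_lit 184) (nat_lit 5) (nat_lit 468) (nat_lit 370) (nat_lit 302)) (XT.lf (nat_lit 0) (nat_lit 198318895) (nat_lit 456) (nat_lit 9307414332) (nat_lit 76) (nat_lit 1629085603) (nat_lit 172) (nat_lit 5) (nat_lit 178) (nat_lit 5) (nat_lit 173) (nat_lit 5) (nat_lit 469) (nat_lit 370) (nat_lit 301))) (XT.nd (nat_lit 78) (nat_lit 760) (nat_lit 0) (XT.lf (nat_lit 0) (nat_lit 4032080292) (nat_lit 456) (nat_lit 1121737685) (nat_lit 76) (nat_lit 6099606962) (nat_lit 172) (nat_lit 5) (nat_lit 178) (nat_lit 5) (nat_lit 173)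 (nat_lit 5) (nat_lit 470) (nat_lit 370) (nat_lit 300)) (XT.nd (nat_lit 78) (nat_lit 456) (nat_lit 0) (XT.lf (nat_lit 0) (nat_lit 7268202594) (nat_lit 304) (nat_lit 686947610) (nat_lit 380) (nat_lit 3419000300) (nat_lit 168) (nat_lit 5) (nat_lit 172) (nat_lit 5) (nat_lit 173) (nat_lit 5) (nat_lit 471) (nat_lit 370) (nat_lit 299)) (XT.lf (nat_lit 0) (nat_lit 479928123) (nat_lit 456) (nat_lit 7179387197) (nat_lit 76) (nat_lit 3837384364) (nat_lit 162) (nat_lit 5) (nat_lit 168) (nat_lit 5) (nat_lit 163) (nat_lit 5) (nat_lit 472) (nat_lit 370) (nat_lit 298))))) (XT.nd (nat_lit 156) (nat_lit 1064) (nat_lit 0) (XT.nd (nat_lit 78) (nat_lit 0) (nat_lit 0) (XT.lf (nat_lit 0) (nat_lit 1277871090) (nat_lit 304) (nat_lit 3139538420) (nat_lit 380) (nat_lit 7203711249) (nat_lit 158) (nat_lit 5) (nat_lit 162) (nat_lit 5) (nat_lit 163) (nat_lit 5) (nat_lit 473) (nat_lit 370) (nat_lit 297)) (XT.lf (nat_lit 0) (nat_lit 8457597862) (nat_lit 380) (nat_lit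 1810583940) (nat_lit 76) (nat_lit 1479369305) (nat_lit 158) (nat_lit 5) (nat_lit 163) (nat_lit 5) (nat_lit 159) (nat_lit 5) (nat_lit 474) (nat_lit 370) (nat_lit 296))) (XT.nd (nat_lit 78) (nat_lit 608) (nat_lit 0) (XT.lf (nat_lit 0) (nat_lit 725311783) (nat_lit 456) (nat_lit 4972248789) (nat_lit 76) (nat_lit 6178209529) (nat_lit 152) (nat_lit 5) (nat_lit 158) (nat_lit 5) (nat_lit 153) (nat_lit 5) (nat_lit 475) (nat_lit 370) (nat_lit 295)) (XT.nd (nat_lit 78) (nat_lit 304) (nat_lit 0) (XT.lf (nat_lit 0) (nat_lit 3783649814) (nat_lit 304) (nat_lit 996684926) (nat_lit 380) (nat_lit 7225713701) (nat_lit 148) (nat_lit 5) (nat_lit 152) (nat_lit 5) (nat_lit 153) (nat_lit 5) (nat_lit 476) (nat_lit 370) (nat_lit 294)) (XT.lf (nat_lit 0) (nat_lit 572007447) (nat_lit 304) (nat_lit 8373248199) (nat_lit 380) (nat_lit 3193100752) (nat_lit 144) (nat_lit 5) (nat_lit 148) (nat_lit 5) (nat_lit 149) (nat_lit 5) (nat_lit 477) (nat_lit 370) (nat_lit 293))))))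 (XT.nd (nat_lit 390) (nat_lit 1520) (nat_lit 0) (XT.nd (nat_lit 156) (nat_lit 684) (nat_lit 0) (XT.nd (nat_lit 78) (nat_lit 304) (nat_lit 0) (XT.lf (nat_lit 0) (nat_lit 937156359) (nat_lit 380) (nat_lit 2685885096) (nat_lit 76) (nat_lit 8649568373) (nat_lit 143) (nat_lit 5) (nat_lit 148) (nat_lit 5) (nat_lit 144) (nat_lit 5) (nat_lit 478) (nat_lit 370) (nat_lit 292)) (XT.lf (nat_lit 0) (nat_lit 5124513995) (nat_lit 380) (nat_lit 6035852739) (nat_lit 76) (nat_lit 1248414443) (nat_lit 139) (nat_lit 5) (nat_lit 144) (nat_lit 5) (nat_lit 140) (nat_lit 5) (nat_lit 479) (nat_lit 370) (nat_lit 291))) (XT.nd (nat_lit 78) (nat_lit 380) (nat_lit 0) (XT.lf (nat_lit 0) (nat_lit 3064506047) (nat_lit 304) (nat_lit 6360867808) (nat_lit 380) (nat_lit 3121706998) (nat_lit 135) (nat_lit 5) (nat_lit 139) (nat_lit 5) (nat_lit 140) (nat_lit 5) (nat_lit 480) (nat_lit 370) (nat_lit 290)) (XT.nd (nat_lit 78) (nat_lit 304) (nat_lit 0) (XT.lf (nat_lit 0) (nat_lit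 1117930533) (nat_lit 380) (nat_lit 319872104) (nat_lit 76) (nat_lit 11250026536) (nat_lit 134) (nat_lit 5) (nat_lit 139) (nat_lit 5) (nat_lit 135) (nat_lit 5) (nat_lit 481) (nat_lit 370) (nat_lit 289)) (XT.lf (nat_lit 0) (nat_lit 5451587001) (nat_lit 380) (nat_lit 3782308022) (nat_lit 76) (nat_lit 3596064231) (nat_lit 130) (nat_lit 5) (nat_lit 135) (nat_lit 5) (nat_lit 131) (nat_lit 5) (nat_lit 482) (nat_lit 370) (nat_lit 288))))) (XT.nd (nat_lit 234) (nat_lit 912) (nat_lit 0) (XT.nd (nat_lit 78) (nat_lit 304) (nat_lit 0) (XT.lf (nat_lit 0) (nat_lit 5643704043) (nat_lit 304) (nat_lit 4245109842) (nat_lit 380) (nat_lit 3085780105) (nat_lit 126) (nat_lit 5) (nat_lit 130) (nat_lit 5) (nat_lit 131) (nat_lit 5) (nat_lit 483) (nat_lit 370) (nat_lit 287)) (XT.nd (nat_lit 78) (nat_lit 0) (nat_lit 0) (XT.lf (nat_lit 0) (nat_lit 1289545994) (nat_lit 304) (nat_lit 10972671970) (nat_lit 76) (nat_lit 859458888) (nat_lit 122) (nat_lit 5) (nat_lit 126)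 (nat_lit 5) (nat_lit 123) (nat_lit 5) (nat_lit 484) (nat_lit 370) (nat_lit 286)) (XT.lf (nat_lit 0) (nat_lit 5757508906) (nat_lit 304) (nat_lit 1454677520) (nat_lit 76) (nat_lit 6058178027) (nat_lit 122) (nat_lit 5) (nat_lit 126) (nat_lit 5) (nat_lit 123) (nat_lit 5) (nat_lit 485) (nat_lit 370) (nat_lit 285)))) (XT.nd (nat_lit 78) (nat_lit 608) (nat_lit 0) (XT.lf (nat_lit 0) (nat_lit 8310757172) (nat_lit 304) (nat_lit 2027422102) (nat_lit 380) (nat_lit 3083379569) (nat_lit 118) (nat_lit 5) (nat_lit 122) (nat_lit 5) (nat_lit 123) (nat_lit 5) (nat_lit 486) (nat_lit 370) (nat_lit 284)) (XT.nd (nat_lit 78) (nat_lit 304) (nat_lit 0) (XT.lf (nat_lit 0) (nat_lit 1447133135) (nat_lit 304) (nat_lit 8880626610) (nat_lit 76) (nat_lit 3247205809) (nat_lit 114) (nat_lit 5) (nat_lit 118) (nat_lit 5) (nat_lit 115) (nat_lit 5) (nat_lit 487) (nat_lit 370) (nat_lit 283)) (XT.lf (nat_lit 0) (nat_lit 960523986) (nat_lit 304) (nat_lit 5090249190) (nat_lit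 380) (nat_lit 7679783531) (nat_lit 110) (nat_lit 5) (nat_lit 114) (nat_lit 5) (nat_lit 115) (nat_lit 5) (nat_lit 488) (nat_lit 370) (nat_lit 282))))))) (XT.nd (nat_lit 780) (nat_lit 1444) (nat_lit 0) (XT.nd (nat_lit 390) (nat_lit 988) (nat_lit 0) (XT.nd (nat_lit 156) (nat_lit 608) (nat_lit 0) (XT.nd (nat_lit 78) (nat_lit 304) (nat_lit 0) (XT.lf (nat_lit 0) (nat_lit 10777809391) (nat_lit 380) (nat_lit 2823448148) (nat_lit 76) (nat_lit 287375675) (nat_lit 110) (nat_lit 5) (nat_lit 115) (nat_lit 5) (nat_lit 111) (nat_lit 5) (nat_lit 489) (nat_lit 370) (nat_lit 281)) (XT.lf (nat_lit 0) (nat_lit 1581150810) (nat_lit 304) (nat_lit 6725907628) (nat_lit 76) (nat_lit 5741572446) (nat_lit 106) (nat_lit 5) (nat_lit 110) (nat_lit 5) (nat_lit 107) (nat_lit 5) (nat_lit 490) (nat_lit 370) (nat_lit 280))) (XT.nd (nat_lit 78) (nat_lit 304) (nat_lit 0) (XT.lf (nat_lit 0) (nat_lit 3472193171) (nat_lit 304) (nat_lit 2865122975) (nat_lit 380) (nat_lit 7873861007)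 (nat_lit 102) (nat_lit 5) (nat_lit 106) (nat_lit 5) (nat_lit 107) (nat_lit 5) (nat_lit 491) (nat_lit 370) (nat_lit 279)) (XT.nd (nat_lit 78) (nat_lit 304) (nat_lit 0) (XT.lf (nat_lit 0) (nat_lit 11221936233) (nat_lit 380) (nat_lit 479750575) (nat_lit 76) (nat_lit 2674620912) (nat_lit 102) (nat_lit 5) (nat_lit 107) (nat_lit 5) (nat_lit 103) (nat_lit 5) (nat_lit 492) (nat_lit 370) (nat_lit 278)) (XT.lf (nat_lit 0) (nat_lit 1693356036) (nat_lit 304) (nat_lit 4507676917) (nat_lit 76) (nat_lit 8342380193) (nat_lit 98) (nat_lit 5) (nat_lit 102) (nat_lit 5) (nat_lit 99) (nat_lit 5) (nat_lit 493) (nat_lit 370) (nat_lit 277))))) (XT.nd (nat_lit 156) (nat_lit 532) (nat_lit 0) (XT.nd (nat_lit 78) (nat_lit 228) (nat_lit 0) (XT.lf (nat_lit 0) (nat_lit 6062422208) (nat_lit 228) (nat_lit 547113461) (nat_lit 304) (nat_lit 8103633312) (nat_lit 95) (nat_lit 5) (nat_lit 98) (nat_lit 5) (nat_lit 99) (nat_lit 5) (nat_lit 494) (nat_lit 370) (nat_lit 276))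 (XT.lf (nat_lit 0) (nat_lit 1960412465) (nat_lit 228) (nat_lit 9711890585) (nat_lit 304) (nat_lit 3213051598) (nat_lit 92) (nat_lit 5) (nat_lit 95) (nat_lit 5) (nat_lit 96) (nat_lit 5) (nat_lit 495) (nat_lit 370) (nat_lit 275))) (XT.nd (nat_lit 78) (nat_lit 456) (nat_lit 0) (XT.lf (nat_lit 0) (nat_lit 1785362072) (nat_lit 304) (nat_lit 2224867681) (nat_lit 76) (nat_lit 11049857659) (nat_lit 91) (nat_lit 5) (nat_lit 95) (nat_lit 5) (nat_lit 92) (nat_lit 5) (nat_lit 496) (nat_lit 370) (nat_lit 274)) (XT.nd (nat_lit 78) (nat_lit 228) (nat_lit 0) (XT.lf (nat_lit 0) (nat_lit 6881370280) (nat_lit 304) (nat_lit 6516532478) (nat_lit 76) (nat_lit 1839174326) (nat_lit 88) (nat_lit 5) (nat_lit 92) (nat_lit 5) (nat_lit 89) (nat_lit 5) (nat_lit 497) (nat_lit 370) (nat_lit 273)) (XT.lf (nat_lit 0) (nat_lit 4480145574) (nat_lit 228) (nat_lit 7641731905) (nat_lit 304) (nat_lit 3294877493) (nat_lit 85) (nat_lit 5) (nat_lit 88) (nat_lit 5) (nat_lit 89)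 (nat_lit 5) (nat_lit 498) (nat_lit 370) (nat_lit 272)))))) (XT.nd (nat_lit 390) (nat_lit 608) (nat_lit 0) (XT.nd (nat_lit 156) (nat_lit 532) (nat_lit 0) (XT.nd (nat_lit 78) (nat_lit 0) (nat_lit 0) (XT.lf (nat_lit 0) (nat_lit 125454032) (nat_lit 228) (nat_lit 1734009628) (nat_lit 304) (nat_lit 13739984631) (nat_lit 81) (nat_lit 5) (nat_lit 84) (nat_lit 5) (nat_lit 85) (nat_lit 5) (nat_lit 499) (nat_lit 370) (nat_lit 271)) (XT.lf (nat_lit 0) (nat_lit 7146595844) (nat_lit 304) (nat_lit 4327299149) (nat_lit 76) (nat_lit 4309988448) (nat_lit 81) (nat_lit 5) (nat_lit 85) (nat_lit 5) (nat_lit 82) (nat_lit 5) (nat_lit 500) (nat_lit 370) (nat_lit 270))) (XT.nd (nat_lit 78) (nat_lit 304) (nat_lit 0) (XT.lf (nat_lit 0) (nat_lit 7074803507) (nat_lit 228) (nat_lit 5494672531) (nat_lit 304) (nat_lit 3401931149) (nat_lit 78) (nat_lit 5) (nat_lit 81) (nat_lit 5) (nat_lit 82) (nat_lit 5) (nat_lit 501) (nat_lit 370) (nat_lit 269)) (XT.nd (nat_lit 78) (nat_lit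 0) (nat_lit 0) (XT.lf (nat_lit 0) (nat_lit 1935454250) (nat_lit 304) (nat_lit 13592618721) (nat_lit 76) (nat_lit 633901948) (nat_lit 74) (nat_lit 5) (nat_lit 78) (nat_lit 5) (nat_lit 75) (nat_lit 5) (nat_lit 502) (nat_lit 370) (nat_lit 268)) (XT.lf (nat_lit 0) (nat_lit 7403275408) (nat_lit 304) (nat_lit 2078197316) (nat_lit 76) (nat_lit 6873046749) (nat_lit 74) (nat_lit 5) (nat_lit 78) (nat_lit 5) (nat_lit 75) (nat_lit 5) (nat_lit 503) (nat_lit 370) (nat_lit 267))))) (XT.nd (nat_lit 234) (nat_lit 0) (nat_lit 0) (XT.nd (nat_lit 78) (nat_lit 456) (nat_lit 0) (XT.lf (nat_lit 0) (nat_lit 9746342323) (nat_lit 152) (nat_lit 3270637938) (nat_lit 228) (nat_lit 3533204111) (nat_lit 72) (nat_lit 5) (nat_lit 74) (nat_lit 5) (nat_lit 75) (nat_lit 5) (nat_lit 504) (nat_lit 370) (nat_lit 266)) (XT.nd (nat_lit 78) (nat_lit 152) (nat_lit 0) (XT.lf (nat_lit 0) (nat_lit 2007594997) (nat_lit 304) (nat_lit 11677480320) (nat_lit 76) (nat_lit 3063617638) (nat_lit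 68) (nat_lit 5) (nat_lit 72) (nat_lit 5) (nat_lit 69) (nat_lit 5) (nat_lit 505) (nat_lit 370) (nat_lit 265)) (XT.lf (nat_lit 0) (nat_lit 235352818) (nat_lit 152) (nat_lit 7419102537) (nat_lit 228) (nat_lit 9295398169) (nat_lit 66) (nat_lit 5) (nat_lit 68) (nat_lit 5) (nat_lit 69) (nat_lit 5) (nat_lit 506) (nat_lit 370) (nat_lit 264)))) (XT.nd (nat_lit 50856) (nat_lit 0) (nat_lit 51832) (XT.lf (nat_lit 0) (nat_lit 12496939785) (nat_lit 152) (nat_lit 969250157) (nat_lit 228) (nat_lit 3687808622) (nat_lit 66) (nat_lit 5) (nat_lit 68) (nat_lit 5) (nat_lit 69) (nat_lit 5) (nat_lit 507) (nat_lit 370) (nat_lit 263)) (XT.nd (nat_lit 78) (nat_lit 0) (nat_lit 0) (XT.lf (nat_lit 0) (nat_lit 312290560) (nat_lit 836) (nat_lit 2673315549) (nat_lit 0) (nat_lit 312290560) (nat_lit 748) (nat_lit 5) (nat_lit 759) (nat_lit 4) (nat_lit 748) (nat_lit 4) (nat_lit 398) (nat_lit 371) (nat_lit 371)) (XT.lf (nat_lit 0) (nat_lit 3912464086) (nat_lit 836) (nat_lit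 1181865454) (nat_lit 0) (nat_lit 1519046112) (nat_lit 748) (nat_lit 5) (nat_lit 759) (nat_lit 4) (nat_lit 748) (nat_lit 4) (nat_lit 399) (nat_lit 371) (nat_lit 370))))))))
noncomputable def xc76 : XT := (XT.nd (nat_lit 1560) (nat_lit 12768) (nat_lit 0) (XT.nd (nat_lit 780) (nat_lit 11476) (nat_lit 0) (XT.nd (nat_lit 390) (nat_lit 3800) (nat_lit 0) (XT.nd (nat_lit 156) (nat_lit 2204) (nat_lit 0) (XT.nd (nat_lit 78) (nat_lit 912) (nat_lit 0) (XT.lf (nat_lit 0) (nat_lit 571431741) (nat_lit 912) (nat_lit 3585614065) (nat_lit 76) (nat_lit 2475282133) (nat_lit 736) (nat_lit 5) (nat_lit 748) (nat_lit 5) (nat_lit 737) (nat_lit 4) (nat_lit 400) (nat_lit 371) (nat_lit 369)) (XT.lf (nat_lit 0) (nat_lit 658814749) (nat_lit 912) (nat_lit 3152670186) (nat_lit 988) (nat_lit 2841048712) (nat_lit 724) (nat_lit 5) (nat_lit 736) (nat_lit 5) (nat_lit 737) (nat_lit 4) (nat_lit 401) (nat_lit 371) (nat_lit 368))) (XT.nd (nat_lit 78) (nat_lit 2128) (nat_lit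 0) (XT.lf (nat_lit 0) (nat_lit 388340754) (nat_lit 988) (nat_lit 1695837455) (nat_lit 76) (nat_lit 4589888558) (nat_lit 723) (nat_lit 5) (nat_lit 736) (nat_lit 5) (nat_lit 724) (nat_lit 5) (nat_lit 402) (nat_lit 371) (nat_lit 367)) (XT.nd (nat_lit 78) (nat_lit 1140) (nat_lit 0) (XT.lf (nat_lit 0) (nat_lit 2648158557) (nat_lit 988) (nat_lit 941520422) (nat_lit 1064) (nat_lit 3107067931) (nat_lit 710) (nat_lit 5) (nat_lit 723) (nat_lit 5) (nat_lit 724) (nat_lit 5) (nat_lit 403) (nat_lit 371) (nat_lit 366)) (XT.lf (nat_lit 0) (nat_lit 77384974) (nat_lit 1140) (nat_lit 6393266191) (nat_lit 76) (nat_lit 250332053) (nat_lit 695) (nat_lit 5) (nat_lit 710) (nat_lit 5) (nat_lit 696) (nat_lit 5) (nat_lit 404) (nat_lit 371) (nat_lit 365))))) (XT.nd (nat_lit 156) (nat_lit 2660) (nat_lit 0) (XT.nd (nat_lit 78) (nat_lit 1140) (nat_lit 0) (XT.lf (nat_lit 0) (nat_lit 3247425034) (nat_lit 1140) (nat_lit 1983189782) (nat_lit 76) (nat_lit 1515408646) (nat_lit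 695) (nat_lit 5) (nat_lit 710) (nat_lit 5) (nat_lit 696) (nat_lit 5) (nat_lit 405) (nat_lit 371) (nat_lit 364)) (XT.lf (nat_lit 0) (nat_lit 2491425088) (nat_lit 1140) (nat_lit 3936871233) (nat_lit 1216) (nat_lit 344319581) (nat_lit 680) (nat_lit 5) (nat_lit 695) (nat_lit 5) (nat_lit 696) (nat_lit 5) (nat_lit 406) (nat_lit 371) (nat_lit 363))) (XT.nd (nat_lit 78) (nat_lit 1368) (nat_lit 0) (XT.lf (nat_lit 0) (nat_lit 210079900) (nat_lit 1216) (nat_lit 2571835068) (nat_lit 1292) (nat_lit 4018521137) (nat_lit 663) (nat_lit 5) (nat_lit 679) (nat_lit 5) (nat_lit 680) (nat_lit 5) (nat_lit 407) (nat_lit 371) (nat_lit 362)) (XT.nd (nat_lit 78) (nat_lit 1368) (nat_lit 0) (XT.lf (nat_lit 0) (nat_lit 4790397928) (nat_lit 1216) (nat_lit 1137145068) (nat_lit 1292) (nat_lit 901994612) (nat_lit 663) (nat_lit 5) (nat_lit 679) (nat_lit 5) (nat_lit 680) (nat_lit 5) (nat_lit 408) (nat_lit 371) (nat_lit 361)) (XT.lf (nat_lit 0) (nat_lit 2199693739) (nat_lit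 1368) (nat_lit 4296617713) (nat_lit 76) (nat_lit 363560177) (nat_lit 645) (nat_lit 5) (nat_lit 663) (nat_lit 5) (nat_lit 646) (nat_lit 5) (nat_lit 409) (nat_lit 371) (nat_lit 360)))))) (XT.nd (nat_lit 390) (nat_lit 6992) (nat_lit 0) (XT.nd (nat_lit 156) (nat_lit 3040) (nat_lit 0) (XT.nd (nat_lit 78) (nat_lit 76) (nat_lit 0) (XT.lf (nat_lit 0) (nat_lit 328233646) (nat_lit 1368) (nat_lit 4981194650) (nat_lit 1444) (nat_lit 1582102987) (nat_lit 627) (nat_lit 5) (nat_lit 645) (nat_lit 5) (nat_lit 646) (nat_lit 5) (nat_lit 410) (nat_lit 371) (nat_lit 359)) (XT.lf (nat_lit 0) (nat_lit 1501257569) (nat_lit 1444) (nat_lit 1887486603) (nat_lit 76) (nat_lit 3535594676) (nat_lit 626) (nat_lit 5) (nat_lit 645) (nat_lit 5) (nat_lit 627) (nat_lit 5) (nat_lit 411) (nat_lit 371) (nat_lit 358))) (XT.nd (nat_lit 78) (nat_lit 1596) (nat_lit 0) (XT.lf (nat_lit 0) (nat_lit 2852142592) (nat_lit 1444) (nat_lit 1727896166) (nat_lit 1520) (nat_lit 2378455900)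 (nat_lit 607) (nat_lit 5) (nat_lit 626) (nat_lit 5) (nat_lit 627) (nat_lit 5) (nat_lit 412) (nat_lit 371) (nat_lit 357)) (XT.nd (nat_lit 78) (nat_lit 0) (nat_lit 0) (XT.lf (nat_lit 0) (nat_lit 665905117) (nat_lit 1520) (nat_lit 5561170) (nat_lit 1596) (nat_lit 6322694086) (nat_lit 586) (nat_lit 5) (nat_lit 606) (nat_lit 5) (nat_lit 607) (nat_lit 5) (nat_lit 413) (nat_lit 371) (nat_lit 356)) (XT.lf (nat_lit 0) (nat_lit 3727449639) (nat_lit 1596) (nat_lit 1526021155) (nat_lit 76) (nat_lit 1777215974) (nat_lit 586) (nat_lit 5) (nat_lit 607) (nat_lit 5) (nat_lit 587) (nat_lit 5) (nat_lit 414) (nat_lit 371) (nat_lit 355))))) (XT.nd (nat_lit 156) (nat_lit 3648) (nat_lit 0) (XT.nd (nat_lit 78) (nat_lit 1748) (nat_lit 0) (XT.lf (nat_lit 0) (nat_lit 3359418354) (nat_lit 1596) (nat_lit 3445974972) (nat_lit 1672) (nat_lit 263333549) (nat_lit 565) (nat_lit 5) (nat_lit 586) (nat_lit 5) (nat_lit 587) (nat_lit 5) (nat_lit 415) (nat_lit 371) (nat_lit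 354)) (XT.lf (nat_lit 0) (nat_lit 1195830165) (nat_lit 1672) (nat_lit 1561820900) (nat_lit 1748) (nat_lit 4350358367) (nat_lit 542) (nat_lit 5) (nat_lit 564) (nat_lit 5) (nat_lit 565) (nat_lit 5) (nat_lit 416) (nat_lit 371) (nat_lit 353))) (XT.nd (nat_lit 78) (nat_lit 3648) (nat_lit 0) (XT.lf (nat_lit 0) (nat_lit 5803186268) (nat_lit 1748) (nat_lit 960603238) (nat_lit 76) (nat_lit 384900184) (nat_lit 542) (nat_lit 5) (nat_lit 565) (nat_lit 5) (nat_lit 543) (nat_lit 5) (nat_lit 417) (nat_lit 371) (nat_lit 352)) (XT.nd (nat_lit 78) (nat_lit 1824) (nat_lit 0) (XT.lf (nat_lit 0) (nat_lit 1674993048) (nat_lit 1824) (nat_lit 3125507815) (nat_lit 76) (nat_lit 2389897508) (nat_lit 518) (nat_lit 5) (nat_lit 542) (nat_lit 5) (nat_lit 519) (nat_lit 5) (nat_lit 418) (nat_lit 371) (nat_lit 351)) (XT.lf (nat_lit 0) (nat_lit 1930075335) (nat_lit 1824) (nat_lit 2768674249) (nat_lit 1900) (nat_lit 2534796437) (nat_lit 494) (nat_lit 5) (nat_lit 518) (nat_lit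 5) (nat_lit 519) (nat_lit 5) (nat_lit 419) (nat_lit 371) (nat_lit 350))))))) (XT.nd (nat_lit 780) (nat_lit 6080) (nat_lit 0) (XT.nd (nat_lit 390) (nat_lit 3572) (nat_lit 0) (XT.nd (nat_lit 156) (nat_lit 1900) (nat_lit 0) (XT.nd (nat_lit 78) (nat_lit 1140) (nat_lit 0) (XT.lf (nat_lit 0) (nat_lit 462128323) (nat_lit 1900) (nat_lit 209198484) (nat_lit 76) (nat_lit 6606897537) (nat_lit 493) (nat_lit 5) (nat_lit 518) (nat_lit 5) (nat_lit 494) (nat_lit 5) (nat_lit 420) (nat_lit 371) (nat_lit 349)) (XT.lf (nat_lit 0) (nat_lit 3470617178) (nat_lit 1216) (nat_lit 2354977801) (nat_lit 76) (nat_lit 1498154825) (nat_lit 478) (nat_lit 5) (nat_lit 494) (nat_lit 5) (nat_lit 479) (nat_lit 5) (nat_lit 421) (nat_lit 371) (nat_lit 348))) (XT.nd (nat_lit 78) (nat_lit 988) (nat_lit 0) (XT.lf (nat_lit 0) (nat_lit 2858628019) (nat_lit 912) (nat_lit 3649162545) (nat_lit 988) (nat_lit 863024913) (nat_lit 466) (nat_lit 5) (nat_lit 478) (nat_lit 5) (nat_lit 479)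 (nat_lit 5) (nat_lit 422) (nat_lit 371) (nat_lit 347)) (XT.nd (nat_lit 78) (nat_lit 0) (nat_lit 0) (XT.lf (nat_lit 0) (nat_lit 727409874) (nat_lit 912) (nat_lit 1395880551) (nat_lit 988) (nat_lit 5295946327) (nat_lit 453) (nat_lit 5) (nat_lit 465) (nat_lit 5) (nat_lit 466) (nat_lit 5) (nat_lit 423) (nat_lit 371) (nat_lit 346)) (XT.lf (nat_lit 0) (nat_lit 5139282414) (nat_lit 988) (nat_lit 1405282049) (nat_lit 76) (nat_lit 924317773) (nat_lit 453) (nat_lit 5) (nat_lit 466) (nat_lit 5) (nat_lit 454) (nat_lit 5) (nat_lit 424) (nat_lit 371) (nat_lit 345))))) (XT.nd (nat_lit 156) (nat_lit 1748) (nat_lit 0) (XT.nd (nat_lit 78) (nat_lit 912) (nat_lit 0) (XT.lf (nat_lit 0) (nat_lit 668088801) (nat_lit 912) (nat_lit 3551743306) (nat_lit 76) (nat_lit 3299975249) (nat_lit 441) (nat_lit 5) (nat_lit 453) (nat_lit 5) (nat_lit 442) (nat_lit 5) (nat_lit 425) (nat_lit 371) (nat_lit 344)) (XT.lf (nat_lit 0) (nat_lit 1847467305) (nat_lit 912) (nat_lit 1815152177)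 (nat_lit 988) (nat_lit 3909461891) (nat_lit 429) (nat_lit 5) (nat_lit 441) (nat_lit 5) (nat_lit 442) (nat_lit 5) (nat_lit 426) (nat_lit 371) (nat_lit 343))) (XT.nd (nat_lit 78) (nat_lit 1748) (nat_lit 0) (XT.lf (nat_lit 0) (nat_lit 6692384194) (nat_lit 988) (nat_lit 284697707) (nat_lit 76) (nat_lit 648812101) (nat_lit 429) (nat_lit 5) (nat_lit 442) (nat_lit 5) (nat_lit 430) (nat_lit 5) (nat_lit 427) (nat_lit 371) (nat_lit 342)) (XT.nd (nat_lit 78) (nat_lit 836) (nat_lit 0) (XT.lf (nat_lit 0) (nat_lit 2068801196) (nat_lit 912) (nat_lit 2430611481) (nat_lit 76) (nat_lit 3181209110) (nat_lit 417) (nat_lit 5) (nat_lit 429) (nat_lit 5) (nat_lit 418) (nat_lit 5) (nat_lit 428) (nat_lit 371) (nat_lit 341)) (XT.lf (nat_lit 0) (nat_lit 3140410199) (nat_lit 836) (nat_lit 1949127436) (nat_lit 912) (nat_lit 2647365505) (nat_lit 406) (nat_lit 5) (nat_lit 417) (nat_lit 5) (nat_lit 418) (nat_lit 5) (nat_lit 429) (nat_lit 371) (nat_lit 340)))))) (XT.nd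 (nat_lit 390) (nat_lit 2888) (nat_lit 0) (XT.nd (nat_lit 156) (nat_lit 2356) (nat_lit 0) (XT.nd (nat_lit 78) (nat_lit 0) (nat_lit 0) (XT.lf (nat_lit 0) (nat_lit 347666168) (nat_lit 836) (nat_lit 6784359491) (nat_lit 76) (nat_lit 662711112) (nat_lit 395) (nat_lit 5) (nat_lit 406) (nat_lit 5) (nat_lit 396) (nat_lit 5) (nat_lit 430) (nat_lit 371) (nat_lit 339)) (XT.lf (nat_lit 0) (nat_lit 3360582703) (nat_lit 836) (nat_lit 1150398495) (nat_lit 76) (nat_lit 3342527245) (nat_lit 395) (nat_lit 5) (nat_lit 406) (nat_lit 5) (nat_lit 396) (nat_lit 5) (nat_lit 431) (nat_lit 371) (nat_lit 338))) (XT.nd (nat_lit 78) (nat_lit 1596) (nat_lit 0) (XT.lf (nat_lit 0) (nat_lit 4599371863) (nat_lit 760) (nat_lit 1814681241) (nat_lit 836) (nat_lit 1499796534) (nat_lit 385) (nat_lit 5) (nat_lit 395) (nat_lit 5) (nat_lit 396) (nat_lit 5) (nat_lit 432) (nat_lit 371) (nat_lit 337)) (XT.nd (nat_lit 78) (nat_lit 760) (nat_lit 0) (XT.lf (nat_lit 0) (nat_lit 1513585431)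 (nat_lit 836) (nat_lit 5512683627) (nat_lit 76) (nat_lit 949311699) (nat_lit 374) (nat_lit 5) (nat_lit 385) (nat_lit 5) (nat_lit 375) (nat_lit 5) (nat_lit 433) (nat_lit 371) (nat_lit 336)) (XT.lf (nat_lit 0) (nat_lit 286292378) (nat_lit 760) (nat_lit 4268398222) (nat_lit 836) (nat_lit 3483906869) (nat_lit 364) (nat_lit 5) (nat_lit 374) (nat_lit 5) (nat_lit 375) (nat_lit 5) (nat_lit 434) (nat_lit 371) (nat_lit 335))))) (XT.nd (nat_lit 234) (nat_lit 1444) (nat_lit 0) (XT.nd (nat_lit 78) (nat_lit 1444) (nat_lit 0) (XT.lf (nat_lit 0) (nat_lit 6218344028) (nat_lit 760) (nat_lit 1427101825) (nat_lit 836) (nat_lit 457652103) (nat_lit 364) (nat_lit 5) (nat_lit 374) (nat_lit 5) (nat_lit 375) (nat_lit 5) (nat_lit 435) (nat_lit 371) (nat_lit 334)) (XT.nd (nat_lit 78) (nat_lit 684) (nat_lit 0) (XT.lf (nat_lit 0) (nat_lit 2583376407) (nat_lit 760) (nat_lit 4099295488) (nat_lit 76) (nat_lit 1486100553) (nat_lit 354) (nat_lit 5) (nat_lit 364) (nat_lit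 5) (nat_lit 355) (nat_lit 5) (nat_lit 436) (nat_lit 371) (nat_lit 333)) (XT.lf (nat_lit 0) (nat_lit 1887389760) (nat_lit 684) (nat_lit 3779116796) (nat_lit 760) (nat_lit 2569445193) (nat_lit 345) (nat_lit 5) (nat_lit 354) (nat_lit 5) (nat_lit 355) (nat_lit 5) (nat_lit 437) (nat_lit 371) (nat_lit 332)))) (XT.nd (nat_lit 78) (nat_lit 1368) (nat_lit 0) (XT.lf (nat_lit 0) (nat_lit 481077509) (nat_lit 760) (nat_lit 315895657) (nat_lit 76) (nat_lit 7507817657) (nat_lit 344) (nat_lit 5) (nat_lit 354) (nat_lit 5) (nat_lit 345) (nat_lit 5) (nat_lit 438) (nat_lit 371) (nat_lit 331)) (XT.nd (nat_lit 78) (nat_lit 684) (nat_lit 0) (XT.lf (nat_lit 0) (nat_lit 3565151694) (nat_lit 760) (nat_lit 2549428922) (nat_lit 76) (nat_lit 2259947465) (nat_lit 335) (nat_lit 5) (nat_lit 345) (nat_lit 5) (nat_lit 336) (nat_lit 5) (nat_lit 439) (nat_lit 371) (nat_lit 330)) (XT.lf (nat_lit 0) (nat_lit 3632728871) (nat_lit 684) (nat_lit 3063765121) (nat_lit 760) (nat_lit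 1749454360) (nat_lit 326) (nat_lit 5) (nat_lit 335) (nat_lit 5) (nat_lit 336) (nat_lit 5) (nat_lit 440) (nat_lit 371) (nat_lit 329))))))))
noncomputable def xc77 : XT := (XT.nd (nat_lit 1560) (nat_lit 5928) (nat_lit 0) (XT.nd (nat_lit 780) (nat_lit 4180) (nat_lit 0) (XT.nd (nat_lit 390) (nat_lit 1824) (nat_lit 0) (XT.nd (nat_lit 156) (nat_lit 1900) (nat_lit 0) (XT.nd (nat_lit 78) (nat_lit 0) (nat_lit 0) (XT.lf (nat_lit 0) (nat_lit 1335309618) (nat_lit 684) (nat_lit 7112824776) (nat_lit 76) (nat_lit 70851855) (nat_lit 317) (nat_lit 5) (nat_lit 326) (nat_lit 5) (nat_lit 318) (nat_lit 5) (nat_lit 441) (nat_lit 371) (nat_lit 328)) (XT.lf (nat_lit 0) (nat_lit 4466416730) (nat_lit 684) (nat_lit 867614656) (nat_lit 76) (nat_lit 3259060780) (nat_lit 317) (nat_lit 5) (nat_lit 326) (nat_lit 5) (nat_lit 318) (nat_lit 5) (nat_lit 442) (nat_lit 371) (nat_lit 327))) (XT.nd (nat_lit 78) (nat_lit 1292) (nat_lit 0) (XT.lf (nat_lit 0) (nat_lit 5518144938)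 (nat_lit 608) (nat_lit 2133954164) (nat_lit 684) (nat_lit 1016742035) (nat_lit 309) (nat_lit 5) (nat_lit 317) (nat_lit 5) (nat_lit 318) (nat_lit 5) (nat_lit 443) (nat_lit 371) (nat_lit 326)) (XT.nd (nat_lit 78) (nat_lit 608) (nat_lit 0) (XT.lf (nat_lit 0) (nat_lit 2118065125) (nat_lit 684) (nat_lit 5484377017) (nat_lit 76) (nat_lit 1143564195) (nat_lit 300) (nat_lit 5) (nat_lit 309) (nat_lit 5) (nat_lit 301) (nat_lit 5) (nat_lit 444) (nat_lit 371) (nat_lit 325)) (XT.lf (nat_lit 0) (nat_lit 954799258) (nat_lit 608) (nat_lit 4345516814) (nat_lit 684) (nat_lit 3524297118) (nat_lit 292) (nat_lit 5) (nat_lit 300) (nat_lit 5) (nat_lit 301) (nat_lit 5) (nat_lit 445) (nat_lit 371) (nat_lit 324))))) (XT.nd (nat_lit 156) (nat_lit 1216) (nat_lit 0) (XT.nd (nat_lit 78) (nat_lit 608) (nat_lit 0) (XT.lf (nat_lit 0) (nat_lit 7540143005) (nat_lit 608) (nat_lit 1000085519) (nat_lit 684) (nat_lit 364683326) (nat_lit 292) (nat_lit 5) (nat_lit 300) (nat_lit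 5) (nat_lit 301) (nat_lit 5) (nat_lit 446) (nat_lit 371) (nat_lit 323)) (XT.lf (nat_lit 0) (nat_lit 2828512074) (nat_lit 608) (nat_lit 3738063280) (nat_lit 76) (nat_lit 2419712511) (nat_lit 284) (nat_lit 5) (nat_lit 292) (nat_lit 5) (nat_lit 285) (nat_lit 5) (nat_lit 447) (nat_lit 371) (nat_lit 322))) (XT.nd (nat_lit 78) (nat_lit 608) (nat_lit 0) (XT.lf (nat_lit 0) (nat_lit 2915230309) (nat_lit 608) (nat_lit 3158378276) (nat_lit 684) (nat_lit 2995776198) (nat_lit 276) (nat_lit 5) (nat_lit 284) (nat_lit 5) (nat_lit 285) (nat_lit 5) (nat_lit 448) (nat_lit 371) (nat_lit 321)) (XT.nd (nat_lit 78) (nat_lit 0) (nat_lit 0) (XT.lf (nat_lit 0) (nat_lit 215749465) (nat_lit 608) (nat_lit 8609352851) (nat_lit 76) (nat_lit 329225615) (nat_lit 268) (nat_lit 5) (nat_lit 276) (nat_lit 5) (nat_lit 269) (nat_lit 5) (nat_lit 449) (nat_lit 371) (nat_lit 320)) (XT.lf (nat_lit 0) (nat_lit 3472593688) (nat_lit 608) (nat_lit 1876969504) (nat_lit 76) (nat_lit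 3890586679) (nat_lit 268) (nat_lit 5) (nat_lit 276) (nat_lit 5) (nat_lit 269) (nat_lit 5) (nat_lit 450) (nat_lit 371) (nat_lit 319)))))) (XT.nd (nat_lit 390) (nat_lit 1976) (nat_lit 0) (XT.nd (nat_lit 156) (nat_lit 1064) (nat_lit 0) (XT.nd (nat_lit 78) (nat_lit 608) (nat_lit 0) (XT.lf (nat_lit 0) (nat_lit 4999449363) (nat_lit 532) (nat_lit 1787071911) (nat_lit 608) (nat_lit 2541328046) (nat_lit 261) (nat_lit 5) (nat_lit 268) (nat_lit 5) (nat_lit 269) (nat_lit 5) (nat_lit 451) (nat_lit 371) (nat_lit 318)) (XT.lf (nat_lit 0) (nat_lit 740886997) (nat_lit 608) (nat_lit 6835015967) (nat_lit 76) (nat_lit 1841276656) (nat_lit 253) (nat_lit 5) (nat_lit 261) (nat_lit 5) (nat_lit 254) (nat_lit 5) (nat_lit 452) (nat_lit 371) (nat_lit 317))) (XT.nd (nat_lit 78) (nat_lit 532) (nat_lit 0) (XT.lf (nat_lit 0) (nat_lit 97648129) (nat_lit 532) (nat_lit 3958785476) (nat_lit 608) (nat_lit 5451492644) (nat_lit 246) (nat_lit 5) (nat_lit 253) (nat_lit 5) (nat_lit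 254) (nat_lit 5) (nat_lit 453) (nat_lit 371) (nat_lit 316)) (XT.nd (nat_lit 78) (nat_lit 532) (nat_lit 0) (XT.lf (nat_lit 0) (nat_lit 7205317968) (nat_lit 532) (nat_lit 239235708) (nat_lit 608) (nat_lit 2155808884) (nat_lit 246) (nat_lit 5) (nat_lit 253) (nat_lit 5) (nat_lit 254) (nat_lit 5) (nat_lit 454) (nat_lit 371) (nat_lit 315)) (XT.lf (nat_lit 0) (nat_lit 1205018827) (nat_lit 532) (nat_lit 4958511398) (nat_lit 76) (nat_lit 3530659909) (nat_lit 239) (nat_lit 5) (nat_lit 246) (nat_lit 5) (nat_lit 240) (nat_lit 5) (nat_lit 455) (nat_lit 371) (nat_lit 314))))) (XT.nd (nat_lit 156) (nat_lit 1444) (nat_lit 0) (XT.nd (nat_lit 78) (nat_lit 0) (nat_lit 0) (XT.lf (nat_lit 0) (nat_lit 2208899326) (nat_lit 532) (nat_lit 2388643074) (nat_lit 608) (nat_lit 5192199949) (nat_lit 232) (nat_lit 5) (nat_lit 239) (nat_lit 5) (nat_lit 240) (nat_lit 5) (nat_lit 456) (nat_lit 371) (nat_lit 313)) (XT.lf (nat_lit 0) (nat_lit 8062402984) (nat_lit 608) (nat_lit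 365678374) (nat_lit 76) (nat_lit 1459034520) (nat_lit 232) (nat_lit 5) (nat_lit 240) (nat_lit 5) (nat_lit 233) (nat_lit 5) (nat_lit 457) (nat_lit 371) (nat_lit 312))) (XT.nd (nat_lit 78) (nat_lit 912) (nat_lit 0) (XT.lf (nat_lit 0) (nat_lit 1612782896) (nat_lit 532) (nat_lit 2981799694) (nat_lit 76) (nat_lit 5391169686) (nat_lit 225) (nat_lit 5) (nat_lit 232) (nat_lit 5) (nat_lit 226) (nat_lit 5) (nat_lit 458) (nat_lit 371) (nat_lit 311)) (XT.nd (nat_lit 78) (nat_lit 456) (nat_lit 0) (XT.lf (nat_lit 0) (nat_lit 4430292112) (nat_lit 456) (nat_lit 657953850) (nat_lit 532) (nat_lit 4998001209) (nat_lit 219) (nat_lit 5) (nat_lit 225) (nat_lit 5) (nat_lit 226) (nat_lit 5) (nat_lit 459) (nat_lit 371) (nat_lit 310)) (XT.lf (nat_lit 0) (nat_lit 1788622601) (nat_lit 456) (nat_lit 6860807288) (nat_lit 532) (nat_lit 1538997841) (nat_lit 213) (nat_lit 5) (nat_lit 219) (nat_lit 5) (nat_lit 220) (nat_lit 5) (nat_lit 460) (nat_lit 371) (nat_lit 309)))))))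 (XT.nd (nat_lit 780) (nat_lit 2812) (nat_lit 0) (XT.nd (nat_lit 390) (nat_lit 1672) (nat_lit 0) (XT.nd (nat_lit 156) (nat_lit 912) (nat_lit 0) (XT.nd (nat_lit 78) (nat_lit 456) (nat_lit 0) (XT.lf (nat_lit 0) (nat_lit 1968447134) (nat_lit 532) (nat_lit 906383121) (nat_lit 76) (nat_lit 7417456343) (nat_lit 212) (nat_lit 5) (nat_lit 219) (nat_lit 5) (nat_lit 213) (nat_lit 5) (nat_lit 461) (nat_lit 371) (nat_lit 308)) (XT.lf (nat_lit 0) (nat_lit 5540837246) (nat_lit 532) (nat_lit 3645092700) (nat_lit 76) (nat_lit 1211781173) (nat_lit 206) (nat_lit 5) (nat_lit 213) (nat_lit 5) (nat_lit 207) (nat_lit 5) (nat_lit 462) (nat_lit 371) (nat_lit 307))) (XT.nd (nat_lit 78) (nat_lit 532) (nat_lit 0) (XT.lf (nat_lit 0) (nat_lit 4051137532) (nat_lit 380) (nat_lit 5148763244) (nat_lit 456) (nat_lit 1305038842) (nat_lit 201) (nat_lit 5) (nat_lit 206) (nat_lit 5) (nat_lit 207) (nat_lit 5) (nat_lit 463) (nat_lit 371) (nat_lit 306)) (XT.nd (nat_lit 78) (nat_lit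 0) (nat_lit 0) (XT.lf (nat_lit 0) (nat_lit 1283503862) (nat_lit 456) (nat_lit 1000766778) (nat_lit 532) (nat_lit 8329804337) (nat_lit 194) (nat_lit 5) (nat_lit 200) (nat_lit 5) (nat_lit 201) (nat_lit 5) (nat_lit 464) (nat_lit 371) (nat_lit 305)) (XT.lf (nat_lit 0) (nat_lit 5956587611) (nat_lit 532) (nat_lit 1546618622) (nat_lit 76) (nat_lit 3221440370) (nat_lit 194) (nat_lit 5) (nat_lit 201) (nat_lit 5) (nat_lit 195) (nat_lit 5) (nat_lit 465) (nat_lit 371) (nat_lit 304))))) (XT.nd (nat_lit 156) (nat_lit 836) (nat_lit 0) (XT.nd (nat_lit 78) (nat_lit 456) (nat_lit 0) (XT.lf (nat_lit 0) (nat_lit 6416391695) (nat_lit 380) (nat_lit 3299061662) (nat_lit 456) (nat_lit 1121714255) (nat_lit 189) (nat_lit 5) (nat_lit 194) (nat_lit 5) (nat_lit 195) (nat_lit 5) (nat_lit 466) (nat_lit 371) (nat_lit 303)) (XT.lf (nat_lit 0) (nat_lit 2568763133) (nat_lit 456) (nat_lit 7374554613) (nat_lit 76) (nat_lit 1008178531) (nat_lit 183) (nat_lit 5) (nat_lit 189)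 (nat_lit 5) (nat_lit 184) (nat_lit 5) (nat_lit 467) (nat_lit 371) (nat_lit 302))) (XT.nd (nat_lit 78) (nat_lit 456) (nat_lit 0) (XT.lf (nat_lit 0) (nat_lit 651624177) (nat_lit 380) (nat_lit 5687499897) (nat_lit 456) (nat_lit 4728417275) (nat_lit 178) (nat_lit 5) (nat_lit 183) (nat_lit 5) (nat_lit 184) (nat_lit 5) (nat_lit 468) (nat_lit 371) (nat_lit 301)) (XT.nd (nat_lit 78) (nat_lit 456) (nat_lit 0) (XT.lf (nat_lit 0) (nat_lit 8884179874) (nat_lit 380) (nat_lit 1315670393) (nat_lit 456) (nat_lit 985757894) (nat_lit 178) (nat_lit 5) (nat_lit 183) (nat_lit 5) (nat_lit 184) (nat_lit 5) (nat_lit 469) (nat_lit 371) (nat_lit 300)) (XT.lf (nat_lit 0) (nat_lit 2820041162) (nat_lit 456) (nat_lit 5344320409) (nat_lit 76) (nat_lit 3140798517) (nat_lit 172) (nat_lit 5) (nat_lit 178) (nat_lit 5) (nat_lit 173) (nat_lit 5) (nat_lit 470) (nat_lit 371) (nat_lit 299)))))) (XT.nd (nat_lit 390) (nat_lit 1368) (nat_lit 0) (XT.nd (nat_lit 156) (nat_lit 1140)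 (nat_lit 0) (XT.nd (nat_lit 78) (nat_lit 0) (nat_lit 0) (XT.lf (nat_lit 0) (nat_lit 2962566674) (nat_lit 304) (nat_lit 3735817513) (nat_lit 380) (nat_lit 4728396004) (nat_lit 168) (nat_lit 5) (nat_lit 172) (nat_lit 5) (nat_lit 173) (nat_lit 5) (nat_lit 471) (nat_lit 371) (nat_lit 298)) (XT.lf (nat_lit 0) (nat_lit 10661777838) (nat_lit 380) (nat_lit 101279638) (nat_lit 76) (nat_lit 787625545) (nat_lit 168) (nat_lit 5) (nat_lit 173) (nat_lit 5) (nat_lit 169) (nat_lit 5) (nat_lit 472) (nat_lit 371) (nat_lit 297))) (XT.nd (nat_lit 78) (nat_lit 684) (nat_lit 0) (XT.lf (nat_lit 0) (nat_lit 3034634325) (nat_lit 456) (nat_lit 3233770719) (nat_lit 76) (nat_lit 5407326481) (nat_lit 162) (nat_lit 5) (nat_lit 168) (nat_lit 5) (nat_lit 163) (nat_lit 5) (nat_lit 473) (nat_lit 371) (nat_lit 296)) (XT.nd (nat_lit 78) (nat_lit 380) (nat_lit 0) (XT.lf (nat_lit 0) (nat_lit 5365730074) (nat_lit 304) (nat_lit 1661606350) (nat_lit 380) (nat_lit 4775775175)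 (nat_lit 158) (nat_lit 5) (nat_lit 162) (nat_lit 5) (nat_lit 163) (nat_lit 5) (nat_lit 474) (nat_lit 371) (nat_lit 295)) (XT.lf (nat_lit 0) (nat_lit 2204399538) (nat_lit 380) (nat_lit 8918605959) (nat_lit 456) (nat_lit 809571519) (nat_lit 153) (nat_lit 5) (nat_lit 158) (nat_lit 5) (nat_lit 159) (nat_lit 5) (nat_lit 475) (nat_lit 371) (nat_lit 294))))) (XT.nd (nat_lit 234) (nat_lit 684) (nat_lit 0) (XT.nd (nat_lit 78) (nat_lit 608) (nat_lit 0) (XT.lf (nat_lit 0) (nat_lit 3215325476) (nat_lit 456) (nat_lit 1042973908) (nat_lit 76) (nat_lit 7805475970) (nat_lit 152) (nat_lit 5) (nat_lit 158) (nat_lit 5) (nat_lit 153) (nat_lit 5) (nat_lit 476) (nat_lit 371) (nat_lit 293)) (XT.nd (nat_lit 78) (nat_lit 304) (nat_lit 0) (XT.lf (nat_lit 0) (nat_lit 7332352841) (nat_lit 380) (nat_lit 4339030690) (nat_lit 76) (nat_lit 525657651) (nat_lit 148) (nat_lit 5) (nat_lit 153) (nat_lit 5) (nat_lit 149) (nat_lit 5) (nat_lit 477) (nat_lit 371) (nat_lit 292))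 (XT.lf (nat_lit 0) (nat_lit 4598076000) (nat_lit 304) (nat_lit 6966868004) (nat_lit 380) (nat_lit 767363857) (nat_lit 144) (nat_lit 5) (nat_lit 148) (nat_lit 5) (nat_lit 149) (nat_lit 5) (nat_lit 478) (nat_lit 371) (nat_lit 291)))) (XT.nd (nat_lit 78) (nat_lit 304) (nat_lit 0) (XT.lf (nat_lit 0) (nat_lit 1244642422) (nat_lit 304) (nat_lit 2128110041) (nat_lit 380) (nat_lit 9096972500) (nat_lit 139) (nat_lit 5) (nat_lit 143) (nat_lit 5) (nat_lit 144) (nat_lit 5) (nat_lit 479) (nat_lit 371) (nat_lit 290)) (XT.nd (nat_lit 78) (nat_lit 304) (nat_lit 0) (XT.lf (nat_lit 0) (nat_lit 7624232308) (nat_lit 380) (nat_lit 2177104380) (nat_lit 76) (nat_lit 2807675552) (nat_lit 139) (nat_lit 5) (nat_lit 144) (nat_lit 5) (nat_lit 140) (nat_lit 5) (nat_lit 480) (nat_lit 371) (nat_lit 289)) (XT.lf (nat_lit 0) (nat_lit 7079080887) (nat_lit 304) (nat_lit 4910691353) (nat_lit 380) (nat_lit 760732411) (nat_lit 135) (nat_lit 5) (nat_lit 139) (nat_lit 5) (nat_lit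 140) (nat_lit 5) (nat_lit 481) (nat_lit 371) (nat_lit 288))))))))
noncomputable def xc78 : XT := (XT.nd (nat_lit 1560) (nat_lit 1140) (nat_lit 0) (XT.nd (nat_lit 780) (nat_lit 1900) (nat_lit 0) (XT.nd (nat_lit 390) (nat_lit 912) (nat_lit 0) (XT.nd (nat_lit 156) (nat_lit 608) (nat_lit 0) (XT.nd (nat_lit 78) (nat_lit 304) (nat_lit 0) (XT.lf (nat_lit 0) (nat_lit 3509353756) (nat_lit 380) (nat_lit 9266751860) (nat_lit 76) (nat_lit 118098848) (nat_lit 130) (nat_lit 5) (nat_lit 135) (nat_lit 5) (nat_lit 131) (nat_lit 5) (nat_lit 482) (nat_lit 371) (nat_lit 287)) (XT.lf (nat_lit 0) (nat_lit 60432753) (nat_lit 304) (nat_lit 7834644248) (nat_lit 380) (nat_lit 5144792273) (nat_lit 126) (nat_lit 5) (nat_lit 130) (nat_lit 5) (nat_lit 131) (nat_lit 5) (nat_lit 483) (nat_lit 371) (nat_lit 286))) (XT.nd (nat_lit 78) (nat_lit 608) (nat_lit 0) (XT.lf (nat_lit 0) (nat_lit 9648398827) (nat_lit 304) (nat_lit 2751759510) (nat_lit 380) (nat_lit 787656169)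 (nat_lit 126) (nat_lit 5) (nat_lit 130) (nat_lit 5) (nat_lit 131) (nat_lit 5) (nat_lit 484) (nat_lit 371) (nat_lit 285)) (XT.nd (nat_lit 78) (nat_lit 304) (nat_lit 0) (XT.lf (nat_lit 0) (nat_lit 3634177071) (nat_lit 304) (nat_lit 7259305325) (nat_lit 76) (nat_lit 2444251190) (nat_lit 122) (nat_lit 5) (nat_lit 126) (nat_lit 5) (nat_lit 123) (nat_lit 5) (nat_lit 485) (nat_lit 371) (nat_lit 284)) (XT.lf (nat_lit 0) (nat_lit 2403456660) (nat_lit 304) (nat_lit 5758179962) (nat_lit 380) (nat_lit 5328355570) (nat_lit 118) (nat_lit 5) (nat_lit 122) (nat_lit 5) (nat_lit 123) (nat_lit 5) (nat_lit 486) (nat_lit 371) (nat_lit 283))))) (XT.nd (nat_lit 156) (nat_lit 608) (nat_lit 0) (XT.nd (nat_lit 78) (nat_lit 304) (nat_lit 0) (XT.lf (nat_lit 0) (nat_lit 12307311794) (nat_lit 304) (nat_lit 491296938) (nat_lit 380) (nat_lit 846307971) (nat_lit 118) (nat_lit 5) (nat_lit 122) (nat_lit 5) (nat_lit 123) (nat_lit 5) (nat_lit 487) (nat_lit 371) (nat_lit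 282)) (XT.lf (nat_lit 0) (nat_lit 3735382276) (nat_lit 304) (nat_lit 5188466953) (nat_lit 76) (nat_lit 4877429507) (nat_lit 114) (nat_lit 5) (nat_lit 118) (nat_lit 5) (nat_lit 115) (nat_lit 5) (nat_lit 488) (nat_lit 371) (nat_lit 281))) (XT.nd (nat_lit 78) (nat_lit 304) (nat_lit 0) (XT.lf (nat_lit 0) (nat_lit 4824047628) (nat_lit 304) (nat_lit 3587707194) (nat_lit 380) (nat_lit 5548613695) (nat_lit 110) (nat_lit 5) (nat_lit 114) (nat_lit 5) (nat_lit 115) (nat_lit 5) (nat_lit 489) (nat_lit 371) (nat_lit 280)) (XT.nd (nat_lit 78) (nat_lit 76) (nat_lit 0) (XT.lf (nat_lit 0) (nat_lit 934988570) (nat_lit 228) (nat_lit 12270705091) (nat_lit 304) (nat_lit 916465656) (nat_lit 107) (nat_lit 5) (nat_lit 110) (nat_lit 5) (nat_lit 111) (nat_lit 5) (nat_lit 490) (nat_lit 371) (nat_lit 279)) (XT.lf (nat_lit 0) (nat_lit 3814785161) (nat_lit 304) (nat_lit 3053536460) (nat_lit 76) (nat_lit 7417241655) (nat_lit 106) (nat_lit 5) (nat_lit 110) (nat_lit 5)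 (nat_lit 107) (nat_lit 5) (nat_lit 491) (nat_lit 371) (nat_lit 278)))))) (XT.nd (nat_lit 390) (nat_lit 836) (nat_lit 0) (XT.nd (nat_lit 156) (nat_lit 532) (nat_lit 0) (XT.nd (nat_lit 78) (nat_lit 228) (nat_lit 0) (XT.lf (nat_lit 0) (nat_lit 7323481031) (nat_lit 304) (nat_lit 1323970319) (nat_lit 380) (nat_lit 5804281569) (nat_lit 102) (nat_lit 5) (nat_lit 106) (nat_lit 5) (nat_lit 107) (nat_lit 5) (nat_lit 492) (nat_lit 371) (nat_lit 277)) (XT.lf (nat_lit 0) (nat_lit 3294185248) (nat_lit 228) (nat_lit 10324329816) (nat_lit 304) (nat_lit 1001876009) (nat_lit 99) (nat_lit 5) (nat_lit 102) (nat_lit 5) (nat_lit 103) (nat_lit 5) (nat_lit 493) (nat_lit 371) (nat_lit 276))) (XT.nd (nat_lit 78) (nat_lit 456) (nat_lit 0) (XT.lf (nat_lit 0) (nat_lit 3874052411) (nat_lit 304) (nat_lit 853580636) (nat_lit 76) (nat_lit 10063711777) (nat_lit 98) (nat_lit 5) (nat_lit 102) (nat_lit 5) (nat_lit 99) (nat_lit 5) (nat_lit 494) (nat_lit 371) (nat_lit 275))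 (XT.nd (nat_lit 78) (nat_lit 228) (nat_lit 0) (XT.lf (nat_lit 0) (nat_lit 8877315981) (nat_lit 304) (nat_lit 5068272235) (nat_lit 76) (nat_lit 1019132352) (nat_lit 95) (nat_lit 5) (nat_lit 99) (nat_lit 5) (nat_lit 96) (nat_lit 5) (nat_lit 495) (nat_lit 371) (nat_lit 274)) (XT.lf (nat_lit 0) (nat_lit 5726803591) (nat_lit 228) (nat_lit 8300412381) (nat_lit 304) (nat_lit 1113416433) (nat_lit 92) (nat_lit 5) (nat_lit 95) (nat_lit 5) (nat_lit 96) (nat_lit 5) (nat_lit 496) (nat_lit 371) (nat_lit 273))))) (XT.nd (nat_lit 156) (nat_lit 532) (nat_lit 0) (XT.nd (nat_lit 78) (nat_lit 0) (nat_lit 0) (XT.lf (nat_lit 0) (nat_lit 1431331412) (nat_lit 228) (nat_lit 2492674494) (nat_lit 304) (nat_lit 11395224522) (nat_lit 88) (nat_lit 5) (nat_lit 91) (nat_lit 5) (nat_lit 92) (nat_lit 5) (nat_lit 497) (nat_lit 371) (nat_lit 272)) (XT.lf (nat_lit 0) (nat_lit 9105604762) (nat_lit 304) (nat_lit 2957902485) (nat_lit 76) (nat_lit 3436579237) (nat_lit 88) (nat_lit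 5) (nat_lit 92) (nat_lit 5) (nat_lit 89) (nat_lit 5) (nat_lit 498) (nat_lit 371) (nat_lit 271))) (XT.nd (nat_lit 78) (nat_lit 304) (nat_lit 0) (XT.lf (nat_lit 0) (nat_lit 8234439651) (nat_lit 228) (nat_lit 6199362197) (nat_lit 304) (nat_lit 1249898488) (nat_lit 85) (nat_lit 5) (nat_lit 88) (nat_lit 5) (nat_lit 89) (nat_lit 5) (nat_lit 499) (nat_lit 371) (nat_lit 270)) (XT.nd (nat_lit 78) (nat_lit 0) (nat_lit 0) (XT.lf (nat_lit 0) (nat_lit 3796046858) (nat_lit 228) (nat_lit 166766834) (nat_lit 304) (nat_lit 11907300350) (nat_lit 81) (nat_lit 5) (nat_lit 84) (nat_lit 5) (nat_lit 85) (nat_lit 5) (nat_lit 500) (nat_lit 371) (nat_lit 269)) (XT.lf (nat_lit 0) (nat_lit 9325372374) (nat_lit 304) (nat_lit 787368452) (nat_lit 76) (nat_lit 5946103392) (nat_lit 81) (nat_lit 5) (nat_lit 85) (nat_lit 5) (nat_lit 82) (nat_lit 5) (nat_lit 501) (nat_lit 371) (nat_lit 268))))))) (XT.nd (nat_lit 51402) (nat_lit 0) (nat_lit 43928) (XT.nd (nat_lit 390) (nat_lit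 152) (nat_lit 0) (XT.nd (nat_lit 156) (nat_lit 456) (nat_lit 0) (XT.nd (nat_lit 78) (nat_lit 304) (nat_lit 0) (XT.lf (nat_lit 0) (nat_lit 10818917858) (nat_lit 228) (nat_lit 4021264380) (nat_lit 304) (nat_lit 1410266759) (nat_lit 78) (nat_lit 5) (nat_lit 81) (nat_lit 5) (nat_lit 82) (nat_lit 5) (nat_lit 502) (nat_lit 371) (nat_lit 267)) (XT.lf (nat_lit 0) (nat_lit 4000727393) (nat_lit 304) (nat_lit 10228713861) (nat_lit 76) (nat_lit 2215241882) (nat_lit 74) (nat_lit 5) (nat_lit 78) (nat_lit 5) (nat_lit 75) (nat_lit 5) (nat_lit 503) (nat_lit 371) (nat_lit 266))) (XT.nd (nat_lit 78) (nat_lit 304) (nat_lit 0) (XT.lf (nat_lit 0) (nat_lit 1463906005) (nat_lit 152) (nat_lit 8083767067) (nat_lit 228) (nat_lit 7094010146) (nat_lit 72) (nat_lit 5) (nat_lit 74) (nat_lit 5) (nat_lit 75) (nat_lit 5) (nat_lit 504) (nat_lit 371) (nat_lit 265)) (XT.nd (nat_lit 78) (nat_lit 304) (nat_lit 0) (XT.lf (nat_lit 0) (nat_lit 13482286600) (nat_lit 152) (nat_lit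 1765894006) (nat_lit 228) (nat_lit 1593590238) (nat_lit 72) (nat_lit 5) (nat_lit 74) (nat_lit 5) (nat_lit 75) (nat_lit 5) (nat_lit 505) (nat_lit 371) (nat_lit 264)) (XT.lf (nat_lit 0) (nat_lit 4026000607) (nat_lit 304) (nat_lit 8337988251) (nat_lit 76) (nat_lit 4680112882) (nat_lit 68) (nat_lit 5) (nat_lit 72) (nat_lit 5) (nat_lit 69) (nat_lit 5) (nat_lit 506) (nat_lit 371) (nat_lit 263))))) (XT.nd (nat_lit 50778) (nat_lit 0) (nat_lit 51832) (XT.nd (nat_lit 50700) (nat_lit 0) (nat_lit 53352) (XT.lf (nat_lit 0) (nat_lit 3789594697) (nat_lit 152) (nat_lit 5980460121) (nat_lit 228) (nat_lit 7479545569) (nat_lit 66) (nat_lit 5) (nat_lit 68) (nat_lit 5) (nat_lit 69) (nat_lit 5) (nat_lit 507) (nat_lit 371) (nat_lit 262)) (XT.lf (nat_lit 0) (nat_lit 1543139516) (nat_lit 684) (nat_lit 195461714) (nat_lit 0) (nat_lit 1543139516) (nat_lit 768) (nat_lit 5) (nat_lit 777) (nat_lit 4) (nat_lit 768) (nat_lit 4) (nat_lit 396) (nat_lit 372) (nat_lit 372)))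 (XT.nd (nat_lit 78) (nat_lit 836) (nat_lit 0) (XT.lf (nat_lit 0) (nat_lit 3693057694) (nat_lit 684) (nat_lit 2688171357) (nat_lit 684) (nat_lit 198059297) (nat_lit 759) (nat_lit 4) (nat_lit 768) (nat_lit 5) (nat_lit 768) (nat_lit 4) (nat_lit 397) (nat_lit 372) (nat_lit 371)) (XT.nd (nat_lit 78) (nat_lit 0) (nat_lit 0) (XT.lf (nat_lit 0) (nat_lit 1209688949) (nat_lit 760) (nat_lit 1830453299) (nat_lit 836) (nat_lit 3556165594) (nat_lit 748) (nat_lit 5) (nat_lit 758) (nat_lit 5) (nat_lit 759) (nat_lit 4) (nat_lit 398) (nat_lit 372) (nat_lit 370)) (XT.lf (nat_lit 0) (nat_lit 5371291941) (nat_lit 760) (nat_lit 913910192) (nat_lit 836) (nat_lit 329544485) (nat_lit 748) (nat_lit 5) (nat_lit 758) (nat_lit 5) (nat_lit 759) (nat_lit 4) (nat_lit 399) (nat_lit 372) (nat_lit 369)))))) (XT.nd (nat_lit 390) (nat_lit 3876) (nat_lit 0) (XT.nd (nat_lit 156) (nat_lit 2204) (nat_lit 0) (XT.nd (nat_lit 78) (nat_lit 912) (nat_lit 0) (XT.lf (nat_lit 0) (nat_lit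 2868788754) (nat_lit 912) (nat_lit 3686717872) (nat_lit 76) (nat_lit 78742533) (nat_lit 736) (nat_lit 5) (nat_lit 748) (nat_lit 5) (nat_lit 737) (nat_lit 4) (nat_lit 400) (nat_lit 372) (nat_lit 368)) (XT.lf (nat_lit 0) (nat_lit 528693663) (nat_lit 912) (nat_lit 5543452887) (nat_lit 988) (nat_lit 583042225) (nat_lit 724) (nat_lit 5) (nat_lit 736) (nat_lit 5) (nat_lit 737) (nat_lit 4) (nat_lit 401) (nat_lit 372) (nat_lit 367))) (XT.nd (nat_lit 78) (nat_lit 2128) (nat_lit 0) (XT.lf (nat_lit 0) (nat_lit 2581175381) (nat_lit 988) (nat_lit 1870877730) (nat_lit 76) (nat_lit 2225086727) (nat_lit 723) (nat_lit 5) (nat_lit 736) (nat_lit 5) (nat_lit 724) (nat_lit 5) (nat_lit 402) (nat_lit 372) (nat_lit 366)) (XT.nd (nat_lit 78) (nat_lit 1140) (nat_lit 0) (XT.lf (nat_lit 0) (nat_lit 2443370106) (nat_lit 988) (nat_lit 3302953389) (nat_lit 1064) (nat_lit 954220288) (nat_lit 710) (nat_lit 5) (nat_lit 723) (nat_lit 5) (nat_lit 724) (nat_lit 5) (nat_lit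 403) (nat_lit 372) (nat_lit 365)) (XT.lf (nat_lit 0) (nat_lit 76168883) (nat_lit 1064) (nat_lit 2087958710) (nat_lit 1140) (nat_lit 4561130345) (nat_lit 695) (nat_lit 5) (nat_lit 709) (nat_lit 5) (nat_lit 710) (nat_lit 5) (nat_lit 404) (nat_lit 372) (nat_lit 364))))) (XT.nd (nat_lit 234) (nat_lit 2660) (nat_lit 0) (XT.nd (nat_lit 78) (nat_lit 1216) (nat_lit 0) (XT.lf (nat_lit 0) (nat_lit 4492610926) (nat_lit 1064) (nat_lit 799156515) (nat_lit 1140) (nat_lit 1459378746) (nat_lit 695) (nat_lit 5) (nat_lit 709) (nat_lit 5) (nat_lit 710) (nat_lit 5) (nat_lit 405) (nat_lit 372) (nat_lit 363)) (XT.nd (nat_lit 78) (nat_lit 0) (nat_lit 0) (XT.lf (nat_lit 0) (nat_lit 1631891852) (nat_lit 1216) (nat_lit 4599313841) (nat_lit 76) (nat_lit 547128432) (nat_lit 679) (nat_lit 5) (nat_lit 695) (nat_lit 5) (nat_lit 680) (nat_lit 5) (nat_lit 406) (nat_lit 372) (nat_lit 362)) (XT.lf (nat_lit 0) (nat_lit 4719141517) (nat_lit 1216) (nat_lit 140637474) (nat_lit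 76) (nat_lit 1947020007) (nat_lit 679) (nat_lit 5) (nat_lit 695) (nat_lit 5) (nat_lit 680) (nat_lit 5) (nat_lit 407) (nat_lit 372) (nat_lit 361)))) (XT.nd (nat_lit 78) (nat_lit 1368) (nat_lit 0) (XT.lf (nat_lit 0) (nat_lit 981593732) (nat_lit 1292) (nat_lit 2432639944) (nat_lit 76) (nat_lit 3422208854) (nat_lit 662) (nat_lit 5) (nat_lit 679) (nat_lit 5) (nat_lit 663) (nat_lit 5) (nat_lit 408) (nat_lit 372) (nat_lit 360)) (XT.nd (nat_lit 78) (nat_lit 76) (nat_lit 0) (XT.lf (nat_lit 0) (nat_lit 2133354507) (nat_lit 1292) (nat_lit 1900692864) (nat_lit 1368) (nat_lit 2833360150) (nat_lit 645) (nat_lit 5) (nat_lit 662) (nat_lit 5) (nat_lit 663) (nat_lit 5) (nat_lit 409) (nat_lit 372) (nat_lit 359)) (XT.lf (nat_lit 0) (nat_lit 197169656) (nat_lit 1368) (nat_lit 132409128) (nat_lit 76) (nat_lit 6570343326) (nat_lit 644) (nat_lit 5) (nat_lit 662) (nat_lit 5) (nat_lit 645) (nat_lit 5) (nat_lit 410) (nat_lit 372) (nat_lit 358))))))))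
noncomputable def xc79 : XT := (XT.nd (nat_lit 1638) (nat_lit 10260) (nat_lit 0) (XT.nd (nat_lit 780) (nat_lit 7448) (nat_lit 0) (XT.nd (nat_lit 390) (nat_lit 5396) (nat_lit 0) (XT.nd (nat_lit 156) (nat_lit 3268) (nat_lit 0) (XT.nd (nat_lit 78) (nat_lit 1444) (nat_lit 0) (XT.lf (nat_lit 0) (nat_lit 3225278762) (nat_lit 1444) (nat_lit 2394456853) (nat_lit 76) (nat_lit 1313478659) (nat_lit 626) (nat_lit 5) (nat_lit 645) (nat_lit 5) (nat_lit 627) (nat_lit 5) (nat_lit 411) (nat_lit 372) (nat_lit 357)) (XT.lf (nat_lit 0) (nat_lit 2310586275) (nat_lit 1444) (nat_lit 3959089728) (nat_lit 1520) (nat_lit 698381758) (nat_lit 607) (nat_lit 5) (nat_lit 626) (nat_lit 5) (nat_lit 627) (nat_lit 5) (nat_lit 412) (nat_lit 372) (nat_lit 356))) (XT.nd (nat_lit 78) (nat_lit 1672) (nat_lit 0) (XT.lf (nat_lit 0) (nat_lit 68330387) (nat_lit 1520) (nat_lit 2226654308) (nat_lit 1596) (nat_lit 4709211043) (nat_lit 586) (nat_lit 5) (nat_lit 606) (nat_lit 5) (nat_lit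 607) (nat_lit 5) (nat_lit 413) (nat_lit 372) (nat_lit 355)) (XT.nd (nat_lit 78) (nat_lit 1672) (nat_lit 0) (XT.lf (nat_lit 0) (nat_lit 4891489384) (nat_lit 1520) (nat_lit 417567128) (nat_lit 1596) (nat_lit 1732503851) (nat_lit 586) (nat_lit 5) (nat_lit 606) (nat_lit 5) (nat_lit 607) (nat_lit 5) (nat_lit 414) (nat_lit 372) (nat_lit 354)) (XT.lf (nat_lit 0) (nat_lit 1253420533) (nat_lit 1672) (nat_lit 4386720296) (nat_lit 76) (nat_lit 1440026520) (nat_lit 564) (nat_lit 5) (nat_lit 586) (nat_lit 5) (nat_lit 565) (nat_lit 5) (nat_lit 415) (nat_lit 372) (nat_lit 353))))) (XT.nd (nat_lit 156) (nat_lit 3648) (nat_lit 0) (XT.nd (nat_lit 78) (nat_lit 76) (nat_lit 0) (XT.lf (nat_lit 0) (nat_lit 479507330) (nat_lit 1672) (nat_lit 3757392810) (nat_lit 1748) (nat_lit 2883196599) (nat_lit 542) (nat_lit 5) (nat_lit 564) (nat_lit 5) (nat_lit 565) (nat_lit 5) (nat_lit 416) (nat_lit 372) (nat_lit 352)) (XT.lf (nat_lit 0) (nat_lit 88318320) (nat_lit 1748)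 (nat_lit 1715265934) (nat_lit 76) (nat_lit 5357811834) (nat_lit 541) (nat_lit 5) (nat_lit 564) (nat_lit 5) (nat_lit 542) (nat_lit 5) (nat_lit 417) (nat_lit 372) (nat_lit 351))) (XT.nd (nat_lit 78) (nat_lit 1900) (nat_lit 0) (XT.lf (nat_lit 0) (nat_lit 3045663121) (nat_lit 1824) (nat_lit 3928408031) (nat_lit 76) (nat_lit 229769002) (nat_lit 518) (nat_lit 5) (nat_lit 542) (nat_lit 5) (nat_lit 519) (nat_lit 5) (nat_lit 418) (nat_lit 372) (nat_lit 350)) (XT.nd (nat_lit 78) (nat_lit 76) (nat_lit 0) (XT.lf (nat_lit 0) (nat_lit 1088282104) (nat_lit 1824) (nat_lit 4947439405) (nat_lit 1900) (nat_lit 1211940257) (nat_lit 494) (nat_lit 5) (nat_lit 518) (nat_lit 5) (nat_lit 519) (nat_lit 5) (nat_lit 419) (nat_lit 372) (nat_lit 349)) (XT.lf (nat_lit 0) (nat_lit 1739591777) (nat_lit 1900) (nat_lit 1101738503) (nat_lit 76) (nat_lit 4451398897) (nat_lit 493) (nat_lit 5) (nat_lit 518) (nat_lit 5) (nat_lit 494) (nat_lit 5) (nat_lit 420) (nat_lit 372)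 (nat_lit 348)))))) (XT.nd (nat_lit 390) (nat_lit 3496) (nat_lit 0) (XT.nd (nat_lit 156) (nat_lit 1824) (nat_lit 0) (XT.nd (nat_lit 78) (nat_lit 988) (nat_lit 0) (XT.lf (nat_lit 0) (nat_lit 4046566309) (nat_lit 1140) (nat_lit 658111834) (nat_lit 1216) (nat_lit 2634444543) (nat_lit 478) (nat_lit 5) (nat_lit 493) (nat_lit 5) (nat_lit 494) (nat_lit 5) (nat_lit 421) (nat_lit 372) (nat_lit 347)) (XT.lf (nat_lit 0) (nat_lit 313019642) (nat_lit 988) (nat_lit 5504306162) (nat_lit 76) (nat_lit 1569575950) (nat_lit 465) (nat_lit 5) (nat_lit 478) (nat_lit 5) (nat_lit 466) (nat_lit 5) (nat_lit 422) (nat_lit 372) (nat_lit 346))) (XT.nd (nat_lit 78) (nat_lit 1824) (nat_lit 0) (XT.lf (nat_lit 0) (nat_lit 3256335671) (nat_lit 988) (nat_lit 307880212) (nat_lit 76) (nat_lit 3871628692) (nat_lit 465) (nat_lit 5) (nat_lit 478) (nat_lit 5) (nat_lit 466) (nat_lit 5) (nat_lit 423) (nat_lit 372) (nat_lit 345)) (XT.nd (nat_lit 78) (nat_lit 912) (nat_lit 0) (XT.lf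 (nat_lit 0) (nat_lit 5002577647) (nat_lit 912) (nat_lit 1235033494) (nat_lit 988) (nat_lit 1248573248) (nat_lit 453) (nat_lit 5) (nat_lit 465) (nat_lit 5) (nat_lit 466) (nat_lit 5) (nat_lit 424) (nat_lit 372) (nat_lit 344)) (XT.lf (nat_lit 0) (nat_lit 1693324593) (nat_lit 912) (nat_lit 4689328163) (nat_lit 76) (nat_lit 1155148637) (nat_lit 441) (nat_lit 5) (nat_lit 453) (nat_lit 5) (nat_lit 442) (nat_lit 5) (nat_lit 425) (nat_lit 372) (nat_lit 343))))) (XT.nd (nat_lit 234) (nat_lit 1672) (nat_lit 0) (XT.nd (nat_lit 78) (nat_lit 912) (nat_lit 0) (XT.lf (nat_lit 0) (nat_lit 666419605) (nat_lit 912) (nat_lit 3987833167) (nat_lit 988) (nat_lit 2936494688) (nat_lit 429) (nat_lit 5) (nat_lit 441) (nat_lit 5) (nat_lit 442) (nat_lit 5) (nat_lit 426) (nat_lit 372) (nat_lit 342)) (XT.nd (nat_lit 78) (nat_lit 836) (nat_lit 0) (XT.lf (nat_lit 0) (nat_lit 8867290) (nat_lit 988) (nat_lit 1508502611) (nat_lit 76) (nat_lit 6127786516) (nat_lit 428) (nat_lit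 5) (nat_lit 441) (nat_lit 5) (nat_lit 429) (nat_lit 5) (nat_lit 427) (nat_lit 372) (nat_lit 341)) (XT.lf (nat_lit 0) (nat_lit 2955510625) (nat_lit 912) (nat_lit 3714698890) (nat_lit 76) (nat_lit 1030421958) (nat_lit 417) (nat_lit 5) (nat_lit 429) (nat_lit 5) (nat_lit 418) (nat_lit 5) (nat_lit 428) (nat_lit 372) (nat_lit 340)))) (XT.nd (nat_lit 78) (nat_lit 836) (nat_lit 0) (XT.lf (nat_lit 0) (nat_lit 1811005579) (nat_lit 836) (nat_lit 4131641401) (nat_lit 912) (nat_lit 1814937847) (nat_lit 406) (nat_lit 5) (nat_lit 417) (nat_lit 5) (nat_lit 418) (nat_lit 5) (nat_lit 429) (nat_lit 372) (nat_lit 339)) (XT.nd (nat_lit 78) (nat_lit 760) (nat_lit 0) (XT.lf (nat_lit 0) (nat_lit 1133405268) (nat_lit 912) (nat_lit 382004435) (nat_lit 76) (nat_lit 6300616084) (nat_lit 405) (nat_lit 5) (nat_lit 417) (nat_lit 5) (nat_lit 406) (nat_lit 5) (nat_lit 430) (nat_lit 372) (nat_lit 338)) (XT.lf (nat_lit 0) (nat_lit 4109414988) (nat_lit 836) (nat_lit 2587653038)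 (nat_lit 76) (nat_lit 1178467570) (nat_lit 395) (nat_lit 5) (nat_lit 406) (nat_lit 5) (nat_lit 396) (nat_lit 5) (nat_lit 431) (nat_lit 372) (nat_lit 337))))))) (XT.nd (nat_lit 780) (nat_lit 4940) (nat_lit 0) (XT.nd (nat_lit 390) (nat_lit 2204) (nat_lit 0) (XT.nd (nat_lit 156) (nat_lit 1520) (nat_lit 0) (XT.nd (nat_lit 78) (nat_lit 836) (nat_lit 0) (XT.lf (nat_lit 0) (nat_lit 3114890633) (nat_lit 760) (nat_lit 4014299716) (nat_lit 836) (nat_lit 807360343) (nat_lit 385) (nat_lit 5) (nat_lit 395) (nat_lit 5) (nat_lit 396) (nat_lit 5) (nat_lit 432) (nat_lit 372) (nat_lit 336)) (XT.lf (nat_lit 0) (nat_lit 909236650) (nat_lit 760) (nat_lit 1247407806) (nat_lit 836) (nat_lit 5842353356) (nat_lit 374) (nat_lit 5) (nat_lit 384) (nat_lit 5) (nat_lit 385) (nat_lit 5) (nat_lit 433) (nat_lit 372) (nat_lit 335))) (XT.nd (nat_lit 78) (nat_lit 1520) (nat_lit 0) (XT.lf (nat_lit 0) (nat_lit 5164132986) (nat_lit 836) (nat_lit 1314596343) (nat_lit 76) (nat_lit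 1583957527) (nat_lit 374) (nat_lit 5) (nat_lit 385) (nat_lit 5) (nat_lit 375) (nat_lit 5) (nat_lit 434) (nat_lit 372) (nat_lit 334)) (XT.nd (nat_lit 78) (nat_lit 684) (nat_lit 0) (XT.lf (nat_lit 0) (nat_lit 93788784) (nat_lit 836) (nat_lit 3556430044) (nat_lit 76) (nat_lit 4477596678) (nat_lit 363) (nat_lit 5) (nat_lit 374) (nat_lit 5) (nat_lit 364) (nat_lit 5) (nat_lit 435) (nat_lit 372) (nat_lit 333)) (XT.lf (nat_lit 0) (nat_lit 2354449972) (nat_lit 684) (nat_lit 730318360) (nat_lit 760) (nat_lit 5109543175) (nat_lit 354) (nat_lit 5) (nat_lit 363) (nat_lit 5) (nat_lit 364) (nat_lit 5) (nat_lit 436) (nat_lit 372) (nat_lit 332))))) (XT.nd (nat_lit 156) (nat_lit 1444) (nat_lit 0) (XT.nd (nat_lit 78) (nat_lit 76) (nat_lit 0) (XT.lf (nat_lit 0) (nat_lit 100154513) (nat_lit 684) (nat_lit 6028571053) (nat_lit 760) (nat_lit 2133548699) (nat_lit 345) (nat_lit 5) (nat_lit 354) (nat_lit 5) (nat_lit 355) (nat_lit 5) (nat_lit 437) (nat_lit 372)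 (nat_lit 331)) (XT.lf (nat_lit 0) (nat_lit 888547633) (nat_lit 760) (nat_lit 2160372327) (nat_lit 76) (nat_lit 5282590967) (nat_lit 344) (nat_lit 5) (nat_lit 354) (nat_lit 5) (nat_lit 345) (nat_lit 5) (nat_lit 438) (nat_lit 372) (nat_lit 330))) (XT.nd (nat_lit 78) (nat_lit 760) (nat_lit 0) (XT.lf (nat_lit 0) (nat_lit 3923304773) (nat_lit 760) (nat_lit 4458996469) (nat_lit 76) (nat_lit 19933284) (nat_lit 335) (nat_lit 5) (nat_lit 345) (nat_lit 5) (nat_lit 336) (nat_lit 5) (nat_lit 439) (nat_lit 372) (nat_lit 329)) (XT.nd (nat_lit 78) (nat_lit 76) (nat_lit 0) (XT.lf (nat_lit 0) (nat_lit 1669653026) (nat_lit 684) (nat_lit 5350208419) (nat_lit 760) (nat_lit 1454489064) (nat_lit 326) (nat_lit 5) (nat_lit 335) (nat_lit 5) (nat_lit 336) (nat_lit 5) (nat_lit 440) (nat_lit 372) (nat_lit 328)) (XT.lf (nat_lit 0) (nat_lit 1594876214) (nat_lit 760) (nat_lit 633075495) (nat_lit 76) (nat_lit 6320028999) (nat_lit 325) (nat_lit 5) (nat_lit 335) (nat_lit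 5) (nat_lit 326) (nat_lit 5) (nat_lit 441) (nat_lit 372) (nat_lit 327)))))) (XT.nd (nat_lit 390) (nat_lit 2432) (nat_lit 0) (XT.nd (nat_lit 156) (nat_lit 1292) (nat_lit 0) (XT.nd (nat_lit 78) (nat_lit 608) (nat_lit 0) (XT.lf (nat_lit 0) (nat_lit 4685605463) (nat_lit 684) (nat_lit 2957931973) (nat_lit 76) (nat_lit 979356745) (nat_lit 317) (nat_lit 5) (nat_lit 326) (nat_lit 5) (nat_lit 318) (nat_lit 5) (nat_lit 442) (nat_lit 372) (nat_lit 326)) (XT.lf (nat_lit 0) (nat_lit 3372150884) (nat_lit 608) (nat_lit 4463909648) (nat_lit 684) (nat_lit 863287168) (nat_lit 309) (nat_lit 5) (nat_lit 317) (nat_lit 5) (nat_lit 318) (nat_lit 5) (nat_lit 443) (nat_lit 372) (nat_lit 325))) (XT.nd (nat_lit 78) (nat_lit 608) (nat_lit 0) (XT.lf (nat_lit 0) (nat_lit 1034869124) (nat_lit 608) (nat_lit 1191413838) (nat_lit 684) (nat_lit 6551074498) (nat_lit 300) (nat_lit 5) (nat_lit 308) (nat_lit 5) (nat_lit 309) (nat_lit 5) (nat_lit 444) (nat_lit 372) (nat_lit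 324)) (XT.nd (nat_lit 78) (nat_lit 608) (nat_lit 0) (XT.lf (nat_lit 0) (nat_lit 5373600875) (nat_lit 684) (nat_lit 1335926308) (nat_lit 76) (nat_lit 2147135791) (nat_lit 300) (nat_lit 5) (nat_lit 309) (nat_lit 5) (nat_lit 301) (nat_lit 5) (nat_lit 445) (nat_lit 372) (nat_lit 323)) (XT.lf (nat_lit 0) (nat_lit 5204019424) (nat_lit 608) (nat_lit 3379938767) (nat_lit 684) (nat_lit 353594546) (nat_lit 292) (nat_lit 5) (nat_lit 300) (nat_lit 5) (nat_lit 301) (nat_lit 5) (nat_lit 446) (nat_lit 372) (nat_lit 322))))) (XT.nd (nat_lit 234) (nat_lit 1140) (nat_lit 0) (XT.nd (nat_lit 78) (nat_lit 684) (nat_lit 0) (XT.lf (nat_lit 0) (nat_lit 2787596896) (nat_lit 608) (nat_lit 6183883122) (nat_lit 76) (nat_lit 48484465) (nat_lit 284) (nat_lit 5) (nat_lit 292) (nat_lit 5) (nat_lit 285) (nat_lit 5) (nat_lit 447) (nat_lit 372) (nat_lit 321)) (XT.nd (nat_lit 78) (nat_lit 76) (nat_lit 0) (XT.lf (nat_lit 0) (nat_lit 408985748) (nat_lit 608) (nat_lit 5587121969)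 (nat_lit 684) (nat_lit 3107685397) (nat_lit 276) (nat_lit 5) (nat_lit 284) (nat_lit 5) (nat_lit 285) (nat_lit 5) (nat_lit 448) (nat_lit 372) (nat_lit 320)) (XT.lf (nat_lit 0) (nat_lit 79363354) (nat_lit 684) (nat_lit 2027560748) (nat_lit 76) (nat_lit 7082345584) (nat_lit 275) (nat_lit 5) (nat_lit 284) (nat_lit 5) (nat_lit 276) (nat_lit 5) (nat_lit 449) (nat_lit 372) (nat_lit 319)))) (XT.nd (nat_lit 78) (nat_lit 608) (nat_lit 0) (XT.lf (nat_lit 0) (nat_lit 3289044404) (nat_lit 608) (nat_lit 4525703490) (nat_lit 76) (nat_lit 1461286997) (nat_lit 268) (nat_lit 5) (nat_lit 276) (nat_lit 5) (nat_lit 269) (nat_lit 5) (nat_lit 450) (nat_lit 372) (nat_lit 318)) (XT.nd (nat_lit 78) (nat_lit 76) (nat_lit 0) (XT.lf (nat_lit 0) (nat_lit 2287885784) (nat_lit 532) (nat_lit 4277818123) (nat_lit 608) (nat_lit 2798775796) (nat_lit 261) (nat_lit 5) (nat_lit 268) (nat_lit 5) (nat_lit 269) (nat_lit 5) (nat_lit 451) (nat_lit 372) (nat_lit 317)) (XT.lf (nat_lit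 0) (nat_lit 438274749) (nat_lit 608) (nat_lit 213378236) (nat_lit 76) (nat_lit 8803161267) (nat_lit 260) (nat_lit 5) (nat_lit 268) (nat_lit 5) (nat_lit 261) (nat_lit 5) (nat_lit 452) (nat_lit 372) (nat_lit 316))))))))
noncomputable def xc80 : XT := (XT.nd (nat_lit 1560) (nat_lit 5016) (nat_lit 0) (XT.nd (nat_lit 780) (nat_lit 2888) (nat_lit 0) (XT.nd (nat_lit 390) (nat_lit 1976) (nat_lit 0) (XT.nd (nat_lit 156) (nat_lit 1064) (nat_lit 0) (XT.nd (nat_lit 78) (nat_lit 532) (nat_lit 0) (XT.lf (nat_lit 0) (nat_lit 3728118297) (nat_lit 608) (nat_lit 2762937328) (nat_lit 76) (nat_lit 3055019317) (nat_lit 253) (nat_lit 5) (nat_lit 261) (nat_lit 5) (nat_lit 254) (nat_lit 5) (nat_lit 453) (nat_lit 372) (nat_lit 315)) (XT.lf (nat_lit 0) (nat_lit 4280690715) (nat_lit 532) (nat_lit 2798148910) (nat_lit 608) (nat_lit 2560419602) (nat_lit 246) (nat_lit 5) (nat_lit 253) (nat_lit 5) (nat_lit 254) (nat_lit 5) (nat_lit 454) (nat_lit 372) (nat_lit 314)))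 (XT.nd (nat_lit 78) (nat_lit 532) (nat_lit 0) (XT.lf (nat_lit 0) (nat_lit 750273600) (nat_lit 532) (nat_lit 8009064175) (nat_lit 76) (nat_lit 974910387) (nat_lit 239) (nat_lit 5) (nat_lit 246) (nat_lit 5) (nat_lit 240) (nat_lit 5) (nat_lit 455) (nat_lit 372) (nat_lit 313)) (XT.nd (nat_lit 78) (nat_lit 532) (nat_lit 0) (XT.lf (nat_lit 0) (nat_lit 4109631120) (nat_lit 532) (nat_lit 897808721) (nat_lit 76) (nat_lit 4823023858) (nat_lit 239) (nat_lit 5) (nat_lit 246) (nat_lit 5) (nat_lit 240) (nat_lit 5) (nat_lit 456) (nat_lit 372) (nat_lit 312)) (XT.lf (nat_lit 0) (nat_lit 6385582633) (nat_lit 532) (nat_lit 1154772871) (nat_lit 608) (nat_lit 2388164447) (nat_lit 232) (nat_lit 5) (nat_lit 239) (nat_lit 5) (nat_lit 240) (nat_lit 5) (nat_lit 457) (nat_lit 372) (nat_lit 311))))) (XT.nd (nat_lit 156) (nat_lit 988) (nat_lit 0) (XT.nd (nat_lit 78) (nat_lit 456) (nat_lit 0) (XT.lf (nat_lit 0) (nat_lit 1009564727) (nat_lit 532) (nat_lit 6259202778)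 (nat_lit 76) (nat_lit 2759405138) (nat_lit 225) (nat_lit 5) (nat_lit 232) (nat_lit 5) (nat_lit 226) (nat_lit 5) (nat_lit 458) (nat_lit 372) (nat_lit 310)) (XT.lf (nat_lit 0) (nat_lit 1082122088) (nat_lit 456) (nat_lit 3362914828) (nat_lit 532) (nat_lit 5684430439) (nat_lit 219) (nat_lit 5) (nat_lit 225) (nat_lit 5) (nat_lit 226) (nat_lit 5) (nat_lit 459) (nat_lit 372) (nat_lit 309))) (XT.nd (nat_lit 78) (nat_lit 988) (nat_lit 0) (XT.lf (nat_lit 0) (nat_lit 7958921951) (nat_lit 532) (nat_lit 1635647169) (nat_lit 76) (nat_lit 638024773) (nat_lit 219) (nat_lit 5) (nat_lit 226) (nat_lit 5) (nat_lit 220) (nat_lit 5) (nat_lit 460) (nat_lit 372) (nat_lit 308)) (XT.nd (nat_lit 78) (nat_lit 456) (nat_lit 0) (XT.lf (nat_lit 0) (nat_lit 1214515244) (nat_lit 532) (nat_lit 4418976258) (nat_lit 76) (nat_lit 4703634521) (nat_lit 212) (nat_lit 5) (nat_lit 219) (nat_lit 5) (nat_lit 213) (nat_lit 5) (nat_lit 461) (nat_lit 372) (nat_lit 307)) (XT.lf (nat_lit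 0) (nat_lit 3174608041) (nat_lit 456) (nat_lit 1563334525) (nat_lit 532) (nat_lit 5705587234) (nat_lit 206) (nat_lit 5) (nat_lit 212) (nat_lit 5) (nat_lit 213) (nat_lit 5) (nat_lit 462) (nat_lit 372) (nat_lit 306)))))) (XT.nd (nat_lit 390) (nat_lit 1520) (nat_lit 0) (XT.nd (nat_lit 156) (nat_lit 912) (nat_lit 0) (XT.nd (nat_lit 78) (nat_lit 76) (nat_lit 0) (XT.lf (nat_lit 0) (nat_lit 362445827) (nat_lit 380) (nat_lit 7982872660) (nat_lit 456) (nat_lit 2206473563) (nat_lit 201) (nat_lit 5) (nat_lit 206) (nat_lit 5) (nat_lit 207) (nat_lit 5) (nat_lit 463) (nat_lit 372) (nat_lit 305)) (XT.lf (nat_lit 0) (nat_lit 1368794806) (nat_lit 456) (nat_lit 2489713678) (nat_lit 76) (nat_lit 6803053253) (nat_lit 200) (nat_lit 5) (nat_lit 206) (nat_lit 5) (nat_lit 201) (nat_lit 5) (nat_lit 464) (nat_lit 372) (nat_lit 304))) (XT.nd (nat_lit 78) (nat_lit 456) (nat_lit 0) (XT.lf (nat_lit 0) (nat_lit 4988651118) (nat_lit 532) (nat_lit 5408879504) (nat_lit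 76) (nat_lit 375651953) (nat_lit 194) (nat_lit 5) (nat_lit 201) (nat_lit 5) (nat_lit 195) (nat_lit 5) (nat_lit 465) (nat_lit 372) (nat_lit 303)) (XT.nd (nat_lit 78) (nat_lit 76) (nat_lit 0) (XT.lf (nat_lit 0) (nat_lit 2476174914) (nat_lit 380) (nat_lit 6228682849) (nat_lit 456) (nat_lit 2181699004) (nat_lit 189) (nat_lit 5) (nat_lit 194) (nat_lit 5) (nat_lit 195) (nat_lit 5) (nat_lit 466) (nat_lit 372) (nat_lit 302)) (XT.lf (nat_lit 0) (nat_lit 1475756458) (nat_lit 456) (nat_lit 472350289) (nat_lit 76) (nat_lit 9053854804) (nat_lit 188) (nat_lit 5) (nat_lit 194) (nat_lit 5) (nat_lit 189) (nat_lit 5) (nat_lit 467) (nat_lit 372) (nat_lit 301))))) (XT.nd (nat_lit 156) (nat_lit 760) (nat_lit 0) (XT.nd (nat_lit 78) (nat_lit 380) (nat_lit 0) (XT.lf (nat_lit 0) (nat_lit 5209190378) (nat_lit 456) (nat_lit 3476785826) (nat_lit 76) (nat_lit 2432768959) (nat_lit 183) (nat_lit 5) (nat_lit 189) (nat_lit 5) (nat_lit 184) (nat_lit 5) (nat_lit 468) (nat_lit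 372) (nat_lit 300)) (XT.lf (nat_lit 0) (nat_lit 4683302987) (nat_lit 380) (nat_lit 4346981542) (nat_lit 456) (nat_lit 2207320087) (nat_lit 178) (nat_lit 5) (nat_lit 183) (nat_lit 5) (nat_lit 184) (nat_lit 5) (nat_lit 469) (nat_lit 372) (nat_lit 299))) (XT.nd (nat_lit 78) (nat_lit 304) (nat_lit 0) (XT.lf (nat_lit 0) (nat_lit 1549882129) (nat_lit 456) (nat_lit 9705054479) (nat_lit 76) (nat_lit 103670916) (nat_lit 172) (nat_lit 5) (nat_lit 178) (nat_lit 5) (nat_lit 173) (nat_lit 5) (nat_lit 470) (nat_lit 372) (nat_lit 298)) (XT.nd (nat_lit 78) (nat_lit 304) (nat_lit 0) (XT.lf (nat_lit 0) (nat_lit 5392547223) (nat_lit 456) (nat_lit 1463084740) (nat_lit 76) (nat_lit 4625309222) (nat_lit 172) (nat_lit 5) (nat_lit 178) (nat_lit 5) (nat_lit 173) (nat_lit 5) (nat_lit 471) (nat_lit 372) (nat_lit 297)) (XT.lf (nat_lit 0) (nat_lit 6983702439) (nat_lit 304) (nat_lit 2341142454) (nat_lit 380) (nat_lit 2280621041) (nat_lit 168) (nat_lit 5) (nat_lit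 172) (nat_lit 5) (nat_lit 173) (nat_lit 5) (nat_lit 472) (nat_lit 372) (nat_lit 296))))))) (XT.nd (nat_lit 780) (nat_lit 2432) (nat_lit 0) (XT.nd (nat_lit 390) (nat_lit 1064) (nat_lit 0) (XT.nd (nat_lit 156) (nat_lit 760) (nat_lit 0) (XT.nd (nat_lit 78) (nat_lit 304) (nat_lit 0) (XT.lf (nat_lit 0) (nat_lit 1599727453) (nat_lit 456) (nat_lit 7871473341) (nat_lit 76) (nat_lit 2260723234) (nat_lit 162) (nat_lit 5) (nat_lit 168) (nat_lit 5) (nat_lit 163) (nat_lit 5) (nat_lit 473) (nat_lit 372) (nat_lit 295)) (XT.lf (nat_lit 0) (nat_lit 640367844) (nat_lit 304) (nat_lit 4905394868) (nat_lit 380) (nat_lit 6314474729) (nat_lit 158) (nat_lit 5) (nat_lit 162) (nat_lit 5) (nat_lit 163) (nat_lit 5) (nat_lit 474) (nat_lit 372) (nat_lit 294))) (XT.nd (nat_lit 78) (nat_lit 760) (nat_lit 0) (XT.lf (nat_lit 0) (nat_lit 9377602118) (nat_lit 304) (nat_lit 213943784) (nat_lit 380) (nat_lit 2399154674) (nat_lit 158) (nat_lit 5) (nat_lit 162) (nat_lit 5)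 (nat_lit 163) (nat_lit 5) (nat_lit 475) (nat_lit 372) (nat_lit 293)) (XT.nd (nat_lit 78) (nat_lit 304) (nat_lit 0) (XT.lf (nat_lit 0) (nat_lit 1612035175) (nat_lit 456) (nat_lit 5967654277) (nat_lit 76) (nat_lit 4543106971) (nat_lit 152) (nat_lit 5) (nat_lit 158) (nat_lit 5) (nat_lit 153) (nat_lit 5) (nat_lit 476) (nat_lit 372) (nat_lit 292)) (XT.lf (nat_lit 0) (nat_lit 2845769142) (nat_lit 304) (nat_lit 2831719950) (nat_lit 380) (nat_lit 6579604627) (nat_lit 148) (nat_lit 5) (nat_lit 152) (nat_lit 5) (nat_lit 153) (nat_lit 5) (nat_lit 477) (nat_lit 372) (nat_lit 291))))) (XT.nd (nat_lit 156) (nat_lit 684) (nat_lit 0) (XT.nd (nat_lit 78) (nat_lit 380) (nat_lit 0) (XT.lf (nat_lit 0) (nat_lit 9846370108) (nat_lit 380) (nat_lit 541521274) (nat_lit 76) (nat_lit 2005743219) (nat_lit 148) (nat_lit 5) (nat_lit 153) (nat_lit 5) (nat_lit 149) (nat_lit 5) (nat_lit 478) (nat_lit 372) (nat_lit 290)) (XT.lf (nat_lit 0) (nat_lit 1589095375) (nat_lit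 380) (nat_lit 3993715490) (nat_lit 76) (nat_lit 6949013970) (nat_lit 143) (nat_lit 5) (nat_lit 148) (nat_lit 5) (nat_lit 144) (nat_lit 5) (nat_lit 479) (nat_lit 372) (nat_lit 289))) (XT.nd (nat_lit 78) (nat_lit 380) (nat_lit 0) (XT.lf (nat_lit 0) (nat_lit 5134061511) (nat_lit 304) (nat_lit 646473454) (nat_lit 380) (nat_lit 6891777949) (nat_lit 139) (nat_lit 5) (nat_lit 143) (nat_lit 5) (nat_lit 144) (nat_lit 5) (nat_lit 480) (nat_lit 372) (nat_lit 288)) (XT.nd (nat_lit 78) (nat_lit 76) (nat_lit 0) (XT.lf (nat_lit 0) (nat_lit 1625611641) (nat_lit 304) (nat_lit 8465800607) (nat_lit 380) (nat_lit 2723486330) (nat_lit 135) (nat_lit 5) (nat_lit 139) (nat_lit 5) (nat_lit 140) (nat_lit 5) (nat_lit 481) (nat_lit 372) (nat_lit 287)) (XT.lf (nat_lit 0) (nat_lit 1532985185) (nat_lit 380) (nat_lit 1949491169) (nat_lit 76) (nat_lit 9477164038) (nat_lit 134) (nat_lit 5) (nat_lit 139) (nat_lit 5) (nat_lit 135) (nat_lit 5) (nat_lit 482) (nat_lit 372)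 (nat_lit 286)))))) (XT.nd (nat_lit 390) (nat_lit 1216) (nat_lit 0) (XT.nd (nat_lit 156) (nat_lit 608) (nat_lit 0) (XT.nd (nat_lit 78) (nat_lit 304) (nat_lit 0) (XT.lf (nat_lit 0) (nat_lit 5867840724) (nat_lit 380) (nat_lit 5611308123) (nat_lit 76) (nat_lit 1627173709) (nat_lit 130) (nat_lit 5) (nat_lit 135) (nat_lit 5) (nat_lit 131) (nat_lit 5) (nat_lit 483) (nat_lit 372) (nat_lit 285)) (XT.lf (nat_lit 0) (nat_lit 3877151901) (nat_lit 304) (nat_lit 6444030732) (nat_lit 380) (nat_lit 2934119944) (nat_lit 126) (nat_lit 5) (nat_lit 130) (nat_lit 5) (nat_lit 131) (nat_lit 5) (nat_lit 484) (nat_lit 372) (nat_lit 284))) (XT.nd (nat_lit 78) (nat_lit 304) (nat_lit 0) (XT.lf (nat_lit 0) (nat_lit 167655572) (nat_lit 228) (nat_lit 1279016711) (nat_lit 304) (nat_lit 11960211945) (nat_lit 122) (nat_lit 5) (nat_lit 125) (nat_lit 5) (nat_lit 126) (nat_lit 5) (nat_lit 485) (nat_lit 372) (nat_lit 283)) (XT.nd (nat_lit 78) (nat_lit 304) (nat_lit 0) (XT.lf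 (nat_lit 0) (nat_lit 5935657380) (nat_lit 304) (nat_lit 3624387544) (nat_lit 76) (nat_lit 3999867398) (nat_lit 122) (nat_lit 5) (nat_lit 126) (nat_lit 5) (nat_lit 123) (nat_lit 5) (nat_lit 486) (nat_lit 372) (nat_lit 282)) (XT.lf (nat_lit 0) (nat_lit 6206760575) (nat_lit 304) (nat_lit 4327585124) (nat_lit 380) (nat_lit 3181256809) (nat_lit 118) (nat_lit 5) (nat_lit 122) (nat_lit 5) (nat_lit 123) (nat_lit 5) (nat_lit 487) (nat_lit 372) (nat_lit 281))))) (XT.nd (nat_lit 234) (nat_lit 608) (nat_lit 0) (XT.nd (nat_lit 78) (nat_lit 304) (nat_lit 0) (XT.lf (nat_lit 0) (nat_lit 1350804592) (nat_lit 304) (nat_lit 11497671095) (nat_lit 76) (nat_lit 1025397099) (nat_lit 114) (nat_lit 5) (nat_lit 118) (nat_lit 5) (nat_lit 115) (nat_lit 5) (nat_lit 488) (nat_lit 372) (nat_lit 280)) (XT.nd (nat_lit 78) (nat_lit 304) (nat_lit 0) (XT.lf (nat_lit 0) (nat_lit 5981664776) (nat_lit 304) (nat_lit 1572732073) (nat_lit 76) (nat_lit 6479475964) (nat_lit 114)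 (nat_lit 5) (nat_lit 118) (nat_lit 5) (nat_lit 115) (nat_lit 5) (nat_lit 489) (nat_lit 372) (nat_lit 279)) (XT.lf (nat_lit 0) (nat_lit 8615562377) (nat_lit 304) (nat_lit 2117413107) (nat_lit 380) (nat_lit 3463540692) (nat_lit 110) (nat_lit 5) (nat_lit 114) (nat_lit 5) (nat_lit 115) (nat_lit 5) (nat_lit 490) (nat_lit 372) (nat_lit 278)))) (XT.nd (nat_lit 78) (nat_lit 304) (nat_lit 0) (XT.lf (nat_lit 0) (nat_lit 1236299676) (nat_lit 304) (nat_lit 9712600421) (nat_lit 76) (nat_lit 3412647099) (nat_lit 106) (nat_lit 5) (nat_lit 110) (nat_lit 5) (nat_lit 107) (nat_lit 5) (nat_lit 491) (nat_lit 372) (nat_lit 277)) (XT.nd (nat_lit 78) (nat_lit 0) (nat_lit 0) (XT.lf (nat_lit 0) (nat_lit 551691512) (nat_lit 304) (nat_lit 5459475849) (nat_lit 380) (nat_lit 8517705449) (nat_lit 102) (nat_lit 5) (nat_lit 106) (nat_lit 5) (nat_lit 107) (nat_lit 5) (nat_lit 492) (nat_lit 372) (nat_lit 276)) (XT.lf (nat_lit 0) (nat_lit 10920212823) (nat_lit 380) (nat_lit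 3595061653) (nat_lit 76) (nat_lit 183496852) (nat_lit 102) (nat_lit 5) (nat_lit 107) (nat_lit 5) (nat_lit 103) (nat_lit 5) (nat_lit 493) (nat_lit 372) (nat_lit 275))))))))
noncomputable def xc81 : XT := (XT.nd (nat_lit 52026) (nat_lit 0) (nat_lit 32300) (XT.nd (nat_lit 780) (nat_lit 684) (nat_lit 0) (XT.nd (nat_lit 390) (nat_lit 836) (nat_lit 0) (XT.nd (nat_lit 156) (nat_lit 532) (nat_lit 0) (XT.nd (nat_lit 78) (nat_lit 228) (nat_lit 0) (XT.lf (nat_lit 0) (nat_lit 1096223612) (nat_lit 304) (nat_lit 7875261845) (nat_lit 76) (nat_lit 5899351444) (nat_lit 98) (nat_lit 5) (nat_lit 102) (nat_lit 5) (nat_lit 99) (nat_lit 5) (nat_lit 494) (nat_lit 372) (nat_lit 274)) (XT.lf (nat_lit 0) (nat_lit 2764460178) (nat_lit 228) (nat_lit 3268487247) (nat_lit 304) (nat_lit 9012596015) (nat_lit 95) (nat_lit 5) (nat_lit 98) (nat_lit 5) (nat_lit 99) (nat_lit 5) (nat_lit 495) (nat_lit 372) (nat_lit 273))) (XT.nd (nat_lit 78) (nat_lit 532) (nat_lit 0) (XT.lf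 (nat_lit 0) (nat_lit 11111006925) (nat_lit 304) (nat_lit 1563461010) (nat_lit 76) (nat_lit 2548424152) (nat_lit 95) (nat_lit 5) (nat_lit 99) (nat_lit 5) (nat_lit 96) (nat_lit 5) (nat_lit 496) (nat_lit 372) (nat_lit 272)) (XT.nd (nat_lit 78) (nat_lit 228) (nat_lit 0) (XT.lf (nat_lit 0) (nat_lit 931801556) (nat_lit 304) (nat_lit 5985002087) (nat_lit 76) (nat_lit 8485737049) (nat_lit 91) (nat_lit 5) (nat_lit 95) (nat_lit 5) (nat_lit 92) (nat_lit 5) (nat_lit 497) (nat_lit 372) (nat_lit 271)) (XT.lf (nat_lit 0) (nat_lit 5045939503) (nat_lit 228) (nat_lit 992173806) (nat_lit 304) (nat_lit 9546789182) (nat_lit 88) (nat_lit 5) (nat_lit 91) (nat_lit 5) (nat_lit 92) (nat_lit 5) (nat_lit 498) (nat_lit 372) (nat_lit 270))))) (XT.nd (nat_lit 156) (nat_lit 532) (nat_lit 0) (XT.nd (nat_lit 78) (nat_lit 76) (nat_lit 0) (XT.lf (nat_lit 0) (nat_lit 535678793) (nat_lit 228) (nat_lit 10761097626) (nat_lit 304) (nat_lit 4473130603) (nat_lit 85) (nat_lit 5)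 (nat_lit 88) (nat_lit 5) (nat_lit 89) (nat_lit 5) (nat_lit 499) (nat_lit 372) (nat_lit 269)) (XT.lf (nat_lit 0) (nat_lit 744123180) (nat_lit 304) (nat_lit 4040972184) (nat_lit 76) (nat_lit 11172398545) (nat_lit 84) (nat_lit 5) (nat_lit 88) (nat_lit 5) (nat_lit 85) (nat_lit 5) (nat_lit 500) (nat_lit 372) (nat_lit 268))) (XT.nd (nat_lit 78) (nat_lit 304) (nat_lit 0) (XT.lf (nat_lit 0) (nat_lit 6036891641) (nat_lit 304) (nat_lit 8759074818) (nat_lit 76) (nat_lit 1351653430) (nat_lit 81) (nat_lit 5) (nat_lit 85) (nat_lit 5) (nat_lit 82) (nat_lit 5) (nat_lit 501) (nat_lit 372) (nat_lit 267)) (XT.nd (nat_lit 78) (nat_lit 76) (nat_lit 0) (XT.lf (nat_lit 0) (nat_lit 2718189899) (nat_lit 228) (nat_lit 8768128500) (nat_lit 304) (nat_lit 4854213932) (nat_lit 78) (nat_lit 5) (nat_lit 81) (nat_lit 5) (nat_lit 82) (nat_lit 5) (nat_lit 502) (nat_lit 372) (nat_lit 266)) (XT.lf (nat_lit 0) (nat_lit 534151546) (nat_lit 304) (nat_lit 2042133612) (nat_lit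 76) (nat_lit 13960284453) (nat_lit 77) (nat_lit 5) (nat_lit 81) (nat_lit 5) (nat_lit 78) (nat_lit 5) (nat_lit 503) (nat_lit 372) (nat_lit 265)))))) (XT.nd (nat_lit 50856) (nat_lit 0) (nat_lit 51604) (XT.nd (nat_lit 156) (nat_lit 304) (nat_lit 0) (XT.nd (nat_lit 78) (nat_lit 152) (nat_lit 0) (XT.lf (nat_lit 0) (nat_lit 6028612047) (nat_lit 304) (nat_lit 6938711788) (nat_lit 76) (nat_lit 3767295562) (nat_lit 74) (nat_lit 5) (nat_lit 78) (nat_lit 5) (nat_lit 75) (nat_lit 5) (nat_lit 504) (nat_lit 372) (nat_lit 264)) (XT.lf (nat_lit 0) (nat_lit 4964769841) (nat_lit 152) (nat_lit 6706073104) (nat_lit 228) (nat_lit 5265029609) (nat_lit 72) (nat_lit 5) (nat_lit 74) (nat_lit 5) (nat_lit 75) (nat_lit 5) (nat_lit 505) (nat_lit 372) (nat_lit 263))) (XT.nd (nat_lit 78) (nat_lit 0) (nat_lit 0) (XT.lf (nat_lit 0) (nat_lit 12905682) (nat_lit 228) (nat_lit 289909339) (nat_lit 304) (nat_lit 16837863135) (nat_lit 68) (nat_lit 5) (nat_lit 71) (nat_lit 5)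 (nat_lit 72) (nat_lit 5) (nat_lit 506) (nat_lit 372) (nat_lit 262)) (XT.nd (nat_lit 50544) (nat_lit 0) (nat_lit 53884) (XT.lf (nat_lit 0) (nat_lit 6007956327) (nat_lit 304) (nat_lit 5070451904) (nat_lit 76) (nat_lit 6268546831) (nat_lit 68) (nat_lit 5) (nat_lit 72) (nat_lit 5) (nat_lit 69) (nat_lit 5) (nat_lit 507) (nat_lit 372) (nat_lit 261)) (XT.lf (nat_lit 0) (nat_lit 2362782681) (nat_lit 532) (nat_lit 452385931) (nat_lit 532) (nat_lit 452385931) (nat_lit 777) (nat_lit 4) (nat_lit 784) (nat_lit 5) (nat_lit 784) (nat_lit 4) (nat_lit 394) (nat_lit 373) (nat_lit 373))))) (XT.nd (nat_lit 156) (nat_lit 1596) (nat_lit 0) (XT.nd (nat_lit 78) (nat_lit 0) (nat_lit 0) (XT.lf (nat_lit 0) (nat_lit 2147679222) (nat_lit 608) (nat_lit 198059297) (nat_lit 684) (nat_lit 4203248290) (nat_lit 768) (nat_lit 5) (nat_lit 776) (nat_lit 5) (nat_lit 777) (nat_lit 4) (nat_lit 395) (nat_lit 373) (nat_lit 372)) (XT.lf (nat_lit 0) (nat_lit 5588369907) (nat_lit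 684) (nat_lit 417524510) (nat_lit 0) (nat_lit 558343545) (nat_lit 768) (nat_lit 5) (nat_lit 777) (nat_lit 4) (nat_lit 768) (nat_lit 4) (nat_lit 396) (nat_lit 373) (nat_lit 371))) (XT.nd (nat_lit 78) (nat_lit 836) (nat_lit 0) (XT.lf (nat_lit 0) (nat_lit 2235390996) (nat_lit 760) (nat_lit 2955822882) (nat_lit 76) (nat_lit 1389285375) (nat_lit 758) (nat_lit 5) (nat_lit 768) (nat_lit 5) (nat_lit 759) (nat_lit 4) (nat_lit 397) (nat_lit 373) (nat_lit 370)) (XT.nd (nat_lit 78) (nat_lit 76) (nat_lit 0) (XT.lf (nat_lit 0) (nat_lit 1111121560) (nat_lit 760) (nat_lit 4322468652) (nat_lit 836) (nat_lit 1164650913) (nat_lit 748) (nat_lit 5) (nat_lit 758) (nat_lit 5) (nat_lit 759) (nat_lit 4) (nat_lit 398) (nat_lit 373) (nat_lit 369)) (XT.lf (nat_lit 0) (nat_lit 1998473096) (nat_lit 836) (nat_lit 1384050321) (nat_lit 76) (nat_lit 3234617808) (nat_lit 747) (nat_lit 5) (nat_lit 758) (nat_lit 5) (nat_lit 748) (nat_lit 5) (nat_lit 399) (nat_lit 373) (nat_lit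 368))))))) (XT.nd (nat_lit 780) (nat_lit 11552) (nat_lit 0) (XT.nd (nat_lit 390) (nat_lit 4864) (nat_lit 0) (XT.nd (nat_lit 156) (nat_lit 1064) (nat_lit 0) (XT.nd (nat_lit 78) (nat_lit 988) (nat_lit 0) (XT.lf (nat_lit 0) (nat_lit 2776895960) (nat_lit 836) (nat_lit 2378219783) (nat_lit 912) (nat_lit 1482232602) (nat_lit 736) (nat_lit 5) (nat_lit 747) (nat_lit 5) (nat_lit 748) (nat_lit 5) (nat_lit 400) (nat_lit 373) (nat_lit 367)) (XT.lf (nat_lit 0) (nat_lit 321562523) (nat_lit 912) (nat_lit 1312698485) (nat_lit 988) (nat_lit 5024678705) (nat_lit 723) (nat_lit 5) (nat_lit 735) (nat_lit 5) (nat_lit 736) (nat_lit 5) (nat_lit 401) (nat_lit 373) (nat_lit 366))) (XT.nd (nat_lit 78) (nat_lit 1064) (nat_lit 0) (XT.lf (nat_lit 0) (nat_lit 4576458215) (nat_lit 912) (nat_lit 172107737) (nat_lit 988) (nat_lit 1933094435) (nat_lit 723) (nat_lit 5) (nat_lit 735) (nat_lit 5) (nat_lit 736) (nat_lit 5) (nat_lit 402) (nat_lit 373) (nat_lit 365)) (XT.nd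 (nat_lit 78) (nat_lit 0) (nat_lit 0) (XT.lf (nat_lit 0) (nat_lit 1155549827) (nat_lit 1064) (nat_lit 4533227091) (nat_lit 76) (nat_lit 1016875432) (nat_lit 709) (nat_lit 5) (nat_lit 723) (nat_lit 5) (nat_lit 710) (nat_lit 5) (nat_lit 403) (nat_lit 373) (nat_lit 364)) (XT.lf (nat_lit 0) (nat_lit 4226987425) (nat_lit 1064) (nat_lit 233886609) (nat_lit 76) (nat_lit 2270056471) (nat_lit 709) (nat_lit 5) (nat_lit 723) (nat_lit 5) (nat_lit 710) (nat_lit 5) (nat_lit 404) (nat_lit 373) (nat_lit 363))))) (XT.nd (nat_lit 156) (nat_lit 2584) (nat_lit 0) (XT.nd (nat_lit 78) (nat_lit 1140) (nat_lit 0) (XT.lf (nat_lit 0) (nat_lit 554788823) (nat_lit 1140) (nat_lit 2608351749) (nat_lit 76) (nat_lit 3594304140) (nat_lit 694) (nat_lit 5) (nat_lit 709) (nat_lit 5) (nat_lit 695) (nat_lit 5) (nat_lit 405) (nat_lit 373) (nat_lit 362)) (XT.lf (nat_lit 0) (nat_lit 1791725165) (nat_lit 1140) (nat_lit 1796085308) (nat_lit 1216) (nat_lit 3197414853) (nat_lit 679)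 (nat_lit 5) (nat_lit 694) (nat_lit 5) (nat_lit 695) (nat_lit 5) (nat_lit 406) (nat_lit 373) (nat_lit 361))) (XT.nd (nat_lit 78) (nat_lit 2584) (nat_lit 0) (XT.lf (nat_lit 0) (nat_lit 6261887770) (nat_lit 1140) (nat_lit 371466827) (nat_lit 1216) (nat_lit 181169713) (nat_lit 679) (nat_lit 5) (nat_lit 694) (nat_lit 5) (nat_lit 695) (nat_lit 5) (nat_lit 407) (nat_lit 373) (nat_lit 360)) (XT.nd (nat_lit 78) (nat_lit 1292) (nat_lit 0) (XT.lf (nat_lit 0) (nat_lit 2825731276) (nat_lit 1292) (nat_lit 2895154480) (nat_lit 76) (nat_lit 1123781447) (nat_lit 662) (nat_lit 5) (nat_lit 679) (nat_lit 5) (nat_lit 663) (nat_lit 5) (nat_lit 408) (nat_lit 373) (nat_lit 359)) (XT.lf (nat_lit 0) (nat_lit 1637560808) (nat_lit 1292) (nat_lit 4205830563) (nat_lit 1368) (nat_lit 1032936695) (nat_lit 645) (nat_lit 5) (nat_lit 662) (nat_lit 5) (nat_lit 663) (nat_lit 5) (nat_lit 409) (nat_lit 373) (nat_lit 358)))))) (XT.nd (nat_lit 390) (nat_lit 7068) (nat_lit 0)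 (XT.nd (nat_lit 156) (nat_lit 3040) (nat_lit 0) (XT.nd (nat_lit 78) (nat_lit 1368) (nat_lit 0) (XT.lf (nat_lit 0) (nat_lit 1942645963) (nat_lit 1368) (nat_lit 675829908) (nat_lit 76) (nat_lit 4290759679) (nat_lit 644) (nat_lit 5) (nat_lit 662) (nat_lit 5) (nat_lit 645) (nat_lit 5) (nat_lit 410) (nat_lit 373) (nat_lit 357)) (XT.lf (nat_lit 0) (nat_lit 3970089749) (nat_lit 1368) (nat_lit 957554744) (nat_lit 1444) (nat_lit 2015745431) (nat_lit 626) (nat_lit 5) (nat_lit 644) (nat_lit 5) (nat_lit 645) (nat_lit 5) (nat_lit 411) (nat_lit 373) (nat_lit 356))) (XT.nd (nat_lit 78) (nat_lit 1520) (nat_lit 0) (XT.lf (nat_lit 0) (nat_lit 940082460) (nat_lit 1520) (nat_lit 5282179162) (nat_lit 76) (nat_lit 756656577) (nat_lit 606) (nat_lit 5) (nat_lit 626) (nat_lit 5) (nat_lit 607) (nat_lit 5) (nat_lit 412) (nat_lit 373) (nat_lit 355)) (XT.nd (nat_lit 78) (nat_lit 1520) (nat_lit 0) (XT.lf (nat_lit 0) (nat_lit 3893805269) (nat_lit 1520) (nat_lit 588974335)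 (nat_lit 76) (nat_lit 2532795571) (nat_lit 606) (nat_lit 5) (nat_lit 626) (nat_lit 5) (nat_lit 607) (nat_lit 5) (nat_lit 413) (nat_lit 373) (nat_lit 354)) (XT.lf (nat_lit 0) (nat_lit 4199369705) (nat_lit 1520) (nat_lit 2675005761) (nat_lit 1596) (nat_lit 179234366) (nat_lit 586) (nat_lit 5) (nat_lit 606) (nat_lit 5) (nat_lit 607) (nat_lit 5) (nat_lit 414) (nat_lit 373) (nat_lit 353))))) (XT.nd (nat_lit 234) (nat_lit 3648) (nat_lit 0) (XT.nd (nat_lit 78) (nat_lit 1748) (nat_lit 0) (XT.lf (nat_lit 0) (nat_lit 1952160356) (nat_lit 1596) (nat_lit 790570502) (nat_lit 1672) (nat_lit 4350156018) (nat_lit 564) (nat_lit 5) (nat_lit 585) (nat_lit 5) (nat_lit 586) (nat_lit 5) (nat_lit 415) (nat_lit 373) (nat_lit 352)) (XT.nd (nat_lit 78) (nat_lit 1748) (nat_lit 0) (XT.lf (nat_lit 0) (nat_lit 5689140259) (nat_lit 1672) (nat_lit 302916204) (nat_lit 76) (nat_lit 1141501206) (nat_lit 564) (nat_lit 5) (nat_lit 586) (nat_lit 5) (nat_lit 565) (nat_lit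 5) (nat_lit 416) (nat_lit 373) (nat_lit 351)) (XT.lf (nat_lit 0) (nat_lit 1477598607) (nat_lit 1748) (nat_lit 2552006593) (nat_lit 76) (nat_lit 3145677570) (nat_lit 541) (nat_lit 5) (nat_lit 564) (nat_lit 5) (nat_lit 542) (nat_lit 5) (nat_lit 417) (nat_lit 373) (nat_lit 350)))) (XT.nd (nat_lit 78) (nat_lit 1900) (nat_lit 0) (XT.lf (nat_lit 0) (nat_lit 2401831739) (nat_lit 1748) (nat_lit 1997856276) (nat_lit 1824) (nat_lit 2818743928) (nat_lit 518) (nat_lit 5) (nat_lit 541) (nat_lit 5) (nat_lit 542) (nat_lit 5) (nat_lit 418) (nat_lit 373) (nat_lit 349)) (XT.nd (nat_lit 78) (nat_lit 0) (nat_lit 0) (XT.lf (nat_lit 0) (nat_lit 78924050) (nat_lit 1900) (nat_lit 7089943946) (nat_lit 76) (nat_lit 94306939) (nat_lit 493) (nat_lit 5) (nat_lit 518) (nat_lit 5) (nat_lit 494) (nat_lit 5) (nat_lit 419) (nat_lit 373) (nat_lit 348)) (XT.lf (nat_lit 0) (nat_lit 2987067909) (nat_lit 1900) (nat_lit 2067663842) (nat_lit 76) (nat_lit 2253903087) (nat_lit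 493) (nat_lit 5) (nat_lit 518) (nat_lit 5) (nat_lit 494) (nat_lit 5) (nat_lit 420) (nat_lit 373) (nat_lit 347))))))))
noncomputable def xc82 : XT := (XT.nd (nat_lit 1560) (nat_lit 9348) (nat_lit 0) (XT.nd (nat_lit 780) (nat_lit 5320) (nat_lit 0) (XT.nd (nat_lit 390) (nat_lit 2736) (nat_lit 0) (XT.nd (nat_lit 156) (nat_lit 1824) (nat_lit 0) (XT.nd (nat_lit 78) (nat_lit 988) (nat_lit 0) (XT.lf (nat_lit 0) (nat_lit 3040492865) (nat_lit 1140) (nat_lit 2878175037) (nat_lit 1216) (nat_lit 1437030172) (nat_lit 478) (nat_lit 5) (nat_lit 493) (nat_lit 5) (nat_lit 494) (nat_lit 5) (nat_lit 421) (nat_lit 373) (nat_lit 346)) (XT.lf (nat_lit 0) (nat_lit 821518899) (nat_lit 912) (nat_lit 629151287) (nat_lit 988) (nat_lit 5953532659) (nat_lit 465) (nat_lit 5) (nat_lit 477) (nat_lit 5) (nat_lit 478) (nat_lit 5) (nat_lit 422) (nat_lit 373) (nat_lit 345))) (XT.nd (nat_lit 78) (nat_lit 1824) (nat_lit 0) (XT.lf (nat_lit 0) (nat_lit 4363472174) (nat_lit 988)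 (nat_lit 1409651502) (nat_lit 76) (nat_lit 1680632270) (nat_lit 465) (nat_lit 5) (nat_lit 478) (nat_lit 5) (nat_lit 466) (nat_lit 5) (nat_lit 423) (nat_lit 373) (nat_lit 344)) (XT.nd (nat_lit 78) (nat_lit 912) (nat_lit 0) (XT.lf (nat_lit 0) (nat_lit 3858866801) (nat_lit 912) (nat_lit 3452544160) (nat_lit 988) (nat_lit 193351534) (nat_lit 453) (nat_lit 5) (nat_lit 465) (nat_lit 5) (nat_lit 466) (nat_lit 5) (nat_lit 424) (nat_lit 373) (nat_lit 343)) (XT.lf (nat_lit 0) (nat_lit 1644082774) (nat_lit 836) (nat_lit 1049408381) (nat_lit 912) (nat_lit 4863575635) (nat_lit 441) (nat_lit 5) (nat_lit 452) (nat_lit 5) (nat_lit 453) (nat_lit 5) (nat_lit 425) (nat_lit 373) (nat_lit 342))))) (XT.nd (nat_lit 156) (nat_lit 1748) (nat_lit 0) (XT.nd (nat_lit 78) (nat_lit 988) (nat_lit 0) (XT.lf (nat_lit 0) (nat_lit 5617853200) (nat_lit 912) (nat_lit 586587701) (nat_lit 76) (nat_lit 1406303277) (nat_lit 441) (nat_lit 5) (nat_lit 453) (nat_lit 5) (nat_lit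 442) (nat_lit 5) (nat_lit 426) (nat_lit 373) (nat_lit 341)) (XT.lf (nat_lit 0) (nat_lit 910940345) (nat_lit 988) (nat_lit 2823060307) (nat_lit 76) (nat_lit 3931613057) (nat_lit 428) (nat_lit 5) (nat_lit 441) (nat_lit 5) (nat_lit 429) (nat_lit 5) (nat_lit 427) (nat_lit 373) (nat_lit 340))) (XT.nd (nat_lit 78) (nat_lit 912) (nat_lit 0) (XT.lf (nat_lit 0) (nat_lit 2633421129) (nat_lit 836) (nat_lit 1183782226) (nat_lit 912) (nat_lit 3904693017) (nat_lit 417) (nat_lit 5) (nat_lit 428) (nat_lit 5) (nat_lit 429) (nat_lit 5) (nat_lit 428) (nat_lit 373) (nat_lit 339)) (XT.nd (nat_lit 78) (nat_lit 76) (nat_lit 0) (XT.lf (nat_lit 0) (nat_lit 399062106) (nat_lit 836) (nat_lit 6363945308) (nat_lit 912) (nat_lit 1016668958) (nat_lit 406) (nat_lit 5) (nat_lit 417) (nat_lit 5) (nat_lit 418) (nat_lit 5) (nat_lit 429) (nat_lit 373) (nat_lit 338)) (XT.lf (nat_lit 0) (nat_lit 1896869163) (nat_lit 912) (nat_lit 1848701041) (nat_lit 76) (nat_lit 4092930180)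 (nat_lit 405) (nat_lit 5) (nat_lit 417) (nat_lit 5) (nat_lit 406) (nat_lit 5) (nat_lit 430) (nat_lit 373) (nat_lit 337)))))) (XT.nd (nat_lit 390) (nat_lit 2128) (nat_lit 0) (XT.nd (nat_lit 156) (nat_lit 1672) (nat_lit 0) (XT.nd (nat_lit 78) (nat_lit 760) (nat_lit 0) (XT.lf (nat_lit 0) (nat_lit 3782304547) (nat_lit 760) (nat_lit 1049136317) (nat_lit 836) (nat_lit 3067398089) (nat_lit 395) (nat_lit 5) (nat_lit 405) (nat_lit 5) (nat_lit 406) (nat_lit 5) (nat_lit 431) (nat_lit 373) (nat_lit 336)) (XT.lf (nat_lit 0) (nat_lit 1545018614) (nat_lit 760) (nat_lit 6265608170) (nat_lit 836) (nat_lit 150039053) (nat_lit 385) (nat_lit 5) (nat_lit 395) (nat_lit 5) (nat_lit 396) (nat_lit 5) (nat_lit 432) (nat_lit 373) (nat_lit 335))) (XT.nd (nat_lit 78) (nat_lit 1596) (nat_lit 0) (XT.lf (nat_lit 0) (nat_lit 2775989027) (nat_lit 836) (nat_lit 728288903) (nat_lit 76) (nat_lit 4519336789) (nat_lit 384) (nat_lit 5) (nat_lit 395) (nat_lit 5) (nat_lit 385)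 (nat_lit 5) (nat_lit 433) (nat_lit 373) (nat_lit 334)) (XT.nd (nat_lit 78) (nat_lit 836) (nat_lit 0) (XT.lf (nat_lit 0) (nat_lit 5084349657) (nat_lit 760) (nat_lit 660746760) (nat_lit 836) (nat_lit 2342974968) (nat_lit 374) (nat_lit 5) (nat_lit 384) (nat_lit 5) (nat_lit 385) (nat_lit 5) (nat_lit 434) (nat_lit 373) (nat_lit 333)) (XT.lf (nat_lit 0) (nat_lit 603534946) (nat_lit 836) (nat_lit 5320581718) (nat_lit 76) (nat_lit 2229782152) (nat_lit 363) (nat_lit 5) (nat_lit 374) (nat_lit 5) (nat_lit 364) (nat_lit 5) (nat_lit 435) (nat_lit 373) (nat_lit 332))))) (XT.nd (nat_lit 156) (nat_lit 1444) (nat_lit 0) (XT.nd (nat_lit 78) (nat_lit 0) (nat_lit 0) (XT.lf (nat_lit 0) (nat_lit 539307743) (nat_lit 684) (nat_lit 3020804040) (nat_lit 760) (nat_lit 4660971089) (nat_lit 354) (nat_lit 5) (nat_lit 363) (nat_lit 5) (nat_lit 364) (nat_lit 5) (nat_lit 436) (nat_lit 373) (nat_lit 331)) (XT.lf (nat_lit 0) (nat_lit 6533965180) (nat_lit 684) (nat_lit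 32412969) (nat_lit 760) (nat_lit 1723421298) (nat_lit 354) (nat_lit 5) (nat_lit 363) (nat_lit 5) (nat_lit 364) (nat_lit 5) (nat_lit 437) (nat_lit 373) (nat_lit 330))) (XT.nd (nat_lit 78) (nat_lit 684) (nat_lit 0) (XT.lf (nat_lit 0) (nat_lit 1259193427) (nat_lit 760) (nat_lit 4097365324) (nat_lit 76) (nat_lit 3003106156) (nat_lit 344) (nat_lit 5) (nat_lit 354) (nat_lit 5) (nat_lit 345) (nat_lit 5) (nat_lit 438) (nat_lit 373) (nat_lit 329)) (XT.nd (nat_lit 78) (nat_lit 0) (nat_lit 0) (XT.lf (nat_lit 0) (nat_lit 1953280360) (nat_lit 684) (nat_lit 2305790402) (nat_lit 760) (nat_lit 4172015341) (nat_lit 335) (nat_lit 5) (nat_lit 344) (nat_lit 5) (nat_lit 345) (nat_lit 5) (nat_lit 439) (nat_lit 373) (nat_lit 328)) (XT.lf (nat_lit 0) (nat_lit 7308208341) (nat_lit 760) (nat_lit 383301175) (nat_lit 76) (nat_lit 812640951) (nat_lit 335) (nat_lit 5) (nat_lit 345) (nat_lit 5) (nat_lit 336) (nat_lit 5) (nat_lit 440) (nat_lit 373) (nat_lit 327)))))))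 (XT.nd (nat_lit 780) (nat_lit 4256) (nat_lit 0) (XT.nd (nat_lit 390) (nat_lit 2432) (nat_lit 0) (XT.nd (nat_lit 156) (nat_lit 1292) (nat_lit 0) (XT.nd (nat_lit 78) (nat_lit 608) (nat_lit 0) (XT.lf (nat_lit 0) (nat_lit 1825992640) (nat_lit 760) (nat_lit 2749960442) (nat_lit 76) (nat_lit 4002274802) (nat_lit 325) (nat_lit 5) (nat_lit 335) (nat_lit 5) (nat_lit 326) (nat_lit 5) (nat_lit 441) (nat_lit 373) (nat_lit 326)) (XT.lf (nat_lit 0) (nat_lit 3499372216) (nat_lit 608) (nat_lit 1375723809) (nat_lit 684) (nat_lit 3778877851) (nat_lit 317) (nat_lit 5) (nat_lit 325) (nat_lit 5) (nat_lit 326) (nat_lit 5) (nat_lit 442) (nat_lit 373) (nat_lit 325))) (XT.nd (nat_lit 78) (nat_lit 684) (nat_lit 0) (XT.lf (nat_lit 0) (nat_lit 1127988917) (nat_lit 608) (nat_lit 6853182922) (nat_lit 684) (nat_lit 750143140) (nat_lit 309) (nat_lit 5) (nat_lit 317) (nat_lit 5) (nat_lit 318) (nat_lit 5) (nat_lit 443) (nat_lit 373) (nat_lit 324)) (XT.nd (nat_lit 78)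 (nat_lit 608) (nat_lit 0) (XT.lf (nat_lit 0) (nat_lit 2310446024) (nat_lit 684) (nat_lit 1282657577) (nat_lit 76) (nat_lit 5216756389) (nat_lit 308) (nat_lit 5) (nat_lit 317) (nat_lit 5) (nat_lit 309) (nat_lit 5) (nat_lit 444) (nat_lit 373) (nat_lit 323)) (XT.lf (nat_lit 0) (nat_lit 5173660404) (nat_lit 608) (nat_lit 240993778) (nat_lit 684) (nat_lit 3475373517) (nat_lit 300) (nat_lit 5) (nat_lit 308) (nat_lit 5) (nat_lit 309) (nat_lit 5) (nat_lit 445) (nat_lit 373) (nat_lit 322))))) (XT.nd (nat_lit 156) (nat_lit 1216) (nat_lit 0) (XT.nd (nat_lit 78) (nat_lit 608) (nat_lit 0) (XT.lf (nat_lit 0) (nat_lit 2766426902) (nat_lit 608) (nat_lit 5821010435) (nat_lit 684) (nat_lit 384231607) (nat_lit 292) (nat_lit 5) (nat_lit 300) (nat_lit 5) (nat_lit 301) (nat_lit 5) (nat_lit 446) (nat_lit 373) (nat_lit 321)) (XT.lf (nat_lit 0) (nat_lit 304857371) (nat_lit 532) (nat_lit 2415656844) (nat_lit 608) (nat_lit 6334307403) (nat_lit 284) (nat_lit 5)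 (nat_lit 291) (nat_lit 5) (nat_lit 292) (nat_lit 5) (nat_lit 447) (nat_lit 373) (nat_lit 320))) (XT.nd (nat_lit 78) (nat_lit 1216) (nat_lit 0) (XT.lf (nat_lit 0) (nat_lit 5890770398) (nat_lit 608) (nat_lit 2173789831) (nat_lit 76) (nat_lit 1074855112) (nat_lit 284) (nat_lit 5) (nat_lit 292) (nat_lit 5) (nat_lit 285) (nat_lit 5) (nat_lit 448) (nat_lit 373) (nat_lit 319)) (XT.nd (nat_lit 78) (nat_lit 608) (nat_lit 0) (XT.lf (nat_lit 0) (nat_lit 4523740555) (nat_lit 608) (nat_lit 4606620126) (nat_lit 684) (nat_lit 95221680) (nat_lit 276) (nat_lit 5) (nat_lit 284) (nat_lit 5) (nat_lit 285) (nat_lit 5) (nat_lit 449) (nat_lit 373) (nat_lit 318)) (XT.lf (nat_lit 0) (nat_lit 2024020937) (nat_lit 532) (nat_lit 1044868289) (nat_lit 608) (nat_lit 6244407082) (nat_lit 268) (nat_lit 5) (nat_lit 275) (nat_lit 5) (nat_lit 276) (nat_lit 5) (nat_lit 450) (nat_lit 373) (nat_lit 317)))))) (XT.nd (nat_lit 390) (nat_lit 2508) (nat_lit 0) (XT.nd (nat_lit 156)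 (nat_lit 1140) (nat_lit 0) (XT.nd (nat_lit 78) (nat_lit 608) (nat_lit 0) (XT.lf (nat_lit 0) (nat_lit 6304633010) (nat_lit 608) (nat_lit 525640457) (nat_lit 76) (nat_lit 2572285967) (nat_lit 268) (nat_lit 5) (nat_lit 276) (nat_lit 5) (nat_lit 269) (nat_lit 5) (nat_lit 451) (nat_lit 373) (nat_lit 316)) (XT.lf (nat_lit 0) (nat_lit 120368464) (nat_lit 608) (nat_lit 3096885236) (nat_lit 76) (nat_lit 6276132711) (nat_lit 260) (nat_lit 5) (nat_lit 268) (nat_lit 5) (nat_lit 261) (nat_lit 5) (nat_lit 452) (nat_lit 373) (nat_lit 315))) (XT.nd (nat_lit 78) (nat_lit 608) (nat_lit 0) (XT.lf (nat_lit 0) (nat_lit 3355414239) (nat_lit 608) (nat_lit 5733898428) (nat_lit 76) (nat_lit 496430390) (nat_lit 253) (nat_lit 5) (nat_lit 261) (nat_lit 5) (nat_lit 254) (nat_lit 5) (nat_lit 453) (nat_lit 373) (nat_lit 314)) (XT.nd (nat_lit 78) (nat_lit 76) (nat_lit 0) (XT.lf (nat_lit 0) (nat_lit 1243459056) (nat_lit 532) (nat_lit 5424286086) (nat_lit 608) (nat_lit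 3011950009) (nat_lit 246) (nat_lit 5) (nat_lit 253) (nat_lit 5) (nat_lit 254) (nat_lit 5) (nat_lit 454) (nat_lit 373) (nat_lit 313)) (XT.lf (nat_lit 0) (nat_lit 268410217) (nat_lit 608) (nat_lit 1392231643) (nat_lit 76) (nat_lit 8114825955) (nat_lit 245) (nat_lit 5) (nat_lit 253) (nat_lit 5) (nat_lit 246) (nat_lit 5) (nat_lit 455) (nat_lit 373) (nat_lit 312))))) (XT.nd (nat_lit 234) (nat_lit 988) (nat_lit 0) (XT.nd (nat_lit 78) (nat_lit 1064) (nat_lit 0) (XT.lf (nat_lit 0) (nat_lit 3589310363) (nat_lit 532) (nat_lit 4090938689) (nat_lit 76) (nat_lit 2192203448) (nat_lit 239) (nat_lit 5) (nat_lit 246) (nat_lit 5) (nat_lit 240) (nat_lit 5) (nat_lit 456) (nat_lit 373) (nat_lit 311)) (XT.nd (nat_lit 78) (nat_lit 532) (nat_lit 0) (XT.lf (nat_lit 0) (nat_lit 3123540875) (nat_lit 532) (nat_lit 3857221094) (nat_lit 608) (nat_lit 2990532239) (nat_lit 232) (nat_lit 5) (nat_lit 239) (nat_lit 5) (nat_lit 240) (nat_lit 5) (nat_lit 457) (nat_lit 373)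 (nat_lit 310)) (XT.lf (nat_lit 0) (nat_lit 357412475) (nat_lit 532) (nat_lit 9656401201) (nat_lit 76) (nat_lit 58365135) (nat_lit 225) (nat_lit 5) (nat_lit 232) (nat_lit 5) (nat_lit 226) (nat_lit 5) (nat_lit 458) (nat_lit 373) (nat_lit 309)))) (XT.nd (nat_lit 78) (nat_lit 988) (nat_lit 0) (XT.lf (nat_lit 0) (nat_lit 3767964363) (nat_lit 532) (nat_lit 2355597077) (nat_lit 76) (nat_lit 4050410489) (nat_lit 225) (nat_lit 5) (nat_lit 232) (nat_lit 5) (nat_lit 226) (nat_lit 5) (nat_lit 459) (nat_lit 373) (nat_lit 308)) (XT.nd (nat_lit 78) (nat_lit 532) (nat_lit 0) (XT.lf (nat_lit 0) (nat_lit 5106049091) (nat_lit 456) (nat_lit 2138392032) (nat_lit 532) (nat_lit 3033405510) (nat_lit 219) (nat_lit 5) (nat_lit 225) (nat_lit 5) (nat_lit 226) (nat_lit 5) (nat_lit 460) (nat_lit 373) (nat_lit 307)) (XT.lf (nat_lit 0) (nat_lit 409736713) (nat_lit 532) (nat_lit 8055383644) (nat_lit 76) (nat_lit 1918457241) (nat_lit 212) (nat_lit 5) (nat_lit 219) (nat_lit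 5) (nat_lit 213) (nat_lit 5) (nat_lit 461) (nat_lit 373) (nat_lit 306))))))))
noncomputable def xc83 : XT := (XT.nd (nat_lit 1638) (nat_lit 4332) (nat_lit 0) (XT.nd (nat_lit 780) (nat_lit 2812) (nat_lit 0) (XT.nd (nat_lit 390) (nat_lit 1672) (nat_lit 0) (XT.nd (nat_lit 156) (nat_lit 912) (nat_lit 0) (XT.nd (nat_lit 78) (nat_lit 456) (nat_lit 0) (XT.lf (nat_lit 0) (nat_lit 3895192636) (nat_lit 532) (nat_lit 529431009) (nat_lit 76) (nat_lit 6066117157) (nat_lit 212) (nat_lit 5) (nat_lit 219) (nat_lit 5) (nat_lit 213) (nat_lit 5) (nat_lit 462) (nat_lit 373) (nat_lit 305)) (XT.lf (nat_lit 0) (nat_lit 7189854419) (nat_lit 456) (nat_lit 272805473) (nat_lit 532) (nat_lit 3137141335) (nat_lit 206) (nat_lit 5) (nat_lit 212) (nat_lit 5) (nat_lit 213) (nat_lit 5) (nat_lit 463) (nat_lit 373) (nat_lit 304))) (XT.nd (nat_lit 78) (nat_lit 456) (nat_lit 0) (XT.lf (nat_lit 0) (nat_lit 408792743) (nat_lit 456) (nat_lit 6374087595) (nat_lit 76) (nat_lit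 3927642227) (nat_lit 200) (nat_lit 5) (nat_lit 206) (nat_lit 5) (nat_lit 201) (nat_lit 5) (nat_lit 464) (nat_lit 373) (nat_lit 303)) (XT.nd (nat_lit 78) (nat_lit 0) (nat_lit 0) (XT.lf (nat_lit 0) (nat_lit 1404831514) (nat_lit 456) (nat_lit 2578772751) (nat_lit 532) (nat_lit 6839440035) (nat_lit 194) (nat_lit 5) (nat_lit 200) (nat_lit 5) (nat_lit 201) (nat_lit 5) (nat_lit 465) (nat_lit 373) (nat_lit 302)) (XT.lf (nat_lit 0) (nat_lit 7650249073) (nat_lit 532) (nat_lit 1574654711) (nat_lit 76) (nat_lit 1712505944) (nat_lit 194) (nat_lit 5) (nat_lit 201) (nat_lit 5) (nat_lit 195) (nat_lit 5) (nat_lit 466) (nat_lit 373) (nat_lit 301))))) (XT.nd (nat_lit 156) (nat_lit 836) (nat_lit 0) (XT.nd (nat_lit 78) (nat_lit 380) (nat_lit 0) (XT.lf (nat_lit 0) (nat_lit 357675486) (nat_lit 456) (nat_lit 4613736666) (nat_lit 76) (nat_lit 6082088261) (nat_lit 188) (nat_lit 5) (nat_lit 194) (nat_lit 5) (nat_lit 189) (nat_lit 5) (nat_lit 467) (nat_lit 373)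 (nat_lit 300)) (XT.lf (nat_lit 0) (nat_lit 3436214855) (nat_lit 380) (nat_lit 595114788) (nat_lit 456) (nat_lit 7140149977) (nat_lit 183) (nat_lit 5) (nat_lit 188) (nat_lit 5) (nat_lit 189) (nat_lit 5) (nat_lit 468) (nat_lit 373) (nat_lit 299))) (XT.nd (nat_lit 78) (nat_lit 456) (nat_lit 0) (XT.lf (nat_lit 0) (nat_lit 346399050) (nat_lit 380) (nat_lit 7457740125) (nat_lit 456) (nat_lit 3487165591) (nat_lit 178) (nat_lit 5) (nat_lit 183) (nat_lit 5) (nat_lit 184) (nat_lit 5) (nat_lit 469) (nat_lit 373) (nat_lit 298)) (XT.nd (nat_lit 78) (nat_lit 380) (nat_lit 0) (XT.lf (nat_lit 0) (nat_lit 259185130) (nat_lit 456) (nat_lit 2775199434) (nat_lit 76) (nat_lit 8378642041) (nat_lit 177) (nat_lit 5) (nat_lit 183) (nat_lit 5) (nat_lit 178) (nat_lit 5) (nat_lit 470) (nat_lit 373) (nat_lit 297)) (XT.lf (nat_lit 0) (nat_lit 4047649612) (nat_lit 456) (nat_lit 5989231964) (nat_lit 76) (nat_lit 1499562702) (nat_lit 172) (nat_lit 5) (nat_lit 178) (nat_lit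 5) (nat_lit 173) (nat_lit 5) (nat_lit 471) (nat_lit 373) (nat_lit 296)))))) (XT.nd (nat_lit 390) (nat_lit 1368) (nat_lit 0) (XT.nd (nat_lit 156) (nat_lit 1064) (nat_lit 0) (XT.nd (nat_lit 78) (nat_lit 76) (nat_lit 0) (XT.lf (nat_lit 0) (nat_lit 2372021489) (nat_lit 304) (nat_lit 5562179220) (nat_lit 380) (nat_lit 3727683250) (nat_lit 168) (nat_lit 5) (nat_lit 172) (nat_lit 5) (nat_lit 173) (nat_lit 5) (nat_lit 472) (nat_lit 373) (nat_lit 295)) (XT.lf (nat_lit 0) (nat_lit 115847594) (nat_lit 380) (nat_lit 859007161) (nat_lit 76) (nat_lit 10814791127) (nat_lit 167) (nat_lit 5) (nat_lit 172) (nat_lit 5) (nat_lit 168) (nat_lit 5) (nat_lit 473) (nat_lit 373) (nat_lit 294))) (XT.nd (nat_lit 78) (nat_lit 684) (nat_lit 0) (XT.lf (nat_lit 0) (nat_lit 4030033775) (nat_lit 456) (nat_lit 4175554339) (nat_lit 76) (nat_lit 3713008160) (nat_lit 162) (nat_lit 5) (nat_lit 168) (nat_lit 5) (nat_lit 163) (nat_lit 5) (nat_lit 474) (nat_lit 373) (nat_lit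 293)) (XT.nd (nat_lit 78) (nat_lit 380) (nat_lit 0) (XT.lf (nat_lit 0) (nat_lit 4481172693) (nat_lit 304) (nat_lit 3551645223) (nat_lit 380) (nat_lit 4017101475) (nat_lit 158) (nat_lit 5) (nat_lit 162) (nat_lit 5) (nat_lit 163) (nat_lit 5) (nat_lit 475) (nat_lit 373) (nat_lit 292)) (XT.lf (nat_lit 0) (nat_lit 1141313050) (nat_lit 380) (nat_lit 10986847645) (nat_lit 456) (nat_lit 55458214) (nat_lit 153) (nat_lit 5) (nat_lit 158) (nat_lit 5) (nat_lit 159) (nat_lit 5) (nat_lit 476) (nat_lit 373) (nat_lit 291))))) (XT.nd (nat_lit 234) (nat_lit 684) (nat_lit 0) (XT.nd (nat_lit 78) (nat_lit 608) (nat_lit 0) (XT.lf (nat_lit 0) (nat_lit 3977001845) (nat_lit 456) (nat_lit 2290654662) (nat_lit 76) (nat_lit 6050941326) (nat_lit 152) (nat_lit 5) (nat_lit 158) (nat_lit 5) (nat_lit 153) (nat_lit 5) (nat_lit 477) (nat_lit 373) (nat_lit 290)) (XT.nd (nat_lit 78) (nat_lit 304) (nat_lit 0) (XT.lf (nat_lit 0) (nat_lit 6674061222) (nat_lit 304) (nat_lit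 1428450173) (nat_lit 380) (nat_lit 4353494748) (nat_lit 148) (nat_lit 5) (nat_lit 152) (nat_lit 5) (nat_lit 153) (nat_lit 5) (nat_lit 478) (nat_lit 373) (nat_lit 289)) (XT.lf (nat_lit 0) (nat_lit 3223381847) (nat_lit 304) (nat_lit 9116286336) (nat_lit 380) (nat_lit 255911697) (nat_lit 144) (nat_lit 5) (nat_lit 148) (nat_lit 5) (nat_lit 149) (nat_lit 5) (nat_lit 479) (nat_lit 373) (nat_lit 288)))) (XT.nd (nat_lit 78) (nat_lit 608) (nat_lit 0) (XT.lf (nat_lit 0) (nat_lit 3890716875) (nat_lit 380) (nat_lit 334528737) (nat_lit 76) (nat_lit 8511818927) (nat_lit 143) (nat_lit 5) (nat_lit 148) (nat_lit 5) (nat_lit 144) (nat_lit 5) (nat_lit 480) (nat_lit 373) (nat_lit 287)) (XT.nd (nat_lit 78) (nat_lit 304) (nat_lit 0) (XT.lf (nat_lit 0) (nat_lit 8150825900) (nat_lit 380) (nat_lit 3934796013) (nat_lit 76) (nat_lit 795043655) (nat_lit 139) (nat_lit 5) (nat_lit 144) (nat_lit 5) (nat_lit 140) (nat_lit 5) (nat_lit 481) (nat_lit 373) (nat_lit 286))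 (XT.lf (nat_lit 0) (nat_lit 5383392360) (nat_lit 304) (nat_lit 7148703201) (nat_lit 380) (nat_lit 494323888) (nat_lit 135) (nat_lit 5) (nat_lit 139) (nat_lit 5) (nat_lit 140) (nat_lit 5) (nat_lit 482) (nat_lit 373) (nat_lit 285))))))) (XT.nd (nat_lit 780) (nat_lit 2128) (nat_lit 0) (XT.nd (nat_lit 390) (nat_lit 1216) (nat_lit 0) (XT.nd (nat_lit 156) (nat_lit 608) (nat_lit 0) (XT.nd (nat_lit 78) (nat_lit 0) (nat_lit 0) (XT.lf (nat_lit 0) (nat_lit 1715606487) (nat_lit 304) (nat_lit 2068669337) (nat_lit 380) (nat_lit 9390144757) (nat_lit 130) (nat_lit 5) (nat_lit 134) (nat_lit 5) (nat_lit 135) (nat_lit 5) (nat_lit 483) (nat_lit 373) (nat_lit 284)) (XT.lf (nat_lit 0) (nat_lit 8184639958) (nat_lit 380) (nat_lit 2031897631) (nat_lit 76) (nat_lit 3107922570) (nat_lit 130) (nat_lit 5) (nat_lit 135) (nat_lit 5) (nat_lit 131) (nat_lit 5) (nat_lit 484) (nat_lit 373) (nat_lit 283))) (XT.nd (nat_lit 78) (nat_lit 304) (nat_lit 0) (XT.lf (nat_lit 0)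 (nat_lit 7622044510) (nat_lit 304) (nat_lit 5085688739) (nat_lit 380) (nat_lit 769072840) (nat_lit 126) (nat_lit 5) (nat_lit 130) (nat_lit 5) (nat_lit 131) (nat_lit 5) (nat_lit 485) (nat_lit 373) (nat_lit 282)) (XT.nd (nat_lit 78) (nat_lit 0) (nat_lit 0) (XT.lf (nat_lit 0) (nat_lit 3652230290) (nat_lit 304) (nat_lit 9789558717) (nat_lit 76) (nat_lit 189700414) (nat_lit 122) (nat_lit 5) (nat_lit 126) (nat_lit 5) (nat_lit 123) (nat_lit 5) (nat_lit 486) (nat_lit 373) (nat_lit 281)) (XT.lf (nat_lit 0) (nat_lit 8196620400) (nat_lit 304) (nat_lit 63557449) (nat_lit 76) (nat_lit 5528087722) (nat_lit 122) (nat_lit 5) (nat_lit 126) (nat_lit 5) (nat_lit 123) (nat_lit 5) (nat_lit 487) (nat_lit 373) (nat_lit 280))))) (XT.nd (nat_lit 156) (nat_lit 608) (nat_lit 0) (XT.nd (nat_lit 78) (nat_lit 304) (nat_lit 0) (XT.lf (nat_lit 0) (nat_lit 9940310226) (nat_lit 304) (nat_lit 2928402073) (nat_lit 380) (nat_lit 1078728666) (nat_lit 118) (nat_lit 5) (nat_lit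 122) (nat_lit 5) (nat_lit 123) (nat_lit 5) (nat_lit 488) (nat_lit 373) (nat_lit 279)) (XT.lf (nat_lit 0) (nat_lit 3506815639) (nat_lit 304) (nat_lit 8081051753) (nat_lit 76) (nat_lit 2520902950) (nat_lit 114) (nat_lit 5) (nat_lit 118) (nat_lit 5) (nat_lit 115) (nat_lit 5) (nat_lit 489) (nat_lit 373) (nat_lit 278))) (XT.nd (nat_lit 78) (nat_lit 304) (nat_lit 0) (XT.lf (nat_lit 0) (nat_lit 1997076641) (nat_lit 304) (nat_lit 6204437732) (nat_lit 380) (nat_lit 6071031570) (nat_lit 110) (nat_lit 5) (nat_lit 114) (nat_lit 5) (nat_lit 115) (nat_lit 5) (nat_lit 490) (nat_lit 373) (nat_lit 277)) (XT.nd (nat_lit 78) (nat_lit 304) (nat_lit 0) (XT.lf (nat_lit 0) (nat_lit 12339424755) (nat_lit 304) (nat_lit 677592750) (nat_lit 380) (nat_lit 1422041344) (nat_lit 110) (nat_lit 5) (nat_lit 114) (nat_lit 5) (nat_lit 115) (nat_lit 5) (nat_lit 491) (nat_lit 373) (nat_lit 276)) (XT.lf (nat_lit 0) (nat_lit 3336030130) (nat_lit 304) (nat_lit 6319535598) (nat_lit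 76) (nat_lit 4951712323) (nat_lit 106) (nat_lit 5) (nat_lit 110) (nat_lit 5) (nat_lit 107) (nat_lit 5) (nat_lit 492) (nat_lit 373) (nat_lit 275)))))) (XT.nd (nat_lit 390) (nat_lit 1064) (nat_lit 0) (XT.nd (nat_lit 156) (nat_lit 760) (nat_lit 0) (XT.nd (nat_lit 78) (nat_lit 0) (nat_lit 0) (XT.lf (nat_lit 0) (nat_lit 4126441406) (nat_lit 304) (nat_lit 4062405410) (nat_lit 380) (nat_lit 6589454329) (nat_lit 102) (nat_lit 5) (nat_lit 106) (nat_lit 5) (nat_lit 107) (nat_lit 5) (nat_lit 493) (nat_lit 373) (nat_lit 274)) (XT.lf (nat_lit 0) (nat_lit 13165318792) (nat_lit 380) (nat_lit 142369213) (nat_lit 76) (nat_lit 1644524716) (nat_lit 102) (nat_lit 5) (nat_lit 107) (nat_lit 5) (nat_lit 103) (nat_lit 5) (nat_lit 494) (nat_lit 373) (nat_lit 273))) (XT.nd (nat_lit 78) (nat_lit 456) (nat_lit 0) (XT.lf (nat_lit 0) (nat_lit 3141153239) (nat_lit 304) (nat_lit 4504476851) (nat_lit 76) (nat_lit 7482163446) (nat_lit 98) (nat_lit 5) (nat_lit 102) (nat_lit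 5) (nat_lit 99) (nat_lit 5) (nat_lit 495) (nat_lit 373) (nat_lit 272)) (XT.nd (nat_lit 78) (nat_lit 228) (nat_lit 0) (XT.lf (nat_lit 0) (nat_lit 6324827177) (nat_lit 228) (nat_lit 1834874874) (nat_lit 304) (nat_lit 7146630346) (nat_lit 95) (nat_lit 5) (nat_lit 98) (nat_lit 5) (nat_lit 99) (nat_lit 5) (nat_lit 496) (nat_lit 373) (nat_lit 271)) (XT.lf (nat_lit 0) (nat_lit 1896284312) (nat_lit 228) (nat_lit 11425556709) (nat_lit 304) (nat_lit 2165736629) (nat_lit 92) (nat_lit 5) (nat_lit 95) (nat_lit 5) (nat_lit 96) (nat_lit 5) (nat_lit 497) (nat_lit 373) (nat_lit 270))))) (XT.nd (nat_lit 234) (nat_lit 532) (nat_lit 0) (XT.nd (nat_lit 78) (nat_lit 456) (nat_lit 0) (XT.lf (nat_lit 0) (nat_lit 2923324562) (nat_lit 304) (nat_lit 2635142648) (nat_lit 76) (nat_lit 10112666558) (nat_lit 91) (nat_lit 5) (nat_lit 95) (nat_lit 5) (nat_lit 92) (nat_lit 5) (nat_lit 498) (nat_lit 373) (nat_lit 269)) (XT.nd (nat_lit 78) (nat_lit 228) (nat_lit 0) (XT.lf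 (nat_lit 0) (nat_lit 8118561339) (nat_lit 304) (nat_lit 7266981556) (nat_lit 76) (nat_lit 471863930) (nat_lit 88) (nat_lit 5) (nat_lit 92) (nat_lit 5) (nat_lit 89) (nat_lit 5) (nat_lit 499) (nat_lit 373) (nat_lit 268)) (XT.lf (nat_lit 0) (nat_lit 3999712703) (nat_lit 228) (nat_lit 9473122894) (nat_lit 304) (nat_lit 2573467093) (nat_lit 85) (nat_lit 5) (nat_lit 88) (nat_lit 5) (nat_lit 89) (nat_lit 5) (nat_lit 500) (nat_lit 373) (nat_lit 267)))) (XT.nd (nat_lit 78) (nat_lit 456) (nat_lit 0) (XT.lf (nat_lit 0) (nat_lit 2683553071) (nat_lit 304) (nat_lit 710607235) (nat_lit 76) (nat_lit 12843992533) (nat_lit 84) (nat_lit 5) (nat_lit 88) (nat_lit 5) (nat_lit 85) (nat_lit 5) (nat_lit 501) (nat_lit 373) (nat_lit 266)) (XT.nd (nat_lit 78) (nat_lit 228) (nat_lit 0) (XT.lf (nat_lit 0) (nat_lit 8076051323) (nat_lit 304) (nat_lit 5516946343) (nat_lit 76) (nat_lit 2839206184) (nat_lit 81) (nat_lit 5) (nat_lit 85) (nat_lit 5) (nat_lit 82) (nat_lit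 5) (nat_lit 502) (nat_lit 373) (nat_lit 265)) (XT.lf (nat_lit 0) (nat_lit 6167381365) (nat_lit 228) (nat_lit 7451510608) (nat_lit 304) (nat_lit 3010394060) (nat_lit 78) (nat_lit 5) (nat_lit 81) (nat_lit 5) (nat_lit 82) (nat_lit 5) (nat_lit 503) (nat_lit 373) (nat_lit 264))))))))
noncomputable def xc84 : XT := (XT.nd (nat_lit 51870) (nat_lit 0) (nat_lit 26524) (XT.nd (nat_lit 51090) (nat_lit 0) (nat_lit 46360) (XT.nd (nat_lit 50700) (nat_lit 0) (nat_lit 52440) (XT.nd (nat_lit 156) (nat_lit 456) (nat_lit 0) (XT.nd (nat_lit 78) (nat_lit 0) (nat_lit 0) (XT.lf (nat_lit 0) (nat_lit 1287123170) (nat_lit 228) (nat_lit 1143959287) (nat_lit 304) (nat_lit 14398493588) (nat_lit 74) (nat_lit 5) (nat_lit 77) (nat_lit 5) (nat_lit 78) (nat_lit 5) (nat_lit 504) (nat_lit 373) (nat_lit 263)) (XT.lf (nat_lit 0) (nat_lit 8021416224) (nat_lit 304) (nat_lit 3718608332) (nat_lit 76) (nat_lit 5291842590) (nat_lit 74) (nat_lit 5) (nat_lit 78) (nat_lit 5) (nat_lit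 75) (nat_lit 5) (nat_lit 505) (nat_lit 373) (nat_lit 262))) (XT.nd (nat_lit 78) (nat_lit 304) (nat_lit 0) (XT.lf (nat_lit 0) (nat_lit 8400845050) (nat_lit 152) (nat_lit 5360600847) (nat_lit 228) (nat_lit 3476000386) (nat_lit 72) (nat_lit 5) (nat_lit 74) (nat_lit 5) (nat_lit 75) (nat_lit 5) (nat_lit 506) (nat_lit 373) (nat_lit 261)) (XT.nd (nat_lit 50388) (nat_lit 0) (nat_lit 54416) (XT.lf (nat_lit 0) (nat_lit 2171104046) (nat_lit 304) (nat_lit 14101451021) (nat_lit 76) (nat_lit 1173691997) (nat_lit 68) (nat_lit 5) (nat_lit 72) (nat_lit 5) (nat_lit 69) (nat_lit 5) (nat_lit 507) (nat_lit 373) (nat_lit 260)) (XT.lf (nat_lit 0) (nat_lit 866232092) (nat_lit 532) (nat_lit 1522731172) (nat_lit 0) (nat_lit 866232092) (nat_lit 784) (nat_lit 5) (nat_lit 791) (nat_lit 4) (nat_lit 784) (nat_lit 4) (nat_lit 392) (nat_lit 374) (nat_lit 374))))) (XT.nd (nat_lit 156) (nat_lit 1368) (nat_lit 0) (XT.nd (nat_lit 78) (nat_lit 76) (nat_lit 0) (XT.lf (nat_lit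 0) (nat_lit 793981951) (nat_lit 532) (nat_lit 4185494307) (nat_lit 532) (nat_lit 1542967468) (nat_lit 777) (nat_lit 4) (nat_lit 784) (nat_lit 5) (nat_lit 784) (nat_lit 4) (nat_lit 393) (nat_lit 374) (nat_lit 373)) (XT.lf (nat_lit 0) (nat_lit 1676474351) (nat_lit 608) (nat_lit 1846761236) (nat_lit 76) (nat_lit 3012417640) (nat_lit 776) (nat_lit 5) (nat_lit 784) (nat_lit 5) (nat_lit 777) (nat_lit 4) (nat_lit 394) (nat_lit 374) (nat_lit 372))) (XT.nd (nat_lit 78) (nat_lit 760) (nat_lit 0) (XT.lf (nat_lit 0) (nat_lit 2078250434) (nat_lit 608) (nat_lit 2798682319) (nat_lit 684) (nat_lit 1673244423) (nat_lit 768) (nat_lit 5) (nat_lit 776) (nat_lit 5) (nat_lit 777) (nat_lit 4) (nat_lit 395) (nat_lit 374) (nat_lit 371)) (XT.nd (nat_lit 78) (nat_lit 684) (nat_lit 0) (XT.lf (nat_lit 0) (nat_lit 1492650260) (nat_lit 684) (nat_lit 520292649) (nat_lit 76) (nat_lit 4553105665) (nat_lit 767) (nat_lit 5) (nat_lit 776) (nat_lit 5) (nat_lit 768) (nat_lit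 5) (nat_lit 396) (nat_lit 374) (nat_lit 370)) (XT.lf (nat_lit 0) (nat_lit 3494111676) (nat_lit 684) (nat_lit 1153976606) (nat_lit 760) (nat_lit 1934955312) (nat_lit 758) (nat_lit 5) (nat_lit 767) (nat_lit 5) (nat_lit 768) (nat_lit 5) (nat_lit 397) (nat_lit 374) (nat_lit 369)))))) (XT.nd (nat_lit 390) (nat_lit 3344) (nat_lit 0) (XT.nd (nat_lit 156) (nat_lit 1900) (nat_lit 0) (XT.nd (nat_lit 78) (nat_lit 0) (nat_lit 0) (XT.lf (nat_lit 0) (nat_lit 948090360) (nat_lit 760) (nat_lit 237792709) (nat_lit 836) (nat_lit 5415606343) (nat_lit 747) (nat_lit 5) (nat_lit 757) (nat_lit 5) (nat_lit 758) (nat_lit 5) (nat_lit 398) (nat_lit 374) (nat_lit 368)) (XT.lf (nat_lit 0) (nat_lit 4296449359) (nat_lit 836) (nat_lit 1582531209) (nat_lit 76) (nat_lit 742003374) (nat_lit 747) (nat_lit 5) (nat_lit 758) (nat_lit 5) (nat_lit 748) (nat_lit 5) (nat_lit 399) (nat_lit 374) (nat_lit 367))) (XT.nd (nat_lit 78) (nat_lit 988) (nat_lit 0) (XT.lf (nat_lit 0) (nat_lit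 764497794) (nat_lit 912) (nat_lit 4097184910) (nat_lit 76) (nat_lit 1780138028) (nat_lit 735) (nat_lit 5) (nat_lit 747) (nat_lit 5) (nat_lit 736) (nat_lit 5) (nat_lit 400) (nat_lit 374) (nat_lit 366)) (XT.nd (nat_lit 78) (nat_lit 76) (nat_lit 0) (XT.lf (nat_lit 0) (nat_lit 45624298) (nat_lit 912) (nat_lit 3779390217) (nat_lit 988) (nat_lit 2838935855) (nat_lit 723) (nat_lit 5) (nat_lit 735) (nat_lit 5) (nat_lit 736) (nat_lit 5) (nat_lit 401) (nat_lit 374) (nat_lit 365)) (XT.lf (nat_lit 0) (nat_lit 214876440) (nat_lit 988) (nat_lit 2414041625) (nat_lit 76) (nat_lit 4058409339) (nat_lit 722) (nat_lit 5) (nat_lit 735) (nat_lit 5) (nat_lit 723) (nat_lit 5) (nat_lit 402) (nat_lit 374) (nat_lit 364))))) (XT.nd (nat_lit 156) (nat_lit 2356) (nat_lit 0) (XT.nd (nat_lit 78) (nat_lit 0) (nat_lit 0) (XT.lf (nat_lit 0) (nat_lit 1827510024) (nat_lit 988) (nat_lit 1407901316) (nat_lit 1064) (nat_lit 3476512139) (nat_lit 709) (nat_lit 5) (nat_lit 722)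 (nat_lit 5) (nat_lit 723) (nat_lit 5) (nat_lit 403) (nat_lit 374) (nat_lit 363)) (XT.lf (nat_lit 0) (nat_lit 6134971978) (nat_lit 988) (nat_lit 130345974) (nat_lit 1064) (nat_lit 472714302) (nat_lit 709) (nat_lit 5) (nat_lit 722) (nat_lit 5) (nat_lit 723) (nat_lit 5) (nat_lit 404) (nat_lit 374) (nat_lit 362))) (XT.nd (nat_lit 78) (nat_lit 1216) (nat_lit 0) (XT.lf (nat_lit 0) (nat_lit 2523115530) (nat_lit 1140) (nat_lit 3028454870) (nat_lit 76) (nat_lit 1213437543) (nat_lit 694) (nat_lit 5) (nat_lit 709) (nat_lit 5) (nat_lit 695) (nat_lit 5) (nat_lit 405) (nat_lit 374) (nat_lit 361)) (XT.nd (nat_lit 78) (nat_lit 76) (nat_lit 0) (XT.lf (nat_lit 0) (nat_lit 1339666450) (nat_lit 1140) (nat_lit 4181211164) (nat_lit 1216) (nat_lit 1272616133) (nat_lit 679) (nat_lit 5) (nat_lit 694) (nat_lit 5) (nat_lit 695) (nat_lit 5) (nat_lit 406) (nat_lit 374) (nat_lit 360)) (XT.lf (nat_lit 0) (nat_lit 1688691456) (nat_lit 1216) (nat_lit 1050566194) (nat_lit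 76) (nat_lit 4083950055) (nat_lit 678) (nat_lit 5) (nat_lit 694) (nat_lit 5) (nat_lit 679) (nat_lit 5) (nat_lit 407) (nat_lit 374) (nat_lit 359))))))) (XT.nd (nat_lit 780) (nat_lit 9424) (nat_lit 0) (XT.nd (nat_lit 390) (nat_lit 4940) (nat_lit 0) (XT.nd (nat_lit 156) (nat_lit 2888) (nat_lit 0) (XT.nd (nat_lit 78) (nat_lit 1368) (nat_lit 0) (XT.lf (nat_lit 0) (nat_lit 3425206290) (nat_lit 1216) (nat_lit 1225722949) (nat_lit 1292) (nat_lit 2203243577) (nat_lit 662) (nat_lit 5) (nat_lit 678) (nat_lit 5) (nat_lit 679) (nat_lit 5) (nat_lit 408) (nat_lit 374) (nat_lit 358)) (XT.lf (nat_lit 0) (nat_lit 729662017) (nat_lit 1368) (nat_lit 5813366935) (nat_lit 76) (nat_lit 343559636) (nat_lit 644) (nat_lit 5) (nat_lit 662) (nat_lit 5) (nat_lit 645) (nat_lit 5) (nat_lit 409) (nat_lit 374) (nat_lit 357))) (XT.nd (nat_lit 78) (nat_lit 2888) (nat_lit 0) (XT.lf (nat_lit 0) (nat_lit 3660977652) (nat_lit 1368) (nat_lit 1283623342) (nat_lit 76) (nat_lit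 1975375345) (nat_lit 644) (nat_lit 5) (nat_lit 662) (nat_lit 5) (nat_lit 645) (nat_lit 5) (nat_lit 410) (nat_lit 374) (nat_lit 356)) (XT.nd (nat_lit 78) (nat_lit 1520) (nat_lit 0) (XT.lf (nat_lit 0) (nat_lit 3327906070) (nat_lit 1368) (nat_lit 3283783107) (nat_lit 1444) (nat_lit 343127277) (nat_lit 626) (nat_lit 5) (nat_lit 644) (nat_lit 5) (nat_lit 645) (nat_lit 5) (nat_lit 411) (nat_lit 374) (nat_lit 355)) (XT.lf (nat_lit 0) (nat_lit 1001973795) (nat_lit 1444) (nat_lit 1549377155) (nat_lit 1520) (nat_lit 4439564844) (nat_lit 606) (nat_lit 5) (nat_lit 625) (nat_lit 5) (nat_lit 626) (nat_lit 5) (nat_lit 412) (nat_lit 374) (nat_lit 354))))) (XT.nd (nat_lit 156) (nat_lit 3344) (nat_lit 0) (XT.nd (nat_lit 78) (nat_lit 1596) (nat_lit 0) (XT.lf (nat_lit 0) (nat_lit 5465562611) (nat_lit 1520) (nat_lit 1312311436) (nat_lit 76) (nat_lit 250488946) (nat_lit 606) (nat_lit 5) (nat_lit 626) (nat_lit 5) (nat_lit 607) (nat_lit 5) (nat_lit 413) (nat_lit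 374) (nat_lit 353)) (XT.lf (nat_lit 0) (nat_lit 1327611143) (nat_lit 1596) (nat_lit 3635846817) (nat_lit 76) (nat_lit 2103441097) (nat_lit 585) (nat_lit 5) (nat_lit 606) (nat_lit 5) (nat_lit 586) (nat_lit 5) (nat_lit 414) (nat_lit 374) (nat_lit 352))) (XT.nd (nat_lit 78) (nat_lit 1748) (nat_lit 0) (XT.lf (nat_lit 0) (nat_lit 1132316792) (nat_lit 1596) (nat_lit 3080920988) (nat_lit 1672) (nat_lit 2893594805) (nat_lit 564) (nat_lit 5) (nat_lit 585) (nat_lit 5) (nat_lit 586) (nat_lit 5) (nat_lit 415) (nat_lit 374) (nat_lit 351)) (XT.nd (nat_lit 78) (nat_lit 1748) (nat_lit 0) (XT.lf (nat_lit 0) (nat_lit 5992310369) (nat_lit 1596) (nat_lit 1131554297) (nat_lit 1672) (nat_lit 24354364) (nat_lit 564) (nat_lit 5) (nat_lit 585) (nat_lit 5) (nat_lit 586) (nat_lit 5) (nat_lit 416) (nat_lit 374) (nat_lit 350)) (XT.lf (nat_lit 0) (nat_lit 2837979764) (nat_lit 1748) (nat_lit 3459868440) (nat_lit 76) (nat_lit 892732676) (nat_lit 541) (nat_lit 5) (nat_lit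 564) (nat_lit 5) (nat_lit 542) (nat_lit 5) (nat_lit 417) (nat_lit 374) (nat_lit 349)))))) (XT.nd (nat_lit 390) (nat_lit 4560) (nat_lit 0) (XT.nd (nat_lit 156) (nat_lit 3040) (nat_lit 0) (XT.nd (nat_lit 78) (nat_lit 76) (nat_lit 0) (XT.lf (nat_lit 0) (nat_lit 1455158068) (nat_lit 1748) (nat_lit 4271253150) (nat_lit 1824) (nat_lit 1507991994) (nat_lit 518) (nat_lit 5) (nat_lit 541) (nat_lit 5) (nat_lit 542) (nat_lit 5) (nat_lit 418) (nat_lit 374) (nat_lit 348)) (XT.lf (nat_lit 0) (nat_lit 1343413876) (nat_lit 1824) (nat_lit 826157092) (nat_lit 76) (nat_lit 5109986459) (nat_lit 517) (nat_lit 5) (nat_lit 541) (nat_lit 5) (nat_lit 518) (nat_lit 5) (nat_lit 419) (nat_lit 374) (nat_lit 347))) (XT.nd (nat_lit 78) (nat_lit 1216) (nat_lit 0) (XT.lf (nat_lit 0) (nat_lit 4205045925) (nat_lit 1900) (nat_lit 3107353296) (nat_lit 76) (nat_lit 13548345) (nat_lit 493) (nat_lit 5) (nat_lit 518) (nat_lit 5) (nat_lit 494) (nat_lit 5) (nat_lit 420) (nat_lit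 374) (nat_lit 346)) (XT.nd (nat_lit 78) (nat_lit 76) (nat_lit 0) (XT.lf (nat_lit 0) (nat_lit 1960210539) (nat_lit 1140) (nat_lit 5142995709) (nat_lit 1216) (nat_lit 270473348) (nat_lit 478) (nat_lit 5) (nat_lit 493) (nat_lit 5) (nat_lit 494) (nat_lit 5) (nat_lit 421) (nat_lit 374) (nat_lit 345)) (XT.lf (nat_lit 0) (nat_lit 2570342813) (nat_lit 1216) (nat_lit 321693162) (nat_lit 76) (nat_lit 4530628601) (nat_lit 477) (nat_lit 5) (nat_lit 493) (nat_lit 5) (nat_lit 478) (nat_lit 5) (nat_lit 422) (nat_lit 374) (nat_lit 344))))) (XT.nd (nat_lit 234) (nat_lit 1824) (nat_lit 0) (XT.nd (nat_lit 78) (nat_lit 1824) (nat_lit 0) (XT.lf (nat_lit 0) (nat_lit 4881470388) (nat_lit 912) (nat_lit 562593622) (nat_lit 988) (nat_lit 2028935284) (nat_lit 465) (nat_lit 5) (nat_lit 477) (nat_lit 5) (nat_lit 478) (nat_lit 5) (nat_lit 423) (nat_lit 374) (nat_lit 343)) (XT.nd (nat_lit 78) (nat_lit 836) (nat_lit 0) (XT.lf (nat_lit 0) (nat_lit 819387247) (nat_lit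 988) (nat_lit 4891914371) (nat_lit 76) (nat_lit 1813336027) (nat_lit 452) (nat_lit 5) (nat_lit 465) (nat_lit 5) (nat_lit 453) (nat_lit 5) (nat_lit 424) (nat_lit 374) (nat_lit 342)) (XT.lf (nat_lit 0) (nat_lit 353306935) (nat_lit 836) (nat_lit 3316765376) (nat_lit 912) (nat_lit 3907516957) (nat_lit 441) (nat_lit 5) (nat_lit 452) (nat_lit 5) (nat_lit 453) (nat_lit 5) (nat_lit 425) (nat_lit 374) (nat_lit 341)))) (XT.nd (nat_lit 78) (nat_lit 1824) (nat_lit 0) (XT.lf (nat_lit 0) (nat_lit 5716419458) (nat_lit 836) (nat_lit 843845220) (nat_lit 912) (nat_lit 1071685373) (nat_lit 441) (nat_lit 5) (nat_lit 452) (nat_lit 5) (nat_lit 453) (nat_lit 5) (nat_lit 426) (nat_lit 374) (nat_lit 340)) (XT.nd (nat_lit 78) (nat_lit 836) (nat_lit 0) (XT.lf (nat_lit 0) (nat_lit 1781009488) (nat_lit 988) (nat_lit 4218528573) (nat_lit 76) (nat_lit 1687942992) (nat_lit 428) (nat_lit 5) (nat_lit 441) (nat_lit 5) (nat_lit 429) (nat_lit 5) (nat_lit 427) (nat_lit 374)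 (nat_lit 339)) (XT.lf (nat_lit 0) (nat_lit 1192546399) (nat_lit 836) (nat_lit 3461081831) (nat_lit 912) (nat_lit 3090808371) (nat_lit 417) (nat_lit 5) (nat_lit 428) (nat_lit 5) (nat_lit 429) (nat_lit 5) (nat_lit 428) (nat_lit 374) (nat_lit 338))))))))
noncomputable def xc85 : XT := (XT.nd (nat_lit 1560) (nat_lit 7676) (nat_lit 0) (XT.nd (nat_lit 780) (nat_lit 4560) (nat_lit 0) (XT.nd (nat_lit 390) (nat_lit 3040) (nat_lit 0) (XT.nd (nat_lit 156) (nat_lit 1596) (nat_lit 0) (XT.nd (nat_lit 78) (nat_lit 912) (nat_lit 0) (XT.lf (nat_lit 0) (nat_lit 6715829980) (nat_lit 836) (nat_lit 847730480) (nat_lit 912) (nat_lit 239373577) (nat_lit 417) (nat_lit 5) (nat_lit 428) (nat_lit 5) (nat_lit 429) (nat_lit 5) (nat_lit 429) (nat_lit 374) (nat_lit 337)) (XT.lf (nat_lit 0) (nat_lit 2627408395) (nat_lit 912) (nat_lit 3399150177) (nat_lit 76) (nat_lit 1835829779) (nat_lit 405) (nat_lit 5) (nat_lit 417) (nat_lit 5) (nat_lit 406) (nat_lit 5) (nat_lit 430)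 (nat_lit 374) (nat_lit 336))) (XT.nd (nat_lit 78) (nat_lit 836) (nat_lit 0) (XT.lf (nat_lit 0) (nat_lit 2184488094) (nat_lit 760) (nat_lit 3343727344) (nat_lit 836) (nat_lit 2395186776) (nat_lit 395) (nat_lit 5) (nat_lit 405) (nat_lit 5) (nat_lit 406) (nat_lit 5) (nat_lit 431) (nat_lit 374) (nat_lit 335)) (XT.nd (nat_lit 78) (nat_lit 760) (nat_lit 0) (XT.lf (nat_lit 0) (nat_lit 470811757) (nat_lit 836) (nat_lit 116335992) (nat_lit 76) (nat_lit 7398903786) (nat_lit 394) (nat_lit 5) (nat_lit 405) (nat_lit 5) (nat_lit 395) (nat_lit 5) (nat_lit 432) (nat_lit 374) (nat_lit 334)) (XT.lf (nat_lit 0) (nat_lit 3367296847) (nat_lit 836) (nat_lit 2440557120) (nat_lit 76) (nat_lit 2241678470) (nat_lit 384) (nat_lit 5) (nat_lit 395) (nat_lit 5) (nat_lit 385) (nat_lit 5) (nat_lit 433) (nat_lit 374) (nat_lit 333))))) (XT.nd (nat_lit 156) (nat_lit 1444) (nat_lit 0) (XT.nd (nat_lit 78) (nat_lit 836) (nat_lit 0) (XT.lf (nat_lit 0) (nat_lit 3322693047)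 (nat_lit 760) (nat_lit 2979731571) (nat_lit 836) (nat_lit 1812244079) (nat_lit 374) (nat_lit 5) (nat_lit 384) (nat_lit 5) (nat_lit 385) (nat_lit 5) (nat_lit 434) (nat_lit 374) (nat_lit 332)) (XT.lf (nat_lit 0) (nat_lit 1006009688) (nat_lit 760) (nat_lit 72247865) (nat_lit 836) (nat_lit 7103150610) (nat_lit 363) (nat_lit 5) (nat_lit 373) (nat_lit 5) (nat_lit 374) (nat_lit 5) (nat_lit 435) (nat_lit 374) (nat_lit 331))) (XT.nd (nat_lit 78) (nat_lit 1444) (nat_lit 0) (XT.lf (nat_lit 0) (nat_lit 4008689645) (nat_lit 836) (nat_lit 1348764656) (nat_lit 76) (nat_lit 2891660812) (nat_lit 363) (nat_lit 5) (nat_lit 374) (nat_lit 5) (nat_lit 364) (nat_lit 5) (nat_lit 436) (nat_lit 374) (nat_lit 330)) (XT.nd (nat_lit 78) (nat_lit 760) (nat_lit 0) (XT.lf (nat_lit 0) (nat_lit 4601492142) (nat_lit 684) (nat_lit 2382679181) (nat_lit 760) (nat_lit 1334276059) (nat_lit 354) (nat_lit 5) (nat_lit 363) (nat_lit 5) (nat_lit 364) (nat_lit 5) (nat_lit 437) (nat_lit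 374) (nat_lit 329)) (XT.lf (nat_lit 0) (nat_lit 1593160242) (nat_lit 760) (nat_lit 6127634255) (nat_lit 76) (nat_lit 668469309) (nat_lit 344) (nat_lit 5) (nat_lit 354) (nat_lit 5) (nat_lit 345) (nat_lit 5) (nat_lit 438) (nat_lit 374) (nat_lit 328)))))) (XT.nd (nat_lit 390) (nat_lit 2508) (nat_lit 0) (XT.nd (nat_lit 156) (nat_lit 1368) (nat_lit 0) (XT.nd (nat_lit 78) (nat_lit 684) (nat_lit 0) (XT.lf (nat_lit 0) (nat_lit 4558955908) (nat_lit 760) (nat_lit 129074875) (nat_lit 76) (nat_lit 3773335850) (nat_lit 344) (nat_lit 5) (nat_lit 354) (nat_lit 5) (nat_lit 345) (nat_lit 5) (nat_lit 439) (nat_lit 374) (nat_lit 327)) (XT.lf (nat_lit 0) (nat_lit 6015937422) (nat_lit 684) (nat_lit 1564809769) (nat_lit 760) (nat_lit 954230734) (nat_lit 335) (nat_lit 5) (nat_lit 344) (nat_lit 5) (nat_lit 345) (nat_lit 5) (nat_lit 440) (nat_lit 374) (nat_lit 326))) (XT.nd (nat_lit 78) (nat_lit 608) (nat_lit 0) (XT.lf (nat_lit 0) (nat_lit 2019150582) (nat_lit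 760) (nat_lit 4963296361) (nat_lit 76) (nat_lit 1627484679) (nat_lit 325) (nat_lit 5) (nat_lit 335) (nat_lit 5) (nat_lit 326) (nat_lit 5) (nat_lit 441) (nat_lit 374) (nat_lit 325)) (XT.nd (nat_lit 78) (nat_lit 0) (nat_lit 0) (XT.lf (nat_lit 0) (nat_lit 1230009721) (nat_lit 608) (nat_lit 3802843754) (nat_lit 684) (nat_lit 3653532148) (nat_lit 317) (nat_lit 5) (nat_lit 325) (nat_lit 5) (nat_lit 326) (nat_lit 5) (nat_lit 442) (nat_lit 374) (nat_lit 324)) (XT.lf (nat_lit 0) (nat_lit 7561757514) (nat_lit 608) (nat_lit 537109710) (nat_lit 684) (nat_lit 665660743) (nat_lit 317) (nat_lit 5) (nat_lit 325) (nat_lit 5) (nat_lit 326) (nat_lit 5) (nat_lit 443) (nat_lit 374) (nat_lit 323))))) (XT.nd (nat_lit 156) (nat_lit 1216) (nat_lit 0) (XT.nd (nat_lit 78) (nat_lit 608) (nat_lit 0) (XT.lf (nat_lit 0) (nat_lit 2361997186) (nat_lit 684) (nat_lit 3686340393) (nat_lit 76) (nat_lit 2795360893) (nat_lit 308) (nat_lit 5) (nat_lit 317) (nat_lit 5) (nat_lit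 309) (nat_lit 5) (nat_lit 444) (nat_lit 374) (nat_lit 322)) (XT.lf (nat_lit 0) (nat_lit 2711649468) (nat_lit 608) (nat_lit 2718599698) (nat_lit 684) (nat_lit 3494336139) (nat_lit 300) (nat_lit 5) (nat_lit 308) (nat_lit 5) (nat_lit 309) (nat_lit 5) (nat_lit 445) (nat_lit 374) (nat_lit 321))) (XT.nd (nat_lit 78) (nat_lit 608) (nat_lit 0) (XT.lf (nat_lit 0) (nat_lit 226409520) (nat_lit 608) (nat_lit 8324257806) (nat_lit 684) (nat_lit 456606525) (nat_lit 292) (nat_lit 5) (nat_lit 300) (nat_lit 5) (nat_lit 301) (nat_lit 5) (nat_lit 446) (nat_lit 374) (nat_lit 320)) (XT.nd (nat_lit 78) (nat_lit 532) (nat_lit 0) (XT.lf (nat_lit 0) (nat_lit 2627411175) (nat_lit 684) (nat_lit 2300604846) (nat_lit 76) (nat_lit 4162853446) (nat_lit 291) (nat_lit 5) (nat_lit 300) (nat_lit 5) (nat_lit 292) (nat_lit 5) (nat_lit 447) (nat_lit 374) (nat_lit 319)) (XT.lf (nat_lit 0) (nat_lit 4310663835) (nat_lit 532) (nat_lit 1445315081) (nat_lit 608) (nat_lit 3420318046)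 (nat_lit 284) (nat_lit 5) (nat_lit 291) (nat_lit 5) (nat_lit 292) (nat_lit 5) (nat_lit 448) (nat_lit 374) (nat_lit 318))))))) (XT.nd (nat_lit 780) (nat_lit 3724) (nat_lit 0) (XT.nd (nat_lit 390) (nat_lit 1596) (nat_lit 0) (XT.nd (nat_lit 156) (nat_lit 1672) (nat_lit 0) (XT.nd (nat_lit 78) (nat_lit 76) (nat_lit 0) (XT.lf (nat_lit 0) (nat_lit 1779322091) (nat_lit 608) (nat_lit 7169902725) (nat_lit 684) (nat_lit 314166052) (nat_lit 276) (nat_lit 5) (nat_lit 284) (nat_lit 5) (nat_lit 285) (nat_lit 5) (nat_lit 449) (nat_lit 374) (nat_lit 317)) (XT.lf (nat_lit 0) (nat_lit 2820615672) (nat_lit 684) (nat_lit 809377934) (nat_lit 76) (nat_lit 5721783655) (nat_lit 275) (nat_lit 5) (nat_lit 284) (nat_lit 5) (nat_lit 276) (nat_lit 5) (nat_lit 450) (nat_lit 374) (nat_lit 316))) (XT.nd (nat_lit 78) (nat_lit 1140) (nat_lit 0) (XT.lf (nat_lit 0) (nat_lit 6015315705) (nat_lit 608) (nat_lit 3417771513) (nat_lit 76) (nat_lit 8774043) (nat_lit 268) (nat_lit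 5) (nat_lit 276) (nat_lit 5) (nat_lit 269) (nat_lit 5) (nat_lit 451) (nat_lit 374) (nat_lit 315)) (XT.nd (nat_lit 78) (nat_lit 608) (nat_lit 0) (XT.lf (nat_lit 0) (nat_lit 3440707237) (nat_lit 532) (nat_lit 5847620877) (nat_lit 608) (nat_lit 245130461) (nat_lit 261) (nat_lit 5) (nat_lit 268) (nat_lit 5) (nat_lit 269) (nat_lit 5) (nat_lit 452) (nat_lit 374) (nat_lit 314)) (XT.lf (nat_lit 0) (nat_lit 794996138) (nat_lit 532) (nat_lit 2156546872) (nat_lit 608) (nat_lit 6675135785) (nat_lit 253) (nat_lit 5) (nat_lit 260) (nat_lit 5) (nat_lit 261) (nat_lit 5) (nat_lit 453) (nat_lit 374) (nat_lit 313))))) (XT.nd (nat_lit 156) (nat_lit 1064) (nat_lit 0) (XT.nd (nat_lit 78) (nat_lit 532) (nat_lit 0) (XT.lf (nat_lit 0) (nat_lit 6223494209) (nat_lit 608) (nat_lit 1882549983) (nat_lit 76) (nat_lit 1615394293) (nat_lit 253) (nat_lit 5) (nat_lit 261) (nat_lit 5) (nat_lit 254) (nat_lit 5) (nat_lit 454) (nat_lit 374) (nat_lit 312)) (XT.lf (nat_lit 0)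 (nat_lit 5208262372) (nat_lit 532) (nat_lit 4364469010) (nat_lit 608) (nat_lit 245125046) (nat_lit 246) (nat_lit 5) (nat_lit 253) (nat_lit 5) (nat_lit 254) (nat_lit 5) (nat_lit 455) (nat_lit 374) (nat_lit 311))) (XT.nd (nat_lit 78) (nat_lit 532) (nat_lit 0) (XT.lf (nat_lit 0) (nat_lit 2511898694) (nat_lit 456) (nat_lit 513469533) (nat_lit 532) (nat_lit 6890577149) (nat_lit 239) (nat_lit 5) (nat_lit 245) (nat_lit 5) (nat_lit 246) (nat_lit 5) (nat_lit 456) (nat_lit 374) (nat_lit 310)) (XT.nd (nat_lit 78) (nat_lit 532) (nat_lit 0) (XT.lf (nat_lit 0) (nat_lit 6375467284) (nat_lit 532) (nat_lit 252816315) (nat_lit 76) (nat_lit 3387330536) (nat_lit 239) (nat_lit 5) (nat_lit 246) (nat_lit 5) (nat_lit 240) (nat_lit 5) (nat_lit 457) (nat_lit 374) (nat_lit 309)) (XT.lf (nat_lit 0) (nat_lit 7080163753) (nat_lit 532) (nat_lit 2726644632) (nat_lit 608) (nat_lit 310183083) (nat_lit 232) (nat_lit 5) (nat_lit 239) (nat_lit 5) (nat_lit 240) (nat_lit 5)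 (nat_lit 458) (nat_lit 374) (nat_lit 308)))))) (XT.nd (nat_lit 390) (nat_lit 1748) (nat_lit 0) (XT.nd (nat_lit 156) (nat_lit 988) (nat_lit 0) (XT.nd (nat_lit 78) (nat_lit 456) (nat_lit 0) (XT.lf (nat_lit 0) (nat_lit 3049078707) (nat_lit 532) (nat_lit 5899735347) (nat_lit 76) (nat_lit 1271117975) (nat_lit 225) (nat_lit 5) (nat_lit 232) (nat_lit 5) (nat_lit 226) (nat_lit 5) (nat_lit 459) (nat_lit 374) (nat_lit 307)) (XT.lf (nat_lit 0) (nat_lit 1489168635) (nat_lit 456) (nat_lit 4995704061) (nat_lit 532) (nat_lit 3839747691) (nat_lit 219) (nat_lit 5) (nat_lit 225) (nat_lit 5) (nat_lit 226) (nat_lit 5) (nat_lit 460) (nat_lit 374) (nat_lit 306))) (XT.nd (nat_lit 78) (nat_lit 988) (nat_lit 0) (XT.lf (nat_lit 0) (nat_lit 9055041046) (nat_lit 456) (nat_lit 939540215) (nat_lit 532) (nat_lit 436717278) (nat_lit 219) (nat_lit 5) (nat_lit 225) (nat_lit 5) (nat_lit 226) (nat_lit 5) (nat_lit 461) (nat_lit 374) (nat_lit 305)) (XT.nd (nat_lit 78) (nat_lit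 456) (nat_lit 0) (XT.lf (nat_lit 0) (nat_lit 3022232512) (nat_lit 532) (nat_lit 4316565067) (nat_lit 76) (nat_lit 3200365549) (nat_lit 212) (nat_lit 5) (nat_lit 219) (nat_lit 5) (nat_lit 213) (nat_lit 5) (nat_lit 462) (nat_lit 374) (nat_lit 304)) (XT.lf (nat_lit 0) (nat_lit 3327072633) (nat_lit 456) (nat_lit 3220861755) (nat_lit 532) (nat_lit 4101124471) (nat_lit 206) (nat_lit 5) (nat_lit 212) (nat_lit 5) (nat_lit 213) (nat_lit 5) (nat_lit 463) (nat_lit 374) (nat_lit 303))))) (XT.nd (nat_lit 234) (nat_lit 836) (nat_lit 0) (XT.nd (nat_lit 78) (nat_lit 532) (nat_lit 0) (XT.lf (nat_lit 0) (nat_lit 369112630) (nat_lit 380) (nat_lit 9779473033) (nat_lit 456) (nat_lit 612478136) (nat_lit 201) (nat_lit 5) (nat_lit 206) (nat_lit 5) (nat_lit 207) (nat_lit 5) (nat_lit 464) (nat_lit 374) (nat_lit 302)) (XT.nd (nat_lit 78) (nat_lit 456) (nat_lit 0) (XT.lf (nat_lit 0) (nat_lit 2944725918) (nat_lit 456) (nat_lit 2652633221) (nat_lit 76) (nat_lit 5276818732)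 (nat_lit 200) (nat_lit 5) (nat_lit 206) (nat_lit 5) (nat_lit 201) (nat_lit 5) (nat_lit 465) (nat_lit 374) (nat_lit 301)) (XT.lf (nat_lit 0) (nat_lit 5256542323) (nat_lit 456) (nat_lit 1309752918) (nat_lit 532) (nat_lit 4423149568) (nat_lit 194) (nat_lit 5) (nat_lit 200) (nat_lit 5) (nat_lit 201) (nat_lit 5) (nat_lit 466) (nat_lit 374) (nat_lit 300)))) (XT.nd (nat_lit 78) (nat_lit 456) (nat_lit 0) (XT.lf (nat_lit 0) (nat_lit 2212179418) (nat_lit 380) (nat_lit 8067783720) (nat_lit 456) (nat_lit 826660604) (nat_lit 189) (nat_lit 5) (nat_lit 194) (nat_lit 5) (nat_lit 195) (nat_lit 5) (nat_lit 467) (nat_lit 374) (nat_lit 299)) (XT.nd (nat_lit 78) (nat_lit 380) (nat_lit 0) (XT.lf (nat_lit 0) (nat_lit 2819483771) (nat_lit 456) (nat_lit 909005934) (nat_lit 76) (nat_lit 7496987620) (nat_lit 188) (nat_lit 5) (nat_lit 194) (nat_lit 5) (nat_lit 189) (nat_lit 5) (nat_lit 468) (nat_lit 374) (nat_lit 298)) (XT.lf (nat_lit 0) (nat_lit 6547736587) (nat_lit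 456) (nat_lit 4074090170) (nat_lit 76) (nat_lit 724366848) (nat_lit 183) (nat_lit 5) (nat_lit 189) (nat_lit 5) (nat_lit 184) (nat_lit 5) (nat_lit 469) (nat_lit 374) (nat_lit 297))))))))
noncomputable def xc86 : XT := (XT.nd (nat_lit 1560) (nat_lit 3420) (nat_lit 0) (XT.nd (nat_lit 780) (nat_lit 2356) (nat_lit 0) (XT.nd (nat_lit 390) (nat_lit 1064) (nat_lit 0) (XT.nd (nat_lit 156) (nat_lit 760) (nat_lit 0) (XT.nd (nat_lit 78) (nat_lit 456) (nat_lit 0) (XT.lf (nat_lit 0) (nat_lit 4140187220) (nat_lit 380) (nat_lit 6236505379) (nat_lit 456) (nat_lit 1092108851) (nat_lit 178) (nat_lit 5) (nat_lit 183) (nat_lit 5) (nat_lit 184) (nat_lit 5) (nat_lit 470) (nat_lit 374) (nat_lit 296)) (XT.lf (nat_lit 0) (nat_lit 925738276) (nat_lit 380) (nat_lit 1729419256) (nat_lit 456) (nat_lit 8938313831) (nat_lit 172) (nat_lit 5) (nat_lit 177) (nat_lit 5) (nat_lit 178) (nat_lit 5) (nat_lit 471) (nat_lit 374) (nat_lit 295))) (XT.nd (nat_lit 78) (nat_lit 760)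 (nat_lit 0) (XT.lf (nat_lit 0) (nat_lit 6499584766) (nat_lit 456) (nat_lit 2350920097) (nat_lit 76) (nat_lit 2869248658) (nat_lit 172) (nat_lit 5) (nat_lit 178) (nat_lit 5) (nat_lit 173) (nat_lit 5) (nat_lit 472) (nat_lit 374) (nat_lit 294)) (XT.nd (nat_lit 78) (nat_lit 456) (nat_lit 0) (XT.lf (nat_lit 0) (nat_lit 6152834106) (nat_lit 304) (nat_lit 4288782462) (nat_lit 380) (nat_lit 1406530434) (nat_lit 168) (nat_lit 5) (nat_lit 172) (nat_lit 5) (nat_lit 173) (nat_lit 5) (nat_lit 473) (nat_lit 374) (nat_lit 293)) (XT.lf (nat_lit 0) (nat_lit 2457192040) (nat_lit 456) (nat_lit 9129098677) (nat_lit 76) (nat_lit 392367532) (nat_lit 162) (nat_lit 5) (nat_lit 168) (nat_lit 5) (nat_lit 163) (nat_lit 5) (nat_lit 474) (nat_lit 374) (nat_lit 292))))) (XT.nd (nat_lit 156) (nat_lit 760) (nat_lit 0) (XT.nd (nat_lit 78) (nat_lit 304) (nat_lit 0) (XT.lf (nat_lit 0) (nat_lit 6415816854) (nat_lit 456) (nat_lit 555347175) (nat_lit 76) (nat_lit 5139700523)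 (nat_lit 162) (nat_lit 5) (nat_lit 168) (nat_lit 5) (nat_lit 163) (nat_lit 5) (nat_lit 475) (nat_lit 374) (nat_lit 291)) (XT.lf (nat_lit 0) (nat_lit 8250147831) (nat_lit 304) (nat_lit 2227197983) (nat_lit 380) (nat_lit 1767894533) (nat_lit 158) (nat_lit 5) (nat_lit 162) (nat_lit 5) (nat_lit 163) (nat_lit 5) (nat_lit 476) (nat_lit 374) (nat_lit 290))) (XT.nd (nat_lit 78) (nat_lit 304) (nat_lit 0) (XT.lf (nat_lit 0) (nat_lit 2231160754) (nat_lit 456) (nat_lit 7540870291) (nat_lit 76) (nat_lit 2609527863) (nat_lit 152) (nat_lit 5) (nat_lit 158) (nat_lit 5) (nat_lit 153) (nat_lit 5) (nat_lit 477) (nat_lit 374) (nat_lit 289)) (XT.nd (nat_lit 78) (nat_lit 0) (nat_lit 0) (XT.lf (nat_lit 0) (nat_lit 1329909951) (nat_lit 304) (nat_lit 4977409962) (nat_lit 380) (nat_lit 6212634315) (nat_lit 148) (nat_lit 5) (nat_lit 152) (nat_lit 5) (nat_lit 153) (nat_lit 5) (nat_lit 478) (nat_lit 374) (nat_lit 288)) (XT.lf (nat_lit 0) (nat_lit 10432471989) (nat_lit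 304) (nat_lit 53804859) (nat_lit 380) (nat_lit 2174415113) (nat_lit 148) (nat_lit 5) (nat_lit 152) (nat_lit 5) (nat_lit 153) (nat_lit 5) (nat_lit 479) (nat_lit 374) (nat_lit 287)))))) (XT.nd (nat_lit 390) (nat_lit 988) (nat_lit 0) (XT.nd (nat_lit 156) (nat_lit 684) (nat_lit 0) (XT.nd (nat_lit 78) (nat_lit 304) (nat_lit 0) (XT.lf (nat_lit 0) (nat_lit 1967726457) (nat_lit 380) (nat_lit 5892201075) (nat_lit 76) (nat_lit 4943091183) (nat_lit 143) (nat_lit 5) (nat_lit 148) (nat_lit 5) (nat_lit 144) (nat_lit 5) (nat_lit 480) (nat_lit 374) (nat_lit 286)) (XT.lf (nat_lit 0) (nat_lit 3295875451) (nat_lit 304) (nat_lit 2875753725) (nat_lit 380) (nat_lit 6776114694) (nat_lit 139) (nat_lit 5) (nat_lit 143) (nat_lit 5) (nat_lit 144) (nat_lit 5) (nat_lit 481) (nat_lit 374) (nat_lit 285))) (XT.nd (nat_lit 78) (nat_lit 684) (nat_lit 0) (XT.lf (nat_lit 0) (nat_lit 10485085706) (nat_lit 380) (nat_lit 409167501) (nat_lit 76) (nat_lit 2200600807) (nat_lit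 139) (nat_lit 5) (nat_lit 144) (nat_lit 5) (nat_lit 140) (nat_lit 5) (nat_lit 482) (nat_lit 374) (nat_lit 284)) (XT.nd (nat_lit 78) (nat_lit 304) (nat_lit 0) (XT.lf (nat_lit 0) (nat_lit 1668571149) (nat_lit 380) (nat_lit 4183214950) (nat_lit 76) (nat_lit 7391903838) (nat_lit 134) (nat_lit 5) (nat_lit 139) (nat_lit 5) (nat_lit 135) (nat_lit 5) (nat_lit 483) (nat_lit 374) (nat_lit 283)) (XT.lf (nat_lit 0) (nat_lit 5335571584) (nat_lit 304) (nat_lit 671365004) (nat_lit 380) (nat_lit 7388032900) (nat_lit 130) (nat_lit 5) (nat_lit 134) (nat_lit 5) (nat_lit 135) (nat_lit 5) (nat_lit 484) (nat_lit 374) (nat_lit 282))))) (XT.nd (nat_lit 156) (nat_lit 608) (nat_lit 0) (XT.nd (nat_lit 78) (nat_lit 76) (nat_lit 0) (XT.lf (nat_lit 0) (nat_lit 1495362264) (nat_lit 304) (nat_lit 8976714766) (nat_lit 380) (nat_lit 3076397447) (nat_lit 126) (nat_lit 5) (nat_lit 130) (nat_lit 5) (nat_lit 131) (nat_lit 5) (nat_lit 485) (nat_lit 374) (nat_lit 281)) (XT.lf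 (nat_lit 0) (nat_lit 1335181222) (nat_lit 380) (nat_lit 2413789582) (nat_lit 76) (nat_lit 9955286326) (nat_lit 125) (nat_lit 5) (nat_lit 130) (nat_lit 5) (nat_lit 126) (nat_lit 5) (nat_lit 486) (nat_lit 374) (nat_lit 280))) (XT.nd (nat_lit 78) (nat_lit 380) (nat_lit 0) (XT.lf (nat_lit 0) (nat_lit 5825519869) (nat_lit 304) (nat_lit 6423273572) (nat_lit 76) (nat_lit 1613320869) (nat_lit 122) (nat_lit 5) (nat_lit 126) (nat_lit 5) (nat_lit 123) (nat_lit 5) (nat_lit 487) (nat_lit 374) (nat_lit 279)) (XT.nd (nat_lit 78) (nat_lit 76) (nat_lit 0) (XT.lf (nat_lit 0) (nat_lit 3472951470) (nat_lit 304) (nat_lit 6969213742) (nat_lit 380) (nat_lit 3580233423) (nat_lit 118) (nat_lit 5) (nat_lit 122) (nat_lit 5) (nat_lit 123) (nat_lit 5) (nat_lit 488) (nat_lit 374) (nat_lit 278)) (XT.lf (nat_lit 0) (nat_lit 968860028) (nat_lit 380) (nat_lit 583566664) (nat_lit 76) (nat_lit 12633011319) (nat_lit 117) (nat_lit 5) (nat_lit 122) (nat_lit 5) (nat_lit 118)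 (nat_lit 5) (nat_lit 489) (nat_lit 374) (nat_lit 277))))))) (XT.nd (nat_lit 780) (nat_lit 1216) (nat_lit 0) (XT.nd (nat_lit 390) (nat_lit 1064) (nat_lit 0) (XT.nd (nat_lit 156) (nat_lit 608) (nat_lit 0) (XT.nd (nat_lit 78) (nat_lit 304) (nat_lit 0) (XT.lf (nat_lit 0) (nat_lit 5623275438) (nat_lit 304) (nat_lit 4737700889) (nat_lit 76) (nat_lit 3989042952) (nat_lit 114) (nat_lit 5) (nat_lit 118) (nat_lit 5) (nat_lit 115) (nat_lit 5) (nat_lit 490) (nat_lit 374) (nat_lit 276)) (XT.lf (nat_lit 0) (nat_lit 5518931047) (nat_lit 304) (nat_lit 4875419998) (nat_lit 380) (nat_lit 4123069690) (nat_lit 110) (nat_lit 5) (nat_lit 114) (nat_lit 5) (nat_lit 115) (nat_lit 5) (nat_lit 491) (nat_lit 374) (nat_lit 275))) (XT.nd (nat_lit 78) (nat_lit 304) (nat_lit 0) (XT.lf (nat_lit 0) (nat_lit 584188934) (nat_lit 304) (nat_lit 13367234233) (nat_lit 76) (nat_lit 736292254) (nat_lit 106) (nat_lit 5) (nat_lit 110) (nat_lit 5) (nat_lit 107) (nat_lit 5) (nat_lit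 492) (nat_lit 374) (nat_lit 274)) (XT.nd (nat_lit 78) (nat_lit 304) (nat_lit 0) (XT.lf (nat_lit 0) (nat_lit 5397180242) (nat_lit 304) (nat_lit 2997909362) (nat_lit 76) (nat_lit 6464445417) (nat_lit 106) (nat_lit 5) (nat_lit 110) (nat_lit 5) (nat_lit 107) (nat_lit 5) (nat_lit 493) (nat_lit 374) (nat_lit 273)) (XT.lf (nat_lit 0) (nat_lit 7634302859) (nat_lit 304) (nat_lit 2695883472) (nat_lit 380) (nat_lit 4704129584) (nat_lit 102) (nat_lit 5) (nat_lit 106) (nat_lit 5) (nat_lit 107) (nat_lit 5) (nat_lit 494) (nat_lit 374) (nat_lit 272))))) (XT.nd (nat_lit 156) (nat_lit 760) (nat_lit 0) (XT.nd (nat_lit 78) (nat_lit 0) (nat_lit 0) (XT.lf (nat_lit 0) (nat_lit 183649022) (nat_lit 304) (nat_lit 11927474403) (nat_lit 76) (nat_lit 3100722691) (nat_lit 98) (nat_lit 5) (nat_lit 102) (nat_lit 5) (nat_lit 99) (nat_lit 5) (nat_lit 495) (nat_lit 374) (nat_lit 271)) (XT.lf (nat_lit 0) (nat_lit 5148425703) (nat_lit 304) (nat_lit 1203283967) (nat_lit 76)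 (nat_lit 9039750749) (nat_lit 98) (nat_lit 5) (nat_lit 102) (nat_lit 5) (nat_lit 99) (nat_lit 5) (nat_lit 496) (nat_lit 374) (nat_lit 270))) (XT.nd (nat_lit 78) (nat_lit 532) (nat_lit 0) (XT.lf (nat_lit 0) (nat_lit 9820295073) (nat_lit 228) (nat_lit 430797555) (nat_lit 304) (nat_lit 5322802485) (nat_lit 95) (nat_lit 5) (nat_lit 98) (nat_lit 5) (nat_lit 99) (nat_lit 5) (nat_lit 497) (nat_lit 374) (nat_lit 269)) (XT.nd (nat_lit 78) (nat_lit 304) (nat_lit 0) (XT.lf (nat_lit 0) (nat_lit 5310034363) (nat_lit 228) (nat_lit 10199721376) (nat_lit 304) (nat_lit 249143906) (nat_lit 92) (nat_lit 5) (nat_lit 95) (nat_lit 5) (nat_lit 96) (nat_lit 5) (nat_lit 498) (nat_lit 374) (nat_lit 268)) (XT.lf (nat_lit 0) (nat_lit 655584870) (nat_lit 228) (nat_lit 4226740043) (nat_lit 304) (nat_lit 11064220852) (nat_lit 88) (nat_lit 5) (nat_lit 91) (nat_lit 5) (nat_lit 92) (nat_lit 5) (nat_lit 499) (nat_lit 374) (nat_lit 267)))))) (XT.nd (nat_lit 390) (nat_lit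 456) (nat_lit 0) (XT.nd (nat_lit 156) (nat_lit 532) (nat_lit 0) (XT.nd (nat_lit 78) (nat_lit 228) (nat_lit 0) (XT.lf (nat_lit 0) (nat_lit 10170836883) (nat_lit 304) (nat_lit 4071115877) (nat_lit 76) (nat_lit 1894804116) (nat_lit 88) (nat_lit 5) (nat_lit 92) (nat_lit 5) (nat_lit 89) (nat_lit 5) (nat_lit 500) (nat_lit 374) (nat_lit 266)) (XT.lf (nat_lit 0) (nat_lit 7398930653) (nat_lit 228) (nat_lit 8217759627) (nat_lit 304) (nat_lit 713050504) (nat_lit 85) (nat_lit 5) (nat_lit 88) (nat_lit 5) (nat_lit 89) (nat_lit 5) (nat_lit 501) (nat_lit 374) (nat_lit 265))) (XT.nd (nat_lit 78) (nat_lit 228) (nat_lit 0) (XT.lf (nat_lit 0) (nat_lit 2587844612) (nat_lit 228) (nat_lit 2015996428) (nat_lit 304) (nat_lit 11921742516) (nat_lit 81) (nat_lit 5) (nat_lit 84) (nat_lit 5) (nat_lit 85) (nat_lit 5) (nat_lit 502) (nat_lit 374) (nat_lit 264)) (XT.nd (nat_lit 78) (nat_lit 228) (nat_lit 0) (XT.lf (nat_lit 0) (nat_lit 10081499539) (nat_lit 304) (nat_lit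 2342673610) (nat_lit 76) (nat_lit 4299796234) (nat_lit 81) (nat_lit 5) (nat_lit 85) (nat_lit 5) (nat_lit 82) (nat_lit 5) (nat_lit 503) (nat_lit 374) (nat_lit 263)) (XT.lf (nat_lit 0) (nat_lit 9553731366) (nat_lit 228) (nat_lit 6166495778) (nat_lit 304) (nat_lit 1205065464) (nat_lit 78) (nat_lit 5) (nat_lit 81) (nat_lit 5) (nat_lit 82) (nat_lit 5) (nat_lit 504) (nat_lit 374) (nat_lit 262))))) (XT.nd (nat_lit 50388) (nat_lit 0) (nat_lit 54112) (XT.nd (nat_lit 78) (nat_lit 152) (nat_lit 0) (XT.lf (nat_lit 0) (nat_lit 4307649723) (nat_lit 304) (nat_lit 12552708699) (nat_lit 76) (nat_lit 269250232) (nat_lit 74) (nat_lit 5) (nat_lit 78) (nat_lit 5) (nat_lit 75) (nat_lit 5) (nat_lit 505) (nat_lit 374) (nat_lit 261)) (XT.nd (nat_lit 78) (nat_lit 152) (nat_lit 0) (XT.lf (nat_lit 0) (nat_lit 9981375436) (nat_lit 304) (nat_lit 564532121) (nat_lit 76) (nat_lit 6790606313) (nat_lit 74) (nat_lit 5) (nat_lit 78) (nat_lit 5) (nat_lit 75) (nat_lit 5)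 (nat_lit 506) (nat_lit 374) (nat_lit 260)) (XT.lf (nat_lit 0) (nat_lit 11776070537) (nat_lit 152) (nat_lit 4045673573) (nat_lit 228) (nat_lit 1724749714) (nat_lit 72) (nat_lit 5) (nat_lit 74) (nat_lit 5) (nat_lit 75) (nat_lit 5) (nat_lit 507) (nat_lit 374) (nat_lit 259)))) (XT.nd (nat_lit 78) (nat_lit 532) (nat_lit 0) (XT.lf (nat_lit 0) (nat_lit 1200751573) (nat_lit 380) (nat_lit 1022009023) (nat_lit 380) (nat_lit 1022009023) (nat_lit 791) (nat_lit 4) (nat_lit 796) (nat_lit 5) (nat_lit 796) (nat_lit 4) (nat_lit 390) (nat_lit 375) (nat_lit 375)) (XT.nd (nat_lit 78) (nat_lit 456) (nat_lit 0) (XT.lf (nat_lit 0) (nat_lit 1185003500) (nat_lit 456) (nat_lit 355577853) (nat_lit 76) (nat_lit 4959182542) (nat_lit 790) (nat_lit 5) (nat_lit 796) (nat_lit 5) (nat_lit 791) (nat_lit 4) (nat_lit 391) (nat_lit 375) (nat_lit 374)) (XT.lf (nat_lit 0) (nat_lit 3433745726) (nat_lit 456) (nat_lit 961505771) (nat_lit 532) (nat_lit 2115791018) (nat_lit 784)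 (nat_lit 5) (nat_lit 790) (nat_lit 5) (nat_lit 791) (nat_lit 4) (nat_lit 392) (nat_lit 375) (nat_lit 373))))))))
noncomputable def xc87 : XT := (XT.nd (nat_lit 1638) (nat_lit 17632) (nat_lit 0) (XT.nd (nat_lit 780) (nat_lit 8816) (nat_lit 0) (XT.nd (nat_lit 390) (nat_lit 2660) (nat_lit 0) (XT.nd (nat_lit 156) (nat_lit 1444) (nat_lit 0) (XT.nd (nat_lit 78) (nat_lit 0) (nat_lit 0) (XT.lf (nat_lit 0) (nat_lit 733342263) (nat_lit 532) (nat_lit 328336252) (nat_lit 608) (nat_lit 5462127912) (nat_lit 776) (nat_lit 5) (nat_lit 783) (nat_lit 5) (nat_lit 784) (nat_lit 5) (nat_lit 393) (nat_lit 375) (nat_lit 372)) (XT.lf (nat_lit 0) (nat_lit 4221017307) (nat_lit 608) (nat_lit 1942076144) (nat_lit 76) (nat_lit 374519454) (nat_lit 776) (nat_lit 5) (nat_lit 784) (nat_lit 5) (nat_lit 777) (nat_lit 4) (nat_lit 394) (nat_lit 375) (nat_lit 371))) (XT.nd (nat_lit 78) (nat_lit 760) (nat_lit 0) (XT.lf (nat_lit 0) (nat_lit 819900952) (nat_lit 684) (nat_lit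 4601876870) (nat_lit 76) (nat_lit 1131006872) (nat_lit 767) (nat_lit 5) (nat_lit 776) (nat_lit 5) (nat_lit 768) (nat_lit 5) (nat_lit 395) (nat_lit 375) (nat_lit 370)) (XT.nd (nat_lit 78) (nat_lit 760) (nat_lit 0) (XT.lf (nat_lit 0) (nat_lit 3927179029) (nat_lit 684) (nat_lit 686357710) (nat_lit 76) (nat_lit 1955635512) (nat_lit 767) (nat_lit 5) (nat_lit 776) (nat_lit 5) (nat_lit 768) (nat_lit 5) (nat_lit 396) (nat_lit 375) (nat_lit 369)) (XT.lf (nat_lit 0) (nat_lit 452484285) (nat_lit 760) (nat_lit 3289133599) (nat_lit 76) (nat_lit 2845234010) (nat_lit 757) (nat_lit 5) (nat_lit 767) (nat_lit 5) (nat_lit 758) (nat_lit 5) (nat_lit 397) (nat_lit 375) (nat_lit 368))))) (XT.nd (nat_lit 156) (nat_lit 1900) (nat_lit 0) (XT.nd (nat_lit 78) (nat_lit 0) (nat_lit 0) (XT.lf (nat_lit 0) (nat_lit 707098217) (nat_lit 760) (nat_lit 2803640621) (nat_lit 836) (nat_lit 3095051744) (nat_lit 747) (nat_lit 5) (nat_lit 757) (nat_lit 5) (nat_lit 758) (nat_lit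 5) (nat_lit 398) (nat_lit 375) (nat_lit 367)) (XT.lf (nat_lit 0) (nat_lit 4777537943) (nat_lit 760) (nat_lit 1803780904) (nat_lit 836) (nat_lit 44765990) (nat_lit 747) (nat_lit 5) (nat_lit 757) (nat_lit 5) (nat_lit 758) (nat_lit 5) (nat_lit 399) (nat_lit 375) (nat_lit 366))) (XT.nd (nat_lit 78) (nat_lit 988) (nat_lit 0) (XT.lf (nat_lit 0) (nat_lit 2241848305) (nat_lit 836) (nat_lit 729033269) (nat_lit 912) (nat_lit 3676613724) (nat_lit 735) (nat_lit 5) (nat_lit 746) (nat_lit 5) (nat_lit 747) (nat_lit 5) (nat_lit 400) (nat_lit 375) (nat_lit 365)) (XT.nd (nat_lit 78) (nat_lit 988) (nat_lit 0) (XT.lf (nat_lit 0) (nat_lit 5992304421) (nat_lit 912) (nat_lit 284156793) (nat_lit 76) (nat_lit 393945599) (nat_lit 735) (nat_lit 5) (nat_lit 747) (nat_lit 5) (nat_lit 736) (nat_lit 5) (nat_lit 401) (nat_lit 375) (nat_lit 364)) (XT.lf (nat_lit 0) (nat_lit 2311705562) (nat_lit 988) (nat_lit 2793845526) (nat_lit 76) (nat_lit 1588665460) (nat_lit 722)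 (nat_lit 5) (nat_lit 735) (nat_lit 5) (nat_lit 723) (nat_lit 5) (nat_lit 402) (nat_lit 375) (nat_lit 363)))))) (XT.nd (nat_lit 390) (nat_lit 5472) (nat_lit 0) (XT.nd (nat_lit 156) (nat_lit 2280) (nat_lit 0) (XT.nd (nat_lit 78) (nat_lit 76) (nat_lit 0) (XT.lf (nat_lit 0) (nat_lit 1417092541) (nat_lit 988) (nat_lit 3879362836) (nat_lit 1064) (nat_lit 1423072947) (nat_lit 709) (nat_lit 5) (nat_lit 722) (nat_lit 5) (nat_lit 723) (nat_lit 5) (nat_lit 403) (nat_lit 375) (nat_lit 362)) (XT.lf (nat_lit 0) (nat_lit 1527143581) (nat_lit 1064) (nat_lit 1056847165) (nat_lit 76) (nat_lit 4162098087) (nat_lit 708) (nat_lit 5) (nat_lit 722) (nat_lit 5) (nat_lit 709) (nat_lit 5) (nat_lit 404) (nat_lit 375) (nat_lit 361))) (XT.nd (nat_lit 78) (nat_lit 1216) (nat_lit 0) (XT.lf (nat_lit 0) (nat_lit 3256434764) (nat_lit 1064) (nat_lit 1216979957) (nat_lit 1140) (nat_lit 2300455598) (nat_lit 694) (nat_lit 5) (nat_lit 708) (nat_lit 5) (nat_lit 709) (nat_lit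 5) (nat_lit 405) (nat_lit 375) (nat_lit 360)) (XT.nd (nat_lit 78) (nat_lit 0) (nat_lit 0) (XT.lf (nat_lit 0) (nat_lit 616839713) (nat_lit 1216) (nat_lit 5980934397) (nat_lit 76) (nat_lit 205359349) (nat_lit 678) (nat_lit 5) (nat_lit 694) (nat_lit 5) (nat_lit 679) (nat_lit 5) (nat_lit 406) (nat_lit 375) (nat_lit 359)) (XT.lf (nat_lit 0) (nat_lit 3530015987) (nat_lit 1216) (nat_lit 1611702356) (nat_lit 76) (nat_lit 1691592637) (nat_lit 678) (nat_lit 5) (nat_lit 694) (nat_lit 5) (nat_lit 679) (nat_lit 5) (nat_lit 407) (nat_lit 375) (nat_lit 358))))) (XT.nd (nat_lit 234) (nat_lit 2888) (nat_lit 0) (XT.nd (nat_lit 78) (nat_lit 1368) (nat_lit 0) (XT.lf (nat_lit 0) (nat_lit 2831016046) (nat_lit 1216) (nat_lit 3626555604) (nat_lit 1292) (nat_lit 407398082) (nat_lit 662) (nat_lit 5) (nat_lit 678) (nat_lit 5) (nat_lit 679) (nat_lit 5) (nat_lit 408) (nat_lit 375) (nat_lit 357)) (XT.nd (nat_lit 78) (nat_lit 0) (nat_lit 0) (XT.lf (nat_lit 0) (nat_lit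 424844902) (nat_lit 1292) (nat_lit 2040040863) (nat_lit 1368) (nat_lit 4433007921) (nat_lit 644) (nat_lit 5) (nat_lit 661) (nat_lit 5) (nat_lit 662) (nat_lit 5) (nat_lit 409) (nat_lit 375) (nat_lit 356)) (XT.lf (nat_lit 0) (nat_lit 4973592937) (nat_lit 1292) (nat_lit 381724048) (nat_lit 1368) (nat_lit 1576782141) (nat_lit 644) (nat_lit 5) (nat_lit 661) (nat_lit 5) (nat_lit 662) (nat_lit 5) (nat_lit 410) (nat_lit 375) (nat_lit 355)))) (XT.nd (nat_lit 78) (nat_lit 1444) (nat_lit 0) (XT.lf (nat_lit 0) (nat_lit 1284687917) (nat_lit 1444) (nat_lit 4355354387) (nat_lit 76) (nat_lit 1327459830) (nat_lit 625) (nat_lit 5) (nat_lit 644) (nat_lit 5) (nat_lit 626) (nat_lit 5) (nat_lit 411) (nat_lit 375) (nat_lit 354)) (XT.nd (nat_lit 78) (nat_lit 0) (nat_lit 0) (XT.lf (nat_lit 0) (nat_lit 235569784) (nat_lit 1444) (nat_lit 3904815156) (nat_lit 1520) (nat_lit 2863857599) (nat_lit 606) (nat_lit 5) (nat_lit 625) (nat_lit 5) (nat_lit 626) (nat_lit 5)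 (nat_lit 412) (nat_lit 375) (nat_lit 353)) (XT.lf (nat_lit 0) (nat_lit 4925816739) (nat_lit 1444) (nat_lit 2098235851) (nat_lit 1520) (nat_lit 18248028) (nat_lit 606) (nat_lit 5) (nat_lit 625) (nat_lit 5) (nat_lit 626) (nat_lit 5) (nat_lit 413) (nat_lit 375) (nat_lit 352))))))) (XT.nd (nat_lit 780) (nat_lit 6916) (nat_lit 0) (XT.nd (nat_lit 390) (nat_lit 4028) (nat_lit 0) (XT.nd (nat_lit 156) (nat_lit 3496) (nat_lit 0) (XT.nd (nat_lit 78) (nat_lit 1596) (nat_lit 0) (XT.lf (nat_lit 0) (nat_lit 2592737631) (nat_lit 1520) (nat_lit 212937604) (nat_lit 1596) (nat_lit 4275885506) (nat_lit 585) (nat_lit 5) (nat_lit 605) (nat_lit 5) (nat_lit 606) (nat_lit 5) (nat_lit 414) (nat_lit 375) (nat_lit 351)) (XT.lf (nat_lit 0) (nat_lit 243258191) (nat_lit 1596) (nat_lit 5412785920) (nat_lit 1672) (nat_lit 1466155313) (nat_lit 564) (nat_lit 5) (nat_lit 585) (nat_lit 5) (nat_lit 586) (nat_lit 5) (nat_lit 415) (nat_lit 375) (nat_lit 350))) (XT.nd (nat_lit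 78) (nat_lit 3420) (nat_lit 0) (XT.lf (nat_lit 0) (nat_lit 1356781575) (nat_lit 1672) (nat_lit 2095449569) (nat_lit 76) (nat_lit 3711730565) (nat_lit 563) (nat_lit 5) (nat_lit 585) (nat_lit 5) (nat_lit 564) (nat_lit 5) (nat_lit 416) (nat_lit 375) (nat_lit 349)) (XT.nd (nat_lit 78) (nat_lit 1748) (nat_lit 0) (XT.lf (nat_lit 0) (nat_lit 2758681389) (nat_lit 1672) (nat_lit 1420536953) (nat_lit 1748) (nat_lit 3027893615) (nat_lit 541) (nat_lit 5) (nat_lit 563) (nat_lit 5) (nat_lit 564) (nat_lit 5) (nat_lit 417) (nat_lit 375) (nat_lit 348)) (XT.lf (nat_lit 0) (nat_lit 436581739) (nat_lit 1748) (nat_lit 6588259638) (nat_lit 1824) (nat_lit 226949081) (nat_lit 518) (nat_lit 5) (nat_lit 541) (nat_lit 5) (nat_lit 542) (nat_lit 5) (nat_lit 418) (nat_lit 375) (nat_lit 347))))) (XT.nd (nat_lit 156) (nat_lit 2128) (nat_lit 0) (XT.nd (nat_lit 78) (nat_lit 1824) (nat_lit 0) (XT.lf (nat_lit 0) (nat_lit 2580869326) (nat_lit 1824) (nat_lit 1896502229) (nat_lit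 76) (nat_lit 2819942496) (nat_lit 517) (nat_lit 5) (nat_lit 541) (nat_lit 5) (nat_lit 518) (nat_lit 5) (nat_lit 419) (nat_lit 375) (nat_lit 346)) (XT.lf (nat_lit 0) (nat_lit 3108223019) (nat_lit 1824) (nat_lit 2300718233) (nat_lit 1900) (nat_lit 1935434141) (nat_lit 493) (nat_lit 5) (nat_lit 517) (nat_lit 5) (nat_lit 518) (nat_lit 5) (nat_lit 420) (nat_lit 375) (nat_lit 345))) (XT.nd (nat_lit 78) (nat_lit 912) (nat_lit 0) (XT.lf (nat_lit 0) (nat_lit 799195173) (nat_lit 1140) (nat_lit 55494946) (nat_lit 1216) (nat_lit 6538264563) (nat_lit 477) (nat_lit 5) (nat_lit 492) (nat_lit 5) (nat_lit 493) (nat_lit 5) (nat_lit 421) (nat_lit 375) (nat_lit 344)) (XT.nd (nat_lit 78) (nat_lit 912) (nat_lit 0) (XT.lf (nat_lit 0) (nat_lit 3665862636) (nat_lit 1216) (nat_lit 1529457619) (nat_lit 76) (nat_lit 2247106213) (nat_lit 477) (nat_lit 5) (nat_lit 493) (nat_lit 5) (nat_lit 478) (nat_lit 5) (nat_lit 422) (nat_lit 375) (nat_lit 343)) (XT.lf (nat_lit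 0) (nat_lit 3631748722) (nat_lit 912) (nat_lit 2874489688) (nat_lit 988) (nat_lit 987189684) (nat_lit 465) (nat_lit 5) (nat_lit 477) (nat_lit 5) (nat_lit 478) (nat_lit 5) (nat_lit 423) (nat_lit 375) (nat_lit 342)))))) (XT.nd (nat_lit 390) (nat_lit 4104) (nat_lit 0) (XT.nd (nat_lit 156) (nat_lit 1824) (nat_lit 0) (XT.nd (nat_lit 78) (nat_lit 0) (nat_lit 0) (XT.lf (nat_lit 0) (nat_lit 1324934262) (nat_lit 912) (nat_lit 476969537) (nat_lit 988) (nat_lit 5743938699) (nat_lit 452) (nat_lit 5) (nat_lit 464) (nat_lit 5) (nat_lit 465) (nat_lit 5) (nat_lit 424) (nat_lit 375) (nat_lit 341)) (XT.lf (nat_lit 0) (nat_lit 4622451871) (nat_lit 988) (nat_lit 1003275809) (nat_lit 76) (nat_lit 1973669180) (nat_lit 452) (nat_lit 5) (nat_lit 465) (nat_lit 5) (nat_lit 453) (nat_lit 5) (nat_lit 425) (nat_lit 375) (nat_lit 340))) (XT.nd (nat_lit 78) (nat_lit 988) (nat_lit 0) (XT.lf (nat_lit 0) (nat_lit 4320623101) (nat_lit 836) (nat_lit 3160991538) (nat_lit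 912) (nat_lit 172763596) (nat_lit 441) (nat_lit 5) (nat_lit 452) (nat_lit 5) (nat_lit 453) (nat_lit 5) (nat_lit 426) (nat_lit 375) (nat_lit 339)) (XT.nd (nat_lit 78) (nat_lit 0) (nat_lit 0) (XT.lf (nat_lit 0) (nat_lit 2011258521) (nat_lit 912) (nat_lit 612131768) (nat_lit 988) (nat_lit 5087297249) (nat_lit 428) (nat_lit 5) (nat_lit 440) (nat_lit 5) (nat_lit 441) (nat_lit 5) (nat_lit 427) (nat_lit 375) (nat_lit 338)) (XT.lf (nat_lit 0) (nat_lit 5460478969) (nat_lit 988) (nat_lit 326009486) (nat_lit 76) (nat_lit 1981865234) (nat_lit 428) (nat_lit 5) (nat_lit 441) (nat_lit 5) (nat_lit 429) (nat_lit 5) (nat_lit 428) (nat_lit 375) (nat_lit 337))))) (XT.nd (nat_lit 234) (nat_lit 1596) (nat_lit 0) (XT.nd (nat_lit 78) (nat_lit 1596) (nat_lit 0) (XT.lf (nat_lit 0) (nat_lit 510602856) (nat_lit 912) (nat_lit 2663600285) (nat_lit 76) (nat_lit 4653093967) (nat_lit 416) (nat_lit 5) (nat_lit 428) (nat_lit 5) (nat_lit 417) (nat_lit 5) (nat_lit 429) (nat_lit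 375) (nat_lit 336)) (XT.nd (nat_lit 78) (nat_lit 760) (nat_lit 0) (XT.lf (nat_lit 0) (nat_lit 2850574712) (nat_lit 836) (nat_lit 477837175) (nat_lit 912) (nat_lit 4559225122) (nat_lit 405) (nat_lit 5) (nat_lit 416) (nat_lit 5) (nat_lit 417) (nat_lit 5) (nat_lit 430) (nat_lit 375) (nat_lit 335)) (XT.lf (nat_lit 0) (nat_lit 501714744) (nat_lit 760) (nat_lit 5690544134) (nat_lit 836) (nat_lit 1757131195) (nat_lit 395) (nat_lit 5) (nat_lit 405) (nat_lit 5) (nat_lit 406) (nat_lit 5) (nat_lit 431) (nat_lit 375) (nat_lit 334)))) (XT.nd (nat_lit 78) (nat_lit 1520) (nat_lit 0) (XT.lf (nat_lit 0) (nat_lit 1077699825) (nat_lit 836) (nat_lit 1855266309) (nat_lit 76) (nat_lit 5079446392) (nat_lit 394) (nat_lit 5) (nat_lit 405) (nat_lit 5) (nat_lit 395) (nat_lit 5) (nat_lit 432) (nat_lit 375) (nat_lit 333)) (XT.nd (nat_lit 78) (nat_lit 760) (nat_lit 0) (XT.lf (nat_lit 0) (nat_lit 3836123173) (nat_lit 760) (nat_lit 89353403) (nat_lit 836) (nat_lit 4151391019)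 (nat_lit 384) (nat_lit 5) (nat_lit 394) (nat_lit 5) (nat_lit 395) (nat_lit 5) (nat_lit 433) (nat_lit 375) (nat_lit 332)) (XT.lf (nat_lit 0) (nat_lit 1473059025) (nat_lit 760) (nat_lit 5352856348) (nat_lit 836) (nat_lit 1316782261) (nat_lit 374) (nat_lit 5) (nat_lit 384) (nat_lit 5) (nat_lit 385) (nat_lit 5) (nat_lit 434) (nat_lit 375) (nat_lit 331))))))))
noncomputable def xc88 : XT := (XT.nd (nat_lit 1560) (nat_lit 6916) (nat_lit 0) (XT.nd (nat_lit 780) (nat_lit 4180) (nat_lit 0) (XT.nd (nat_lit 390) (nat_lit 2736) (nat_lit 0) (XT.nd (nat_lit 156) (nat_lit 1444) (nat_lit 0) (XT.nd (nat_lit 78) (nat_lit 760) (nat_lit 0) (XT.lf (nat_lit 0) (nat_lit 1538712373) (nat_lit 836) (nat_lit 913955248) (nat_lit 76) (nat_lit 5757275320) (nat_lit 373) (nat_lit 5) (nat_lit 384) (nat_lit 5) (nat_lit 374) (nat_lit 5) (nat_lit 435) (nat_lit 375) (nat_lit 330)) (XT.lf (nat_lit 0) (nat_lit 4425897182) (nat_lit 836) (nat_lit 3320164554) (nat_lit 76) (nat_lit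 532453100) (nat_lit 363) (nat_lit 5) (nat_lit 374) (nat_lit 5) (nat_lit 364) (nat_lit 5) (nat_lit 436) (nat_lit 375) (nat_lit 329))) (XT.nd (nat_lit 78) (nat_lit 760) (nat_lit 0) (XT.lf (nat_lit 0) (nat_lit 2577936253) (nat_lit 684) (nat_lit 4788991268) (nat_lit 760) (nat_lit 981608612) (nat_lit 354) (nat_lit 5) (nat_lit 363) (nat_lit 5) (nat_lit 364) (nat_lit 5) (nat_lit 437) (nat_lit 375) (nat_lit 328)) (XT.nd (nat_lit 78) (nat_lit 0) (nat_lit 0) (XT.lf (nat_lit 0) (nat_lit 156786823) (nat_lit 684) (nat_lit 1745122716) (nat_lit 760) (nat_lit 6518183079) (nat_lit 344) (nat_lit 5) (nat_lit 353) (nat_lit 5) (nat_lit 354) (nat_lit 5) (nat_lit 438) (nat_lit 375) (nat_lit 327)) (XT.lf (nat_lit 0) (nat_lit 4835394636) (nat_lit 760) (nat_lit 2279365610) (nat_lit 76) (nat_lit 1378081412) (nat_lit 344) (nat_lit 5) (nat_lit 354) (nat_lit 5) (nat_lit 345) (nat_lit 5) (nat_lit 439) (nat_lit 375) (nat_lit 326))))) (XT.nd (nat_lit 156) (nat_lit 1292)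 (nat_lit 0) (XT.nd (nat_lit 78) (nat_lit 760) (nat_lit 0) (XT.lf (nat_lit 0) (nat_lit 3811291488) (nat_lit 684) (nat_lit 4011011705) (nat_lit 760) (nat_lit 744847411) (nat_lit 335) (nat_lit 5) (nat_lit 344) (nat_lit 5) (nat_lit 345) (nat_lit 5) (nat_lit 440) (nat_lit 375) (nat_lit 325)) (XT.lf (nat_lit 0) (nat_lit 1363749323) (nat_lit 684) (nat_lit 815974309) (nat_lit 760) (nat_lit 6463274763) (nat_lit 325) (nat_lit 5) (nat_lit 334) (nat_lit 5) (nat_lit 335) (nat_lit 5) (nat_lit 441) (nat_lit 375) (nat_lit 324))) (XT.nd (nat_lit 78) (nat_lit 1292) (nat_lit 0) (XT.lf (nat_lit 0) (nat_lit 5159881577) (nat_lit 760) (nat_lit 1122525450) (nat_lit 76) (nat_lit 2437716268) (nat_lit 325) (nat_lit 5) (nat_lit 335) (nat_lit 5) (nat_lit 326) (nat_lit 5) (nat_lit 442) (nat_lit 375) (nat_lit 323)) (XT.nd (nat_lit 78) (nat_lit 684) (nat_lit 0) (XT.lf (nat_lit 0) (nat_lit 5168725459) (nat_lit 608) (nat_lit 3029754967) (nat_lit 684) (nat_lit 600333512)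 (nat_lit 317) (nat_lit 5) (nat_lit 325) (nat_lit 5) (nat_lit 326) (nat_lit 5) (nat_lit 443) (nat_lit 375) (nat_lit 322)) (XT.lf (nat_lit 0) (nat_lit 2374237609) (nat_lit 684) (nat_lit 6190694440) (nat_lit 76) (nat_lit 314088511) (nat_lit 308) (nat_lit 5) (nat_lit 317) (nat_lit 5) (nat_lit 309) (nat_lit 5) (nat_lit 444) (nat_lit 375) (nat_lit 321)))))) (XT.nd (nat_lit 390) (nat_lit 2356) (nat_lit 0) (XT.nd (nat_lit 156) (nat_lit 1216) (nat_lit 0) (XT.nd (nat_lit 78) (nat_lit 0) (nat_lit 0) (XT.lf (nat_lit 0) (nat_lit 148146776) (nat_lit 608) (nat_lit 5258119275) (nat_lit 684) (nat_lit 3554365813) (nat_lit 300) (nat_lit 5) (nat_lit 308) (nat_lit 5) (nat_lit 309) (nat_lit 5) (nat_lit 445) (nat_lit 375) (nat_lit 320)) (XT.lf (nat_lit 0) (nat_lit 6646454312) (nat_lit 608) (nat_lit 1854915725) (nat_lit 684) (nat_lit 542456656) (nat_lit 300) (nat_lit 5) (nat_lit 308) (nat_lit 5) (nat_lit 309) (nat_lit 5) (nat_lit 446) (nat_lit 375) (nat_lit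 319))) (XT.nd (nat_lit 78) (nat_lit 532) (nat_lit 0) (XT.lf (nat_lit 0) (nat_lit 2495455241) (nat_lit 684) (nat_lit 5006205324) (nat_lit 76) (nat_lit 1626717527) (nat_lit 291) (nat_lit 5) (nat_lit 300) (nat_lit 5) (nat_lit 292) (nat_lit 5) (nat_lit 447) (nat_lit 375) (nat_lit 318)) (XT.nd (nat_lit 78) (nat_lit 0) (nat_lit 0) (XT.lf (nat_lit 0) (nat_lit 1543481395) (nat_lit 532) (nat_lit 4043642103) (nat_lit 608) (nat_lit 3627420077) (nat_lit 284) (nat_lit 5) (nat_lit 291) (nat_lit 5) (nat_lit 292) (nat_lit 5) (nat_lit 448) (nat_lit 375) (nat_lit 317)) (XT.lf (nat_lit 0) (nat_lit 8241272841) (nat_lit 532) (nat_lit 495122094) (nat_lit 608) (nat_lit 566122037) (nat_lit 284) (nat_lit 5) (nat_lit 291) (nat_lit 5) (nat_lit 292) (nat_lit 5) (nat_lit 449) (nat_lit 375) (nat_lit 316))))) (XT.nd (nat_lit 156) (nat_lit 1140) (nat_lit 0) (XT.nd (nat_lit 78) (nat_lit 532) (nat_lit 0) (XT.lf (nat_lit 0) (nat_lit 2543035690) (nat_lit 684) (nat_lit 3723953798)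 (nat_lit 76) (nat_lit 3124525162) (nat_lit 275) (nat_lit 5) (nat_lit 284) (nat_lit 5) (nat_lit 276) (nat_lit 5) (nat_lit 450) (nat_lit 375) (nat_lit 315)) (XT.lf (nat_lit 0) (nat_lit 3045470304) (nat_lit 532) (nat_lit 2654548848) (nat_lit 608) (nat_lit 3782333830) (nat_lit 268) (nat_lit 5) (nat_lit 275) (nat_lit 5) (nat_lit 276) (nat_lit 5) (nat_lit 451) (nat_lit 375) (nat_lit 314))) (XT.nd (nat_lit 78) (nat_lit 608) (nat_lit 0) (XT.lf (nat_lit 0) (nat_lit 373412595) (nat_lit 532) (nat_lit 8544303562) (nat_lit 608) (nat_lit 657340447) (nat_lit 261) (nat_lit 5) (nat_lit 268) (nat_lit 5) (nat_lit 269) (nat_lit 5) (nat_lit 452) (nat_lit 375) (nat_lit 313)) (XT.nd (nat_lit 78) (nat_lit 532) (nat_lit 0) (XT.lf (nat_lit 0) (nat_lit 2521486879) (nat_lit 608) (nat_lit 2346911844) (nat_lit 76) (nat_lit 4800396675) (nat_lit 260) (nat_lit 5) (nat_lit 268) (nat_lit 5) (nat_lit 261) (nat_lit 5) (nat_lit 453) (nat_lit 375) (nat_lit 312)) (XT.lf (nat_lit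 0) (nat_lit 4651532523) (nat_lit 532) (nat_lit 1097938799) (nat_lit 608) (nat_lit 4014963101) (nat_lit 253) (nat_lit 5) (nat_lit 260) (nat_lit 5) (nat_lit 261) (nat_lit 5) (nat_lit 454) (nat_lit 375) (nat_lit 311))))))) (XT.nd (nat_lit 780) (nat_lit 3344) (nat_lit 0) (XT.nd (nat_lit 390) (nat_lit 1444) (nat_lit 0) (XT.nd (nat_lit 156) (nat_lit 1520) (nat_lit 0) (XT.nd (nat_lit 78) (nat_lit 76) (nat_lit 0) (XT.lf (nat_lit 0) (nat_lit 1916961081) (nat_lit 532) (nat_lit 7135655735) (nat_lit 608) (nat_lit 809157384) (nat_lit 246) (nat_lit 5) (nat_lit 253) (nat_lit 5) (nat_lit 254) (nat_lit 5) (nat_lit 455) (nat_lit 375) (nat_lit 310)) (XT.lf (nat_lit 0) (nat_lit 2434899543) (nat_lit 608) (nat_lit 877583213) (nat_lit 76) (nat_lit 6648130308) (nat_lit 245) (nat_lit 5) (nat_lit 253) (nat_lit 5) (nat_lit 246) (nat_lit 5) (nat_lit 456) (nat_lit 375) (nat_lit 309))) (XT.nd (nat_lit 78) (nat_lit 1064) (nat_lit 0) (XT.lf (nat_lit 0) (nat_lit 5743622891)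 (nat_lit 532) (nat_lit 3705647599) (nat_lit 76) (nat_lit 611838848) (nat_lit 239) (nat_lit 5) (nat_lit 246) (nat_lit 5) (nat_lit 240) (nat_lit 5) (nat_lit 457) (nat_lit 375) (nat_lit 308)) (XT.nd (nat_lit 78) (nat_lit 532) (nat_lit 0) (XT.lf (nat_lit 0) (nat_lit 3556496504) (nat_lit 532) (nat_lit 5578539650) (nat_lit 608) (nat_lit 1028249073) (nat_lit 232) (nat_lit 5) (nat_lit 239) (nat_lit 5) (nat_lit 240) (nat_lit 5) (nat_lit 458) (nat_lit 375) (nat_lit 307)) (XT.lf (nat_lit 0) (nat_lit 691032512) (nat_lit 456) (nat_lit 1600430723) (nat_lit 532) (nat_lit 7975835136) (nat_lit 225) (nat_lit 5) (nat_lit 231) (nat_lit 5) (nat_lit 232) (nat_lit 5) (nat_lit 459) (nat_lit 375) (nat_lit 306))))) (XT.nd (nat_lit 156) (nat_lit 988) (nat_lit 0) (XT.nd (nat_lit 78) (nat_lit 456) (nat_lit 0) (XT.lf (nat_lit 0) (nat_lit 5690335159) (nat_lit 532) (nat_lit 2221311485) (nat_lit 76) (nat_lit 2461078528) (nat_lit 225) (nat_lit 5) (nat_lit 232) (nat_lit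 5) (nat_lit 226) (nat_lit 5) (nat_lit 460) (nat_lit 375) (nat_lit 305)) (XT.lf (nat_lit 0) (nat_lit 5290394138) (nat_lit 456) (nat_lit 3878343967) (nat_lit 532) (nat_lit 1311291330) (nat_lit 219) (nat_lit 5) (nat_lit 225) (nat_lit 5) (nat_lit 226) (nat_lit 5) (nat_lit 461) (nat_lit 375) (nat_lit 304))) (XT.nd (nat_lit 78) (nat_lit 456) (nat_lit 0) (XT.lf (nat_lit 0) (nat_lit 2098108197) (nat_lit 532) (nat_lit 8229914838) (nat_lit 76) (nat_lit 261204965) (nat_lit 212) (nat_lit 5) (nat_lit 219) (nat_lit 5) (nat_lit 213) (nat_lit 5) (nat_lit 462) (nat_lit 375) (nat_lit 303)) (XT.nd (nat_lit 78) (nat_lit 456) (nat_lit 0) (XT.lf (nat_lit 0) (nat_lit 5585850043) (nat_lit 532) (nat_lit 654409008) (nat_lit 76) (nat_lit 4459623881) (nat_lit 212) (nat_lit 5) (nat_lit 219) (nat_lit 5) (nat_lit 213) (nat_lit 5) (nat_lit 463) (nat_lit 375) (nat_lit 302)) (XT.lf (nat_lit 0) (nat_lit 7117440345) (nat_lit 456) (nat_lit 2039721341) (nat_lit 532) (nat_lit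 1655312979) (nat_lit 206) (nat_lit 5) (nat_lit 212) (nat_lit 5) (nat_lit 213) (nat_lit 5) (nat_lit 464) (nat_lit 375) (nat_lit 301)))))) (XT.nd (nat_lit 390) (nat_lit 1596) (nat_lit 0) (XT.nd (nat_lit 156) (nat_lit 836) (nat_lit 0) (XT.nd (nat_lit 78) (nat_lit 456) (nat_lit 0) (XT.lf (nat_lit 0) (nat_lit 1861659167) (nat_lit 456) (nat_lit 6822267257) (nat_lit 76) (nat_lit 2242875906) (nat_lit 200) (nat_lit 5) (nat_lit 206) (nat_lit 5) (nat_lit 201) (nat_lit 5) (nat_lit 465) (nat_lit 375) (nat_lit 300)) (XT.lf (nat_lit 0) (nat_lit 1006998324) (nat_lit 456) (nat_lit 4432761636) (nat_lit 532) (nat_lit 5603178679) (nat_lit 194) (nat_lit 5) (nat_lit 200) (nat_lit 5) (nat_lit 201) (nat_lit 5) (nat_lit 466) (nat_lit 375) (nat_lit 299))) (XT.nd (nat_lit 78) (nat_lit 836) (nat_lit 0) (XT.lf (nat_lit 0) (nat_lit 9036811749) (nat_lit 456) (nat_lit 66633013) (nat_lit 532) (nat_lit 2057672471) (nat_lit 194) (nat_lit 5) (nat_lit 200) (nat_lit 5) (nat_lit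 201) (nat_lit 5) (nat_lit 467) (nat_lit 375) (nat_lit 298)) (XT.nd (nat_lit 78) (nat_lit 380) (nat_lit 0) (XT.lf (nat_lit 0) (nat_lit 1574389111) (nat_lit 456) (nat_lit 5344304259) (nat_lit 76) (nat_lit 4362041852) (nat_lit 188) (nat_lit 5) (nat_lit 194) (nat_lit 5) (nat_lit 189) (nat_lit 5) (nat_lit 468) (nat_lit 375) (nat_lit 297)) (XT.lf (nat_lit 0) (nat_lit 2758556020) (nat_lit 380) (nat_lit 2494565340) (nat_lit 456) (nat_lit 6149320553) (nat_lit 183) (nat_lit 5) (nat_lit 188) (nat_lit 5) (nat_lit 189) (nat_lit 5) (nat_lit 469) (nat_lit 375) (nat_lit 296))))) (XT.nd (nat_lit 234) (nat_lit 760) (nat_lit 0) (XT.nd (nat_lit 78) (nat_lit 836) (nat_lit 0) (XT.lf (nat_lit 0) (nat_lit 9023675468) (nat_lit 456) (nat_lit 491655467) (nat_lit 76) (nat_lit 2010886860) (nat_lit 183) (nat_lit 5) (nat_lit 189) (nat_lit 5) (nat_lit 184) (nat_lit 5) (nat_lit 470) (nat_lit 375) (nat_lit 295)) (XT.nd (nat_lit 78) (nat_lit 380) (nat_lit 0) (XT.lf (nat_lit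 0) (nat_lit 1238676475) (nat_lit 456) (nat_lit 3797071187) (nat_lit 76) (nat_lit 6615814110) (nat_lit 177) (nat_lit 5) (nat_lit 183) (nat_lit 5) (nat_lit 178) (nat_lit 5) (nat_lit 471) (nat_lit 375) (nat_lit 294)) (XT.lf (nat_lit 0) (nat_lit 4590985315) (nat_lit 380) (nat_lit 433126721) (nat_lit 456) (nat_lit 6754911727) (nat_lit 172) (nat_lit 5) (nat_lit 177) (nat_lit 5) (nat_lit 178) (nat_lit 5) (nat_lit 472) (nat_lit 375) (nat_lit 293)))) (XT.nd (nat_lit 78) (nat_lit 456) (nat_lit 0) (XT.lf (nat_lit 0) (nat_lit 1230362970) (nat_lit 304) (nat_lit 7686115858) (nat_lit 380) (nat_lit 2991931716) (nat_lit 168) (nat_lit 5) (nat_lit 172) (nat_lit 5) (nat_lit 173) (nat_lit 5) (nat_lit 473) (nat_lit 375) (nat_lit 292)) (XT.nd (nat_lit 78) (nat_lit 380) (nat_lit 0) (XT.lf (nat_lit 0) (nat_lit 856633032) (nat_lit 380) (nat_lit 2181303548) (nat_lit 76) (nat_lit 9001910091) (nat_lit 167) (nat_lit 5) (nat_lit 172) (nat_lit 5) (nat_lit 168) (nat_lit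 5) (nat_lit 474) (nat_lit 375) (nat_lit 291)) (XT.lf (nat_lit 0) (nat_lit 4766318629) (nat_lit 456) (nat_lit 5680584326) (nat_lit 76) (nat_lit 1726128804) (nat_lit 162) (nat_lit 5) (nat_lit 168) (nat_lit 5) (nat_lit 163) (nat_lit 5) (nat_lit 475) (nat_lit 375) (nat_lit 290))))))))
noncomputable def xc89 : XT := (XT.nd (nat_lit 1560) (nat_lit 2128) (nat_lit 0) (XT.nd (nat_lit 780) (nat_lit 2128) (nat_lit 0) (XT.nd (nat_lit 390) (nat_lit 1064) (nat_lit 0) (XT.nd (nat_lit 156) (nat_lit 988) (nat_lit 0) (XT.nd (nat_lit 78) (nat_lit 76) (nat_lit 0) (XT.lf (nat_lit 0) (nat_lit 3033225537) (nat_lit 304) (nat_lit 5746270726) (nat_lit 380) (nat_lit 3528878318) (nat_lit 158) (nat_lit 5) (nat_lit 162) (nat_lit 5) (nat_lit 163) (nat_lit 5) (nat_lit 476) (nat_lit 375) (nat_lit 289)) (XT.lf (nat_lit 0) (nat_lit 430121235) (nat_lit 380) (nat_lit 497442418) (nat_lit 76) (nat_lit 11518621186) (nat_lit 157) (nat_lit 5) (nat_lit 162) (nat_lit 5) (nat_lit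 158) (nat_lit 5) (nat_lit 477) (nat_lit 375) (nat_lit 288))) (XT.nd (nat_lit 78) (nat_lit 608) (nat_lit 0) (XT.lf (nat_lit 0) (nat_lit 4473963748) (nat_lit 456) (nat_lit 4114299757) (nat_lit 76) (nat_lit 3996962987) (nat_lit 152) (nat_lit 5) (nat_lit 158) (nat_lit 5) (nat_lit 153) (nat_lit 5) (nat_lit 478) (nat_lit 375) (nat_lit 287)) (XT.nd (nat_lit 78) (nat_lit 304) (nat_lit 0) (XT.lf (nat_lit 0) (nat_lit 4910360644) (nat_lit 304) (nat_lit 3701257850) (nat_lit 380) (nat_lit 4115171775) (nat_lit 148) (nat_lit 5) (nat_lit 152) (nat_lit 5) (nat_lit 153) (nat_lit 5) (nat_lit 479) (nat_lit 375) (nat_lit 286)) (XT.lf (nat_lit 0) (nat_lit 1262247711) (nat_lit 304) (nat_lit 11585793839) (nat_lit 380) (nat_lit 22823468) (nat_lit 144) (nat_lit 5) (nat_lit 148) (nat_lit 5) (nat_lit 149) (nat_lit 5) (nat_lit 480) (nat_lit 375) (nat_lit 285))))) (XT.nd (nat_lit 156) (nat_lit 684) (nat_lit 0) (XT.nd (nat_lit 78) (nat_lit 304) (nat_lit 0) (XT.lf (nat_lit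 0) (nat_lit 4146001530) (nat_lit 380) (nat_lit 2486644348) (nat_lit 76) (nat_lit 6383654801) (nat_lit 143) (nat_lit 5) (nat_lit 148) (nat_lit 5) (nat_lit 144) (nat_lit 5) (nat_lit 481) (nat_lit 375) (nat_lit 284)) (XT.lf (nat_lit 0) (nat_lit 6862013441) (nat_lit 304) (nat_lit 1552754997) (nat_lit 380) (nat_lit 4749536176) (nat_lit 139) (nat_lit 5) (nat_lit 143) (nat_lit 5) (nat_lit 144) (nat_lit 5) (nat_lit 482) (nat_lit 375) (nat_lit 283))) (XT.nd (nat_lit 78) (nat_lit 380) (nat_lit 0) (XT.lf (nat_lit 0) (nat_lit 3087506471) (nat_lit 304) (nat_lit 9714258352) (nat_lit 380) (nat_lit 512846722) (nat_lit 135) (nat_lit 5) (nat_lit 139) (nat_lit 5) (nat_lit 140) (nat_lit 5) (nat_lit 483) (nat_lit 375) (nat_lit 282)) (XT.nd (nat_lit 78) (nat_lit 304) (nat_lit 0) (XT.lf (nat_lit 0) (nat_lit 3783996307) (nat_lit 380) (nat_lit 797637599) (nat_lit 76) (nat_lit 8885288755) (nat_lit 134) (nat_lit 5) (nat_lit 139) (nat_lit 5) (nat_lit 135) (nat_lit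 5) (nat_lit 484) (nat_lit 375) (nat_lit 281)) (XT.lf (nat_lit 0) (nat_lit 8195212910) (nat_lit 380) (nat_lit 4737428067) (nat_lit 76) (nat_lit 688865149) (nat_lit 130) (nat_lit 5) (nat_lit 135) (nat_lit 5) (nat_lit 131) (nat_lit 5) (nat_lit 485) (nat_lit 375) (nat_lit 280)))))) (XT.nd (nat_lit 390) (nat_lit 912) (nat_lit 0) (XT.nd (nat_lit 156) (nat_lit 608) (nat_lit 0) (XT.nd (nat_lit 78) (nat_lit 304) (nat_lit 0) (XT.lf (nat_lit 0) (nat_lit 4981094918) (nat_lit 304) (nat_lit 7754805982) (nat_lit 380) (nat_lit 1042455419) (nat_lit 126) (nat_lit 5) (nat_lit 130) (nat_lit 5) (nat_lit 131) (nat_lit 5) (nat_lit 486) (nat_lit 375) (nat_lit 279)) (XT.lf (nat_lit 0) (nat_lit 965606448) (nat_lit 228) (nat_lit 2429986492) (nat_lit 304) (nat_lit 10542075171) (nat_lit 122) (nat_lit 5) (nat_lit 125) (nat_lit 5) (nat_lit 126) (nat_lit 5) (nat_lit 487) (nat_lit 375) (nat_lit 278))) (XT.nd (nat_lit 78) (nat_lit 608) (nat_lit 0) (XT.lf (nat_lit 0) (nat_lit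 7960720168) (nat_lit 304) (nat_lit 3127982488) (nat_lit 76) (nat_lit 3010280142) (nat_lit 122) (nat_lit 5) (nat_lit 126) (nat_lit 5) (nat_lit 123) (nat_lit 5) (nat_lit 488) (nat_lit 375) (nat_lit 277)) (XT.nd (nat_lit 78) (nat_lit 304) (nat_lit 0) (XT.lf (nat_lit 0) (nat_lit 6943642340) (nat_lit 304) (nat_lit 5708556976) (nat_lit 380) (nat_lit 1610623476) (nat_lit 118) (nat_lit 5) (nat_lit 122) (nat_lit 5) (nat_lit 123) (nat_lit 5) (nat_lit 489) (nat_lit 375) (nat_lit 276)) (XT.lf (nat_lit 0) (nat_lit 2802301690) (nat_lit 228) (nat_lit 179074761) (nat_lit 304) (nat_lit 11447907535) (nat_lit 114) (nat_lit 5) (nat_lit 117) (nat_lit 5) (nat_lit 118) (nat_lit 5) (nat_lit 490) (nat_lit 375) (nat_lit 275))))) (XT.nd (nat_lit 156) (nat_lit 608) (nat_lit 0) (XT.nd (nat_lit 78) (nat_lit 304) (nat_lit 0) (XT.lf (nat_lit 0) (nat_lit 7702603198) (nat_lit 304) (nat_lit 1463585338) (nat_lit 76) (nat_lit 5431493883) (nat_lit 114) (nat_lit 5) (nat_lit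 118) (nat_lit 5) (nat_lit 115) (nat_lit 5) (nat_lit 491) (nat_lit 375) (nat_lit 274)) (XT.lf (nat_lit 0) (nat_lit 8976015621) (nat_lit 304) (nat_lit 3576247805) (nat_lit 380) (nat_lit 2216505217) (nat_lit 110) (nat_lit 5) (nat_lit 114) (nat_lit 5) (nat_lit 115) (nat_lit 5) (nat_lit 492) (nat_lit 375) (nat_lit 273))) (XT.nd (nat_lit 78) (nat_lit 304) (nat_lit 0) (XT.lf (nat_lit 0) (nat_lit 2551195760) (nat_lit 304) (nat_lit 10254170146) (nat_lit 76) (nat_lit 2136997362) (nat_lit 106) (nat_lit 5) (nat_lit 110) (nat_lit 5) (nat_lit 107) (nat_lit 5) (nat_lit 493) (nat_lit 375) (nat_lit 272)) (XT.nd (nat_lit 78) (nat_lit 0) (nat_lit 0) (XT.lf (nat_lit 0) (nat_lit 259664240) (nat_lit 304) (nat_lit 7164128900) (nat_lit 380) (nat_lit 7694559197) (nat_lit 102) (nat_lit 5) (nat_lit 106) (nat_lit 5) (nat_lit 107) (nat_lit 5) (nat_lit 494) (nat_lit 375) (nat_lit 271)) (XT.lf (nat_lit 0) (nat_lit 11079311701) (nat_lit 304) (nat_lit 1358249771) (nat_lit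 380) (nat_lit 2859425334) (nat_lit 102) (nat_lit 5) (nat_lit 106) (nat_lit 5) (nat_lit 107) (nat_lit 5) (nat_lit 495) (nat_lit 375) (nat_lit 270))))))) (XT.nd (nat_lit 780) (nat_lit 228) (nat_lit 0) (XT.nd (nat_lit 390) (nat_lit 836) (nat_lit 0) (XT.nd (nat_lit 156) (nat_lit 532) (nat_lit 0) (XT.nd (nat_lit 78) (nat_lit 228) (nat_lit 0) (XT.lf (nat_lit 0) (nat_lit 2093644943) (nat_lit 304) (nat_lit 8841237203) (nat_lit 76) (nat_lit 4543074434) (nat_lit 98) (nat_lit 5) (nat_lit 102) (nat_lit 5) (nat_lit 99) (nat_lit 5) (nat_lit 496) (nat_lit 375) (nat_lit 269)) (XT.lf (nat_lit 0) (nat_lit 2059252612) (nat_lit 228) (nat_lit 5074455697) (nat_lit 304) (nat_lit 8527935036) (nat_lit 95) (nat_lit 5) (nat_lit 98) (nat_lit 5) (nat_lit 99) (nat_lit 5) (nat_lit 497) (nat_lit 375) (nat_lit 268))) (XT.nd (nat_lit 78) (nat_lit 532) (nat_lit 0) (XT.lf (nat_lit 0) (nat_lit 12315575053) (nat_lit 304) (nat_lit 2599593763) (nat_lit 76) (nat_lit 933014988)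 (nat_lit 95) (nat_lit 5) (nat_lit 99) (nat_lit 5) (nat_lit 96) (nat_lit 5) (nat_lit 498) (nat_lit 375) (nat_lit 267)) (XT.nd (nat_lit 78) (nat_lit 228) (nat_lit 0) (XT.lf (nat_lit 0) (nat_lit 1608301593) (nat_lit 304) (nat_lit 7386749238) (nat_lit 76) (nat_lit 7041877897) (nat_lit 91) (nat_lit 5) (nat_lit 95) (nat_lit 5) (nat_lit 92) (nat_lit 5) (nat_lit 499) (nat_lit 375) (nat_lit 266)) (XT.lf (nat_lit 0) (nat_lit 3916630462) (nat_lit 228) (nat_lit 2907071299) (nat_lit 304) (nat_lit 9404900313) (nat_lit 88) (nat_lit 5) (nat_lit 91) (nat_lit 5) (nat_lit 92) (nat_lit 5) (nat_lit 500) (nat_lit 375) (nat_lit 265))))) (XT.nd (nat_lit 156) (nat_lit 532) (nat_lit 0) (XT.nd (nat_lit 78) (nat_lit 304) (nat_lit 0) (XT.lf (nat_lit 0) (nat_lit 12190770650) (nat_lit 304) (nat_lit 941075958) (nat_lit 76) (nat_lit 3291315064) (nat_lit 88) (nat_lit 5) (nat_lit 92) (nat_lit 5) (nat_lit 89) (nat_lit 5) (nat_lit 501) (nat_lit 375) (nat_lit 264)) (XT.lf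 (nat_lit 0) (nat_lit 1095771331) (nat_lit 304) (nat_lit 5890268905) (nat_lit 76) (nat_lit 9634118927) (nat_lit 84) (nat_lit 5) (nat_lit 88) (nat_lit 5) (nat_lit 85) (nat_lit 5) (nat_lit 502) (nat_lit 375) (nat_lit 263))) (XT.nd (nat_lit 78) (nat_lit 304) (nat_lit 0) (XT.lf (nat_lit 0) (nat_lit 5832889145) (nat_lit 228) (nat_lit 661745996) (nat_lit 304) (nat_lit 10325485742) (nat_lit 81) (nat_lit 5) (nat_lit 84) (nat_lit 5) (nat_lit 85) (nat_lit 5) (nat_lit 503) (nat_lit 375) (nat_lit 262)) (XT.nd (nat_lit 78) (nat_lit 76) (nat_lit 0) (XT.lf (nat_lit 0) (nat_lit 777739294) (nat_lit 228) (nat_lit 11282765085) (nat_lit 304) (nat_lit 4962396895) (nat_lit 78) (nat_lit 5) (nat_lit 81) (nat_lit 5) (nat_lit 82) (nat_lit 5) (nat_lit 504) (nat_lit 375) (nat_lit 261)) (XT.lf (nat_lit 0) (nat_lit 556532623) (nat_lit 304) (nat_lit 4351199118) (nat_lit 76) (nat_lit 12320834757) (nat_lit 77) (nat_lit 5) (nat_lit 81) (nat_lit 5) (nat_lit 78) (nat_lit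 5) (nat_lit 505) (nat_lit 375) (nat_lit 260)))))) (XT.nd (nat_lit 50466) (nat_lit 0) (nat_lit 51908) (XT.nd (nat_lit 50232) (nat_lit 0) (nat_lit 54416) (XT.nd (nat_lit 50154) (nat_lit 0) (nat_lit 54872) (XT.lf (nat_lit 0) (nat_lit 6158048686) (nat_lit 304) (nat_lit 9638617405) (nat_lit 76) (nat_lit 1640249817) (nat_lit 74) (nat_lit 5) (nat_lit 78) (nat_lit 5) (nat_lit 75) (nat_lit 5) (nat_lit 506) (nat_lit 375) (nat_lit 259)) (XT.lf (nat_lit 0) (nat_lit 384426527) (nat_lit 380) (nat_lit 2467447967) (nat_lit 0) (nat_lit 384426527) (nat_lit 796) (nat_lit 5) (nat_lit 801) (nat_lit 4) (nat_lit 796) (nat_lit 4) (nat_lit 388) (nat_lit 376) (nat_lit 376))) (XT.nd (nat_lit 78) (nat_lit 456) (nat_lit 0) (XT.lf (nat_lit 0) (nat_lit 3989274122) (nat_lit 380) (nat_lit 1306468461) (nat_lit 0) (nat_lit 1185003500) (nat_lit 796) (nat_lit 5) (nat_lit 801) (nat_lit 4) (nat_lit 796) (nat_lit 4) (nat_lit 389) (nat_lit 376) (nat_lit 375)) (XT.nd (nat_lit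 78) (nat_lit 0) (nat_lit 0) (XT.lf (nat_lit 0) (nat_lit 710741921) (nat_lit 456) (nat_lit 4117856864) (nat_lit 76) (nat_lit 1661632529) (nat_lit 790) (nat_lit 5) (nat_lit 796) (nat_lit 5) (nat_lit 791) (nat_lit 4) (nat_lit 390) (nat_lit 376) (nat_lit 374)) (XT.lf (nat_lit 0) (nat_lit 3874191291) (nat_lit 456) (nat_lit 423066513) (nat_lit 76) (nat_lit 2203708033) (nat_lit 790) (nat_lit 5) (nat_lit 796) (nat_lit 5) (nat_lit 791) (nat_lit 4) (nat_lit 391) (nat_lit 376) (nat_lit 373))))) (XT.nd (nat_lit 234) (nat_lit 1368) (nat_lit 0) (XT.nd (nat_lit 78) (nat_lit 608) (nat_lit 0) (XT.lf (nat_lit 0) (nat_lit 525828936) (nat_lit 532) (nat_lit 3175352064) (nat_lit 76) (nat_lit 2811766386) (nat_lit 783) (nat_lit 5) (nat_lit 790) (nat_lit 5) (nat_lit 784) (nat_lit 5) (nat_lit 392) (nat_lit 376) (nat_lit 372)) (XT.nd (nat_lit 78) (nat_lit 76) (nat_lit 0) (XT.lf (nat_lit 0) (nat_lit 595480243) (nat_lit 532) (nat_lit 3041512872) (nat_lit 608) (nat_lit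 2889214568) (nat_lit 776) (nat_lit 5) (nat_lit 783) (nat_lit 5) (nat_lit 784) (nat_lit 5) (nat_lit 393) (nat_lit 376) (nat_lit 371)) (XT.lf (nat_lit 0) (nat_lit 213150958) (nat_lit 608) (nat_lit 2106121299) (nat_lit 76) (nat_lit 4221504722) (nat_lit 775) (nat_lit 5) (nat_lit 783) (nat_lit 5) (nat_lit 776) (nat_lit 5) (nat_lit 394) (nat_lit 376) (nat_lit 370)))) (XT.nd (nat_lit 78) (nat_lit 760) (nat_lit 0) (XT.lf (nat_lit 0) (nat_lit 1750082138) (nat_lit 608) (nat_lit 1526276048) (nat_lit 684) (nat_lit 3280147901) (nat_lit 767) (nat_lit 5) (nat_lit 775) (nat_lit 5) (nat_lit 776) (nat_lit 5) (nat_lit 395) (nat_lit 376) (nat_lit 369)) (XT.nd (nat_lit 78) (nat_lit 760) (nat_lit 0) (XT.lf (nat_lit 0) (nat_lit 5663565560) (nat_lit 608) (nat_lit 678614468) (nat_lit 684) (nat_lit 231542740) (nat_lit 767) (nat_lit 5) (nat_lit 775) (nat_lit 5) (nat_lit 776) (nat_lit 5) (nat_lit 396) (nat_lit 376) (nat_lit 368)) (XT.lf (nat_lit 0) (nat_lit 2789791284)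 (nat_lit 760) (nat_lit 3556788510) (nat_lit 76) (nat_lit 245340212) (nat_lit 757) (nat_lit 5) (nat_lit 767) (nat_lit 5) (nat_lit 758) (nat_lit 5) (nat_lit 397) (nat_lit 376) (nat_lit 367))))))))
noncomputable def xc90 : XT := (XT.nd (nat_lit 1560) (nat_lit 14288) (nat_lit 0) (XT.nd (nat_lit 780) (nat_lit 10412) (nat_lit 0) (XT.nd (nat_lit 390) (nat_lit 3344) (nat_lit 0) (XT.nd (nat_lit 156) (nat_lit 1824) (nat_lit 0) (XT.nd (nat_lit 78) (nat_lit 76) (nat_lit 0) (XT.lf (nat_lit 0) (nat_lit 410984433) (nat_lit 760) (nat_lit 5400195838) (nat_lit 836) (nat_lit 800415736) (nat_lit 747) (nat_lit 5) (nat_lit 757) (nat_lit 5) (nat_lit 758) (nat_lit 5) (nat_lit 398) (nat_lit 376) (nat_lit 366)) (XT.lf (nat_lit 0) (nat_lit 2185718292) (nat_lit 836) (nat_lit 2189947764) (nat_lit 76) (nat_lit 2256624938) (nat_lit 746) (nat_lit 5) (nat_lit 757) (nat_lit 5) (nat_lit 747) (nat_lit 5) (nat_lit 399) (nat_lit 376) (nat_lit 365))) (XT.nd (nat_lit 78) (nat_lit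 988) (nat_lit 0) (XT.lf (nat_lit 0) (nat_lit 1870905517) (nat_lit 836) (nat_lit 3293499843) (nat_lit 912) (nat_lit 1490017748) (nat_lit 735) (nat_lit 5) (nat_lit 746) (nat_lit 5) (nat_lit 747) (nat_lit 5) (nat_lit 400) (nat_lit 376) (nat_lit 364)) (XT.nd (nat_lit 78) (nat_lit 912) (nat_lit 0) (XT.lf (nat_lit 0) (nat_lit 1452422655) (nat_lit 912) (nat_lit 693886032) (nat_lit 76) (nat_lit 4531555788) (nat_lit 734) (nat_lit 5) (nat_lit 746) (nat_lit 5) (nat_lit 735) (nat_lit 5) (nat_lit 401) (nat_lit 376) (nat_lit 363)) (XT.lf (nat_lit 0) (nat_lit 3464241610) (nat_lit 912) (nat_lit 925334370) (nat_lit 988) (nat_lit 2312885401) (nat_lit 722) (nat_lit 5) (nat_lit 734) (nat_lit 5) (nat_lit 735) (nat_lit 5) (nat_lit 402) (nat_lit 376) (nat_lit 362))))) (XT.nd (nat_lit 156) (nat_lit 2280) (nat_lit 0) (XT.nd (nat_lit 78) (nat_lit 0) (nat_lit 0) (XT.lf (nat_lit 0) (nat_lit 596272407) (nat_lit 1064) (nat_lit 5784690882) (nat_lit 76) (nat_lit 347561924)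 (nat_lit 708) (nat_lit 5) (nat_lit 722) (nat_lit 5) (nat_lit 709) (nat_lit 5) (nat_lit 403) (nat_lit 376) (nat_lit 361)) (XT.lf (nat_lit 0) (nat_lit 3495619376) (nat_lit 1064) (nat_lit 1573343215) (nat_lit 76) (nat_lit 1686582454) (nat_lit 708) (nat_lit 5) (nat_lit 722) (nat_lit 5) (nat_lit 709) (nat_lit 5) (nat_lit 404) (nat_lit 376) (nat_lit 360))) (XT.nd (nat_lit 78) (nat_lit 1216) (nat_lit 0) (XT.lf (nat_lit 0) (nat_lit 2708237819) (nat_lit 1064) (nat_lit 3698519219) (nat_lit 1140) (nat_lit 377272161) (nat_lit 694) (nat_lit 5) (nat_lit 708) (nat_lit 5) (nat_lit 709) (nat_lit 5) (nat_lit 405) (nat_lit 376) (nat_lit 359)) (XT.nd (nat_lit 78) (nat_lit 0) (nat_lit 0) (XT.lf (nat_lit 0) (nat_lit 220053247) (nat_lit 1140) (nat_lit 2258158221) (nat_lit 1216) (nat_lit 4335562916) (nat_lit 678) (nat_lit 5) (nat_lit 693) (nat_lit 5) (nat_lit 694) (nat_lit 5) (nat_lit 406) (nat_lit 376) (nat_lit 358)) (XT.lf (nat_lit 0) (nat_lit 4604832999)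 (nat_lit 1140) (nat_lit 745911995) (nat_lit 1216) (nat_lit 1494019765) (nat_lit 678) (nat_lit 5) (nat_lit 693) (nat_lit 5) (nat_lit 694) (nat_lit 5) (nat_lit 407) (nat_lit 376) (nat_lit 357)))))) (XT.nd (nat_lit 390) (nat_lit 6384) (nat_lit 0) (XT.nd (nat_lit 156) (nat_lit 2736) (nat_lit 0) (XT.nd (nat_lit 78) (nat_lit 0) (nat_lit 0) (XT.lf (nat_lit 0) (nat_lit 1343903870) (nat_lit 1292) (nat_lit 4711801383) (nat_lit 76) (nat_lit 821327968) (nat_lit 661) (nat_lit 5) (nat_lit 678) (nat_lit 5) (nat_lit 662) (nat_lit 5) (nat_lit 408) (nat_lit 376) (nat_lit 356)) (XT.lf (nat_lit 0) (nat_lit 4178101942) (nat_lit 1292) (nat_lit 286221205) (nat_lit 76) (nat_lit 2446235980) (nat_lit 661) (nat_lit 5) (nat_lit 678) (nat_lit 5) (nat_lit 662) (nat_lit 5) (nat_lit 409) (nat_lit 376) (nat_lit 355))) (XT.nd (nat_lit 78) (nat_lit 1368) (nat_lit 0) (XT.lf (nat_lit 0) (nat_lit 90496463) (nat_lit 1368) (nat_lit 2712102564) (nat_lit 76) (nat_lit 4142782445)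 (nat_lit 643) (nat_lit 5) (nat_lit 661) (nat_lit 5) (nat_lit 644) (nat_lit 5) (nat_lit 410) (nat_lit 376) (nat_lit 354)) (XT.nd (nat_lit 78) (nat_lit 0) (nat_lit 0) (XT.lf (nat_lit 0) (nat_lit 1822004543) (nat_lit 1368) (nat_lit 1066190959) (nat_lit 1444) (nat_lit 4093246053) (nat_lit 625) (nat_lit 5) (nat_lit 643) (nat_lit 5) (nat_lit 644) (nat_lit 5) (nat_lit 411) (nat_lit 376) (nat_lit 353)) (XT.lf (nat_lit 0) (nat_lit 5706710214) (nat_lit 1444) (nat_lit 589857091) (nat_lit 76) (nat_lit 722358301) (nat_lit 625) (nat_lit 5) (nat_lit 644) (nat_lit 5) (nat_lit 626) (nat_lit 5) (nat_lit 412) (nat_lit 376) (nat_lit 352))))) (XT.nd (nat_lit 156) (nat_lit 3344) (nat_lit 0) (XT.nd (nat_lit 78) (nat_lit 1520) (nat_lit 0) (XT.lf (nat_lit 0) (nat_lit 1480860018) (nat_lit 1520) (nat_lit 2999830906) (nat_lit 76) (nat_lit 2576742113) (nat_lit 605) (nat_lit 5) (nat_lit 625) (nat_lit 5) (nat_lit 606) (nat_lit 5) (nat_lit 413) (nat_lit 376) (nat_lit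 351)) (XT.lf (nat_lit 0) (nat_lit 1672307909) (nat_lit 1520) (nat_lit 2598302086) (nat_lit 1596) (nat_lit 2826759475) (nat_lit 585) (nat_lit 5) (nat_lit 605) (nat_lit 5) (nat_lit 606) (nat_lit 5) (nat_lit 414) (nat_lit 376) (nat_lit 350))) (XT.nd (nat_lit 78) (nat_lit 3344) (nat_lit 0) (XT.lf (nat_lit 0) (nat_lit 6428600725) (nat_lit 1520) (nat_lit 651992718) (nat_lit 1596) (nat_lit 58222419) (nat_lit 585) (nat_lit 5) (nat_lit 605) (nat_lit 5) (nat_lit 606) (nat_lit 5) (nat_lit 415) (nat_lit 376) (nat_lit 349)) (XT.nd (nat_lit 78) (nat_lit 1672) (nat_lit 0) (XT.lf (nat_lit 0) (nat_lit 2709957853) (nat_lit 1672) (nat_lit 3105444086) (nat_lit 76) (nat_lit 1365719211) (nat_lit 563) (nat_lit 5) (nat_lit 585) (nat_lit 5) (nat_lit 564) (nat_lit 5) (nat_lit 416) (nat_lit 376) (nat_lit 348)) (XT.lf (nat_lit 0) (nat_lit 1709936519) (nat_lit 1672) (nat_lit 3788830578) (nat_lit 1748) (nat_lit 1726176850) (nat_lit 541) (nat_lit 5) (nat_lit 563) (nat_lit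 5) (nat_lit 564) (nat_lit 5) (nat_lit 417) (nat_lit 376) (nat_lit 347))))))) (XT.nd (nat_lit 780) (nat_lit 5700) (nat_lit 0) (XT.nd (nat_lit 390) (nat_lit 3724) (nat_lit 0) (XT.nd (nat_lit 156) (nat_lit 3040) (nat_lit 0) (XT.nd (nat_lit 78) (nat_lit 1748) (nat_lit 0) (XT.lf (nat_lit 0) (nat_lit 1026814152) (nat_lit 1748) (nat_lit 663490143) (nat_lit 76) (nat_lit 5579855745) (nat_lit 540) (nat_lit 5) (nat_lit 563) (nat_lit 5) (nat_lit 541) (nat_lit 5) (nat_lit 418) (nat_lit 376) (nat_lit 346)) (XT.lf (nat_lit 0) (nat_lit 3790026398) (nat_lit 1824) (nat_lit 3039871570) (nat_lit 76) (nat_lit 486588789) (nat_lit 517) (nat_lit 5) (nat_lit 541) (nat_lit 5) (nat_lit 518) (nat_lit 5) (nat_lit 419) (nat_lit 376) (nat_lit 345))) (XT.nd (nat_lit 78) (nat_lit 1216) (nat_lit 0) (XT.lf (nat_lit 0) (nat_lit 1924273894) (nat_lit 1824) (nat_lit 4660391239) (nat_lit 1900) (nat_lit 779551630) (nat_lit 493) (nat_lit 5) (nat_lit 517) (nat_lit 5) (nat_lit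 518) (nat_lit 5) (nat_lit 420) (nat_lit 376) (nat_lit 344)) (XT.nd (nat_lit 78) (nat_lit 1140) (nat_lit 0) (XT.lf (nat_lit 0) (nat_lit 1964652921) (nat_lit 1900) (nat_lit 447808755) (nat_lit 76) (nat_lit 5000799482) (nat_lit 492) (nat_lit 5) (nat_lit 517) (nat_lit 5) (nat_lit 493) (nat_lit 5) (nat_lit 421) (nat_lit 376) (nat_lit 343)) (XT.lf (nat_lit 0) (nat_lit 4650031921) (nat_lit 1140) (nat_lit 82831299) (nat_lit 1216) (nat_lit 2730728970) (nat_lit 477) (nat_lit 5) (nat_lit 492) (nat_lit 5) (nat_lit 493) (nat_lit 5) (nat_lit 422) (nat_lit 376) (nat_lit 342))))) (XT.nd (nat_lit 156) (nat_lit 2736) (nat_lit 0) (XT.nd (nat_lit 78) (nat_lit 0) (nat_lit 0) (XT.lf (nat_lit 0) (nat_lit 23767764) (nat_lit 988) (nat_lit 5209700575) (nat_lit 76) (nat_lit 2281800026) (nat_lit 464) (nat_lit 5) (nat_lit 477) (nat_lit 5) (nat_lit 465) (nat_lit 5) (nat_lit 423) (nat_lit 376) (nat_lit 341)) (XT.lf (nat_lit 0) (nat_lit 2766736743) (nat_lit 988) (nat_lit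 72100438) (nat_lit 76) (nat_lit 4729380946) (nat_lit 464) (nat_lit 5) (nat_lit 477) (nat_lit 5) (nat_lit 465) (nat_lit 5) (nat_lit 424) (nat_lit 376) (nat_lit 340))) (XT.nd (nat_lit 78) (nat_lit 1824) (nat_lit 0) (XT.lf (nat_lit 0) (nat_lit 5186311245) (nat_lit 912) (nat_lit 363258722) (nat_lit 988) (nat_lit 2072956820) (nat_lit 452) (nat_lit 5) (nat_lit 464) (nat_lit 5) (nat_lit 465) (nat_lit 5) (nat_lit 425) (nat_lit 376) (nat_lit 339)) (XT.nd (nat_lit 78) (nat_lit 912) (nat_lit 0) (XT.lf (nat_lit 0) (nat_lit 685677540) (nat_lit 912) (nat_lit 4837076532) (nat_lit 76) (nat_lit 2155378275) (nat_lit 440) (nat_lit 5) (nat_lit 452) (nat_lit 5) (nat_lit 441) (nat_lit 5) (nat_lit 426) (nat_lit 376) (nat_lit 338)) (XT.lf (nat_lit 0) (nat_lit 461297674) (nat_lit 912) (nat_lit 2984568564) (nat_lit 988) (nat_lit 4289226965) (nat_lit 428) (nat_lit 5) (nat_lit 440) (nat_lit 5) (nat_lit 441) (nat_lit 5) (nat_lit 427) (nat_lit 376) (nat_lit 337))))))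 (XT.nd (nat_lit 390) (nat_lit 3116) (nat_lit 0) (XT.nd (nat_lit 156) (nat_lit 1672) (nat_lit 0) (XT.nd (nat_lit 78) (nat_lit 912) (nat_lit 0) (XT.lf (nat_lit 0) (nat_lit 5880658698) (nat_lit 912) (nat_lit 365922622) (nat_lit 988) (nat_lit 1546905505) (nat_lit 428) (nat_lit 5) (nat_lit 440) (nat_lit 5) (nat_lit 441) (nat_lit 5) (nat_lit 428) (nat_lit 376) (nat_lit 336)) (XT.lf (nat_lit 0) (nat_lit 1225502057) (nat_lit 912) (nat_lit 4324965114) (nat_lit 76) (nat_lit 2302586055) (nat_lit 416) (nat_lit 5) (nat_lit 428) (nat_lit 5) (nat_lit 417) (nat_lit 5) (nat_lit 429) (nat_lit 376) (nat_lit 335))) (XT.nd (nat_lit 78) (nat_lit 836) (nat_lit 0) (XT.lf (nat_lit 0) (nat_lit 1141679269) (nat_lit 836) (nat_lit 2867786320) (nat_lit 912) (nat_lit 3904604448) (nat_lit 405) (nat_lit 5) (nat_lit 416) (nat_lit 5) (nat_lit 417) (nat_lit 5) (nat_lit 430) (nat_lit 376) (nat_lit 334)) (XT.nd (nat_lit 78) (nat_lit 836) (nat_lit 0) (XT.lf (nat_lit 0) (nat_lit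 6725877739) (nat_lit 836) (nat_lit 106871833) (nat_lit 912) (nat_lit 1143884789) (nat_lit 405) (nat_lit 5) (nat_lit 416) (nat_lit 5) (nat_lit 417) (nat_lit 5) (nat_lit 431) (nat_lit 376) (nat_lit 333)) (XT.lf (nat_lit 0) (nat_lit 1651574101) (nat_lit 836) (nat_lit 3680517765) (nat_lit 76) (nat_lit 2708111902) (nat_lit 394) (nat_lit 5) (nat_lit 405) (nat_lit 5) (nat_lit 395) (nat_lit 5) (nat_lit 432) (nat_lit 376) (nat_lit 332))))) (XT.nd (nat_lit 234) (nat_lit 1520) (nat_lit 0) (XT.nd (nat_lit 78) (nat_lit 836) (nat_lit 0) (XT.lf (nat_lit 0) (nat_lit 1961266850) (nat_lit 760) (nat_lit 2503997216) (nat_lit 836) (nat_lit 3640076506) (nat_lit 384) (nat_lit 5) (nat_lit 394) (nat_lit 5) (nat_lit 395) (nat_lit 5) (nat_lit 433) (nat_lit 376) (nat_lit 331)) (XT.nd (nat_lit 78) (nat_lit 836) (nat_lit 0) (XT.lf (nat_lit 0) (nat_lit 7318794867) (nat_lit 836) (nat_lit 459175551) (nat_lit 76) (nat_lit 394138353) (nat_lit 384) (nat_lit 5) (nat_lit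 395) (nat_lit 5) (nat_lit 385) (nat_lit 5) (nat_lit 434) (nat_lit 376) (nat_lit 330)) (XT.lf (nat_lit 0) (nat_lit 1971515041) (nat_lit 836) (nat_lit 2910136166) (nat_lit 76) (nat_lit 3358134433) (nat_lit 373) (nat_lit 5) (nat_lit 384) (nat_lit 5) (nat_lit 374) (nat_lit 5) (nat_lit 435) (nat_lit 376) (nat_lit 329)))) (XT.nd (nat_lit 78) (nat_lit 760) (nat_lit 0) (XT.lf (nat_lit 0) (nat_lit 2913997763) (nat_lit 760) (nat_lit 1906778773) (nat_lit 836) (nat_lit 3488339466) (nat_lit 363) (nat_lit 5) (nat_lit 373) (nat_lit 5) (nat_lit 374) (nat_lit 5) (nat_lit 436) (nat_lit 376) (nat_lit 328)) (XT.nd (nat_lit 78) (nat_lit 76) (nat_lit 0) (XT.lf (nat_lit 0) (nat_lit 462503962) (nat_lit 684) (nat_lit 7252292882) (nat_lit 760) (nat_lit 665280655) (nat_lit 354) (nat_lit 5) (nat_lit 363) (nat_lit 5) (nat_lit 364) (nat_lit 5) (nat_lit 437) (nat_lit 376) (nat_lit 327)) (XT.lf (nat_lit 0) (nat_lit 2192286649) (nat_lit 760) (nat_lit 2019522319) (nat_lit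 76) (nat_lit 4240219983) (nat_lit 353) (nat_lit 5) (nat_lit 363) (nat_lit 5) (nat_lit 354) (nat_lit 5) (nat_lit 438) (nat_lit 376) (nat_lit 326))))))))
noncomputable def xc91 : XT := (XT.nd (nat_lit 1638) (nat_lit 6308) (nat_lit 0) (XT.nd (nat_lit 780) (nat_lit 4560) (nat_lit 0) (XT.nd (nat_lit 390) (nat_lit 1976) (nat_lit 0) (XT.nd (nat_lit 156) (nat_lit 1368) (nat_lit 0) (XT.nd (nat_lit 78) (nat_lit 684) (nat_lit 0) (XT.lf (nat_lit 0) (nat_lit 3994516737) (nat_lit 684) (nat_lit 1088362997) (nat_lit 760) (nat_lit 3442756096) (nat_lit 344) (nat_lit 5) (nat_lit 353) (nat_lit 5) (nat_lit 354) (nat_lit 5) (nat_lit 439) (nat_lit 376) (nat_lit 325)) (XT.lf (nat_lit 0) (nat_lit 1511500171) (nat_lit 684) (nat_lit 6516124582) (nat_lit 760) (nat_lit 573163294) (nat_lit 335) (nat_lit 5) (nat_lit 344) (nat_lit 5) (nat_lit 345) (nat_lit 5) (nat_lit 440) (nat_lit 376) (nat_lit 324))) (XT.nd (nat_lit 78) (nat_lit 1292) (nat_lit 0) (XT.lf (nat_lit 0)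 (nat_lit 2320238854) (nat_lit 760) (nat_lit 1013724504) (nat_lit 76) (nat_lit 5343228532) (nat_lit 334) (nat_lit 5) (nat_lit 344) (nat_lit 5) (nat_lit 335) (nat_lit 5) (nat_lit 441) (nat_lit 376) (nat_lit 323)) (XT.nd (nat_lit 78) (nat_lit 608) (nat_lit 0) (XT.lf (nat_lit 0) (nat_lit 5198130715) (nat_lit 684) (nat_lit 59728228) (nat_lit 760) (nat_lit 3497308603) (nat_lit 325) (nat_lit 5) (nat_lit 334) (nat_lit 5) (nat_lit 335) (nat_lit 5) (nat_lit 442) (nat_lit 376) (nat_lit 322)) (XT.lf (nat_lit 0) (nat_lit 2677176091) (nat_lit 608) (nat_lit 5583242813) (nat_lit 684) (nat_lit 574160063) (nat_lit 317) (nat_lit 5) (nat_lit 325) (nat_lit 5) (nat_lit 326) (nat_lit 5) (nat_lit 443) (nat_lit 376) (nat_lit 321))))) (XT.nd (nat_lit 156) (nat_lit 1292) (nat_lit 0) (XT.nd (nat_lit 78) (nat_lit 0) (nat_lit 0) (XT.lf (nat_lit 0) (nat_lit 104187008) (nat_lit 608) (nat_lit 2257643201) (nat_lit 684) (nat_lit 6553716733) (nat_lit 308) (nat_lit 5) (nat_lit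 316) (nat_lit 5) (nat_lit 317) (nat_lit 5) (nat_lit 444) (nat_lit 376) (nat_lit 320)) (XT.lf (nat_lit 0) (nat_lit 5359043002) (nat_lit 684) (nat_lit 2484830872) (nat_lit 76) (nat_lit 1153980684) (nat_lit 308) (nat_lit 5) (nat_lit 317) (nat_lit 5) (nat_lit 309) (nat_lit 5) (nat_lit 445) (nat_lit 376) (nat_lit 319))) (XT.nd (nat_lit 78) (nat_lit 684) (nat_lit 0) (XT.lf (nat_lit 0) (nat_lit 3955591922) (nat_lit 608) (nat_lit 4463226790) (nat_lit 684) (nat_lit 662937241) (nat_lit 300) (nat_lit 5) (nat_lit 308) (nat_lit 5) (nat_lit 309) (nat_lit 5) (nat_lit 446) (nat_lit 376) (nat_lit 318)) (XT.nd (nat_lit 78) (nat_lit 0) (nat_lit 0) (XT.lf (nat_lit 0) (nat_lit 1343874360) (nat_lit 608) (nat_lit 985137132) (nat_lit 684) (nat_lit 6838262372) (nat_lit 291) (nat_lit 5) (nat_lit 299) (nat_lit 5) (nat_lit 300) (nat_lit 5) (nat_lit 447) (nat_lit 376) (nat_lit 317)) (XT.lf (nat_lit 0) (nat_lit 5385700420) (nat_lit 684) (nat_lit 1312353643) (nat_lit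 76) (nat_lit 2556084871) (nat_lit 291) (nat_lit 5) (nat_lit 300) (nat_lit 5) (nat_lit 292) (nat_lit 5) (nat_lit 448) (nat_lit 376) (nat_lit 316)))))) (XT.nd (nat_lit 390) (nat_lit 2204) (nat_lit 0) (XT.nd (nat_lit 156) (nat_lit 1140) (nat_lit 0) (XT.nd (nat_lit 78) (nat_lit 684) (nat_lit 0) (XT.lf (nat_lit 0) (nat_lit 5343366444) (nat_lit 532) (nat_lit 3164613682) (nat_lit 608) (nat_lit 834672038) (nat_lit 284) (nat_lit 5) (nat_lit 291) (nat_lit 5) (nat_lit 292) (nat_lit 5) (nat_lit 449) (nat_lit 376) (nat_lit 315)) (XT.lf (nat_lit 0) (nat_lit 2222899140) (nat_lit 684) (nat_lit 6747395024) (nat_lit 76) (nat_lit 462492723) (nat_lit 275) (nat_lit 5) (nat_lit 284) (nat_lit 5) (nat_lit 276) (nat_lit 5) (nat_lit 450) (nat_lit 376) (nat_lit 314))) (XT.nd (nat_lit 78) (nat_lit 1140) (nat_lit 0) (XT.lf (nat_lit 0) (nat_lit 5342149300) (nat_lit 684) (nat_lit 42458455) (nat_lit 76) (nat_lit 4139772130) (nat_lit 275) (nat_lit 5) (nat_lit 284) (nat_lit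 5) (nat_lit 276) (nat_lit 5) (nat_lit 451) (nat_lit 376) (nat_lit 313)) (XT.nd (nat_lit 78) (nat_lit 608) (nat_lit 0) (XT.lf (nat_lit 0) (nat_lit 6837643771) (nat_lit 532) (nat_lit 1694967190) (nat_lit 608) (nat_lit 1085017252) (nat_lit 268) (nat_lit 5) (nat_lit 275) (nat_lit 5) (nat_lit 276) (nat_lit 5) (nat_lit 452) (nat_lit 376) (nat_lit 312)) (XT.lf (nat_lit 0) (nat_lit 2052267796) (nat_lit 608) (nat_lit 5591057818) (nat_lit 76) (nat_lit 2069039958) (nat_lit 260) (nat_lit 5) (nat_lit 268) (nat_lit 5) (nat_lit 261) (nat_lit 5) (nat_lit 453) (nat_lit 376) (nat_lit 311))))) (XT.nd (nat_lit 234) (nat_lit 1064) (nat_lit 0) (XT.nd (nat_lit 78) (nat_lit 608) (nat_lit 0) (XT.lf (nat_lit 0) (nat_lit 1339666774) (nat_lit 532) (nat_lit 3901694407) (nat_lit 608) (nat_lit 4567421234) (nat_lit 253) (nat_lit 5) (nat_lit 260) (nat_lit 5) (nat_lit 261) (nat_lit 5) (nat_lit 454) (nat_lit 376) (nat_lit 310)) (XT.nd (nat_lit 78) (nat_lit 608) (nat_lit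 0) (XT.lf (nat_lit 0) (nat_lit 8436063040) (nat_lit 532) (nat_lit 60940433) (nat_lit 608) (nat_lit 1410068783) (nat_lit 253) (nat_lit 5) (nat_lit 260) (nat_lit 5) (nat_lit 261) (nat_lit 5) (nat_lit 455) (nat_lit 376) (nat_lit 309)) (XT.lf (nat_lit 0) (nat_lit 1814550560) (nat_lit 608) (nat_lit 4350723880) (nat_lit 76) (nat_lit 3841261084) (nat_lit 245) (nat_lit 5) (nat_lit 253) (nat_lit 5) (nat_lit 246) (nat_lit 5) (nat_lit 456) (nat_lit 376) (nat_lit 308)))) (XT.nd (nat_lit 78) (nat_lit 608) (nat_lit 0) (XT.lf (nat_lit 0) (nat_lit 2815940654) (nat_lit 456) (nat_lit 2263456111) (nat_lit 532) (nat_lit 5028512575) (nat_lit 239) (nat_lit 5) (nat_lit 245) (nat_lit 5) (nat_lit 246) (nat_lit 5) (nat_lit 457) (nat_lit 376) (nat_lit 307)) (XT.nd (nat_lit 78) (nat_lit 608) (nat_lit 0) (XT.lf (nat_lit 0) (nat_lit 8416307496) (nat_lit 532) (nat_lit 85912458) (nat_lit 76) (nat_lit 1708955327) (nat_lit 239) (nat_lit 5) (nat_lit 246) (nat_lit 5) (nat_lit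 240) (nat_lit 5) (nat_lit 458) (nat_lit 376) (nat_lit 306)) (XT.lf (nat_lit 0) (nat_lit 1513190223) (nat_lit 608) (nat_lit 3028703554) (nat_lit 76) (nat_lit 5773828369) (nat_lit 231) (nat_lit 5) (nat_lit 239) (nat_lit 5) (nat_lit 232) (nat_lit 5) (nat_lit 459) (nat_lit 376) (nat_lit 305))))))) (XT.nd (nat_lit 780) (nat_lit 3040) (nat_lit 0) (XT.nd (nat_lit 390) (nat_lit 1368) (nat_lit 0) (XT.nd (nat_lit 156) (nat_lit 988) (nat_lit 0) (XT.nd (nat_lit 78) (nat_lit 456) (nat_lit 0) (XT.lf (nat_lit 0) (nat_lit 4383899962) (nat_lit 456) (nat_lit 475562579) (nat_lit 532) (nat_lit 5562738397) (nat_lit 225) (nat_lit 5) (nat_lit 231) (nat_lit 5) (nat_lit 232) (nat_lit 5) (nat_lit 460) (nat_lit 376) (nat_lit 304)) (XT.lf (nat_lit 0) (nat_lit 1401644108) (nat_lit 456) (nat_lit 6891677816) (nat_lit 532) (nat_lit 2237074150) (nat_lit 219) (nat_lit 5) (nat_lit 225) (nat_lit 5) (nat_lit 226) (nat_lit 5) (nat_lit 461) (nat_lit 376) (nat_lit 303))) (XT.nd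 (nat_lit 78) (nat_lit 912) (nat_lit 0) (XT.lf (nat_lit 0) (nat_lit 1151269311) (nat_lit 532) (nat_lit 1626909978) (nat_lit 76) (nat_lit 7862199523) (nat_lit 218) (nat_lit 5) (nat_lit 225) (nat_lit 5) (nat_lit 219) (nat_lit 5) (nat_lit 462) (nat_lit 376) (nat_lit 302)) (XT.nd (nat_lit 78) (nat_lit 456) (nat_lit 0) (XT.lf (nat_lit 0) (nat_lit 4594161421) (nat_lit 532) (nat_lit 4719525527) (nat_lit 76) (nat_lit 1438243791) (nat_lit 212) (nat_lit 5) (nat_lit 219) (nat_lit 5) (nat_lit 213) (nat_lit 5) (nat_lit 463) (nat_lit 376) (nat_lit 301)) (XT.lf (nat_lit 0) (nat_lit 2974442183) (nat_lit 456) (nat_lit 5148408540) (nat_lit 532) (nat_lit 2742524195) (nat_lit 206) (nat_lit 5) (nat_lit 212) (nat_lit 5) (nat_lit 213) (nat_lit 5) (nat_lit 464) (nat_lit 376) (nat_lit 300))))) (XT.nd (nat_lit 156) (nat_lit 912) (nat_lit 0) (XT.nd (nat_lit 78) (nat_lit 380) (nat_lit 0) (XT.lf (nat_lit 0) (nat_lit 731534164) (nat_lit 532) (nat_lit 146881496) (nat_lit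 76) (nat_lit 10102571555) (nat_lit 205) (nat_lit 5) (nat_lit 212) (nat_lit 5) (nat_lit 206) (nat_lit 5) (nat_lit 465) (nat_lit 376) (nat_lit 299)) (XT.lf (nat_lit 0) (nat_lit 4280854529) (nat_lit 456) (nat_lit 3331774126) (nat_lit 76) (nat_lit 3485070478) (nat_lit 200) (nat_lit 5) (nat_lit 206) (nat_lit 5) (nat_lit 201) (nat_lit 5) (nat_lit 466) (nat_lit 376) (nat_lit 298))) (XT.nd (nat_lit 78) (nat_lit 456) (nat_lit 0) (XT.lf (nat_lit 0) (nat_lit 4630215329) (nat_lit 456) (nat_lit 3276990433) (nat_lit 532) (nat_lit 3309418636) (nat_lit 194) (nat_lit 5) (nat_lit 200) (nat_lit 5) (nat_lit 201) (nat_lit 5) (nat_lit 467) (nat_lit 376) (nat_lit 297)) (XT.nd (nat_lit 78) (nat_lit 0) (nat_lit 0) (XT.lf (nat_lit 0) (nat_lit 273247206) (nat_lit 456) (nat_lit 9916486028) (nat_lit 76) (nat_lit 1147987950) (nat_lit 188) (nat_lit 5) (nat_lit 194) (nat_lit 5) (nat_lit 189) (nat_lit 5) (nat_lit 468) (nat_lit 376) (nat_lit 296)) (XT.lf (nat_lit 0) (nat_lit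 3918952912) (nat_lit 456) (nat_lit 1873187290) (nat_lit 76) (nat_lit 5667948204) (nat_lit 188) (nat_lit 5) (nat_lit 194) (nat_lit 5) (nat_lit 189) (nat_lit 5) (nat_lit 469) (nat_lit 376) (nat_lit 295)))))) (XT.nd (nat_lit 390) (nat_lit 1520) (nat_lit 0) (XT.nd (nat_lit 156) (nat_lit 760) (nat_lit 0) (XT.nd (nat_lit 78) (nat_lit 380) (nat_lit 0) (XT.lf (nat_lit 0) (nat_lit 6368190702) (nat_lit 380) (nat_lit 1280792608) (nat_lit 456) (nat_lit 3935691452) (nat_lit 183) (nat_lit 5) (nat_lit 188) (nat_lit 5) (nat_lit 189) (nat_lit 5) (nat_lit 470) (nat_lit 376) (nat_lit 294)) (XT.lf (nat_lit 0) (nat_lit 3060289837) (nat_lit 380) (nat_lit 8417654127) (nat_lit 456) (nat_lit 233322287) (nat_lit 178) (nat_lit 5) (nat_lit 183) (nat_lit 5) (nat_lit 184) (nat_lit 5) (nat_lit 471) (nat_lit 376) (nat_lit 293))) (XT.nd (nat_lit 78) (nat_lit 684) (nat_lit 0) (XT.lf (nat_lit 0) (nat_lit 3510679759) (nat_lit 456) (nat_lit 344674645) (nat_lit 76) (nat_lit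 7984294008) (nat_lit 177) (nat_lit 5) (nat_lit 183) (nat_lit 5) (nat_lit 178) (nat_lit 5) (nat_lit 472) (nat_lit 376) (nat_lit 292)) (XT.nd (nat_lit 78) (nat_lit 304) (nat_lit 0) (XT.lf (nat_lit 0) (nat_lit 7355955334) (nat_lit 456) (nat_lit 3787592555) (nat_lit 76) (nat_lit 826429128) (nat_lit 172) (nat_lit 5) (nat_lit 178) (nat_lit 5) (nat_lit 173) (nat_lit 5) (nat_lit 473) (nat_lit 376) (nat_lit 291)) (XT.lf (nat_lit 0) (nat_lit 4773010225) (nat_lit 304) (nat_lit 6535060654) (nat_lit 380) (nat_lit 794242626) (nat_lit 168) (nat_lit 5) (nat_lit 172) (nat_lit 5) (nat_lit 173) (nat_lit 5) (nat_lit 474) (nat_lit 376) (nat_lit 290))))) (XT.nd (nat_lit 234) (nat_lit 760) (nat_lit 0) (XT.nd (nat_lit 78) (nat_lit 304) (nat_lit 0) (XT.lf (nat_lit 0) (nat_lit 1269810325) (nat_lit 380) (nat_lit 1796434958) (nat_lit 456) (nat_lit 9170548731) (nat_lit 162) (nat_lit 5) (nat_lit 167) (nat_lit 5) (nat_lit 168) (nat_lit 5) (nat_lit 475) (nat_lit 376)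 (nat_lit 289)) (XT.nd (nat_lit 78) (nat_lit 304) (nat_lit 0) (XT.lf (nat_lit 0) (nat_lit 7033869866) (nat_lit 456) (nat_lit 2304099583) (nat_lit 76) (nat_lit 3035078448) (nat_lit 162) (nat_lit 5) (nat_lit 168) (nat_lit 5) (nat_lit 163) (nat_lit 5) (nat_lit 476) (nat_lit 376) (nat_lit 288)) (XT.lf (nat_lit 0) (nat_lit 6561025316) (nat_lit 304) (nat_lit 4546204034) (nat_lit 380) (nat_lit 1404269860) (nat_lit 158) (nat_lit 5) (nat_lit 162) (nat_lit 5) (nat_lit 163) (nat_lit 5) (nat_lit 477) (nat_lit 376) (nat_lit 287)))) (XT.nd (nat_lit 78) (nat_lit 304) (nat_lit 0) (XT.lf (nat_lit 0) (nat_lit 2584298861) (nat_lit 456) (nat_lit 9695901538) (nat_lit 76) (nat_lit 371996632) (nat_lit 152) (nat_lit 5) (nat_lit 158) (nat_lit 5) (nat_lit 153) (nat_lit 5) (nat_lit 478) (nat_lit 376) (nat_lit 286)) (XT.nd (nat_lit 78) (nat_lit 304) (nat_lit 0) (XT.lf (nat_lit 0) (nat_lit 6676264802) (nat_lit 456) (nat_lit 758112146) (nat_lit 76) (nat_lit 5360297638)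 (nat_lit 152) (nat_lit 5) (nat_lit 158) (nat_lit 5) (nat_lit 153) (nat_lit 5) (nat_lit 479) (nat_lit 376) (nat_lit 285)) (XT.lf (nat_lit 0) (nat_lit 8424419926) (nat_lit 304) (nat_lit 2453002816) (nat_lit 380) (nat_lit 2062031895) (nat_lit 148) (nat_lit 5) (nat_lit 152) (nat_lit 5) (nat_lit 153) (nat_lit 5) (nat_lit 480) (nat_lit 376) (nat_lit 284))))))))
noncomputable def xc92 : XT := (XT.nd (nat_lit 1560) (nat_lit 1064) (nat_lit 0) (XT.nd (nat_lit 780) (nat_lit 1976) (nat_lit 0) (XT.nd (nat_lit 390) (nat_lit 988) (nat_lit 0) (XT.nd (nat_lit 156) (nat_lit 684) (nat_lit 0) (XT.nd (nat_lit 78) (nat_lit 304) (nat_lit 0) (XT.lf (nat_lit 0) (nat_lit 2074006308) (nat_lit 380) (nat_lit 8386324045) (nat_lit 76) (nat_lit 2626015370) (nat_lit 143) (nat_lit 5) (nat_lit 148) (nat_lit 5) (nat_lit 144) (nat_lit 5) (nat_lit 481) (nat_lit 376) (nat_lit 283)) (XT.lf (nat_lit 0) (nat_lit 861504353) (nat_lit 304) (nat_lit 5428874317) (nat_lit 380) (nat_lit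 6945018879) (nat_lit 139) (nat_lit 5) (nat_lit 143) (nat_lit 5) (nat_lit 144) (nat_lit 5) (nat_lit 482) (nat_lit 376) (nat_lit 282))) (XT.nd (nat_lit 78) (nat_lit 684) (nat_lit 0) (XT.lf (nat_lit 0) (nat_lit 10363556363) (nat_lit 304) (nat_lit 256903328) (nat_lit 380) (nat_lit 2766383097) (nat_lit 139) (nat_lit 5) (nat_lit 143) (nat_lit 5) (nat_lit 144) (nat_lit 5) (nat_lit 483) (nat_lit 376) (nat_lit 281)) (XT.nd (nat_lit 78) (nat_lit 304) (nat_lit 0) (XT.lf (nat_lit 0) (nat_lit 1524986093) (nat_lit 380) (nat_lit 7027033537) (nat_lit 76) (nat_lit 4988127491) (nat_lit 134) (nat_lit 5) (nat_lit 139) (nat_lit 5) (nat_lit 135) (nat_lit 5) (nat_lit 484) (nat_lit 376) (nat_lit 280)) (XT.lf (nat_lit 0) (nat_lit 2554438335) (nat_lit 304) (nat_lit 3323028057) (nat_lit 380) (nat_lit 7818438919) (nat_lit 130) (nat_lit 5) (nat_lit 134) (nat_lit 5) (nat_lit 135) (nat_lit 5) (nat_lit 485) (nat_lit 376) (nat_lit 279))))) (XT.nd (nat_lit 156) (nat_lit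 608) (nat_lit 0) (XT.nd (nat_lit 78) (nat_lit 380) (nat_lit 0) (XT.lf (nat_lit 0) (nat_lit 10351219932) (nat_lit 380) (nat_lit 1488547573) (nat_lit 76) (nat_lit 2014326689) (nat_lit 130) (nat_lit 5) (nat_lit 135) (nat_lit 5) (nat_lit 131) (nat_lit 5) (nat_lit 486) (nat_lit 376) (nat_lit 278)) (XT.lf (nat_lit 0) (nat_lit 938325937) (nat_lit 380) (nat_lit 5618256167) (nat_lit 76) (nat_lit 7457725715) (nat_lit 125) (nat_lit 5) (nat_lit 130) (nat_lit 5) (nat_lit 126) (nat_lit 5) (nat_lit 487) (nat_lit 376) (nat_lit 277))) (XT.nd (nat_lit 78) (nat_lit 380) (nat_lit 0) (XT.lf (nat_lit 0) (nat_lit 4310938738) (nat_lit 228) (nat_lit 1122871608) (nat_lit 304) (nat_lit 8743205015) (nat_lit 122) (nat_lit 5) (nat_lit 125) (nat_lit 5) (nat_lit 126) (nat_lit 5) (nat_lit 488) (nat_lit 376) (nat_lit 276)) (XT.nd (nat_lit 78) (nat_lit 76) (nat_lit 0) (XT.lf (nat_lit 0) (nat_lit 101598255) (nat_lit 304) (nat_lit 9959297671) (nat_lit 380) (nat_lit 4281247301)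 (nat_lit 118) (nat_lit 5) (nat_lit 122) (nat_lit 5) (nat_lit 123) (nat_lit 5) (nat_lit 489) (nat_lit 376) (nat_lit 275)) (XT.lf (nat_lit 0) (nat_lit 314930556) (nat_lit 380) (nat_lit 4160008467) (nat_lit 76) (nat_lit 10034629143) (nat_lit 117) (nat_lit 5) (nat_lit 122) (nat_lit 5) (nat_lit 118) (nat_lit 5) (nat_lit 490) (nat_lit 376) (nat_lit 274)))))) (XT.nd (nat_lit 390) (nat_lit 836) (nat_lit 0) (XT.nd (nat_lit 156) (nat_lit 608) (nat_lit 0) (XT.nd (nat_lit 78) (nat_lit 304) (nat_lit 0) (XT.lf (nat_lit 0) (nat_lit 4968114381) (nat_lit 304) (nat_lit 8555522715) (nat_lit 76) (nat_lit 1155690363) (nat_lit 114) (nat_lit 5) (nat_lit 118) (nat_lit 5) (nat_lit 115) (nat_lit 5) (nat_lit 491) (nat_lit 376) (nat_lit 273)) (XT.lf (nat_lit 0) (nat_lit 1768387937) (nat_lit 304) (nat_lit 7990235465) (nat_lit 380) (nat_lit 5092973303) (nat_lit 110) (nat_lit 5) (nat_lit 114) (nat_lit 5) (nat_lit 115) (nat_lit 5) (nat_lit 492) (nat_lit 376) (nat_lit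 272))) (XT.nd (nat_lit 78) (nat_lit 608) (nat_lit 0) (XT.lf (nat_lit 0) (nat_lit 12372285215) (nat_lit 304) (nat_lit 2305326978) (nat_lit 380) (nat_lit 349045753) (nat_lit 110) (nat_lit 5) (nat_lit 114) (nat_lit 5) (nat_lit 115) (nat_lit 5) (nat_lit 493) (nat_lit 376) (nat_lit 271)) (XT.nd (nat_lit 78) (nat_lit 304) (nat_lit 0) (XT.lf (nat_lit 0) (nat_lit 4481615147) (nat_lit 304) (nat_lit 7210110169) (nat_lit 76) (nat_lit 3511897308) (nat_lit 106) (nat_lit 5) (nat_lit 110) (nat_lit 5) (nat_lit 107) (nat_lit 5) (nat_lit 494) (nat_lit 376) (nat_lit 270)) (XT.lf (nat_lit 0) (nat_lit 3492624960) (nat_lit 304) (nat_lit 5943145428) (nat_lit 380) (nat_lit 5947678967) (nat_lit 102) (nat_lit 5) (nat_lit 106) (nat_lit 5) (nat_lit 107) (nat_lit 5) (nat_lit 495) (nat_lit 376) (nat_lit 269))))) (XT.nd (nat_lit 156) (nat_lit 532) (nat_lit 0) (XT.nd (nat_lit 78) (nat_lit 304) (nat_lit 0) (XT.lf (nat_lit 0) (nat_lit 14465375814) (nat_lit 304) (nat_lit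 47899032) (nat_lit 380) (nat_lit 1053112454) (nat_lit 102) (nat_lit 5) (nat_lit 106) (nat_lit 5) (nat_lit 107) (nat_lit 5) (nat_lit 496) (nat_lit 376) (nat_lit 268)) (XT.lf (nat_lit 0) (nat_lit 3967815939) (nat_lit 304) (nat_lit 5822380779) (nat_lit 76) (nat_lit 5960673031) (nat_lit 98) (nat_lit 5) (nat_lit 102) (nat_lit 5) (nat_lit 99) (nat_lit 5) (nat_lit 497) (nat_lit 376) (nat_lit 267))) (XT.nd (nat_lit 78) (nat_lit 304) (nat_lit 0) (XT.lf (nat_lit 0) (nat_lit 5275094614) (nat_lit 228) (nat_lit 3818270523) (nat_lit 304) (nat_lit 6845171422) (nat_lit 95) (nat_lit 5) (nat_lit 98) (nat_lit 5) (nat_lit 99) (nat_lit 5) (nat_lit 498) (nat_lit 376) (nat_lit 266)) (XT.nd (nat_lit 78) (nat_lit 76) (nat_lit 0) (XT.lf (nat_lit 0) (nat_lit 494290879) (nat_lit 228) (nat_lit 13860802570) (nat_lit 304) (nat_lit 1774189893) (nat_lit 92) (nat_lit 5) (nat_lit 95) (nat_lit 5) (nat_lit 96) (nat_lit 5) (nat_lit 499) (nat_lit 376) (nat_lit 265)) (XT.lf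 (nat_lit 0) (nat_lit 3427372142) (nat_lit 304) (nat_lit 4391997304) (nat_lit 76) (nat_lit 8502559766) (nat_lit 91) (nat_lit 5) (nat_lit 95) (nat_lit 5) (nat_lit 92) (nat_lit 5) (nat_lit 500) (nat_lit 376) (nat_lit 264))))))) (XT.nd (nat_lit 50700) (nat_lit 0) (nat_lit 49932) (XT.nd (nat_lit 390) (nat_lit 76) (nat_lit 0) (XT.nd (nat_lit 156) (nat_lit 532) (nat_lit 0) (XT.nd (nat_lit 78) (nat_lit 228) (nat_lit 0) (XT.lf (nat_lit 0) (nat_lit 7116775734) (nat_lit 228) (nat_lit 1615536114) (nat_lit 304) (nat_lit 7785419546) (nat_lit 88) (nat_lit 5) (nat_lit 91) (nat_lit 5) (nat_lit 92) (nat_lit 5) (nat_lit 501) (nat_lit 376) (nat_lit 263)) (XT.lf (nat_lit 0) (nat_lit 2155124612) (nat_lit 228) (nat_lit 12039433408) (nat_lit 304) (nat_lit 2521867447) (nat_lit 85) (nat_lit 5) (nat_lit 88) (nat_lit 5) (nat_lit 89) (nat_lit 5) (nat_lit 502) (nat_lit 376) (nat_lit 262))) (XT.nd (nat_lit 78) (nat_lit 456) (nat_lit 0) (XT.lf (nat_lit 0) (nat_lit 2860808658)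 (nat_lit 304) (nat_lit 2918459480) (nat_lit 76) (nat_lit 11138431770) (nat_lit 84) (nat_lit 5) (nat_lit 88) (nat_lit 5) (nat_lit 85) (nat_lit 5) (nat_lit 503) (nat_lit 376) (nat_lit 261)) (XT.nd (nat_lit 78) (nat_lit 228) (nat_lit 0) (XT.lf (nat_lit 0) (nat_lit 8357719195) (nat_lit 304) (nat_lit 8107431022) (nat_lit 76) (nat_lit 656709257) (nat_lit 81) (nat_lit 5) (nat_lit 85) (nat_lit 5) (nat_lit 82) (nat_lit 5) (nat_lit 504) (nat_lit 376) (nat_lit 260)) (XT.lf (nat_lit 0) (nat_lit 3868094094) (nat_lit 228) (nat_lit 10157087715) (nat_lit 304) (nat_lit 3303708145) (nat_lit 78) (nat_lit 5) (nat_lit 81) (nat_lit 5) (nat_lit 82) (nat_lit 5) (nat_lit 505) (nat_lit 376) (nat_lit 259))))) (XT.nd (nat_lit 50076) (nat_lit 0) (nat_lit 54568) (XT.nd (nat_lit 49998) (nat_lit 0) (nat_lit 55024) (XT.lf (nat_lit 0) (nat_lit 2268527033) (nat_lit 304) (nat_lit 1401109699) (nat_lit 76) (nat_lit 13869483821) (nat_lit 77) (nat_lit 5) (nat_lit 81) (nat_lit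 5) (nat_lit 78) (nat_lit 5) (nat_lit 506) (nat_lit 376) (nat_lit 258)) (XT.lf (nat_lit 0) (nat_lit 428335771) (nat_lit 228) (nat_lit 1400644220) (nat_lit 228) (nat_lit 1400644220) (nat_lit 801) (nat_lit 4) (nat_lit 804) (nat_lit 5) (nat_lit 804) (nat_lit 4) (nat_lit 386) (nat_lit 377) (nat_lit 377))) (XT.nd (nat_lit 78) (nat_lit 380) (nat_lit 0) (XT.lf (nat_lit 0) (nat_lit 422718070) (nat_lit 304) (nat_lit 2063672652) (nat_lit 76) (nat_lit 3979211277) (nat_lit 800) (nat_lit 5) (nat_lit 804) (nat_lit 5) (nat_lit 801) (nat_lit 4) (nat_lit 387) (nat_lit 377) (nat_lit 376)) (XT.nd (nat_lit 78) (nat_lit 76) (nat_lit 0) (XT.lf (nat_lit 0) (nat_lit 1500057125) (nat_lit 304) (nat_lit 2102901446) (nat_lit 380) (nat_lit 2870168482) (nat_lit 796) (nat_lit 5) (nat_lit 800) (nat_lit 5) (nat_lit 801) (nat_lit 4) (nat_lit 388) (nat_lit 377) (nat_lit 375)) (XT.lf (nat_lit 0) (nat_lit 295380106) (nat_lit 380) (nat_lit 1367783309) (nat_lit 76) (nat_lit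 4818908086) (nat_lit 795) (nat_lit 5) (nat_lit 800) (nat_lit 5) (nat_lit 796) (nat_lit 5) (nat_lit 389) (nat_lit 377) (nat_lit 374)))))) (XT.nd (nat_lit 390) (nat_lit 3116) (nat_lit 0) (XT.nd (nat_lit 156) (nat_lit 1064) (nat_lit 0) (XT.nd (nat_lit 78) (nat_lit 76) (nat_lit 0) (XT.lf (nat_lit 0) (nat_lit 2273532067) (nat_lit 380) (nat_lit 1148876152) (nat_lit 456) (nat_lit 3069675181) (nat_lit 790) (nat_lit 5) (nat_lit 795) (nat_lit 5) (nat_lit 796) (nat_lit 5) (nat_lit 390) (nat_lit 377) (nat_lit 373)) (XT.lf (nat_lit 0) (nat_lit 40006252) (nat_lit 456) (nat_lit 544278626) (nat_lit 76) (nat_lit 5919361150) (nat_lit 789) (nat_lit 5) (nat_lit 795) (nat_lit 5) (nat_lit 790) (nat_lit 5) (nat_lit 391) (nat_lit 377) (nat_lit 372))) (XT.nd (nat_lit 78) (nat_lit 608) (nat_lit 0) (XT.lf (nat_lit 0) (nat_lit 3115901537) (nat_lit 532) (nat_lit 3338388620) (nat_lit 76) (nat_lit 61841476) (nat_lit 783) (nat_lit 5) (nat_lit 790) (nat_lit 5) (nat_lit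 784) (nat_lit 5) (nat_lit 392) (nat_lit 377) (nat_lit 371)) (XT.nd (nat_lit 78) (nat_lit 76) (nat_lit 0) (XT.lf (nat_lit 0) (nat_lit 406175089) (nat_lit 532) (nat_lit 5782738704) (nat_lit 608) (nat_lit 341241175) (nat_lit 776) (nat_lit 5) (nat_lit 783) (nat_lit 5) (nat_lit 784) (nat_lit 5) (nat_lit 393) (nat_lit 377) (nat_lit 370)) (XT.lf (nat_lit 0) (nat_lit 2691114210) (nat_lit 608) (nat_lit 2340032514) (nat_lit 76) (nat_lit 1513978538) (nat_lit 775) (nat_lit 5) (nat_lit 783) (nat_lit 5) (nat_lit 776) (nat_lit 5) (nat_lit 394) (nat_lit 377) (nat_lit 369))))) (XT.nd (nat_lit 234) (nat_lit 1748) (nat_lit 0) (XT.nd (nat_lit 78) (nat_lit 760) (nat_lit 0) (XT.lf (nat_lit 0) (nat_lit 1489105380) (nat_lit 608) (nat_lit 4227646123) (nat_lit 684) (nat_lit 844854266) (nat_lit 767) (nat_lit 5) (nat_lit 775) (nat_lit 5) (nat_lit 776) (nat_lit 5) (nat_lit 395) (nat_lit 377) (nat_lit 368)) (XT.nd (nat_lit 78) (nat_lit 684) (nat_lit 0) (XT.lf (nat_lit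 0) (nat_lit 2139289812) (nat_lit 684) (nat_lit 1214501656) (nat_lit 76) (nat_lit 3225455986) (nat_lit 766) (nat_lit 5) (nat_lit 775) (nat_lit 5) (nat_lit 767) (nat_lit 5) (nat_lit 396) (nat_lit 377) (nat_lit 367)) (XT.lf (nat_lit 0) (nat_lit 2703063360) (nat_lit 684) (nat_lit 2415881709) (nat_lit 760) (nat_lit 1479242398) (nat_lit 757) (nat_lit 5) (nat_lit 766) (nat_lit 5) (nat_lit 767) (nat_lit 5) (nat_lit 397) (nat_lit 377) (nat_lit 366)))) (XT.nd (nat_lit 78) (nat_lit 912) (nat_lit 0) (XT.lf (nat_lit 0) (nat_lit 40508136) (nat_lit 760) (nat_lit 1418635281) (nat_lit 836) (nat_lit 5159389546) (nat_lit 746) (nat_lit 5) (nat_lit 756) (nat_lit 5) (nat_lit 757) (nat_lit 5) (nat_lit 398) (nat_lit 377) (nat_lit 365)) (XT.nd (nat_lit 78) (nat_lit 912) (nat_lit 0) (XT.lf (nat_lit 0) (nat_lit 4049976898) (nat_lit 760) (nat_lit 343859820) (nat_lit 836) (nat_lit 2246106159) (nat_lit 746) (nat_lit 5) (nat_lit 756) (nat_lit 5) (nat_lit 757) (nat_lit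 5) (nat_lit 399) (nat_lit 377) (nat_lit 364)) (XT.lf (nat_lit 0) (nat_lit 662571586) (nat_lit 912) (nat_lit 5223592477) (nat_lit 76) (nat_lit 776589864) (nat_lit 734) (nat_lit 5) (nat_lit 746) (nat_lit 5) (nat_lit 735) (nat_lit 5) (nat_lit 400) (nat_lit 377) (nat_lit 363))))))))
noncomputable def xc93 : XT := (XT.nd (nat_lit 1638) (nat_lit 12692) (nat_lit 0) (XT.nd (nat_lit 780) (nat_lit 11476) (nat_lit 0) (XT.nd (nat_lit 390) (nat_lit 3800) (nat_lit 0) (XT.nd (nat_lit 156) (nat_lit 2204) (nat_lit 0) (XT.nd (nat_lit 78) (nat_lit 912) (nat_lit 0) (XT.lf (nat_lit 0) (nat_lit 3552452638) (nat_lit 912) (nat_lit 1167824721) (nat_lit 76) (nat_lit 1966384803) (nat_lit 734) (nat_lit 5) (nat_lit 746) (nat_lit 5) (nat_lit 735) (nat_lit 5) (nat_lit 401) (nat_lit 377) (nat_lit 362)) (XT.lf (nat_lit 0) (nat_lit 2959974048) (nat_lit 912) (nat_lit 3493987776) (nat_lit 988) (nat_lit 258010126) (nat_lit 722) (nat_lit 5) (nat_lit 734) (nat_lit 5) (nat_lit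 735) (nat_lit 5) (nat_lit 402) (nat_lit 377) (nat_lit 361))) (XT.nd (nat_lit 78) (nat_lit 1140) (nat_lit 0) (XT.lf (nat_lit 0) (nat_lit 387737129) (nat_lit 988) (nat_lit 2198448672) (nat_lit 1064) (nat_lit 4152343385) (nat_lit 708) (nat_lit 5) (nat_lit 721) (nat_lit 5) (nat_lit 722) (nat_lit 5) (nat_lit 403) (nat_lit 377) (nat_lit 360)) (XT.nd (nat_lit 78) (nat_lit 1140) (nat_lit 0) (XT.lf (nat_lit 0) (nat_lit 4611262086) (nat_lit 988) (nat_lit 833836498) (nat_lit 1064) (nat_lit 1321259118) (nat_lit 708) (nat_lit 5) (nat_lit 721) (nat_lit 5) (nat_lit 722) (nat_lit 5) (nat_lit 404) (nat_lit 377) (nat_lit 359)) (XT.lf (nat_lit 0) (nat_lit 1500330677) (nat_lit 1140) (nat_lit 4705628763) (nat_lit 76) (nat_lit 589491378) (nat_lit 693) (nat_lit 5) (nat_lit 708) (nat_lit 5) (nat_lit 694) (nat_lit 5) (nat_lit 405) (nat_lit 377) (nat_lit 358))))) (XT.nd (nat_lit 156) (nat_lit 2584) (nat_lit 0) (XT.nd (nat_lit 78) (nat_lit 1216) (nat_lit 0) (XT.lf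 (nat_lit 0) (nat_lit 4318732427) (nat_lit 1140) (nat_lit 439400216) (nat_lit 76) (nat_lit 2067657049) (nat_lit 693) (nat_lit 5) (nat_lit 708) (nat_lit 5) (nat_lit 694) (nat_lit 5) (nat_lit 406) (nat_lit 377) (nat_lit 357)) (XT.lf (nat_lit 0) (nat_lit 296729009) (nat_lit 1216) (nat_lit 2943975905) (nat_lit 76) (nat_lit 3616699119) (nat_lit 677) (nat_lit 5) (nat_lit 693) (nat_lit 5) (nat_lit 678) (nat_lit 5) (nat_lit 407) (nat_lit 377) (nat_lit 356))) (XT.nd (nat_lit 78) (nat_lit 1368) (nat_lit 0) (XT.lf (nat_lit 0) (nat_lit 1423149536) (nat_lit 1216) (nat_lit 1651788580) (nat_lit 1292) (nat_lit 3815342780) (nat_lit 661) (nat_lit 5) (nat_lit 677) (nat_lit 5) (nat_lit 678) (nat_lit 5) (nat_lit 408) (nat_lit 377) (nat_lit 355)) (XT.nd (nat_lit 78) (nat_lit 1368) (nat_lit 0) (XT.lf (nat_lit 0) (nat_lit 5869015306) (nat_lit 1292) (nat_lit 1055337847) (nat_lit 76) (nat_lit 256066) (nat_lit 661) (nat_lit 5) (nat_lit 678) (nat_lit 5) (nat_lit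 662) (nat_lit 5) (nat_lit 409) (nat_lit 377) (nat_lit 354)) (XT.lf (nat_lit 0) (nat_lit 1711103904) (nat_lit 1368) (nat_lit 3541183021) (nat_lit 76) (nat_lit 1707612163) (nat_lit 643) (nat_lit 5) (nat_lit 661) (nat_lit 5) (nat_lit 644) (nat_lit 5) (nat_lit 410) (nat_lit 377) (nat_lit 353)))))) (XT.nd (nat_lit 390) (nat_lit 6992) (nat_lit 0) (XT.nd (nat_lit 156) (nat_lit 3040) (nat_lit 0) (XT.nd (nat_lit 78) (nat_lit 76) (nat_lit 0) (XT.lf (nat_lit 0) (nat_lit 957331223) (nat_lit 1368) (nat_lit 3517259668) (nat_lit 1444) (nat_lit 2522052520) (nat_lit 625) (nat_lit 5) (nat_lit 643) (nat_lit 5) (nat_lit 644) (nat_lit 5) (nat_lit 411) (nat_lit 377) (nat_lit 352)) (XT.lf (nat_lit 0) (nat_lit 222417351) (nat_lit 1444) (nat_lit 1491100018) (nat_lit 76) (nat_lit 5321239749) (nat_lit 624) (nat_lit 5) (nat_lit 643) (nat_lit 5) (nat_lit 625) (nat_lit 5) (nat_lit 412) (nat_lit 377) (nat_lit 351))) (XT.nd (nat_lit 78) (nat_lit 1596) (nat_lit 0) (XT.lf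 (nat_lit 0) (nat_lit 2953231113) (nat_lit 1520) (nat_lit 3951248805) (nat_lit 76) (nat_lit 169515271) (nat_lit 605) (nat_lit 5) (nat_lit 625) (nat_lit 5) (nat_lit 606) (nat_lit 5) (nat_lit 413) (nat_lit 377) (nat_lit 350)) (XT.nd (nat_lit 78) (nat_lit 76) (nat_lit 0) (XT.lf (nat_lit 0) (nat_lit 683517319) (nat_lit 1520) (nat_lit 5025634158) (nat_lit 1596) (nat_lit 1405456735) (nat_lit 585) (nat_lit 5) (nat_lit 605) (nat_lit 5) (nat_lit 606) (nat_lit 5) (nat_lit 414) (nat_lit 377) (nat_lit 349)) (XT.lf (nat_lit 0) (nat_lit 1317994583) (nat_lit 1596) (nat_lit 1749700049) (nat_lit 76) (nat_lit 4088727146) (nat_lit 584) (nat_lit 5) (nat_lit 605) (nat_lit 5) (nat_lit 585) (nat_lit 5) (nat_lit 415) (nat_lit 377) (nat_lit 348))))) (XT.nd (nat_lit 234) (nat_lit 3648) (nat_lit 0) (XT.nd (nat_lit 78) (nat_lit 1748) (nat_lit 0) (XT.lf (nat_lit 0) (nat_lit 3006715918) (nat_lit 1596) (nat_lit 1036035247) (nat_lit 1672) (nat_lit 3156821542) (nat_lit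 563) (nat_lit 5) (nat_lit 584) (nat_lit 5) (nat_lit 585) (nat_lit 5) (nat_lit 416) (nat_lit 377) (nat_lit 347)) (XT.nd (nat_lit 78) (nat_lit 76) (nat_lit 0) (XT.lf (nat_lit 0) (nat_lit 590057264) (nat_lit 1672) (nat_lit 6201212993) (nat_lit 1748) (nat_lit 452931051) (nat_lit 541) (nat_lit 5) (nat_lit 563) (nat_lit 5) (nat_lit 564) (nat_lit 5) (nat_lit 417) (nat_lit 377) (nat_lit 346)) (XT.lf (nat_lit 0) (nat_lit 2257254302) (nat_lit 1748) (nat_lit 1835585000) (nat_lit 76) (nat_lit 3196934900) (nat_lit 540) (nat_lit 5) (nat_lit 563) (nat_lit 5) (nat_lit 541) (nat_lit 5) (nat_lit 418) (nat_lit 377) (nat_lit 345)))) (XT.nd (nat_lit 78) (nat_lit 1900) (nat_lit 0) (XT.lf (nat_lit 0) (nat_lit 3067680033) (nat_lit 1748) (nat_lit 1916119959) (nat_lit 1824) (nat_lit 2353034257) (nat_lit 517) (nat_lit 5) (nat_lit 540) (nat_lit 5) (nat_lit 541) (nat_lit 5) (nat_lit 419) (nat_lit 377) (nat_lit 344)) (XT.nd (nat_lit 78) (nat_lit 0) (nat_lit 0) (XT.lf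 (nat_lit 0) (nat_lit 342555874) (nat_lit 1900) (nat_lit 6721361379) (nat_lit 76) (nat_lit 321518914) (nat_lit 492) (nat_lit 5) (nat_lit 517) (nat_lit 5) (nat_lit 493) (nat_lit 5) (nat_lit 420) (nat_lit 377) (nat_lit 343)) (XT.lf (nat_lit 0) (nat_lit 3051466665) (nat_lit 1900) (nat_lit 1759021073) (nat_lit 76) (nat_lit 2624392994) (nat_lit 492) (nat_lit 5) (nat_lit 517) (nat_lit 5) (nat_lit 493) (nat_lit 5) (nat_lit 421) (nat_lit 377) (nat_lit 342))))))) (XT.nd (nat_lit 780) (nat_lit 6080) (nat_lit 0) (XT.nd (nat_lit 390) (nat_lit 2660) (nat_lit 0) (XT.nd (nat_lit 156) (nat_lit 1824) (nat_lit 0) (XT.nd (nat_lit 78) (nat_lit 988) (nat_lit 0) (XT.lf (nat_lit 0) (nat_lit 3296824555) (nat_lit 1140) (nat_lit 2489488253) (nat_lit 1216) (nat_lit 1699566238) (nat_lit 477) (nat_lit 5) (nat_lit 492) (nat_lit 5) (nat_lit 493) (nat_lit 5) (nat_lit 422) (nat_lit 377) (nat_lit 341)) (XT.lf (nat_lit 0) (nat_lit 895585252) (nat_lit 912) (nat_lit 97142241)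 (nat_lit 988) (nat_lit 6545667412) (nat_lit 464) (nat_lit 5) (nat_lit 476) (nat_lit 5) (nat_lit 477) (nat_lit 5) (nat_lit 423) (nat_lit 377) (nat_lit 340))) (XT.nd (nat_lit 78) (nat_lit 1824) (nat_lit 0) (XT.lf (nat_lit 0) (nat_lit 3710972637) (nat_lit 988) (nat_lit 1529311408) (nat_lit 76) (nat_lit 2351555097) (nat_lit 464) (nat_lit 5) (nat_lit 477) (nat_lit 5) (nat_lit 465) (nat_lit 5) (nat_lit 424) (nat_lit 377) (nat_lit 339)) (XT.nd (nat_lit 78) (nat_lit 912) (nat_lit 0) (XT.lf (nat_lit 0) (nat_lit 3685164817) (nat_lit 912) (nat_lit 2775273898) (nat_lit 988) (nat_lit 1186376430) (nat_lit 452) (nat_lit 5) (nat_lit 464) (nat_lit 5) (nat_lit 465) (nat_lit 5) (nat_lit 425) (nat_lit 377) (nat_lit 338)) (XT.lf (nat_lit 0) (nat_lit 1279255488) (nat_lit 836) (nat_lit 233492159) (nat_lit 912) (nat_lit 6190515586) (nat_lit 440) (nat_lit 5) (nat_lit 451) (nat_lit 5) (nat_lit 452) (nat_lit 5) (nat_lit 426) (nat_lit 377) (nat_lit 337))))) (XT.nd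 (nat_lit 156) (nat_lit 1748) (nat_lit 0) (XT.nd (nat_lit 78) (nat_lit 912) (nat_lit 0) (XT.lf (nat_lit 0) (nat_lit 4245252772) (nat_lit 912) (nat_lit 1154863376) (nat_lit 76) (nat_lit 2360661613) (nat_lit 440) (nat_lit 5) (nat_lit 452) (nat_lit 5) (nat_lit 441) (nat_lit 5) (nat_lit 427) (nat_lit 377) (nat_lit 336)) (XT.lf (nat_lit 0) (nat_lit 4224616771) (nat_lit 912) (nat_lit 2790875836) (nat_lit 988) (nat_lit 804288279) (nat_lit 428) (nat_lit 5) (nat_lit 440) (nat_lit 5) (nat_lit 441) (nat_lit 5) (nat_lit 428) (nat_lit 377) (nat_lit 335))) (XT.nd (nat_lit 78) (nat_lit 836) (nat_lit 0) (XT.lf (nat_lit 0) (nat_lit 1809284713) (nat_lit 836) (nat_lit 100109065) (nat_lit 912) (nat_lit 5970836797) (nat_lit 416) (nat_lit 5) (nat_lit 427) (nat_lit 5) (nat_lit 428) (nat_lit 5) (nat_lit 429) (nat_lit 377) (nat_lit 334)) (XT.nd (nat_lit 78) (nat_lit 836) (nat_lit 0) (XT.lf (nat_lit 0) (nat_lit 4662990664) (nat_lit 912) (nat_lit 643250464) (nat_lit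 76) (nat_lit 2635613592) (nat_lit 416) (nat_lit 5) (nat_lit 428) (nat_lit 5) (nat_lit 417) (nat_lit 5) (nat_lit 430) (nat_lit 377) (nat_lit 333)) (XT.lf (nat_lit 0) (nat_lit 4907935925) (nat_lit 836) (nat_lit 2552081178) (nat_lit 912) (nat_lit 544927091) (nat_lit 405) (nat_lit 5) (nat_lit 416) (nat_lit 5) (nat_lit 417) (nat_lit 5) (nat_lit 431) (nat_lit 377) (nat_lit 332)))))) (XT.nd (nat_lit 390) (nat_lit 2888) (nat_lit 0) (XT.nd (nat_lit 156) (nat_lit 2356) (nat_lit 0) (XT.nd (nat_lit 78) (nat_lit 0) (nat_lit 0) (XT.lf (nat_lit 0) (nat_lit 2192659634) (nat_lit 836) (nat_lit 5592806145) (nat_lit 76) (nat_lit 283970381) (nat_lit 394) (nat_lit 5) (nat_lit 405) (nat_lit 5) (nat_lit 395) (nat_lit 5) (nat_lit 432) (nat_lit 377) (nat_lit 331)) (XT.lf (nat_lit 0) (nat_lit 4972131465) (nat_lit 836) (nat_lit 1269181) (nat_lit 76) (nat_lit 3161856680) (nat_lit 394) (nat_lit 5) (nat_lit 405) (nat_lit 5) (nat_lit 395) (nat_lit 5) (nat_lit 433) (nat_lit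 377) (nat_lit 330))) (XT.nd (nat_lit 78) (nat_lit 1596) (nat_lit 0) (XT.lf (nat_lit 0) (nat_lit 5728661265) (nat_lit 760) (nat_lit 2073178419) (nat_lit 836) (nat_lit 400662293) (nat_lit 384) (nat_lit 5) (nat_lit 394) (nat_lit 5) (nat_lit 395) (nat_lit 5) (nat_lit 434) (nat_lit 377) (nat_lit 329)) (XT.nd (nat_lit 78) (nat_lit 760) (nat_lit 0) (XT.lf (nat_lit 0) (nat_lit 2370303602) (nat_lit 836) (nat_lit 4996509878) (nat_lit 76) (nat_lit 904265116) (nat_lit 373) (nat_lit 5) (nat_lit 384) (nat_lit 5) (nat_lit 374) (nat_lit 5) (nat_lit 435) (nat_lit 377) (nat_lit 328)) (XT.lf (nat_lit 0) (nat_lit 775175233) (nat_lit 760) (nat_lit 4409793560) (nat_lit 836) (nat_lit 3156132091) (nat_lit 363) (nat_lit 5) (nat_lit 373) (nat_lit 5) (nat_lit 374) (nat_lit 5) (nat_lit 436) (nat_lit 377) (nat_lit 327))))) (XT.nd (nat_lit 234) (nat_lit 1444) (nat_lit 0) (XT.nd (nat_lit 78) (nat_lit 1444) (nat_lit 0) (XT.lf (nat_lit 0) (nat_lit 6681063782) (nat_lit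 760) (nat_lit 1367061614) (nat_lit 836) (nat_lit 364554259) (nat_lit 363) (nat_lit 5) (nat_lit 373) (nat_lit 5) (nat_lit 374) (nat_lit 5) (nat_lit 437) (nat_lit 377) (nat_lit 326)) (XT.nd (nat_lit 78) (nat_lit 684) (nat_lit 0) (XT.lf (nat_lit 0) (nat_lit 2448348787) (nat_lit 760) (nat_lit 4287216391) (nat_lit 76) (nat_lit 1749841282) (nat_lit 353) (nat_lit 5) (nat_lit 363) (nat_lit 5) (nat_lit 354) (nat_lit 5) (nat_lit 438) (nat_lit 377) (nat_lit 325)) (XT.lf (nat_lit 0) (nat_lit 1672118134) (nat_lit 684) (nat_lit 3631768077) (nat_lit 760) (nat_lit 3255828243) (nat_lit 344) (nat_lit 5) (nat_lit 353) (nat_lit 5) (nat_lit 354) (nat_lit 5) (nat_lit 439) (nat_lit 377) (nat_lit 324)))) (XT.nd (nat_lit 78) (nat_lit 1444) (nat_lit 0) (XT.lf (nat_lit 0) (nat_lit 7760099283) (nat_lit 684) (nat_lit 445326170) (nat_lit 760) (nat_lit 430305332) (nat_lit 344) (nat_lit 5) (nat_lit 353) (nat_lit 5) (nat_lit 354) (nat_lit 5) (nat_lit 440) (nat_lit 377)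 (nat_lit 323)) (XT.nd (nat_lit 78) (nat_lit 684) (nat_lit 0) (XT.lf (nat_lit 0) (nat_lit 2432863500) (nat_lit 760) (nat_lit 3470102330) (nat_lit 76) (nat_lit 2809717441) (nat_lit 334) (nat_lit 5) (nat_lit 344) (nat_lit 5) (nat_lit 335) (nat_lit 5) (nat_lit 441) (nat_lit 377) (nat_lit 322)) (XT.lf (nat_lit 0) (nat_lit 2684716963) (nat_lit 684) (nat_lit 2650164081) (nat_lit 760) (nat_lit 3456489935) (nat_lit 325) (nat_lit 5) (nat_lit 334) (nat_lit 5) (nat_lit 335) (nat_lit 5) (nat_lit 442) (nat_lit 377) (nat_lit 321))))))))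
noncomputable def xc94 : XT := (XT.nd (nat_lit 1560) (nat_lit 6004) (nat_lit 0) (XT.nd (nat_lit 780) (nat_lit 3800) (nat_lit 0) (XT.nd (nat_lit 390) (nat_lit 2356) (nat_lit 0) (XT.nd (nat_lit 156) (nat_lit 1292) (nat_lit 0) (XT.nd (nat_lit 78) (nat_lit 76) (nat_lit 0) (XT.lf (nat_lit 0) (nat_lit 86132334) (nat_lit 608) (nat_lit 8198574615) (nat_lit 684) (nat_lit 587130132) (nat_lit 317) (nat_lit 5) (nat_lit 325) (nat_lit 5) (nat_lit 326) (nat_lit 5) (nat_lit 443) (nat_lit 377) (nat_lit 320)) (XT.lf (nat_lit 0) (nat_lit 2329354208) (nat_lit 684) (nat_lit 2549753345) (nat_lit 76) (nat_lit 4074092708) (nat_lit 316) (nat_lit 5) (nat_lit 325) (nat_lit 5) (nat_lit 317) (nat_lit 5) (nat_lit 444) (nat_lit 377) (nat_lit 319))) (XT.nd (nat_lit 78) (nat_lit 684) (nat_lit 0) (XT.lf (nat_lit 0) (nat_lit 3808746247) (nat_lit 608) (nat_lit 1474669941) (nat_lit 684) (nat_lit 3752954706) (nat_lit 308) (nat_lit 5) (nat_lit 316) (nat_lit 5) (nat_lit 317)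 (nat_lit 5) (nat_lit 445) (nat_lit 377) (nat_lit 318)) (XT.nd (nat_lit 78) (nat_lit 76) (nat_lit 0) (XT.lf (nat_lit 0) (nat_lit 1161674494) (nat_lit 608) (nat_lit 7135352630) (nat_lit 684) (nat_lit 824168460) (nat_lit 300) (nat_lit 5) (nat_lit 308) (nat_lit 5) (nat_lit 309) (nat_lit 5) (nat_lit 446) (nat_lit 377) (nat_lit 317)) (XT.lf (nat_lit 0) (nat_lit 2142805047) (nat_lit 684) (nat_lit 1530202287) (nat_lit 76) (nat_lit 5534268894) (nat_lit 299) (nat_lit 5) (nat_lit 308) (nat_lit 5) (nat_lit 300) (nat_lit 5) (nat_lit 447) (nat_lit 377) (nat_lit 316))))) (XT.nd (nat_lit 156) (nat_lit 1216) (nat_lit 0) (XT.nd (nat_lit 78) (nat_lit 532) (nat_lit 0) (XT.lf (nat_lit 0) (nat_lit 5040543305) (nat_lit 608) (nat_lit 113907099) (nat_lit 684) (nat_lit 4140591763) (nat_lit 291) (nat_lit 5) (nat_lit 299) (nat_lit 5) (nat_lit 300) (nat_lit 5) (nat_lit 448) (nat_lit 377) (nat_lit 315)) (XT.lf (nat_lit 0) (nat_lit 2338723142) (nat_lit 532) (nat_lit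 5899918190) (nat_lit 608) (nat_lit 1145675842) (nat_lit 284) (nat_lit 5) (nat_lit 291) (nat_lit 5) (nat_lit 292) (nat_lit 5) (nat_lit 449) (nat_lit 377) (nat_lit 314))) (XT.nd (nat_lit 78) (nat_lit 1140) (nat_lit 0) (XT.lf (nat_lit 0) (nat_lit 1877714175) (nat_lit 608) (nat_lit 414964203) (nat_lit 76) (nat_lit 7182579105) (nat_lit 283) (nat_lit 5) (nat_lit 291) (nat_lit 5) (nat_lit 284) (nat_lit 5) (nat_lit 450) (nat_lit 377) (nat_lit 313)) (XT.nd (nat_lit 78) (nat_lit 532) (nat_lit 0) (XT.lf (nat_lit 0) (nat_lit 4961722708) (nat_lit 684) (nat_lit 3200015063) (nat_lit 76) (nat_lit 1405817543) (nat_lit 275) (nat_lit 5) (nat_lit 284) (nat_lit 5) (nat_lit 276) (nat_lit 5) (nat_lit 451) (nat_lit 377) (nat_lit 312)) (XT.lf (nat_lit 0) (nat_lit 3614218859) (nat_lit 532) (nat_lit 4499774219) (nat_lit 608) (nat_lit 1547574389) (nat_lit 268) (nat_lit 5) (nat_lit 275) (nat_lit 5) (nat_lit 276) (nat_lit 5) (nat_lit 452) (nat_lit 377) (nat_lit 311))))))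 (XT.nd (nat_lit 390) (nat_lit 2052) (nat_lit 0) (XT.nd (nat_lit 156) (nat_lit 1140) (nat_lit 0) (XT.nd (nat_lit 78) (nat_lit 0) (nat_lit 0) (XT.lf (nat_lit 0) (nat_lit 803469287) (nat_lit 532) (nat_lit 739874580) (nat_lit 608) (nat_lit 8214069688) (nat_lit 260) (nat_lit 5) (nat_lit 267) (nat_lit 5) (nat_lit 268) (nat_lit 5) (nat_lit 453) (nat_lit 377) (nat_lit 310)) (XT.lf (nat_lit 0) (nat_lit 4701888211) (nat_lit 608) (nat_lit 2059793792) (nat_lit 76) (nat_lit 3092759379) (nat_lit 260) (nat_lit 5) (nat_lit 268) (nat_lit 5) (nat_lit 261) (nat_lit 5) (nat_lit 454) (nat_lit 377) (nat_lit 309))) (XT.nd (nat_lit 78) (nat_lit 608) (nat_lit 0) (XT.lf (nat_lit 0) (nat_lit 4985577626) (nat_lit 532) (nat_lit 2941535019) (nat_lit 608) (nat_lit 2026226934) (nat_lit 253) (nat_lit 5) (nat_lit 260) (nat_lit 5) (nat_lit 261) (nat_lit 5) (nat_lit 455) (nat_lit 377) (nat_lit 308)) (XT.nd (nat_lit 78) (nat_lit 0) (nat_lit 0) (XT.lf (nat_lit 0) (nat_lit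 1147769091) (nat_lit 608) (nat_lit 7941829327) (nat_lit 76) (nat_lit 964458526) (nat_lit 245) (nat_lit 5) (nat_lit 253) (nat_lit 5) (nat_lit 246) (nat_lit 5) (nat_lit 456) (nat_lit 377) (nat_lit 307)) (XT.lf (nat_lit 0) (nat_lit 4377818314) (nat_lit 608) (nat_lit 835636432) (nat_lit 76) (nat_lit 4942671954) (nat_lit 245) (nat_lit 5) (nat_lit 253) (nat_lit 5) (nat_lit 246) (nat_lit 5) (nat_lit 457) (nat_lit 377) (nat_lit 306))))) (XT.nd (nat_lit 156) (nat_lit 988) (nat_lit 0) (XT.nd (nat_lit 78) (nat_lit 608) (nat_lit 0) (XT.lf (nat_lit 0) (nat_lit 6450663354) (nat_lit 456) (nat_lit 1230982897) (nat_lit 532) (nat_lit 2578408045) (nat_lit 239) (nat_lit 5) (nat_lit 245) (nat_lit 5) (nat_lit 246) (nat_lit 5) (nat_lit 458) (nat_lit 377) (nat_lit 305)) (XT.lf (nat_lit 0) (nat_lit 690948565) (nat_lit 608) (nat_lit 6861519793) (nat_lit 76) (nat_lit 2813214102) (nat_lit 231) (nat_lit 5) (nat_lit 239) (nat_lit 5) (nat_lit 232) (nat_lit 5) (nat_lit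 459) (nat_lit 377) (nat_lit 304))) (XT.nd (nat_lit 78) (nat_lit 532) (nat_lit 0) (XT.lf (nat_lit 0) (nat_lit 476576127) (nat_lit 456) (nat_lit 3519269431) (nat_lit 532) (nat_lit 6477143200) (nat_lit 225) (nat_lit 5) (nat_lit 231) (nat_lit 5) (nat_lit 232) (nat_lit 5) (nat_lit 460) (nat_lit 377) (nat_lit 303)) (XT.nd (nat_lit 78) (nat_lit 532) (nat_lit 0) (XT.lf (nat_lit 0) (nat_lit 7384953017) (nat_lit 532) (nat_lit 2578467567) (nat_lit 76) (nat_lit 618658348) (nat_lit 225) (nat_lit 5) (nat_lit 232) (nat_lit 5) (nat_lit 226) (nat_lit 5) (nat_lit 461) (nat_lit 377) (nat_lit 302)) (XT.lf (nat_lit 0) (nat_lit 170899700) (nat_lit 532) (nat_lit 5710400202) (nat_lit 76) (nat_lit 4811544616) (nat_lit 218) (nat_lit 5) (nat_lit 225) (nat_lit 5) (nat_lit 219) (nat_lit 5) (nat_lit 462) (nat_lit 377) (nat_lit 301))))))) (XT.nd (nat_lit 780) (nat_lit 2888) (nat_lit 0) (XT.nd (nat_lit 390) (nat_lit 1292) (nat_lit 0) (XT.nd (nat_lit 156) (nat_lit 1368)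 (nat_lit 0) (XT.nd (nat_lit 78) (nat_lit 0) (nat_lit 0) (XT.lf (nat_lit 0) (nat_lit 1881017531) (nat_lit 456) (nat_lit 1680773225) (nat_lit 532) (nat_lit 7243645710) (nat_lit 212) (nat_lit 5) (nat_lit 218) (nat_lit 5) (nat_lit 219) (nat_lit 5) (nat_lit 463) (nat_lit 377) (nat_lit 300)) (XT.lf (nat_lit 0) (nat_lit 7044840363) (nat_lit 532) (nat_lit 1281632677) (nat_lit 76) (nat_lit 2593320400) (nat_lit 212) (nat_lit 5) (nat_lit 219) (nat_lit 5) (nat_lit 213) (nat_lit 5) (nat_lit 464) (nat_lit 377) (nat_lit 299))) (XT.nd (nat_lit 78) (nat_lit 912) (nat_lit 0) (XT.lf (nat_lit 0) (nat_lit 6542975680) (nat_lit 456) (nat_lit 4077659919) (nat_lit 532) (nat_lit 415340260) (nat_lit 206) (nat_lit 5) (nat_lit 212) (nat_lit 5) (nat_lit 213) (nat_lit 5) (nat_lit 465) (nat_lit 377) (nat_lit 298)) (XT.nd (nat_lit 78) (nat_lit 456) (nat_lit 0) (XT.lf (nat_lit 0) (nat_lit 3074612384) (nat_lit 456) (nat_lit 7790790932) (nat_lit 76) (nat_lit 288634693)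 (nat_lit 200) (nat_lit 5) (nat_lit 206) (nat_lit 5) (nat_lit 201) (nat_lit 5) (nat_lit 466) (nat_lit 377) (nat_lit 297)) (XT.lf (nat_lit 0) (nat_lit 88855785) (nat_lit 456) (nat_lit 6567660429) (nat_lit 532) (nat_lit 4617336010) (nat_lit 194) (nat_lit 5) (nat_lit 200) (nat_lit 5) (nat_lit 201) (nat_lit 5) (nat_lit 467) (nat_lit 377) (nat_lit 296))))) (XT.nd (nat_lit 156) (nat_lit 836) (nat_lit 0) (XT.nd (nat_lit 78) (nat_lit 456) (nat_lit 0) (XT.lf (nat_lit 0) (nat_lit 8185984801) (nat_lit 456) (nat_lit 2146426402) (nat_lit 532) (nat_lit 1063204456) (nat_lit 194) (nat_lit 5) (nat_lit 200) (nat_lit 5) (nat_lit 201) (nat_lit 5) (nat_lit 468) (nat_lit 377) (nat_lit 295)) (XT.lf (nat_lit 0) (nat_lit 2546433737) (nat_lit 456) (nat_lit 6606969616) (nat_lit 76) (nat_lit 2365717822) (nat_lit 188) (nat_lit 5) (nat_lit 194) (nat_lit 5) (nat_lit 189) (nat_lit 5) (nat_lit 469) (nat_lit 377) (nat_lit 294))) (XT.nd (nat_lit 78) (nat_lit 456) (nat_lit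 0) (XT.lf (nat_lit 0) (nat_lit 1548725614) (nat_lit 380) (nat_lit 4681918168) (nat_lit 456) (nat_lit 5413980156) (nat_lit 183) (nat_lit 5) (nat_lit 188) (nat_lit 5) (nat_lit 189) (nat_lit 5) (nat_lit 470) (nat_lit 377) (nat_lit 293)) (XT.nd (nat_lit 78) (nat_lit 456) (nat_lit 0) (XT.lf (nat_lit 0) (nat_lit 9911993924) (nat_lit 380) (nat_lit 91814036) (nat_lit 456) (nat_lit 1768523396) (nat_lit 183) (nat_lit 5) (nat_lit 188) (nat_lit 5) (nat_lit 189) (nat_lit 5) (nat_lit 471) (nat_lit 377) (nat_lit 292)) (XT.lf (nat_lit 0) (nat_lit 1968298956) (nat_lit 456) (nat_lit 5363295895) (nat_lit 76) (nat_lit 4569864300) (nat_lit 177) (nat_lit 5) (nat_lit 183) (nat_lit 5) (nat_lit 178) (nat_lit 5) (nat_lit 472) (nat_lit 377) (nat_lit 291)))))) (XT.nd (nat_lit 390) (nat_lit 1444) (nat_lit 0) (XT.nd (nat_lit 156) (nat_lit 1064) (nat_lit 0) (XT.nd (nat_lit 78) (nat_lit 0) (nat_lit 0) (XT.lf (nat_lit 0) (nat_lit 3080156975) (nat_lit 380) (nat_lit 2680701884)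 (nat_lit 456) (nat_lit 6271983211) (nat_lit 172) (nat_lit 5) (nat_lit 177) (nat_lit 5) (nat_lit 178) (nat_lit 5) (nat_lit 473) (nat_lit 377) (nat_lit 290)) (XT.lf (nat_lit 0) (nat_lit 9650546034) (nat_lit 456) (nat_lit 459520614) (nat_lit 76) (nat_lit 2056360477) (nat_lit 172) (nat_lit 5) (nat_lit 178) (nat_lit 5) (nat_lit 173) (nat_lit 5) (nat_lit 474) (nat_lit 377) (nat_lit 289))) (XT.nd (nat_lit 78) (nat_lit 684) (nat_lit 0) (XT.lf (nat_lit 0) (nat_lit 1341904487) (nat_lit 380) (nat_lit 4060741075) (nat_lit 76) (nat_lit 6898991271) (nat_lit 167) (nat_lit 5) (nat_lit 172) (nat_lit 5) (nat_lit 168) (nat_lit 5) (nat_lit 475) (nat_lit 377) (nat_lit 288)) (XT.nd (nat_lit 78) (nat_lit 304) (nat_lit 0) (XT.lf (nat_lit 0) (nat_lit 4682661441) (nat_lit 380) (nat_lit 566320977) (nat_lit 456) (nat_lit 7190119231) (nat_lit 162) (nat_lit 5) (nat_lit 167) (nat_lit 5) (nat_lit 168) (nat_lit 5) (nat_lit 476) (nat_lit 377) (nat_lit 287)) (XT.lf (nat_lit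 0) (nat_lit 1017737972) (nat_lit 304) (nat_lit 8251291845) (nat_lit 380) (nat_lit 3309589386) (nat_lit 158) (nat_lit 5) (nat_lit 162) (nat_lit 5) (nat_lit 163) (nat_lit 5) (nat_lit 477) (nat_lit 377) (nat_lit 286))))) (XT.nd (nat_lit 234) (nat_lit 684) (nat_lit 0) (XT.nd (nat_lit 78) (nat_lit 684) (nat_lit 0) (XT.lf (nat_lit 0) (nat_lit 668702316) (nat_lit 380) (nat_lit 2700009092) (nat_lit 76) (nat_lit 9351558342) (nat_lit 157) (nat_lit 5) (nat_lit 162) (nat_lit 5) (nat_lit 158) (nat_lit 5) (nat_lit 478) (nat_lit 377) (nat_lit 285)) (XT.nd (nat_lit 78) (nat_lit 304) (nat_lit 0) (XT.lf (nat_lit 0) (nat_lit 4707378740) (nat_lit 456) (nat_lit 6518767013) (nat_lit 76) (nat_lit 1637667341) (nat_lit 152) (nat_lit 5) (nat_lit 158) (nat_lit 5) (nat_lit 153) (nat_lit 5) (nat_lit 479) (nat_lit 377) (nat_lit 284)) (XT.lf (nat_lit 0) (nat_lit 2565323779) (nat_lit 304) (nat_lit 6291900436) (nat_lit 380) (nat_lit 4152395180) (nat_lit 148) (nat_lit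 5) (nat_lit 152) (nat_lit 5) (nat_lit 153) (nat_lit 5) (nat_lit 480) (nat_lit 377) (nat_lit 283)))) (XT.nd (nat_lit 78) (nat_lit 684) (nat_lit 0) (XT.lf (nat_lit 0) (nat_lit 11876118695) (nat_lit 304) (nat_lit 1231128432) (nat_lit 380) (nat_lit 50751084) (nat_lit 148) (nat_lit 5) (nat_lit 152) (nat_lit 5) (nat_lit 153) (nat_lit 5) (nat_lit 481) (nat_lit 377) (nat_lit 282)) (XT.nd (nat_lit 78) (nat_lit 304) (nat_lit 0) (XT.lf (nat_lit 0) (nat_lit 4131039034) (nat_lit 380) (nat_lit 5233871306) (nat_lit 76) (nat_lit 3942851245) (nat_lit 143) (nat_lit 5) (nat_lit 148) (nat_lit 5) (nat_lit 144) (nat_lit 5) (nat_lit 482) (nat_lit 377) (nat_lit 281)) (XT.lf (nat_lit 0) (nat_lit 4177070375) (nat_lit 304) (nat_lit 4236562814) (nat_lit 380) (nat_lit 5046523372) (nat_lit 139) (nat_lit 5) (nat_lit 143) (nat_lit 5) (nat_lit 144) (nat_lit 5) (nat_lit 483) (nat_lit 377) (nat_lit 280))))))))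
noncomputable def xc95 : XT := (XT.nd (nat_lit 1638) (nat_lit 456) (nat_lit 0) (XT.nd (nat_lit 780) (nat_lit 1976) (nat_lit 0) (XT.nd (nat_lit 390) (nat_lit 1140) (nat_lit 0) (XT.nd (nat_lit 156) (nat_lit 684) (nat_lit 0) (XT.nd (nat_lit 78) (nat_lit 76) (nat_lit 0) (XT.lf (nat_lit 0) (nat_lit 184922165) (nat_lit 304) (nat_lit 12614007952) (nat_lit 380) (nat_lit 816328303) (nat_lit 135) (nat_lit 5) (nat_lit 139) (nat_lit 5) (nat_lit 140) (nat_lit 5) (nat_lit 484) (nat_lit 377) (nat_lit 279)) (XT.lf (nat_lit 0) (nat_lit 3517451551) (nat_lit 380) (nat_lit 3898430317) (nat_lit 76) (nat_lit 6355828880) (nat_lit 134) (nat_lit 5) (nat_lit 139) (nat_lit 5) (nat_lit 135) (nat_lit 5) (nat_lit 485) (nat_lit 377) (nat_lit 278))) (XT.nd (nat_lit 78) (nat_lit 380) (nat_lit 0) (XT.lf (nat_lit 0) (nat_lit 5853163467) (nat_lit 304) (nat_lit 2086433883) (nat_lit 380) (nat_lit 5991334435) (nat_lit 130) (nat_lit 5) (nat_lit 134) (nat_lit 5) (nat_lit 135)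 (nat_lit 5) (nat_lit 486) (nat_lit 377) (nat_lit 277)) (XT.nd (nat_lit 78) (nat_lit 76) (nat_lit 0) (XT.lf (nat_lit 0) (nat_lit 1718005288) (nat_lit 304) (nat_lit 10766140457) (nat_lit 380) (nat_lit 1608512304) (nat_lit 126) (nat_lit 5) (nat_lit 130) (nat_lit 5) (nat_lit 131) (nat_lit 5) (nat_lit 487) (nat_lit 377) (nat_lit 276)) (XT.lf (nat_lit 0) (nat_lit 2867593258) (nat_lit 380) (nat_lit 2512583243) (nat_lit 76) (nat_lit 8876207458) (nat_lit 125) (nat_lit 5) (nat_lit 130) (nat_lit 5) (nat_lit 126) (nat_lit 5) (nat_lit 488) (nat_lit 377) (nat_lit 275))))) (XT.nd (nat_lit 156) (nat_lit 608) (nat_lit 0) (XT.nd (nat_lit 78) (nat_lit 304) (nat_lit 0) (XT.lf (nat_lit 0) (nat_lit 7437306899) (nat_lit 304) (nat_lit 6829679651) (nat_lit 76) (nat_lit 155672712) (nat_lit 122) (nat_lit 5) (nat_lit 126) (nat_lit 5) (nat_lit 123) (nat_lit 5) (nat_lit 489) (nat_lit 377) (nat_lit 274)) (XT.lf (nat_lit 0) (nat_lit 3308686949) (nat_lit 304) (nat_lit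 8839193682) (nat_lit 380) (nat_lit 2443390125) (nat_lit 118) (nat_lit 5) (nat_lit 122) (nat_lit 5) (nat_lit 123) (nat_lit 5) (nat_lit 490) (nat_lit 377) (nat_lit 273))) (XT.nd (nat_lit 78) (nat_lit 532) (nat_lit 0) (XT.lf (nat_lit 0) (nat_lit 2182263783) (nat_lit 380) (nat_lit 1076263987) (nat_lit 76) (nat_lit 11504011068) (nat_lit 117) (nat_lit 5) (nat_lit 122) (nat_lit 5) (nat_lit 118) (nat_lit 5) (nat_lit 491) (nat_lit 377) (nat_lit 272)) (XT.nd (nat_lit 78) (nat_lit 304) (nat_lit 0) (XT.lf (nat_lit 0) (nat_lit 6920894897) (nat_lit 304) (nat_lit 5552072132) (nat_lit 76) (nat_lit 2462878614) (nat_lit 114) (nat_lit 5) (nat_lit 118) (nat_lit 5) (nat_lit 115) (nat_lit 5) (nat_lit 492) (nat_lit 377) (nat_lit 271)) (XT.lf (nat_lit 0) (nat_lit 4957431462) (nat_lit 304) (nat_lit 6833916857) (nat_lit 380) (nat_lit 3320529271) (nat_lit 110) (nat_lit 5) (nat_lit 114) (nat_lit 5) (nat_lit 115) (nat_lit 5) (nat_lit 493) (nat_lit 377) (nat_lit 270))))))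 (XT.nd (nat_lit 390) (nat_lit 1064) (nat_lit 0) (XT.nd (nat_lit 156) (nat_lit 608) (nat_lit 0) (XT.nd (nat_lit 78) (nat_lit 0) (nat_lit 0) (XT.lf (nat_lit 0) (nat_lit 416249378) (nat_lit 228) (nat_lit 1048548492) (nat_lit 304) (nat_lit 13826116361) (nat_lit 106) (nat_lit 5) (nat_lit 109) (nat_lit 5) (nat_lit 110) (nat_lit 5) (nat_lit 494) (nat_lit 377) (nat_lit 269)) (XT.lf (nat_lit 0) (nat_lit 6377663704) (nat_lit 304) (nat_lit 4231337190) (nat_lit 76) (nat_lit 4862565857) (nat_lit 106) (nat_lit 5) (nat_lit 110) (nat_lit 5) (nat_lit 107) (nat_lit 5) (nat_lit 495) (nat_lit 377) (nat_lit 268))) (XT.nd (nat_lit 78) (nat_lit 304) (nat_lit 0) (XT.lf (nat_lit 0) (nat_lit 6664906752) (nat_lit 304) (nat_lit 4750718400) (nat_lit 380) (nat_lit 4239670403) (nat_lit 102) (nat_lit 5) (nat_lit 106) (nat_lit 5) (nat_lit 107) (nat_lit 5) (nat_lit 496) (nat_lit 377) (nat_lit 267)) (XT.nd (nat_lit 78) (nat_lit 0) (nat_lit 0) (XT.lf (nat_lit 0) (nat_lit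 728529466) (nat_lit 304) (nat_lit 13875457881) (nat_lit 76) (nat_lit 1238094861) (nat_lit 98) (nat_lit 5) (nat_lit 102) (nat_lit 5) (nat_lit 99) (nat_lit 5) (nat_lit 497) (nat_lit 377) (nat_lit 266)) (XT.lf (nat_lit 0) (nat_lit 5808319986) (nat_lit 304) (nat_lit 2867239421) (nat_lit 76) (nat_lit 7355104782) (nat_lit 98) (nat_lit 5) (nat_lit 102) (nat_lit 5) (nat_lit 99) (nat_lit 5) (nat_lit 498) (nat_lit 377) (nat_lit 265))))) (XT.nd (nat_lit 234) (nat_lit 532) (nat_lit 0) (XT.nd (nat_lit 78) (nat_lit 304) (nat_lit 0) (XT.lf (nat_lit 0) (nat_lit 8431977658) (nat_lit 228) (nat_lit 2589681792) (nat_lit 304) (nat_lit 5200719300) (nat_lit 95) (nat_lit 5) (nat_lit 98) (nat_lit 5) (nat_lit 99) (nat_lit 5) (nat_lit 499) (nat_lit 377) (nat_lit 264)) (XT.nd (nat_lit 78) (nat_lit 76) (nat_lit 0) (XT.lf (nat_lit 0) (nat_lit 3561764833) (nat_lit 228) (nat_lit 12820772217) (nat_lit 304) (nat_lit 34525125) (nat_lit 92) (nat_lit 5) (nat_lit 95) (nat_lit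 5) (nat_lit 96) (nat_lit 5) (nat_lit 500) (nat_lit 377) (nat_lit 263)) (XT.lf (nat_lit 0) (nat_lit 5213436422) (nat_lit 304) (nat_lit 1459376928) (nat_lit 76) (nat_lit 9941204109) (nat_lit 91) (nat_lit 5) (nat_lit 95) (nat_lit 5) (nat_lit 92) (nat_lit 5) (nat_lit 501) (nat_lit 377) (nat_lit 262)))) (XT.nd (nat_lit 78) (nat_lit 304) (nat_lit 0) (XT.lf (nat_lit 0) (nat_lit 10259700121) (nat_lit 228) (nat_lit 350579813) (nat_lit 304) (nat_lit 6203739650) (nat_lit 88) (nat_lit 5) (nat_lit 91) (nat_lit 5) (nat_lit 92) (nat_lit 5) (nat_lit 502) (nat_lit 377) (nat_lit 261)) (XT.nd (nat_lit 78) (nat_lit 76) (nat_lit 0) (XT.lf (nat_lit 0) (nat_lit 5204550271) (nat_lit 228) (nat_lit 10971598902) (nat_lit 304) (nat_lit 840650803) (nat_lit 85) (nat_lit 5) (nat_lit 88) (nat_lit 5) (nat_lit 89) (nat_lit 5) (nat_lit 503) (nat_lit 377) (nat_lit 260)) (XT.lf (nat_lit 0) (nat_lit 4593459183) (nat_lit 304) (nat_lit 7187376) (nat_lit 76) (nat_lit 12621898661)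 (nat_lit 84) (nat_lit 5) (nat_lit 88) (nat_lit 5) (nat_lit 85) (nat_lit 5) (nat_lit 504) (nat_lit 377) (nat_lit 259))))))) (XT.nd (nat_lit 50544) (nat_lit 0) (nat_lit 48868) (XT.nd (nat_lit 50154) (nat_lit 0) (nat_lit 54036) (XT.nd (nat_lit 49920) (nat_lit 0) (nat_lit 54872) (XT.nd (nat_lit 78) (nat_lit 228) (nat_lit 0) (XT.lf (nat_lit 0) (nat_lit 10194975246) (nat_lit 304) (nat_lit 5294605663) (nat_lit 76) (nat_lit 1941313721) (nat_lit 81) (nat_lit 5) (nat_lit 85) (nat_lit 5) (nat_lit 82) (nat_lit 5) (nat_lit 505) (nat_lit 377) (nat_lit 258)) (XT.lf (nat_lit 0) (nat_lit 6900857757) (nat_lit 228) (nat_lit 9061370691) (nat_lit 304) (nat_lit 1680108443) (nat_lit 78) (nat_lit 5) (nat_lit 81) (nat_lit 5) (nat_lit 82) (nat_lit 5) (nat_lit 506) (nat_lit 377) (nat_lit 257))) (XT.nd (nat_lit 78) (nat_lit 304) (nat_lit 0) (XT.lf (nat_lit 0) (nat_lit 96021884) (nat_lit 228) (nat_lit 3032947267) (nat_lit 0) (nat_lit 96021884) (nat_lit 804) (nat_lit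 5) (nat_lit 807) (nat_lit 4) (nat_lit 804) (nat_lit 4) (nat_lit 384) (nat_lit 378) (nat_lit 378)) (XT.nd (nat_lit 78) (nat_lit 304) (nat_lit 0) (XT.lf (nat_lit 0) (nat_lit 3398632489) (nat_lit 228) (nat_lit 2632867542) (nat_lit 0) (nat_lit 422718070) (nat_lit 804) (nat_lit 5) (nat_lit 807) (nat_lit 4) (nat_lit 804) (nat_lit 4) (nat_lit 385) (nat_lit 378) (nat_lit 377)) (XT.lf (nat_lit 0) (nat_lit 131681497) (nat_lit 304) (nat_lit 5627480949) (nat_lit 76) (nat_lit 700876387) (nat_lit 800) (nat_lit 5) (nat_lit 804) (nat_lit 5) (nat_lit 801) (nat_lit 4) (nat_lit 386) (nat_lit 378) (nat_lit 376))))) (XT.nd (nat_lit 156) (nat_lit 532) (nat_lit 0) (XT.nd (nat_lit 78) (nat_lit 304) (nat_lit 0) (XT.lf (nat_lit 0) (nat_lit 3279091519) (nat_lit 304) (nat_lit 2130068738) (nat_lit 76) (nat_lit 1057665535) (nat_lit 800) (nat_lit 5) (nat_lit 804) (nat_lit 5) (nat_lit 801) (nat_lit 4) (nat_lit 387) (nat_lit 378) (nat_lit 375)) (XT.lf (nat_lit 0) (nat_lit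 1409627791) (nat_lit 304) (nat_lit 5010041526) (nat_lit 380) (nat_lit 55474784) (nat_lit 796) (nat_lit 5) (nat_lit 800) (nat_lit 5) (nat_lit 801) (nat_lit 4) (nat_lit 388) (nat_lit 378) (nat_lit 374))) (XT.nd (nat_lit 78) (nat_lit 456) (nat_lit 0) (XT.lf (nat_lit 0) (nat_lit 3034447157) (nat_lit 380) (nat_lit 1501715945) (nat_lit 76) (nat_lit 1948334179) (nat_lit 795) (nat_lit 5) (nat_lit 800) (nat_lit 5) (nat_lit 796) (nat_lit 5) (nat_lit 389) (nat_lit 378) (nat_lit 373)) (XT.nd (nat_lit 78) (nat_lit 76) (nat_lit 0) (XT.lf (nat_lit 0) (nat_lit 2114760849) (nat_lit 380) (nat_lit 4007731189) (nat_lit 456) (nat_lit 372796807) (nat_lit 790) (nat_lit 5) (nat_lit 795) (nat_lit 5) (nat_lit 796) (nat_lit 5) (nat_lit 390) (nat_lit 378) (nat_lit 372)) (XT.lf (nat_lit 0) (nat_lit 2663912200) (nat_lit 456) (nat_lit 746871486) (nat_lit 76) (nat_lit 3096469636) (nat_lit 789) (nat_lit 5) (nat_lit 795) (nat_lit 5) (nat_lit 790) (nat_lit 5) (nat_lit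 391) (nat_lit 378) (nat_lit 371)))))) (XT.nd (nat_lit 390) (nat_lit 3420) (nat_lit 0) (XT.nd (nat_lit 156) (nat_lit 684) (nat_lit 0) (XT.nd (nat_lit 78) (nat_lit 608) (nat_lit 0) (XT.lf (nat_lit 0) (nat_lit 2949918532) (nat_lit 456) (nat_lit 2751135139) (nat_lit 532) (nat_lit 819460331) (nat_lit 783) (nat_lit 5) (nat_lit 789) (nat_lit 5) (nat_lit 790) (nat_lit 5) (nat_lit 392) (nat_lit 378) (nat_lit 370)) (XT.lf (nat_lit 0) (nat_lit 137454017) (nat_lit 532) (nat_lit 2029889139) (nat_lit 608) (nat_lit 4367759645) (nat_lit 775) (nat_lit 5) (nat_lit 782) (nat_lit 5) (nat_lit 783) (nat_lit 5) (nat_lit 393) (nat_lit 378) (nat_lit 369))) (XT.nd (nat_lit 78) (nat_lit 684) (nat_lit 0) (XT.lf (nat_lit 0) (nat_lit 3916432331) (nat_lit 532) (nat_lit 1237772322) (nat_lit 608) (nat_lit 1396644498) (nat_lit 775) (nat_lit 5) (nat_lit 782) (nat_lit 5) (nat_lit 783) (nat_lit 5) (nat_lit 394) (nat_lit 378) (nat_lit 368)) (XT.nd (nat_lit 78) (nat_lit 0)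 (nat_lit 0) (XT.lf (nat_lit 0) (nat_lit 1162536711) (nat_lit 608) (nat_lit 385787478) (nat_lit 684) (nat_lit 5019656873) (nat_lit 766) (nat_lit 5) (nat_lit 774) (nat_lit 5) (nat_lit 775) (nat_lit 5) (nat_lit 395) (nat_lit 378) (nat_lit 367)) (XT.lf (nat_lit 0) (nat_lit 4484021797) (nat_lit 684) (nat_lit 1573916180) (nat_lit 76) (nat_lit 528322385) (nat_lit 766) (nat_lit 5) (nat_lit 775) (nat_lit 5) (nat_lit 767) (nat_lit 5) (nat_lit 396) (nat_lit 378) (nat_lit 366))))) (XT.nd (nat_lit 234) (nat_lit 1900) (nat_lit 0) (XT.nd (nat_lit 78) (nat_lit 760) (nat_lit 0) (XT.lf (nat_lit 0) (nat_lit 810280805) (nat_lit 760) (nat_lit 4295728096) (nat_lit 76) (nat_lit 1499818733) (nat_lit 756) (nat_lit 5) (nat_lit 766) (nat_lit 5) (nat_lit 757) (nat_lit 5) (nat_lit 397) (nat_lit 378) (nat_lit 365)) (XT.nd (nat_lit 78) (nat_lit 760) (nat_lit 0) (XT.lf (nat_lit 0) (nat_lit 3695124098) (nat_lit 760) (nat_lit 393559478) (nat_lit 76) (nat_lit 2537980310)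 (nat_lit 756) (nat_lit 5) (nat_lit 766) (nat_lit 5) (nat_lit 757) (nat_lit 5) (nat_lit 398) (nat_lit 378) (nat_lit 364)) (XT.lf (nat_lit 0) (nat_lit 3587504427) (nat_lit 760) (nat_lit 3006358605) (nat_lit 836) (nat_lit 54929856) (nat_lit 746) (nat_lit 5) (nat_lit 756) (nat_lit 5) (nat_lit 757) (nat_lit 5) (nat_lit 399) (nat_lit 378) (nat_lit 363)))) (XT.nd (nat_lit 78) (nat_lit 988) (nat_lit 0) (XT.lf (nat_lit 0) (nat_lit 928905436) (nat_lit 836) (nat_lit 1854721311) (nat_lit 912) (nat_lit 3888520329) (nat_lit 734) (nat_lit 5) (nat_lit 745) (nat_lit 5) (nat_lit 746) (nat_lit 5) (nat_lit 400) (nat_lit 378) (nat_lit 362)) (XT.nd (nat_lit 78) (nat_lit 988) (nat_lit 0) (XT.lf (nat_lit 0) (nat_lit 4993560088) (nat_lit 836) (nat_lit 639688815) (nat_lit 912) (nat_lit 1063611585) (nat_lit 734) (nat_lit 5) (nat_lit 745) (nat_lit 5) (nat_lit 746) (nat_lit 5) (nat_lit 401) (nat_lit 378) (nat_lit 361)) (XT.lf (nat_lit 0) (nat_lit 1749016381) (nat_lit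 988) (nat_lit 4336436342) (nat_lit 76) (nat_lit 637278164) (nat_lit 721) (nat_lit 5) (nat_lit 734) (nat_lit 5) (nat_lit 722) (nat_lit 5) (nat_lit 402) (nat_lit 378) (nat_lit 360))))))))
noncomputable def xc96 : XT := (XT.nd (nat_lit 1560) (nat_lit 11552) (nat_lit 0) (XT.nd (nat_lit 780) (nat_lit 11172) (nat_lit 0) (XT.nd (nat_lit 390) (nat_lit 4028) (nat_lit 0) (XT.nd (nat_lit 156) (nat_lit 2280) (nat_lit 0) (XT.nd (nat_lit 78) (nat_lit 1064) (nat_lit 0) (XT.lf (nat_lit 0) (nat_lit 4555840881) (nat_lit 988) (nat_lit 226977289) (nat_lit 76) (nat_lit 1967116199) (nat_lit 721) (nat_lit 5) (nat_lit 734) (nat_lit 5) (nat_lit 722) (nat_lit 5) (nat_lit 403) (nat_lit 378) (nat_lit 359)) (XT.lf (nat_lit 0) (nat_lit 595923292) (nat_lit 1064) (nat_lit 2812162995) (nat_lit 76) (nat_lit 3370248148) (nat_lit 707) (nat_lit 5) (nat_lit 721) (nat_lit 5) (nat_lit 708) (nat_lit 5) (nat_lit 404) (nat_lit 378) (nat_lit 358))) (XT.nd (nat_lit 78) (nat_lit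 1216) (nat_lit 0) (XT.lf (nat_lit 0) (nat_lit 1395666695) (nat_lit 1064) (nat_lit 1965508896) (nat_lit 1140) (nat_lit 3446860570) (nat_lit 693) (nat_lit 5) (nat_lit 707) (nat_lit 5) (nat_lit 708) (nat_lit 5) (nat_lit 405) (nat_lit 378) (nat_lit 357)) (XT.nd (nat_lit 78) (nat_lit 1216) (nat_lit 0) (XT.lf (nat_lit 0) (nat_lit 5678997302) (nat_lit 1064) (nat_lit 460706771) (nat_lit 1140) (nat_lit 699468427) (nat_lit 693) (nat_lit 5) (nat_lit 707) (nat_lit 5) (nat_lit 708) (nat_lit 5) (nat_lit 406) (nat_lit 378) (nat_lit 356)) (XT.lf (nat_lit 0) (nat_lit 2042983594) (nat_lit 1216) (nat_lit 3720565409) (nat_lit 76) (nat_lit 1107755665) (nat_lit 677) (nat_lit 5) (nat_lit 693) (nat_lit 5) (nat_lit 678) (nat_lit 5) (nat_lit 407) (nat_lit 378) (nat_lit 355))))) (XT.nd (nat_lit 156) (nat_lit 2736) (nat_lit 0) (XT.nd (nat_lit 78) (nat_lit 76) (nat_lit 0) (XT.lf (nat_lit 0) (nat_lit 612353049) (nat_lit 1216) (nat_lit 4174298128) (nat_lit 1292) (nat_lit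 2118221184) (nat_lit 661) (nat_lit 5) (nat_lit 677) (nat_lit 5) (nat_lit 678) (nat_lit 5) (nat_lit 408) (nat_lit 378) (nat_lit 354)) (XT.lf (nat_lit 0) (nat_lit 604065862) (nat_lit 1292) (nat_lit 1908693492) (nat_lit 76) (nat_lit 4426938987) (nat_lit 660) (nat_lit 5) (nat_lit 677) (nat_lit 5) (nat_lit 661) (nat_lit 5) (nat_lit 409) (nat_lit 378) (nat_lit 353))) (XT.nd (nat_lit 78) (nat_lit 1444) (nat_lit 0) (XT.lf (nat_lit 0) (nat_lit 2534884778) (nat_lit 1292) (nat_lit 776512351) (nat_lit 1368) (nat_lit 3664364454) (nat_lit 643) (nat_lit 5) (nat_lit 660) (nat_lit 5) (nat_lit 661) (nat_lit 5) (nat_lit 410) (nat_lit 378) (nat_lit 352)) (XT.nd (nat_lit 78) (nat_lit 76) (nat_lit 0) (XT.lf (nat_lit 0) (nat_lit 26696654) (nat_lit 1368) (nat_lit 6009066259) (nat_lit 1444) (nat_lit 977525418) (nat_lit 625) (nat_lit 5) (nat_lit 643) (nat_lit 5) (nat_lit 644) (nat_lit 5) (nat_lit 411) (nat_lit 378) (nat_lit 351)) (XT.lf (nat_lit 0) (nat_lit 1718863767)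 (nat_lit 1444) (nat_lit 2472397917) (nat_lit 76) (nat_lit 2860496270) (nat_lit 624) (nat_lit 5) (nat_lit 643) (nat_lit 5) (nat_lit 625) (nat_lit 5) (nat_lit 412) (nat_lit 378) (nat_lit 350)))))) (XT.nd (nat_lit 390) (nat_lit 6460) (nat_lit 0) (XT.nd (nat_lit 156) (nat_lit 3268) (nat_lit 0) (XT.nd (nat_lit 78) (nat_lit 0) (nat_lit 0) (XT.lf (nat_lit 0) (nat_lit 2105712604) (nat_lit 1444) (nat_lit 2308960680) (nat_lit 1520) (nat_lit 2677022825) (nat_lit 605) (nat_lit 5) (nat_lit 624) (nat_lit 5) (nat_lit 625) (nat_lit 5) (nat_lit 413) (nat_lit 378) (nat_lit 349)) (XT.lf (nat_lit 0) (nat_lit 6761701675) (nat_lit 1444) (nat_lit 364960104) (nat_lit 1520) (nat_lit 6525992) (nat_lit 605) (nat_lit 5) (nat_lit 624) (nat_lit 5) (nat_lit 625) (nat_lit 5) (nat_lit 414) (nat_lit 378) (nat_lit 348))) (XT.nd (nat_lit 78) (nat_lit 1672) (nat_lit 0) (XT.lf (nat_lit 0) (nat_lit 2667073173) (nat_lit 1596) (nat_lit 2859088893) (nat_lit 76) (nat_lit 1649287714)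 (nat_lit 584) (nat_lit 5) (nat_lit 605) (nat_lit 5) (nat_lit 585) (nat_lit 5) (nat_lit 415) (nat_lit 378) (nat_lit 347)) (XT.nd (nat_lit 78) (nat_lit 76) (nat_lit 0) (XT.lf (nat_lit 0) (nat_lit 1858619489) (nat_lit 1596) (nat_lit 3499603915) (nat_lit 1672) (nat_lit 1861049431) (nat_lit 563) (nat_lit 5) (nat_lit 584) (nat_lit 5) (nat_lit 585) (nat_lit 5) (nat_lit 416) (nat_lit 378) (nat_lit 346)) (XT.lf (nat_lit 0) (nat_lit 795086088) (nat_lit 1672) (nat_lit 607882607) (nat_lit 76) (nat_lit 5861557314) (nat_lit 562) (nat_lit 5) (nat_lit 584) (nat_lit 5) (nat_lit 563) (nat_lit 5) (nat_lit 417) (nat_lit 378) (nat_lit 345))))) (XT.nd (nat_lit 156) (nat_lit 3040) (nat_lit 0) (XT.nd (nat_lit 78) (nat_lit 1748) (nat_lit 0) (XT.lf (nat_lit 0) (nat_lit 3460601549) (nat_lit 1748) (nat_lit 3080020576) (nat_lit 76) (nat_lit 770192556) (nat_lit 540) (nat_lit 5) (nat_lit 563) (nat_lit 5) (nat_lit 541) (nat_lit 5) (nat_lit 418) (nat_lit 378) (nat_lit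 344)) (XT.lf (nat_lit 0) (nat_lit 1782658485) (nat_lit 1748) (nat_lit 4371052501) (nat_lit 1824) (nat_lit 1204832469) (nat_lit 517) (nat_lit 5) (nat_lit 540) (nat_lit 5) (nat_lit 541) (nat_lit 5) (nat_lit 419) (nat_lit 378) (nat_lit 343))) (XT.nd (nat_lit 78) (nat_lit 2964) (nat_lit 0) (XT.lf (nat_lit 0) (nat_lit 1444339879) (nat_lit 1824) (nat_lit 680598743) (nat_lit 76) (nat_lit 5282684830) (nat_lit 516) (nat_lit 5) (nat_lit 540) (nat_lit 5) (nat_lit 517) (nat_lit 5) (nat_lit 420) (nat_lit 378) (nat_lit 342)) (XT.nd (nat_lit 78) (nat_lit 1140) (nat_lit 0) (XT.lf (nat_lit 0) (nat_lit 4110368648) (nat_lit 1900) (nat_lit 3145437568) (nat_lit 76) (nat_lit 202119442) (nat_lit 492) (nat_lit 5) (nat_lit 517) (nat_lit 5) (nat_lit 493) (nat_lit 5) (nat_lit 421) (nat_lit 378) (nat_lit 341)) (XT.lf (nat_lit 0) (nat_lit 1867895346) (nat_lit 1140) (nat_lit 4943945578) (nat_lit 1216) (nat_lit 697750524) (nat_lit 477) (nat_lit 5) (nat_lit 492) (nat_lit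 5) (nat_lit 493) (nat_lit 5) (nat_lit 422) (nat_lit 378) (nat_lit 340))))))) (XT.nd (nat_lit 780) (nat_lit 5244) (nat_lit 0) (XT.nd (nat_lit 390) (nat_lit 3496) (nat_lit 0) (XT.nd (nat_lit 156) (nat_lit 1824) (nat_lit 0) (XT.nd (nat_lit 78) (nat_lit 912) (nat_lit 0) (XT.lf (nat_lit 0) (nat_lit 1951654854) (nat_lit 1216) (nat_lit 599240305) (nat_lit 76) (nat_lit 5011677046) (nat_lit 476) (nat_lit 5) (nat_lit 492) (nat_lit 5) (nat_lit 477) (nat_lit 5) (nat_lit 423) (nat_lit 378) (nat_lit 339)) (XT.lf (nat_lit 0) (nat_lit 4551742486) (nat_lit 912) (nat_lit 75124693) (nat_lit 988) (nat_lit 2990009920) (nat_lit 464) (nat_lit 5) (nat_lit 476) (nat_lit 5) (nat_lit 477) (nat_lit 5) (nat_lit 424) (nat_lit 378) (nat_lit 338))) (XT.nd (nat_lit 78) (nat_lit 912) (nat_lit 0) (XT.lf (nat_lit 0) (nat_lit 2105337443) (nat_lit 912) (nat_lit 5237093211) (nat_lit 988) (nat_lit 330100500) (nat_lit 452) (nat_lit 5) (nat_lit 464) (nat_lit 5) (nat_lit 465)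 (nat_lit 5) (nat_lit 425) (nat_lit 378) (nat_lit 337)) (XT.nd (nat_lit 78) (nat_lit 836) (nat_lit 0) (XT.lf (nat_lit 0) (nat_lit 2326479403) (nat_lit 988) (nat_lit 372546650) (nat_lit 76) (nat_lit 5030468278) (nat_lit 451) (nat_lit 5) (nat_lit 464) (nat_lit 5) (nat_lit 452) (nat_lit 5) (nat_lit 426) (nat_lit 378) (nat_lit 336)) (XT.lf (nat_lit 0) (nat_lit 4941238380) (nat_lit 836) (nat_lit 77053175) (nat_lit 912) (nat_lit 2769531162) (nat_lit 440) (nat_lit 5) (nat_lit 451) (nat_lit 5) (nat_lit 452) (nat_lit 5) (nat_lit 427) (nat_lit 378) (nat_lit 335))))) (XT.nd (nat_lit 156) (nat_lit 2508) (nat_lit 0) (XT.nd (nat_lit 78) (nat_lit 76) (nat_lit 0) (XT.lf (nat_lit 0) (nat_lit 2486868353) (nat_lit 912) (nat_lit 5267607424) (nat_lit 988) (nat_lit 93031180) (nat_lit 428) (nat_lit 5) (nat_lit 440) (nat_lit 5) (nat_lit 441) (nat_lit 5) (nat_lit 428) (nat_lit 378) (nat_lit 334)) (XT.lf (nat_lit 0) (nat_lit 2577440813) (nat_lit 988) (nat_lit 8411670)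 (nat_lit 76) (nat_lit 5322689440) (nat_lit 427) (nat_lit 5) (nat_lit 440) (nat_lit 5) (nat_lit 428) (nat_lit 5) (nat_lit 429) (nat_lit 378) (nat_lit 333))) (XT.nd (nat_lit 78) (nat_lit 1672) (nat_lit 0) (XT.lf (nat_lit 0) (nat_lit 5292976098) (nat_lit 912) (nat_lit 2497374402) (nat_lit 76) (nat_lit 180576799) (nat_lit 416) (nat_lit 5) (nat_lit 428) (nat_lit 5) (nat_lit 417) (nat_lit 5) (nat_lit 430) (nat_lit 378) (nat_lit 332)) (XT.nd (nat_lit 78) (nat_lit 760) (nat_lit 0) (XT.lf (nat_lit 0) (nat_lit 21235772) (nat_lit 912) (nat_lit 5029644606) (nat_lit 76) (nat_lit 2983809440) (nat_lit 404) (nat_lit 5) (nat_lit 416) (nat_lit 5) (nat_lit 405) (nat_lit 5) (nat_lit 431) (nat_lit 378) (nat_lit 331)) (XT.lf (nat_lit 0) (nat_lit 492517381) (nat_lit 760) (nat_lit 2223084974) (nat_lit 836) (nat_lit 5384230133) (nat_lit 394) (nat_lit 5) (nat_lit 404) (nat_lit 5) (nat_lit 405) (nat_lit 5) (nat_lit 432) (nat_lit 378) (nat_lit 330)))))) (XT.nd (nat_lit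 390) (nat_lit 2888) (nat_lit 0) (XT.nd (nat_lit 156) (nat_lit 1520) (nat_lit 0) (XT.nd (nat_lit 78) (nat_lit 836) (nat_lit 0) (XT.lf (nat_lit 0) (nat_lit 5459577417) (nat_lit 836) (nat_lit 2025388798) (nat_lit 76) (nat_lit 681397376) (nat_lit 394) (nat_lit 5) (nat_lit 405) (nat_lit 5) (nat_lit 395) (nat_lit 5) (nat_lit 433) (nat_lit 378) (nat_lit 329)) (XT.lf (nat_lit 0) (nat_lit 20599513) (nat_lit 836) (nat_lit 4580670245) (nat_lit 76) (nat_lit 3633018207) (nat_lit 383) (nat_lit 5) (nat_lit 394) (nat_lit 5) (nat_lit 384) (nat_lit 5) (nat_lit 434) (nat_lit 378) (nat_lit 328))) (XT.nd (nat_lit 78) (nat_lit 760) (nat_lit 0) (XT.lf (nat_lit 0) (nat_lit 1119167137) (nat_lit 760) (nat_lit 1626628456) (nat_lit 836) (nat_lit 5557827266) (nat_lit 373) (nat_lit 5) (nat_lit 383) (nat_lit 5) (nat_lit 384) (nat_lit 5) (nat_lit 435) (nat_lit 378) (nat_lit 327)) (XT.nd (nat_lit 78) (nat_lit 760) (nat_lit 0) (XT.lf (nat_lit 0) (nat_lit 5524563105) (nat_lit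 836) (nat_lit 1436295408) (nat_lit 76) (nat_lit 1413504587) (nat_lit 373) (nat_lit 5) (nat_lit 384) (nat_lit 5) (nat_lit 374) (nat_lit 5) (nat_lit 436) (nat_lit 378) (nat_lit 326)) (XT.lf (nat_lit 0) (nat_lit 4426743507) (nat_lit 760) (nat_lit 3931467142) (nat_lit 836) (nat_lit 88321403) (nat_lit 363) (nat_lit 5) (nat_lit 373) (nat_lit 5) (nat_lit 374) (nat_lit 5) (nat_lit 437) (nat_lit 378) (nat_lit 325))))) (XT.nd (nat_lit 234) (nat_lit 1444) (nat_lit 0) (XT.nd (nat_lit 78) (nat_lit 684) (nat_lit 0) (XT.lf (nat_lit 0) (nat_lit 1865661544) (nat_lit 684) (nat_lit 808767920) (nat_lit 760) (nat_lit 5845724110) (nat_lit 353) (nat_lit 5) (nat_lit 362) (nat_lit 5) (nat_lit 363) (nat_lit 5) (nat_lit 438) (nat_lit 378) (nat_lit 324)) (XT.nd (nat_lit 78) (nat_lit 684) (nat_lit 0) (XT.lf (nat_lit 0) (nat_lit 5494273929) (nat_lit 760) (nat_lit 735607024) (nat_lit 76) (nat_lit 2365294474) (nat_lit 353) (nat_lit 5) (nat_lit 363) (nat_lit 5) (nat_lit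 354) (nat_lit 5) (nat_lit 439) (nat_lit 378) (nat_lit 323)) (XT.lf (nat_lit 0) (nat_lit 5318984233) (nat_lit 684) (nat_lit 3052634725) (nat_lit 760) (nat_lit 300056683) (nat_lit 344) (nat_lit 5) (nat_lit 353) (nat_lit 5) (nat_lit 354) (nat_lit 5) (nat_lit 440) (nat_lit 378) (nat_lit 322)))) (XT.nd (nat_lit 78) (nat_lit 684) (nat_lit 0) (XT.lf (nat_lit 0) (nat_lit 2508787371) (nat_lit 760) (nat_lit 6024233259) (nat_lit 76) (nat_lit 216642916) (nat_lit 334) (nat_lit 5) (nat_lit 344) (nat_lit 5) (nat_lit 335) (nat_lit 5) (nat_lit 441) (nat_lit 378) (nat_lit 321)) (XT.nd (nat_lit 78) (nat_lit 0) (nat_lit 0) (XT.lf (nat_lit 0) (nat_lit 72729295) (nat_lit 684) (nat_lit 5302211181) (nat_lit 760) (nat_lit 3454128067) (nat_lit 325) (nat_lit 5) (nat_lit 334) (nat_lit 5) (nat_lit 335) (nat_lit 5) (nat_lit 442) (nat_lit 378) (nat_lit 320)) (XT.lf (nat_lit 0) (nat_lit 6325932697) (nat_lit 684) (nat_lit 1975161575) (nat_lit 760) (nat_lit 608913814)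 (nat_lit 325) (nat_lit 5) (nat_lit 334) (nat_lit 5) (nat_lit 335) (nat_lit 5) (nat_lit 443) (nat_lit 378) (nat_lit 319))))))))
noncomputable def xc97 : XT := (XT.nd (nat_lit 1560) (nat_lit 6004) (nat_lit 0) (XT.nd (nat_lit 780) (nat_lit 3724) (nat_lit 0) (XT.nd (nat_lit 390) (nat_lit 1824) (nat_lit 0) (XT.nd (nat_lit 156) (nat_lit 1292) (nat_lit 0) (XT.nd (nat_lit 78) (nat_lit 608) (nat_lit 0) (XT.lf (nat_lit 0) (nat_lit 2259292036) (nat_lit 684) (nat_lit 5303613696) (nat_lit 76) (nat_lit 1429439646) (nat_lit 316) (nat_lit 5) (nat_lit 325) (nat_lit 5) (nat_lit 317) (nat_lit 5) (nat_lit 444) (nat_lit 378) (nat_lit 318)) (XT.lf (nat_lit 0) (nat_lit 994566950) (nat_lit 608) (nat_lit 4182253738) (nat_lit 684) (nat_lit 3899425990) (nat_lit 308) (nat_lit 5) (nat_lit 316) (nat_lit 5) (nat_lit 317) (nat_lit 5) (nat_lit 445) (nat_lit 378) (nat_lit 317))) (XT.nd (nat_lit 78) (nat_lit 1292) (nat_lit 0) (XT.lf (nat_lit 0) (nat_lit 7443625035) (nat_lit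 608) (nat_lit 708194362) (nat_lit 684) (nat_lit 1010024217) (nat_lit 308) (nat_lit 5) (nat_lit 316) (nat_lit 5) (nat_lit 317) (nat_lit 5) (nat_lit 446) (nat_lit 378) (nat_lit 316)) (XT.nd (nat_lit 78) (nat_lit 608) (nat_lit 0) (XT.lf (nat_lit 0) (nat_lit 1925405432) (nat_lit 684) (nat_lit 4491591960) (nat_lit 76) (nat_lit 2831630626) (nat_lit 299) (nat_lit 5) (nat_lit 308) (nat_lit 5) (nat_lit 300) (nat_lit 5) (nat_lit 447) (nat_lit 378) (nat_lit 315)) (XT.lf (nat_lit 0) (nat_lit 2016286135) (nat_lit 608) (nat_lit 2883477807) (nat_lit 684) (nat_lit 4437375754) (nat_lit 291) (nat_lit 5) (nat_lit 299) (nat_lit 5) (nat_lit 300) (nat_lit 5) (nat_lit 448) (nat_lit 378) (nat_lit 314))))) (XT.nd (nat_lit 156) (nat_lit 1216) (nat_lit 0) (XT.nd (nat_lit 78) (nat_lit 608) (nat_lit 0) (XT.lf (nat_lit 0) (nat_lit 7933297181) (nat_lit 684) (nat_lit 763686367) (nat_lit 76) (nat_lit 730444307) (nat_lit 291) (nat_lit 5) (nat_lit 300) (nat_lit 5) (nat_lit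 292) (nat_lit 5) (nat_lit 449) (nat_lit 378) (nat_lit 313)) (XT.lf (nat_lit 0) (nat_lit 1511358314) (nat_lit 608) (nat_lit 3591879830) (nat_lit 76) (nat_lit 4415624690) (nat_lit 283) (nat_lit 5) (nat_lit 291) (nat_lit 5) (nat_lit 284) (nat_lit 5) (nat_lit 450) (nat_lit 378) (nat_lit 312))) (XT.nd (nat_lit 78) (nat_lit 608) (nat_lit 0) (XT.lf (nat_lit 0) (nat_lit 3134551450) (nat_lit 608) (nat_lit 1413442531) (nat_lit 684) (nat_lit 5064114141) (nat_lit 275) (nat_lit 5) (nat_lit 283) (nat_lit 5) (nat_lit 284) (nat_lit 5) (nat_lit 451) (nat_lit 378) (nat_lit 311)) (XT.nd (nat_lit 78) (nat_lit 76) (nat_lit 0) (XT.lf (nat_lit 0) (nat_lit 278982118) (nat_lit 532) (nat_lit 7373526466) (nat_lit 608) (nat_lit 2054566808) (nat_lit 268) (nat_lit 5) (nat_lit 275) (nat_lit 5) (nat_lit 276) (nat_lit 5) (nat_lit 452) (nat_lit 378) (nat_lit 310)) (XT.lf (nat_lit 0) (nat_lit 1020931685) (nat_lit 608) (nat_lit 2607722988) (nat_lit 76) (nat_lit 6174774022)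 (nat_lit 267) (nat_lit 5) (nat_lit 275) (nat_lit 5) (nat_lit 268) (nat_lit 5) (nat_lit 453) (nat_lit 378) (nat_lit 309)))))) (XT.nd (nat_lit 390) (nat_lit 1596) (nat_lit 0) (XT.nd (nat_lit 156) (nat_lit 1064) (nat_lit 0) (XT.nd (nat_lit 78) (nat_lit 532) (nat_lit 0) (XT.lf (nat_lit 0) (nat_lit 4126737442) (nat_lit 608) (nat_lit 5556471183) (nat_lit 76) (nat_lit 218302668) (nat_lit 260) (nat_lit 5) (nat_lit 268) (nat_lit 5) (nat_lit 261) (nat_lit 5) (nat_lit 454) (nat_lit 378) (nat_lit 308)) (XT.lf (nat_lit 0) (nat_lit 1419243712) (nat_lit 532) (nat_lit 5893177844) (nat_lit 608) (nat_lit 2688778741) (nat_lit 253) (nat_lit 5) (nat_lit 260) (nat_lit 5) (nat_lit 261) (nat_lit 5) (nat_lit 455) (nat_lit 378) (nat_lit 307))) (XT.nd (nat_lit 78) (nat_lit 988) (nat_lit 0) (XT.lf (nat_lit 0) (nat_lit 457486652) (nat_lit 608) (nat_lit 1541930124) (nat_lit 76) (nat_lit 8103315322) (nat_lit 252) (nat_lit 5) (nat_lit 260) (nat_lit 5) (nat_lit 253)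 (nat_lit 5) (nat_lit 456) (nat_lit 378) (nat_lit 306)) (XT.nd (nat_lit 78) (nat_lit 456) (nat_lit 0) (XT.lf (nat_lit 0) (nat_lit 3648152652) (nat_lit 608) (nat_lit 4569193438) (nat_lit 76) (nat_lit 1988243430) (nat_lit 245) (nat_lit 5) (nat_lit 253) (nat_lit 5) (nat_lit 246) (nat_lit 5) (nat_lit 457) (nat_lit 378) (nat_lit 305)) (XT.lf (nat_lit 0) (nat_lit 2644562671) (nat_lit 456) (nat_lit 4266833420) (nat_lit 532) (nat_lit 3398932716) (nat_lit 239) (nat_lit 5) (nat_lit 245) (nat_lit 5) (nat_lit 246) (nat_lit 5) (nat_lit 458) (nat_lit 378) (nat_lit 304))))) (XT.nd (nat_lit 156) (nat_lit 988) (nat_lit 0) (XT.nd (nat_lit 78) (nat_lit 608) (nat_lit 0) (XT.lf (nat_lit 0) (nat_lit 10019126723) (nat_lit 456) (nat_lit 219710268) (nat_lit 532) (nat_lit 178347235) (nat_lit 239) (nat_lit 5) (nat_lit 245) (nat_lit 5) (nat_lit 246) (nat_lit 5) (nat_lit 459) (nat_lit 378) (nat_lit 303)) (XT.lf (nat_lit 0) (nat_lit 3106039382) (nat_lit 608) (nat_lit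 3508942962) (nat_lit 76) (nat_lit 3909988328) (nat_lit 231) (nat_lit 5) (nat_lit 239) (nat_lit 5) (nat_lit 232) (nat_lit 5) (nat_lit 460) (nat_lit 378) (nat_lit 302))) (XT.nd (nat_lit 78) (nat_lit 532) (nat_lit 0) (XT.lf (nat_lit 0) (nat_lit 3952955618) (nat_lit 456) (nat_lit 2499504012) (nat_lit 532) (nat_lit 4182454960) (nat_lit 225) (nat_lit 5) (nat_lit 231) (nat_lit 5) (nat_lit 232) (nat_lit 5) (nat_lit 461) (nat_lit 378) (nat_lit 301)) (XT.nd (nat_lit 78) (nat_lit 76) (nat_lit 0) (XT.lf (nat_lit 0) (nat_lit 819240836) (nat_lit 456) (nat_lit 9055764750) (nat_lit 532) (nat_lit 871867855) (nat_lit 219) (nat_lit 5) (nat_lit 225) (nat_lit 5) (nat_lit 226) (nat_lit 5) (nat_lit 462) (nat_lit 378) (nat_lit 300)) (XT.lf (nat_lit 0) (nat_lit 2503026760) (nat_lit 532) (nat_lit 2377749553) (nat_lit 76) (nat_lit 5979350914) (nat_lit 218) (nat_lit 5) (nat_lit 225) (nat_lit 5) (nat_lit 219) (nat_lit 5) (nat_lit 463) (nat_lit 378) (nat_lit 299)))))))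 (XT.nd (nat_lit 780) (nat_lit 2888) (nat_lit 0) (XT.nd (nat_lit 390) (nat_lit 1292) (nat_lit 0) (XT.nd (nat_lit 156) (nat_lit 912) (nat_lit 0) (XT.nd (nat_lit 78) (nat_lit 456) (nat_lit 0) (XT.lf (nat_lit 0) (nat_lit 5342819834) (nat_lit 456) (nat_lit 595486903) (nat_lit 532) (nat_lit 5037132857) (nat_lit 212) (nat_lit 5) (nat_lit 218) (nat_lit 5) (nat_lit 219) (nat_lit 5) (nat_lit 464) (nat_lit 378) (nat_lit 298)) (XT.lf (nat_lit 0) (nat_lit 2115601657) (nat_lit 456) (nat_lit 7351072202) (nat_lit 532) (nat_lit 1625896715) (nat_lit 206) (nat_lit 5) (nat_lit 212) (nat_lit 5) (nat_lit 213) (nat_lit 5) (nat_lit 465) (nat_lit 378) (nat_lit 297))) (XT.nd (nat_lit 78) (nat_lit 836) (nat_lit 0) (XT.lf (nat_lit 0) (nat_lit 1841418570) (nat_lit 532) (nat_lit 1177297721) (nat_lit 76) (nat_lit 8192843909) (nat_lit 205) (nat_lit 5) (nat_lit 212) (nat_lit 5) (nat_lit 206) (nat_lit 5) (nat_lit 466) (nat_lit 378) (nat_lit 296)) (XT.nd (nat_lit 78) (nat_lit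 456) (nat_lit 0) (XT.lf (nat_lit 0) (nat_lit 5380680793) (nat_lit 456) (nat_lit 4528861619) (nat_lit 76) (nat_lit 1422684835) (nat_lit 200) (nat_lit 5) (nat_lit 206) (nat_lit 5) (nat_lit 201) (nat_lit 5) (nat_lit 467) (nat_lit 378) (nat_lit 295)) (XT.lf (nat_lit 0) (nat_lit 3485892868) (nat_lit 456) (nat_lit 5526362814) (nat_lit 532) (nat_lit 2442621403) (nat_lit 194) (nat_lit 5) (nat_lit 200) (nat_lit 5) (nat_lit 201) (nat_lit 5) (nat_lit 468) (nat_lit 378) (nat_lit 294))))) (XT.nd (nat_lit 156) (nat_lit 836) (nat_lit 0) (XT.nd (nat_lit 78) (nat_lit 0) (nat_lit 0) (XT.lf (nat_lit 0) (nat_lit 92263829) (nat_lit 380) (nat_lit 1031548887) (nat_lit 456) (nat_lit 10455974914) (nat_lit 188) (nat_lit 5) (nat_lit 193) (nat_lit 5) (nat_lit 194) (nat_lit 5) (nat_lit 469) (nat_lit 378) (nat_lit 293)) (XT.lf (nat_lit 0) (nat_lit 4777025606) (nat_lit 456) (nat_lit 3367476817) (nat_lit 76) (nat_lit 3561407913) (nat_lit 188) (nat_lit 5) (nat_lit 194)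 (nat_lit 5) (nat_lit 189) (nat_lit 5) (nat_lit 470) (nat_lit 378) (nat_lit 292))) (XT.nd (nat_lit 78) (nat_lit 456) (nat_lit 0) (XT.lf (nat_lit 0) (nat_lit 4929150527) (nat_lit 380) (nat_lit 3584777684) (nat_lit 456) (nat_lit 3320414775) (nat_lit 183) (nat_lit 5) (nat_lit 188) (nat_lit 5) (nat_lit 189) (nat_lit 5) (nat_lit 471) (nat_lit 378) (nat_lit 291)) (XT.nd (nat_lit 78) (nat_lit 0) (nat_lit 0) (XT.lf (nat_lit 0) (nat_lit 366557053) (nat_lit 456) (nat_lit 10527058117) (nat_lit 76) (nat_lit 1071461206) (nat_lit 177) (nat_lit 5) (nat_lit 183) (nat_lit 5) (nat_lit 178) (nat_lit 5) (nat_lit 472) (nat_lit 378) (nat_lit 290)) (XT.lf (nat_lit 0) (nat_lit 4125279723) (nat_lit 456) (nat_lit 2145730144) (nat_lit 76) (nat_lit 5826126171) (nat_lit 177) (nat_lit 5) (nat_lit 183) (nat_lit 5) (nat_lit 178) (nat_lit 5) (nat_lit 473) (nat_lit 378) (nat_lit 289)))))) (XT.nd (nat_lit 390) (nat_lit 1444) (nat_lit 0) (XT.nd (nat_lit 156) (nat_lit 760)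 (nat_lit 0) (XT.nd (nat_lit 78) (nat_lit 304) (nat_lit 0) (XT.lf (nat_lit 0) (nat_lit 6444717891) (nat_lit 380) (nat_lit 1528896067) (nat_lit 456) (nat_lit 4257934195) (nat_lit 172) (nat_lit 5) (nat_lit 177) (nat_lit 5) (nat_lit 178) (nat_lit 5) (nat_lit 474) (nat_lit 378) (nat_lit 288)) (XT.lf (nat_lit 0) (nat_lit 2840187711) (nat_lit 304) (nat_lit 9085892280) (nat_lit 380) (nat_lit 442025216) (nat_lit 168) (nat_lit 5) (nat_lit 172) (nat_lit 5) (nat_lit 173) (nat_lit 5) (nat_lit 475) (nat_lit 378) (nat_lit 287))) (XT.nd (nat_lit 78) (nat_lit 684) (nat_lit 0) (XT.lf (nat_lit 0) (nat_lit 3426996132) (nat_lit 380) (nat_lit 864477632) (nat_lit 76) (nat_lit 8215030735) (nat_lit 167) (nat_lit 5) (nat_lit 172) (nat_lit 5) (nat_lit 168) (nat_lit 5) (nat_lit 476) (nat_lit 378) (nat_lit 286)) (XT.nd (nat_lit 78) (nat_lit 304) (nat_lit 0) (XT.lf (nat_lit 0) (nat_lit 7397147602) (nat_lit 456) (nat_lit 4619022727) (nat_lit 76) (nat_lit 630849642)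 (nat_lit 162) (nat_lit 5) (nat_lit 168) (nat_lit 5) (nat_lit 163) (nat_lit 5) (nat_lit 477) (nat_lit 378) (nat_lit 285)) (XT.lf (nat_lit 0) (nat_lit 4305251732) (nat_lit 304) (nat_lit 7177171250) (nat_lit 380) (nat_lit 1307208355) (nat_lit 158) (nat_lit 5) (nat_lit 162) (nat_lit 5) (nat_lit 163) (nat_lit 5) (nat_lit 478) (nat_lit 378) (nat_lit 284))))) (XT.nd (nat_lit 234) (nat_lit 684) (nat_lit 0) (XT.nd (nat_lit 78) (nat_lit 304) (nat_lit 0) (XT.lf (nat_lit 0) (nat_lit 482007144) (nat_lit 380) (nat_lit 2204613546) (nat_lit 456) (nat_lit 10247963568) (nat_lit 152) (nat_lit 5) (nat_lit 157) (nat_lit 5) (nat_lit 158) (nat_lit 5) (nat_lit 479) (nat_lit 378) (nat_lit 283)) (XT.nd (nat_lit 78) (nat_lit 304) (nat_lit 0) (XT.lf (nat_lit 0) (nat_lit 6792485466) (nat_lit 456) (nat_lit 3408991877) (nat_lit 76) (nat_lit 2879792830) (nat_lit 152) (nat_lit 5) (nat_lit 158) (nat_lit 5) (nat_lit 153) (nat_lit 5) (nat_lit 480) (nat_lit 378) (nat_lit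 282)) (XT.lf (nat_lit 0) (nat_lit 5835463951) (nat_lit 304) (nat_lit 5171724288) (nat_lit 380) (nat_lit 2223167153) (nat_lit 148) (nat_lit 5) (nat_lit 152) (nat_lit 5) (nat_lit 153) (nat_lit 5) (nat_lit 481) (nat_lit 378) (nat_lit 281)))) (XT.nd (nat_lit 78) (nat_lit 304) (nat_lit 0) (XT.lf (nat_lit 0) (nat_lit 1899322137) (nat_lit 304) (nat_lit 8867993) (nat_lit 380) (nat_lit 11473789220) (nat_lit 143) (nat_lit 5) (nat_lit 147) (nat_lit 5) (nat_lit 148) (nat_lit 5) (nat_lit 482) (nat_lit 378) (nat_lit 280)) (XT.nd (nat_lit 78) (nat_lit 304) (nat_lit 0) (XT.lf (nat_lit 0) (nat_lit 6150946052) (nat_lit 380) (nat_lit 2147296118) (nat_lit 76) (nat_lit 5236928922) (nat_lit 143) (nat_lit 5) (nat_lit 148) (nat_lit 5) (nat_lit 144) (nat_lit 5) (nat_lit 483) (nat_lit 378) (nat_lit 279)) (XT.lf (nat_lit 0) (nat_lit 7430869314) (nat_lit 304) (nat_lit 3070920186) (nat_lit 380) (nat_lit 3189172520) (nat_lit 139) (nat_lit 5) (nat_lit 143) (nat_lit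 5) (nat_lit 144) (nat_lit 5) (nat_lit 484) (nat_lit 378) (nat_lit 278))))))))
noncomputable def xc98 : XT := (XT.nd (nat_lit 1560) (nat_lit 228) (nat_lit 0) (XT.nd (nat_lit 780) (nat_lit 1976) (nat_lit 0) (XT.nd (nat_lit 390) (nat_lit 912) (nat_lit 0) (XT.nd (nat_lit 156) (nat_lit 912) (nat_lit 0) (XT.nd (nat_lit 78) (nat_lit 0) (nat_lit 0) (XT.lf (nat_lit 0) (nat_lit 1101761369) (nat_lit 380) (nat_lit 10488493803) (nat_lit 76) (nat_lit 2258946623) (nat_lit 134) (nat_lit 5) (nat_lit 139) (nat_lit 5) (nat_lit 135) (nat_lit 5) (nat_lit 485) (nat_lit 378) (nat_lit 277)) (XT.lf (nat_lit 0) (nat_lit 5473580798) (nat_lit 380) (nat_lit 834199874) (nat_lit 76) (nat_lit 7701648687) (nat_lit 134) (nat_lit 5) (nat_lit 139) (nat_lit 5) (nat_lit 135) (nat_lit 5) (nat_lit 486) (nat_lit 378) (nat_lit 276))) (XT.nd (nat_lit 78) (nat_lit 608) (nat_lit 0) (XT.lf (nat_lit 0) (nat_lit 9091753423) (nat_lit 304) (nat_lit 875707028) (nat_lit 380) (nat_lit 4204708546)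 (nat_lit 130) (nat_lit 5) (nat_lit 134) (nat_lit 5) (nat_lit 135) (nat_lit 5) (nat_lit 487) (nat_lit 378) (nat_lit 275)) (XT.nd (nat_lit 78) (nat_lit 228) (nat_lit 0) (XT.lf (nat_lit 0) (nat_lit 253875298) (nat_lit 380) (nat_lit 9456554155) (nat_lit 76) (nat_lit 4626834005) (nat_lit 125) (nat_lit 5) (nat_lit 130) (nat_lit 5) (nat_lit 126) (nat_lit 5) (nat_lit 488) (nat_lit 378) (nat_lit 274)) (XT.lf (nat_lit 0) (nat_lit 537289447) (nat_lit 228) (nat_lit 4227457844) (nat_lit 304) (nat_lit 9739968304) (nat_lit 122) (nat_lit 5) (nat_lit 125) (nat_lit 5) (nat_lit 126) (nat_lit 5) (nat_lit 489) (nat_lit 378) (nat_lit 273))))) (XT.nd (nat_lit 156) (nat_lit 608) (nat_lit 0) (XT.nd (nat_lit 78) (nat_lit 304) (nat_lit 0) (XT.lf (nat_lit 0) (nat_lit 9414442676) (nat_lit 304) (nat_lit 3865271447) (nat_lit 76) (nat_lit 1394830532) (nat_lit 122) (nat_lit 5) (nat_lit 126) (nat_lit 5) (nat_lit 123) (nat_lit 5) (nat_lit 490) (nat_lit 378) (nat_lit 272))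 (XT.lf (nat_lit 0) (nat_lit 6455461158) (nat_lit 304) (nat_lit 7747917249) (nat_lit 380) (nat_lit 643466961) (nat_lit 118) (nat_lit 5) (nat_lit 122) (nat_lit 5) (nat_lit 123) (nat_lit 5) (nat_lit 491) (nat_lit 378) (nat_lit 271))) (XT.nd (nat_lit 78) (nat_lit 304) (nat_lit 0) (XT.lf (nat_lit 0) (nat_lit 1972042757) (nat_lit 228) (nat_lit 2055438484) (nat_lit 304) (nat_lit 10994276930) (nat_lit 114) (nat_lit 5) (nat_lit 117) (nat_lit 5) (nat_lit 118) (nat_lit 5) (nat_lit 492) (nat_lit 378) (nat_lit 270)) (XT.nd (nat_lit 78) (nat_lit 304) (nat_lit 0) (XT.lf (nat_lit 0) (nat_lit 8840760534) (nat_lit 304) (nat_lit 2611824613) (nat_lit 76) (nat_lit 3746348454) (nat_lit 114) (nat_lit 5) (nat_lit 118) (nat_lit 5) (nat_lit 115) (nat_lit 5) (nat_lit 493) (nat_lit 378) (nat_lit 269)) (XT.lf (nat_lit 0) (nat_lit 8087794785) (nat_lit 304) (nat_lit 5705578550) (nat_lit 380) (nat_lit 1585417847) (nat_lit 110) (nat_lit 5) (nat_lit 114) (nat_lit 5) (nat_lit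 115) (nat_lit 5) (nat_lit 494) (nat_lit 378) (nat_lit 268)))))) (XT.nd (nat_lit 390) (nat_lit 836) (nat_lit 0) (XT.nd (nat_lit 156) (nat_lit 836) (nat_lit 0) (XT.nd (nat_lit 78) (nat_lit 0) (nat_lit 0) (XT.lf (nat_lit 0) (nat_lit 3258146126) (nat_lit 304) (nat_lit 12103473747) (nat_lit 76) (nat_lit 199831597) (nat_lit 106) (nat_lit 5) (nat_lit 110) (nat_lit 5) (nat_lit 107) (nat_lit 5) (nat_lit 495) (nat_lit 378) (nat_lit 267)) (XT.lf (nat_lit 0) (nat_lit 8241487887) (nat_lit 304) (nat_lit 1314257685) (nat_lit 76) (nat_lit 6190527096) (nat_lit 106) (nat_lit 5) (nat_lit 110) (nat_lit 5) (nat_lit 107) (nat_lit 5) (nat_lit 496) (nat_lit 378) (nat_lit 266))) (XT.nd (nat_lit 78) (nat_lit 532) (nat_lit 0) (XT.lf (nat_lit 0) (nat_lit 9780163069) (nat_lit 304) (nat_lit 3585361819) (nat_lit 380) (nat_lit 2568444834) (nat_lit 102) (nat_lit 5) (nat_lit 106) (nat_lit 5) (nat_lit 107) (nat_lit 5) (nat_lit 497) (nat_lit 378) (nat_lit 265)) (XT.nd (nat_lit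 78) (nat_lit 228) (nat_lit 0) (XT.lf (nat_lit 0) (nat_lit 2469715475) (nat_lit 304) (nat_lit 11141605299) (nat_lit 76) (nat_lit 2513070768) (nat_lit 98) (nat_lit 5) (nat_lit 102) (nat_lit 5) (nat_lit 99) (nat_lit 5) (nat_lit 498) (nat_lit 378) (nat_lit 264)) (XT.lf (nat_lit 0) (nat_lit 28099753) (nat_lit 228) (nat_lit 7589329291) (nat_lit 304) (nat_lit 8699989577) (nat_lit 95) (nat_lit 5) (nat_lit 98) (nat_lit 5) (nat_lit 99) (nat_lit 5) (nat_lit 499) (nat_lit 378) (nat_lit 263))))) (XT.nd (nat_lit 156) (nat_lit 532) (nat_lit 0) (XT.nd (nat_lit 78) (nat_lit 304) (nat_lit 0) (XT.lf (nat_lit 0) (nat_lit 11533509514) (nat_lit 228) (nat_lit 1387194247) (nat_lit 304) (nat_lit 3592550342) (nat_lit 95) (nat_lit 5) (nat_lit 98) (nat_lit 5) (nat_lit 99) (nat_lit 5) (nat_lit 500) (nat_lit 378) (nat_lit 262)) (XT.lf (nat_lit 0) (nat_lit 1649086268) (nat_lit 304) (nat_lit 10150939036) (nat_lit 76) (nat_lit 4911705886) (nat_lit 91) (nat_lit 5) (nat_lit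 95) (nat_lit 5) (nat_lit 92) (nat_lit 5) (nat_lit 501) (nat_lit 378) (nat_lit 261))) (XT.nd (nat_lit 78) (nat_lit 304) (nat_lit 0) (XT.lf (nat_lit 0) (nat_lit 1433407091) (nat_lit 228) (nat_lit 5544428254) (nat_lit 304) (nat_lit 9935259860) (nat_lit 88) (nat_lit 5) (nat_lit 91) (nat_lit 5) (nat_lit 92) (nat_lit 5) (nat_lit 502) (nat_lit 378) (nat_lit 260)) (XT.nd (nat_lit 78) (nat_lit 304) (nat_lit 0) (XT.lf (nat_lit 0) (nat_lit 12465439253) (nat_lit 304) (nat_lit 3774363841) (nat_lit 76) (nat_lit 877637808) (nat_lit 88) (nat_lit 5) (nat_lit 92) (nat_lit 5) (nat_lit 89) (nat_lit 5) (nat_lit 503) (nat_lit 378) (nat_lit 259)) (XT.lf (nat_lit 0) (nat_lit 796364670) (nat_lit 304) (nat_lit 9131514443) (nat_lit 76) (nat_lit 7396516554) (nat_lit 84) (nat_lit 5) (nat_lit 88) (nat_lit 5) (nat_lit 85) (nat_lit 5) (nat_lit 504) (nat_lit 378) (nat_lit 258))))))) (XT.nd (nat_lit 50388) (nat_lit 0) (nat_lit 49628) (XT.nd (nat_lit 49998) (nat_lit 0)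 (nat_lit 54264) (XT.nd (nat_lit 49764) (nat_lit 0) (nat_lit 54948) (XT.nd (nat_lit 78) (nat_lit 0) (nat_lit 0) (XT.lf (nat_lit 0) (nat_lit 2884830449) (nat_lit 228) (nat_lit 3429603343) (nat_lit 304) (nat_lit 11219980223) (nat_lit 81) (nat_lit 5) (nat_lit 84) (nat_lit 5) (nat_lit 85) (nat_lit 5) (nat_lit 505) (nat_lit 378) (nat_lit 257)) (XT.lf (nat_lit 0) (nat_lit 12004124335) (nat_lit 304) (nat_lit 2541045663) (nat_lit 76) (nat_lit 3202237533) (nat_lit 81) (nat_lit 5) (nat_lit 85) (nat_lit 5) (nat_lit 82) (nat_lit 5) (nat_lit 506) (nat_lit 378) (nat_lit 256))) (XT.nd (nat_lit 78) (nat_lit 228) (nat_lit 0) (XT.lf (nat_lit 0) (nat_lit 42808391) (nat_lit 76) (nat_lit 1589628230) (nat_lit 76) (nat_lit 1589628230) (nat_lit 807) (nat_lit 4) (nat_lit 808) (nat_lit 5) (nat_lit 808) (nat_lit 4) (nat_lit 382) (nat_lit 379) (nat_lit 379)) (XT.nd (nat_lit 78) (nat_lit 152) (nat_lit 0) (XT.lf (nat_lit 0) (nat_lit 42246951) (nat_lit 152) (nat_lit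 3010802519) (nat_lit 76) (nat_lit 3393609932) (nat_lit 806) (nat_lit 5) (nat_lit 808) (nat_lit 5) (nat_lit 807) (nat_lit 4) (nat_lit 383) (nat_lit 379) (nat_lit 378)) (XT.lf (nat_lit 0) (nat_lit 342567861) (nat_lit 152) (nat_lit 2862452895) (nat_lit 228) (nat_lit 3245410429) (nat_lit 804) (nat_lit 5) (nat_lit 806) (nat_lit 5) (nat_lit 807) (nat_lit 4) (nat_lit 384) (nat_lit 379) (nat_lit 377))))) (XT.nd (nat_lit 156) (nat_lit 380) (nat_lit 0) (XT.nd (nat_lit 78) (nat_lit 304) (nat_lit 0) (XT.lf (nat_lit 0) (nat_lit 3759379770) (nat_lit 152) (nat_lit 2610356990) (nat_lit 228) (nat_lit 85767910) (nat_lit 804) (nat_lit 5) (nat_lit 806) (nat_lit 5) (nat_lit 807) (nat_lit 4) (nat_lit 385) (nat_lit 379) (nat_lit 376)) (XT.lf (nat_lit 0) (nat_lit 728397556) (nat_lit 228) (nat_lit 2291807706) (nat_lit 304) (nat_lit 3441581384) (nat_lit 800) (nat_lit 5) (nat_lit 803) (nat_lit 5) (nat_lit 804) (nat_lit 5) (nat_lit 386) (nat_lit 379) (nat_lit 375)))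 (XT.nd (nat_lit 78) (nat_lit 380) (nat_lit 0) (XT.lf (nat_lit 0) (nat_lit 4213039376) (nat_lit 228) (nat_lit 1913041129) (nat_lit 304) (nat_lit 343323797) (nat_lit 800) (nat_lit 5) (nat_lit 803) (nat_lit 5) (nat_lit 804) (nat_lit 5) (nat_lit 387) (nat_lit 379) (nat_lit 374)) (XT.nd (nat_lit 78) (nat_lit 0) (nat_lit 0) (XT.lf (nat_lit 0) (nat_lit 1243711092) (nat_lit 304) (nat_lit 1466198175) (nat_lit 380) (nat_lit 3768300171) (nat_lit 795) (nat_lit 5) (nat_lit 799) (nat_lit 5) (nat_lit 800) (nat_lit 5) (nat_lit 388) (nat_lit 379) (nat_lit 373)) (XT.lf (nat_lit 0) (nat_lit 4797852256) (nat_lit 304) (nat_lit 960012514) (nat_lit 380) (nat_lit 730515423) (nat_lit 795) (nat_lit 5) (nat_lit 799) (nat_lit 5) (nat_lit 800) (nat_lit 5) (nat_lit 389) (nat_lit 379) (nat_lit 372)))))) (XT.nd (nat_lit 390) (nat_lit 3040) (nat_lit 0) (XT.nd (nat_lit 156) (nat_lit 1140) (nat_lit 0) (XT.nd (nat_lit 78) (nat_lit 0) (nat_lit 0) (XT.lf (nat_lit 0) (nat_lit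 1889367151) (nat_lit 380) (nat_lit 384000207) (nat_lit 456) (nat_lit 4226351519) (nat_lit 789) (nat_lit 5) (nat_lit 794) (nat_lit 5) (nat_lit 795) (nat_lit 5) (nat_lit 390) (nat_lit 379) (nat_lit 371)) (XT.lf (nat_lit 0) (nat_lit 5265828806) (nat_lit 456) (nat_lit 999275684) (nat_lit 76) (nat_lit 247317620) (nat_lit 789) (nat_lit 5) (nat_lit 795) (nat_lit 5) (nat_lit 790) (nat_lit 5) (nat_lit 391) (nat_lit 379) (nat_lit 370))) (XT.nd (nat_lit 78) (nat_lit 608) (nat_lit 0) (XT.lf (nat_lit 0) (nat_lit 1715777822) (nat_lit 532) (nat_lit 3866073942) (nat_lit 76) (nat_lit 944364245) (nat_lit 782) (nat_lit 5) (nat_lit 789) (nat_lit 5) (nat_lit 783) (nat_lit 5) (nat_lit 392) (nat_lit 379) (nat_lit 369)) (XT.nd (nat_lit 78) (nat_lit 608) (nat_lit 0) (XT.lf (nat_lit 0) (nat_lit 4655129079) (nat_lit 532) (nat_lit 187686512) (nat_lit 76) (nat_lit 1698616903) (nat_lit 782) (nat_lit 5) (nat_lit 789) (nat_lit 5) (nat_lit 783) (nat_lit 5) (nat_lit 393)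 (nat_lit 379) (nat_lit 368)) (XT.lf (nat_lit 0) (nat_lit 1033852203) (nat_lit 608) (nat_lit 2998303328) (nat_lit 76) (nat_lit 2525617088) (nat_lit 774) (nat_lit 5) (nat_lit 782) (nat_lit 5) (nat_lit 775) (nat_lit 5) (nat_lit 394) (nat_lit 379) (nat_lit 367))))) (XT.nd (nat_lit 234) (nat_lit 1672) (nat_lit 0) (XT.nd (nat_lit 78) (nat_lit 760) (nat_lit 0) (XT.lf (nat_lit 0) (nat_lit 761914109) (nat_lit 608) (nat_lit 3161195226) (nat_lit 684) (nat_lit 2652361723) (nat_lit 766) (nat_lit 5) (nat_lit 774) (nat_lit 5) (nat_lit 775) (nat_lit 5) (nat_lit 395) (nat_lit 379) (nat_lit 366)) (XT.nd (nat_lit 78) (nat_lit 684) (nat_lit 0) (XT.lf (nat_lit 0) (nat_lit 223599083) (nat_lit 684) (nat_lit 2002975586) (nat_lit 76) (nat_lit 4367900895) (nat_lit 765) (nat_lit 5) (nat_lit 774) (nat_lit 5) (nat_lit 766) (nat_lit 5) (nat_lit 396) (nat_lit 379) (nat_lit 365)) (XT.lf (nat_lit 0) (nat_lit 1845451690) (nat_lit 684) (nat_lit 1219838688) (nat_lit 760)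 (nat_lit 3549344613) (nat_lit 756) (nat_lit 5) (nat_lit 765) (nat_lit 5) (nat_lit 766) (nat_lit 5) (nat_lit 397) (nat_lit 379) (nat_lit 364)))) (XT.nd (nat_lit 78) (nat_lit 1672) (nat_lit 0) (XT.lf (nat_lit 0) (nat_lit 5753290618) (nat_lit 684) (nat_lit 156725925) (nat_lit 760) (nat_lit 726257042) (nat_lit 756) (nat_lit 5) (nat_lit 765) (nat_lit 5) (nat_lit 766) (nat_lit 5) (nat_lit 398) (nat_lit 379) (nat_lit 363)) (XT.nd (nat_lit 78) (nat_lit 836) (nat_lit 0) (XT.lf (nat_lit 0) (nat_lit 2084964271) (nat_lit 836) (nat_lit 3602970695) (nat_lit 76) (nat_lit 970932116) (nat_lit 745) (nat_lit 5) (nat_lit 756) (nat_lit 5) (nat_lit 746) (nat_lit 5) (nat_lit 399) (nat_lit 379) (nat_lit 362)) (XT.lf (nat_lit 0) (nat_lit 356657661) (nat_lit 836) (nat_lit 4530145457) (nat_lit 912) (nat_lit 1796130968) (nat_lit 734) (nat_lit 5) (nat_lit 745) (nat_lit 5) (nat_lit 746) (nat_lit 5) (nat_lit 400) (nat_lit 379) (nat_lit 361))))))))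
noncomputable def xc99 : XT := (XT.nd (nat_lit 1638) (nat_lit 12008) (nat_lit 0) (XT.nd (nat_lit 780) (nat_lit 11476) (nat_lit 0) (XT.nd (nat_lit 390) (nat_lit 3800) (nat_lit 0) (XT.nd (nat_lit 156) (nat_lit 2128) (nat_lit 0) (XT.nd (nat_lit 78) (nat_lit 912) (nat_lit 0) (XT.lf (nat_lit 0) (nat_lit 983279213) (nat_lit 912) (nat_lit 2315994436) (nat_lit 76) (nat_lit 3408880378) (nat_lit 733) (nat_lit 5) (nat_lit 745) (nat_lit 5) (nat_lit 734) (nat_lit 5) (nat_lit 401) (nat_lit 379) (nat_lit 360)) (XT.lf (nat_lit 0) (nat_lit 1739908597) (nat_lit 912) (nat_lit 2002253587) (nat_lit 988) (nat_lit 2992520039) (nat_lit 721) (nat_lit 5) (nat_lit 733) (nat_lit 5) (nat_lit 734) (nat_lit 5) (nat_lit 402) (nat_lit 379) (nat_lit 359))) (XT.nd (nat_lit 78) (nat_lit 2128) (nat_lit 0) (XT.lf (nat_lit 0) (nat_lit 5863114103) (nat_lit 912) (nat_lit 646215209) (nat_lit 988) (nat_lit 253349541) (nat_lit 721) (nat_lit 5) (nat_lit 733) (nat_lit 5) (nat_lit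 734) (nat_lit 5) (nat_lit 403) (nat_lit 379) (nat_lit 358)) (XT.nd (nat_lit 78) (nat_lit 1064) (nat_lit 0) (XT.lf (nat_lit 0) (nat_lit 2471966043) (nat_lit 1064) (nat_lit 3538206841) (nat_lit 76) (nat_lit 781438983) (nat_lit 707) (nat_lit 5) (nat_lit 721) (nat_lit 5) (nat_lit 708) (nat_lit 5) (nat_lit 404) (nat_lit 379) (nat_lit 357)) (XT.lf (nat_lit 0) (nat_lit 636818026) (nat_lit 1064) (nat_lit 4565475218) (nat_lit 1140) (nat_lit 1619718851) (nat_lit 693) (nat_lit 5) (nat_lit 707) (nat_lit 5) (nat_lit 708) (nat_lit 5) (nat_lit 405) (nat_lit 379) (nat_lit 356))))) (XT.nd (nat_lit 156) (nat_lit 2584) (nat_lit 0) (XT.nd (nat_lit 78) (nat_lit 1140) (nat_lit 0) (XT.lf (nat_lit 0) (nat_lit 1083130561) (nat_lit 1140) (nat_lit 1963418850) (nat_lit 76) (nat_lit 3807047651) (nat_lit 692) (nat_lit 5) (nat_lit 707) (nat_lit 5) (nat_lit 693) (nat_lit 5) (nat_lit 406) (nat_lit 379) (nat_lit 355)) (XT.lf (nat_lit 0) (nat_lit 2316707292) (nat_lit 1140)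 (nat_lit 1457780721) (nat_lit 1216) (nat_lit 3111988808) (nat_lit 677) (nat_lit 5) (nat_lit 692) (nat_lit 5) (nat_lit 693) (nat_lit 5) (nat_lit 407) (nat_lit 379) (nat_lit 354))) (XT.nd (nat_lit 78) (nat_lit 2584) (nat_lit 0) (XT.lf (nat_lit 0) (nat_lit 6476011684) (nat_lit 1216) (nat_lit 258528332) (nat_lit 76) (nat_lit 186347377) (nat_lit 677) (nat_lit 5) (nat_lit 693) (nat_lit 5) (nat_lit 678) (nat_lit 5) (nat_lit 408) (nat_lit 379) (nat_lit 353)) (XT.nd (nat_lit 78) (nat_lit 1292) (nat_lit 0) (XT.lf (nat_lit 0) (nat_lit 2225276168) (nat_lit 1292) (nat_lit 2833250249) (nat_lit 76) (nat_lit 1897573445) (nat_lit 660) (nat_lit 5) (nat_lit 677) (nat_lit 5) (nat_lit 661) (nat_lit 5) (nat_lit 409) (nat_lit 379) (nat_lit 352)) (XT.lf (nat_lit 0) (nat_lit 1574857267) (nat_lit 1292) (nat_lit 3323598566) (nat_lit 1368) (nat_lit 2094390303) (nat_lit 643) (nat_lit 5) (nat_lit 660) (nat_lit 5) (nat_lit 661) (nat_lit 5) (nat_lit 410) (nat_lit 379)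 (nat_lit 351)))))) (XT.nd (nat_lit 390) (nat_lit 6992) (nat_lit 0) (XT.nd (nat_lit 156) (nat_lit 3040) (nat_lit 0) (XT.nd (nat_lit 78) (nat_lit 1368) (nat_lit 0) (XT.lf (nat_lit 0) (nat_lit 550153990) (nat_lit 1368) (nat_lit 971059058) (nat_lit 76) (nat_lit 5509773397) (nat_lit 642) (nat_lit 5) (nat_lit 660) (nat_lit 5) (nat_lit 643) (nat_lit 5) (nat_lit 411) (nat_lit 379) (nat_lit 350)) (XT.lf (nat_lit 0) (nat_lit 3190136807) (nat_lit 1444) (nat_lit 3520832008) (nat_lit 76) (nat_lit 359232038) (nat_lit 624) (nat_lit 5) (nat_lit 643) (nat_lit 5) (nat_lit 625) (nat_lit 5) (nat_lit 412) (nat_lit 379) (nat_lit 349))) (XT.nd (nat_lit 78) (nat_lit 1596) (nat_lit 0) (XT.lf (nat_lit 0) (nat_lit 1019980194) (nat_lit 1444) (nat_lit 4832173337) (nat_lit 1520) (nat_lit 1258661332) (nat_lit 605) (nat_lit 5) (nat_lit 624) (nat_lit 5) (nat_lit 625) (nat_lit 5) (nat_lit 413) (nat_lit 379) (nat_lit 348)) (XT.nd (nat_lit 78) (nat_lit 1520) (nat_lit 0)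 (XT.lf (nat_lit 0) (nat_lit 1366776558) (nat_lit 1520) (nat_lit 1508763610) (nat_lit 76) (nat_lit 4277113876) (nat_lit 604) (nat_lit 5) (nat_lit 624) (nat_lit 5) (nat_lit 605) (nat_lit 5) (nat_lit 414) (nat_lit 379) (nat_lit 347)) (XT.lf (nat_lit 0) (nat_lit 3151887458) (nat_lit 1520) (nat_lit 843897682) (nat_lit 1596) (nat_lit 3200020164) (nat_lit 584) (nat_lit 5) (nat_lit 604) (nat_lit 5) (nat_lit 605) (nat_lit 5) (nat_lit 415) (nat_lit 379) (nat_lit 346))))) (XT.nd (nat_lit 234) (nat_lit 3648) (nat_lit 0) (XT.nd (nat_lit 78) (nat_lit 1748) (nat_lit 0) (XT.lf (nat_lit 0) (nat_lit 640102238) (nat_lit 1596) (nat_lit 6007803207) (nat_lit 1672) (nat_lit 592503513) (nat_lit 563) (nat_lit 5) (nat_lit 584) (nat_lit 5) (nat_lit 585) (nat_lit 5) (nat_lit 416) (nat_lit 379) (nat_lit 345)) (XT.nd (nat_lit 78) (nat_lit 1672) (nat_lit 0) (XT.lf (nat_lit 0) (nat_lit 2021541162) (nat_lit 1672) (nat_lit 1879144313) (nat_lit 76) (nat_lit 3385321005)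 (nat_lit 562) (nat_lit 5) (nat_lit 584) (nat_lit 5) (nat_lit 563) (nat_lit 5) (nat_lit 417) (nat_lit 379) (nat_lit 344)) (XT.lf (nat_lit 0) (nat_lit 2924588072) (nat_lit 1672) (nat_lit 1723932638) (nat_lit 1748) (nat_lit 2684545162) (nat_lit 540) (nat_lit 5) (nat_lit 562) (nat_lit 5) (nat_lit 563) (nat_lit 5) (nat_lit 418) (nat_lit 379) (nat_lit 343)))) (XT.nd (nat_lit 78) (nat_lit 1900) (nat_lit 0) (XT.lf (nat_lit 0) (nat_lit 424311878) (nat_lit 1748) (nat_lit 6872705044) (nat_lit 1824) (nat_lit 84669986) (nat_lit 517) (nat_lit 5) (nat_lit 540) (nat_lit 5) (nat_lit 541) (nat_lit 5) (nat_lit 419) (nat_lit 379) (nat_lit 342)) (XT.nd (nat_lit 78) (nat_lit 1824) (nat_lit 0) (XT.lf (nat_lit 0) (nat_lit 2525381787) (nat_lit 1824) (nat_lit 2092800558) (nat_lit 76) (nat_lit 2812927693) (nat_lit 516) (nat_lit 5) (nat_lit 540) (nat_lit 5) (nat_lit 517) (nat_lit 5) (nat_lit 420) (nat_lit 379) (nat_lit 341)) (XT.lf (nat_lit 0) (nat_lit 2859590470)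 (nat_lit 1824) (nat_lit 2297097937) (nat_lit 1900) (nat_lit 2325418279) (nat_lit 492) (nat_lit 5) (nat_lit 516) (nat_lit 5) (nat_lit 517) (nat_lit 5) (nat_lit 421) (nat_lit 379) (nat_lit 340))))))) (XT.nd (nat_lit 780) (nat_lit 5320) (nat_lit 0) (XT.nd (nat_lit 390) (nat_lit 3572) (nat_lit 0) (XT.nd (nat_lit 156) (nat_lit 1900) (nat_lit 0) (XT.nd (nat_lit 78) (nat_lit 0) (nat_lit 0) (XT.lf (nat_lit 0) (nat_lit 271502909) (nat_lit 1216) (nat_lit 7173840969) (nat_lit 76) (nat_lit 89359095) (nat_lit 476) (nat_lit 5) (nat_lit 492) (nat_lit 5) (nat_lit 477) (nat_lit 5) (nat_lit 422) (nat_lit 379) (nat_lit 339)) (XT.lf (nat_lit 0) (nat_lit 2888291844) (nat_lit 1216) (nat_lit 2159379876) (nat_lit 76) (nat_lit 2540390710) (nat_lit 476) (nat_lit 5) (nat_lit 492) (nat_lit 5) (nat_lit 477) (nat_lit 5) (nat_lit 423) (nat_lit 379) (nat_lit 338))) (XT.nd (nat_lit 78) (nat_lit 988) (nat_lit 0) (XT.lf (nat_lit 0) (nat_lit 2947559409) (nat_lit 912) (nat_lit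 2582524124) (nat_lit 988) (nat_lit 2112952204) (nat_lit 464) (nat_lit 5) (nat_lit 476) (nat_lit 5) (nat_lit 477) (nat_lit 5) (nat_lit 424) (nat_lit 379) (nat_lit 337)) (XT.nd (nat_lit 78) (nat_lit 0) (nat_lit 0) (XT.lf (nat_lit 0) (nat_lit 442609557) (nat_lit 912) (nat_lit 47397098) (nat_lit 988) (nat_lit 7209607655) (nat_lit 451) (nat_lit 5) (nat_lit 463) (nat_lit 5) (nat_lit 464) (nat_lit 5) (nat_lit 425) (nat_lit 379) (nat_lit 336)) (XT.lf (nat_lit 0) (nat_lit 3119392453) (nat_lit 988) (nat_lit 2087645718) (nat_lit 76) (nat_lit 2549953747) (nat_lit 451) (nat_lit 5) (nat_lit 464) (nat_lit 5) (nat_lit 452) (nat_lit 5) (nat_lit 426) (nat_lit 379) (nat_lit 335))))) (XT.nd (nat_lit 156) (nat_lit 1748) (nat_lit 0) (XT.nd (nat_lit 78) (nat_lit 988) (nat_lit 0) (XT.lf (nat_lit 0) (nat_lit 3180048314) (nat_lit 836) (nat_lit 2597606728) (nat_lit 912) (nat_lit 2038336255) (nat_lit 440) (nat_lit 5) (nat_lit 451) (nat_lit 5) (nat_lit 452) (nat_lit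 5) (nat_lit 427) (nat_lit 379) (nat_lit 334)) (XT.lf (nat_lit 0) (nat_lit 579444207) (nat_lit 988) (nat_lit 7213756069) (nat_lit 76) (nat_lit 83399389) (nat_lit 427) (nat_lit 5) (nat_lit 440) (nat_lit 5) (nat_lit 428) (nat_lit 5) (nat_lit 428) (nat_lit 379) (nat_lit 333))) (XT.nd (nat_lit 78) (nat_lit 1748) (nat_lit 0) (XT.lf (nat_lit 0) (nat_lit 3226995371) (nat_lit 988) (nat_lit 1885539868) (nat_lit 76) (nat_lit 2825521326) (nat_lit 427) (nat_lit 5) (nat_lit 440) (nat_lit 5) (nat_lit 428) (nat_lit 5) (nat_lit 429) (nat_lit 379) (nat_lit 332)) (XT.nd (nat_lit 78) (nat_lit 912) (nat_lit 0) (XT.lf (nat_lit 0) (nat_lit 3549437696) (nat_lit 836) (nat_lit 2358129249) (nat_lit 912) (nat_lit 2093574270) (nat_lit 416) (nat_lit 5) (nat_lit 427) (nat_lit 5) (nat_lit 428) (nat_lit 5) (nat_lit 430) (nat_lit 379) (nat_lit 331)) (XT.lf (nat_lit 0) (nat_lit 548384827) (nat_lit 912) (nat_lit 7052612142) (nat_lit 76) (nat_lit 464822155) (nat_lit 404)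 (nat_lit 5) (nat_lit 416) (nat_lit 5) (nat_lit 405) (nat_lit 5) (nat_lit 431) (nat_lit 379) (nat_lit 330)))))) (XT.nd (nat_lit 390) (nat_lit 2964) (nat_lit 0) (XT.nd (nat_lit 156) (nat_lit 1596) (nat_lit 0) (XT.nd (nat_lit 78) (nat_lit 760) (nat_lit 0) (XT.lf (nat_lit 0) (nat_lit 3218660965) (nat_lit 912) (nat_lit 1560239876) (nat_lit 76) (nat_lit 3352542763) (nat_lit 404) (nat_lit 5) (nat_lit 416) (nat_lit 5) (nat_lit 405) (nat_lit 5) (nat_lit 432) (nat_lit 379) (nat_lit 329)) (XT.lf (nat_lit 0) (nat_lit 4048878524) (nat_lit 760) (nat_lit 1878376372) (nat_lit 836) (nat_lit 2271427432) (nat_lit 394) (nat_lit 5) (nat_lit 404) (nat_lit 5) (nat_lit 405) (nat_lit 5) (nat_lit 433) (nat_lit 379) (nat_lit 328))) (XT.nd (nat_lit 78) (nat_lit 760) (nat_lit 0) (XT.lf (nat_lit 0) (nat_lit 403451558) (nat_lit 836) (nat_lit 6780145004) (nat_lit 76) (nat_lit 1083889545) (nat_lit 383) (nat_lit 5) (nat_lit 394) (nat_lit 5) (nat_lit 384) (nat_lit 5) (nat_lit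 434) (nat_lit 379) (nat_lit 327)) (XT.nd (nat_lit 78) (nat_lit 760) (nat_lit 0) (XT.lf (nat_lit 0) (nat_lit 3101251606) (nat_lit 836) (nat_lit 1118211891) (nat_lit 76) (nat_lit 4117905426) (nat_lit 383) (nat_lit 5) (nat_lit 394) (nat_lit 5) (nat_lit 384) (nat_lit 5) (nat_lit 435) (nat_lit 379) (nat_lit 326)) (XT.lf (nat_lit 0) (nat_lit 4672240188) (nat_lit 760) (nat_lit 1171238134) (nat_lit 836) (nat_lit 2565361658) (nat_lit 373) (nat_lit 5) (nat_lit 383) (nat_lit 5) (nat_lit 384) (nat_lit 5) (nat_lit 436) (nat_lit 379) (nat_lit 325))))) (XT.nd (nat_lit 234) (nat_lit 1444) (nat_lit 0) (XT.nd (nat_lit 78) (nat_lit 684) (nat_lit 0) (XT.lf (nat_lit 0) (nat_lit 150909906) (nat_lit 836) (nat_lit 6402570148) (nat_lit 76) (nat_lit 1928356110) (nat_lit 362) (nat_lit 5) (nat_lit 373) (nat_lit 5) (nat_lit 363) (nat_lit 5) (nat_lit 437) (nat_lit 379) (nat_lit 324)) (XT.nd (nat_lit 78) (nat_lit 684) (nat_lit 0) (XT.lf (nat_lit 0) (nat_lit 2880980822)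 (nat_lit 836) (nat_lit 565259228) (nat_lit 76) (nat_lit 5109836599) (nat_lit 362) (nat_lit 5) (nat_lit 373) (nat_lit 5) (nat_lit 363) (nat_lit 5) (nat_lit 438) (nat_lit 379) (nat_lit 323)) (XT.lf (nat_lit 0) (nat_lit 5414062716) (nat_lit 684) (nat_lit 248305704) (nat_lit 760) (nat_lit 2969499219) (nat_lit 353) (nat_lit 5) (nat_lit 362) (nat_lit 5) (nat_lit 363) (nat_lit 5) (nat_lit 439) (nat_lit 379) (nat_lit 322)))) (XT.nd (nat_lit 78) (nat_lit 760) (nat_lit 0) (XT.lf (nat_lit 0) (nat_lit 2782281779) (nat_lit 684) (nat_lit 5720524674) (nat_lit 760) (nat_lit 206299541) (nat_lit 344) (nat_lit 5) (nat_lit 353) (nat_lit 5) (nat_lit 354) (nat_lit 5) (nat_lit 440) (nat_lit 379) (nat_lit 321)) (XT.nd (nat_lit 78) (nat_lit 0) (nat_lit 0) (XT.lf (nat_lit 0) (nat_lit 94674675) (nat_lit 684) (nat_lit 2469398540) (nat_lit 760) (nat_lit 6223753343) (nat_lit 334) (nat_lit 5) (nat_lit 343) (nat_lit 5) (nat_lit 344) (nat_lit 5) (nat_lit 441) (nat_lit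 379) (nat_lit 320)) (XT.lf (nat_lit 0) (nat_lit 5395186158) (nat_lit 760) (nat_lit 2604247517) (nat_lit 76) (nat_lit 868498682) (nat_lit 334) (nat_lit 5) (nat_lit 344) (nat_lit 5) (nat_lit 335) (nat_lit 5) (nat_lit 442) (nat_lit 379) (nat_lit 319))))))))
noncomputable def xc100 : XT := (XT.nd (nat_lit 1560) (nat_lit 6232) (nat_lit 0) (XT.nd (nat_lit 780) (nat_lit 3800) (nat_lit 0) (XT.nd (nat_lit 390) (nat_lit 1824) (nat_lit 0) (XT.nd (nat_lit 156) (nat_lit 1292) (nat_lit 0) (XT.nd (nat_lit 78) (nat_lit 684) (nat_lit 0) (XT.lf (nat_lit 0) (nat_lit 3591361720) (nat_lit 684) (nat_lit 4694524240) (nat_lit 760) (nat_lit 663695020) (nat_lit 325) (nat_lit 5) (nat_lit 334) (nat_lit 5) (nat_lit 335) (nat_lit 5) (nat_lit 443) (nat_lit 379) (nat_lit 318)) (XT.lf (nat_lit 0) (nat_lit 864596253) (nat_lit 608) (nat_lit 1294749888) (nat_lit 684) (nat_lit 6873496908) (nat_lit 316) (nat_lit 5) (nat_lit 324) (nat_lit 5) (nat_lit 325) (nat_lit 5) (nat_lit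 444) (nat_lit 379) (nat_lit 317))) (XT.nd (nat_lit 78) (nat_lit 1292) (nat_lit 0) (XT.lf (nat_lit 0) (nat_lit 5044107297) (nat_lit 684) (nat_lit 1897655149) (nat_lit 76) (nat_lit 2175637253) (nat_lit 316) (nat_lit 5) (nat_lit 325) (nat_lit 5) (nat_lit 317) (nat_lit 5) (nat_lit 445) (nat_lit 379) (nat_lit 316)) (XT.nd (nat_lit 78) (nat_lit 684) (nat_lit 0) (XT.lf (nat_lit 0) (nat_lit 4503383645) (nat_lit 608) (nat_lit 3485537071) (nat_lit 684) (nat_lit 1214679624) (nat_lit 308) (nat_lit 5) (nat_lit 316) (nat_lit 5) (nat_lit 317) (nat_lit 5) (nat_lit 446) (nat_lit 379) (nat_lit 315)) (XT.lf (nat_lit 0) (nat_lit 1668002070) (nat_lit 684) (nat_lit 7559081143) (nat_lit 76) (nat_lit 64436747) (nat_lit 299) (nat_lit 5) (nat_lit 308) (nat_lit 5) (nat_lit 300) (nat_lit 5) (nat_lit 447) (nat_lit 379) (nat_lit 314))))) (XT.nd (nat_lit 156) (nat_lit 1216) (nat_lit 0) (XT.nd (nat_lit 78) (nat_lit 608) (nat_lit 0) (XT.lf (nat_lit 0) (nat_lit 4611964255)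 (nat_lit 684) (nat_lit 1100395845) (nat_lit 76) (nat_lit 3668279465) (nat_lit 299) (nat_lit 5) (nat_lit 308) (nat_lit 5) (nat_lit 300) (nat_lit 5) (nat_lit 448) (nat_lit 379) (nat_lit 313)) (XT.lf (nat_lit 0) (nat_lit 5514738312) (nat_lit 608) (nat_lit 2101601510) (nat_lit 684) (nat_lit 1855171055) (nat_lit 291) (nat_lit 5) (nat_lit 299) (nat_lit 5) (nat_lit 300) (nat_lit 5) (nat_lit 449) (nat_lit 379) (nat_lit 312))) (XT.nd (nat_lit 78) (nat_lit 608) (nat_lit 0) (XT.lf (nat_lit 0) (nat_lit 1103189679) (nat_lit 608) (nat_lit 6878757398) (nat_lit 76) (nat_lit 1582082929) (nat_lit 283) (nat_lit 5) (nat_lit 291) (nat_lit 5) (nat_lit 284) (nat_lit 5) (nat_lit 450) (nat_lit 379) (nat_lit 311)) (XT.nd (nat_lit 78) (nat_lit 608) (nat_lit 0) (XT.lf (nat_lit 0) (nat_lit 4102736399) (nat_lit 608) (nat_lit 215967690) (nat_lit 76) (nat_lit 5339312984) (nat_lit 283) (nat_lit 5) (nat_lit 291) (nat_lit 5) (nat_lit 284) (nat_lit 5) (nat_lit 451) (nat_lit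 379) (nat_lit 310)) (XT.lf (nat_lit 0) (nat_lit 6622309652) (nat_lit 608) (nat_lit 549814289) (nat_lit 684) (nat_lit 2581562942) (nat_lit 275) (nat_lit 5) (nat_lit 283) (nat_lit 5) (nat_lit 284) (nat_lit 5) (nat_lit 452) (nat_lit 379) (nat_lit 309)))))) (XT.nd (nat_lit 390) (nat_lit 1520) (nat_lit 0) (XT.nd (nat_lit 156) (nat_lit 1140) (nat_lit 0) (XT.nd (nat_lit 78) (nat_lit 532) (nat_lit 0) (XT.lf (nat_lit 0) (nat_lit 460017879) (nat_lit 608) (nat_lit 6122339172) (nat_lit 76) (nat_lit 3268568155) (nat_lit 267) (nat_lit 5) (nat_lit 275) (nat_lit 5) (nat_lit 268) (nat_lit 5) (nat_lit 453) (nat_lit 379) (nat_lit 308)) (XT.lf (nat_lit 0) (nat_lit 762584340) (nat_lit 532) (nat_lit 2762335898) (nat_lit 608) (nat_lit 6424905633) (nat_lit 260) (nat_lit 5) (nat_lit 267) (nat_lit 5) (nat_lit 268) (nat_lit 5) (nat_lit 454) (nat_lit 379) (nat_lit 307))) (XT.nd (nat_lit 78) (nat_lit 1140) (nat_lit 0) (XT.lf (nat_lit 0) (nat_lit 6667390730) (nat_lit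 608) (nat_lit 2234640073) (nat_lit 76) (nat_lit 1148348345) (nat_lit 260) (nat_lit 5) (nat_lit 268) (nat_lit 5) (nat_lit 261) (nat_lit 5) (nat_lit 455) (nat_lit 379) (nat_lit 306)) (XT.nd (nat_lit 78) (nat_lit 608) (nat_lit 0) (XT.lf (nat_lit 0) (nat_lit 4858003854) (nat_lit 532) (nat_lit 5032728689) (nat_lit 608) (nat_lit 261850509) (nat_lit 253) (nat_lit 5) (nat_lit 260) (nat_lit 5) (nat_lit 261) (nat_lit 5) (nat_lit 456) (nat_lit 379) (nat_lit 305)) (XT.lf (nat_lit 0) (nat_lit 1826589422) (nat_lit 532) (nat_lit 1052072010) (nat_lit 608) (nat_lit 7377884808) (nat_lit 245) (nat_lit 5) (nat_lit 252) (nat_lit 5) (nat_lit 253) (nat_lit 5) (nat_lit 457) (nat_lit 379) (nat_lit 304))))) (XT.nd (nat_lit 156) (nat_lit 1064) (nat_lit 0) (XT.nd (nat_lit 78) (nat_lit 456) (nat_lit 0) (XT.lf (nat_lit 0) (nat_lit 6102342328) (nat_lit 608) (nat_lit 1266236211) (nat_lit 76) (nat_lit 2993498238) (nat_lit 245) (nat_lit 5) (nat_lit 253) (nat_lit 5) (nat_lit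 246) (nat_lit 5) (nat_lit 458) (nat_lit 379) (nat_lit 303)) (XT.lf (nat_lit 0) (nat_lit 6069463828) (nat_lit 456) (nat_lit 3336589414) (nat_lit 532) (nat_lit 1063353555) (nat_lit 239) (nat_lit 5) (nat_lit 245) (nat_lit 5) (nat_lit 246) (nat_lit 5) (nat_lit 459) (nat_lit 379) (nat_lit 302))) (XT.nd (nat_lit 78) (nat_lit 456) (nat_lit 0) (XT.lf (nat_lit 0) (nat_lit 2170515841) (nat_lit 608) (nat_lit 7612962297) (nat_lit 76) (nat_lit 795072512) (nat_lit 231) (nat_lit 5) (nat_lit 239) (nat_lit 5) (nat_lit 232) (nat_lit 5) (nat_lit 460) (nat_lit 379) (nat_lit 301)) (XT.nd (nat_lit 78) (nat_lit 456) (nat_lit 0) (XT.lf (nat_lit 0) (nat_lit 5476187704) (nat_lit 608) (nat_lit 224828062) (nat_lit 76) (nat_lit 4988293769) (nat_lit 231) (nat_lit 5) (nat_lit 239) (nat_lit 5) (nat_lit 232) (nat_lit 5) (nat_lit 461) (nat_lit 379) (nat_lit 300)) (XT.lf (nat_lit 0) (nat_lit 7364240768) (nat_lit 456) (nat_lit 1501675169) (nat_lit 532) (nat_lit 1936008803)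 (nat_lit 225) (nat_lit 5) (nat_lit 231) (nat_lit 5) (nat_lit 232) (nat_lit 5) (nat_lit 462) (nat_lit 379) (nat_lit 299))))))) (XT.nd (nat_lit 780) (nat_lit 3040) (nat_lit 0) (XT.nd (nat_lit 390) (nat_lit 1292) (nat_lit 0) (XT.nd (nat_lit 156) (nat_lit 912) (nat_lit 0) (XT.nd (nat_lit 78) (nat_lit 456) (nat_lit 0) (XT.lf (nat_lit 0) (nat_lit 1405406289) (nat_lit 532) (nat_lit 6741138108) (nat_lit 76) (nat_lit 2769721030) (nat_lit 218) (nat_lit 5) (nat_lit 225) (nat_lit 5) (nat_lit 219) (nat_lit 5) (nat_lit 463) (nat_lit 379) (nat_lit 298)) (XT.lf (nat_lit 0) (nat_lit 899505563) (nat_lit 456) (nat_lit 3897704373) (nat_lit 532) (nat_lit 6235237383) (nat_lit 212) (nat_lit 5) (nat_lit 218) (nat_lit 5) (nat_lit 219) (nat_lit 5) (nat_lit 464) (nat_lit 379) (nat_lit 297))) (XT.nd (nat_lit 78) (nat_lit 912) (nat_lit 0) (XT.lf (nat_lit 0) (nat_lit 8275875132) (nat_lit 532) (nat_lit 2412779031) (nat_lit 76) (nat_lit 461918176) (nat_lit 212) (nat_lit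 5) (nat_lit 219) (nat_lit 5) (nat_lit 213) (nat_lit 5) (nat_lit 465) (nat_lit 379) (nat_lit 296)) (XT.nd (nat_lit 78) (nat_lit 380) (nat_lit 0) (XT.lf (nat_lit 0) (nat_lit 578541078) (nat_lit 532) (nat_lit 5809650705) (nat_lit 76) (nat_lit 4882141447) (nat_lit 205) (nat_lit 5) (nat_lit 212) (nat_lit 5) (nat_lit 206) (nat_lit 5) (nat_lit 466) (nat_lit 379) (nat_lit 295)) (XT.lf (nat_lit 0) (nat_lit 2097339846) (nat_lit 380) (nat_lit 1966294340) (nat_lit 456) (nat_lit 7328449473) (nat_lit 200) (nat_lit 5) (nat_lit 205) (nat_lit 5) (nat_lit 206) (nat_lit 5) (nat_lit 467) (nat_lit 379) (nat_lit 294))))) (XT.nd (nat_lit 156) (nat_lit 836) (nat_lit 0) (XT.nd (nat_lit 78) (nat_lit 456) (nat_lit 0) (XT.lf (nat_lit 0) (nat_lit 7645710941) (nat_lit 456) (nat_lit 1334408928) (nat_lit 76) (nat_lit 2535603591) (nat_lit 200) (nat_lit 5) (nat_lit 206) (nat_lit 5) (nat_lit 201) (nat_lit 5) (nat_lit 468) (nat_lit 379) (nat_lit 293)) (XT.lf (nat_lit 0)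 (nat_lit 6819028609) (nat_lit 456) (nat_lit 4509774708) (nat_lit 532) (nat_lit 312445259) (nat_lit 194) (nat_lit 5) (nat_lit 200) (nat_lit 5) (nat_lit 201) (nat_lit 5) (nat_lit 469) (nat_lit 379) (nat_lit 292))) (XT.nd (nat_lit 78) (nat_lit 380) (nat_lit 0) (XT.lf (nat_lit 0) (nat_lit 3276382221) (nat_lit 456) (nat_lit 8404921072) (nat_lit 76) (nat_lit 87478225) (nat_lit 188) (nat_lit 5) (nat_lit 194) (nat_lit 5) (nat_lit 189) (nat_lit 5) (nat_lit 470) (nat_lit 379) (nat_lit 291)) (XT.nd (nat_lit 78) (nat_lit 380) (nat_lit 0) (XT.lf (nat_lit 0) (nat_lit 6967590333) (nat_lit 456) (nat_lit 194118749) (nat_lit 76) (nat_lit 4736418975) (nat_lit 188) (nat_lit 5) (nat_lit 194) (nat_lit 5) (nat_lit 189) (nat_lit 5) (nat_lit 471) (nat_lit 379) (nat_lit 290)) (XT.lf (nat_lit 0) (nat_lit 8247120697) (nat_lit 380) (nat_lit 2511933785) (nat_lit 456) (nat_lit 1270478410) (nat_lit 183) (nat_lit 5) (nat_lit 188) (nat_lit 5) (nat_lit 189) (nat_lit 5)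 (nat_lit 472) (nat_lit 379) (nat_lit 289)))))) (XT.nd (nat_lit 390) (nat_lit 1444) (nat_lit 0) (XT.nd (nat_lit 156) (nat_lit 760) (nat_lit 0) (XT.nd (nat_lit 78) (nat_lit 380) (nat_lit 0) (XT.lf (nat_lit 0) (nat_lit 2449981123) (nat_lit 456) (nat_lit 7477960388) (nat_lit 76) (nat_lit 2234914533) (nat_lit 177) (nat_lit 5) (nat_lit 183) (nat_lit 5) (nat_lit 178) (nat_lit 5) (nat_lit 473) (nat_lit 379) (nat_lit 288)) (XT.lf (nat_lit 0) (nat_lit 1020463213) (nat_lit 380) (nat_lit 5229332853) (nat_lit 456) (nat_lit 6048442478) (nat_lit 172) (nat_lit 5) (nat_lit 177) (nat_lit 5) (nat_lit 178) (nat_lit 5) (nat_lit 474) (nat_lit 379) (nat_lit 287))) (XT.nd (nat_lit 78) (nat_lit 760) (nat_lit 0) (XT.lf (nat_lit 0) (nat_lit 9748312149) (nat_lit 380) (nat_lit 400862057) (nat_lit 456) (nat_lit 2286683151) (nat_lit 172) (nat_lit 5) (nat_lit 177) (nat_lit 5) (nat_lit 178) (nat_lit 5) (nat_lit 475) (nat_lit 379) (nat_lit 286)) (XT.nd (nat_lit 78) (nat_lit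 380) (nat_lit 0) (XT.lf (nat_lit 0) (nat_lit 1572943106) (nat_lit 380) (nat_lit 6502334542) (nat_lit 76) (nat_lit 4499890297) (nat_lit 167) (nat_lit 5) (nat_lit 172) (nat_lit 5) (nat_lit 168) (nat_lit 5) (nat_lit 476) (nat_lit 379) (nat_lit 285)) (XT.lf (nat_lit 0) (nat_lit 2298589012) (nat_lit 380) (nat_lit 3190200068) (nat_lit 456) (nat_lit 7227980448) (nat_lit 162) (nat_lit 5) (nat_lit 167) (nat_lit 5) (nat_lit 168) (nat_lit 5) (nat_lit 477) (nat_lit 379) (nat_lit 284))))) (XT.nd (nat_lit 234) (nat_lit 684) (nat_lit 0) (XT.nd (nat_lit 78) (nat_lit 760) (nat_lit 0) (XT.lf (nat_lit 0) (nat_lit 9512541539) (nat_lit 456) (nat_lit 1550315317) (nat_lit 76) (nat_lit 1797754495) (nat_lit 162) (nat_lit 5) (nat_lit 168) (nat_lit 5) (nat_lit 163) (nat_lit 5) (nat_lit 478) (nat_lit 379) (nat_lit 283)) (XT.nd (nat_lit 78) (nat_lit 380) (nat_lit 0) (XT.lf (nat_lit 0) (nat_lit 646306026) (nat_lit 380) (nat_lit 5479042728) (nat_lit 76) (nat_lit 6881004921)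 (nat_lit 157) (nat_lit 5) (nat_lit 162) (nat_lit 5) (nat_lit 158) (nat_lit 5) (nat_lit 479) (nat_lit 379) (nat_lit 282)) (XT.lf (nat_lit 0) (nat_lit 3637183382) (nat_lit 380) (nat_lit 1047290071) (nat_lit 456) (nat_lit 8469920084) (nat_lit 152) (nat_lit 5) (nat_lit 157) (nat_lit 5) (nat_lit 158) (nat_lit 5) (nat_lit 480) (nat_lit 379) (nat_lit 281)))) (XT.nd (nat_lit 78) (nat_lit 684) (nat_lit 0) (XT.lf (nat_lit 0) (nat_lit 8841982956) (nat_lit 456) (nat_lit 362840231) (nat_lit 76) (nat_lit 4099799435) (nat_lit 152) (nat_lit 5) (nat_lit 158) (nat_lit 5) (nat_lit 153) (nat_lit 5) (nat_lit 481) (nat_lit 379) (nat_lit 280)) (XT.nd (nat_lit 78) (nat_lit 380) (nat_lit 0) (XT.lf (nat_lit 0) (nat_lit 9046015691) (nat_lit 304) (nat_lit 4077528865) (nat_lit 380) (nat_lit 333493692) (nat_lit 148) (nat_lit 5) (nat_lit 152) (nat_lit 5) (nat_lit 153) (nat_lit 5) (nat_lit 482) (nat_lit 379) (nat_lit 279)) (XT.lf (nat_lit 0) (nat_lit 3845595437) (nat_lit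 380) (nat_lit 8583572596) (nat_lit 76) (nat_lit 1182466074) (nat_lit 143) (nat_lit 5) (nat_lit 148) (nat_lit 5) (nat_lit 144) (nat_lit 5) (nat_lit 483) (nat_lit 379) (nat_lit 278))))))))
noncomputable def xc101 : XT := (XT.nd (nat_lit 1560) (nat_lit 532) (nat_lit 0) (XT.nd (nat_lit 780) (nat_lit 1976) (nat_lit 0) (XT.nd (nat_lit 390) (nat_lit 1216) (nat_lit 0) (XT.nd (nat_lit 156) (nat_lit 684) (nat_lit 0) (XT.nd (nat_lit 78) (nat_lit 0) (nat_lit 0) (XT.lf (nat_lit 0) (nat_lit 888746413) (nat_lit 304) (nat_lit 7253047941) (nat_lit 380) (nat_lit 5626723572) (nat_lit 139) (nat_lit 5) (nat_lit 143) (nat_lit 5) (nat_lit 144) (nat_lit 5) (nat_lit 484) (nat_lit 379) (nat_lit 277)) (XT.lf (nat_lit 0) (nat_lit 10626639267) (nat_lit 304) (nat_lit 1930518247) (nat_lit 380) (nat_lit 1370717102) (nat_lit 139) (nat_lit 5) (nat_lit 143) (nat_lit 5) (nat_lit 144) (nat_lit 5) (nat_lit 485) (nat_lit 379) (nat_lit 276))) (XT.nd (nat_lit 78) (nat_lit 304)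 (nat_lit 0) (XT.lf (nat_lit 0) (nat_lit 2972600729) (nat_lit 380) (nat_lit 7617676375) (nat_lit 76) (nat_lit 3498932643) (nat_lit 134) (nat_lit 5) (nat_lit 139) (nat_lit 5) (nat_lit 135) (nat_lit 5) (nat_lit 486) (nat_lit 379) (nat_lit 275)) (XT.nd (nat_lit 78) (nat_lit 0) (nat_lit 0) (XT.lf (nat_lit 0) (nat_lit 2198128610) (nat_lit 304) (nat_lit 5211748584) (nat_lit 380) (nat_lit 6843204256) (nat_lit 130) (nat_lit 5) (nat_lit 134) (nat_lit 5) (nat_lit 135) (nat_lit 5) (nat_lit 487) (nat_lit 379) (nat_lit 274)) (XT.lf (nat_lit 0) (nat_lit 11965319126) (nat_lit 380) (nat_lit 2147796649) (nat_lit 76) (nat_lit 306526413) (nat_lit 130) (nat_lit 5) (nat_lit 135) (nat_lit 5) (nat_lit 131) (nat_lit 5) (nat_lit 488) (nat_lit 379) (nat_lit 273))))) (XT.nd (nat_lit 156) (nat_lit 608) (nat_lit 0) (XT.nd (nat_lit 78) (nat_lit 228) (nat_lit 0) (XT.lf (nat_lit 0) (nat_lit 2059260381) (nat_lit 380) (nat_lit 6613256113) (nat_lit 76) (nat_lit 5915486082)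 (nat_lit 125) (nat_lit 5) (nat_lit 130) (nat_lit 5) (nat_lit 126) (nat_lit 5) (nat_lit 489) (nat_lit 379) (nat_lit 272)) (XT.lf (nat_lit 0) (nat_lit 3560514170) (nat_lit 228) (nat_lit 3084094506) (nat_lit 304) (nat_lit 8114509902) (nat_lit 122) (nat_lit 5) (nat_lit 125) (nat_lit 5) (nat_lit 126) (nat_lit 5) (nat_lit 490) (nat_lit 379) (nat_lit 271))) (XT.nd (nat_lit 78) (nat_lit 608) (nat_lit 0) (XT.lf (nat_lit 0) (nat_lit 11360122571) (nat_lit 304) (nat_lit 961990758) (nat_lit 76) (nat_lit 2610774399) (nat_lit 122) (nat_lit 5) (nat_lit 126) (nat_lit 5) (nat_lit 123) (nat_lit 5) (nat_lit 491) (nat_lit 379) (nat_lit 270)) (XT.nd (nat_lit 78) (nat_lit 228) (nat_lit 0) (XT.lf (nat_lit 0) (nat_lit 1105966151) (nat_lit 380) (nat_lit 5570667849) (nat_lit 76) (nat_lit 8432159613) (nat_lit 117) (nat_lit 5) (nat_lit 122) (nat_lit 5) (nat_lit 118) (nat_lit 5) (nat_lit 492) (nat_lit 379) (nat_lit 269)) (XT.lf (nat_lit 0) (nat_lit 4976132849) (nat_lit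 228) (nat_lit 870454804) (nat_lit 304) (nat_lit 9440834546) (nat_lit 114) (nat_lit 5) (nat_lit 117) (nat_lit 5) (nat_lit 118) (nat_lit 5) (nat_lit 493) (nat_lit 379) (nat_lit 268)))))) (XT.nd (nat_lit 390) (nat_lit 1064) (nat_lit 0) (XT.nd (nat_lit 156) (nat_lit 532) (nat_lit 0) (XT.nd (nat_lit 78) (nat_lit 76) (nat_lit 0) (XT.lf (nat_lit 0) (nat_lit 272314035) (nat_lit 304) (nat_lit 10459301706) (nat_lit 380) (nat_lit 4737015732) (nat_lit 110) (nat_lit 5) (nat_lit 114) (nat_lit 5) (nat_lit 115) (nat_lit 5) (nat_lit 494) (nat_lit 379) (nat_lit 267)) (XT.lf (nat_lit 0) (nat_lit 112939601) (nat_lit 380) (nat_lit 4490098128) (nat_lit 76) (nat_lit 11049362126) (nat_lit 109) (nat_lit 5) (nat_lit 114) (nat_lit 5) (nat_lit 110) (nat_lit 5) (nat_lit 495) (nat_lit 379) (nat_lit 266))) (XT.nd (nat_lit 78) (nat_lit 304) (nat_lit 0) (XT.lf (nat_lit 0) (nat_lit 5025535431) (nat_lit 304) (nat_lit 9402693958) (nat_lit 76) (nat_lit 1410406584) (nat_lit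 106) (nat_lit 5) (nat_lit 110) (nat_lit 5) (nat_lit 107) (nat_lit 5) (nat_lit 496) (nat_lit 379) (nat_lit 265)) (XT.nd (nat_lit 78) (nat_lit 0) (nat_lit 0) (XT.lf (nat_lit 0) (nat_lit 1565130466) (nat_lit 304) (nat_lit 8520198438) (nat_lit 380) (nat_lit 5942288993) (nat_lit 102) (nat_lit 5) (nat_lit 106) (nat_lit 5) (nat_lit 107) (nat_lit 5) (nat_lit 497) (nat_lit 379) (nat_lit 264)) (XT.lf (nat_lit 0) (nat_lit 12841931442) (nat_lit 304) (nat_lit 2445639845) (nat_lit 380) (nat_lit 931983111) (nat_lit 102) (nat_lit 5) (nat_lit 106) (nat_lit 5) (nat_lit 107) (nat_lit 5) (nat_lit 498) (nat_lit 379) (nat_lit 263))))) (XT.nd (nat_lit 156) (nat_lit 532) (nat_lit 0) (XT.nd (nat_lit 78) (nat_lit 228) (nat_lit 0) (XT.lf (nat_lit 0) (nat_lit 4178678624) (nat_lit 304) (nat_lit 8470010513) (nat_lit 76) (nat_lit 3764998860) (nat_lit 98) (nat_lit 5) (nat_lit 102) (nat_lit 5) (nat_lit 99) (nat_lit 5) (nat_lit 499) (nat_lit 379) (nat_lit 262)) (XT.lf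 (nat_lit 0) (nat_lit 2904046358) (nat_lit 228) (nat_lit 6511428444) (nat_lit 304) (nat_lit 7195378247) (nat_lit 95) (nat_lit 5) (nat_lit 98) (nat_lit 5) (nat_lit 99) (nat_lit 5) (nat_lit 500) (nat_lit 379) (nat_lit 261))) (XT.nd (nat_lit 78) (nat_lit 532) (nat_lit 0) (XT.lf (nat_lit 0) (nat_lit 14583184224) (nat_lit 228) (nat_lit 209362218) (nat_lit 304) (nat_lit 2018704171) (nat_lit 95) (nat_lit 5) (nat_lit 98) (nat_lit 5) (nat_lit 99) (nat_lit 5) (nat_lit 501) (nat_lit 379) (nat_lit 260)) (XT.nd (nat_lit 78) (nat_lit 228) (nat_lit 0) (XT.lf (nat_lit 0) (nat_lit 3300522469) (nat_lit 304) (nat_lit 7507710595) (nat_lit 76) (nat_lit 6205363661) (nat_lit 91) (nat_lit 5) (nat_lit 95) (nat_lit 5) (nat_lit 92) (nat_lit 5) (nat_lit 502) (nat_lit 379) (nat_lit 259)) (XT.lf (nat_lit 0) (nat_lit 4289597144) (nat_lit 228) (nat_lit 4432873130) (nat_lit 304) (nat_lit 8496785271) (nat_lit 88) (nat_lit 5) (nat_lit 91) (nat_lit 5) (nat_lit 92) (nat_lit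 5) (nat_lit 503) (nat_lit 379) (nat_lit 258))))))) (XT.nd (nat_lit 50232) (nat_lit 0) (nat_lit 51300) (XT.nd (nat_lit 49842) (nat_lit 0) (nat_lit 54644) (XT.nd (nat_lit 156) (nat_lit 228) (nat_lit 0) (XT.nd (nat_lit 78) (nat_lit 304) (nat_lit 0) (XT.lf (nat_lit 0) (nat_lit 14296135428) (nat_lit 304) (nat_lit 1054079980) (nat_lit 76) (nat_lit 2077946565) (nat_lit 88) (nat_lit 5) (nat_lit 92) (nat_lit 5) (nat_lit 89) (nat_lit 5) (nat_lit 504) (nat_lit 379) (nat_lit 257)) (XT.lf (nat_lit 0) (nat_lit 2391091173) (nat_lit 304) (nat_lit 6515785415) (nat_lit 76) (nat_lit 8732431008) (nat_lit 84) (nat_lit 5) (nat_lit 88) (nat_lit 5) (nat_lit 85) (nat_lit 5) (nat_lit 505) (nat_lit 379) (nat_lit 256))) (XT.nd (nat_lit 49530) (nat_lit 0) (nat_lit 55252) (XT.lf (nat_lit 0) (nat_lit 5722476117) (nat_lit 228) (nat_lit 2284137988) (nat_lit 304) (nat_lit 9847170359) (nat_lit 81) (nat_lit 5) (nat_lit 84) (nat_lit 5) (nat_lit 85) (nat_lit 5) (nat_lit 506)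 (nat_lit 379) (nat_lit 255)) (XT.nd (nat_lit 78) (nat_lit 76) (nat_lit 0) (XT.lf (nat_lit 0) (nat_lit 1073741823) (nat_lit 0) (nat_lit 0) (nat_lit 0) (nat_lit 0) (nat_lit 809) (nat_lit 0) (nat_lit 1) (nat_lit 0) (nat_lit 1) (nat_lit 0) (nat_lit 380) (nat_lit 380) (nat_lit 380)) (XT.lf (nat_lit 0) (nat_lit 3200311139) (nat_lit 76) (nat_lit 3200311139) (nat_lit 0) (nat_lit 42246951) (nat_lit 808) (nat_lit 5) (nat_lit 809) (nat_lit 0) (nat_lit 808) (nat_lit 4) (nat_lit 381) (nat_lit 380) (nat_lit 379))))) (XT.nd (nat_lit 156) (nat_lit 456) (nat_lit 0) (XT.nd (nat_lit 78) (nat_lit 76) (nat_lit 0) (XT.lf (nat_lit 0) (nat_lit 63585129) (nat_lit 76) (nat_lit 6317790678) (nat_lit 76) (nat_lit 63585129) (nat_lit 807) (nat_lit 4) (nat_lit 808) (nat_lit 5) (nat_lit 808) (nat_lit 4) (nat_lit 382) (nat_lit 380) (nat_lit 378)) (XT.lf (nat_lit 0) (nat_lit 3076039157) (nat_lit 152) (nat_lit 3076039157) (nat_lit 76) (nat_lit 295828070) (nat_lit 806) (nat_lit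 5) (nat_lit 808) (nat_lit 5) (nat_lit 807) (nat_lit 4) (nat_lit 383) (nat_lit 380) (nat_lit 377))) (XT.nd (nat_lit 78) (nat_lit 304) (nat_lit 0) (XT.lf (nat_lit 0) (nat_lit 254465203) (nat_lit 152) (nat_lit 5943563449) (nat_lit 228) (nat_lit 254465203) (nat_lit 804) (nat_lit 5) (nat_lit 806) (nat_lit 5) (nat_lit 807) (nat_lit 4) (nat_lit 384) (nat_lit 380) (nat_lit 376)) (XT.nd (nat_lit 78) (nat_lit 228) (nat_lit 0) (XT.lf (nat_lit 0) (nat_lit 2827249535) (nat_lit 228) (nat_lit 2827249535) (nat_lit 76) (nat_lit 803487540) (nat_lit 803) (nat_lit 5) (nat_lit 806) (nat_lit 5) (nat_lit 804) (nat_lit 5) (nat_lit 385) (nat_lit 380) (nat_lit 375)) (XT.lf (nat_lit 0) (nat_lit 573014487) (nat_lit 228) (nat_lit 5319029550) (nat_lit 304) (nat_lit 573014487) (nat_lit 800) (nat_lit 5) (nat_lit 803) (nat_lit 5) (nat_lit 804) (nat_lit 5) (nat_lit 386) (nat_lit 380) (nat_lit 374)))))) (XT.nd (nat_lit 390) (nat_lit 2432) (nat_lit 0) (XT.nd (nat_lit 156)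 (nat_lit 532) (nat_lit 0) (XT.nd (nat_lit 78) (nat_lit 304) (nat_lit 0) (XT.lf (nat_lit 0) (nat_lit 2453450549) (nat_lit 304) (nat_lit 2453450549) (nat_lit 76) (nat_lit 1566220641) (nat_lit 799) (nat_lit 5) (nat_lit 803) (nat_lit 5) (nat_lit 800) (nat_lit 5) (nat_lit 387) (nat_lit 380) (nat_lit 373)) (XT.lf (nat_lit 0) (nat_lit 1019857440) (nat_lit 304) (nat_lit 4442954786) (nat_lit 380) (nat_lit 1019857440) (nat_lit 795) (nat_lit 5) (nat_lit 799) (nat_lit 5) (nat_lit 800) (nat_lit 5) (nat_lit 388) (nat_lit 380) (nat_lit 372))) (XT.nd (nat_lit 78) (nat_lit 456) (nat_lit 0) (XT.lf (nat_lit 0) (nat_lit 1953903604) (nat_lit 380) (nat_lit 1953903604) (nat_lit 76) (nat_lit 2585522343) (nat_lit 794) (nat_lit 5) (nat_lit 799) (nat_lit 5) (nat_lit 795) (nat_lit 5) (nat_lit 389) (nat_lit 380) (nat_lit 371)) (XT.nd (nat_lit 78) (nat_lit 76) (nat_lit 0) (XT.lf (nat_lit 0) (nat_lit 1595869747) (nat_lit 380) (nat_lit 3313608430) (nat_lit 456) (nat_lit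 1595869747) (nat_lit 789) (nat_lit 5) (nat_lit 794) (nat_lit 5) (nat_lit 795) (nat_lit 5) (nat_lit 390) (nat_lit 380) (nat_lit 370)) (XT.lf (nat_lit 0) (nat_lit 1327622008) (nat_lit 456) (nat_lit 1327622008) (nat_lit 76) (nat_lit 3863389768) (nat_lit 788) (nat_lit 5) (nat_lit 794) (nat_lit 5) (nat_lit 789) (nat_lit 5) (nat_lit 391) (nat_lit 380) (nat_lit 369))))) (XT.nd (nat_lit 234) (nat_lit 1368) (nat_lit 0) (XT.nd (nat_lit 78) (nat_lit 608) (nat_lit 0) (XT.lf (nat_lit 0) (nat_lit 2302179755) (nat_lit 456) (nat_lit 1928760373) (nat_lit 532) (nat_lit 2302179755) (nat_lit 782) (nat_lit 5) (nat_lit 788) (nat_lit 5) (nat_lit 789) (nat_lit 5) (nat_lit 392) (nat_lit 380) (nat_lit 368)) (XT.nd (nat_lit 78) (nat_lit 532) (nat_lit 0) (XT.lf (nat_lit 0) (nat_lit 573369350) (nat_lit 532) (nat_lit 573369350) (nat_lit 76) (nat_lit 5402325479) (nat_lit 781) (nat_lit 5) (nat_lit 788) (nat_lit 5) (nat_lit 782) (nat_lit 5) (nat_lit 393) (nat_lit 380)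 (nat_lit 367)) (XT.lf (nat_lit 0) (nat_lit 3140170337) (nat_lit 532) (nat_lit 285677445) (nat_lit 608) (nat_lit 3140170337) (nat_lit 774) (nat_lit 5) (nat_lit 781) (nat_lit 5) (nat_lit 782) (nat_lit 5) (nat_lit 394) (nat_lit 380) (nat_lit 366)))) (XT.nd (nat_lit 78) (nat_lit 760) (nat_lit 0) (XT.lf (nat_lit 0) (nat_lit 308300814) (nat_lit 608) (nat_lit 5967893149) (nat_lit 684) (nat_lit 308300814) (nat_lit 766) (nat_lit 5) (nat_lit 774) (nat_lit 5) (nat_lit 775) (nat_lit 5) (nat_lit 395) (nat_lit 380) (nat_lit 365)) (XT.nd (nat_lit 78) (nat_lit 684) (nat_lit 0) (XT.lf (nat_lit 0) (nat_lit 2503110925) (nat_lit 684) (nat_lit 2503110925) (nat_lit 76) (nat_lit 1597649176) (nat_lit 765) (nat_lit 5) (nat_lit 774) (nat_lit 5) (nat_lit 766) (nat_lit 5) (nat_lit 396) (nat_lit 380) (nat_lit 364)) (XT.lf (nat_lit 0) (nat_lit 1316537263) (nat_lit 684) (nat_lit 3991687475) (nat_lit 760) (nat_lit 1316537263) (nat_lit 756) (nat_lit 5) (nat_lit 765)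 (nat_lit 5) (nat_lit 766) (nat_lit 5) (nat_lit 397) (nat_lit 380) (nat_lit 363))))))))
noncomputable def xc102 : XT := (XT.nd (nat_lit 1560) (nat_lit 15200) (nat_lit 0) (XT.nd (nat_lit 780) (nat_lit 8740) (nat_lit 0) (XT.nd (nat_lit 390) (nat_lit 3344) (nat_lit 0) (XT.nd (nat_lit 156) (nat_lit 1824) (nat_lit 0) (XT.nd (nat_lit 78) (nat_lit 760) (nat_lit 0) (XT.lf (nat_lit 0) (nat_lit 1453941077) (nat_lit 760) (nat_lit 1453941077) (nat_lit 76) (nat_lit 3738979822) (nat_lit 755) (nat_lit 5) (nat_lit 765) (nat_lit 5) (nat_lit 756) (nat_lit 5) (nat_lit 398) (nat_lit 380) (nat_lit 362)) (XT.lf (nat_lit 0) (nat_lit 2457098482) (nat_lit 760) (nat_lit 1756014687) (nat_lit 836) (nat_lit 2457098482) (nat_lit 745) (nat_lit 5) (nat_lit 755) (nat_lit 5) (nat_lit 756) (nat_lit 5) (nat_lit 399) (nat_lit 380) (nat_lit 361))) (XT.nd (nat_lit 78) (nat_lit 1748) (nat_lit 0) (XT.lf (nat_lit 0) (nat_lit 274400222) (nat_lit 836) (nat_lit 274400222) (nat_lit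 76) (nat_lit 6146277919) (nat_lit 744) (nat_lit 5) (nat_lit 755) (nat_lit 5) (nat_lit 745) (nat_lit 5) (nat_lit 400) (nat_lit 380) (nat_lit 360)) (XT.nd (nat_lit 78) (nat_lit 912) (nat_lit 0) (XT.lf (nat_lit 0) (nat_lit 2993495039) (nat_lit 912) (nat_lit 2993495039) (nat_lit 76) (nat_lit 733810169) (nat_lit 733) (nat_lit 5) (nat_lit 745) (nat_lit 5) (nat_lit 734) (nat_lit 5) (nat_lit 401) (nat_lit 380) (nat_lit 359)) (XT.lf (nat_lit 0) (nat_lit 1031023425) (nat_lit 912) (nat_lit 4685988906) (nat_lit 988) (nat_lit 1031023425) (nat_lit 721) (nat_lit 5) (nat_lit 733) (nat_lit 5) (nat_lit 734) (nat_lit 5) (nat_lit 402) (nat_lit 380) (nat_lit 358))))) (XT.nd (nat_lit 156) (nat_lit 2280) (nat_lit 0) (XT.nd (nat_lit 78) (nat_lit 988) (nat_lit 0) (XT.lf (nat_lit 0) (nat_lit 1655241348) (nat_lit 988) (nat_lit 1655241348) (nat_lit 76) (nat_lit 3465937943) (nat_lit 720) (nat_lit 5) (nat_lit 733) (nat_lit 5) (nat_lit 721) (nat_lit 5) (nat_lit 403)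 (nat_lit 380) (nat_lit 357)) (XT.lf (nat_lit 0) (nat_lit 2469062531) (nat_lit 988) (nat_lit 1867999144) (nat_lit 1064) (nat_lit 2469062531) (nat_lit 707) (nat_lit 5) (nat_lit 720) (nat_lit 5) (nat_lit 721) (nat_lit 5) (nat_lit 404) (nat_lit 380) (nat_lit 356))) (XT.nd (nat_lit 78) (nat_lit 2204) (nat_lit 0) (XT.lf (nat_lit 0) (nat_lit 184278099) (nat_lit 1064) (nat_lit 184278099) (nat_lit 76) (nat_lit 6468809428) (nat_lit 706) (nat_lit 5) (nat_lit 720) (nat_lit 5) (nat_lit 707) (nat_lit 5) (nat_lit 405) (nat_lit 380) (nat_lit 355)) (XT.nd (nat_lit 78) (nat_lit 1140) (nat_lit 0) (XT.lf (nat_lit 0) (nat_lit 2833101615) (nat_lit 1140) (nat_lit 2833101615) (nat_lit 76) (nat_lit 1203192697) (nat_lit 692) (nat_lit 5) (nat_lit 707) (nat_lit 5) (nat_lit 693) (nat_lit 5) (nat_lit 406) (nat_lit 380) (nat_lit 354)) (XT.lf (nat_lit 0) (nat_lit 1412971323) (nat_lit 1140) (nat_lit 4077022348) (nat_lit 1216) (nat_lit 1412971323) (nat_lit 677) (nat_lit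 5) (nat_lit 692) (nat_lit 5) (nat_lit 693) (nat_lit 5) (nat_lit 407) (nat_lit 380) (nat_lit 353)))))) (XT.nd (nat_lit 390) (nat_lit 4712) (nat_lit 0) (XT.nd (nat_lit 156) (nat_lit 2736) (nat_lit 0) (XT.nd (nat_lit 78) (nat_lit 1216) (nat_lit 0) (XT.lf (nat_lit 0) (nat_lit 1208092573) (nat_lit 1216) (nat_lit 1208092573) (nat_lit 76) (nat_lit 4521619584) (nat_lit 676) (nat_lit 5) (nat_lit 692) (nat_lit 5) (nat_lit 677) (nat_lit 5) (nat_lit 408) (nat_lit 380) (nat_lit 352)) (XT.lf (nat_lit 0) (nat_lit 3146938685) (nat_lit 1216) (nat_lit 679991650) (nat_lit 1292) (nat_lit 3146938685) (nat_lit 660) (nat_lit 5) (nat_lit 676) (nat_lit 5) (nat_lit 677) (nat_lit 5) (nat_lit 409) (nat_lit 380) (nat_lit 351))) (XT.nd (nat_lit 78) (nat_lit 1444) (nat_lit 0) (XT.lf (nat_lit 0) (nat_lit 549716030) (nat_lit 1292) (nat_lit 5911952072) (nat_lit 1368) (nat_lit 549716030) (nat_lit 643) (nat_lit 5) (nat_lit 660) (nat_lit 5) (nat_lit 661) (nat_lit 5) (nat_lit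 410) (nat_lit 380) (nat_lit 350)) (XT.nd (nat_lit 78) (nat_lit 1368) (nat_lit 0) (XT.lf (nat_lit 0) (nat_lit 2047411875) (nat_lit 1368) (nat_lit 2047411875) (nat_lit 76) (nat_lit 2955043264) (nat_lit 642) (nat_lit 5) (nat_lit 660) (nat_lit 5) (nat_lit 643) (nat_lit 5) (nat_lit 411) (nat_lit 380) (nat_lit 349)) (XT.lf (nat_lit 0) (nat_lit 2438626944) (nat_lit 1368) (nat_lit 2212551851) (nat_lit 1444) (nat_lit 2438626944) (nat_lit 624) (nat_lit 5) (nat_lit 642) (nat_lit 5) (nat_lit 643) (nat_lit 5) (nat_lit 412) (nat_lit 380) (nat_lit 348))))) (XT.nd (nat_lit 156) (nat_lit 3192) (nat_lit 0) (XT.nd (nat_lit 78) (nat_lit 1444) (nat_lit 0) (XT.lf (nat_lit 0) (nat_lit 134624774) (nat_lit 1444) (nat_lit 134624774) (nat_lit 76) (nat_lit 6862061546) (nat_lit 623) (nat_lit 5) (nat_lit 642) (nat_lit 5) (nat_lit 624) (nat_lit 5) (nat_lit 413) (nat_lit 380) (nat_lit 347)) (XT.lf (nat_lit 0) (nat_lit 2714893369) (nat_lit 1520) (nat_lit 2714893369)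 (nat_lit 76) (nat_lit 1743773328) (nat_lit 604) (nat_lit 5) (nat_lit 624) (nat_lit 5) (nat_lit 605) (nat_lit 5) (nat_lit 414) (nat_lit 380) (nat_lit 346))) (XT.nd (nat_lit 78) (nat_lit 1672) (nat_lit 0) (XT.lf (nat_lit 0) (nat_lit 1907075191) (nat_lit 1520) (nat_lit 3403232825) (nat_lit 1596) (nat_lit 1907075191) (nat_lit 584) (nat_lit 5) (nat_lit 604) (nat_lit 5) (nat_lit 605) (nat_lit 5) (nat_lit 415) (nat_lit 380) (nat_lit 345)) (XT.nd (nat_lit 78) (nat_lit 1596) (nat_lit 0) (XT.lf (nat_lit 0) (nat_lit 653613773) (nat_lit 1596) (nat_lit 653613773) (nat_lit 76) (nat_lit 5955421186) (nat_lit 583) (nat_lit 5) (nat_lit 604) (nat_lit 5) (nat_lit 584) (nat_lit 5) (nat_lit 416) (nat_lit 380) (nat_lit 344)) (XT.lf (nat_lit 0) (nat_lit 3222117157) (nat_lit 1672) (nat_lit 3222117157) (nat_lit 76) (nat_lit 864690410) (nat_lit 562) (nat_lit 5) (nat_lit 584) (nat_lit 5) (nat_lit 563) (nat_lit 5) (nat_lit 417) (nat_lit 380) (nat_lit 343))))))) (XT.nd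 (nat_lit 780) (nat_lit 5928) (nat_lit 0) (XT.nd (nat_lit 390) (nat_lit 3876) (nat_lit 0) (XT.nd (nat_lit 156) (nat_lit 3648) (nat_lit 0) (XT.nd (nat_lit 78) (nat_lit 76) (nat_lit 0) (XT.lf (nat_lit 0) (nat_lit 1541004760) (nat_lit 1672) (nat_lit 4274643563) (nat_lit 1748) (nat_lit 1541004760) (nat_lit 540) (nat_lit 5) (nat_lit 562) (nat_lit 5) (nat_lit 563) (nat_lit 5) (nat_lit 418) (nat_lit 380) (nat_lit 342)) (XT.lf (nat_lit 0) (nat_lit 1014567254) (nat_lit 1748) (nat_lit 1014567254) (nat_lit 76) (nat_lit 5376610431) (nat_lit 539) (nat_lit 5) (nat_lit 562) (nat_lit 5) (nat_lit 540) (nat_lit 5) (nat_lit 419) (nat_lit 380) (nat_lit 341))) (XT.nd (nat_lit 78) (nat_lit 1900) (nat_lit 0) (XT.lf (nat_lit 0) (nat_lit 3579664657) (nat_lit 1824) (nat_lit 3579664657) (nat_lit 76) (nat_lit 296704639) (nat_lit 516) (nat_lit 5) (nat_lit 540) (nat_lit 5) (nat_lit 517) (nat_lit 5) (nat_lit 420) (nat_lit 380) (nat_lit 340)) (XT.nd (nat_lit 78) (nat_lit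 76) (nat_lit 0) (XT.lf (nat_lit 0) (nat_lit 1330138579) (nat_lit 1824) (nat_lit 4847421664) (nat_lit 1900) (nat_lit 1330138579) (nat_lit 492) (nat_lit 5) (nat_lit 516) (nat_lit 5) (nat_lit 517) (nat_lit 5) (nat_lit 421) (nat_lit 380) (nat_lit 339)) (XT.lf (nat_lit 0) (nat_lit 1227475465) (nat_lit 1900) (nat_lit 1227475465) (nat_lit 76) (nat_lit 5105740015) (nat_lit 491) (nat_lit 5) (nat_lit 516) (nat_lit 5) (nat_lit 492) (nat_lit 5) (nat_lit 422) (nat_lit 380) (nat_lit 338))))) (XT.nd (nat_lit 156) (nat_lit 1824) (nat_lit 0) (XT.nd (nat_lit 78) (nat_lit 912) (nat_lit 0) (XT.lf (nat_lit 0) (nat_lit 3797191039) (nat_lit 1216) (nat_lit 3797191039) (nat_lit 76) (nat_lit 20609793) (nat_lit 476) (nat_lit 5) (nat_lit 492) (nat_lit 5) (nat_lit 477) (nat_lit 5) (nat_lit 423) (nat_lit 380) (nat_lit 337)) (XT.lf (nat_lit 0) (nat_lit 1265129584) (nat_lit 912) (nat_lit 5140375560) (nat_lit 988) (nat_lit 1265129584) (nat_lit 464) (nat_lit 5) (nat_lit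 476) (nat_lit 5) (nat_lit 477) (nat_lit 5) (nat_lit 424) (nat_lit 380) (nat_lit 336))) (XT.nd (nat_lit 78) (nat_lit 1748) (nat_lit 0) (XT.lf (nat_lit 0) (nat_lit 1301431452) (nat_lit 988) (nat_lit 1301431452) (nat_lit 76) (nat_lit 5124745875) (nat_lit 463) (nat_lit 5) (nat_lit 476) (nat_lit 5) (nat_lit 464) (nat_lit 5) (nat_lit 425) (nat_lit 380) (nat_lit 335)) (XT.nd (nat_lit 78) (nat_lit 836) (nat_lit 0) (XT.lf (nat_lit 0) (nat_lit 3883491969) (nat_lit 988) (nat_lit 3883491969) (nat_lit 76) (nat_lit 18948955) (nat_lit 451) (nat_lit 5) (nat_lit 464) (nat_lit 5) (nat_lit 452) (nat_lit 5) (nat_lit 426) (nat_lit 380) (nat_lit 334)) (XT.lf (nat_lit 0) (nat_lit 1337494805) (nat_lit 836) (nat_lit 5170615546) (nat_lit 912) (nat_lit 1337494805) (nat_lit 440) (nat_lit 5) (nat_lit 451) (nat_lit 5) (nat_lit 452) (nat_lit 5) (nat_lit 427) (nat_lit 380) (nat_lit 333)))))) (XT.nd (nat_lit 390) (nat_lit 3192) (nat_lit 0) (XT.nd (nat_lit 156) (nat_lit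 1748) (nat_lit 0) (XT.nd (nat_lit 78) (nat_lit 912) (nat_lit 0) (XT.lf (nat_lit 0) (nat_lit 1244694929) (nat_lit 912) (nat_lit 1244694929) (nat_lit 76) (nat_lit 5417260640) (nat_lit 439) (nat_lit 5) (nat_lit 451) (nat_lit 5) (nat_lit 440) (nat_lit 5) (nat_lit 428) (nat_lit 380) (nat_lit 332)) (XT.lf (nat_lit 0) (nat_lit 3846565104) (nat_lit 988) (nat_lit 3846565104) (nat_lit 76) (nat_lit 275890811) (nat_lit 427) (nat_lit 5) (nat_lit 440) (nat_lit 5) (nat_lit 428) (nat_lit 5) (nat_lit 429) (nat_lit 380) (nat_lit 331))) (XT.nd (nat_lit 78) (nat_lit 912) (nat_lit 0) (XT.lf (nat_lit 0) (nat_lit 1539554680) (nat_lit 836) (nat_lit 4953674459) (nat_lit 912) (nat_lit 1539554680) (nat_lit 416) (nat_lit 5) (nat_lit 427) (nat_lit 5) (nat_lit 428) (nat_lit 5) (nat_lit 430) (nat_lit 380) (nat_lit 330)) (XT.nd (nat_lit 78) (nat_lit 836) (nat_lit 0) (XT.lf (nat_lit 0) (nat_lit 1064751088) (nat_lit 912) (nat_lit 1064751088) (nat_lit 76) (nat_lit 5968495356)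 (nat_lit 415) (nat_lit 5) (nat_lit 427) (nat_lit 5) (nat_lit 416) (nat_lit 5) (nat_lit 431) (nat_lit 380) (nat_lit 329)) (XT.lf (nat_lit 0) (nat_lit 3693666717) (nat_lit 912) (nat_lit 3693666717) (nat_lit 76) (nat_lit 777115789) (nat_lit 404) (nat_lit 5) (nat_lit 416) (nat_lit 5) (nat_lit 405) (nat_lit 5) (nat_lit 432) (nat_lit 380) (nat_lit 328))))) (XT.nd (nat_lit 234) (nat_lit 1596) (nat_lit 0) (XT.nd (nat_lit 78) (nat_lit 836) (nat_lit 0) (XT.lf (nat_lit 0) (nat_lit 1864377231) (nat_lit 760) (nat_lit 4503618779) (nat_lit 836) (nat_lit 1864377231) (nat_lit 394) (nat_lit 5) (nat_lit 404) (nat_lit 5) (nat_lit 405) (nat_lit 5) (nat_lit 433) (nat_lit 380) (nat_lit 327)) (XT.nd (nat_lit 78) (nat_lit 760) (nat_lit 0) (XT.lf (nat_lit 0) (nat_lit 768364712) (nat_lit 836) (nat_lit 768364712) (nat_lit 76) (nat_lit 6765130709) (nat_lit 393) (nat_lit 5) (nat_lit 404) (nat_lit 5) (nat_lit 394) (nat_lit 5) (nat_lit 434) (nat_lit 380) (nat_lit 326))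 (XT.lf (nat_lit 0) (nat_lit 3431363827) (nat_lit 836) (nat_lit 3431363827) (nat_lit 76) (nat_lit 1509711311) (nat_lit 383) (nat_lit 5) (nat_lit 394) (nat_lit 5) (nat_lit 384) (nat_lit 5) (nat_lit 435) (nat_lit 380) (nat_lit 325)))) (XT.nd (nat_lit 78) (nat_lit 836) (nat_lit 0) (XT.lf (nat_lit 0) (nat_lit 2305726712) (nat_lit 760) (nat_lit 3833150858) (nat_lit 836) (nat_lit 2305726712) (nat_lit 373) (nat_lit 5) (nat_lit 383) (nat_lit 5) (nat_lit 384) (nat_lit 5) (nat_lit 436) (nat_lit 380) (nat_lit 324)) (XT.nd (nat_lit 78) (nat_lit 760) (nat_lit 0) (XT.lf (nat_lit 0) (nat_lit 361629959) (nat_lit 836) (nat_lit 361629959) (nat_lit 76) (nat_lit 7795217029) (nat_lit 372) (nat_lit 5) (nat_lit 383) (nat_lit 5) (nat_lit 373) (nat_lit 5) (nat_lit 437) (nat_lit 380) (nat_lit 323)) (XT.lf (nat_lit 0) (nat_lit 3065582159) (nat_lit 836) (nat_lit 3065582159) (nat_lit 76) (nat_lit 2462075488) (nat_lit 362) (nat_lit 5) (nat_lit 373) (nat_lit 5) (nat_lit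 363) (nat_lit 5) (nat_lit 438) (nat_lit 380) (nat_lit 322))))))))
noncomputable def xc103 : XT := (XT.nd (nat_lit 1638) (nat_lit 6232) (nat_lit 0) (XT.nd (nat_lit 780) (nat_lit 4560) (nat_lit 0) (XT.nd (nat_lit 390) (nat_lit 1976) (nat_lit 0) (XT.nd (nat_lit 156) (nat_lit 1444) (nat_lit 0) (XT.nd (nat_lit 78) (nat_lit 684) (nat_lit 0) (XT.lf (nat_lit 0) (nat_lit 2858016429) (nat_lit 684) (nat_lit 2953702946) (nat_lit 760) (nat_lit 2858016429) (nat_lit 353) (nat_lit 5) (nat_lit 362) (nat_lit 5) (nat_lit 363) (nat_lit 5) (nat_lit 439) (nat_lit 380) (nat_lit 321)) (XT.lf (nat_lit 0) (nat_lit 148997136) (nat_lit 684) (nat_lit 8450042246) (nat_lit 760) (nat_lit 148997136) (nat_lit 344) (nat_lit 5) (nat_lit 353) (nat_lit 5) (nat_lit 354) (nat_lit 5) (nat_lit 440) (nat_lit 380) (nat_lit 320))) (XT.nd (nat_lit 78) (nat_lit 1368) (nat_lit 0) (XT.lf (nat_lit 0) (nat_lit 2601650254) (nat_lit 760) (nat_lit 2601650254) (nat_lit 76) (nat_lit 3623828609)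 (nat_lit 343) (nat_lit 5) (nat_lit 353) (nat_lit 5) (nat_lit 344) (nat_lit 5) (nat_lit 441) (nat_lit 380) (nat_lit 319)) (XT.nd (nat_lit 78) (nat_lit 684) (nat_lit 0) (XT.lf (nat_lit 0) (nat_lit 3516265390) (nat_lit 684) (nat_lit 1875523622) (nat_lit 760) (nat_lit 3516265390) (nat_lit 334) (nat_lit 5) (nat_lit 343) (nat_lit 5) (nat_lit 344) (nat_lit 5) (nat_lit 442) (nat_lit 380) (nat_lit 318)) (XT.lf (nat_lit 0) (nat_lit 756579838) (nat_lit 684) (nat_lit 7477511302) (nat_lit 760) (nat_lit 756579838) (nat_lit 325) (nat_lit 5) (nat_lit 334) (nat_lit 5) (nat_lit 335) (nat_lit 5) (nat_lit 443) (nat_lit 380) (nat_lit 317))))) (XT.nd (nat_lit 156) (nat_lit 1292) (nat_lit 0) (XT.nd (nat_lit 78) (nat_lit 608) (nat_lit 0) (XT.lf (nat_lit 0) (nat_lit 2044340007) (nat_lit 760) (nat_lit 2044340007) (nat_lit 76) (nat_lit 4985731886) (nat_lit 324) (nat_lit 5) (nat_lit 334) (nat_lit 5) (nat_lit 325) (nat_lit 5) (nat_lit 444) (nat_lit 380) (nat_lit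 316)) (XT.lf (nat_lit 0) (nat_lit 4276058537) (nat_lit 608) (nat_lit 607757183) (nat_lit 684) (nat_lit 4276058537) (nat_lit 316) (nat_lit 5) (nat_lit 324) (nat_lit 5) (nat_lit 325) (nat_lit 5) (nat_lit 445) (nat_lit 380) (nat_lit 315))) (XT.nd (nat_lit 78) (nat_lit 684) (nat_lit 0) (XT.lf (nat_lit 0) (nat_lit 1459183587) (nat_lit 608) (nat_lit 6328526112) (nat_lit 684) (nat_lit 1459183587) (nat_lit 308) (nat_lit 5) (nat_lit 316) (nat_lit 5) (nat_lit 317) (nat_lit 5) (nat_lit 446) (nat_lit 380) (nat_lit 314)) (XT.nd (nat_lit 78) (nat_lit 608) (nat_lit 0) (XT.lf (nat_lit 0) (nat_lit 1397903898) (nat_lit 684) (nat_lit 1397903898) (nat_lit 76) (nat_lit 6539612881) (nat_lit 307) (nat_lit 5) (nat_lit 316) (nat_lit 5) (nat_lit 308) (nat_lit 5) (nat_lit 447) (nat_lit 380) (nat_lit 313)) (XT.lf (nat_lit 0) (nat_lit 4297490262) (nat_lit 684) (nat_lit 4297490262) (nat_lit 76) (nat_lit 830447272) (nat_lit 299) (nat_lit 5) (nat_lit 308) (nat_lit 5)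 (nat_lit 300) (nat_lit 5) (nat_lit 448) (nat_lit 380) (nat_lit 312)))))) (XT.nd (nat_lit 390) (nat_lit 2204) (nat_lit 0) (XT.nd (nat_lit 156) (nat_lit 1672) (nat_lit 0) (XT.nd (nat_lit 78) (nat_lit 76) (nat_lit 0) (XT.lf (nat_lit 0) (nat_lit 2253000135) (nat_lit 608) (nat_lit 5011055053) (nat_lit 684) (nat_lit 2253000135) (nat_lit 291) (nat_lit 5) (nat_lit 299) (nat_lit 5) (nat_lit 300) (nat_lit 5) (nat_lit 449) (nat_lit 380) (nat_lit 311)) (XT.lf (nat_lit 0) (nat_lit 666109166) (nat_lit 684) (nat_lit 666109166) (nat_lit 76) (nat_lit 8278297158) (nat_lit 290) (nat_lit 5) (nat_lit 299) (nat_lit 5) (nat_lit 291) (nat_lit 5) (nat_lit 450) (nat_lit 380) (nat_lit 310))) (XT.nd (nat_lit 78) (nat_lit 1140) (nat_lit 0) (XT.lf (nat_lit 0) (nat_lit 3636185745) (nat_lit 608) (nat_lit 3636185745) (nat_lit 76) (nat_lit 2432720471) (nat_lit 283) (nat_lit 5) (nat_lit 291) (nat_lit 5) (nat_lit 284) (nat_lit 5) (nat_lit 451) (nat_lit 380) (nat_lit 309))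 (XT.nd (nat_lit 78) (nat_lit 532) (nat_lit 0) (XT.lf (nat_lit 0) (nat_lit 3134694450) (nat_lit 608) (nat_lit 3532147498) (nat_lit 684) (nat_lit 3134694450) (nat_lit 275) (nat_lit 5) (nat_lit 283) (nat_lit 5) (nat_lit 284) (nat_lit 5) (nat_lit 452) (nat_lit 380) (nat_lit 308)) (XT.lf (nat_lit 0) (nat_lit 146758943) (nat_lit 532) (nat_lit 9606489102) (nat_lit 608) (nat_lit 146758943) (nat_lit 268) (nat_lit 5) (nat_lit 275) (nat_lit 5) (nat_lit 276) (nat_lit 5) (nat_lit 453) (nat_lit 380) (nat_lit 307))))) (XT.nd (nat_lit 234) (nat_lit 1064) (nat_lit 0) (XT.nd (nat_lit 78) (nat_lit 1064) (nat_lit 0) (XT.lf (nat_lit 0) (nat_lit 2899236585) (nat_lit 608) (nat_lit 2899236585) (nat_lit 76) (nat_lit 4200870172) (nat_lit 267) (nat_lit 5) (nat_lit 275) (nat_lit 5) (nat_lit 268) (nat_lit 5) (nat_lit 454) (nat_lit 380) (nat_lit 306)) (XT.nd (nat_lit 78) (nat_lit 532) (nat_lit 0) (XT.lf (nat_lit 0) (nat_lit 4101375204) (nat_lit 532) (nat_lit 1897992990)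 (nat_lit 608) (nat_lit 4101375204) (nat_lit 260) (nat_lit 5) (nat_lit 267) (nat_lit 5) (nat_lit 268) (nat_lit 5) (nat_lit 455) (nat_lit 380) (nat_lit 305)) (XT.lf (nat_lit 0) (nat_lit 1033881154) (nat_lit 532) (nat_lit 8136236833) (nat_lit 608) (nat_lit 1033881154) (nat_lit 253) (nat_lit 5) (nat_lit 260) (nat_lit 5) (nat_lit 261) (nat_lit 5) (nat_lit 456) (nat_lit 380) (nat_lit 304)))) (XT.nd (nat_lit 78) (nat_lit 988) (nat_lit 0) (XT.lf (nat_lit 0) (nat_lit 2089518927) (nat_lit 608) (nat_lit 2089518927) (nat_lit 76) (nat_lit 6129569471) (nat_lit 252) (nat_lit 5) (nat_lit 260) (nat_lit 5) (nat_lit 253) (nat_lit 5) (nat_lit 457) (nat_lit 380) (nat_lit 303)) (XT.nd (nat_lit 78) (nat_lit 456) (nat_lit 0) (XT.lf (nat_lit 0) (nat_lit 5150567788) (nat_lit 532) (nat_lit 113975417) (nat_lit 608) (nat_lit 5150567788) (nat_lit 245) (nat_lit 5) (nat_lit 252) (nat_lit 5) (nat_lit 253) (nat_lit 5) (nat_lit 458) (nat_lit 380) (nat_lit 302)) (XT.lf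 (nat_lit 0) (nat_lit 1997166962) (nat_lit 456) (nat_lit 6528949836) (nat_lit 532) (nat_lit 1997166962) (nat_lit 239) (nat_lit 5) (nat_lit 245) (nat_lit 5) (nat_lit 246) (nat_lit 5) (nat_lit 459) (nat_lit 380) (nat_lit 301))))))) (XT.nd (nat_lit 780) (nat_lit 2812) (nat_lit 0) (XT.nd (nat_lit 390) (nat_lit 1824) (nat_lit 0) (XT.nd (nat_lit 156) (nat_lit 988) (nat_lit 0) (XT.nd (nat_lit 78) (nat_lit 532) (nat_lit 0) (XT.lf (nat_lit 0) (nat_lit 1209530090) (nat_lit 532) (nat_lit 1209530090) (nat_lit 76) (nat_lit 8214277081) (nat_lit 238) (nat_lit 5) (nat_lit 245) (nat_lit 5) (nat_lit 239) (nat_lit 5) (nat_lit 460) (nat_lit 380) (nat_lit 300)) (XT.lf (nat_lit 0) (nat_lit 4476698250) (nat_lit 608) (nat_lit 4476698250) (nat_lit 76) (nat_lit 1791469721) (nat_lit 231) (nat_lit 5) (nat_lit 239) (nat_lit 5) (nat_lit 232) (nat_lit 5) (nat_lit 461) (nat_lit 380) (nat_lit 299))) (XT.nd (nat_lit 78) (nat_lit 532) (nat_lit 0) (XT.lf (nat_lit 0) (nat_lit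 3034516044) (nat_lit 456) (nat_lit 4789301517) (nat_lit 532) (nat_lit 3034516044) (nat_lit 225) (nat_lit 5) (nat_lit 231) (nat_lit 5) (nat_lit 232) (nat_lit 5) (nat_lit 462) (nat_lit 380) (nat_lit 298)) (XT.nd (nat_lit 78) (nat_lit 456) (nat_lit 0) (XT.lf (nat_lit 0) (nat_lit 261411812) (nat_lit 532) (nat_lit 261411812) (nat_lit 76) (nat_lit 10451191199) (nat_lit 224) (nat_lit 5) (nat_lit 231) (nat_lit 5) (nat_lit 225) (nat_lit 5) (nat_lit 463) (nat_lit 380) (nat_lit 297)) (XT.lf (nat_lit 0) (nat_lit 3627908978) (nat_lit 532) (nat_lit 3627908978) (nat_lit 76) (nat_lit 3834884889) (nat_lit 218) (nat_lit 5) (nat_lit 225) (nat_lit 5) (nat_lit 219) (nat_lit 5) (nat_lit 464) (nat_lit 380) (nat_lit 296))))) (XT.nd (nat_lit 156) (nat_lit 912) (nat_lit 0) (XT.nd (nat_lit 78) (nat_lit 456) (nat_lit 0) (XT.lf (nat_lit 0) (nat_lit 4144178805) (nat_lit 456) (nat_lit 2921292316) (nat_lit 532) (nat_lit 4144178805) (nat_lit 212) (nat_lit 5) (nat_lit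 218) (nat_lit 5) (nat_lit 219) (nat_lit 5) (nat_lit 465) (nat_lit 380) (nat_lit 295)) (XT.lf (nat_lit 0) (nat_lit 748074386) (nat_lit 456) (nat_lit 9834609195) (nat_lit 532) (nat_lit 748074386) (nat_lit 206) (nat_lit 5) (nat_lit 212) (nat_lit 5) (nat_lit 213) (nat_lit 5) (nat_lit 466) (nat_lit 380) (nat_lit 294))) (XT.nd (nat_lit 78) (nat_lit 836) (nat_lit 0) (XT.lf (nat_lit 0) (nat_lit 2719298099) (nat_lit 532) (nat_lit 2719298099) (nat_lit 76) (nat_lit 6014559973) (nat_lit 205) (nat_lit 5) (nat_lit 212) (nat_lit 5) (nat_lit 206) (nat_lit 5) (nat_lit 467) (nat_lit 380) (nat_lit 293)) (XT.nd (nat_lit 78) (nat_lit 456) (nat_lit 0) (XT.lf (nat_lit 0) (nat_lit 5324736568) (nat_lit 380) (nat_lit 928289806) (nat_lit 456) (nat_lit 5324736568) (nat_lit 200) (nat_lit 5) (nat_lit 205) (nat_lit 5) (nat_lit 206) (nat_lit 5) (nat_lit 468) (nat_lit 380) (nat_lit 292)) (XT.lf (nat_lit 0) (nat_lit 1820243926) (nat_lit 456) (nat_lit 8063840884) (nat_lit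 532) (nat_lit 1820243926) (nat_lit 194) (nat_lit 5) (nat_lit 200) (nat_lit 5) (nat_lit 201) (nat_lit 5) (nat_lit 469) (nat_lit 380) (nat_lit 291)))))) (XT.nd (nat_lit 390) (nat_lit 1520) (nat_lit 0) (XT.nd (nat_lit 156) (nat_lit 836) (nat_lit 0) (XT.nd (nat_lit 78) (nat_lit 380) (nat_lit 0) (XT.lf (nat_lit 0) (nat_lit 1752431183) (nat_lit 532) (nat_lit 1752431183) (nat_lit 76) (nat_lit 8327913653) (nat_lit 193) (nat_lit 5) (nat_lit 200) (nat_lit 5) (nat_lit 194) (nat_lit 5) (nat_lit 470) (nat_lit 380) (nat_lit 290)) (XT.lf (nat_lit 0) (nat_lit 5395855175) (nat_lit 456) (nat_lit 5395855175) (nat_lit 76) (nat_lit 1171367892) (nat_lit 188) (nat_lit 5) (nat_lit 194) (nat_lit 5) (nat_lit 189) (nat_lit 5) (nat_lit 471) (nat_lit 380) (nat_lit 289))) (XT.nd (nat_lit 78) (nat_lit 456) (nat_lit 0) (XT.lf (nat_lit 0) (nat_lit 2955629465) (nat_lit 380) (nat_lit 6184174454) (nat_lit 456) (nat_lit 2955629465) (nat_lit 183) (nat_lit 5) (nat_lit 188)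 (nat_lit 5) (nat_lit 189) (nat_lit 5) (nat_lit 472) (nat_lit 380) (nat_lit 288)) (XT.nd (nat_lit 78) (nat_lit 380) (nat_lit 0) (XT.lf (nat_lit 0) (nat_lit 728593810) (nat_lit 456) (nat_lit 728593810) (nat_lit 76) (nat_lit 10772954484) (nat_lit 182) (nat_lit 5) (nat_lit 188) (nat_lit 5) (nat_lit 183) (nat_lit 5) (nat_lit 473) (nat_lit 380) (nat_lit 287)) (XT.lf (nat_lit 0) (nat_lit 4494456456) (nat_lit 456) (nat_lit 4494456456) (nat_lit 76) (nat_lit 3377290738) (nat_lit 177) (nat_lit 5) (nat_lit 183) (nat_lit 5) (nat_lit 178) (nat_lit 5) (nat_lit 474) (nat_lit 380) (nat_lit 286))))) (XT.nd (nat_lit 234) (nat_lit 760) (nat_lit 0) (XT.nd (nat_lit 78) (nat_lit 380) (nat_lit 0) (XT.lf (nat_lit 0) (nat_lit 4153323360) (nat_lit 380) (nat_lit 4198025459) (nat_lit 456) (nat_lit 4153323360) (nat_lit 172) (nat_lit 5) (nat_lit 177) (nat_lit 5) (nat_lit 178) (nat_lit 5) (nat_lit 475) (nat_lit 380) (nat_lit 285)) (XT.nd (nat_lit 78) (nat_lit 76) (nat_lit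 0) (XT.lf (nat_lit 0) (nat_lit 348882336) (nat_lit 304) (nat_lit 11947916999) (nat_lit 380) (nat_lit 348882336) (nat_lit 168) (nat_lit 5) (nat_lit 172) (nat_lit 5) (nat_lit 173) (nat_lit 5) (nat_lit 476) (nat_lit 380) (nat_lit 284)) (XT.lf (nat_lit 0) (nat_lit 3543940263) (nat_lit 380) (nat_lit 3543940263) (nat_lit 76) (nat_lit 5700000011) (nat_lit 167) (nat_lit 5) (nat_lit 172) (nat_lit 5) (nat_lit 168) (nat_lit 5) (nat_lit 477) (nat_lit 380) (nat_lit 283)))) (XT.nd (nat_lit 78) (nat_lit 380) (nat_lit 0) (XT.lf (nat_lit 0) (nat_lit 5412683071) (nat_lit 380) (nat_lit 2107310208) (nat_lit 456) (nat_lit 5412683071) (nat_lit 162) (nat_lit 5) (nat_lit 167) (nat_lit 5) (nat_lit 168) (nat_lit 5) (nat_lit 478) (nat_lit 380) (nat_lit 282)) (XT.nd (nat_lit 78) (nat_lit 76) (nat_lit 0) (XT.lf (nat_lit 0) (nat_lit 1476380341) (nat_lit 304) (nat_lit 10127050135) (nat_lit 380) (nat_lit 1476380341) (nat_lit 158) (nat_lit 5) (nat_lit 162) (nat_lit 5)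 (nat_lit 163) (nat_lit 5) (nat_lit 479) (nat_lit 380) (nat_lit 281)) (XT.lf (nat_lit 0) (nat_lit 2545210031) (nat_lit 380) (nat_lit 2545210031) (nat_lit 76) (nat_lit 8138341130) (nat_lit 157) (nat_lit 5) (nat_lit 162) (nat_lit 5) (nat_lit 158) (nat_lit 5) (nat_lit 480) (nat_lit 380) (nat_lit 280))))))))
noncomputable def xc104 : XT := (XT.nd (nat_lit 1560) (nat_lit 1064) (nat_lit 0) (XT.nd (nat_lit 780) (nat_lit 2052) (nat_lit 0) (XT.nd (nat_lit 390) (nat_lit 1064) (nat_lit 0) (XT.nd (nat_lit 156) (nat_lit 684) (nat_lit 0) (XT.nd (nat_lit 78) (nat_lit 304) (nat_lit 0) (XT.lf (nat_lit 0) (nat_lit 6647352502) (nat_lit 456) (nat_lit 6647352502) (nat_lit 76) (nat_lit 85392612) (nat_lit 152) (nat_lit 5) (nat_lit 158) (nat_lit 5) (nat_lit 153) (nat_lit 5) (nat_lit 481) (nat_lit 380) (nat_lit 279)) (XT.lf (nat_lit 0) (nat_lit 2658163452) (nat_lit 304) (nat_lit 8217256228) (nat_lit 380) (nat_lit 2658163452) (nat_lit 148) (nat_lit 5) (nat_lit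 152) (nat_lit 5) (nat_lit 153) (nat_lit 5) (nat_lit 482) (nat_lit 380) (nat_lit 278))) (XT.nd (nat_lit 78) (nat_lit 608) (nat_lit 0) (XT.lf (nat_lit 0) (nat_lit 1498948116) (nat_lit 380) (nat_lit 1498948116) (nat_lit 76) (nat_lit 10691633946) (nat_lit 147) (nat_lit 5) (nat_lit 152) (nat_lit 5) (nat_lit 148) (nat_lit 5) (nat_lit 483) (nat_lit 380) (nat_lit 277)) (XT.nd (nat_lit 78) (nat_lit 304) (nat_lit 0) (XT.lf (nat_lit 0) (nat_lit 5748055435) (nat_lit 380) (nat_lit 5748055435) (nat_lit 76) (nat_lit 2351244958) (nat_lit 143) (nat_lit 5) (nat_lit 148) (nat_lit 5) (nat_lit 144) (nat_lit 5) (nat_lit 484) (nat_lit 380) (nat_lit 276)) (XT.lf (nat_lit 0) (nat_lit 3893925819) (nat_lit 304) (nat_lit 6219853662) (nat_lit 380) (nat_lit 3893925819) (nat_lit 139) (nat_lit 5) (nat_lit 143) (nat_lit 5) (nat_lit 144) (nat_lit 5) (nat_lit 485) (nat_lit 380) (nat_lit 275))))) (XT.nd (nat_lit 156) (nat_lit 684) (nat_lit 0) (XT.nd (nat_lit 78) (nat_lit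 304) (nat_lit 0) (XT.lf (nat_lit 0) (nat_lit 405627223) (nat_lit 380) (nat_lit 405627223) (nat_lit 76) (nat_lit 13359650776) (nat_lit 138) (nat_lit 5) (nat_lit 143) (nat_lit 5) (nat_lit 139) (nat_lit 5) (nat_lit 486) (nat_lit 380) (nat_lit 274)) (XT.lf (nat_lit 0) (nat_lit 4809065559) (nat_lit 380) (nat_lit 4809065559) (nat_lit 76) (nat_lit 4717322568) (nat_lit 134) (nat_lit 5) (nat_lit 139) (nat_lit 5) (nat_lit 135) (nat_lit 5) (nat_lit 487) (nat_lit 380) (nat_lit 273))) (XT.nd (nat_lit 78) (nat_lit 380) (nat_lit 0) (XT.lf (nat_lit 0) (nat_lit 5183575497) (nat_lit 304) (nat_lit 4135766735) (nat_lit 380) (nat_lit 5183575497) (nat_lit 130) (nat_lit 5) (nat_lit 134) (nat_lit 5) (nat_lit 135) (nat_lit 5) (nat_lit 488) (nat_lit 380) (nat_lit 272)) (XT.nd (nat_lit 78) (nat_lit 76) (nat_lit 0) (XT.lf (nat_lit 0) (nat_lit 729647179) (nat_lit 304) (nat_lit 13213961021) (nat_lit 380) (nat_lit 729647179) (nat_lit 126) (nat_lit 5) (nat_lit 130)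 (nat_lit 5) (nat_lit 131) (nat_lit 5) (nat_lit 489) (nat_lit 380) (nat_lit 271)) (XT.lf (nat_lit 0) (nat_lit 3830845028) (nat_lit 380) (nat_lit 3830845028) (nat_lit 76) (nat_lit 7183464582) (nat_lit 125) (nat_lit 5) (nat_lit 130) (nat_lit 5) (nat_lit 126) (nat_lit 5) (nat_lit 490) (nat_lit 380) (nat_lit 270)))))) (XT.nd (nat_lit 390) (nat_lit 912) (nat_lit 0) (XT.nd (nat_lit 156) (nat_lit 608) (nat_lit 0) (XT.nd (nat_lit 78) (nat_lit 304) (nat_lit 0) (XT.lf (nat_lit 0) (nat_lit 6527225159) (nat_lit 228) (nat_lit 1965545240) (nat_lit 304) (nat_lit 6527225159) (nat_lit 122) (nat_lit 5) (nat_lit 125) (nat_lit 5) (nat_lit 126) (nat_lit 5) (nat_lit 491) (nat_lit 380) (nat_lit 269)) (XT.lf (nat_lit 0) (nat_lit 1908648014) (nat_lit 304) (nat_lit 11380218621) (nat_lit 380) (nat_lit 1908648014) (nat_lit 118) (nat_lit 5) (nat_lit 122) (nat_lit 5) (nat_lit 123) (nat_lit 5) (nat_lit 492) (nat_lit 380) (nat_lit 268))) (XT.nd (nat_lit 78) (nat_lit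 532) (nat_lit 0) (XT.lf (nat_lit 0) (nat_lit 2813681864) (nat_lit 380) (nat_lit 2813681864) (nat_lit 76) (nat_lit 9749893830) (nat_lit 117) (nat_lit 5) (nat_lit 122) (nat_lit 5) (nat_lit 118) (nat_lit 5) (nat_lit 493) (nat_lit 380) (nat_lit 267)) (XT.nd (nat_lit 78) (nat_lit 304) (nat_lit 0) (XT.lf (nat_lit 0) (nat_lit 7636452798) (nat_lit 304) (nat_lit 7636452798) (nat_lit 76) (nat_lit 286806379) (nat_lit 114) (nat_lit 5) (nat_lit 118) (nat_lit 5) (nat_lit 115) (nat_lit 5) (nat_lit 494) (nat_lit 380) (nat_lit 266)) (XT.lf (nat_lit 0) (nat_lit 3134141622) (nat_lit 304) (nat_lit 9476434302) (nat_lit 380) (nat_lit 3134141622) (nat_lit 110) (nat_lit 5) (nat_lit 114) (nat_lit 5) (nat_lit 115) (nat_lit 5) (nat_lit 495) (nat_lit 380) (nat_lit 265))))) (XT.nd (nat_lit 156) (nat_lit 608) (nat_lit 0) (XT.nd (nat_lit 78) (nat_lit 228) (nat_lit 0) (XT.lf (nat_lit 0) (nat_lit 1757698302) (nat_lit 380) (nat_lit 1757698302) (nat_lit 76) (nat_lit 12417201251)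 (nat_lit 109) (nat_lit 5) (nat_lit 114) (nat_lit 5) (nat_lit 110) (nat_lit 5) (nat_lit 496) (nat_lit 380) (nat_lit 264)) (XT.lf (nat_lit 0) (nat_lit 6762172996) (nat_lit 304) (nat_lit 6762172996) (nat_lit 76) (nat_lit 2598340162) (nat_lit 106) (nat_lit 5) (nat_lit 110) (nat_lit 5) (nat_lit 107) (nat_lit 5) (nat_lit 497) (nat_lit 380) (nat_lit 263))) (XT.nd (nat_lit 78) (nat_lit 304) (nat_lit 0) (XT.lf (nat_lit 0) (nat_lit 4406398871) (nat_lit 304) (nat_lit 7502926711) (nat_lit 380) (nat_lit 4406398871) (nat_lit 102) (nat_lit 5) (nat_lit 106) (nat_lit 5) (nat_lit 107) (nat_lit 5) (nat_lit 498) (nat_lit 380) (nat_lit 262)) (XT.nd (nat_lit 78) (nat_lit 228) (nat_lit 0) (XT.lf (nat_lit 0) (nat_lit 662858288) (nat_lit 380) (nat_lit 662858288) (nat_lit 76) (nat_lit 15186332082) (nat_lit 101) (nat_lit 5) (nat_lit 106) (nat_lit 5) (nat_lit 102) (nat_lit 5) (nat_lit 499) (nat_lit 380) (nat_lit 261)) (XT.lf (nat_lit 0) (nat_lit 5857377955) (nat_lit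 304) (nat_lit 5857377955) (nat_lit 76) (nat_lit 4995303332) (nat_lit 98) (nat_lit 5) (nat_lit 102) (nat_lit 5) (nat_lit 99) (nat_lit 5) (nat_lit 500) (nat_lit 380) (nat_lit 260))))))) (XT.nd (nat_lit 50310) (nat_lit 0) (nat_lit 52364) (XT.nd (nat_lit 390) (nat_lit 76) (nat_lit 0) (XT.nd (nat_lit 156) (nat_lit 532) (nat_lit 0) (XT.nd (nat_lit 78) (nat_lit 228) (nat_lit 0) (XT.lf (nat_lit 0) (nat_lit 5725857206) (nat_lit 228) (nat_lit 5459719843) (nat_lit 304) (nat_lit 5725857206) (nat_lit 95) (nat_lit 5) (nat_lit 98) (nat_lit 5) (nat_lit 99) (nat_lit 5) (nat_lit 501) (nat_lit 380) (nat_lit 259)) (XT.lf (nat_lit 0) (nat_lit 467926964) (nat_lit 228) (nat_lit 16180422651) (nat_lit 304) (nat_lit 467926964) (nat_lit 92) (nat_lit 5) (nat_lit 95) (nat_lit 5) (nat_lit 96) (nat_lit 5) (nat_lit 502) (nat_lit 380) (nat_lit 258))) (XT.nd (nat_lit 78) (nat_lit 456) (nat_lit 0) (XT.lf (nat_lit 0) (nat_lit 4922140834) (nat_lit 304) (nat_lit 4922140834)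 (nat_lit 76) (nat_lit 7478474834) (nat_lit 91) (nat_lit 5) (nat_lit 95) (nat_lit 5) (nat_lit 92) (nat_lit 5) (nat_lit 503) (nat_lit 380) (nat_lit 257)) (XT.nd (nat_lit 78) (nat_lit 228) (nat_lit 0) (XT.lf (nat_lit 0) (nat_lit 7093114876) (nat_lit 228) (nat_lit 3346555881) (nat_lit 304) (nat_lit 7093114876) (nat_lit 88) (nat_lit 5) (nat_lit 91) (nat_lit 5) (nat_lit 92) (nat_lit 5) (nat_lit 504) (nat_lit 380) (nat_lit 256)) (XT.lf (nat_lit 0) (nat_lit 1633469604) (nat_lit 228) (nat_lit 14479174290) (nat_lit 304) (nat_lit 1633469604) (nat_lit 85) (nat_lit 5) (nat_lit 88) (nat_lit 5) (nat_lit 89) (nat_lit 5) (nat_lit 505) (nat_lit 380) (nat_lit 255))))) (XT.nd (nat_lit 49686) (nat_lit 0) (nat_lit 54568) (XT.nd (nat_lit 49608) (nat_lit 0) (nat_lit 55024) (XT.lf (nat_lit 0) (nat_lit 3956405509) (nat_lit 304) (nat_lit 3956405509) (nat_lit 76) (nat_lit 10048932880) (nat_lit 84) (nat_lit 5) (nat_lit 88) (nat_lit 5) (nat_lit 85) (nat_lit 5) (nat_lit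 506) (nat_lit 380) (nat_lit 254)) (XT.lf (nat_lit 0) (nat_lit 1589628230) (nat_lit 0) (nat_lit 1589628230) (nat_lit 76) (nat_lit 42808391) (nat_lit 808) (nat_lit 5) (nat_lit 808) (nat_lit 3) (nat_lit 809) (nat_lit 0) (nat_lit 381) (nat_lit 381) (nat_lit 378))) (XT.nd (nat_lit 78) (nat_lit 228) (nat_lit 0) (XT.lf (nat_lit 0) (nat_lit 3010802519) (nat_lit 228) (nat_lit 42246951) (nat_lit 228) (nat_lit 3393609932) (nat_lit 805) (nat_lit 3) (nat_lit 808) (nat_lit 3) (nat_lit 808) (nat_lit 5) (nat_lit 382) (nat_lit 381) (nat_lit 377)) (XT.nd (nat_lit 78) (nat_lit 228) (nat_lit 0) (XT.lf (nat_lit 76) (nat_lit 3245410429) (nat_lit 0) (nat_lit 2862452895) (nat_lit 228) (nat_lit 342567861) (nat_lit 806) (nat_lit 5) (nat_lit 805) (nat_lit 3) (nat_lit 808) (nat_lit 5) (nat_lit 383) (nat_lit 381) (nat_lit 376)) (XT.lf (nat_lit 76) (nat_lit 85767910) (nat_lit 0) (nat_lit 2610356990) (nat_lit 304) (nat_lit 3759379770) (nat_lit 803) (nat_lit 5) (nat_lit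 802) (nat_lit 5) (nat_lit 806) (nat_lit 5) (nat_lit 384) (nat_lit 381) (nat_lit 375)))))) (XT.nd (nat_lit 390) (nat_lit 1520) (nat_lit 0) (XT.nd (nat_lit 156) (nat_lit 380) (nat_lit 0) (XT.nd (nat_lit 78) (nat_lit 304) (nat_lit 0) (XT.lf (nat_lit 76) (nat_lit 3441581384) (nat_lit 0) (nat_lit 2291807706) (nat_lit 304) (nat_lit 728397556) (nat_lit 803) (nat_lit 5) (nat_lit 802) (nat_lit 5) (nat_lit 806) (nat_lit 5) (nat_lit 385) (nat_lit 381) (nat_lit 374)) (XT.lf (nat_lit 76) (nat_lit 343323797) (nat_lit 0) (nat_lit 1913041129) (nat_lit 380) (nat_lit 4213039376) (nat_lit 799) (nat_lit 5) (nat_lit 798) (nat_lit 5) (nat_lit 803) (nat_lit 5) (nat_lit 386) (nat_lit 381) (nat_lit 373))) (XT.nd (nat_lit 78) (nat_lit 380) (nat_lit 0) (XT.lf (nat_lit 76) (nat_lit 3768300171) (nat_lit 0) (nat_lit 1466198175) (nat_lit 380) (nat_lit 1243711092) (nat_lit 799) (nat_lit 5) (nat_lit 798) (nat_lit 5) (nat_lit 803) (nat_lit 5) (nat_lit 387) (nat_lit 381)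 (nat_lit 372)) (XT.nd (nat_lit 78) (nat_lit 0) (nat_lit 0) (XT.lf (nat_lit 76) (nat_lit 730515423) (nat_lit 0) (nat_lit 960012514) (nat_lit 456) (nat_lit 4797852256) (nat_lit 794) (nat_lit 5) (nat_lit 793) (nat_lit 5) (nat_lit 799) (nat_lit 5) (nat_lit 388) (nat_lit 381) (nat_lit 371)) (XT.lf (nat_lit 76) (nat_lit 4226351519) (nat_lit 0) (nat_lit 384000207) (nat_lit 456) (nat_lit 1889367151) (nat_lit 794) (nat_lit 5) (nat_lit 793) (nat_lit 5) (nat_lit 799) (nat_lit 5) (nat_lit 389) (nat_lit 381) (nat_lit 370))))) (XT.nd (nat_lit 234) (nat_lit 608) (nat_lit 0) (XT.nd (nat_lit 78) (nat_lit 532) (nat_lit 0) (XT.lf (nat_lit 0) (nat_lit 999275684) (nat_lit 456) (nat_lit 5265828806) (nat_lit 76) (nat_lit 247317620) (nat_lit 788) (nat_lit 5) (nat_lit 794) (nat_lit 5) (nat_lit 789) (nat_lit 5) (nat_lit 390) (nat_lit 381) (nat_lit 369)) (XT.nd (nat_lit 78) (nat_lit 532) (nat_lit 0) (XT.lf (nat_lit 0) (nat_lit 3866073942) (nat_lit 456) (nat_lit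 1715777822) (nat_lit 76) (nat_lit 944364245) (nat_lit 788) (nat_lit 5) (nat_lit 794) (nat_lit 5) (nat_lit 789) (nat_lit 5) (nat_lit 391) (nat_lit 381) (nat_lit 368)) (XT.lf (nat_lit 0) (nat_lit 187686512) (nat_lit 532) (nat_lit 4655129079) (nat_lit 76) (nat_lit 1698616903) (nat_lit 781) (nat_lit 5) (nat_lit 788) (nat_lit 5) (nat_lit 782) (nat_lit 5) (nat_lit 392) (nat_lit 381) (nat_lit 367)))) (XT.nd (nat_lit 78) (nat_lit 608) (nat_lit 0) (XT.lf (nat_lit 0) (nat_lit 2998303328) (nat_lit 532) (nat_lit 1033852203) (nat_lit 76) (nat_lit 2525617088) (nat_lit 781) (nat_lit 5) (nat_lit 788) (nat_lit 5) (nat_lit 782) (nat_lit 5) (nat_lit 393) (nat_lit 381) (nat_lit 366)) (XT.nd (nat_lit 78) (nat_lit 76) (nat_lit 0) (XT.lf (nat_lit 0) (nat_lit 2652361723) (nat_lit 532) (nat_lit 3161195226) (nat_lit 608) (nat_lit 761914109) (nat_lit 774) (nat_lit 5) (nat_lit 781) (nat_lit 5) (nat_lit 782) (nat_lit 5) (nat_lit 394) (nat_lit 381) (nat_lit 365))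 (XT.lf (nat_lit 0) (nat_lit 2002975586) (nat_lit 608) (nat_lit 223599083) (nat_lit 76) (nat_lit 4367900895) (nat_lit 773) (nat_lit 5) (nat_lit 781) (nat_lit 5) (nat_lit 774) (nat_lit 5) (nat_lit 395) (nat_lit 381) (nat_lit 364))))))))
noncomputable def xc105 : XT := (XT.nd (nat_lit 1560) (nat_lit 15276) (nat_lit 0) (XT.nd (nat_lit 780) (nat_lit 9272) (nat_lit 0) (XT.nd (nat_lit 390) (nat_lit 2888) (nat_lit 0) (XT.nd (nat_lit 156) (nat_lit 836) (nat_lit 0) (XT.nd (nat_lit 78) (nat_lit 760) (nat_lit 0) (XT.lf (nat_lit 0) (nat_lit 3549344613) (nat_lit 608) (nat_lit 1219838688) (nat_lit 684) (nat_lit 1845451690) (nat_lit 765) (nat_lit 5) (nat_lit 773) (nat_lit 5) (nat_lit 774) (nat_lit 5) (nat_lit 396) (nat_lit 381) (nat_lit 363)) (XT.lf (nat_lit 0) (nat_lit 726257042) (nat_lit 684) (nat_lit 156725925) (nat_lit 760) (nat_lit 5753290618) (nat_lit 755) (nat_lit 5) (nat_lit 764) (nat_lit 5) (nat_lit 765) (nat_lit 5) (nat_lit 397) (nat_lit 381)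 (nat_lit 362))) (XT.nd (nat_lit 78) (nat_lit 836) (nat_lit 0) (XT.lf (nat_lit 0) (nat_lit 3602970695) (nat_lit 760) (nat_lit 2084964271) (nat_lit 76) (nat_lit 970932116) (nat_lit 755) (nat_lit 5) (nat_lit 765) (nat_lit 5) (nat_lit 756) (nat_lit 5) (nat_lit 398) (nat_lit 381) (nat_lit 361)) (XT.nd (nat_lit 78) (nat_lit 76) (nat_lit 0) (XT.lf (nat_lit 0) (nat_lit 1796130968) (nat_lit 760) (nat_lit 4530145457) (nat_lit 836) (nat_lit 356657661) (nat_lit 745) (nat_lit 5) (nat_lit 755) (nat_lit 5) (nat_lit 756) (nat_lit 5) (nat_lit 399) (nat_lit 381) (nat_lit 360)) (XT.lf (nat_lit 0) (nat_lit 2315994436) (nat_lit 836) (nat_lit 983279213) (nat_lit 76) (nat_lit 3408880378) (nat_lit 744) (nat_lit 5) (nat_lit 755) (nat_lit 5) (nat_lit 745) (nat_lit 5) (nat_lit 400) (nat_lit 381) (nat_lit 359))))) (XT.nd (nat_lit 156) (nat_lit 1064) (nat_lit 0) (XT.nd (nat_lit 78) (nat_lit 988) (nat_lit 0) (XT.lf (nat_lit 0) (nat_lit 2992520039) (nat_lit 836) (nat_lit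 2002253587) (nat_lit 912) (nat_lit 1739908597) (nat_lit 733) (nat_lit 5) (nat_lit 744) (nat_lit 5) (nat_lit 745) (nat_lit 5) (nat_lit 401) (nat_lit 381) (nat_lit 358)) (XT.lf (nat_lit 0) (nat_lit 253349541) (nat_lit 912) (nat_lit 646215209) (nat_lit 988) (nat_lit 5863114103) (nat_lit 720) (nat_lit 5) (nat_lit 732) (nat_lit 5) (nat_lit 733) (nat_lit 5) (nat_lit 402) (nat_lit 381) (nat_lit 357))) (XT.nd (nat_lit 78) (nat_lit 1064) (nat_lit 0) (XT.lf (nat_lit 0) (nat_lit 3538206841) (nat_lit 988) (nat_lit 2471966043) (nat_lit 76) (nat_lit 781438983) (nat_lit 720) (nat_lit 5) (nat_lit 733) (nat_lit 5) (nat_lit 721) (nat_lit 5) (nat_lit 403) (nat_lit 381) (nat_lit 356)) (XT.nd (nat_lit 78) (nat_lit 76) (nat_lit 0) (XT.lf (nat_lit 0) (nat_lit 1619718851) (nat_lit 988) (nat_lit 4565475218) (nat_lit 1064) (nat_lit 636818026) (nat_lit 707) (nat_lit 5) (nat_lit 720) (nat_lit 5) (nat_lit 721) (nat_lit 5) (nat_lit 404) (nat_lit 381) (nat_lit 355))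 (XT.lf (nat_lit 0) (nat_lit 1963418850) (nat_lit 1064) (nat_lit 1083130561) (nat_lit 76) (nat_lit 3807047651) (nat_lit 706) (nat_lit 5) (nat_lit 720) (nat_lit 5) (nat_lit 707) (nat_lit 5) (nat_lit 405) (nat_lit 381) (nat_lit 354)))))) (XT.nd (nat_lit 390) (nat_lit 5700) (nat_lit 0) (XT.nd (nat_lit 156) (nat_lit 1292) (nat_lit 0) (XT.nd (nat_lit 78) (nat_lit 1216) (nat_lit 0) (XT.lf (nat_lit 0) (nat_lit 3111988808) (nat_lit 1064) (nat_lit 1457780721) (nat_lit 1140) (nat_lit 2316707292) (nat_lit 692) (nat_lit 5) (nat_lit 706) (nat_lit 5) (nat_lit 707) (nat_lit 5) (nat_lit 406) (nat_lit 381) (nat_lit 353)) (XT.lf (nat_lit 0) (nat_lit 258528332) (nat_lit 1216) (nat_lit 6476011684) (nat_lit 76) (nat_lit 186347377) (nat_lit 676) (nat_lit 5) (nat_lit 692) (nat_lit 5) (nat_lit 677) (nat_lit 5) (nat_lit 407) (nat_lit 381) (nat_lit 352))) (XT.nd (nat_lit 78) (nat_lit 1292) (nat_lit 0) (XT.lf (nat_lit 0) (nat_lit 2833250249) (nat_lit 1216) (nat_lit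 2225276168) (nat_lit 76) (nat_lit 1897573445) (nat_lit 676) (nat_lit 5) (nat_lit 692) (nat_lit 5) (nat_lit 677) (nat_lit 5) (nat_lit 408) (nat_lit 381) (nat_lit 351)) (XT.nd (nat_lit 78) (nat_lit 76) (nat_lit 0) (XT.lf (nat_lit 0) (nat_lit 2094390303) (nat_lit 1216) (nat_lit 3323598566) (nat_lit 1292) (nat_lit 1574857267) (nat_lit 660) (nat_lit 5) (nat_lit 676) (nat_lit 5) (nat_lit 677) (nat_lit 5) (nat_lit 409) (nat_lit 381) (nat_lit 350)) (XT.lf (nat_lit 0) (nat_lit 971059058) (nat_lit 1292) (nat_lit 550153990) (nat_lit 76) (nat_lit 5509773397) (nat_lit 659) (nat_lit 5) (nat_lit 676) (nat_lit 5) (nat_lit 660) (nat_lit 5) (nat_lit 410) (nat_lit 381) (nat_lit 349))))) (XT.nd (nat_lit 156) (nat_lit 3040) (nat_lit 0) (XT.nd (nat_lit 78) (nat_lit 1368) (nat_lit 0) (XT.lf (nat_lit 0) (nat_lit 3520832008) (nat_lit 1368) (nat_lit 3190136807) (nat_lit 76) (nat_lit 359232038) (nat_lit 642) (nat_lit 5) (nat_lit 660) (nat_lit 5) (nat_lit 643) (nat_lit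 5) (nat_lit 411) (nat_lit 381) (nat_lit 348)) (XT.lf (nat_lit 0) (nat_lit 1258661332) (nat_lit 1368) (nat_lit 4832173337) (nat_lit 1444) (nat_lit 1019980194) (nat_lit 624) (nat_lit 5) (nat_lit 642) (nat_lit 5) (nat_lit 643) (nat_lit 5) (nat_lit 412) (nat_lit 381) (nat_lit 347))) (XT.nd (nat_lit 78) (nat_lit 2964) (nat_lit 0) (XT.lf (nat_lit 0) (nat_lit 1508763610) (nat_lit 1444) (nat_lit 1366776558) (nat_lit 76) (nat_lit 4277113876) (nat_lit 623) (nat_lit 5) (nat_lit 642) (nat_lit 5) (nat_lit 624) (nat_lit 5) (nat_lit 413) (nat_lit 381) (nat_lit 346)) (XT.nd (nat_lit 78) (nat_lit 1520) (nat_lit 0) (XT.lf (nat_lit 0) (nat_lit 3200020164) (nat_lit 1444) (nat_lit 843897682) (nat_lit 1520) (nat_lit 3151887458) (nat_lit 604) (nat_lit 5) (nat_lit 623) (nat_lit 5) (nat_lit 624) (nat_lit 5) (nat_lit 414) (nat_lit 381) (nat_lit 345)) (XT.lf (nat_lit 0) (nat_lit 592503513) (nat_lit 1520) (nat_lit 6007803207) (nat_lit 1596) (nat_lit 640102238) (nat_lit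 584) (nat_lit 5) (nat_lit 604) (nat_lit 5) (nat_lit 605) (nat_lit 5) (nat_lit 415) (nat_lit 381) (nat_lit 344))))))) (XT.nd (nat_lit 780) (nat_lit 6080) (nat_lit 0) (XT.nd (nat_lit 390) (nat_lit 4028) (nat_lit 0) (XT.nd (nat_lit 156) (nat_lit 3496) (nat_lit 0) (XT.nd (nat_lit 78) (nat_lit 1596) (nat_lit 0) (XT.lf (nat_lit 0) (nat_lit 1879144313) (nat_lit 1596) (nat_lit 2021541162) (nat_lit 76) (nat_lit 3385321005) (nat_lit 583) (nat_lit 5) (nat_lit 604) (nat_lit 5) (nat_lit 584) (nat_lit 5) (nat_lit 416) (nat_lit 381) (nat_lit 343)) (XT.lf (nat_lit 0) (nat_lit 2684545162) (nat_lit 1596) (nat_lit 1723932638) (nat_lit 1672) (nat_lit 2924588072) (nat_lit 562) (nat_lit 5) (nat_lit 583) (nat_lit 5) (nat_lit 584) (nat_lit 5) (nat_lit 417) (nat_lit 381) (nat_lit 342))) (XT.nd (nat_lit 78) (nat_lit 1824) (nat_lit 0) (XT.lf (nat_lit 0) (nat_lit 84669986) (nat_lit 1672) (nat_lit 6872705044) (nat_lit 1748) (nat_lit 424311878) (nat_lit 540) (nat_lit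 5) (nat_lit 562) (nat_lit 5) (nat_lit 563) (nat_lit 5) (nat_lit 418) (nat_lit 381) (nat_lit 341)) (XT.nd (nat_lit 78) (nat_lit 1748) (nat_lit 0) (XT.lf (nat_lit 0) (nat_lit 2092800558) (nat_lit 1748) (nat_lit 2525381787) (nat_lit 76) (nat_lit 2812927693) (nat_lit 539) (nat_lit 5) (nat_lit 562) (nat_lit 5) (nat_lit 540) (nat_lit 5) (nat_lit 419) (nat_lit 381) (nat_lit 340)) (XT.lf (nat_lit 0) (nat_lit 2325418279) (nat_lit 1748) (nat_lit 2297097937) (nat_lit 1824) (nat_lit 2859590470) (nat_lit 516) (nat_lit 5) (nat_lit 539) (nat_lit 5) (nat_lit 540) (nat_lit 5) (nat_lit 420) (nat_lit 381) (nat_lit 339))))) (XT.nd (nat_lit 156) (nat_lit 2128) (nat_lit 0) (XT.nd (nat_lit 78) (nat_lit 1900) (nat_lit 0) (XT.lf (nat_lit 0) (nat_lit 7173840969) (nat_lit 1824) (nat_lit 271502909) (nat_lit 76) (nat_lit 89359095) (nat_lit 516) (nat_lit 5) (nat_lit 540) (nat_lit 5) (nat_lit 517) (nat_lit 5) (nat_lit 421) (nat_lit 381) (nat_lit 338)) (XT.lf (nat_lit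 0) (nat_lit 2159379876) (nat_lit 1900) (nat_lit 2888291844) (nat_lit 76) (nat_lit 2540390710) (nat_lit 491) (nat_lit 5) (nat_lit 516) (nat_lit 5) (nat_lit 492) (nat_lit 5) (nat_lit 422) (nat_lit 381) (nat_lit 337))) (XT.nd (nat_lit 78) (nat_lit 988) (nat_lit 0) (XT.lf (nat_lit 0) (nat_lit 2112952204) (nat_lit 1140) (nat_lit 2582524124) (nat_lit 1216) (nat_lit 2947559409) (nat_lit 476) (nat_lit 5) (nat_lit 491) (nat_lit 5) (nat_lit 492) (nat_lit 5) (nat_lit 423) (nat_lit 381) (nat_lit 336)) (XT.nd (nat_lit 78) (nat_lit 988) (nat_lit 0) (XT.lf (nat_lit 0) (nat_lit 7209607655) (nat_lit 1140) (nat_lit 47397098) (nat_lit 1216) (nat_lit 442609557) (nat_lit 476) (nat_lit 5) (nat_lit 491) (nat_lit 5) (nat_lit 492) (nat_lit 5) (nat_lit 424) (nat_lit 381) (nat_lit 335)) (XT.lf (nat_lit 0) (nat_lit 2087645718) (nat_lit 988) (nat_lit 3119392453) (nat_lit 76) (nat_lit 2549953747) (nat_lit 463) (nat_lit 5) (nat_lit 476) (nat_lit 5) (nat_lit 464) (nat_lit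 5) (nat_lit 425) (nat_lit 381) (nat_lit 334)))))) (XT.nd (nat_lit 390) (nat_lit 3344) (nat_lit 0) (XT.nd (nat_lit 156) (nat_lit 1824) (nat_lit 0) (XT.nd (nat_lit 78) (nat_lit 0) (nat_lit 0) (XT.lf (nat_lit 0) (nat_lit 2038336255) (nat_lit 912) (nat_lit 2597606728) (nat_lit 988) (nat_lit 3180048314) (nat_lit 451) (nat_lit 5) (nat_lit 463) (nat_lit 5) (nat_lit 464) (nat_lit 5) (nat_lit 426) (nat_lit 381) (nat_lit 333)) (XT.lf (nat_lit 0) (nat_lit 7213756069) (nat_lit 988) (nat_lit 579444207) (nat_lit 76) (nat_lit 83399389) (nat_lit 451) (nat_lit 5) (nat_lit 464) (nat_lit 5) (nat_lit 452) (nat_lit 5) (nat_lit 427) (nat_lit 381) (nat_lit 332))) (XT.nd (nat_lit 78) (nat_lit 912) (nat_lit 0) (XT.lf (nat_lit 0) (nat_lit 1885539868) (nat_lit 912) (nat_lit 3226995371) (nat_lit 76) (nat_lit 2825521326) (nat_lit 439) (nat_lit 5) (nat_lit 451) (nat_lit 5) (nat_lit 440) (nat_lit 5) (nat_lit 428) (nat_lit 381) (nat_lit 331)) (XT.nd (nat_lit 78) (nat_lit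 0) (nat_lit 0) (XT.lf (nat_lit 0) (nat_lit 2093574270) (nat_lit 912) (nat_lit 2358129249) (nat_lit 988) (nat_lit 3549437696) (nat_lit 427) (nat_lit 5) (nat_lit 439) (nat_lit 5) (nat_lit 440) (nat_lit 5) (nat_lit 429) (nat_lit 381) (nat_lit 330)) (XT.lf (nat_lit 0) (nat_lit 7052612142) (nat_lit 988) (nat_lit 548384827) (nat_lit 76) (nat_lit 464822155) (nat_lit 427) (nat_lit 5) (nat_lit 440) (nat_lit 5) (nat_lit 428) (nat_lit 5) (nat_lit 430) (nat_lit 381) (nat_lit 329))))) (XT.nd (nat_lit 234) (nat_lit 1596) (nat_lit 0) (XT.nd (nat_lit 78) (nat_lit 836) (nat_lit 0) (XT.lf (nat_lit 0) (nat_lit 1560239876) (nat_lit 912) (nat_lit 3218660965) (nat_lit 76) (nat_lit 3352542763) (nat_lit 415) (nat_lit 5) (nat_lit 427) (nat_lit 5) (nat_lit 416) (nat_lit 5) (nat_lit 431) (nat_lit 381) (nat_lit 328)) (XT.nd (nat_lit 78) (nat_lit 0) (nat_lit 0) (XT.lf (nat_lit 0) (nat_lit 2271427432) (nat_lit 836) (nat_lit 1878376372) (nat_lit 912) (nat_lit 4048878524)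 (nat_lit 404) (nat_lit 5) (nat_lit 415) (nat_lit 5) (nat_lit 416) (nat_lit 5) (nat_lit 432) (nat_lit 381) (nat_lit 327)) (XT.lf (nat_lit 0) (nat_lit 6780145004) (nat_lit 912) (nat_lit 403451558) (nat_lit 76) (nat_lit 1083889545) (nat_lit 404) (nat_lit 5) (nat_lit 416) (nat_lit 5) (nat_lit 405) (nat_lit 5) (nat_lit 433) (nat_lit 381) (nat_lit 326)))) (XT.nd (nat_lit 78) (nat_lit 760) (nat_lit 0) (XT.lf (nat_lit 0) (nat_lit 1118211891) (nat_lit 836) (nat_lit 3101251606) (nat_lit 76) (nat_lit 4117905426) (nat_lit 393) (nat_lit 5) (nat_lit 404) (nat_lit 5) (nat_lit 394) (nat_lit 5) (nat_lit 434) (nat_lit 381) (nat_lit 325)) (XT.nd (nat_lit 78) (nat_lit 0) (nat_lit 0) (XT.lf (nat_lit 0) (nat_lit 2565361658) (nat_lit 760) (nat_lit 1171238134) (nat_lit 836) (nat_lit 4672240188) (nat_lit 383) (nat_lit 5) (nat_lit 393) (nat_lit 5) (nat_lit 394) (nat_lit 5) (nat_lit 435) (nat_lit 381) (nat_lit 324)) (XT.lf (nat_lit 0) (nat_lit 6402570148) (nat_lit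 836) (nat_lit 150909906) (nat_lit 76) (nat_lit 1928356110) (nat_lit 383) (nat_lit 5) (nat_lit 394) (nat_lit 5) (nat_lit 384) (nat_lit 5) (nat_lit 436) (nat_lit 381) (nat_lit 323))))))))
noncomputable def xc106 : XT := (XT.nd (nat_lit 1560) (nat_lit 7068) (nat_lit 0) (XT.nd (nat_lit 780) (nat_lit 4256) (nat_lit 0) (XT.nd (nat_lit 390) (nat_lit 2052) (nat_lit 0) (XT.nd (nat_lit 156) (nat_lit 1444) (nat_lit 0) (XT.nd (nat_lit 78) (nat_lit 760) (nat_lit 0) (XT.lf (nat_lit 0) (nat_lit 565259228) (nat_lit 836) (nat_lit 2880980822) (nat_lit 76) (nat_lit 5109836599) (nat_lit 372) (nat_lit 5) (nat_lit 383) (nat_lit 5) (nat_lit 373) (nat_lit 5) (nat_lit 437) (nat_lit 381) (nat_lit 322)) (XT.lf (nat_lit 0) (nat_lit 2969499219) (nat_lit 760) (nat_lit 248305704) (nat_lit 836) (nat_lit 5414062716) (nat_lit 362) (nat_lit 5) (nat_lit 372) (nat_lit 5) (nat_lit 373) (nat_lit 5) (nat_lit 438) (nat_lit 381) (nat_lit 321))) (XT.nd (nat_lit 78) (nat_lit 760)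 (nat_lit 0) (XT.lf (nat_lit 0) (nat_lit 206299541) (nat_lit 684) (nat_lit 5720524674) (nat_lit 760) (nat_lit 2782281779) (nat_lit 353) (nat_lit 5) (nat_lit 362) (nat_lit 5) (nat_lit 363) (nat_lit 5) (nat_lit 439) (nat_lit 381) (nat_lit 320)) (XT.nd (nat_lit 78) (nat_lit 760) (nat_lit 0) (XT.lf (nat_lit 0) (nat_lit 6223753343) (nat_lit 684) (nat_lit 2469398540) (nat_lit 760) (nat_lit 94674675) (nat_lit 353) (nat_lit 5) (nat_lit 362) (nat_lit 5) (nat_lit 363) (nat_lit 5) (nat_lit 440) (nat_lit 381) (nat_lit 319)) (XT.lf (nat_lit 0) (nat_lit 2604247517) (nat_lit 760) (nat_lit 5395186158) (nat_lit 76) (nat_lit 868498682) (nat_lit 343) (nat_lit 5) (nat_lit 353) (nat_lit 5) (nat_lit 344) (nat_lit 5) (nat_lit 441) (nat_lit 381) (nat_lit 318))))) (XT.nd (nat_lit 156) (nat_lit 1368) (nat_lit 0) (XT.nd (nat_lit 78) (nat_lit 0) (nat_lit 0) (XT.lf (nat_lit 0) (nat_lit 663695020) (nat_lit 684) (nat_lit 4694524240) (nat_lit 760) (nat_lit 3591361720)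 (nat_lit 334) (nat_lit 5) (nat_lit 343) (nat_lit 5) (nat_lit 344) (nat_lit 5) (nat_lit 442) (nat_lit 381) (nat_lit 317)) (XT.lf (nat_lit 0) (nat_lit 6873496908) (nat_lit 684) (nat_lit 1294749888) (nat_lit 760) (nat_lit 864596253) (nat_lit 334) (nat_lit 5) (nat_lit 343) (nat_lit 5) (nat_lit 344) (nat_lit 5) (nat_lit 443) (nat_lit 381) (nat_lit 316))) (XT.nd (nat_lit 78) (nat_lit 608) (nat_lit 0) (XT.lf (nat_lit 0) (nat_lit 1897655149) (nat_lit 760) (nat_lit 5044107297) (nat_lit 76) (nat_lit 2175637253) (nat_lit 324) (nat_lit 5) (nat_lit 334) (nat_lit 5) (nat_lit 325) (nat_lit 5) (nat_lit 444) (nat_lit 381) (nat_lit 315)) (XT.nd (nat_lit 78) (nat_lit 0) (nat_lit 0) (XT.lf (nat_lit 0) (nat_lit 1214679624) (nat_lit 608) (nat_lit 3485537071) (nat_lit 684) (nat_lit 4503383645) (nat_lit 316) (nat_lit 5) (nat_lit 324) (nat_lit 5) (nat_lit 325) (nat_lit 5) (nat_lit 445) (nat_lit 381) (nat_lit 314)) (XT.lf (nat_lit 0) (nat_lit 7559081143) (nat_lit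 684) (nat_lit 1668002070) (nat_lit 76) (nat_lit 64436747) (nat_lit 316) (nat_lit 5) (nat_lit 325) (nat_lit 5) (nat_lit 317) (nat_lit 5) (nat_lit 446) (nat_lit 381) (nat_lit 313)))))) (XT.nd (nat_lit 390) (nat_lit 1748) (nat_lit 0) (XT.nd (nat_lit 156) (nat_lit 1216) (nat_lit 0) (XT.nd (nat_lit 78) (nat_lit 608) (nat_lit 0) (XT.lf (nat_lit 0) (nat_lit 1100395845) (nat_lit 684) (nat_lit 4611964255) (nat_lit 76) (nat_lit 3668279465) (nat_lit 307) (nat_lit 5) (nat_lit 316) (nat_lit 5) (nat_lit 308) (nat_lit 5) (nat_lit 447) (nat_lit 381) (nat_lit 312)) (XT.lf (nat_lit 0) (nat_lit 1855171055) (nat_lit 608) (nat_lit 2101601510) (nat_lit 684) (nat_lit 5514738312) (nat_lit 299) (nat_lit 5) (nat_lit 307) (nat_lit 5) (nat_lit 308) (nat_lit 5) (nat_lit 448) (nat_lit 381) (nat_lit 311))) (XT.nd (nat_lit 78) (nat_lit 1216) (nat_lit 0) (XT.lf (nat_lit 0) (nat_lit 6878757398) (nat_lit 684) (nat_lit 1103189679) (nat_lit 76) (nat_lit 1582082929) (nat_lit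 299) (nat_lit 5) (nat_lit 308) (nat_lit 5) (nat_lit 300) (nat_lit 5) (nat_lit 449) (nat_lit 381) (nat_lit 310)) (XT.nd (nat_lit 78) (nat_lit 532) (nat_lit 0) (XT.lf (nat_lit 0) (nat_lit 215967690) (nat_lit 684) (nat_lit 4102736399) (nat_lit 76) (nat_lit 5339312984) (nat_lit 290) (nat_lit 5) (nat_lit 299) (nat_lit 5) (nat_lit 291) (nat_lit 5) (nat_lit 450) (nat_lit 381) (nat_lit 309)) (XT.lf (nat_lit 0) (nat_lit 2581562942) (nat_lit 532) (nat_lit 549814289) (nat_lit 608) (nat_lit 6622309652) (nat_lit 283) (nat_lit 5) (nat_lit 290) (nat_lit 5) (nat_lit 291) (nat_lit 5) (nat_lit 451) (nat_lit 381) (nat_lit 308))))) (XT.nd (nat_lit 156) (nat_lit 1140) (nat_lit 0) (XT.nd (nat_lit 78) (nat_lit 608) (nat_lit 0) (XT.lf (nat_lit 0) (nat_lit 6122339172) (nat_lit 608) (nat_lit 460017879) (nat_lit 76) (nat_lit 3268568155) (nat_lit 283) (nat_lit 5) (nat_lit 291) (nat_lit 5) (nat_lit 284) (nat_lit 5) (nat_lit 452) (nat_lit 381) (nat_lit 307)) (XT.lf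 (nat_lit 0) (nat_lit 6424905633) (nat_lit 608) (nat_lit 2762335898) (nat_lit 684) (nat_lit 762584340) (nat_lit 275) (nat_lit 5) (nat_lit 283) (nat_lit 5) (nat_lit 284) (nat_lit 5) (nat_lit 453) (nat_lit 381) (nat_lit 306))) (XT.nd (nat_lit 78) (nat_lit 532) (nat_lit 0) (XT.lf (nat_lit 0) (nat_lit 2234640073) (nat_lit 608) (nat_lit 6667390730) (nat_lit 76) (nat_lit 1148348345) (nat_lit 267) (nat_lit 5) (nat_lit 275) (nat_lit 5) (nat_lit 268) (nat_lit 5) (nat_lit 454) (nat_lit 381) (nat_lit 305)) (XT.nd (nat_lit 78) (nat_lit 0) (nat_lit 0) (XT.lf (nat_lit 0) (nat_lit 261850509) (nat_lit 532) (nat_lit 5032728689) (nat_lit 608) (nat_lit 4858003854) (nat_lit 260) (nat_lit 5) (nat_lit 267) (nat_lit 5) (nat_lit 268) (nat_lit 5) (nat_lit 455) (nat_lit 381) (nat_lit 304)) (XT.lf (nat_lit 0) (nat_lit 7377884808) (nat_lit 532) (nat_lit 1052072010) (nat_lit 608) (nat_lit 1826589422) (nat_lit 260) (nat_lit 5) (nat_lit 267) (nat_lit 5) (nat_lit 268)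 (nat_lit 5) (nat_lit 456) (nat_lit 381) (nat_lit 303))))))) (XT.nd (nat_lit 780) (nat_lit 3420) (nat_lit 0) (XT.nd (nat_lit 390) (nat_lit 1444) (nat_lit 0) (XT.nd (nat_lit 156) (nat_lit 1064) (nat_lit 0) (XT.nd (nat_lit 78) (nat_lit 532) (nat_lit 0) (XT.lf (nat_lit 0) (nat_lit 1266236211) (nat_lit 608) (nat_lit 6102342328) (nat_lit 76) (nat_lit 2993498238) (nat_lit 252) (nat_lit 5) (nat_lit 260) (nat_lit 5) (nat_lit 253) (nat_lit 5) (nat_lit 457) (nat_lit 381) (nat_lit 302)) (XT.lf (nat_lit 0) (nat_lit 1063353555) (nat_lit 532) (nat_lit 3336589414) (nat_lit 608) (nat_lit 6069463828) (nat_lit 245) (nat_lit 5) (nat_lit 252) (nat_lit 5) (nat_lit 253) (nat_lit 5) (nat_lit 458) (nat_lit 381) (nat_lit 301))) (XT.nd (nat_lit 78) (nat_lit 1064) (nat_lit 0) (XT.lf (nat_lit 0) (nat_lit 7612962297) (nat_lit 608) (nat_lit 2170515841) (nat_lit 76) (nat_lit 795072512) (nat_lit 245) (nat_lit 5) (nat_lit 253) (nat_lit 5) (nat_lit 246) (nat_lit 5) (nat_lit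 459) (nat_lit 381) (nat_lit 300)) (XT.nd (nat_lit 78) (nat_lit 532) (nat_lit 0) (XT.lf (nat_lit 0) (nat_lit 224828062) (nat_lit 532) (nat_lit 5476187704) (nat_lit 76) (nat_lit 4988293769) (nat_lit 238) (nat_lit 5) (nat_lit 245) (nat_lit 5) (nat_lit 239) (nat_lit 5) (nat_lit 460) (nat_lit 381) (nat_lit 299)) (XT.lf (nat_lit 0) (nat_lit 1936008803) (nat_lit 532) (nat_lit 1501675169) (nat_lit 608) (nat_lit 7364240768) (nat_lit 231) (nat_lit 5) (nat_lit 238) (nat_lit 5) (nat_lit 239) (nat_lit 5) (nat_lit 461) (nat_lit 381) (nat_lit 298))))) (XT.nd (nat_lit 156) (nat_lit 988) (nat_lit 0) (XT.nd (nat_lit 78) (nat_lit 456) (nat_lit 0) (XT.lf (nat_lit 0) (nat_lit 6741138108) (nat_lit 608) (nat_lit 1405406289) (nat_lit 76) (nat_lit 2769721030) (nat_lit 231) (nat_lit 5) (nat_lit 239) (nat_lit 5) (nat_lit 232) (nat_lit 5) (nat_lit 462) (nat_lit 381) (nat_lit 297)) (XT.lf (nat_lit 0) (nat_lit 6235237383) (nat_lit 456) (nat_lit 3897704373) (nat_lit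 532) (nat_lit 899505563) (nat_lit 225) (nat_lit 5) (nat_lit 231) (nat_lit 5) (nat_lit 232) (nat_lit 5) (nat_lit 463) (nat_lit 381) (nat_lit 296))) (XT.nd (nat_lit 78) (nat_lit 456) (nat_lit 0) (XT.lf (nat_lit 0) (nat_lit 2412779031) (nat_lit 532) (nat_lit 8275875132) (nat_lit 76) (nat_lit 461918176) (nat_lit 218) (nat_lit 5) (nat_lit 225) (nat_lit 5) (nat_lit 219) (nat_lit 5) (nat_lit 464) (nat_lit 381) (nat_lit 295)) (XT.nd (nat_lit 78) (nat_lit 456) (nat_lit 0) (XT.lf (nat_lit 0) (nat_lit 5809650705) (nat_lit 532) (nat_lit 578541078) (nat_lit 76) (nat_lit 4882141447) (nat_lit 218) (nat_lit 5) (nat_lit 225) (nat_lit 5) (nat_lit 219) (nat_lit 5) (nat_lit 465) (nat_lit 381) (nat_lit 294)) (XT.lf (nat_lit 0) (nat_lit 7328449473) (nat_lit 456) (nat_lit 1966294340) (nat_lit 532) (nat_lit 2097339846) (nat_lit 212) (nat_lit 5) (nat_lit 218) (nat_lit 5) (nat_lit 219) (nat_lit 5) (nat_lit 466) (nat_lit 381) (nat_lit 293)))))) (XT.nd (nat_lit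 390) (nat_lit 1596) (nat_lit 0) (XT.nd (nat_lit 156) (nat_lit 912) (nat_lit 0) (XT.nd (nat_lit 78) (nat_lit 380) (nat_lit 0) (XT.lf (nat_lit 0) (nat_lit 1334408928) (nat_lit 532) (nat_lit 7645710941) (nat_lit 76) (nat_lit 2535603591) (nat_lit 205) (nat_lit 5) (nat_lit 212) (nat_lit 5) (nat_lit 206) (nat_lit 5) (nat_lit 467) (nat_lit 381) (nat_lit 292)) (XT.lf (nat_lit 0) (nat_lit 312445259) (nat_lit 380) (nat_lit 4509774708) (nat_lit 456) (nat_lit 6819028609) (nat_lit 200) (nat_lit 5) (nat_lit 205) (nat_lit 5) (nat_lit 206) (nat_lit 5) (nat_lit 468) (nat_lit 381) (nat_lit 291))) (XT.nd (nat_lit 78) (nat_lit 912) (nat_lit 0) (XT.lf (nat_lit 0) (nat_lit 8404921072) (nat_lit 456) (nat_lit 3276382221) (nat_lit 76) (nat_lit 87478225) (nat_lit 200) (nat_lit 5) (nat_lit 206) (nat_lit 5) (nat_lit 201) (nat_lit 5) (nat_lit 469) (nat_lit 381) (nat_lit 290)) (XT.nd (nat_lit 78) (nat_lit 380) (nat_lit 0) (XT.lf (nat_lit 0) (nat_lit 194118749) (nat_lit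 532) (nat_lit 6967590333) (nat_lit 76) (nat_lit 4736418975) (nat_lit 193) (nat_lit 5) (nat_lit 200) (nat_lit 5) (nat_lit 194) (nat_lit 5) (nat_lit 470) (nat_lit 381) (nat_lit 289)) (XT.lf (nat_lit 0) (nat_lit 1270478410) (nat_lit 380) (nat_lit 2511933785) (nat_lit 456) (nat_lit 8247120697) (nat_lit 188) (nat_lit 5) (nat_lit 193) (nat_lit 5) (nat_lit 194) (nat_lit 5) (nat_lit 471) (nat_lit 381) (nat_lit 288))))) (XT.nd (nat_lit 234) (nat_lit 760) (nat_lit 0) (XT.nd (nat_lit 78) (nat_lit 836) (nat_lit 0) (XT.lf (nat_lit 0) (nat_lit 7477960388) (nat_lit 456) (nat_lit 2449981123) (nat_lit 76) (nat_lit 2234914533) (nat_lit 188) (nat_lit 5) (nat_lit 194) (nat_lit 5) (nat_lit 189) (nat_lit 5) (nat_lit 472) (nat_lit 381) (nat_lit 287)) (XT.nd (nat_lit 78) (nat_lit 456) (nat_lit 0) (XT.lf (nat_lit 0) (nat_lit 6048442478) (nat_lit 380) (nat_lit 5229332853) (nat_lit 456) (nat_lit 1020463213) (nat_lit 183) (nat_lit 5) (nat_lit 188) (nat_lit 5) (nat_lit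 189) (nat_lit 5) (nat_lit 473) (nat_lit 381) (nat_lit 286)) (XT.lf (nat_lit 0) (nat_lit 2286683151) (nat_lit 380) (nat_lit 400862057) (nat_lit 456) (nat_lit 9748312149) (nat_lit 177) (nat_lit 5) (nat_lit 182) (nat_lit 5) (nat_lit 183) (nat_lit 5) (nat_lit 474) (nat_lit 381) (nat_lit 285)))) (XT.nd (nat_lit 78) (nat_lit 760) (nat_lit 0) (XT.lf (nat_lit 0) (nat_lit 6502334542) (nat_lit 456) (nat_lit 1572943106) (nat_lit 76) (nat_lit 4499890297) (nat_lit 177) (nat_lit 5) (nat_lit 183) (nat_lit 5) (nat_lit 178) (nat_lit 5) (nat_lit 475) (nat_lit 381) (nat_lit 284)) (XT.nd (nat_lit 78) (nat_lit 380) (nat_lit 0) (XT.lf (nat_lit 0) (nat_lit 7227980448) (nat_lit 380) (nat_lit 3190200068) (nat_lit 456) (nat_lit 2298589012) (nat_lit 172) (nat_lit 5) (nat_lit 177) (nat_lit 5) (nat_lit 178) (nat_lit 5) (nat_lit 476) (nat_lit 381) (nat_lit 283)) (XT.lf (nat_lit 0) (nat_lit 1550315317) (nat_lit 380) (nat_lit 9512541539) (nat_lit 76) (nat_lit 1797754495)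 (nat_lit 167) (nat_lit 5) (nat_lit 172) (nat_lit 5) (nat_lit 168) (nat_lit 5) (nat_lit 477) (nat_lit 381) (nat_lit 282))))))))
noncomputable def xc107 : XT := (XT.nd (nat_lit 1638) (nat_lit 1596) (nat_lit 0) (XT.nd (nat_lit 780) (nat_lit 2128) (nat_lit 0) (XT.nd (nat_lit 390) (nat_lit 1368) (nat_lit 0) (XT.nd (nat_lit 156) (nat_lit 760) (nat_lit 0) (XT.nd (nat_lit 78) (nat_lit 380) (nat_lit 0) (XT.lf (nat_lit 0) (nat_lit 5479042728) (nat_lit 380) (nat_lit 646306026) (nat_lit 76) (nat_lit 6881004921) (nat_lit 167) (nat_lit 5) (nat_lit 172) (nat_lit 5) (nat_lit 168) (nat_lit 5) (nat_lit 478) (nat_lit 381) (nat_lit 281)) (XT.lf (nat_lit 0) (nat_lit 8469920084) (nat_lit 380) (nat_lit 1047290071) (nat_lit 456) (nat_lit 3637183382) (nat_lit 162) (nat_lit 5) (nat_lit 167) (nat_lit 5) (nat_lit 168) (nat_lit 5) (nat_lit 479) (nat_lit 381) (nat_lit 280))) (XT.nd (nat_lit 78) (nat_lit 380) (nat_lit 0) (XT.lf (nat_lit 0) (nat_lit 362840231) (nat_lit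 380) (nat_lit 8841982956) (nat_lit 76) (nat_lit 4099799435) (nat_lit 157) (nat_lit 5) (nat_lit 162) (nat_lit 5) (nat_lit 158) (nat_lit 5) (nat_lit 480) (nat_lit 381) (nat_lit 279)) (XT.nd (nat_lit 78) (nat_lit 0) (nat_lit 0) (XT.lf (nat_lit 0) (nat_lit 333493692) (nat_lit 380) (nat_lit 4077528865) (nat_lit 456) (nat_lit 9046015691) (nat_lit 152) (nat_lit 5) (nat_lit 157) (nat_lit 5) (nat_lit 158) (nat_lit 5) (nat_lit 481) (nat_lit 381) (nat_lit 278)) (XT.lf (nat_lit 0) (nat_lit 8583572596) (nat_lit 456) (nat_lit 3845595437) (nat_lit 76) (nat_lit 1182466074) (nat_lit 152) (nat_lit 5) (nat_lit 158) (nat_lit 5) (nat_lit 153) (nat_lit 5) (nat_lit 482) (nat_lit 381) (nat_lit 277))))) (XT.nd (nat_lit 156) (nat_lit 684) (nat_lit 0) (XT.nd (nat_lit 78) (nat_lit 380) (nat_lit 0) (XT.lf (nat_lit 0) (nat_lit 5626723572) (nat_lit 304) (nat_lit 7253047941) (nat_lit 380) (nat_lit 888746413) (nat_lit 148) (nat_lit 5) (nat_lit 152) (nat_lit 5) (nat_lit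 153) (nat_lit 5) (nat_lit 483) (nat_lit 381) (nat_lit 276)) (XT.lf (nat_lit 0) (nat_lit 1370717102) (nat_lit 304) (nat_lit 1930518247) (nat_lit 380) (nat_lit 10626639267) (nat_lit 143) (nat_lit 5) (nat_lit 147) (nat_lit 5) (nat_lit 148) (nat_lit 5) (nat_lit 484) (nat_lit 381) (nat_lit 275))) (XT.nd (nat_lit 78) (nat_lit 684) (nat_lit 0) (XT.lf (nat_lit 0) (nat_lit 7617676375) (nat_lit 380) (nat_lit 2972600729) (nat_lit 76) (nat_lit 3498932643) (nat_lit 143) (nat_lit 5) (nat_lit 148) (nat_lit 5) (nat_lit 144) (nat_lit 5) (nat_lit 485) (nat_lit 381) (nat_lit 274)) (XT.nd (nat_lit 78) (nat_lit 380) (nat_lit 0) (XT.lf (nat_lit 0) (nat_lit 6843204256) (nat_lit 304) (nat_lit 5211748584) (nat_lit 380) (nat_lit 2198128610) (nat_lit 139) (nat_lit 5) (nat_lit 143) (nat_lit 5) (nat_lit 144) (nat_lit 5) (nat_lit 486) (nat_lit 381) (nat_lit 273)) (XT.lf (nat_lit 0) (nat_lit 2147796649) (nat_lit 380) (nat_lit 11965319126) (nat_lit 76) (nat_lit 306526413)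 (nat_lit 134) (nat_lit 5) (nat_lit 139) (nat_lit 5) (nat_lit 135) (nat_lit 5) (nat_lit 487) (nat_lit 381) (nat_lit 272)))))) (XT.nd (nat_lit 390) (nat_lit 1216) (nat_lit 0) (XT.nd (nat_lit 156) (nat_lit 608) (nat_lit 0) (XT.nd (nat_lit 78) (nat_lit 304) (nat_lit 0) (XT.lf (nat_lit 0) (nat_lit 6613256113) (nat_lit 380) (nat_lit 2059260381) (nat_lit 76) (nat_lit 5915486082) (nat_lit 134) (nat_lit 5) (nat_lit 139) (nat_lit 5) (nat_lit 135) (nat_lit 5) (nat_lit 488) (nat_lit 381) (nat_lit 271)) (XT.lf (nat_lit 0) (nat_lit 8114509902) (nat_lit 304) (nat_lit 3084094506) (nat_lit 380) (nat_lit 3560514170) (nat_lit 130) (nat_lit 5) (nat_lit 134) (nat_lit 5) (nat_lit 135) (nat_lit 5) (nat_lit 489) (nat_lit 381) (nat_lit 270))) (XT.nd (nat_lit 78) (nat_lit 228) (nat_lit 0) (XT.lf (nat_lit 0) (nat_lit 961990758) (nat_lit 380) (nat_lit 11360122571) (nat_lit 76) (nat_lit 2610774399) (nat_lit 125) (nat_lit 5) (nat_lit 130) (nat_lit 5) (nat_lit 126)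 (nat_lit 5) (nat_lit 490) (nat_lit 381) (nat_lit 269)) (XT.nd (nat_lit 78) (nat_lit 228) (nat_lit 0) (XT.lf (nat_lit 0) (nat_lit 5570667849) (nat_lit 380) (nat_lit 1105966151) (nat_lit 76) (nat_lit 8432159613) (nat_lit 125) (nat_lit 5) (nat_lit 130) (nat_lit 5) (nat_lit 126) (nat_lit 5) (nat_lit 491) (nat_lit 381) (nat_lit 268)) (XT.lf (nat_lit 0) (nat_lit 9440834546) (nat_lit 228) (nat_lit 870454804) (nat_lit 304) (nat_lit 4976132849) (nat_lit 122) (nat_lit 5) (nat_lit 125) (nat_lit 5) (nat_lit 126) (nat_lit 5) (nat_lit 492) (nat_lit 381) (nat_lit 267))))) (XT.nd (nat_lit 234) (nat_lit 608) (nat_lit 0) (XT.nd (nat_lit 78) (nat_lit 304) (nat_lit 0) (XT.lf (nat_lit 0) (nat_lit 4737015732) (nat_lit 304) (nat_lit 10459301706) (nat_lit 380) (nat_lit 272314035) (nat_lit 118) (nat_lit 5) (nat_lit 122) (nat_lit 5) (nat_lit 123) (nat_lit 5) (nat_lit 493) (nat_lit 381) (nat_lit 266)) (XT.nd (nat_lit 78) (nat_lit 228) (nat_lit 0) (XT.lf (nat_lit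 0) (nat_lit 4490098128) (nat_lit 380) (nat_lit 112939601) (nat_lit 76) (nat_lit 11049362126) (nat_lit 117) (nat_lit 5) (nat_lit 122) (nat_lit 5) (nat_lit 118) (nat_lit 5) (nat_lit 494) (nat_lit 381) (nat_lit 265)) (XT.lf (nat_lit 0) (nat_lit 9402693958) (nat_lit 304) (nat_lit 5025535431) (nat_lit 76) (nat_lit 1410406584) (nat_lit 114) (nat_lit 5) (nat_lit 118) (nat_lit 5) (nat_lit 115) (nat_lit 5) (nat_lit 495) (nat_lit 381) (nat_lit 264)))) (XT.nd (nat_lit 78) (nat_lit 304) (nat_lit 0) (XT.lf (nat_lit 0) (nat_lit 5942288993) (nat_lit 304) (nat_lit 8520198438) (nat_lit 380) (nat_lit 1565130466) (nat_lit 110) (nat_lit 5) (nat_lit 114) (nat_lit 5) (nat_lit 115) (nat_lit 5) (nat_lit 496) (nat_lit 381) (nat_lit 263)) (XT.nd (nat_lit 78) (nat_lit 0) (nat_lit 0) (XT.lf (nat_lit 0) (nat_lit 931983111) (nat_lit 228) (nat_lit 2445639845) (nat_lit 304) (nat_lit 12841931442) (nat_lit 106) (nat_lit 5) (nat_lit 109) (nat_lit 5) (nat_lit 110) (nat_lit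 5) (nat_lit 497) (nat_lit 381) (nat_lit 262)) (XT.lf (nat_lit 0) (nat_lit 8470010513) (nat_lit 304) (nat_lit 4178678624) (nat_lit 76) (nat_lit 3764998860) (nat_lit 106) (nat_lit 5) (nat_lit 110) (nat_lit 5) (nat_lit 107) (nat_lit 5) (nat_lit 498) (nat_lit 381) (nat_lit 261))))))) (XT.nd (nat_lit 50388) (nat_lit 0) (nat_lit 52288) (XT.nd (nat_lit 390) (nat_lit 456) (nat_lit 0) (XT.nd (nat_lit 156) (nat_lit 532) (nat_lit 0) (XT.nd (nat_lit 78) (nat_lit 304) (nat_lit 0) (XT.lf (nat_lit 0) (nat_lit 7195378247) (nat_lit 304) (nat_lit 6511428444) (nat_lit 380) (nat_lit 2904046358) (nat_lit 102) (nat_lit 5) (nat_lit 106) (nat_lit 5) (nat_lit 107) (nat_lit 5) (nat_lit 499) (nat_lit 381) (nat_lit 260)) (XT.lf (nat_lit 0) (nat_lit 2018704171) (nat_lit 228) (nat_lit 209362218) (nat_lit 304) (nat_lit 14583184224) (nat_lit 98) (nat_lit 5) (nat_lit 101) (nat_lit 5) (nat_lit 102) (nat_lit 5) (nat_lit 500) (nat_lit 381) (nat_lit 259))) (XT.nd (nat_lit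 78) (nat_lit 532) (nat_lit 0) (XT.lf (nat_lit 0) (nat_lit 7507710595) (nat_lit 304) (nat_lit 3300522469) (nat_lit 76) (nat_lit 6205363661) (nat_lit 98) (nat_lit 5) (nat_lit 102) (nat_lit 5) (nat_lit 99) (nat_lit 5) (nat_lit 501) (nat_lit 381) (nat_lit 258)) (XT.nd (nat_lit 78) (nat_lit 304) (nat_lit 0) (XT.lf (nat_lit 0) (nat_lit 8496785271) (nat_lit 228) (nat_lit 4432873130) (nat_lit 304) (nat_lit 4289597144) (nat_lit 95) (nat_lit 5) (nat_lit 98) (nat_lit 5) (nat_lit 99) (nat_lit 5) (nat_lit 502) (nat_lit 381) (nat_lit 257)) (XT.lf (nat_lit 0) (nat_lit 1054079980) (nat_lit 304) (nat_lit 14296135428) (nat_lit 76) (nat_lit 2077946565) (nat_lit 91) (nat_lit 5) (nat_lit 95) (nat_lit 5) (nat_lit 92) (nat_lit 5) (nat_lit 503) (nat_lit 381) (nat_lit 256))))) (XT.nd (nat_lit 156) (nat_lit 228) (nat_lit 0) (XT.nd (nat_lit 78) (nat_lit 228) (nat_lit 0) (XT.lf (nat_lit 0) (nat_lit 6515785415) (nat_lit 304) (nat_lit 2391091173) (nat_lit 76) (nat_lit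 8732431008) (nat_lit 91) (nat_lit 5) (nat_lit 95) (nat_lit 5) (nat_lit 92) (nat_lit 5) (nat_lit 504) (nat_lit 381) (nat_lit 255)) (XT.lf (nat_lit 0) (nat_lit 9847170359) (nat_lit 228) (nat_lit 2284137988) (nat_lit 304) (nat_lit 5722476117) (nat_lit 88) (nat_lit 5) (nat_lit 91) (nat_lit 5) (nat_lit 92) (nat_lit 5) (nat_lit 505) (nat_lit 381) (nat_lit 254))) (XT.nd (nat_lit 49686) (nat_lit 0) (nat_lit 54492) (XT.lf (nat_lit 0) (nat_lit 4283324229) (nat_lit 228) (nat_lit 13629522552) (nat_lit 304) (nat_lit 158629987) (nat_lit 85) (nat_lit 5) (nat_lit 88) (nat_lit 5) (nat_lit 89) (nat_lit 5) (nat_lit 506) (nat_lit 381) (nat_lit 253)) (XT.nd (nat_lit 78) (nat_lit 228) (nat_lit 0) (XT.lf (nat_lit 0) (nat_lit 3032947267) (nat_lit 228) (nat_lit 96021884) (nat_lit 228) (nat_lit 96021884) (nat_lit 805) (nat_lit 3) (nat_lit 808) (nat_lit 3) (nat_lit 808) (nat_lit 5) (nat_lit 382) (nat_lit 382) (nat_lit 376)) (XT.lf (nat_lit 0) (nat_lit 2632867542)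 (nat_lit 228) (nat_lit 3398632489) (nat_lit 304) (nat_lit 422718070) (nat_lit 802) (nat_lit 5) (nat_lit 805) (nat_lit 3) (nat_lit 806) (nat_lit 5) (nat_lit 383) (nat_lit 382) (nat_lit 375)))))) (XT.nd (nat_lit 390) (nat_lit 1520) (nat_lit 0) (XT.nd (nat_lit 156) (nat_lit 380) (nat_lit 0) (XT.nd (nat_lit 78) (nat_lit 304) (nat_lit 0) (XT.lf (nat_lit 0) (nat_lit 5627480949) (nat_lit 228) (nat_lit 131681497) (nat_lit 304) (nat_lit 700876387) (nat_lit 802) (nat_lit 5) (nat_lit 805) (nat_lit 3) (nat_lit 806) (nat_lit 5) (nat_lit 384) (nat_lit 382) (nat_lit 374)) (XT.lf (nat_lit 0) (nat_lit 2130068738) (nat_lit 304) (nat_lit 3279091519) (nat_lit 380) (nat_lit 1057665535) (nat_lit 798) (nat_lit 5) (nat_lit 802) (nat_lit 5) (nat_lit 803) (nat_lit 5) (nat_lit 385) (nat_lit 382) (nat_lit 373))) (XT.nd (nat_lit 78) (nat_lit 380) (nat_lit 0) (XT.lf (nat_lit 76) (nat_lit 55474784) (nat_lit 0) (nat_lit 5010041526) (nat_lit 380) (nat_lit 1409627791)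 (nat_lit 799) (nat_lit 5) (nat_lit 798) (nat_lit 5) (nat_lit 803) (nat_lit 5) (nat_lit 386) (nat_lit 382) (nat_lit 372)) (XT.nd (nat_lit 78) (nat_lit 0) (nat_lit 0) (XT.lf (nat_lit 0) (nat_lit 1501715945) (nat_lit 380) (nat_lit 3034447157) (nat_lit 456) (nat_lit 1948334179) (nat_lit 793) (nat_lit 5) (nat_lit 798) (nat_lit 5) (nat_lit 799) (nat_lit 5) (nat_lit 387) (nat_lit 382) (nat_lit 371)) (XT.lf (nat_lit 76) (nat_lit 372796807) (nat_lit 0) (nat_lit 4007731189) (nat_lit 456) (nat_lit 2114760849) (nat_lit 794) (nat_lit 5) (nat_lit 793) (nat_lit 5) (nat_lit 799) (nat_lit 5) (nat_lit 388) (nat_lit 382) (nat_lit 370))))) (XT.nd (nat_lit 234) (nat_lit 1064) (nat_lit 0) (XT.nd (nat_lit 78) (nat_lit 0) (nat_lit 0) (XT.lf (nat_lit 0) (nat_lit 746871486) (nat_lit 456) (nat_lit 2663912200) (nat_lit 532) (nat_lit 3096469636) (nat_lit 787) (nat_lit 5) (nat_lit 793) (nat_lit 5) (nat_lit 794) (nat_lit 5) (nat_lit 389) (nat_lit 382) (nat_lit 369))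 (XT.nd (nat_lit 78) (nat_lit 0) (nat_lit 0) (XT.lf (nat_lit 76) (nat_lit 819460331) (nat_lit 0) (nat_lit 2751135139) (nat_lit 532) (nat_lit 2949918532) (nat_lit 788) (nat_lit 5) (nat_lit 787) (nat_lit 5) (nat_lit 794) (nat_lit 5) (nat_lit 390) (nat_lit 382) (nat_lit 368)) (XT.lf (nat_lit 76) (nat_lit 4367759645) (nat_lit 0) (nat_lit 2029889139) (nat_lit 532) (nat_lit 137454017) (nat_lit 788) (nat_lit 5) (nat_lit 787) (nat_lit 5) (nat_lit 794) (nat_lit 5) (nat_lit 391) (nat_lit 382) (nat_lit 367)))) (XT.nd (nat_lit 78) (nat_lit 532) (nat_lit 0) (XT.lf (nat_lit 76) (nat_lit 1396644498) (nat_lit 0) (nat_lit 1237772322) (nat_lit 608) (nat_lit 3916432331) (nat_lit 781) (nat_lit 5) (nat_lit 780) (nat_lit 5) (nat_lit 788) (nat_lit 5) (nat_lit 392) (nat_lit 382) (nat_lit 366)) (XT.nd (nat_lit 78) (nat_lit 532) (nat_lit 0) (XT.lf (nat_lit 76) (nat_lit 5019656873) (nat_lit 0) (nat_lit 385787478) (nat_lit 608) (nat_lit 1162536711) (nat_lit 781)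 (nat_lit 5) (nat_lit 780) (nat_lit 5) (nat_lit 788) (nat_lit 5) (nat_lit 393) (nat_lit 382) (nat_lit 365)) (XT.lf (nat_lit 0) (nat_lit 1573916180) (nat_lit 608) (nat_lit 4484021797) (nat_lit 76) (nat_lit 528322385) (nat_lit 773) (nat_lit 5) (nat_lit 781) (nat_lit 5) (nat_lit 774) (nat_lit 5) (nat_lit 394) (nat_lit 382) (nat_lit 364))))))))
noncomputable def xc108 : XT := (XT.nd (nat_lit 1560) (nat_lit 16796) (nat_lit 0) (XT.nd (nat_lit 780) (nat_lit 7752) (nat_lit 0) (XT.nd (nat_lit 390) (nat_lit 2888) (nat_lit 0) (XT.nd (nat_lit 156) (nat_lit 1520) (nat_lit 0) (XT.nd (nat_lit 78) (nat_lit 684) (nat_lit 0) (XT.lf (nat_lit 0) (nat_lit 4295728096) (nat_lit 608) (nat_lit 810280805) (nat_lit 76) (nat_lit 1499818733) (nat_lit 773) (nat_lit 5) (nat_lit 781) (nat_lit 5) (nat_lit 774) (nat_lit 5) (nat_lit 395) (nat_lit 382) (nat_lit 363)) (XT.lf (nat_lit 0) (nat_lit 393559478) (nat_lit 684) (nat_lit 3695124098) (nat_lit 76) (nat_lit 2537980310)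 (nat_lit 764) (nat_lit 5) (nat_lit 773) (nat_lit 5) (nat_lit 765) (nat_lit 5) (nat_lit 396) (nat_lit 382) (nat_lit 362))) (XT.nd (nat_lit 78) (nat_lit 836) (nat_lit 0) (XT.lf (nat_lit 0) (nat_lit 54929856) (nat_lit 684) (nat_lit 3006358605) (nat_lit 760) (nat_lit 3587504427) (nat_lit 755) (nat_lit 5) (nat_lit 764) (nat_lit 5) (nat_lit 765) (nat_lit 5) (nat_lit 397) (nat_lit 382) (nat_lit 361)) (XT.nd (nat_lit 78) (nat_lit 836) (nat_lit 0) (XT.lf (nat_lit 0) (nat_lit 3888520329) (nat_lit 684) (nat_lit 1854721311) (nat_lit 760) (nat_lit 928905436) (nat_lit 755) (nat_lit 5) (nat_lit 764) (nat_lit 5) (nat_lit 765) (nat_lit 5) (nat_lit 398) (nat_lit 382) (nat_lit 360)) (XT.lf (nat_lit 0) (nat_lit 1063611585) (nat_lit 760) (nat_lit 639688815) (nat_lit 836) (nat_lit 4993560088) (nat_lit 744) (nat_lit 5) (nat_lit 754) (nat_lit 5) (nat_lit 755) (nat_lit 5) (nat_lit 399) (nat_lit 382) (nat_lit 359))))) (XT.nd (nat_lit 156) (nat_lit 1976) (nat_lit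 0) (XT.nd (nat_lit 78) (nat_lit 912) (nat_lit 0) (XT.lf (nat_lit 0) (nat_lit 4336436342) (nat_lit 836) (nat_lit 1749016381) (nat_lit 76) (nat_lit 637278164) (nat_lit 744) (nat_lit 5) (nat_lit 755) (nat_lit 5) (nat_lit 745) (nat_lit 5) (nat_lit 400) (nat_lit 382) (nat_lit 358)) (XT.lf (nat_lit 0) (nat_lit 226977289) (nat_lit 912) (nat_lit 4555840881) (nat_lit 76) (nat_lit 1967116199) (nat_lit 732) (nat_lit 5) (nat_lit 744) (nat_lit 5) (nat_lit 733) (nat_lit 5) (nat_lit 401) (nat_lit 382) (nat_lit 357))) (XT.nd (nat_lit 78) (nat_lit 1976) (nat_lit 0) (XT.lf (nat_lit 0) (nat_lit 2812162995) (nat_lit 912) (nat_lit 595923292) (nat_lit 76) (nat_lit 3370248148) (nat_lit 732) (nat_lit 5) (nat_lit 744) (nat_lit 5) (nat_lit 733) (nat_lit 5) (nat_lit 402) (nat_lit 382) (nat_lit 356)) (XT.nd (nat_lit 78) (nat_lit 1064) (nat_lit 0) (XT.lf (nat_lit 0) (nat_lit 3446860570) (nat_lit 912) (nat_lit 1965508896) (nat_lit 988) (nat_lit 1395666695) (nat_lit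 720) (nat_lit 5) (nat_lit 732) (nat_lit 5) (nat_lit 733) (nat_lit 5) (nat_lit 403) (nat_lit 382) (nat_lit 355)) (XT.lf (nat_lit 0) (nat_lit 699468427) (nat_lit 988) (nat_lit 460706771) (nat_lit 1064) (nat_lit 5678997302) (nat_lit 706) (nat_lit 5) (nat_lit 719) (nat_lit 5) (nat_lit 720) (nat_lit 5) (nat_lit 404) (nat_lit 382) (nat_lit 354)))))) (XT.nd (nat_lit 390) (nat_lit 4256) (nat_lit 0) (XT.nd (nat_lit 156) (nat_lit 2432) (nat_lit 0) (XT.nd (nat_lit 78) (nat_lit 1064) (nat_lit 0) (XT.lf (nat_lit 0) (nat_lit 3720565409) (nat_lit 1064) (nat_lit 2042983594) (nat_lit 76) (nat_lit 1107755665) (nat_lit 706) (nat_lit 5) (nat_lit 720) (nat_lit 5) (nat_lit 707) (nat_lit 5) (nat_lit 405) (nat_lit 382) (nat_lit 353)) (XT.lf (nat_lit 0) (nat_lit 2118221184) (nat_lit 1064) (nat_lit 4174298128) (nat_lit 1140) (nat_lit 612353049) (nat_lit 692) (nat_lit 5) (nat_lit 706) (nat_lit 5) (nat_lit 707) (nat_lit 5) (nat_lit 406) (nat_lit 382) (nat_lit 352)))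 (XT.nd (nat_lit 78) (nat_lit 2356) (nat_lit 0) (XT.lf (nat_lit 0) (nat_lit 1908693492) (nat_lit 1140) (nat_lit 604065862) (nat_lit 76) (nat_lit 4426938987) (nat_lit 691) (nat_lit 5) (nat_lit 706) (nat_lit 5) (nat_lit 692) (nat_lit 5) (nat_lit 407) (nat_lit 382) (nat_lit 351)) (XT.nd (nat_lit 78) (nat_lit 1216) (nat_lit 0) (XT.lf (nat_lit 0) (nat_lit 3664364454) (nat_lit 1140) (nat_lit 776512351) (nat_lit 1216) (nat_lit 2534884778) (nat_lit 676) (nat_lit 5) (nat_lit 691) (nat_lit 5) (nat_lit 692) (nat_lit 5) (nat_lit 408) (nat_lit 382) (nat_lit 350)) (XT.lf (nat_lit 0) (nat_lit 977525418) (nat_lit 1216) (nat_lit 6009066259) (nat_lit 1292) (nat_lit 26696654) (nat_lit 660) (nat_lit 5) (nat_lit 676) (nat_lit 5) (nat_lit 677) (nat_lit 5) (nat_lit 409) (nat_lit 382) (nat_lit 349))))) (XT.nd (nat_lit 156) (nat_lit 2888) (nat_lit 0) (XT.nd (nat_lit 78) (nat_lit 1292) (nat_lit 0) (XT.lf (nat_lit 0) (nat_lit 2472397917) (nat_lit 1292) (nat_lit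 1718863767) (nat_lit 76) (nat_lit 2860496270) (nat_lit 659) (nat_lit 5) (nat_lit 676) (nat_lit 5) (nat_lit 660) (nat_lit 5) (nat_lit 410) (nat_lit 382) (nat_lit 348)) (XT.lf (nat_lit 0) (nat_lit 2677022825) (nat_lit 1292) (nat_lit 2308960680) (nat_lit 1368) (nat_lit 2105712604) (nat_lit 642) (nat_lit 5) (nat_lit 659) (nat_lit 5) (nat_lit 660) (nat_lit 5) (nat_lit 411) (nat_lit 382) (nat_lit 347))) (XT.nd (nat_lit 78) (nat_lit 1444) (nat_lit 0) (XT.lf (nat_lit 0) (nat_lit 6525992) (nat_lit 1368) (nat_lit 364960104) (nat_lit 1444) (nat_lit 6761701675) (nat_lit 623) (nat_lit 5) (nat_lit 641) (nat_lit 5) (nat_lit 642) (nat_lit 5) (nat_lit 412) (nat_lit 382) (nat_lit 346)) (XT.nd (nat_lit 78) (nat_lit 1444) (nat_lit 0) (XT.lf (nat_lit 0) (nat_lit 2859088893) (nat_lit 1444) (nat_lit 2667073173) (nat_lit 76) (nat_lit 1649287714) (nat_lit 623) (nat_lit 5) (nat_lit 642) (nat_lit 5) (nat_lit 624) (nat_lit 5) (nat_lit 413) (nat_lit 382) (nat_lit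 345)) (XT.lf (nat_lit 0) (nat_lit 1861049431) (nat_lit 1444) (nat_lit 3499603915) (nat_lit 1520) (nat_lit 1858619489) (nat_lit 604) (nat_lit 5) (nat_lit 623) (nat_lit 5) (nat_lit 624) (nat_lit 5) (nat_lit 414) (nat_lit 382) (nat_lit 344))))))) (XT.nd (nat_lit 780) (nat_lit 6992) (nat_lit 0) (XT.nd (nat_lit 390) (nat_lit 4864) (nat_lit 0) (XT.nd (nat_lit 156) (nat_lit 3344) (nat_lit 0) (XT.nd (nat_lit 78) (nat_lit 1520) (nat_lit 0) (XT.lf (nat_lit 0) (nat_lit 607882607) (nat_lit 1520) (nat_lit 795086088) (nat_lit 76) (nat_lit 5861557314) (nat_lit 603) (nat_lit 5) (nat_lit 623) (nat_lit 5) (nat_lit 604) (nat_lit 5) (nat_lit 415) (nat_lit 382) (nat_lit 343)) (XT.lf (nat_lit 0) (nat_lit 3080020576) (nat_lit 1596) (nat_lit 3460601549) (nat_lit 76) (nat_lit 770192556) (nat_lit 583) (nat_lit 5) (nat_lit 604) (nat_lit 5) (nat_lit 584) (nat_lit 5) (nat_lit 416) (nat_lit 382) (nat_lit 342))) (XT.nd (nat_lit 78) (nat_lit 1748) (nat_lit 0) (XT.lf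 (nat_lit 0) (nat_lit 1204832469) (nat_lit 1596) (nat_lit 4371052501) (nat_lit 1672) (nat_lit 1782658485) (nat_lit 562) (nat_lit 5) (nat_lit 583) (nat_lit 5) (nat_lit 584) (nat_lit 5) (nat_lit 417) (nat_lit 382) (nat_lit 341)) (XT.nd (nat_lit 78) (nat_lit 1672) (nat_lit 0) (XT.lf (nat_lit 0) (nat_lit 680598743) (nat_lit 1672) (nat_lit 1444339879) (nat_lit 76) (nat_lit 5282684830) (nat_lit 561) (nat_lit 5) (nat_lit 583) (nat_lit 5) (nat_lit 562) (nat_lit 5) (nat_lit 418) (nat_lit 382) (nat_lit 340)) (XT.lf (nat_lit 0) (nat_lit 3145437568) (nat_lit 1748) (nat_lit 4110368648) (nat_lit 76) (nat_lit 202119442) (nat_lit 539) (nat_lit 5) (nat_lit 562) (nat_lit 5) (nat_lit 540) (nat_lit 5) (nat_lit 419) (nat_lit 382) (nat_lit 339))))) (XT.nd (nat_lit 156) (nat_lit 3040) (nat_lit 0) (XT.nd (nat_lit 78) (nat_lit 76) (nat_lit 0) (XT.lf (nat_lit 0) (nat_lit 697750524) (nat_lit 1748) (nat_lit 4943945578) (nat_lit 1824) (nat_lit 1867895346) (nat_lit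 516) (nat_lit 5) (nat_lit 539) (nat_lit 5) (nat_lit 540) (nat_lit 5) (nat_lit 420) (nat_lit 382) (nat_lit 338)) (XT.lf (nat_lit 0) (nat_lit 599240305) (nat_lit 1824) (nat_lit 1951654854) (nat_lit 76) (nat_lit 5011677046) (nat_lit 515) (nat_lit 5) (nat_lit 539) (nat_lit 5) (nat_lit 516) (nat_lit 5) (nat_lit 421) (nat_lit 382) (nat_lit 337))) (XT.nd (nat_lit 78) (nat_lit 1216) (nat_lit 0) (XT.lf (nat_lit 0) (nat_lit 2990009920) (nat_lit 1824) (nat_lit 75124693) (nat_lit 1900) (nat_lit 4551742486) (nat_lit 491) (nat_lit 5) (nat_lit 515) (nat_lit 5) (nat_lit 516) (nat_lit 5) (nat_lit 422) (nat_lit 382) (nat_lit 336)) (XT.nd (nat_lit 78) (nat_lit 76) (nat_lit 0) (XT.lf (nat_lit 0) (nat_lit 330100500) (nat_lit 1140) (nat_lit 5237093211) (nat_lit 1216) (nat_lit 2105337443) (nat_lit 476) (nat_lit 5) (nat_lit 491) (nat_lit 5) (nat_lit 492) (nat_lit 5) (nat_lit 423) (nat_lit 382) (nat_lit 335)) (XT.lf (nat_lit 0) (nat_lit 372546650) (nat_lit 1216)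 (nat_lit 2326479403) (nat_lit 76) (nat_lit 5030468278) (nat_lit 475) (nat_lit 5) (nat_lit 491) (nat_lit 5) (nat_lit 476) (nat_lit 5) (nat_lit 424) (nat_lit 382) (nat_lit 334)))))) (XT.nd (nat_lit 390) (nat_lit 4256) (nat_lit 0) (XT.nd (nat_lit 156) (nat_lit 912) (nat_lit 0) (XT.nd (nat_lit 78) (nat_lit 912) (nat_lit 0) (XT.lf (nat_lit 0) (nat_lit 2769531162) (nat_lit 912) (nat_lit 77053175) (nat_lit 988) (nat_lit 4941238380) (nat_lit 463) (nat_lit 5) (nat_lit 475) (nat_lit 5) (nat_lit 476) (nat_lit 5) (nat_lit 425) (nat_lit 382) (nat_lit 333)) (XT.lf (nat_lit 0) (nat_lit 93031180) (nat_lit 912) (nat_lit 5267607424) (nat_lit 988) (nat_lit 2486868353) (nat_lit 451) (nat_lit 5) (nat_lit 463) (nat_lit 5) (nat_lit 464) (nat_lit 5) (nat_lit 426) (nat_lit 382) (nat_lit 332))) (XT.nd (nat_lit 78) (nat_lit 836) (nat_lit 0) (XT.lf (nat_lit 0) (nat_lit 8411670) (nat_lit 988) (nat_lit 2577440813) (nat_lit 76) (nat_lit 5322689440) (nat_lit 450) (nat_lit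 5) (nat_lit 463) (nat_lit 5) (nat_lit 451) (nat_lit 5) (nat_lit 427) (nat_lit 382) (nat_lit 331)) (XT.nd (nat_lit 78) (nat_lit 0) (nat_lit 0) (XT.lf (nat_lit 0) (nat_lit 2497374402) (nat_lit 912) (nat_lit 5292976098) (nat_lit 76) (nat_lit 180576799) (nat_lit 439) (nat_lit 5) (nat_lit 451) (nat_lit 5) (nat_lit 440) (nat_lit 5) (nat_lit 428) (nat_lit 382) (nat_lit 330)) (XT.lf (nat_lit 0) (nat_lit 5029644606) (nat_lit 912) (nat_lit 21235772) (nat_lit 76) (nat_lit 2983809440) (nat_lit 439) (nat_lit 5) (nat_lit 451) (nat_lit 5) (nat_lit 440) (nat_lit 5) (nat_lit 429) (nat_lit 382) (nat_lit 329))))) (XT.nd (nat_lit 234) (nat_lit 2432) (nat_lit 0) (XT.nd (nat_lit 78) (nat_lit 912) (nat_lit 0) (XT.lf (nat_lit 0) (nat_lit 5384230133) (nat_lit 912) (nat_lit 2223084974) (nat_lit 988) (nat_lit 492517381) (nat_lit 427) (nat_lit 5) (nat_lit 439) (nat_lit 5) (nat_lit 440) (nat_lit 5) (nat_lit 430) (nat_lit 382) (nat_lit 328)) (XT.nd (nat_lit 78) (nat_lit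 0) (nat_lit 0) (XT.lf (nat_lit 0) (nat_lit 2025388798) (nat_lit 912) (nat_lit 5459577417) (nat_lit 76) (nat_lit 681397376) (nat_lit 415) (nat_lit 5) (nat_lit 427) (nat_lit 5) (nat_lit 416) (nat_lit 5) (nat_lit 431) (nat_lit 382) (nat_lit 327)) (XT.lf (nat_lit 0) (nat_lit 4580670245) (nat_lit 912) (nat_lit 20599513) (nat_lit 76) (nat_lit 3633018207) (nat_lit 415) (nat_lit 5) (nat_lit 427) (nat_lit 5) (nat_lit 416) (nat_lit 5) (nat_lit 432) (nat_lit 382) (nat_lit 326)))) (XT.nd (nat_lit 78) (nat_lit 1596) (nat_lit 0) (XT.lf (nat_lit 0) (nat_lit 5557827266) (nat_lit 836) (nat_lit 1626628456) (nat_lit 912) (nat_lit 1119167137) (nat_lit 404) (nat_lit 5) (nat_lit 415) (nat_lit 5) (nat_lit 416) (nat_lit 5) (nat_lit 433) (nat_lit 382) (nat_lit 325)) (XT.nd (nat_lit 78) (nat_lit 760) (nat_lit 0) (XT.lf (nat_lit 0) (nat_lit 1436295408) (nat_lit 836) (nat_lit 5524563105) (nat_lit 76) (nat_lit 1413504587) (nat_lit 393) (nat_lit 5) (nat_lit 404) (nat_lit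 5) (nat_lit 394) (nat_lit 5) (nat_lit 434) (nat_lit 382) (nat_lit 324)) (XT.lf (nat_lit 0) (nat_lit 88321403) (nat_lit 760) (nat_lit 3931467142) (nat_lit 836) (nat_lit 4426743507) (nat_lit 383) (nat_lit 5) (nat_lit 393) (nat_lit 5) (nat_lit 394) (nat_lit 5) (nat_lit 435) (nat_lit 382) (nat_lit 323))))))))
noncomputable def xc109 : XT := (XT.nd (nat_lit 1560) (nat_lit 7220) (nat_lit 0) (XT.nd (nat_lit 780) (nat_lit 4332) (nat_lit 0) (XT.nd (nat_lit 390) (nat_lit 2204) (nat_lit 0) (XT.nd (nat_lit 156) (nat_lit 1444) (nat_lit 0) (XT.nd (nat_lit 78) (nat_lit 836) (nat_lit 0) (XT.lf (nat_lit 0) (nat_lit 5845724110) (nat_lit 760) (nat_lit 808767920) (nat_lit 836) (nat_lit 1865661544) (nat_lit 383) (nat_lit 5) (nat_lit 393) (nat_lit 5) (nat_lit 394) (nat_lit 5) (nat_lit 436) (nat_lit 382) (nat_lit 322)) (XT.lf (nat_lit 0) (nat_lit 735607024) (nat_lit 836) (nat_lit 5494273929) (nat_lit 76) (nat_lit 2365294474) (nat_lit 372) (nat_lit 5) (nat_lit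 383) (nat_lit 5) (nat_lit 373) (nat_lit 5) (nat_lit 437) (nat_lit 382) (nat_lit 321))) (XT.nd (nat_lit 78) (nat_lit 684) (nat_lit 0) (XT.lf (nat_lit 0) (nat_lit 300056683) (nat_lit 760) (nat_lit 3052634725) (nat_lit 836) (nat_lit 5318984233) (nat_lit 362) (nat_lit 5) (nat_lit 372) (nat_lit 5) (nat_lit 373) (nat_lit 5) (nat_lit 438) (nat_lit 382) (nat_lit 320)) (XT.nd (nat_lit 78) (nat_lit 684) (nat_lit 0) (XT.lf (nat_lit 0) (nat_lit 6024233259) (nat_lit 836) (nat_lit 2508787371) (nat_lit 76) (nat_lit 216642916) (nat_lit 362) (nat_lit 5) (nat_lit 373) (nat_lit 5) (nat_lit 363) (nat_lit 5) (nat_lit 439) (nat_lit 382) (nat_lit 319)) (XT.lf (nat_lit 0) (nat_lit 3454128067) (nat_lit 684) (nat_lit 5302211181) (nat_lit 760) (nat_lit 72729295) (nat_lit 353) (nat_lit 5) (nat_lit 362) (nat_lit 5) (nat_lit 363) (nat_lit 5) (nat_lit 440) (nat_lit 382) (nat_lit 318))))) (XT.nd (nat_lit 156) (nat_lit 1444) (nat_lit 0) (XT.nd (nat_lit 78) (nat_lit 0)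 (nat_lit 0) (XT.lf (nat_lit 0) (nat_lit 608913814) (nat_lit 684) (nat_lit 1975161575) (nat_lit 760) (nat_lit 6325932697) (nat_lit 343) (nat_lit 5) (nat_lit 352) (nat_lit 5) (nat_lit 353) (nat_lit 5) (nat_lit 441) (nat_lit 382) (nat_lit 317)) (XT.lf (nat_lit 0) (nat_lit 5303613696) (nat_lit 760) (nat_lit 2259292036) (nat_lit 76) (nat_lit 1429439646) (nat_lit 343) (nat_lit 5) (nat_lit 353) (nat_lit 5) (nat_lit 344) (nat_lit 5) (nat_lit 442) (nat_lit 382) (nat_lit 316))) (XT.nd (nat_lit 78) (nat_lit 760) (nat_lit 0) (XT.lf (nat_lit 0) (nat_lit 3899425990) (nat_lit 684) (nat_lit 4182253739) (nat_lit 760) (nat_lit 994566950) (nat_lit 334) (nat_lit 5) (nat_lit 343) (nat_lit 5) (nat_lit 344) (nat_lit 5) (nat_lit 443) (nat_lit 382) (nat_lit 315)) (XT.nd (nat_lit 78) (nat_lit 0) (nat_lit 0) (XT.lf (nat_lit 0) (nat_lit 1010024217) (nat_lit 684) (nat_lit 708194362) (nat_lit 760) (nat_lit 7443625035) (nat_lit 324) (nat_lit 5) (nat_lit 333) (nat_lit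 5) (nat_lit 334) (nat_lit 5) (nat_lit 444) (nat_lit 382) (nat_lit 314)) (XT.lf (nat_lit 0) (nat_lit 4491591960) (nat_lit 760) (nat_lit 1925405432) (nat_lit 76) (nat_lit 2831630626) (nat_lit 324) (nat_lit 5) (nat_lit 334) (nat_lit 5) (nat_lit 325) (nat_lit 5) (nat_lit 445) (nat_lit 382) (nat_lit 313)))))) (XT.nd (nat_lit 390) (nat_lit 1824) (nat_lit 0) (XT.nd (nat_lit 156) (nat_lit 1216) (nat_lit 0) (XT.nd (nat_lit 78) (nat_lit 684) (nat_lit 0) (XT.lf (nat_lit 0) (nat_lit 4437375754) (nat_lit 608) (nat_lit 2883477807) (nat_lit 684) (nat_lit 2016286135) (nat_lit 316) (nat_lit 5) (nat_lit 324) (nat_lit 5) (nat_lit 325) (nat_lit 5) (nat_lit 446) (nat_lit 382) (nat_lit 312)) (XT.lf (nat_lit 0) (nat_lit 763686367) (nat_lit 684) (nat_lit 7933297181) (nat_lit 76) (nat_lit 730444307) (nat_lit 307) (nat_lit 5) (nat_lit 316) (nat_lit 5) (nat_lit 308) (nat_lit 5) (nat_lit 447) (nat_lit 382) (nat_lit 311))) (XT.nd (nat_lit 78) (nat_lit 1216) (nat_lit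 0) (XT.lf (nat_lit 0) (nat_lit 3591879830) (nat_lit 684) (nat_lit 1511358314) (nat_lit 76) (nat_lit 4415624690) (nat_lit 307) (nat_lit 5) (nat_lit 316) (nat_lit 5) (nat_lit 308) (nat_lit 5) (nat_lit 448) (nat_lit 382) (nat_lit 310)) (XT.nd (nat_lit 78) (nat_lit 608) (nat_lit 0) (XT.lf (nat_lit 0) (nat_lit 5064114141) (nat_lit 608) (nat_lit 1413442531) (nat_lit 684) (nat_lit 3134551450) (nat_lit 299) (nat_lit 5) (nat_lit 307) (nat_lit 5) (nat_lit 308) (nat_lit 5) (nat_lit 449) (nat_lit 382) (nat_lit 309)) (XT.lf (nat_lit 0) (nat_lit 2054566808) (nat_lit 608) (nat_lit 7373526466) (nat_lit 684) (nat_lit 278982118) (nat_lit 291) (nat_lit 5) (nat_lit 299) (nat_lit 5) (nat_lit 300) (nat_lit 5) (nat_lit 450) (nat_lit 382) (nat_lit 308))))) (XT.nd (nat_lit 156) (nat_lit 1216) (nat_lit 0) (XT.nd (nat_lit 78) (nat_lit 532) (nat_lit 0) (XT.lf (nat_lit 0) (nat_lit 2607722988) (nat_lit 684) (nat_lit 1020931685) (nat_lit 76) (nat_lit 6174774022) (nat_lit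 290) (nat_lit 5) (nat_lit 299) (nat_lit 5) (nat_lit 291) (nat_lit 5) (nat_lit 451) (nat_lit 382) (nat_lit 307)) (XT.lf (nat_lit 0) (nat_lit 5556471183) (nat_lit 608) (nat_lit 4126737442) (nat_lit 76) (nat_lit 218302668) (nat_lit 283) (nat_lit 5) (nat_lit 291) (nat_lit 5) (nat_lit 284) (nat_lit 5) (nat_lit 452) (nat_lit 382) (nat_lit 306))) (XT.nd (nat_lit 78) (nat_lit 608) (nat_lit 0) (XT.lf (nat_lit 0) (nat_lit 2688778741) (nat_lit 608) (nat_lit 5893177844) (nat_lit 684) (nat_lit 1419243712) (nat_lit 275) (nat_lit 5) (nat_lit 283) (nat_lit 5) (nat_lit 284) (nat_lit 5) (nat_lit 453) (nat_lit 382) (nat_lit 305)) (XT.nd (nat_lit 78) (nat_lit 532) (nat_lit 0) (XT.lf (nat_lit 0) (nat_lit 1541930124) (nat_lit 684) (nat_lit 457486652) (nat_lit 76) (nat_lit 8103315322) (nat_lit 274) (nat_lit 5) (nat_lit 283) (nat_lit 5) (nat_lit 275) (nat_lit 5) (nat_lit 454) (nat_lit 382) (nat_lit 304)) (XT.lf (nat_lit 0) (nat_lit 4569193438) (nat_lit 608)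 (nat_lit 3648152652) (nat_lit 76) (nat_lit 1988243430) (nat_lit 267) (nat_lit 5) (nat_lit 275) (nat_lit 5) (nat_lit 268) (nat_lit 5) (nat_lit 455) (nat_lit 382) (nat_lit 303))))))) (XT.nd (nat_lit 780) (nat_lit 3496) (nat_lit 0) (XT.nd (nat_lit 390) (nat_lit 1596) (nat_lit 0) (XT.nd (nat_lit 156) (nat_lit 988) (nat_lit 0) (XT.nd (nat_lit 78) (nat_lit 608) (nat_lit 0) (XT.lf (nat_lit 0) (nat_lit 3398932716) (nat_lit 532) (nat_lit 4266833420) (nat_lit 608) (nat_lit 2644562671) (nat_lit 260) (nat_lit 5) (nat_lit 267) (nat_lit 5) (nat_lit 268) (nat_lit 5) (nat_lit 456) (nat_lit 382) (nat_lit 302)) (XT.lf (nat_lit 0) (nat_lit 178347235) (nat_lit 532) (nat_lit 219710268) (nat_lit 608) (nat_lit 10019126723) (nat_lit 252) (nat_lit 5) (nat_lit 259) (nat_lit 5) (nat_lit 260) (nat_lit 5) (nat_lit 457) (nat_lit 382) (nat_lit 301))) (XT.nd (nat_lit 78) (nat_lit 988) (nat_lit 0) (XT.lf (nat_lit 0) (nat_lit 3508942962) (nat_lit 608) (nat_lit 3106039382)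 (nat_lit 76) (nat_lit 3909988328) (nat_lit 252) (nat_lit 5) (nat_lit 260) (nat_lit 5) (nat_lit 253) (nat_lit 5) (nat_lit 458) (nat_lit 382) (nat_lit 300)) (XT.nd (nat_lit 78) (nat_lit 456) (nat_lit 0) (XT.lf (nat_lit 0) (nat_lit 4182454960) (nat_lit 532) (nat_lit 2499504012) (nat_lit 608) (nat_lit 3952955618) (nat_lit 245) (nat_lit 5) (nat_lit 252) (nat_lit 5) (nat_lit 253) (nat_lit 5) (nat_lit 459) (nat_lit 382) (nat_lit 299)) (XT.lf (nat_lit 0) (nat_lit 871867855) (nat_lit 456) (nat_lit 9055764750) (nat_lit 532) (nat_lit 819240836) (nat_lit 239) (nat_lit 5) (nat_lit 245) (nat_lit 5) (nat_lit 246) (nat_lit 5) (nat_lit 460) (nat_lit 382) (nat_lit 298))))) (XT.nd (nat_lit 156) (nat_lit 988) (nat_lit 0) (XT.nd (nat_lit 78) (nat_lit 532) (nat_lit 0) (XT.lf (nat_lit 0) (nat_lit 2377749553) (nat_lit 532) (nat_lit 2503026760) (nat_lit 76) (nat_lit 5979350914) (nat_lit 238) (nat_lit 5) (nat_lit 245) (nat_lit 5) (nat_lit 239) (nat_lit 5) (nat_lit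 461) (nat_lit 382) (nat_lit 297)) (XT.lf (nat_lit 0) (nat_lit 5037132857) (nat_lit 532) (nat_lit 595486903) (nat_lit 608) (nat_lit 5342819834) (nat_lit 231) (nat_lit 5) (nat_lit 238) (nat_lit 5) (nat_lit 239) (nat_lit 5) (nat_lit 462) (nat_lit 382) (nat_lit 296))) (XT.nd (nat_lit 78) (nat_lit 532) (nat_lit 0) (XT.lf (nat_lit 0) (nat_lit 1625896715) (nat_lit 456) (nat_lit 7351072202) (nat_lit 532) (nat_lit 2115601657) (nat_lit 225) (nat_lit 5) (nat_lit 231) (nat_lit 5) (nat_lit 232) (nat_lit 5) (nat_lit 463) (nat_lit 382) (nat_lit 295)) (XT.nd (nat_lit 78) (nat_lit 456) (nat_lit 0) (XT.lf (nat_lit 0) (nat_lit 1177297721) (nat_lit 532) (nat_lit 1841418570) (nat_lit 76) (nat_lit 8192843909) (nat_lit 224) (nat_lit 5) (nat_lit 231) (nat_lit 5) (nat_lit 225) (nat_lit 5) (nat_lit 464) (nat_lit 382) (nat_lit 294)) (XT.lf (nat_lit 0) (nat_lit 4528861619) (nat_lit 532) (nat_lit 5380680793) (nat_lit 76) (nat_lit 1422684835) (nat_lit 218) (nat_lit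 5) (nat_lit 225) (nat_lit 5) (nat_lit 219) (nat_lit 5) (nat_lit 465) (nat_lit 382) (nat_lit 293)))))) (XT.nd (nat_lit 390) (nat_lit 2128) (nat_lit 0) (XT.nd (nat_lit 156) (nat_lit 912) (nat_lit 0) (XT.nd (nat_lit 78) (nat_lit 0) (nat_lit 0) (XT.lf (nat_lit 0) (nat_lit 2442621403) (nat_lit 456) (nat_lit 5526362814) (nat_lit 532) (nat_lit 3485892868) (nat_lit 212) (nat_lit 5) (nat_lit 218) (nat_lit 5) (nat_lit 219) (nat_lit 5) (nat_lit 466) (nat_lit 382) (nat_lit 292)) (XT.lf (nat_lit 0) (nat_lit 10455974914) (nat_lit 456) (nat_lit 1031548887) (nat_lit 532) (nat_lit 92263829) (nat_lit 212) (nat_lit 5) (nat_lit 218) (nat_lit 5) (nat_lit 219) (nat_lit 5) (nat_lit 467) (nat_lit 382) (nat_lit 291))) (XT.nd (nat_lit 78) (nat_lit 380) (nat_lit 0) (XT.lf (nat_lit 0) (nat_lit 3367476817) (nat_lit 532) (nat_lit 4777025606) (nat_lit 76) (nat_lit 3561407913) (nat_lit 205) (nat_lit 5) (nat_lit 212) (nat_lit 5) (nat_lit 206) (nat_lit 5) (nat_lit 468)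 (nat_lit 382) (nat_lit 290)) (XT.nd (nat_lit 78) (nat_lit 0) (nat_lit 0) (XT.lf (nat_lit 0) (nat_lit 3320414775) (nat_lit 380) (nat_lit 3584777684) (nat_lit 456) (nat_lit 4929150527) (nat_lit 200) (nat_lit 5) (nat_lit 205) (nat_lit 5) (nat_lit 206) (nat_lit 5) (nat_lit 469) (nat_lit 382) (nat_lit 289)) (XT.lf (nat_lit 0) (nat_lit 10527058117) (nat_lit 456) (nat_lit 366557053) (nat_lit 76) (nat_lit 1071461206) (nat_lit 200) (nat_lit 5) (nat_lit 206) (nat_lit 5) (nat_lit 201) (nat_lit 5) (nat_lit 470) (nat_lit 382) (nat_lit 288))))) (XT.nd (nat_lit 234) (nat_lit 836) (nat_lit 0) (XT.nd (nat_lit 78) (nat_lit 760) (nat_lit 0) (XT.lf (nat_lit 0) (nat_lit 2145730144) (nat_lit 532) (nat_lit 4125279723) (nat_lit 76) (nat_lit 5826126171) (nat_lit 193) (nat_lit 5) (nat_lit 200) (nat_lit 5) (nat_lit 194) (nat_lit 5) (nat_lit 471) (nat_lit 382) (nat_lit 287)) (XT.nd (nat_lit 78) (nat_lit 380) (nat_lit 0) (XT.lf (nat_lit 0) (nat_lit 4257934195) (nat_lit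 380) (nat_lit 1528896067) (nat_lit 456) (nat_lit 6444717891) (nat_lit 188) (nat_lit 5) (nat_lit 193) (nat_lit 5) (nat_lit 194) (nat_lit 5) (nat_lit 472) (nat_lit 382) (nat_lit 286)) (XT.lf (nat_lit 0) (nat_lit 442025216) (nat_lit 380) (nat_lit 9085892280) (nat_lit 456) (nat_lit 2840187711) (nat_lit 183) (nat_lit 5) (nat_lit 188) (nat_lit 5) (nat_lit 189) (nat_lit 5) (nat_lit 473) (nat_lit 382) (nat_lit 285)))) (XT.nd (nat_lit 78) (nat_lit 760) (nat_lit 0) (XT.lf (nat_lit 0) (nat_lit 864477632) (nat_lit 456) (nat_lit 3426996132) (nat_lit 76) (nat_lit 8215030735) (nat_lit 182) (nat_lit 5) (nat_lit 188) (nat_lit 5) (nat_lit 183) (nat_lit 5) (nat_lit 474) (nat_lit 382) (nat_lit 284)) (XT.nd (nat_lit 78) (nat_lit 380) (nat_lit 0) (XT.lf (nat_lit 0) (nat_lit 4619022727) (nat_lit 456) (nat_lit 7397147602) (nat_lit 76) (nat_lit 630849642) (nat_lit 177) (nat_lit 5) (nat_lit 183) (nat_lit 5) (nat_lit 178) (nat_lit 5) (nat_lit 475) (nat_lit 382)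 (nat_lit 283)) (XT.lf (nat_lit 0) (nat_lit 1307208355) (nat_lit 380) (nat_lit 7177171250) (nat_lit 456) (nat_lit 4305251732) (nat_lit 172) (nat_lit 5) (nat_lit 177) (nat_lit 5) (nat_lit 178) (nat_lit 5) (nat_lit 476) (nat_lit 382) (nat_lit 282))))))))
noncomputable def xc110 : XT := (XT.nd (nat_lit 1560) (nat_lit 1976) (nat_lit 0) (XT.nd (nat_lit 780) (nat_lit 2204) (nat_lit 0) (XT.nd (nat_lit 390) (nat_lit 1064) (nat_lit 0) (XT.nd (nat_lit 156) (nat_lit 760) (nat_lit 0) (XT.nd (nat_lit 78) (nat_lit 380) (nat_lit 0) (XT.lf (nat_lit 0) (nat_lit 10247963568) (nat_lit 380) (nat_lit 2204613546) (nat_lit 456) (nat_lit 482007144) (nat_lit 172) (nat_lit 5) (nat_lit 177) (nat_lit 5) (nat_lit 178) (nat_lit 5) (nat_lit 477) (nat_lit 382) (nat_lit 281)) (XT.lf (nat_lit 0) (nat_lit 3408991877) (nat_lit 380) (nat_lit 6792485466) (nat_lit 76) (nat_lit 2879792830) (nat_lit 167) (nat_lit 5) (nat_lit 172) (nat_lit 5) (nat_lit 168) (nat_lit 5) (nat_lit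 478) (nat_lit 382) (nat_lit 280))) (XT.nd (nat_lit 78) (nat_lit 380) (nat_lit 0) (XT.lf (nat_lit 0) (nat_lit 2223167153) (nat_lit 380) (nat_lit 5171724288) (nat_lit 456) (nat_lit 5835463951) (nat_lit 162) (nat_lit 5) (nat_lit 167) (nat_lit 5) (nat_lit 168) (nat_lit 5) (nat_lit 479) (nat_lit 382) (nat_lit 279)) (XT.nd (nat_lit 78) (nat_lit 380) (nat_lit 0) (XT.lf (nat_lit 0) (nat_lit 11473789220) (nat_lit 380) (nat_lit 8867993) (nat_lit 456) (nat_lit 1899322137) (nat_lit 162) (nat_lit 5) (nat_lit 167) (nat_lit 5) (nat_lit 168) (nat_lit 5) (nat_lit 480) (nat_lit 382) (nat_lit 278)) (XT.lf (nat_lit 0) (nat_lit 2147296118) (nat_lit 380) (nat_lit 6150946052) (nat_lit 76) (nat_lit 5236928922) (nat_lit 157) (nat_lit 5) (nat_lit 162) (nat_lit 5) (nat_lit 158) (nat_lit 5) (nat_lit 481) (nat_lit 382) (nat_lit 277))))) (XT.nd (nat_lit 156) (nat_lit 684) (nat_lit 0) (XT.nd (nat_lit 78) (nat_lit 0) (nat_lit 0) (XT.lf (nat_lit 0) (nat_lit 3189172520)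 (nat_lit 380) (nat_lit 3070920186) (nat_lit 456) (nat_lit 7430869314) (nat_lit 152) (nat_lit 5) (nat_lit 157) (nat_lit 5) (nat_lit 158) (nat_lit 5) (nat_lit 482) (nat_lit 382) (nat_lit 276)) (XT.lf (nat_lit 0) (nat_lit 10488493803) (nat_lit 456) (nat_lit 1101761369) (nat_lit 76) (nat_lit 2258946623) (nat_lit 152) (nat_lit 5) (nat_lit 158) (nat_lit 5) (nat_lit 153) (nat_lit 5) (nat_lit 483) (nat_lit 382) (nat_lit 275))) (XT.nd (nat_lit 78) (nat_lit 304) (nat_lit 0) (XT.lf (nat_lit 0) (nat_lit 834199874) (nat_lit 380) (nat_lit 5473580798) (nat_lit 76) (nat_lit 7701648687) (nat_lit 147) (nat_lit 5) (nat_lit 152) (nat_lit 5) (nat_lit 148) (nat_lit 5) (nat_lit 484) (nat_lit 382) (nat_lit 274)) (XT.nd (nat_lit 78) (nat_lit 0) (nat_lit 0) (XT.lf (nat_lit 0) (nat_lit 4204708546) (nat_lit 304) (nat_lit 875707028) (nat_lit 380) (nat_lit 9091753423) (nat_lit 143) (nat_lit 5) (nat_lit 147) (nat_lit 5) (nat_lit 148) (nat_lit 5) (nat_lit 485) (nat_lit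 382) (nat_lit 273)) (XT.lf (nat_lit 0) (nat_lit 9456554155) (nat_lit 380) (nat_lit 253875298) (nat_lit 76) (nat_lit 4626834005) (nat_lit 143) (nat_lit 5) (nat_lit 148) (nat_lit 5) (nat_lit 144) (nat_lit 5) (nat_lit 486) (nat_lit 382) (nat_lit 272)))))) (XT.nd (nat_lit 390) (nat_lit 836) (nat_lit 0) (XT.nd (nat_lit 156) (nat_lit 684) (nat_lit 0) (XT.nd (nat_lit 78) (nat_lit 380) (nat_lit 0) (XT.lf (nat_lit 0) (nat_lit 9739968304) (nat_lit 304) (nat_lit 4227457844) (nat_lit 380) (nat_lit 537289447) (nat_lit 139) (nat_lit 5) (nat_lit 143) (nat_lit 5) (nat_lit 144) (nat_lit 5) (nat_lit 487) (nat_lit 382) (nat_lit 271)) (XT.lf (nat_lit 0) (nat_lit 3865271447) (nat_lit 380) (nat_lit 9414442676) (nat_lit 76) (nat_lit 1394830532) (nat_lit 134) (nat_lit 5) (nat_lit 139) (nat_lit 5) (nat_lit 135) (nat_lit 5) (nat_lit 488) (nat_lit 382) (nat_lit 270))) (XT.nd (nat_lit 78) (nat_lit 380) (nat_lit 0) (XT.lf (nat_lit 0) (nat_lit 643466961) (nat_lit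 304) (nat_lit 7747917249) (nat_lit 380) (nat_lit 6455461158) (nat_lit 130) (nat_lit 5) (nat_lit 134) (nat_lit 5) (nat_lit 135) (nat_lit 5) (nat_lit 489) (nat_lit 382) (nat_lit 269)) (XT.nd (nat_lit 78) (nat_lit 380) (nat_lit 0) (XT.lf (nat_lit 0) (nat_lit 10994276930) (nat_lit 304) (nat_lit 2055438484) (nat_lit 380) (nat_lit 1972042757) (nat_lit 130) (nat_lit 5) (nat_lit 134) (nat_lit 5) (nat_lit 135) (nat_lit 5) (nat_lit 490) (nat_lit 382) (nat_lit 268)) (XT.lf (nat_lit 0) (nat_lit 2611824613) (nat_lit 380) (nat_lit 8840760534) (nat_lit 76) (nat_lit 3746348454) (nat_lit 125) (nat_lit 5) (nat_lit 130) (nat_lit 5) (nat_lit 126) (nat_lit 5) (nat_lit 491) (nat_lit 382) (nat_lit 267))))) (XT.nd (nat_lit 156) (nat_lit 608) (nat_lit 0) (XT.nd (nat_lit 78) (nat_lit 0) (nat_lit 0) (XT.lf (nat_lit 0) (nat_lit 1585417847) (nat_lit 228) (nat_lit 5705578550) (nat_lit 304) (nat_lit 8087794785) (nat_lit 122) (nat_lit 5) (nat_lit 125) (nat_lit 5) (nat_lit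 126) (nat_lit 5) (nat_lit 492) (nat_lit 382) (nat_lit 266)) (XT.lf (nat_lit 0) (nat_lit 12103473747) (nat_lit 304) (nat_lit 3258146126) (nat_lit 76) (nat_lit 199831597) (nat_lit 122) (nat_lit 5) (nat_lit 126) (nat_lit 5) (nat_lit 123) (nat_lit 5) (nat_lit 493) (nat_lit 382) (nat_lit 265))) (XT.nd (nat_lit 78) (nat_lit 228) (nat_lit 0) (XT.lf (nat_lit 0) (nat_lit 1314257685) (nat_lit 380) (nat_lit 8241487887) (nat_lit 76) (nat_lit 6190527096) (nat_lit 117) (nat_lit 5) (nat_lit 122) (nat_lit 5) (nat_lit 118) (nat_lit 5) (nat_lit 494) (nat_lit 382) (nat_lit 264)) (XT.nd (nat_lit 78) (nat_lit 0) (nat_lit 0) (XT.lf (nat_lit 0) (nat_lit 2568444834) (nat_lit 228) (nat_lit 3585361819) (nat_lit 304) (nat_lit 9780163069) (nat_lit 114) (nat_lit 5) (nat_lit 117) (nat_lit 5) (nat_lit 118) (nat_lit 5) (nat_lit 495) (nat_lit 382) (nat_lit 263)) (XT.lf (nat_lit 0) (nat_lit 11141605299) (nat_lit 304) (nat_lit 2469715475) (nat_lit 76) (nat_lit 2513070768)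 (nat_lit 114) (nat_lit 5) (nat_lit 118) (nat_lit 5) (nat_lit 115) (nat_lit 5) (nat_lit 496) (nat_lit 382) (nat_lit 262))))))) (XT.nd (nat_lit 50544) (nat_lit 0) (nat_lit 51984) (XT.nd (nat_lit 390) (nat_lit 760) (nat_lit 0) (XT.nd (nat_lit 156) (nat_lit 608) (nat_lit 0) (XT.nd (nat_lit 78) (nat_lit 304) (nat_lit 0) (XT.lf (nat_lit 0) (nat_lit 8699989577) (nat_lit 304) (nat_lit 7589329291) (nat_lit 380) (nat_lit 28099753) (nat_lit 110) (nat_lit 5) (nat_lit 114) (nat_lit 5) (nat_lit 115) (nat_lit 5) (nat_lit 497) (nat_lit 382) (nat_lit 261)) (XT.lf (nat_lit 0) (nat_lit 3592550342) (nat_lit 228) (nat_lit 1387194247) (nat_lit 304) (nat_lit 11533509514) (nat_lit 106) (nat_lit 5) (nat_lit 109) (nat_lit 5) (nat_lit 110) (nat_lit 5) (nat_lit 498) (nat_lit 382) (nat_lit 260))) (XT.nd (nat_lit 78) (nat_lit 608) (nat_lit 0) (XT.lf (nat_lit 0) (nat_lit 10150939036) (nat_lit 304) (nat_lit 1649086268) (nat_lit 76) (nat_lit 4911705886) (nat_lit 106)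 (nat_lit 5) (nat_lit 110) (nat_lit 5) (nat_lit 107) (nat_lit 5) (nat_lit 499) (nat_lit 382) (nat_lit 259)) (XT.nd (nat_lit 78) (nat_lit 304) (nat_lit 0) (XT.lf (nat_lit 0) (nat_lit 9935259860) (nat_lit 304) (nat_lit 5544428254) (nat_lit 380) (nat_lit 1433407091) (nat_lit 102) (nat_lit 5) (nat_lit 106) (nat_lit 5) (nat_lit 107) (nat_lit 5) (nat_lit 500) (nat_lit 382) (nat_lit 258)) (XT.lf (nat_lit 0) (nat_lit 3774363841) (nat_lit 304) (nat_lit 12465439253) (nat_lit 76) (nat_lit 877637808) (nat_lit 98) (nat_lit 5) (nat_lit 102) (nat_lit 5) (nat_lit 99) (nat_lit 5) (nat_lit 501) (nat_lit 382) (nat_lit 257))))) (XT.nd (nat_lit 156) (nat_lit 532) (nat_lit 0) (XT.nd (nat_lit 78) (nat_lit 228) (nat_lit 0) (XT.lf (nat_lit 0) (nat_lit 9131514443) (nat_lit 304) (nat_lit 796364670) (nat_lit 76) (nat_lit 7396516554) (nat_lit 98) (nat_lit 5) (nat_lit 102) (nat_lit 5) (nat_lit 99) (nat_lit 5) (nat_lit 502) (nat_lit 382) (nat_lit 256)) (XT.lf (nat_lit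 0) (nat_lit 11219980223) (nat_lit 228) (nat_lit 3429603343) (nat_lit 304) (nat_lit 2884830449) (nat_lit 95) (nat_lit 5) (nat_lit 98) (nat_lit 5) (nat_lit 99) (nat_lit 5) (nat_lit 503) (nat_lit 382) (nat_lit 255))) (XT.nd (nat_lit 78) (nat_lit 228) (nat_lit 0) (XT.lf (nat_lit 0) (nat_lit 2541045663) (nat_lit 304) (nat_lit 12004124335) (nat_lit 76) (nat_lit 3202237533) (nat_lit 91) (nat_lit 5) (nat_lit 95) (nat_lit 5) (nat_lit 92) (nat_lit 5) (nat_lit 504) (nat_lit 382) (nat_lit 254)) (XT.nd (nat_lit 49842) (nat_lit 0) (nat_lit 54264) (XT.lf (nat_lit 0) (nat_lit 89648843) (nat_lit 228) (nat_lit 7994175597) (nat_lit 304) (nat_lit 9879514841) (nat_lit 88) (nat_lit 5) (nat_lit 91) (nat_lit 5) (nat_lit 92) (nat_lit 5) (nat_lit 505) (nat_lit 382) (nat_lit 253)) (XT.lf (nat_lit 0) (nat_lit 1400644220) (nat_lit 0) (nat_lit 1400644220) (nat_lit 228) (nat_lit 428335771) (nat_lit 802) (nat_lit 5) (nat_lit 802) (nat_lit 3) (nat_lit 805) (nat_lit 3)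 (nat_lit 383) (nat_lit 383) (nat_lit 374)))))) (XT.nd (nat_lit 390) (nat_lit 1064) (nat_lit 0) (XT.nd (nat_lit 156) (nat_lit 836) (nat_lit 0) (XT.nd (nat_lit 78) (nat_lit 0) (nat_lit 0) (XT.lf (nat_lit 0) (nat_lit 2063672652) (nat_lit 380) (nat_lit 422718070) (nat_lit 380) (nat_lit 3979211277) (nat_lit 797) (nat_lit 3) (nat_lit 802) (nat_lit 3) (nat_lit 802) (nat_lit 5) (nat_lit 384) (nat_lit 383) (nat_lit 373)) (XT.lf (nat_lit 76) (nat_lit 2870168482) (nat_lit 0) (nat_lit 2102901446) (nat_lit 380) (nat_lit 1500057125) (nat_lit 798) (nat_lit 5) (nat_lit 797) (nat_lit 3) (nat_lit 802) (nat_lit 5) (nat_lit 385) (nat_lit 383) (nat_lit 372))) (XT.nd (nat_lit 78) (nat_lit 456) (nat_lit 0) (XT.lf (nat_lit 0) (nat_lit 1367783309) (nat_lit 380) (nat_lit 295380106) (nat_lit 456) (nat_lit 4818908086) (nat_lit 792) (nat_lit 5) (nat_lit 797) (nat_lit 3) (nat_lit 798) (nat_lit 5) (nat_lit 386) (nat_lit 383) (nat_lit 371)) (XT.nd (nat_lit 78) (nat_lit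 456) (nat_lit 0) (XT.lf (nat_lit 76) (nat_lit 3069675181) (nat_lit 0) (nat_lit 1148876152) (nat_lit 456) (nat_lit 2273532067) (nat_lit 793) (nat_lit 5) (nat_lit 792) (nat_lit 5) (nat_lit 798) (nat_lit 5) (nat_lit 387) (nat_lit 383) (nat_lit 370)) (XT.lf (nat_lit 0) (nat_lit 544278626) (nat_lit 456) (nat_lit 40006252) (nat_lit 532) (nat_lit 5919361150) (nat_lit 786) (nat_lit 5) (nat_lit 792) (nat_lit 5) (nat_lit 793) (nat_lit 5) (nat_lit 388) (nat_lit 383) (nat_lit 369))))) (XT.nd (nat_lit 234) (nat_lit 608) (nat_lit 0) (XT.nd (nat_lit 78) (nat_lit 532) (nat_lit 0) (XT.lf (nat_lit 0) (nat_lit 3338388620) (nat_lit 456) (nat_lit 3115901537) (nat_lit 532) (nat_lit 61841476) (nat_lit 787) (nat_lit 5) (nat_lit 793) (nat_lit 5) (nat_lit 794) (nat_lit 5) (nat_lit 389) (nat_lit 383) (nat_lit 368)) (XT.nd (nat_lit 78) (nat_lit 532) (nat_lit 0) (XT.lf (nat_lit 76) (nat_lit 341241175) (nat_lit 0) (nat_lit 5782738704) (nat_lit 532) (nat_lit 406175089)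 (nat_lit 788) (nat_lit 5) (nat_lit 787) (nat_lit 5) (nat_lit 794) (nat_lit 5) (nat_lit 390) (nat_lit 383) (nat_lit 367)) (XT.lf (nat_lit 0) (nat_lit 2340032514) (nat_lit 532) (nat_lit 2691114210) (nat_lit 608) (nat_lit 1513978538) (nat_lit 780) (nat_lit 5) (nat_lit 787) (nat_lit 5) (nat_lit 788) (nat_lit 5) (nat_lit 391) (nat_lit 383) (nat_lit 366)))) (XT.nd (nat_lit 78) (nat_lit 608) (nat_lit 0) (XT.lf (nat_lit 76) (nat_lit 844854266) (nat_lit 0) (nat_lit 4227646123) (nat_lit 608) (nat_lit 1489105380) (nat_lit 781) (nat_lit 5) (nat_lit 780) (nat_lit 5) (nat_lit 788) (nat_lit 5) (nat_lit 392) (nat_lit 383) (nat_lit 365)) (XT.nd (nat_lit 78) (nat_lit 0) (nat_lit 0) (XT.lf (nat_lit 0) (nat_lit 1214501656) (nat_lit 608) (nat_lit 2139289812) (nat_lit 684) (nat_lit 3225455986) (nat_lit 772) (nat_lit 5) (nat_lit 780) (nat_lit 5) (nat_lit 781) (nat_lit 5) (nat_lit 393) (nat_lit 383) (nat_lit 364)) (XT.lf (nat_lit 76) (nat_lit 1479242398) (nat_lit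 0) (nat_lit 2415881709) (nat_lit 684) (nat_lit 2703063360) (nat_lit 773) (nat_lit 5) (nat_lit 772) (nat_lit 5) (nat_lit 781) (nat_lit 5) (nat_lit 394) (nat_lit 383) (nat_lit 363))))))))
noncomputable def xc111 : XT := (XT.nd (nat_lit 1638) (nat_lit 16720) (nat_lit 0) (XT.nd (nat_lit 780) (nat_lit 8816) (nat_lit 0) (XT.nd (nat_lit 390) (nat_lit 1900) (nat_lit 0) (XT.nd (nat_lit 156) (nat_lit 1444) (nat_lit 0) (XT.nd (nat_lit 78) (nat_lit 684) (nat_lit 0) (XT.lf (nat_lit 76) (nat_lit 5159389546) (nat_lit 0) (nat_lit 1418635281) (nat_lit 684) (nat_lit 40508136) (nat_lit 773) (nat_lit 5) (nat_lit 772) (nat_lit 5) (nat_lit 781) (nat_lit 5) (nat_lit 395) (nat_lit 383) (nat_lit 362)) (XT.lf (nat_lit 76) (nat_lit 2246106159) (nat_lit 0) (nat_lit 343859820) (nat_lit 760) (nat_lit 4049976898) (nat_lit 764) (nat_lit 5) (nat_lit 763) (nat_lit 5) (nat_lit 773) (nat_lit 5) (nat_lit 396) (nat_lit 383) (nat_lit 361))) (XT.nd (nat_lit 78) (nat_lit 1520)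 (nat_lit 0) (XT.lf (nat_lit 0) (nat_lit 5223592477) (nat_lit 684) (nat_lit 662571586) (nat_lit 76) (nat_lit 776589864) (nat_lit 764) (nat_lit 5) (nat_lit 773) (nat_lit 5) (nat_lit 765) (nat_lit 5) (nat_lit 397) (nat_lit 383) (nat_lit 360)) (XT.nd (nat_lit 78) (nat_lit 760) (nat_lit 0) (XT.lf (nat_lit 0) (nat_lit 1167824721) (nat_lit 760) (nat_lit 3552452638) (nat_lit 76) (nat_lit 1966384803) (nat_lit 754) (nat_lit 5) (nat_lit 764) (nat_lit 5) (nat_lit 755) (nat_lit 5) (nat_lit 398) (nat_lit 383) (nat_lit 359)) (XT.lf (nat_lit 0) (nat_lit 258010126) (nat_lit 760) (nat_lit 3493987776) (nat_lit 836) (nat_lit 2959974048) (nat_lit 744) (nat_lit 5) (nat_lit 754) (nat_lit 5) (nat_lit 755) (nat_lit 5) (nat_lit 399) (nat_lit 383) (nat_lit 358))))) (XT.nd (nat_lit 156) (nat_lit 988) (nat_lit 0) (XT.nd (nat_lit 78) (nat_lit 912) (nat_lit 0) (XT.lf (nat_lit 0) (nat_lit 4152343385) (nat_lit 760) (nat_lit 2198448672) (nat_lit 836) (nat_lit 387737129)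 (nat_lit 744) (nat_lit 5) (nat_lit 754) (nat_lit 5) (nat_lit 755) (nat_lit 5) (nat_lit 400) (nat_lit 383) (nat_lit 357)) (XT.lf (nat_lit 0) (nat_lit 1321259118) (nat_lit 836) (nat_lit 833836498) (nat_lit 912) (nat_lit 4611262086) (nat_lit 732) (nat_lit 5) (nat_lit 743) (nat_lit 5) (nat_lit 744) (nat_lit 5) (nat_lit 401) (nat_lit 383) (nat_lit 356))) (XT.nd (nat_lit 78) (nat_lit 988) (nat_lit 0) (XT.lf (nat_lit 0) (nat_lit 4705628763) (nat_lit 912) (nat_lit 1500330677) (nat_lit 76) (nat_lit 589491378) (nat_lit 732) (nat_lit 5) (nat_lit 744) (nat_lit 5) (nat_lit 733) (nat_lit 5) (nat_lit 402) (nat_lit 383) (nat_lit 355)) (XT.nd (nat_lit 78) (nat_lit 0) (nat_lit 0) (XT.lf (nat_lit 0) (nat_lit 439400216) (nat_lit 988) (nat_lit 4318732427) (nat_lit 76) (nat_lit 2067657049) (nat_lit 719) (nat_lit 5) (nat_lit 732) (nat_lit 5) (nat_lit 720) (nat_lit 5) (nat_lit 403) (nat_lit 383) (nat_lit 354)) (XT.lf (nat_lit 0) (nat_lit 2943975905) (nat_lit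 988) (nat_lit 296729009) (nat_lit 76) (nat_lit 3616699119) (nat_lit 719) (nat_lit 5) (nat_lit 732) (nat_lit 5) (nat_lit 720) (nat_lit 5) (nat_lit 404) (nat_lit 383) (nat_lit 353)))))) (XT.nd (nat_lit 390) (nat_lit 5472) (nat_lit 0) (XT.nd (nat_lit 156) (nat_lit 1216) (nat_lit 0) (XT.nd (nat_lit 78) (nat_lit 1140) (nat_lit 0) (XT.lf (nat_lit 0) (nat_lit 3815342780) (nat_lit 988) (nat_lit 1651788580) (nat_lit 1064) (nat_lit 1423149536) (nat_lit 706) (nat_lit 5) (nat_lit 719) (nat_lit 5) (nat_lit 720) (nat_lit 5) (nat_lit 405) (nat_lit 383) (nat_lit 352)) (XT.lf (nat_lit 0) (nat_lit 1055337847) (nat_lit 1140) (nat_lit 5869015306) (nat_lit 76) (nat_lit 256066) (nat_lit 691) (nat_lit 5) (nat_lit 706) (nat_lit 5) (nat_lit 692) (nat_lit 5) (nat_lit 406) (nat_lit 383) (nat_lit 351))) (XT.nd (nat_lit 78) (nat_lit 1216) (nat_lit 0) (XT.lf (nat_lit 0) (nat_lit 3541183021) (nat_lit 1140) (nat_lit 1711103904) (nat_lit 76) (nat_lit 1707612163) (nat_lit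 691) (nat_lit 5) (nat_lit 706) (nat_lit 5) (nat_lit 692) (nat_lit 5) (nat_lit 407) (nat_lit 383) (nat_lit 350)) (XT.nd (nat_lit 78) (nat_lit 76) (nat_lit 0) (XT.lf (nat_lit 0) (nat_lit 2522052520) (nat_lit 1140) (nat_lit 3517259668) (nat_lit 1216) (nat_lit 957331223) (nat_lit 676) (nat_lit 5) (nat_lit 691) (nat_lit 5) (nat_lit 692) (nat_lit 5) (nat_lit 408) (nat_lit 383) (nat_lit 349)) (XT.lf (nat_lit 0) (nat_lit 1491100018) (nat_lit 1216) (nat_lit 222417351) (nat_lit 76) (nat_lit 5321239749) (nat_lit 675) (nat_lit 5) (nat_lit 691) (nat_lit 5) (nat_lit 676) (nat_lit 5) (nat_lit 409) (nat_lit 383) (nat_lit 348))))) (XT.nd (nat_lit 234) (nat_lit 2888) (nat_lit 0) (XT.nd (nat_lit 78) (nat_lit 1368) (nat_lit 0) (XT.lf (nat_lit 0) (nat_lit 3951248805) (nat_lit 1292) (nat_lit 2953231113) (nat_lit 76) (nat_lit 169515271) (nat_lit 659) (nat_lit 5) (nat_lit 676) (nat_lit 5) (nat_lit 660) (nat_lit 5) (nat_lit 410) (nat_lit 383) (nat_lit 347)) (XT.nd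 (nat_lit 78) (nat_lit 76) (nat_lit 0) (XT.lf (nat_lit 0) (nat_lit 1405456735) (nat_lit 1292) (nat_lit 5025634158) (nat_lit 1368) (nat_lit 683517319) (nat_lit 642) (nat_lit 5) (nat_lit 659) (nat_lit 5) (nat_lit 660) (nat_lit 5) (nat_lit 411) (nat_lit 383) (nat_lit 346)) (XT.lf (nat_lit 0) (nat_lit 1749700049) (nat_lit 1368) (nat_lit 1317994583) (nat_lit 76) (nat_lit 4088727146) (nat_lit 641) (nat_lit 5) (nat_lit 659) (nat_lit 5) (nat_lit 642) (nat_lit 5) (nat_lit 412) (nat_lit 383) (nat_lit 345)))) (XT.nd (nat_lit 78) (nat_lit 1520) (nat_lit 0) (XT.lf (nat_lit 0) (nat_lit 3156821542) (nat_lit 1368) (nat_lit 1036035247) (nat_lit 1444) (nat_lit 3006715918) (nat_lit 623) (nat_lit 5) (nat_lit 641) (nat_lit 5) (nat_lit 642) (nat_lit 5) (nat_lit 413) (nat_lit 383) (nat_lit 344)) (XT.nd (nat_lit 78) (nat_lit 76) (nat_lit 0) (XT.lf (nat_lit 0) (nat_lit 452931051) (nat_lit 1444) (nat_lit 6201212993) (nat_lit 1520) (nat_lit 590057264) (nat_lit 604)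 (nat_lit 5) (nat_lit 623) (nat_lit 5) (nat_lit 624) (nat_lit 5) (nat_lit 414) (nat_lit 383) (nat_lit 343)) (XT.lf (nat_lit 0) (nat_lit 1835585000) (nat_lit 1520) (nat_lit 2257254302) (nat_lit 76) (nat_lit 3196934900) (nat_lit 603) (nat_lit 5) (nat_lit 623) (nat_lit 5) (nat_lit 604) (nat_lit 5) (nat_lit 415) (nat_lit 383) (nat_lit 342))))))) (XT.nd (nat_lit 780) (nat_lit 6080) (nat_lit 0) (XT.nd (nat_lit 390) (nat_lit 5776) (nat_lit 0) (XT.nd (nat_lit 156) (nat_lit 3344) (nat_lit 0) (XT.nd (nat_lit 78) (nat_lit 0) (nat_lit 0) (XT.lf (nat_lit 0) (nat_lit 2353034257) (nat_lit 1520) (nat_lit 1916119959) (nat_lit 1596) (nat_lit 3067680033) (nat_lit 583) (nat_lit 5) (nat_lit 603) (nat_lit 5) (nat_lit 604) (nat_lit 5) (nat_lit 416) (nat_lit 383) (nat_lit 341)) (XT.lf (nat_lit 0) (nat_lit 6721361379) (nat_lit 1596) (nat_lit 342555874) (nat_lit 76) (nat_lit 321518914) (nat_lit 583) (nat_lit 5) (nat_lit 604) (nat_lit 5) (nat_lit 584) (nat_lit 5)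 (nat_lit 417) (nat_lit 383) (nat_lit 340))) (XT.nd (nat_lit 78) (nat_lit 1672) (nat_lit 0) (XT.lf (nat_lit 0) (nat_lit 1759021073) (nat_lit 1672) (nat_lit 3051466665) (nat_lit 76) (nat_lit 2624392994) (nat_lit 561) (nat_lit 5) (nat_lit 583) (nat_lit 5) (nat_lit 562) (nat_lit 5) (nat_lit 418) (nat_lit 383) (nat_lit 339)) (XT.nd (nat_lit 78) (nat_lit 0) (nat_lit 0) (XT.lf (nat_lit 0) (nat_lit 1699566238) (nat_lit 1672) (nat_lit 2489488253) (nat_lit 1748) (nat_lit 3296824555) (nat_lit 539) (nat_lit 5) (nat_lit 561) (nat_lit 5) (nat_lit 562) (nat_lit 5) (nat_lit 419) (nat_lit 383) (nat_lit 338)) (XT.lf (nat_lit 0) (nat_lit 6545667412) (nat_lit 1672) (nat_lit 97142241) (nat_lit 1748) (nat_lit 895585252) (nat_lit 539) (nat_lit 5) (nat_lit 561) (nat_lit 5) (nat_lit 562) (nat_lit 5) (nat_lit 420) (nat_lit 383) (nat_lit 337))))) (XT.nd (nat_lit 156) (nat_lit 2128) (nat_lit 0) (XT.nd (nat_lit 78) (nat_lit 1824) (nat_lit 0) (XT.lf (nat_lit 0) (nat_lit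 1529311408) (nat_lit 1824) (nat_lit 3710972637) (nat_lit 76) (nat_lit 2351555097) (nat_lit 515) (nat_lit 5) (nat_lit 539) (nat_lit 5) (nat_lit 516) (nat_lit 5) (nat_lit 421) (nat_lit 383) (nat_lit 336)) (XT.lf (nat_lit 0) (nat_lit 1186376430) (nat_lit 1824) (nat_lit 2775273898) (nat_lit 1900) (nat_lit 3685164817) (nat_lit 491) (nat_lit 5) (nat_lit 515) (nat_lit 5) (nat_lit 516) (nat_lit 5) (nat_lit 422) (nat_lit 383) (nat_lit 335))) (XT.nd (nat_lit 78) (nat_lit 2128) (nat_lit 0) (XT.lf (nat_lit 0) (nat_lit 6190515586) (nat_lit 1824) (nat_lit 233492159) (nat_lit 1900) (nat_lit 1279255488) (nat_lit 491) (nat_lit 5) (nat_lit 515) (nat_lit 5) (nat_lit 516) (nat_lit 5) (nat_lit 423) (nat_lit 383) (nat_lit 334)) (XT.nd (nat_lit 78) (nat_lit 912) (nat_lit 0) (XT.lf (nat_lit 0) (nat_lit 1154863376) (nat_lit 1216) (nat_lit 4245252772) (nat_lit 76) (nat_lit 2360661613) (nat_lit 475) (nat_lit 5) (nat_lit 491) (nat_lit 5) (nat_lit 476) (nat_lit 5)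 (nat_lit 424) (nat_lit 383) (nat_lit 333)) (XT.lf (nat_lit 0) (nat_lit 804288279) (nat_lit 912) (nat_lit 2790875836) (nat_lit 988) (nat_lit 4224616771) (nat_lit 463) (nat_lit 5) (nat_lit 475) (nat_lit 5) (nat_lit 476) (nat_lit 5) (nat_lit 425) (nat_lit 383) (nat_lit 332)))))) (XT.nd (nat_lit 390) (nat_lit 3268) (nat_lit 0) (XT.nd (nat_lit 156) (nat_lit 1824) (nat_lit 0) (XT.nd (nat_lit 78) (nat_lit 988) (nat_lit 0) (XT.lf (nat_lit 0) (nat_lit 5970836797) (nat_lit 912) (nat_lit 100109065) (nat_lit 988) (nat_lit 1809284713) (nat_lit 463) (nat_lit 5) (nat_lit 475) (nat_lit 5) (nat_lit 476) (nat_lit 5) (nat_lit 426) (nat_lit 383) (nat_lit 331)) (XT.lf (nat_lit 0) (nat_lit 643250464) (nat_lit 988) (nat_lit 4662990664) (nat_lit 76) (nat_lit 2635613592) (nat_lit 450) (nat_lit 5) (nat_lit 463) (nat_lit 5) (nat_lit 451) (nat_lit 5) (nat_lit 427) (nat_lit 383) (nat_lit 330))) (XT.nd (nat_lit 78) (nat_lit 988) (nat_lit 0) (XT.lf (nat_lit 0) (nat_lit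 544927091) (nat_lit 836) (nat_lit 2552081178) (nat_lit 912) (nat_lit 4907935925) (nat_lit 439) (nat_lit 5) (nat_lit 450) (nat_lit 5) (nat_lit 451) (nat_lit 5) (nat_lit 428) (nat_lit 383) (nat_lit 329)) (XT.nd (nat_lit 78) (nat_lit 988) (nat_lit 0) (XT.lf (nat_lit 0) (nat_lit 5592806145) (nat_lit 912) (nat_lit 2192659634) (nat_lit 76) (nat_lit 283970381) (nat_lit 439) (nat_lit 5) (nat_lit 451) (nat_lit 5) (nat_lit 440) (nat_lit 5) (nat_lit 429) (nat_lit 383) (nat_lit 328)) (XT.lf (nat_lit 0) (nat_lit 1269181) (nat_lit 988) (nat_lit 4972131465) (nat_lit 76) (nat_lit 3161856680) (nat_lit 426) (nat_lit 5) (nat_lit 439) (nat_lit 5) (nat_lit 427) (nat_lit 5) (nat_lit 430) (nat_lit 383) (nat_lit 327))))) (XT.nd (nat_lit 234) (nat_lit 1596) (nat_lit 0) (XT.nd (nat_lit 78) (nat_lit 836) (nat_lit 0) (XT.lf (nat_lit 0) (nat_lit 400662293) (nat_lit 836) (nat_lit 2073178419) (nat_lit 912) (nat_lit 5728661265) (nat_lit 415) (nat_lit 5) (nat_lit 426)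 (nat_lit 5) (nat_lit 427) (nat_lit 5) (nat_lit 431) (nat_lit 383) (nat_lit 326)) (XT.nd (nat_lit 78) (nat_lit 836) (nat_lit 0) (XT.lf (nat_lit 0) (nat_lit 4996509878) (nat_lit 912) (nat_lit 2370303602) (nat_lit 76) (nat_lit 904265116) (nat_lit 415) (nat_lit 5) (nat_lit 427) (nat_lit 5) (nat_lit 416) (nat_lit 5) (nat_lit 432) (nat_lit 383) (nat_lit 325)) (XT.lf (nat_lit 0) (nat_lit 3156132091) (nat_lit 836) (nat_lit 4409793560) (nat_lit 912) (nat_lit 775175233) (nat_lit 404) (nat_lit 5) (nat_lit 415) (nat_lit 5) (nat_lit 416) (nat_lit 5) (nat_lit 433) (nat_lit 383) (nat_lit 324)))) (XT.nd (nat_lit 78) (nat_lit 760) (nat_lit 0) (XT.lf (nat_lit 0) (nat_lit 364554259) (nat_lit 760) (nat_lit 1367061614) (nat_lit 836) (nat_lit 6681063782) (nat_lit 393) (nat_lit 5) (nat_lit 403) (nat_lit 5) (nat_lit 404) (nat_lit 5) (nat_lit 434) (nat_lit 383) (nat_lit 323)) (XT.nd (nat_lit 78) (nat_lit 760) (nat_lit 0) (XT.lf (nat_lit 0) (nat_lit 4287216391)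 (nat_lit 836) (nat_lit 2448348787) (nat_lit 76) (nat_lit 1749841282) (nat_lit 393) (nat_lit 5) (nat_lit 404) (nat_lit 5) (nat_lit 394) (nat_lit 5) (nat_lit 435) (nat_lit 383) (nat_lit 322)) (XT.lf (nat_lit 0) (nat_lit 3255828243) (nat_lit 760) (nat_lit 3631768077) (nat_lit 836) (nat_lit 1672118134) (nat_lit 383) (nat_lit 5) (nat_lit 393) (nat_lit 5) (nat_lit 394) (nat_lit 5) (nat_lit 436) (nat_lit 383) (nat_lit 321))))))))
noncomputable def xc112 : XT := (XT.nd (nat_lit 1560) (nat_lit 7220) (nat_lit 0) (XT.nd (nat_lit 780) (nat_lit 3724) (nat_lit 0) (XT.nd (nat_lit 390) (nat_lit 2736) (nat_lit 0) (XT.nd (nat_lit 156) (nat_lit 1520) (nat_lit 0) (XT.nd (nat_lit 78) (nat_lit 0) (nat_lit 0) (XT.lf (nat_lit 0) (nat_lit 430305332) (nat_lit 760) (nat_lit 445326170) (nat_lit 836) (nat_lit 7760099283) (nat_lit 372) (nat_lit 5) (nat_lit 382) (nat_lit 5) (nat_lit 383) (nat_lit 5) (nat_lit 437) (nat_lit 383) (nat_lit 320)) (XT.lf (nat_lit 0) (nat_lit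 3470102330) (nat_lit 836) (nat_lit 2432863500) (nat_lit 76) (nat_lit 2809717441) (nat_lit 372) (nat_lit 5) (nat_lit 383) (nat_lit 5) (nat_lit 373) (nat_lit 5) (nat_lit 438) (nat_lit 383) (nat_lit 319))) (XT.nd (nat_lit 78) (nat_lit 760) (nat_lit 0) (XT.lf (nat_lit 0) (nat_lit 3456489935) (nat_lit 760) (nat_lit 2650164081) (nat_lit 836) (nat_lit 2684716963) (nat_lit 362) (nat_lit 5) (nat_lit 372) (nat_lit 5) (nat_lit 373) (nat_lit 5) (nat_lit 439) (nat_lit 383) (nat_lit 318)) (XT.nd (nat_lit 78) (nat_lit 76) (nat_lit 0) (XT.lf (nat_lit 0) (nat_lit 587130132) (nat_lit 684) (nat_lit 8198574615) (nat_lit 760) (nat_lit 86132334) (nat_lit 353) (nat_lit 5) (nat_lit 362) (nat_lit 5) (nat_lit 363) (nat_lit 5) (nat_lit 440) (nat_lit 383) (nat_lit 317)) (XT.lf (nat_lit 0) (nat_lit 2549753345) (nat_lit 760) (nat_lit 2329354208) (nat_lit 76) (nat_lit 4074092708) (nat_lit 352) (nat_lit 5) (nat_lit 362) (nat_lit 5) (nat_lit 353) (nat_lit 5) (nat_lit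 441) (nat_lit 383) (nat_lit 316))))) (XT.nd (nat_lit 156) (nat_lit 1368) (nat_lit 0) (XT.nd (nat_lit 78) (nat_lit 684) (nat_lit 0) (XT.lf (nat_lit 0) (nat_lit 3752954706) (nat_lit 684) (nat_lit 1474669941) (nat_lit 760) (nat_lit 3808746247) (nat_lit 343) (nat_lit 5) (nat_lit 352) (nat_lit 5) (nat_lit 353) (nat_lit 5) (nat_lit 442) (nat_lit 383) (nat_lit 315)) (XT.lf (nat_lit 0) (nat_lit 824168460) (nat_lit 684) (nat_lit 7135352630) (nat_lit 760) (nat_lit 1161674494) (nat_lit 334) (nat_lit 5) (nat_lit 343) (nat_lit 5) (nat_lit 344) (nat_lit 5) (nat_lit 443) (nat_lit 383) (nat_lit 314))) (XT.nd (nat_lit 78) (nat_lit 1292) (nat_lit 0) (XT.lf (nat_lit 0) (nat_lit 1530202287) (nat_lit 760) (nat_lit 2142805047) (nat_lit 76) (nat_lit 5534268894) (nat_lit 333) (nat_lit 5) (nat_lit 343) (nat_lit 5) (nat_lit 334) (nat_lit 5) (nat_lit 444) (nat_lit 383) (nat_lit 313)) (XT.nd (nat_lit 78) (nat_lit 608) (nat_lit 0) (XT.lf (nat_lit 0) (nat_lit 4140591763)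 (nat_lit 684) (nat_lit 113907099) (nat_lit 760) (nat_lit 5040543305) (nat_lit 324) (nat_lit 5) (nat_lit 333) (nat_lit 5) (nat_lit 334) (nat_lit 5) (nat_lit 445) (nat_lit 383) (nat_lit 312)) (XT.lf (nat_lit 0) (nat_lit 1145675842) (nat_lit 608) (nat_lit 5899918190) (nat_lit 684) (nat_lit 2338723142) (nat_lit 316) (nat_lit 5) (nat_lit 324) (nat_lit 5) (nat_lit 325) (nat_lit 5) (nat_lit 446) (nat_lit 383) (nat_lit 311)))))) (XT.nd (nat_lit 390) (nat_lit 1748) (nat_lit 0) (XT.nd (nat_lit 156) (nat_lit 1292) (nat_lit 0) (XT.nd (nat_lit 78) (nat_lit 608) (nat_lit 0) (XT.lf (nat_lit 0) (nat_lit 414964203) (nat_lit 684) (nat_lit 1877714175) (nat_lit 76) (nat_lit 7182579105) (nat_lit 315) (nat_lit 5) (nat_lit 324) (nat_lit 5) (nat_lit 316) (nat_lit 5) (nat_lit 447) (nat_lit 383) (nat_lit 310)) (XT.lf (nat_lit 0) (nat_lit 3200015063) (nat_lit 684) (nat_lit 4961722708) (nat_lit 76) (nat_lit 1405817543) (nat_lit 307) (nat_lit 5) (nat_lit 316) (nat_lit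 5) (nat_lit 308) (nat_lit 5) (nat_lit 448) (nat_lit 383) (nat_lit 309))) (XT.nd (nat_lit 78) (nat_lit 684) (nat_lit 0) (XT.lf (nat_lit 0) (nat_lit 1547574389) (nat_lit 608) (nat_lit 4499774219) (nat_lit 684) (nat_lit 3614218859) (nat_lit 299) (nat_lit 5) (nat_lit 307) (nat_lit 5) (nat_lit 308) (nat_lit 5) (nat_lit 449) (nat_lit 383) (nat_lit 308)) (XT.nd (nat_lit 78) (nat_lit 684) (nat_lit 0) (XT.lf (nat_lit 0) (nat_lit 8214069688) (nat_lit 608) (nat_lit 739874580) (nat_lit 684) (nat_lit 803469287) (nat_lit 299) (nat_lit 5) (nat_lit 307) (nat_lit 5) (nat_lit 308) (nat_lit 5) (nat_lit 450) (nat_lit 383) (nat_lit 307)) (XT.lf (nat_lit 0) (nat_lit 2059793792) (nat_lit 684) (nat_lit 4701888211) (nat_lit 76) (nat_lit 3092759379) (nat_lit 290) (nat_lit 5) (nat_lit 299) (nat_lit 5) (nat_lit 291) (nat_lit 5) (nat_lit 451) (nat_lit 383) (nat_lit 306))))) (XT.nd (nat_lit 156) (nat_lit 1216) (nat_lit 0) (XT.nd (nat_lit 78) (nat_lit 0) (nat_lit 0)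 (XT.lf (nat_lit 0) (nat_lit 2026226934) (nat_lit 532) (nat_lit 2941535019) (nat_lit 608) (nat_lit 4985577626) (nat_lit 283) (nat_lit 5) (nat_lit 290) (nat_lit 5) (nat_lit 291) (nat_lit 5) (nat_lit 452) (nat_lit 383) (nat_lit 305)) (XT.lf (nat_lit 0) (nat_lit 7941829327) (nat_lit 608) (nat_lit 1147769091) (nat_lit 76) (nat_lit 964458526) (nat_lit 283) (nat_lit 5) (nat_lit 291) (nat_lit 5) (nat_lit 284) (nat_lit 5) (nat_lit 453) (nat_lit 383) (nat_lit 304))) (XT.nd (nat_lit 78) (nat_lit 532) (nat_lit 0) (XT.lf (nat_lit 0) (nat_lit 835636432) (nat_lit 684) (nat_lit 4377818314) (nat_lit 76) (nat_lit 4942671954) (nat_lit 274) (nat_lit 5) (nat_lit 283) (nat_lit 5) (nat_lit 275) (nat_lit 5) (nat_lit 454) (nat_lit 383) (nat_lit 303)) (XT.nd (nat_lit 78) (nat_lit 0) (nat_lit 0) (XT.lf (nat_lit 0) (nat_lit 2578408045) (nat_lit 532) (nat_lit 1230982897) (nat_lit 608) (nat_lit 6450663354) (nat_lit 267) (nat_lit 5) (nat_lit 274) (nat_lit 5) (nat_lit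 275) (nat_lit 5) (nat_lit 455) (nat_lit 383) (nat_lit 302)) (XT.lf (nat_lit 0) (nat_lit 6861519793) (nat_lit 608) (nat_lit 690948565) (nat_lit 76) (nat_lit 2813214102) (nat_lit 267) (nat_lit 5) (nat_lit 275) (nat_lit 5) (nat_lit 268) (nat_lit 5) (nat_lit 456) (nat_lit 383) (nat_lit 301))))))) (XT.nd (nat_lit 780) (nat_lit 3496) (nat_lit 0) (XT.nd (nat_lit 390) (nat_lit 1520) (nat_lit 0) (XT.nd (nat_lit 156) (nat_lit 1064) (nat_lit 0) (XT.nd (nat_lit 78) (nat_lit 608) (nat_lit 0) (XT.lf (nat_lit 0) (nat_lit 6477143200) (nat_lit 532) (nat_lit 3519269431) (nat_lit 608) (nat_lit 476576127) (nat_lit 260) (nat_lit 5) (nat_lit 267) (nat_lit 5) (nat_lit 268) (nat_lit 5) (nat_lit 457) (nat_lit 383) (nat_lit 300)) (XT.lf (nat_lit 0) (nat_lit 2578467567) (nat_lit 608) (nat_lit 7384953017) (nat_lit 76) (nat_lit 618658348) (nat_lit 252) (nat_lit 5) (nat_lit 260) (nat_lit 5) (nat_lit 253) (nat_lit 5) (nat_lit 458) (nat_lit 383) (nat_lit 299))) (XT.nd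 (nat_lit 78) (nat_lit 1064) (nat_lit 0) (XT.lf (nat_lit 0) (nat_lit 5710400202) (nat_lit 608) (nat_lit 170899700) (nat_lit 76) (nat_lit 4811544616) (nat_lit 252) (nat_lit 5) (nat_lit 260) (nat_lit 5) (nat_lit 253) (nat_lit 5) (nat_lit 459) (nat_lit 383) (nat_lit 298)) (XT.nd (nat_lit 78) (nat_lit 532) (nat_lit 0) (XT.lf (nat_lit 0) (nat_lit 7243645710) (nat_lit 532) (nat_lit 1680773225) (nat_lit 608) (nat_lit 1881017531) (nat_lit 245) (nat_lit 5) (nat_lit 252) (nat_lit 5) (nat_lit 253) (nat_lit 5) (nat_lit 460) (nat_lit 383) (nat_lit 297)) (XT.lf (nat_lit 0) (nat_lit 1281632677) (nat_lit 532) (nat_lit 7044840363) (nat_lit 76) (nat_lit 2593320400) (nat_lit 238) (nat_lit 5) (nat_lit 245) (nat_lit 5) (nat_lit 239) (nat_lit 5) (nat_lit 461) (nat_lit 383) (nat_lit 296))))) (XT.nd (nat_lit 156) (nat_lit 988) (nat_lit 0) (XT.nd (nat_lit 78) (nat_lit 0) (nat_lit 0) (XT.lf (nat_lit 0) (nat_lit 415340260) (nat_lit 532) (nat_lit 4077659919) (nat_lit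 608) (nat_lit 6542975680) (nat_lit 231) (nat_lit 5) (nat_lit 238) (nat_lit 5) (nat_lit 239) (nat_lit 5) (nat_lit 462) (nat_lit 383) (nat_lit 295)) (XT.lf (nat_lit 0) (nat_lit 7790790932) (nat_lit 608) (nat_lit 3074612384) (nat_lit 76) (nat_lit 288634693) (nat_lit 231) (nat_lit 5) (nat_lit 239) (nat_lit 5) (nat_lit 232) (nat_lit 5) (nat_lit 463) (nat_lit 383) (nat_lit 294))) (XT.nd (nat_lit 78) (nat_lit 532) (nat_lit 0) (XT.lf (nat_lit 0) (nat_lit 4617336010) (nat_lit 456) (nat_lit 6567660429) (nat_lit 532) (nat_lit 88855785) (nat_lit 225) (nat_lit 5) (nat_lit 231) (nat_lit 5) (nat_lit 232) (nat_lit 5) (nat_lit 464) (nat_lit 383) (nat_lit 293)) (XT.nd (nat_lit 78) (nat_lit 0) (nat_lit 0) (XT.lf (nat_lit 0) (nat_lit 1063204456) (nat_lit 456) (nat_lit 2146426402) (nat_lit 532) (nat_lit 8185984801) (nat_lit 218) (nat_lit 5) (nat_lit 224) (nat_lit 5) (nat_lit 225) (nat_lit 5) (nat_lit 465) (nat_lit 383) (nat_lit 292)) (XT.lf (nat_lit 0) (nat_lit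 6606969616) (nat_lit 532) (nat_lit 2546433737) (nat_lit 76) (nat_lit 2365717822) (nat_lit 218) (nat_lit 5) (nat_lit 225) (nat_lit 5) (nat_lit 219) (nat_lit 5) (nat_lit 466) (nat_lit 383) (nat_lit 291)))))) (XT.nd (nat_lit 390) (nat_lit 1596) (nat_lit 0) (XT.nd (nat_lit 156) (nat_lit 912) (nat_lit 0) (XT.nd (nat_lit 78) (nat_lit 532) (nat_lit 0) (XT.lf (nat_lit 0) (nat_lit 5413980156) (nat_lit 456) (nat_lit 4681918168) (nat_lit 532) (nat_lit 1548725614) (nat_lit 212) (nat_lit 5) (nat_lit 218) (nat_lit 5) (nat_lit 219) (nat_lit 5) (nat_lit 467) (nat_lit 383) (nat_lit 290)) (XT.lf (nat_lit 0) (nat_lit 1768523396) (nat_lit 456) (nat_lit 91814036) (nat_lit 532) (nat_lit 9911993924) (nat_lit 205) (nat_lit 5) (nat_lit 211) (nat_lit 5) (nat_lit 212) (nat_lit 5) (nat_lit 468) (nat_lit 383) (nat_lit 289))) (XT.nd (nat_lit 78) (nat_lit 912) (nat_lit 0) (XT.lf (nat_lit 0) (nat_lit 5363295895) (nat_lit 532) (nat_lit 1968298956) (nat_lit 76) (nat_lit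 4569864300) (nat_lit 205) (nat_lit 5) (nat_lit 212) (nat_lit 5) (nat_lit 206) (nat_lit 5) (nat_lit 469) (nat_lit 383) (nat_lit 288)) (XT.nd (nat_lit 78) (nat_lit 532) (nat_lit 0) (XT.lf (nat_lit 0) (nat_lit 6271983211) (nat_lit 380) (nat_lit 2680701884) (nat_lit 456) (nat_lit 3080156975) (nat_lit 200) (nat_lit 5) (nat_lit 205) (nat_lit 5) (nat_lit 206) (nat_lit 5) (nat_lit 470) (nat_lit 383) (nat_lit 287)) (XT.lf (nat_lit 0) (nat_lit 459520614) (nat_lit 532) (nat_lit 9650546034) (nat_lit 76) (nat_lit 2056360477) (nat_lit 193) (nat_lit 5) (nat_lit 200) (nat_lit 5) (nat_lit 194) (nat_lit 5) (nat_lit 471) (nat_lit 383) (nat_lit 286))))) (XT.nd (nat_lit 234) (nat_lit 836) (nat_lit 0) (XT.nd (nat_lit 78) (nat_lit 760) (nat_lit 0) (XT.lf (nat_lit 0) (nat_lit 4060741075) (nat_lit 532) (nat_lit 1341904487) (nat_lit 76) (nat_lit 6898991271) (nat_lit 193) (nat_lit 5) (nat_lit 200) (nat_lit 5) (nat_lit 194) (nat_lit 5) (nat_lit 472) (nat_lit 383)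 (nat_lit 285)) (XT.nd (nat_lit 78) (nat_lit 380) (nat_lit 0) (XT.lf (nat_lit 0) (nat_lit 7190119231) (nat_lit 380) (nat_lit 566320977) (nat_lit 456) (nat_lit 4682661441) (nat_lit 188) (nat_lit 5) (nat_lit 193) (nat_lit 5) (nat_lit 194) (nat_lit 5) (nat_lit 473) (nat_lit 383) (nat_lit 284)) (XT.lf (nat_lit 0) (nat_lit 3309589386) (nat_lit 380) (nat_lit 8251291845) (nat_lit 456) (nat_lit 1017737972) (nat_lit 183) (nat_lit 5) (nat_lit 188) (nat_lit 5) (nat_lit 189) (nat_lit 5) (nat_lit 474) (nat_lit 383) (nat_lit 283)))) (XT.nd (nat_lit 78) (nat_lit 760) (nat_lit 0) (XT.lf (nat_lit 0) (nat_lit 2700009092) (nat_lit 456) (nat_lit 668702316) (nat_lit 76) (nat_lit 9351558342) (nat_lit 182) (nat_lit 5) (nat_lit 188) (nat_lit 5) (nat_lit 183) (nat_lit 5) (nat_lit 475) (nat_lit 383) (nat_lit 282)) (XT.nd (nat_lit 78) (nat_lit 380) (nat_lit 0) (XT.lf (nat_lit 0) (nat_lit 6518767013) (nat_lit 456) (nat_lit 4707378740) (nat_lit 76) (nat_lit 1637667341)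 (nat_lit 177) (nat_lit 5) (nat_lit 183) (nat_lit 5) (nat_lit 178) (nat_lit 5) (nat_lit 476) (nat_lit 383) (nat_lit 281)) (XT.lf (nat_lit 0) (nat_lit 4152395180) (nat_lit 380) (nat_lit 6291900436) (nat_lit 456) (nat_lit 2565323779) (nat_lit 172) (nat_lit 5) (nat_lit 177) (nat_lit 5) (nat_lit 178) (nat_lit 5) (nat_lit 477) (nat_lit 383) (nat_lit 280))))))))
noncomputable def xc113 : XT := (XT.nd (nat_lit 1560) (nat_lit 1444) (nat_lit 0) (XT.nd (nat_lit 780) (nat_lit 2204) (nat_lit 0) (XT.nd (nat_lit 390) (nat_lit 1368) (nat_lit 0) (XT.nd (nat_lit 156) (nat_lit 760) (nat_lit 0) (XT.nd (nat_lit 78) (nat_lit 0) (nat_lit 0) (XT.lf (nat_lit 0) (nat_lit 50751084) (nat_lit 304) (nat_lit 1231128432) (nat_lit 380) (nat_lit 11876118695) (nat_lit 167) (nat_lit 5) (nat_lit 171) (nat_lit 5) (nat_lit 172) (nat_lit 5) (nat_lit 478) (nat_lit 383) (nat_lit 279)) (XT.lf (nat_lit 0) (nat_lit 5233871306) (nat_lit 380) (nat_lit 4131039034) (nat_lit 76) (nat_lit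 3942851245) (nat_lit 167) (nat_lit 5) (nat_lit 172) (nat_lit 5) (nat_lit 168) (nat_lit 5) (nat_lit 479) (nat_lit 383) (nat_lit 278))) (XT.nd (nat_lit 78) (nat_lit 380) (nat_lit 0) (XT.lf (nat_lit 0) (nat_lit 5046523372) (nat_lit 380) (nat_lit 4236562814) (nat_lit 456) (nat_lit 4177070375) (nat_lit 162) (nat_lit 5) (nat_lit 167) (nat_lit 5) (nat_lit 168) (nat_lit 5) (nat_lit 480) (nat_lit 383) (nat_lit 277)) (XT.nd (nat_lit 78) (nat_lit 76) (nat_lit 0) (XT.lf (nat_lit 0) (nat_lit 816328303) (nat_lit 304) (nat_lit 12614007952) (nat_lit 380) (nat_lit 184922165) (nat_lit 158) (nat_lit 5) (nat_lit 162) (nat_lit 5) (nat_lit 163) (nat_lit 5) (nat_lit 481) (nat_lit 383) (nat_lit 276)) (XT.lf (nat_lit 0) (nat_lit 3898430317) (nat_lit 380) (nat_lit 3517451551) (nat_lit 76) (nat_lit 6355828880) (nat_lit 157) (nat_lit 5) (nat_lit 162) (nat_lit 5) (nat_lit 158) (nat_lit 5) (nat_lit 482) (nat_lit 383) (nat_lit 275))))) (XT.nd (nat_lit 156) (nat_lit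 684) (nat_lit 0) (XT.nd (nat_lit 78) (nat_lit 304) (nat_lit 0) (XT.lf (nat_lit 0) (nat_lit 5991334435) (nat_lit 380) (nat_lit 2086433883) (nat_lit 456) (nat_lit 5853163467) (nat_lit 152) (nat_lit 5) (nat_lit 157) (nat_lit 5) (nat_lit 158) (nat_lit 5) (nat_lit 483) (nat_lit 383) (nat_lit 274)) (XT.lf (nat_lit 0) (nat_lit 1608512304) (nat_lit 304) (nat_lit 10766140457) (nat_lit 380) (nat_lit 1718005288) (nat_lit 148) (nat_lit 5) (nat_lit 152) (nat_lit 5) (nat_lit 153) (nat_lit 5) (nat_lit 484) (nat_lit 383) (nat_lit 273))) (XT.nd (nat_lit 78) (nat_lit 608) (nat_lit 0) (XT.lf (nat_lit 0) (nat_lit 2512583243) (nat_lit 380) (nat_lit 2867593258) (nat_lit 76) (nat_lit 8876207458) (nat_lit 147) (nat_lit 5) (nat_lit 152) (nat_lit 5) (nat_lit 148) (nat_lit 5) (nat_lit 485) (nat_lit 383) (nat_lit 272)) (XT.nd (nat_lit 78) (nat_lit 304) (nat_lit 0) (XT.lf (nat_lit 0) (nat_lit 6829679651) (nat_lit 380) (nat_lit 7437306899) (nat_lit 76) (nat_lit 155672712)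 (nat_lit 143) (nat_lit 5) (nat_lit 148) (nat_lit 5) (nat_lit 144) (nat_lit 5) (nat_lit 486) (nat_lit 383) (nat_lit 271)) (XT.lf (nat_lit 0) (nat_lit 2443390125) (nat_lit 304) (nat_lit 8839193682) (nat_lit 380) (nat_lit 3308686949) (nat_lit 139) (nat_lit 5) (nat_lit 143) (nat_lit 5) (nat_lit 144) (nat_lit 5) (nat_lit 487) (nat_lit 383) (nat_lit 270)))))) (XT.nd (nat_lit 390) (nat_lit 1140) (nat_lit 0) (XT.nd (nat_lit 156) (nat_lit 684) (nat_lit 0) (XT.nd (nat_lit 78) (nat_lit 304) (nat_lit 0) (XT.lf (nat_lit 0) (nat_lit 1076263987) (nat_lit 380) (nat_lit 2182263783) (nat_lit 76) (nat_lit 11504011068) (nat_lit 138) (nat_lit 5) (nat_lit 143) (nat_lit 5) (nat_lit 139) (nat_lit 5) (nat_lit 488) (nat_lit 383) (nat_lit 269)) (XT.lf (nat_lit 0) (nat_lit 5552072132) (nat_lit 380) (nat_lit 6920894897) (nat_lit 76) (nat_lit 2462878614) (nat_lit 134) (nat_lit 5) (nat_lit 139) (nat_lit 5) (nat_lit 135) (nat_lit 5) (nat_lit 489) (nat_lit 383) (nat_lit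 268))) (XT.nd (nat_lit 78) (nat_lit 380) (nat_lit 0) (XT.lf (nat_lit 0) (nat_lit 3320529271) (nat_lit 304) (nat_lit 6833916857) (nat_lit 380) (nat_lit 4957431462) (nat_lit 130) (nat_lit 5) (nat_lit 134) (nat_lit 5) (nat_lit 135) (nat_lit 5) (nat_lit 490) (nat_lit 383) (nat_lit 267)) (XT.nd (nat_lit 78) (nat_lit 380) (nat_lit 0) (XT.lf (nat_lit 0) (nat_lit 13826116361) (nat_lit 304) (nat_lit 1048548492) (nat_lit 380) (nat_lit 416249378) (nat_lit 130) (nat_lit 5) (nat_lit 134) (nat_lit 5) (nat_lit 135) (nat_lit 5) (nat_lit 491) (nat_lit 383) (nat_lit 266)) (XT.lf (nat_lit 0) (nat_lit 4231337190) (nat_lit 380) (nat_lit 6377663704) (nat_lit 76) (nat_lit 4862565857) (nat_lit 125) (nat_lit 5) (nat_lit 130) (nat_lit 5) (nat_lit 126) (nat_lit 5) (nat_lit 492) (nat_lit 383) (nat_lit 265))))) (XT.nd (nat_lit 156) (nat_lit 912) (nat_lit 0) (XT.nd (nat_lit 78) (nat_lit 0) (nat_lit 0) (XT.lf (nat_lit 0) (nat_lit 4239670403) (nat_lit 228) (nat_lit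 4750718400) (nat_lit 304) (nat_lit 6664906752) (nat_lit 122) (nat_lit 5) (nat_lit 125) (nat_lit 5) (nat_lit 126) (nat_lit 5) (nat_lit 493) (nat_lit 383) (nat_lit 264)) (XT.lf (nat_lit 0) (nat_lit 13875457881) (nat_lit 304) (nat_lit 728529466) (nat_lit 76) (nat_lit 1238094861) (nat_lit 122) (nat_lit 5) (nat_lit 126) (nat_lit 5) (nat_lit 123) (nat_lit 5) (nat_lit 494) (nat_lit 383) (nat_lit 263))) (XT.nd (nat_lit 78) (nat_lit 532) (nat_lit 0) (XT.lf (nat_lit 0) (nat_lit 2867239421) (nat_lit 380) (nat_lit 5808319986) (nat_lit 76) (nat_lit 7355104782) (nat_lit 117) (nat_lit 5) (nat_lit 122) (nat_lit 5) (nat_lit 118) (nat_lit 5) (nat_lit 495) (nat_lit 383) (nat_lit 262)) (XT.nd (nat_lit 78) (nat_lit 304) (nat_lit 0) (XT.lf (nat_lit 0) (nat_lit 5200719300) (nat_lit 228) (nat_lit 2589681792) (nat_lit 304) (nat_lit 8431977658) (nat_lit 114) (nat_lit 5) (nat_lit 117) (nat_lit 5) (nat_lit 118) (nat_lit 5) (nat_lit 496) (nat_lit 383) (nat_lit 261))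 (XT.lf (nat_lit 0) (nat_lit 34525125) (nat_lit 304) (nat_lit 12820772217) (nat_lit 380) (nat_lit 3561764833) (nat_lit 110) (nat_lit 5) (nat_lit 114) (nat_lit 5) (nat_lit 115) (nat_lit 5) (nat_lit 497) (nat_lit 383) (nat_lit 260))))))) (XT.nd (nat_lit 50622) (nat_lit 0) (nat_lit 51072) (XT.nd (nat_lit 390) (nat_lit 532) (nat_lit 0) (XT.nd (nat_lit 156) (nat_lit 608) (nat_lit 0) (XT.nd (nat_lit 78) (nat_lit 228) (nat_lit 0) (XT.lf (nat_lit 0) (nat_lit 1459376928) (nat_lit 380) (nat_lit 5213436422) (nat_lit 76) (nat_lit 9941204109) (nat_lit 109) (nat_lit 5) (nat_lit 114) (nat_lit 5) (nat_lit 110) (nat_lit 5) (nat_lit 498) (nat_lit 383) (nat_lit 259)) (XT.lf (nat_lit 0) (nat_lit 6203739650) (nat_lit 228) (nat_lit 350579813) (nat_lit 304) (nat_lit 10259700121) (nat_lit 106) (nat_lit 5) (nat_lit 109) (nat_lit 5) (nat_lit 110) (nat_lit 5) (nat_lit 499) (nat_lit 383) (nat_lit 258))) (XT.nd (nat_lit 78) (nat_lit 304) (nat_lit 0) (XT.lf (nat_lit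 0) (nat_lit 840650803) (nat_lit 304) (nat_lit 10971598902) (nat_lit 380) (nat_lit 5204550271) (nat_lit 102) (nat_lit 5) (nat_lit 106) (nat_lit 5) (nat_lit 107) (nat_lit 5) (nat_lit 500) (nat_lit 383) (nat_lit 257)) (XT.nd (nat_lit 78) (nat_lit 228) (nat_lit 0) (XT.lf (nat_lit 0) (nat_lit 7187376) (nat_lit 380) (nat_lit 4593459183) (nat_lit 76) (nat_lit 12621898661) (nat_lit 101) (nat_lit 5) (nat_lit 106) (nat_lit 5) (nat_lit 102) (nat_lit 5) (nat_lit 501) (nat_lit 383) (nat_lit 256)) (XT.lf (nat_lit 0) (nat_lit 5294605663) (nat_lit 304) (nat_lit 10194975246) (nat_lit 76) (nat_lit 1941313721) (nat_lit 98) (nat_lit 5) (nat_lit 102) (nat_lit 5) (nat_lit 99) (nat_lit 5) (nat_lit 502) (nat_lit 383) (nat_lit 255))))) (XT.nd (nat_lit 156) (nat_lit 304) (nat_lit 0) (XT.nd (nat_lit 78) (nat_lit 0) (nat_lit 0) (XT.lf (nat_lit 0) (nat_lit 1680108443) (nat_lit 228) (nat_lit 9061370691) (nat_lit 304) (nat_lit 6900857757) (nat_lit 95) (nat_lit 5) (nat_lit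 98) (nat_lit 5) (nat_lit 99) (nat_lit 5) (nat_lit 503) (nat_lit 383) (nat_lit 254)) (XT.lf (nat_lit 0) (nat_lit 13898492905) (nat_lit 228) (nat_lit 2448669027) (nat_lit 304) (nat_lit 1509848629) (nat_lit 95) (nat_lit 5) (nat_lit 98) (nat_lit 5) (nat_lit 99) (nat_lit 5) (nat_lit 504) (nat_lit 383) (nat_lit 253))) (XT.nd (nat_lit 49920) (nat_lit 0) (nat_lit 53276) (XT.lf (nat_lit 0) (nat_lit 4000828593) (nat_lit 304) (nat_lit 9766377332) (nat_lit 76) (nat_lit 4306970516) (nat_lit 91) (nat_lit 5) (nat_lit 95) (nat_lit 5) (nat_lit 92) (nat_lit 5) (nat_lit 505) (nat_lit 383) (nat_lit 252)) (XT.nd (nat_lit 78) (nat_lit 380) (nat_lit 0) (XT.lf (nat_lit 0) (nat_lit 2467447967) (nat_lit 380) (nat_lit 384426527) (nat_lit 380) (nat_lit 384426527) (nat_lit 797) (nat_lit 3) (nat_lit 802) (nat_lit 3) (nat_lit 802) (nat_lit 5) (nat_lit 384) (nat_lit 384) (nat_lit 372)) (XT.lf (nat_lit 0) (nat_lit 1306468461) (nat_lit 380) (nat_lit 3989274122) (nat_lit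 456) (nat_lit 1185003500) (nat_lit 792) (nat_lit 5) (nat_lit 797) (nat_lit 3) (nat_lit 798) (nat_lit 5) (nat_lit 385) (nat_lit 384) (nat_lit 371)))))) (XT.nd (nat_lit 390) (nat_lit 1216) (nat_lit 0) (XT.nd (nat_lit 156) (nat_lit 532) (nat_lit 0) (XT.nd (nat_lit 78) (nat_lit 456) (nat_lit 0) (XT.lf (nat_lit 0) (nat_lit 4117856864) (nat_lit 380) (nat_lit 710741921) (nat_lit 456) (nat_lit 1661632529) (nat_lit 792) (nat_lit 5) (nat_lit 797) (nat_lit 3) (nat_lit 798) (nat_lit 5) (nat_lit 386) (nat_lit 384) (nat_lit 370)) (XT.lf (nat_lit 0) (nat_lit 423066513) (nat_lit 456) (nat_lit 3874191291) (nat_lit 532) (nat_lit 2203708033) (nat_lit 786) (nat_lit 5) (nat_lit 792) (nat_lit 5) (nat_lit 793) (nat_lit 5) (nat_lit 387) (nat_lit 384) (nat_lit 369))) (XT.nd (nat_lit 78) (nat_lit 532) (nat_lit 0) (XT.lf (nat_lit 0) (nat_lit 3175352064) (nat_lit 456) (nat_lit 525828936) (nat_lit 532) (nat_lit 2811766386) (nat_lit 786) (nat_lit 5) (nat_lit 792)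 (nat_lit 5) (nat_lit 793) (nat_lit 5) (nat_lit 388) (nat_lit 384) (nat_lit 368)) (XT.nd (nat_lit 78) (nat_lit 532) (nat_lit 0) (XT.lf (nat_lit 76) (nat_lit 2889214568) (nat_lit 0) (nat_lit 3041512872) (nat_lit 532) (nat_lit 595480243) (nat_lit 787) (nat_lit 5) (nat_lit 786) (nat_lit 5) (nat_lit 793) (nat_lit 5) (nat_lit 389) (nat_lit 384) (nat_lit 367)) (XT.lf (nat_lit 0) (nat_lit 2106121299) (nat_lit 532) (nat_lit 213150958) (nat_lit 608) (nat_lit 4221504722) (nat_lit 779) (nat_lit 5) (nat_lit 786) (nat_lit 5) (nat_lit 787) (nat_lit 5) (nat_lit 390) (nat_lit 384) (nat_lit 366))))) (XT.nd (nat_lit 234) (nat_lit 608) (nat_lit 0) (XT.nd (nat_lit 78) (nat_lit 608) (nat_lit 0) (XT.lf (nat_lit 76) (nat_lit 3280147901) (nat_lit 0) (nat_lit 1526276048) (nat_lit 608) (nat_lit 1750082138) (nat_lit 780) (nat_lit 5) (nat_lit 779) (nat_lit 5) (nat_lit 787) (nat_lit 5) (nat_lit 391) (nat_lit 384) (nat_lit 365)) (XT.nd (nat_lit 78) (nat_lit 0) (nat_lit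 76) (XT.lf (nat_lit 76) (nat_lit 231542740) (nat_lit 0) (nat_lit 678614468) (nat_lit 684) (nat_lit 5663565560) (nat_lit 772) (nat_lit 5) (nat_lit 771) (nat_lit 5) (nat_lit 780) (nat_lit 5) (nat_lit 392) (nat_lit 384) (nat_lit 364)) (XT.lf (nat_lit 0) (nat_lit 3556788510) (nat_lit 608) (nat_lit 2789791284) (nat_lit 684) (nat_lit 245340212) (nat_lit 772) (nat_lit 5) (nat_lit 780) (nat_lit 5) (nat_lit 781) (nat_lit 5) (nat_lit 393) (nat_lit 384) (nat_lit 363)))) (XT.nd (nat_lit 78) (nat_lit 684) (nat_lit 0) (XT.lf (nat_lit 76) (nat_lit 800415736) (nat_lit 0) (nat_lit 5400195838) (nat_lit 684) (nat_lit 410984433) (nat_lit 773) (nat_lit 5) (nat_lit 772) (nat_lit 5) (nat_lit 781) (nat_lit 5) (nat_lit 394) (nat_lit 384) (nat_lit 362)) (XT.nd (nat_lit 78) (nat_lit 0) (nat_lit 0) (XT.lf (nat_lit 0) (nat_lit 2189947764) (nat_lit 684) (nat_lit 2185718292) (nat_lit 760) (nat_lit 2256624938) (nat_lit 763) (nat_lit 5) (nat_lit 772) (nat_lit 5) (nat_lit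 773) (nat_lit 5) (nat_lit 395) (nat_lit 384) (nat_lit 361)) (XT.lf (nat_lit 76) (nat_lit 1490017748) (nat_lit 0) (nat_lit 3293499843) (nat_lit 760) (nat_lit 1870905517) (nat_lit 764) (nat_lit 5) (nat_lit 763) (nat_lit 5) (nat_lit 773) (nat_lit 5) (nat_lit 396) (nat_lit 384) (nat_lit 360))))))))
noncomputable def xc114 : XT := (XT.nd (nat_lit 1560) (nat_lit 15276) (nat_lit 0) (XT.nd (nat_lit 780) (nat_lit 9272) (nat_lit 0) (XT.nd (nat_lit 390) (nat_lit 2052) (nat_lit 0) (XT.nd (nat_lit 156) (nat_lit 1596) (nat_lit 0) (XT.nd (nat_lit 78) (nat_lit 0) (nat_lit 0) (XT.lf (nat_lit 0) (nat_lit 693886032) (nat_lit 760) (nat_lit 1452422655) (nat_lit 836) (nat_lit 4531555788) (nat_lit 753) (nat_lit 5) (nat_lit 763) (nat_lit 5) (nat_lit 764) (nat_lit 5) (nat_lit 397) (nat_lit 384) (nat_lit 359)) (XT.lf (nat_lit 76) (nat_lit 2312885401) (nat_lit 0) (nat_lit 925334370) (nat_lit 836) (nat_lit 3464241610) (nat_lit 754) (nat_lit 5) (nat_lit 753) (nat_lit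 5) (nat_lit 764) (nat_lit 5) (nat_lit 398) (nat_lit 384) (nat_lit 358))) (XT.nd (nat_lit 78) (nat_lit 1672) (nat_lit 0) (XT.lf (nat_lit 0) (nat_lit 5784690882) (nat_lit 760) (nat_lit 596272407) (nat_lit 76) (nat_lit 347561924) (nat_lit 754) (nat_lit 5) (nat_lit 764) (nat_lit 5) (nat_lit 755) (nat_lit 5) (nat_lit 399) (nat_lit 384) (nat_lit 357)) (XT.nd (nat_lit 78) (nat_lit 836) (nat_lit 0) (XT.lf (nat_lit 0) (nat_lit 1573343215) (nat_lit 836) (nat_lit 3495619376) (nat_lit 76) (nat_lit 1686582454) (nat_lit 743) (nat_lit 5) (nat_lit 754) (nat_lit 5) (nat_lit 744) (nat_lit 5) (nat_lit 400) (nat_lit 384) (nat_lit 356)) (XT.lf (nat_lit 0) (nat_lit 377272161) (nat_lit 836) (nat_lit 3698519219) (nat_lit 912) (nat_lit 2708237819) (nat_lit 732) (nat_lit 5) (nat_lit 743) (nat_lit 5) (nat_lit 744) (nat_lit 5) (nat_lit 401) (nat_lit 384) (nat_lit 355))))) (XT.nd (nat_lit 156) (nat_lit 1064) (nat_lit 0) (XT.nd (nat_lit 78) (nat_lit 988) (nat_lit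 0) (XT.lf (nat_lit 0) (nat_lit 4335562916) (nat_lit 836) (nat_lit 2258158221) (nat_lit 912) (nat_lit 220053247) (nat_lit 732) (nat_lit 5) (nat_lit 743) (nat_lit 5) (nat_lit 744) (nat_lit 5) (nat_lit 402) (nat_lit 384) (nat_lit 354)) (XT.lf (nat_lit 0) (nat_lit 1494019765) (nat_lit 912) (nat_lit 745911995) (nat_lit 988) (nat_lit 4604832999) (nat_lit 719) (nat_lit 5) (nat_lit 731) (nat_lit 5) (nat_lit 732) (nat_lit 5) (nat_lit 403) (nat_lit 384) (nat_lit 353))) (XT.nd (nat_lit 78) (nat_lit 1064) (nat_lit 0) (XT.lf (nat_lit 0) (nat_lit 4711801383) (nat_lit 988) (nat_lit 1343903870) (nat_lit 76) (nat_lit 821327968) (nat_lit 719) (nat_lit 5) (nat_lit 732) (nat_lit 5) (nat_lit 720) (nat_lit 5) (nat_lit 404) (nat_lit 384) (nat_lit 352)) (XT.nd (nat_lit 78) (nat_lit 0) (nat_lit 0) (XT.lf (nat_lit 0) (nat_lit 286221205) (nat_lit 1064) (nat_lit 4178101942) (nat_lit 76) (nat_lit 2446235980) (nat_lit 705) (nat_lit 5) (nat_lit 719) (nat_lit 5) (nat_lit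 706) (nat_lit 5) (nat_lit 405) (nat_lit 384) (nat_lit 351)) (XT.lf (nat_lit 0) (nat_lit 2712102564) (nat_lit 1064) (nat_lit 90496463) (nat_lit 76) (nat_lit 4142782445) (nat_lit 705) (nat_lit 5) (nat_lit 719) (nat_lit 5) (nat_lit 706) (nat_lit 5) (nat_lit 406) (nat_lit 384) (nat_lit 350)))))) (XT.nd (nat_lit 390) (nat_lit 4408) (nat_lit 0) (XT.nd (nat_lit 156) (nat_lit 2584) (nat_lit 0) (XT.nd (nat_lit 78) (nat_lit 1216) (nat_lit 0) (XT.lf (nat_lit 0) (nat_lit 4093246053) (nat_lit 1064) (nat_lit 1066190959) (nat_lit 1140) (nat_lit 1822004543) (nat_lit 691) (nat_lit 5) (nat_lit 705) (nat_lit 5) (nat_lit 706) (nat_lit 5) (nat_lit 407) (nat_lit 384) (nat_lit 349)) (XT.lf (nat_lit 0) (nat_lit 589857091) (nat_lit 1216) (nat_lit 5706710214) (nat_lit 76) (nat_lit 722358301) (nat_lit 675) (nat_lit 5) (nat_lit 691) (nat_lit 5) (nat_lit 676) (nat_lit 5) (nat_lit 408) (nat_lit 384) (nat_lit 348))) (XT.nd (nat_lit 78) (nat_lit 2584) (nat_lit 0) (XT.lf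 (nat_lit 0) (nat_lit 2999830906) (nat_lit 1216) (nat_lit 1480860018) (nat_lit 76) (nat_lit 2576742113) (nat_lit 675) (nat_lit 5) (nat_lit 691) (nat_lit 5) (nat_lit 676) (nat_lit 5) (nat_lit 409) (nat_lit 384) (nat_lit 347)) (XT.nd (nat_lit 78) (nat_lit 1368) (nat_lit 0) (XT.lf (nat_lit 0) (nat_lit 2826759475) (nat_lit 1216) (nat_lit 2598302086) (nat_lit 1292) (nat_lit 1672307909) (nat_lit 659) (nat_lit 5) (nat_lit 675) (nat_lit 5) (nat_lit 676) (nat_lit 5) (nat_lit 410) (nat_lit 384) (nat_lit 346)) (XT.lf (nat_lit 0) (nat_lit 58222419) (nat_lit 1292) (nat_lit 651992718) (nat_lit 1368) (nat_lit 6428600725) (nat_lit 641) (nat_lit 5) (nat_lit 658) (nat_lit 5) (nat_lit 659) (nat_lit 5) (nat_lit 411) (nat_lit 384) (nat_lit 345))))) (XT.nd (nat_lit 156) (nat_lit 3040) (nat_lit 0) (XT.nd (nat_lit 78) (nat_lit 1368) (nat_lit 0) (XT.lf (nat_lit 0) (nat_lit 3105444086) (nat_lit 1368) (nat_lit 2709957853) (nat_lit 76) (nat_lit 1365719211) (nat_lit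 641) (nat_lit 5) (nat_lit 659) (nat_lit 5) (nat_lit 642) (nat_lit 5) (nat_lit 412) (nat_lit 384) (nat_lit 344)) (XT.lf (nat_lit 0) (nat_lit 1726176850) (nat_lit 1368) (nat_lit 3788830578) (nat_lit 1444) (nat_lit 1709936519) (nat_lit 623) (nat_lit 5) (nat_lit 641) (nat_lit 5) (nat_lit 642) (nat_lit 5) (nat_lit 413) (nat_lit 384) (nat_lit 343))) (XT.nd (nat_lit 78) (nat_lit 2964) (nat_lit 0) (XT.lf (nat_lit 0) (nat_lit 663490143) (nat_lit 1444) (nat_lit 1026814152) (nat_lit 76) (nat_lit 5579855745) (nat_lit 622) (nat_lit 5) (nat_lit 641) (nat_lit 5) (nat_lit 623) (nat_lit 5) (nat_lit 414) (nat_lit 384) (nat_lit 342)) (XT.nd (nat_lit 78) (nat_lit 1520) (nat_lit 0) (XT.lf (nat_lit 0) (nat_lit 3039871570) (nat_lit 1520) (nat_lit 3790026398) (nat_lit 76) (nat_lit 486588789) (nat_lit 603) (nat_lit 5) (nat_lit 623) (nat_lit 5) (nat_lit 604) (nat_lit 5) (nat_lit 415) (nat_lit 384) (nat_lit 341)) (XT.lf (nat_lit 0) (nat_lit 779551630) (nat_lit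 1520) (nat_lit 4660391239) (nat_lit 1596) (nat_lit 1924273894) (nat_lit 583) (nat_lit 5) (nat_lit 603) (nat_lit 5) (nat_lit 604) (nat_lit 5) (nat_lit 416) (nat_lit 384) (nat_lit 340))))))) (XT.nd (nat_lit 780) (nat_lit 6156) (nat_lit 0) (XT.nd (nat_lit 390) (nat_lit 3952) (nat_lit 0) (XT.nd (nat_lit 156) (nat_lit 3496) (nat_lit 0) (XT.nd (nat_lit 78) (nat_lit 1596) (nat_lit 0) (XT.lf (nat_lit 0) (nat_lit 447808755) (nat_lit 1596) (nat_lit 1964652921) (nat_lit 76) (nat_lit 5000799482) (nat_lit 582) (nat_lit 5) (nat_lit 603) (nat_lit 5) (nat_lit 583) (nat_lit 5) (nat_lit 417) (nat_lit 384) (nat_lit 339)) (XT.lf (nat_lit 0) (nat_lit 2730728970) (nat_lit 1596) (nat_lit 82831299) (nat_lit 1672) (nat_lit 4650031921) (nat_lit 561) (nat_lit 5) (nat_lit 582) (nat_lit 5) (nat_lit 583) (nat_lit 5) (nat_lit 418) (nat_lit 384) (nat_lit 338))) (XT.nd (nat_lit 78) (nat_lit 3496) (nat_lit 0) (XT.lf (nat_lit 0) (nat_lit 5209700575) (nat_lit 1672) (nat_lit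 23767764) (nat_lit 76) (nat_lit 2281800026) (nat_lit 561) (nat_lit 5) (nat_lit 583) (nat_lit 5) (nat_lit 562) (nat_lit 5) (nat_lit 419) (nat_lit 384) (nat_lit 337)) (XT.nd (nat_lit 78) (nat_lit 1748) (nat_lit 0) (XT.lf (nat_lit 0) (nat_lit 72100438) (nat_lit 1748) (nat_lit 2766736743) (nat_lit 76) (nat_lit 4729380946) (nat_lit 538) (nat_lit 5) (nat_lit 561) (nat_lit 5) (nat_lit 539) (nat_lit 5) (nat_lit 420) (nat_lit 384) (nat_lit 336)) (XT.lf (nat_lit 0) (nat_lit 2072956820) (nat_lit 1748) (nat_lit 363258722) (nat_lit 1824) (nat_lit 5186311245) (nat_lit 515) (nat_lit 5) (nat_lit 538) (nat_lit 5) (nat_lit 539) (nat_lit 5) (nat_lit 421) (nat_lit 384) (nat_lit 335))))) (XT.nd (nat_lit 156) (nat_lit 2128) (nat_lit 0) (XT.nd (nat_lit 78) (nat_lit 1824) (nat_lit 0) (XT.lf (nat_lit 0) (nat_lit 4837076532) (nat_lit 1824) (nat_lit 685677540) (nat_lit 76) (nat_lit 2155378275) (nat_lit 515) (nat_lit 5) (nat_lit 539) (nat_lit 5) (nat_lit 516) (nat_lit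 5) (nat_lit 422) (nat_lit 384) (nat_lit 334)) (XT.lf (nat_lit 0) (nat_lit 4289226965) (nat_lit 1824) (nat_lit 2984568564) (nat_lit 1900) (nat_lit 461297674) (nat_lit 491) (nat_lit 5) (nat_lit 515) (nat_lit 5) (nat_lit 516) (nat_lit 5) (nat_lit 423) (nat_lit 384) (nat_lit 333))) (XT.nd (nat_lit 78) (nat_lit 912) (nat_lit 0) (XT.lf (nat_lit 0) (nat_lit 1546905505) (nat_lit 1140) (nat_lit 365922622) (nat_lit 1216) (nat_lit 5880658698) (nat_lit 475) (nat_lit 5) (nat_lit 490) (nat_lit 5) (nat_lit 491) (nat_lit 5) (nat_lit 424) (nat_lit 384) (nat_lit 332)) (XT.nd (nat_lit 78) (nat_lit 912) (nat_lit 0) (XT.lf (nat_lit 0) (nat_lit 4324965114) (nat_lit 1216) (nat_lit 1225502057) (nat_lit 76) (nat_lit 2302586055) (nat_lit 475) (nat_lit 5) (nat_lit 491) (nat_lit 5) (nat_lit 476) (nat_lit 5) (nat_lit 425) (nat_lit 384) (nat_lit 331)) (XT.lf (nat_lit 0) (nat_lit 3904604448) (nat_lit 912) (nat_lit 2867786320) (nat_lit 988) (nat_lit 1141679269) (nat_lit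 463) (nat_lit 5) (nat_lit 475) (nat_lit 5) (nat_lit 476) (nat_lit 5) (nat_lit 426) (nat_lit 384) (nat_lit 330)))))) (XT.nd (nat_lit 390) (nat_lit 3344) (nat_lit 0) (XT.nd (nat_lit 156) (nat_lit 1824) (nat_lit 0) (XT.nd (nat_lit 78) (nat_lit 0) (nat_lit 0) (XT.lf (nat_lit 0) (nat_lit 1143884789) (nat_lit 912) (nat_lit 106871833) (nat_lit 988) (nat_lit 6725877739) (nat_lit 450) (nat_lit 5) (nat_lit 462) (nat_lit 5) (nat_lit 463) (nat_lit 5) (nat_lit 427) (nat_lit 384) (nat_lit 329)) (XT.lf (nat_lit 0) (nat_lit 3680517765) (nat_lit 988) (nat_lit 1651574101) (nat_lit 76) (nat_lit 2708111902) (nat_lit 450) (nat_lit 5) (nat_lit 463) (nat_lit 5) (nat_lit 451) (nat_lit 5) (nat_lit 428) (nat_lit 384) (nat_lit 328))) (XT.nd (nat_lit 78) (nat_lit 988) (nat_lit 0) (XT.lf (nat_lit 0) (nat_lit 3640076506) (nat_lit 836) (nat_lit 2503997216) (nat_lit 912) (nat_lit 1961266850) (nat_lit 439) (nat_lit 5) (nat_lit 450) (nat_lit 5) (nat_lit 451) (nat_lit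 5) (nat_lit 429) (nat_lit 384) (nat_lit 327)) (XT.nd (nat_lit 78) (nat_lit 0) (nat_lit 0) (XT.lf (nat_lit 0) (nat_lit 459175551) (nat_lit 988) (nat_lit 7318794867) (nat_lit 76) (nat_lit 394138353) (nat_lit 426) (nat_lit 5) (nat_lit 439) (nat_lit 5) (nat_lit 427) (nat_lit 5) (nat_lit 430) (nat_lit 384) (nat_lit 326)) (XT.lf (nat_lit 0) (nat_lit 2910136166) (nat_lit 988) (nat_lit 1971515041) (nat_lit 76) (nat_lit 3358134433) (nat_lit 426) (nat_lit 5) (nat_lit 439) (nat_lit 5) (nat_lit 427) (nat_lit 5) (nat_lit 431) (nat_lit 384) (nat_lit 325))))) (XT.nd (nat_lit 234) (nat_lit 1596) (nat_lit 0) (XT.nd (nat_lit 78) (nat_lit 912) (nat_lit 0) (XT.lf (nat_lit 0) (nat_lit 3488339466) (nat_lit 836) (nat_lit 1906778773) (nat_lit 912) (nat_lit 2913997763) (nat_lit 415) (nat_lit 5) (nat_lit 426) (nat_lit 5) (nat_lit 427) (nat_lit 5) (nat_lit 432) (nat_lit 384) (nat_lit 324)) (XT.nd (nat_lit 78) (nat_lit 76) (nat_lit 0) (XT.lf (nat_lit 0) (nat_lit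 665280655) (nat_lit 836) (nat_lit 7252292882) (nat_lit 912) (nat_lit 462503962) (nat_lit 404) (nat_lit 5) (nat_lit 415) (nat_lit 5) (nat_lit 416) (nat_lit 5) (nat_lit 433) (nat_lit 384) (nat_lit 323)) (XT.lf (nat_lit 0) (nat_lit 2019522319) (nat_lit 912) (nat_lit 2192286649) (nat_lit 76) (nat_lit 4240219983) (nat_lit 403) (nat_lit 5) (nat_lit 415) (nat_lit 5) (nat_lit 404) (nat_lit 5) (nat_lit 434) (nat_lit 384) (nat_lit 322)))) (XT.nd (nat_lit 78) (nat_lit 836) (nat_lit 0) (XT.lf (nat_lit 0) (nat_lit 3442756096) (nat_lit 760) (nat_lit 1088362997) (nat_lit 836) (nat_lit 3994516737) (nat_lit 393) (nat_lit 5) (nat_lit 403) (nat_lit 5) (nat_lit 404) (nat_lit 5) (nat_lit 435) (nat_lit 384) (nat_lit 321)) (XT.nd (nat_lit 78) (nat_lit 76) (nat_lit 0) (XT.lf (nat_lit 0) (nat_lit 573163294) (nat_lit 760) (nat_lit 6516124582) (nat_lit 836) (nat_lit 1511500171) (nat_lit 383) (nat_lit 5) (nat_lit 393) (nat_lit 5) (nat_lit 394) (nat_lit 5) (nat_lit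 436) (nat_lit 384) (nat_lit 320)) (XT.lf (nat_lit 0) (nat_lit 1013724504) (nat_lit 836) (nat_lit 2320238854) (nat_lit 76) (nat_lit 5343228532) (nat_lit 382) (nat_lit 5) (nat_lit 393) (nat_lit 5) (nat_lit 383) (nat_lit 5) (nat_lit 437) (nat_lit 384) (nat_lit 319))))))))
noncomputable def xc115 : XT := (XT.nd (nat_lit 1638) (nat_lit 6992) (nat_lit 0) (XT.nd (nat_lit 780) (nat_lit 4256) (nat_lit 0) (XT.nd (nat_lit 390) (nat_lit 2128) (nat_lit 0) (XT.nd (nat_lit 156) (nat_lit 1444) (nat_lit 0) (XT.nd (nat_lit 78) (nat_lit 760) (nat_lit 0) (XT.lf (nat_lit 0) (nat_lit 3497308603) (nat_lit 760) (nat_lit 59728228) (nat_lit 836) (nat_lit 5198130715) (nat_lit 372) (nat_lit 5) (nat_lit 382) (nat_lit 5) (nat_lit 383) (nat_lit 5) (nat_lit 438) (nat_lit 384) (nat_lit 318)) (XT.lf (nat_lit 0) (nat_lit 574160063) (nat_lit 760) (nat_lit 5583242813) (nat_lit 836) (nat_lit 2677176091) (nat_lit 362) (nat_lit 5) (nat_lit 372) (nat_lit 5) (nat_lit 373) (nat_lit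 5) (nat_lit 439) (nat_lit 384) (nat_lit 317))) (XT.nd (nat_lit 78) (nat_lit 1444) (nat_lit 0) (XT.lf (nat_lit 0) (nat_lit 6553716733) (nat_lit 760) (nat_lit 2257643201) (nat_lit 836) (nat_lit 104187008) (nat_lit 362) (nat_lit 5) (nat_lit 372) (nat_lit 5) (nat_lit 373) (nat_lit 5) (nat_lit 440) (nat_lit 384) (nat_lit 316)) (XT.nd (nat_lit 78) (nat_lit 684) (nat_lit 0) (XT.lf (nat_lit 0) (nat_lit 2484830872) (nat_lit 760) (nat_lit 5359043002) (nat_lit 76) (nat_lit 1153980684) (nat_lit 352) (nat_lit 5) (nat_lit 362) (nat_lit 5) (nat_lit 353) (nat_lit 5) (nat_lit 441) (nat_lit 384) (nat_lit 315)) (XT.lf (nat_lit 0) (nat_lit 662937241) (nat_lit 684) (nat_lit 4463226790) (nat_lit 760) (nat_lit 3955591922) (nat_lit 343) (nat_lit 5) (nat_lit 352) (nat_lit 5) (nat_lit 353) (nat_lit 5) (nat_lit 442) (nat_lit 384) (nat_lit 314))))) (XT.nd (nat_lit 156) (nat_lit 1368) (nat_lit 0) (XT.nd (nat_lit 78) (nat_lit 760) (nat_lit 0) (XT.lf (nat_lit 0) (nat_lit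 6838262372) (nat_lit 684) (nat_lit 985137132) (nat_lit 760) (nat_lit 1343874360) (nat_lit 343) (nat_lit 5) (nat_lit 352) (nat_lit 5) (nat_lit 353) (nat_lit 5) (nat_lit 443) (nat_lit 384) (nat_lit 313)) (XT.lf (nat_lit 0) (nat_lit 1312353643) (nat_lit 760) (nat_lit 5385700420) (nat_lit 76) (nat_lit 2556084871) (nat_lit 333) (nat_lit 5) (nat_lit 343) (nat_lit 5) (nat_lit 334) (nat_lit 5) (nat_lit 444) (nat_lit 384) (nat_lit 312))) (XT.nd (nat_lit 78) (nat_lit 684) (nat_lit 0) (XT.lf (nat_lit 0) (nat_lit 834672038) (nat_lit 684) (nat_lit 3164613682) (nat_lit 760) (nat_lit 5343366444) (nat_lit 324) (nat_lit 5) (nat_lit 333) (nat_lit 5) (nat_lit 334) (nat_lit 5) (nat_lit 445) (nat_lit 384) (nat_lit 311)) (XT.nd (nat_lit 78) (nat_lit 684) (nat_lit 0) (XT.lf (nat_lit 0) (nat_lit 6747395024) (nat_lit 760) (nat_lit 2222899140) (nat_lit 76) (nat_lit 462492723) (nat_lit 324) (nat_lit 5) (nat_lit 334) (nat_lit 5) (nat_lit 325) (nat_lit 5) (nat_lit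 446) (nat_lit 384) (nat_lit 310)) (XT.lf (nat_lit 0) (nat_lit 42458455) (nat_lit 684) (nat_lit 5342149300) (nat_lit 76) (nat_lit 4139772130) (nat_lit 315) (nat_lit 5) (nat_lit 324) (nat_lit 5) (nat_lit 316) (nat_lit 5) (nat_lit 447) (nat_lit 384) (nat_lit 309)))))) (XT.nd (nat_lit 390) (nat_lit 2356) (nat_lit 0) (XT.nd (nat_lit 156) (nat_lit 1292) (nat_lit 0) (XT.nd (nat_lit 78) (nat_lit 0) (nat_lit 0) (XT.lf (nat_lit 0) (nat_lit 1085017252) (nat_lit 608) (nat_lit 1694967190) (nat_lit 684) (nat_lit 6837643771) (nat_lit 307) (nat_lit 5) (nat_lit 315) (nat_lit 5) (nat_lit 316) (nat_lit 5) (nat_lit 448) (nat_lit 384) (nat_lit 308)) (XT.lf (nat_lit 0) (nat_lit 5591057818) (nat_lit 684) (nat_lit 2052267796) (nat_lit 76) (nat_lit 2069039958) (nat_lit 307) (nat_lit 5) (nat_lit 316) (nat_lit 5) (nat_lit 308) (nat_lit 5) (nat_lit 449) (nat_lit 384) (nat_lit 307))) (XT.nd (nat_lit 78) (nat_lit 684) (nat_lit 0) (XT.lf (nat_lit 0) (nat_lit 4567421234)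 (nat_lit 608) (nat_lit 3901694407) (nat_lit 684) (nat_lit 1339666774) (nat_lit 299) (nat_lit 5) (nat_lit 307) (nat_lit 5) (nat_lit 308) (nat_lit 5) (nat_lit 450) (nat_lit 384) (nat_lit 306)) (XT.nd (nat_lit 78) (nat_lit 0) (nat_lit 0) (XT.lf (nat_lit 0) (nat_lit 1410068783) (nat_lit 608) (nat_lit 60940433) (nat_lit 684) (nat_lit 8436063040) (nat_lit 290) (nat_lit 5) (nat_lit 298) (nat_lit 5) (nat_lit 299) (nat_lit 5) (nat_lit 451) (nat_lit 384) (nat_lit 305)) (XT.lf (nat_lit 0) (nat_lit 4350723880) (nat_lit 684) (nat_lit 1814550560) (nat_lit 76) (nat_lit 3841261084) (nat_lit 290) (nat_lit 5) (nat_lit 299) (nat_lit 5) (nat_lit 291) (nat_lit 5) (nat_lit 452) (nat_lit 384) (nat_lit 304))))) (XT.nd (nat_lit 234) (nat_lit 1140) (nat_lit 0) (XT.nd (nat_lit 78) (nat_lit 684) (nat_lit 0) (XT.lf (nat_lit 0) (nat_lit 5028512575) (nat_lit 532) (nat_lit 2263456111) (nat_lit 608) (nat_lit 2815940654) (nat_lit 283) (nat_lit 5) (nat_lit 290) (nat_lit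 5) (nat_lit 291) (nat_lit 5) (nat_lit 453) (nat_lit 384) (nat_lit 303)) (XT.nd (nat_lit 78) (nat_lit 0) (nat_lit 0) (XT.lf (nat_lit 0) (nat_lit 85912458) (nat_lit 684) (nat_lit 8416307496) (nat_lit 76) (nat_lit 1708955327) (nat_lit 274) (nat_lit 5) (nat_lit 283) (nat_lit 5) (nat_lit 275) (nat_lit 5) (nat_lit 454) (nat_lit 384) (nat_lit 302)) (XT.lf (nat_lit 0) (nat_lit 3028703554) (nat_lit 684) (nat_lit 1513190223) (nat_lit 76) (nat_lit 5773828369) (nat_lit 274) (nat_lit 5) (nat_lit 283) (nat_lit 5) (nat_lit 275) (nat_lit 5) (nat_lit 455) (nat_lit 384) (nat_lit 301)))) (XT.nd (nat_lit 78) (nat_lit 608) (nat_lit 0) (XT.lf (nat_lit 0) (nat_lit 5562738397) (nat_lit 532) (nat_lit 475562579) (nat_lit 608) (nat_lit 4383899962) (nat_lit 267) (nat_lit 5) (nat_lit 274) (nat_lit 5) (nat_lit 275) (nat_lit 5) (nat_lit 456) (nat_lit 384) (nat_lit 300)) (XT.nd (nat_lit 78) (nat_lit 76) (nat_lit 0) (XT.lf (nat_lit 0) (nat_lit 2237074150) (nat_lit 532)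 (nat_lit 6891677816) (nat_lit 608) (nat_lit 1401644108) (nat_lit 260) (nat_lit 5) (nat_lit 267) (nat_lit 5) (nat_lit 268) (nat_lit 5) (nat_lit 457) (nat_lit 384) (nat_lit 299)) (XT.lf (nat_lit 0) (nat_lit 1626909978) (nat_lit 608) (nat_lit 1151269311) (nat_lit 76) (nat_lit 7862199523) (nat_lit 259) (nat_lit 5) (nat_lit 267) (nat_lit 5) (nat_lit 260) (nat_lit 5) (nat_lit 458) (nat_lit 384) (nat_lit 298))))))) (XT.nd (nat_lit 780) (nat_lit 3344) (nat_lit 0) (XT.nd (nat_lit 390) (nat_lit 1520) (nat_lit 0) (XT.nd (nat_lit 156) (nat_lit 1064) (nat_lit 0) (XT.nd (nat_lit 78) (nat_lit 532) (nat_lit 0) (XT.lf (nat_lit 0) (nat_lit 4719525527) (nat_lit 608) (nat_lit 4594161421) (nat_lit 76) (nat_lit 1438243791) (nat_lit 252) (nat_lit 5) (nat_lit 260) (nat_lit 5) (nat_lit 253) (nat_lit 5) (nat_lit 459) (nat_lit 384) (nat_lit 297)) (XT.lf (nat_lit 0) (nat_lit 2742524195) (nat_lit 532) (nat_lit 5148408540) (nat_lit 608) (nat_lit 2974442183) (nat_lit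 245) (nat_lit 5) (nat_lit 252) (nat_lit 5) (nat_lit 253) (nat_lit 5) (nat_lit 460) (nat_lit 384) (nat_lit 296))) (XT.nd (nat_lit 78) (nat_lit 988) (nat_lit 0) (XT.lf (nat_lit 0) (nat_lit 146881496) (nat_lit 608) (nat_lit 731534164) (nat_lit 76) (nat_lit 10102571555) (nat_lit 244) (nat_lit 5) (nat_lit 252) (nat_lit 5) (nat_lit 245) (nat_lit 5) (nat_lit 461) (nat_lit 384) (nat_lit 295)) (XT.nd (nat_lit 78) (nat_lit 532) (nat_lit 0) (XT.lf (nat_lit 0) (nat_lit 3331774126) (nat_lit 532) (nat_lit 4280854529) (nat_lit 76) (nat_lit 3485070478) (nat_lit 238) (nat_lit 5) (nat_lit 245) (nat_lit 5) (nat_lit 239) (nat_lit 5) (nat_lit 462) (nat_lit 384) (nat_lit 294)) (XT.lf (nat_lit 0) (nat_lit 3309418636) (nat_lit 532) (nat_lit 3276990433) (nat_lit 608) (nat_lit 4630215329) (nat_lit 231) (nat_lit 5) (nat_lit 238) (nat_lit 5) (nat_lit 239) (nat_lit 5) (nat_lit 463) (nat_lit 384) (nat_lit 293))))) (XT.nd (nat_lit 156) (nat_lit 988) (nat_lit 0) (XT.nd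 (nat_lit 78) (nat_lit 532) (nat_lit 0) (XT.lf (nat_lit 0) (nat_lit 9916486028) (nat_lit 608) (nat_lit 273247206) (nat_lit 76) (nat_lit 1147987950) (nat_lit 231) (nat_lit 5) (nat_lit 239) (nat_lit 5) (nat_lit 232) (nat_lit 5) (nat_lit 464) (nat_lit 384) (nat_lit 292)) (XT.lf (nat_lit 0) (nat_lit 1873187290) (nat_lit 532) (nat_lit 3918952912) (nat_lit 76) (nat_lit 5667948204) (nat_lit 224) (nat_lit 5) (nat_lit 231) (nat_lit 5) (nat_lit 225) (nat_lit 5) (nat_lit 465) (nat_lit 384) (nat_lit 291))) (XT.nd (nat_lit 78) (nat_lit 532) (nat_lit 0) (XT.lf (nat_lit 0) (nat_lit 3935691452) (nat_lit 456) (nat_lit 1280792608) (nat_lit 532) (nat_lit 6368190702) (nat_lit 218) (nat_lit 5) (nat_lit 224) (nat_lit 5) (nat_lit 225) (nat_lit 5) (nat_lit 466) (nat_lit 384) (nat_lit 290)) (XT.nd (nat_lit 78) (nat_lit 76) (nat_lit 0) (XT.lf (nat_lit 0) (nat_lit 233322287) (nat_lit 456) (nat_lit 8417654127) (nat_lit 532) (nat_lit 3060289837) (nat_lit 212) (nat_lit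 5) (nat_lit 218) (nat_lit 5) (nat_lit 219) (nat_lit 5) (nat_lit 467) (nat_lit 384) (nat_lit 289)) (XT.lf (nat_lit 0) (nat_lit 344674645) (nat_lit 532) (nat_lit 3510679759) (nat_lit 76) (nat_lit 7984294008) (nat_lit 211) (nat_lit 5) (nat_lit 218) (nat_lit 5) (nat_lit 212) (nat_lit 5) (nat_lit 468) (nat_lit 384) (nat_lit 288)))))) (XT.nd (nat_lit 390) (nat_lit 1596) (nat_lit 0) (XT.nd (nat_lit 156) (nat_lit 912) (nat_lit 0) (XT.nd (nat_lit 78) (nat_lit 380) (nat_lit 0) (XT.lf (nat_lit 0) (nat_lit 3787592555) (nat_lit 532) (nat_lit 7355955334) (nat_lit 76) (nat_lit 826429128) (nat_lit 205) (nat_lit 5) (nat_lit 212) (nat_lit 5) (nat_lit 206) (nat_lit 5) (nat_lit 469) (nat_lit 384) (nat_lit 287)) (XT.lf (nat_lit 0) (nat_lit 794242626) (nat_lit 380) (nat_lit 6535060654) (nat_lit 456) (nat_lit 4773010225) (nat_lit 200) (nat_lit 5) (nat_lit 205) (nat_lit 5) (nat_lit 206) (nat_lit 5) (nat_lit 470) (nat_lit 384) (nat_lit 286))) (XT.nd (nat_lit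 78) (nat_lit 912) (nat_lit 0) (XT.lf (nat_lit 0) (nat_lit 9170548731) (nat_lit 380) (nat_lit 1796434958) (nat_lit 456) (nat_lit 1269810325) (nat_lit 200) (nat_lit 5) (nat_lit 205) (nat_lit 5) (nat_lit 206) (nat_lit 5) (nat_lit 471) (nat_lit 384) (nat_lit 285)) (XT.nd (nat_lit 78) (nat_lit 380) (nat_lit 0) (XT.lf (nat_lit 0) (nat_lit 2304099583) (nat_lit 532) (nat_lit 7033869866) (nat_lit 76) (nat_lit 3035078448) (nat_lit 193) (nat_lit 5) (nat_lit 200) (nat_lit 5) (nat_lit 194) (nat_lit 5) (nat_lit 472) (nat_lit 384) (nat_lit 284)) (XT.lf (nat_lit 0) (nat_lit 1404269860) (nat_lit 380) (nat_lit 4546204034) (nat_lit 456) (nat_lit 6561025316) (nat_lit 188) (nat_lit 5) (nat_lit 193) (nat_lit 5) (nat_lit 194) (nat_lit 5) (nat_lit 473) (nat_lit 384) (nat_lit 283))))) (XT.nd (nat_lit 234) (nat_lit 760) (nat_lit 0) (XT.nd (nat_lit 78) (nat_lit 836) (nat_lit 0) (XT.lf (nat_lit 0) (nat_lit 9695901538) (nat_lit 456) (nat_lit 2584298861) (nat_lit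 76) (nat_lit 371996632) (nat_lit 188) (nat_lit 5) (nat_lit 194) (nat_lit 5) (nat_lit 189) (nat_lit 5) (nat_lit 474) (nat_lit 384) (nat_lit 282)) (XT.nd (nat_lit 78) (nat_lit 380) (nat_lit 0) (XT.lf (nat_lit 0) (nat_lit 758112146) (nat_lit 456) (nat_lit 6676264802) (nat_lit 76) (nat_lit 5360297638) (nat_lit 182) (nat_lit 5) (nat_lit 188) (nat_lit 5) (nat_lit 183) (nat_lit 5) (nat_lit 475) (nat_lit 384) (nat_lit 281)) (XT.lf (nat_lit 0) (nat_lit 2062031895) (nat_lit 380) (nat_lit 2453002816) (nat_lit 456) (nat_lit 8424419926) (nat_lit 177) (nat_lit 5) (nat_lit 182) (nat_lit 5) (nat_lit 183) (nat_lit 5) (nat_lit 476) (nat_lit 384) (nat_lit 280)))) (XT.nd (nat_lit 78) (nat_lit 760) (nat_lit 0) (XT.lf (nat_lit 0) (nat_lit 8386324045) (nat_lit 456) (nat_lit 2074006308) (nat_lit 76) (nat_lit 2626015370) (nat_lit 177) (nat_lit 5) (nat_lit 183) (nat_lit 5) (nat_lit 178) (nat_lit 5) (nat_lit 477) (nat_lit 384) (nat_lit 279)) (XT.nd (nat_lit 78)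 (nat_lit 380) (nat_lit 0) (XT.lf (nat_lit 0) (nat_lit 6945018879) (nat_lit 380) (nat_lit 5428874317) (nat_lit 456) (nat_lit 861504353) (nat_lit 172) (nat_lit 5) (nat_lit 177) (nat_lit 5) (nat_lit 178) (nat_lit 5) (nat_lit 478) (nat_lit 384) (nat_lit 278)) (XT.lf (nat_lit 0) (nat_lit 2766383097) (nat_lit 304) (nat_lit 256903328) (nat_lit 380) (nat_lit 10363556363) (nat_lit 167) (nat_lit 5) (nat_lit 171) (nat_lit 5) (nat_lit 172) (nat_lit 5) (nat_lit 479) (nat_lit 384) (nat_lit 277))))))))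
noncomputable def xc116 : XT := (XT.nd (nat_lit 1560) (nat_lit 1064) (nat_lit 0) (XT.nd (nat_lit 780) (nat_lit 1900) (nat_lit 0) (XT.nd (nat_lit 390) (nat_lit 1368) (nat_lit 0) (XT.nd (nat_lit 156) (nat_lit 760) (nat_lit 0) (XT.nd (nat_lit 78) (nat_lit 380) (nat_lit 0) (XT.lf (nat_lit 0) (nat_lit 7027033537) (nat_lit 380) (nat_lit 1524986093) (nat_lit 76) (nat_lit 4988127491) (nat_lit 167) (nat_lit 5) (nat_lit 172) (nat_lit 5) (nat_lit 168) (nat_lit 5) (nat_lit 480) (nat_lit 384) (nat_lit 276)) (XT.lf (nat_lit 0) (nat_lit 7818438919) (nat_lit 380) (nat_lit 3323028057) (nat_lit 456) (nat_lit 2554438335) (nat_lit 162) (nat_lit 5) (nat_lit 167) (nat_lit 5) (nat_lit 168) (nat_lit 5) (nat_lit 481) (nat_lit 384) (nat_lit 275))) (XT.nd (nat_lit 78) (nat_lit 380) (nat_lit 0) (XT.lf (nat_lit 0) (nat_lit 1488547573) (nat_lit 380) (nat_lit 10351219932) (nat_lit 76) (nat_lit 2014326689) (nat_lit 157) (nat_lit 5) (nat_lit 162) (nat_lit 5) (nat_lit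 158) (nat_lit 5) (nat_lit 482) (nat_lit 384) (nat_lit 274)) (XT.nd (nat_lit 78) (nat_lit 380) (nat_lit 0) (XT.lf (nat_lit 0) (nat_lit 5618256167) (nat_lit 380) (nat_lit 938325937) (nat_lit 76) (nat_lit 7457725715) (nat_lit 157) (nat_lit 5) (nat_lit 162) (nat_lit 5) (nat_lit 158) (nat_lit 5) (nat_lit 483) (nat_lit 384) (nat_lit 273)) (XT.lf (nat_lit 0) (nat_lit 8743205015) (nat_lit 380) (nat_lit 1122871608) (nat_lit 456) (nat_lit 4310938738) (nat_lit 152) (nat_lit 5) (nat_lit 157) (nat_lit 5) (nat_lit 158) (nat_lit 5) (nat_lit 484) (nat_lit 384) (nat_lit 272))))) (XT.nd (nat_lit 156) (nat_lit 988) (nat_lit 0) (XT.nd (nat_lit 78) (nat_lit 76) (nat_lit 0) (XT.lf (nat_lit 0) (nat_lit 4281247301) (nat_lit 304) (nat_lit 9959297671) (nat_lit 380) (nat_lit 101598255) (nat_lit 148) (nat_lit 5) (nat_lit 152) (nat_lit 5) (nat_lit 153) (nat_lit 5) (nat_lit 485) (nat_lit 384) (nat_lit 271)) (XT.lf (nat_lit 0) (nat_lit 4160008467) (nat_lit 380) (nat_lit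 314930556) (nat_lit 76) (nat_lit 10034629143) (nat_lit 147) (nat_lit 5) (nat_lit 152) (nat_lit 5) (nat_lit 148) (nat_lit 5) (nat_lit 486) (nat_lit 384) (nat_lit 270))) (XT.nd (nat_lit 78) (nat_lit 684) (nat_lit 0) (XT.lf (nat_lit 0) (nat_lit 8555522715) (nat_lit 380) (nat_lit 4968114381) (nat_lit 76) (nat_lit 1155690363) (nat_lit 143) (nat_lit 5) (nat_lit 148) (nat_lit 5) (nat_lit 144) (nat_lit 5) (nat_lit 487) (nat_lit 384) (nat_lit 269)) (XT.nd (nat_lit 78) (nat_lit 380) (nat_lit 0) (XT.lf (nat_lit 0) (nat_lit 5092973303) (nat_lit 304) (nat_lit 7990235465) (nat_lit 380) (nat_lit 1768387937) (nat_lit 139) (nat_lit 5) (nat_lit 143) (nat_lit 5) (nat_lit 144) (nat_lit 5) (nat_lit 488) (nat_lit 384) (nat_lit 268)) (XT.lf (nat_lit 0) (nat_lit 349045753) (nat_lit 304) (nat_lit 2305326978) (nat_lit 380) (nat_lit 12372285215) (nat_lit 134) (nat_lit 5) (nat_lit 138) (nat_lit 5) (nat_lit 139) (nat_lit 5) (nat_lit 489) (nat_lit 384) (nat_lit 267))))))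 (XT.nd (nat_lit 390) (nat_lit 988) (nat_lit 0) (XT.nd (nat_lit 156) (nat_lit 608) (nat_lit 0) (XT.nd (nat_lit 78) (nat_lit 304) (nat_lit 0) (XT.lf (nat_lit 0) (nat_lit 7210110169) (nat_lit 380) (nat_lit 4481615147) (nat_lit 76) (nat_lit 3511897308) (nat_lit 134) (nat_lit 5) (nat_lit 139) (nat_lit 5) (nat_lit 135) (nat_lit 5) (nat_lit 490) (nat_lit 384) (nat_lit 266)) (XT.lf (nat_lit 0) (nat_lit 5947678967) (nat_lit 304) (nat_lit 5943145428) (nat_lit 380) (nat_lit 3492624960) (nat_lit 130) (nat_lit 5) (nat_lit 134) (nat_lit 5) (nat_lit 135) (nat_lit 5) (nat_lit 491) (nat_lit 384) (nat_lit 265))) (XT.nd (nat_lit 78) (nat_lit 228) (nat_lit 0) (XT.lf (nat_lit 0) (nat_lit 1053112454) (nat_lit 304) (nat_lit 47899032) (nat_lit 380) (nat_lit 14465375814) (nat_lit 125) (nat_lit 5) (nat_lit 129) (nat_lit 5) (nat_lit 130) (nat_lit 5) (nat_lit 492) (nat_lit 384) (nat_lit 264)) (XT.nd (nat_lit 78) (nat_lit 228) (nat_lit 0) (XT.lf (nat_lit 0) (nat_lit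 5822380779) (nat_lit 380) (nat_lit 3967815939) (nat_lit 76) (nat_lit 5960673031) (nat_lit 125) (nat_lit 5) (nat_lit 130) (nat_lit 5) (nat_lit 126) (nat_lit 5) (nat_lit 493) (nat_lit 384) (nat_lit 263)) (XT.lf (nat_lit 0) (nat_lit 6845171422) (nat_lit 228) (nat_lit 3818270523) (nat_lit 304) (nat_lit 5275094614) (nat_lit 122) (nat_lit 5) (nat_lit 125) (nat_lit 5) (nat_lit 126) (nat_lit 5) (nat_lit 494) (nat_lit 384) (nat_lit 262))))) (XT.nd (nat_lit 156) (nat_lit 608) (nat_lit 0) (XT.nd (nat_lit 78) (nat_lit 76) (nat_lit 0) (XT.lf (nat_lit 0) (nat_lit 1774189893) (nat_lit 304) (nat_lit 13860802570) (nat_lit 380) (nat_lit 494290879) (nat_lit 118) (nat_lit 5) (nat_lit 122) (nat_lit 5) (nat_lit 123) (nat_lit 5) (nat_lit 495) (nat_lit 384) (nat_lit 261)) (XT.lf (nat_lit 0) (nat_lit 4391997304) (nat_lit 380) (nat_lit 3427372142) (nat_lit 76) (nat_lit 8502559766) (nat_lit 117) (nat_lit 5) (nat_lit 122) (nat_lit 5) (nat_lit 118) (nat_lit 5) (nat_lit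 496) (nat_lit 384) (nat_lit 260))) (XT.nd (nat_lit 78) (nat_lit 380) (nat_lit 0) (XT.lf (nat_lit 0) (nat_lit 7785419546) (nat_lit 228) (nat_lit 1615536114) (nat_lit 304) (nat_lit 7116775734) (nat_lit 114) (nat_lit 5) (nat_lit 117) (nat_lit 5) (nat_lit 118) (nat_lit 5) (nat_lit 497) (nat_lit 384) (nat_lit 259)) (XT.nd (nat_lit 78) (nat_lit 76) (nat_lit 0) (XT.lf (nat_lit 0) (nat_lit 2521867447) (nat_lit 304) (nat_lit 12039433408) (nat_lit 380) (nat_lit 2155124612) (nat_lit 110) (nat_lit 5) (nat_lit 114) (nat_lit 5) (nat_lit 115) (nat_lit 5) (nat_lit 498) (nat_lit 384) (nat_lit 258)) (XT.lf (nat_lit 0) (nat_lit 2918459480) (nat_lit 380) (nat_lit 2860808658) (nat_lit 76) (nat_lit 11138431770) (nat_lit 109) (nat_lit 5) (nat_lit 114) (nat_lit 5) (nat_lit 110) (nat_lit 5) (nat_lit 499) (nat_lit 384) (nat_lit 257))))))) (XT.nd (nat_lit 50700) (nat_lit 0) (nat_lit 49172) (XT.nd (nat_lit 390) (nat_lit 0) (nat_lit 0) (XT.nd (nat_lit 156) (nat_lit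 532) (nat_lit 0) (XT.nd (nat_lit 78) (nat_lit 304) (nat_lit 0) (XT.lf (nat_lit 0) (nat_lit 8107431022) (nat_lit 304) (nat_lit 8357719195) (nat_lit 76) (nat_lit 656709257) (nat_lit 106) (nat_lit 5) (nat_lit 110) (nat_lit 5) (nat_lit 107) (nat_lit 5) (nat_lit 500) (nat_lit 384) (nat_lit 256)) (XT.lf (nat_lit 0) (nat_lit 3303708145) (nat_lit 304) (nat_lit 10157087715) (nat_lit 380) (nat_lit 3868094094) (nat_lit 102) (nat_lit 5) (nat_lit 106) (nat_lit 5) (nat_lit 107) (nat_lit 5) (nat_lit 501) (nat_lit 384) (nat_lit 255))) (XT.nd (nat_lit 78) (nat_lit 456) (nat_lit 0) (XT.lf (nat_lit 0) (nat_lit 1401109699) (nat_lit 380) (nat_lit 2268527033) (nat_lit 76) (nat_lit 13869483821) (nat_lit 101) (nat_lit 5) (nat_lit 106) (nat_lit 5) (nat_lit 102) (nat_lit 5) (nat_lit 502) (nat_lit 384) (nat_lit 254)) (XT.nd (nat_lit 78) (nat_lit 228) (nat_lit 0) (XT.lf (nat_lit 0) (nat_lit 6789150742) (nat_lit 304) (nat_lit 7976947807) (nat_lit 76) (nat_lit 2985640914)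 (nat_lit 98) (nat_lit 5) (nat_lit 102) (nat_lit 5) (nat_lit 99) (nat_lit 5) (nat_lit 503) (nat_lit 384) (nat_lit 253)) (XT.lf (nat_lit 0) (nat_lit 4119703826) (nat_lit 228) (nat_lit 8213650671) (nat_lit 304) (nat_lit 5634288217) (nat_lit 95) (nat_lit 5) (nat_lit 98) (nat_lit 5) (nat_lit 99) (nat_lit 5) (nat_lit 504) (nat_lit 384) (nat_lit 252))))) (XT.nd (nat_lit 50076) (nat_lit 0) (nat_lit 52440) (XT.nd (nat_lit 49998) (nat_lit 0) (nat_lit 52972) (XT.lf (nat_lit 0) (nat_lit 16535279640) (nat_lit 228) (nat_lit 1488870413) (nat_lit 304) (nat_lit 162999822) (nat_lit 95) (nat_lit 5) (nat_lit 98) (nat_lit 5) (nat_lit 99) (nat_lit 5) (nat_lit 505) (nat_lit 384) (nat_lit 251)) (XT.lf (nat_lit 0) (nat_lit 1022009023) (nat_lit 0) (nat_lit 1022009023) (nat_lit 380) (nat_lit 1200751573) (nat_lit 792) (nat_lit 5) (nat_lit 792) (nat_lit 3) (nat_lit 797) (nat_lit 3) (nat_lit 385) (nat_lit 385) (nat_lit 370))) (XT.nd (nat_lit 78) (nat_lit 0) (nat_lit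 0) (XT.lf (nat_lit 0) (nat_lit 355577853) (nat_lit 532) (nat_lit 1185003500) (nat_lit 532) (nat_lit 4959182542) (nat_lit 785) (nat_lit 3) (nat_lit 792) (nat_lit 3) (nat_lit 792) (nat_lit 5) (nat_lit 386) (nat_lit 385) (nat_lit 369)) (XT.nd (nat_lit 78) (nat_lit 0) (nat_lit 0) (XT.lf (nat_lit 76) (nat_lit 2115791018) (nat_lit 0) (nat_lit 961505771) (nat_lit 532) (nat_lit 3433745726) (nat_lit 786) (nat_lit 5) (nat_lit 785) (nat_lit 3) (nat_lit 792) (nat_lit 5) (nat_lit 387) (nat_lit 385) (nat_lit 368)) (XT.lf (nat_lit 76) (nat_lit 5462127912) (nat_lit 0) (nat_lit 328336252) (nat_lit 532) (nat_lit 733342263) (nat_lit 786) (nat_lit 5) (nat_lit 785) (nat_lit 3) (nat_lit 792) (nat_lit 5) (nat_lit 388) (nat_lit 385) (nat_lit 367)))))) (XT.nd (nat_lit 390) (nat_lit 2204) (nat_lit 0) (XT.nd (nat_lit 156) (nat_lit 608) (nat_lit 0) (XT.nd (nat_lit 78) (nat_lit 0) (nat_lit 0) (XT.lf (nat_lit 0) (nat_lit 1942076144) (nat_lit 532) (nat_lit 4221017307)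 (nat_lit 608) (nat_lit 374519454) (nat_lit 779) (nat_lit 5) (nat_lit 786) (nat_lit 5) (nat_lit 787) (nat_lit 5) (nat_lit 389) (nat_lit 385) (nat_lit 366)) (XT.lf (nat_lit 0) (nat_lit 4601876870) (nat_lit 532) (nat_lit 819900952) (nat_lit 608) (nat_lit 1131006872) (nat_lit 779) (nat_lit 5) (nat_lit 786) (nat_lit 5) (nat_lit 787) (nat_lit 5) (nat_lit 390) (nat_lit 385) (nat_lit 365))) (XT.nd (nat_lit 78) (nat_lit 0) (nat_lit 0) (XT.lf (nat_lit 0) (nat_lit 686357710) (nat_lit 608) (nat_lit 3927179029) (nat_lit 684) (nat_lit 1955635512) (nat_lit 771) (nat_lit 5) (nat_lit 779) (nat_lit 5) (nat_lit 780) (nat_lit 5) (nat_lit 391) (nat_lit 385) (nat_lit 364)) (XT.nd (nat_lit 78) (nat_lit 0) (nat_lit 0) (XT.lf (nat_lit 0) (nat_lit 3289133599) (nat_lit 608) (nat_lit 452484285) (nat_lit 684) (nat_lit 2845234010) (nat_lit 771) (nat_lit 5) (nat_lit 779) (nat_lit 5) (nat_lit 780) (nat_lit 5) (nat_lit 392) (nat_lit 385) (nat_lit 363)) (XT.lf (nat_lit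 76) (nat_lit 3095051744) (nat_lit 0) (nat_lit 2803640621) (nat_lit 684) (nat_lit 707098217) (nat_lit 772) (nat_lit 5) (nat_lit 771) (nat_lit 5) (nat_lit 780) (nat_lit 5) (nat_lit 393) (nat_lit 385) (nat_lit 362))))) (XT.nd (nat_lit 234) (nat_lit 836) (nat_lit 0) (XT.nd (nat_lit 78) (nat_lit 684) (nat_lit 0) (XT.lf (nat_lit 76) (nat_lit 44765990) (nat_lit 0) (nat_lit 1803780904) (nat_lit 760) (nat_lit 4777537943) (nat_lit 763) (nat_lit 5) (nat_lit 762) (nat_lit 5) (nat_lit 772) (nat_lit 5) (nat_lit 394) (nat_lit 385) (nat_lit 361)) (XT.nd (nat_lit 78) (nat_lit 684) (nat_lit 0) (XT.lf (nat_lit 76) (nat_lit 3676613724) (nat_lit 0) (nat_lit 729033269) (nat_lit 760) (nat_lit 2241848305) (nat_lit 763) (nat_lit 5) (nat_lit 762) (nat_lit 5) (nat_lit 772) (nat_lit 5) (nat_lit 395) (nat_lit 385) (nat_lit 360)) (XT.lf (nat_lit 0) (nat_lit 284156793) (nat_lit 760) (nat_lit 5992304421) (nat_lit 836) (nat_lit 393945599) (nat_lit 753) (nat_lit 5) (nat_lit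 763) (nat_lit 5) (nat_lit 764) (nat_lit 5) (nat_lit 396) (nat_lit 385) (nat_lit 359)))) (XT.nd (nat_lit 78) (nat_lit 836) (nat_lit 0) (XT.lf (nat_lit 0) (nat_lit 2793845526) (nat_lit 760) (nat_lit 2311705562) (nat_lit 836) (nat_lit 1588665460) (nat_lit 753) (nat_lit 5) (nat_lit 763) (nat_lit 5) (nat_lit 764) (nat_lit 5) (nat_lit 397) (nat_lit 385) (nat_lit 358)) (XT.nd (nat_lit 78) (nat_lit 836) (nat_lit 0) (XT.lf (nat_lit 76) (nat_lit 1423072947) (nat_lit 0) (nat_lit 3879362836) (nat_lit 836) (nat_lit 1417092541) (nat_lit 754) (nat_lit 5) (nat_lit 753) (nat_lit 5) (nat_lit 764) (nat_lit 5) (nat_lit 398) (nat_lit 385) (nat_lit 357)) (XT.lf (nat_lit 0) (nat_lit 1056847165) (nat_lit 836) (nat_lit 1527143581) (nat_lit 912) (nat_lit 4162098087) (nat_lit 742) (nat_lit 5) (nat_lit 753) (nat_lit 5) (nat_lit 754) (nat_lit 5) (nat_lit 399) (nat_lit 385) (nat_lit 356))))))))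
noncomputable def xc117 : XT := (XT.nd (nat_lit 1560) (nat_lit 15124) (nat_lit 0) (XT.nd (nat_lit 780) (nat_lit 8664) (nat_lit 0) (XT.nd (nat_lit 390) (nat_lit 3344) (nat_lit 0) (XT.nd (nat_lit 156) (nat_lit 1748) (nat_lit 0) (XT.nd (nat_lit 78) (nat_lit 0) (nat_lit 76) (XT.lf (nat_lit 76) (nat_lit 2300455598) (nat_lit 0) (nat_lit 1216979957) (nat_lit 912) (nat_lit 3256434764) (nat_lit 743) (nat_lit 5) (nat_lit 742) (nat_lit 5) (nat_lit 754) (nat_lit 5) (nat_lit 400) (nat_lit 385) (nat_lit 355)) (XT.lf (nat_lit 0) (nat_lit 5980934397) (nat_lit 836) (nat_lit 616839713) (nat_lit 76) (nat_lit 205359349) (nat_lit 743) (nat_lit 5) (nat_lit 754) (nat_lit 5) (nat_lit 744) (nat_lit 5) (nat_lit 401) (nat_lit 385) (nat_lit 354))) (XT.nd (nat_lit 78) (nat_lit 912) (nat_lit 0) (XT.lf (nat_lit 0) (nat_lit 1611702356) (nat_lit 912) (nat_lit 3530015987) (nat_lit 76) (nat_lit 1691592637) (nat_lit 731) (nat_lit 5) (nat_lit 743) (nat_lit 5) (nat_lit 732)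 (nat_lit 5) (nat_lit 402) (nat_lit 385) (nat_lit 353)) (XT.nd (nat_lit 78) (nat_lit 0) (nat_lit 0) (XT.lf (nat_lit 0) (nat_lit 407398082) (nat_lit 912) (nat_lit 3626555604) (nat_lit 988) (nat_lit 2831016046) (nat_lit 719) (nat_lit 5) (nat_lit 731) (nat_lit 5) (nat_lit 732) (nat_lit 5) (nat_lit 403) (nat_lit 385) (nat_lit 352)) (XT.lf (nat_lit 0) (nat_lit 4433007921) (nat_lit 912) (nat_lit 2040040863) (nat_lit 988) (nat_lit 424844902) (nat_lit 719) (nat_lit 5) (nat_lit 731) (nat_lit 5) (nat_lit 732) (nat_lit 5) (nat_lit 404) (nat_lit 385) (nat_lit 351))))) (XT.nd (nat_lit 156) (nat_lit 2280) (nat_lit 0) (XT.nd (nat_lit 78) (nat_lit 0) (nat_lit 0) (XT.lf (nat_lit 0) (nat_lit 1576782141) (nat_lit 988) (nat_lit 381724048) (nat_lit 1064) (nat_lit 4973592937) (nat_lit 705) (nat_lit 5) (nat_lit 718) (nat_lit 5) (nat_lit 719) (nat_lit 5) (nat_lit 405) (nat_lit 385) (nat_lit 350)) (XT.lf (nat_lit 0) (nat_lit 4355354387) (nat_lit 1064) (nat_lit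 1284687917) (nat_lit 76) (nat_lit 1327459830) (nat_lit 705) (nat_lit 5) (nat_lit 719) (nat_lit 5) (nat_lit 706) (nat_lit 5) (nat_lit 406) (nat_lit 385) (nat_lit 349))) (XT.nd (nat_lit 78) (nat_lit 1216) (nat_lit 0) (XT.lf (nat_lit 0) (nat_lit 2863857599) (nat_lit 1064) (nat_lit 3904815156) (nat_lit 1140) (nat_lit 235569784) (nat_lit 691) (nat_lit 5) (nat_lit 705) (nat_lit 5) (nat_lit 706) (nat_lit 5) (nat_lit 407) (nat_lit 385) (nat_lit 348)) (XT.nd (nat_lit 78) (nat_lit 0) (nat_lit 0) (XT.lf (nat_lit 0) (nat_lit 18248028) (nat_lit 1140) (nat_lit 2098235851) (nat_lit 1216) (nat_lit 4925816739) (nat_lit 675) (nat_lit 5) (nat_lit 690) (nat_lit 5) (nat_lit 691) (nat_lit 5) (nat_lit 408) (nat_lit 385) (nat_lit 347)) (XT.lf (nat_lit 0) (nat_lit 4275885506) (nat_lit 1140) (nat_lit 212937604) (nat_lit 1216) (nat_lit 2592737631) (nat_lit 675) (nat_lit 5) (nat_lit 690) (nat_lit 5) (nat_lit 691) (nat_lit 5) (nat_lit 409) (nat_lit 385) (nat_lit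 346)))))) (XT.nd (nat_lit 390) (nat_lit 4636) (nat_lit 0) (XT.nd (nat_lit 156) (nat_lit 2736) (nat_lit 0) (XT.nd (nat_lit 78) (nat_lit 76) (nat_lit 0) (XT.lf (nat_lit 0) (nat_lit 1466155313) (nat_lit 1216) (nat_lit 5412785920) (nat_lit 1292) (nat_lit 243258191) (nat_lit 659) (nat_lit 5) (nat_lit 675) (nat_lit 5) (nat_lit 676) (nat_lit 5) (nat_lit 410) (nat_lit 385) (nat_lit 345)) (XT.lf (nat_lit 0) (nat_lit 2095449569) (nat_lit 1292) (nat_lit 1356781575) (nat_lit 76) (nat_lit 3711730565) (nat_lit 658) (nat_lit 5) (nat_lit 675) (nat_lit 5) (nat_lit 659) (nat_lit 5) (nat_lit 411) (nat_lit 385) (nat_lit 344))) (XT.nd (nat_lit 78) (nat_lit 1444) (nat_lit 0) (XT.lf (nat_lit 0) (nat_lit 3027893615) (nat_lit 1292) (nat_lit 1420536953) (nat_lit 1368) (nat_lit 2758681389) (nat_lit 641) (nat_lit 5) (nat_lit 658) (nat_lit 5) (nat_lit 659) (nat_lit 5) (nat_lit 412) (nat_lit 385) (nat_lit 343)) (XT.nd (nat_lit 78) (nat_lit 76) (nat_lit 0) (XT.lf (nat_lit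 0) (nat_lit 226949081) (nat_lit 1368) (nat_lit 6588259638) (nat_lit 1444) (nat_lit 436581739) (nat_lit 623) (nat_lit 5) (nat_lit 641) (nat_lit 5) (nat_lit 642) (nat_lit 5) (nat_lit 413) (nat_lit 385) (nat_lit 342)) (XT.lf (nat_lit 0) (nat_lit 1896502229) (nat_lit 1444) (nat_lit 2580869326) (nat_lit 76) (nat_lit 2819942496) (nat_lit 622) (nat_lit 5) (nat_lit 641) (nat_lit 5) (nat_lit 623) (nat_lit 5) (nat_lit 414) (nat_lit 385) (nat_lit 341))))) (XT.nd (nat_lit 156) (nat_lit 3192) (nat_lit 0) (XT.nd (nat_lit 78) (nat_lit 0) (nat_lit 0) (XT.lf (nat_lit 0) (nat_lit 1935434141) (nat_lit 1444) (nat_lit 2300718233) (nat_lit 1520) (nat_lit 3108223019) (nat_lit 603) (nat_lit 5) (nat_lit 622) (nat_lit 5) (nat_lit 623) (nat_lit 5) (nat_lit 415) (nat_lit 385) (nat_lit 340)) (XT.lf (nat_lit 0) (nat_lit 6538264563) (nat_lit 1444) (nat_lit 55494946) (nat_lit 1520) (nat_lit 799195173) (nat_lit 603) (nat_lit 5) (nat_lit 622) (nat_lit 5) (nat_lit 623)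 (nat_lit 5) (nat_lit 416) (nat_lit 385) (nat_lit 339))) (XT.nd (nat_lit 78) (nat_lit 1596) (nat_lit 0) (XT.lf (nat_lit 0) (nat_lit 1529457619) (nat_lit 1596) (nat_lit 3665862636) (nat_lit 76) (nat_lit 2247106213) (nat_lit 582) (nat_lit 5) (nat_lit 603) (nat_lit 5) (nat_lit 583) (nat_lit 5) (nat_lit 417) (nat_lit 385) (nat_lit 338)) (XT.nd (nat_lit 78) (nat_lit 0) (nat_lit 0) (XT.lf (nat_lit 0) (nat_lit 987189684) (nat_lit 1596) (nat_lit 2874489688) (nat_lit 1672) (nat_lit 3631748722) (nat_lit 561) (nat_lit 5) (nat_lit 582) (nat_lit 5) (nat_lit 583) (nat_lit 5) (nat_lit 418) (nat_lit 385) (nat_lit 337)) (XT.lf (nat_lit 0) (nat_lit 5743938699) (nat_lit 1596) (nat_lit 476969537) (nat_lit 1672) (nat_lit 1324934262) (nat_lit 561) (nat_lit 5) (nat_lit 582) (nat_lit 5) (nat_lit 583) (nat_lit 5) (nat_lit 419) (nat_lit 385) (nat_lit 336))))))) (XT.nd (nat_lit 780) (nat_lit 5852) (nat_lit 0) (XT.nd (nat_lit 390) (nat_lit 3876) (nat_lit 0) (XT.nd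 (nat_lit 156) (nat_lit 1900) (nat_lit 0) (XT.nd (nat_lit 78) (nat_lit 1748) (nat_lit 0) (XT.lf (nat_lit 0) (nat_lit 1003275809) (nat_lit 1748) (nat_lit 4622451871) (nat_lit 76) (nat_lit 1973669180) (nat_lit 538) (nat_lit 5) (nat_lit 561) (nat_lit 5) (nat_lit 539) (nat_lit 5) (nat_lit 420) (nat_lit 385) (nat_lit 335)) (XT.lf (nat_lit 0) (nat_lit 172763596) (nat_lit 1748) (nat_lit 3160991538) (nat_lit 1824) (nat_lit 4320623101) (nat_lit 515) (nat_lit 5) (nat_lit 538) (nat_lit 5) (nat_lit 539) (nat_lit 5) (nat_lit 421) (nat_lit 385) (nat_lit 334))) (XT.nd (nat_lit 78) (nat_lit 1900) (nat_lit 0) (XT.lf (nat_lit 0) (nat_lit 5087297249) (nat_lit 1748) (nat_lit 612131768) (nat_lit 1824) (nat_lit 2011258521) (nat_lit 515) (nat_lit 5) (nat_lit 538) (nat_lit 5) (nat_lit 539) (nat_lit 5) (nat_lit 422) (nat_lit 385) (nat_lit 333)) (XT.nd (nat_lit 78) (nat_lit 0) (nat_lit 0) (XT.lf (nat_lit 0) (nat_lit 326009486) (nat_lit 1900) (nat_lit 5460478969)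 (nat_lit 76) (nat_lit 1981865234) (nat_lit 490) (nat_lit 5) (nat_lit 515) (nat_lit 5) (nat_lit 491) (nat_lit 5) (nat_lit 423) (nat_lit 385) (nat_lit 332)) (XT.lf (nat_lit 0) (nat_lit 2663600285) (nat_lit 1900) (nat_lit 510602856) (nat_lit 76) (nat_lit 4653093967) (nat_lit 490) (nat_lit 5) (nat_lit 515) (nat_lit 5) (nat_lit 491) (nat_lit 5) (nat_lit 424) (nat_lit 385) (nat_lit 331))))) (XT.nd (nat_lit 156) (nat_lit 1824) (nat_lit 0) (XT.nd (nat_lit 78) (nat_lit 912) (nat_lit 0) (XT.lf (nat_lit 0) (nat_lit 4559225122) (nat_lit 1140) (nat_lit 477837175) (nat_lit 1216) (nat_lit 2850574712) (nat_lit 475) (nat_lit 5) (nat_lit 490) (nat_lit 5) (nat_lit 491) (nat_lit 5) (nat_lit 425) (nat_lit 385) (nat_lit 330)) (XT.lf (nat_lit 0) (nat_lit 1757131195) (nat_lit 912) (nat_lit 5690544134) (nat_lit 988) (nat_lit 501714744) (nat_lit 463) (nat_lit 5) (nat_lit 475) (nat_lit 5) (nat_lit 476) (nat_lit 5) (nat_lit 426) (nat_lit 385) (nat_lit 329))) (XT.nd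 (nat_lit 78) (nat_lit 1748) (nat_lit 0) (XT.lf (nat_lit 0) (nat_lit 1855266309) (nat_lit 988) (nat_lit 1077699825) (nat_lit 76) (nat_lit 5079446392) (nat_lit 462) (nat_lit 5) (nat_lit 475) (nat_lit 5) (nat_lit 463) (nat_lit 5) (nat_lit 427) (nat_lit 385) (nat_lit 328)) (XT.nd (nat_lit 78) (nat_lit 836) (nat_lit 0) (XT.lf (nat_lit 0) (nat_lit 4151391019) (nat_lit 912) (nat_lit 89353403) (nat_lit 988) (nat_lit 3836123173) (nat_lit 450) (nat_lit 5) (nat_lit 462) (nat_lit 5) (nat_lit 463) (nat_lit 5) (nat_lit 428) (nat_lit 385) (nat_lit 327)) (XT.lf (nat_lit 0) (nat_lit 1316782261) (nat_lit 836) (nat_lit 5352856348) (nat_lit 912) (nat_lit 1473059025) (nat_lit 439) (nat_lit 5) (nat_lit 450) (nat_lit 5) (nat_lit 451) (nat_lit 5) (nat_lit 429) (nat_lit 385) (nat_lit 326)))))) (XT.nd (nat_lit 390) (nat_lit 3116) (nat_lit 0) (XT.nd (nat_lit 156) (nat_lit 1748) (nat_lit 0) (XT.nd (nat_lit 78) (nat_lit 912) (nat_lit 0) (XT.lf (nat_lit 0) (nat_lit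 913955248) (nat_lit 912) (nat_lit 1538712373) (nat_lit 76) (nat_lit 5757275320) (nat_lit 438) (nat_lit 5) (nat_lit 450) (nat_lit 5) (nat_lit 439) (nat_lit 5) (nat_lit 430) (nat_lit 385) (nat_lit 325)) (XT.lf (nat_lit 0) (nat_lit 3320164554) (nat_lit 988) (nat_lit 4425897182) (nat_lit 76) (nat_lit 532453100) (nat_lit 426) (nat_lit 5) (nat_lit 439) (nat_lit 5) (nat_lit 427) (nat_lit 5) (nat_lit 431) (nat_lit 385) (nat_lit 324))) (XT.nd (nat_lit 78) (nat_lit 912) (nat_lit 0) (XT.lf (nat_lit 0) (nat_lit 981608612) (nat_lit 836) (nat_lit 4788991268) (nat_lit 912) (nat_lit 2577936253) (nat_lit 415) (nat_lit 5) (nat_lit 426) (nat_lit 5) (nat_lit 427) (nat_lit 5) (nat_lit 432) (nat_lit 385) (nat_lit 323)) (XT.nd (nat_lit 78) (nat_lit 912) (nat_lit 0) (XT.lf (nat_lit 0) (nat_lit 6518183079) (nat_lit 836) (nat_lit 1745122716) (nat_lit 912) (nat_lit 156786823) (nat_lit 415) (nat_lit 5) (nat_lit 426) (nat_lit 5) (nat_lit 427) (nat_lit 5) (nat_lit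 433) (nat_lit 385) (nat_lit 322)) (XT.lf (nat_lit 0) (nat_lit 2279365610) (nat_lit 912) (nat_lit 4835394636) (nat_lit 76) (nat_lit 1378081412) (nat_lit 403) (nat_lit 5) (nat_lit 415) (nat_lit 5) (nat_lit 404) (nat_lit 5) (nat_lit 434) (nat_lit 385) (nat_lit 321))))) (XT.nd (nat_lit 234) (nat_lit 1520) (nat_lit 0) (XT.nd (nat_lit 78) (nat_lit 836) (nat_lit 0) (XT.lf (nat_lit 0) (nat_lit 744847411) (nat_lit 760) (nat_lit 4011011705) (nat_lit 836) (nat_lit 3811291488) (nat_lit 393) (nat_lit 5) (nat_lit 403) (nat_lit 5) (nat_lit 404) (nat_lit 5) (nat_lit 435) (nat_lit 385) (nat_lit 320)) (XT.nd (nat_lit 78) (nat_lit 836) (nat_lit 0) (XT.lf (nat_lit 0) (nat_lit 6463274763) (nat_lit 760) (nat_lit 815974309) (nat_lit 836) (nat_lit 1363749323) (nat_lit 393) (nat_lit 5) (nat_lit 403) (nat_lit 5) (nat_lit 404) (nat_lit 5) (nat_lit 436) (nat_lit 385) (nat_lit 319)) (XT.lf (nat_lit 0) (nat_lit 1122525450) (nat_lit 836) (nat_lit 5159881577) (nat_lit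 76) (nat_lit 2437716268) (nat_lit 382) (nat_lit 5) (nat_lit 393) (nat_lit 5) (nat_lit 383) (nat_lit 5) (nat_lit 437) (nat_lit 385) (nat_lit 318)))) (XT.nd (nat_lit 78) (nat_lit 760) (nat_lit 0) (XT.lf (nat_lit 0) (nat_lit 600333512) (nat_lit 760) (nat_lit 3029754967) (nat_lit 836) (nat_lit 5168725459) (nat_lit 372) (nat_lit 5) (nat_lit 382) (nat_lit 5) (nat_lit 383) (nat_lit 5) (nat_lit 438) (nat_lit 385) (nat_lit 317)) (XT.nd (nat_lit 78) (nat_lit 760) (nat_lit 0) (XT.lf (nat_lit 0) (nat_lit 6190694440) (nat_lit 836) (nat_lit 2374237609) (nat_lit 76) (nat_lit 314088511) (nat_lit 372) (nat_lit 5) (nat_lit 383) (nat_lit 5) (nat_lit 373) (nat_lit 5) (nat_lit 439) (nat_lit 385) (nat_lit 316)) (XT.lf (nat_lit 0) (nat_lit 3554365813) (nat_lit 760) (nat_lit 5258119275) (nat_lit 836) (nat_lit 148146776) (nat_lit 362) (nat_lit 5) (nat_lit 372) (nat_lit 5) (nat_lit 373) (nat_lit 5) (nat_lit 440) (nat_lit 385) (nat_lit 315))))))))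
noncomputable def xc118 : XT := (XT.nd (nat_lit 1560) (nat_lit 6840) (nat_lit 0) (XT.nd (nat_lit 780) (nat_lit 3572) (nat_lit 0) (XT.nd (nat_lit 390) (nat_lit 2584) (nat_lit 0) (XT.nd (nat_lit 156) (nat_lit 1444) (nat_lit 0) (XT.nd (nat_lit 78) (nat_lit 0) (nat_lit 0) (XT.lf (nat_lit 0) (nat_lit 542456656) (nat_lit 684) (nat_lit 1854915725) (nat_lit 760) (nat_lit 6646454312) (nat_lit 352) (nat_lit 5) (nat_lit 361) (nat_lit 5) (nat_lit 362) (nat_lit 5) (nat_lit 441) (nat_lit 385) (nat_lit 314)) (XT.lf (nat_lit 0) (nat_lit 5006205324) (nat_lit 760) (nat_lit 2495455241) (nat_lit 76) (nat_lit 1626717527) (nat_lit 352) (nat_lit 5) (nat_lit 362) (nat_lit 5) (nat_lit 353) (nat_lit 5) (nat_lit 442) (nat_lit 385) (nat_lit 313))) (XT.nd (nat_lit 78) (nat_lit 760) (nat_lit 0) (XT.lf (nat_lit 0) (nat_lit 3627420077) (nat_lit 684) (nat_lit 4043642103) (nat_lit 760) (nat_lit 1543481395) (nat_lit 343) (nat_lit 5) (nat_lit 352) (nat_lit 5) (nat_lit 353)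 (nat_lit 5) (nat_lit 443) (nat_lit 385) (nat_lit 312)) (XT.nd (nat_lit 78) (nat_lit 0) (nat_lit 0) (XT.lf (nat_lit 0) (nat_lit 566122037) (nat_lit 684) (nat_lit 495122094) (nat_lit 760) (nat_lit 8241272841) (nat_lit 333) (nat_lit 5) (nat_lit 342) (nat_lit 5) (nat_lit 343) (nat_lit 5) (nat_lit 444) (nat_lit 385) (nat_lit 311)) (XT.lf (nat_lit 0) (nat_lit 3723953798) (nat_lit 760) (nat_lit 2543035690) (nat_lit 76) (nat_lit 3124525162) (nat_lit 333) (nat_lit 5) (nat_lit 343) (nat_lit 5) (nat_lit 334) (nat_lit 5) (nat_lit 445) (nat_lit 385) (nat_lit 310))))) (XT.nd (nat_lit 156) (nat_lit 1292) (nat_lit 0) (XT.nd (nat_lit 78) (nat_lit 608) (nat_lit 0) (XT.lf (nat_lit 0) (nat_lit 3782333830) (nat_lit 684) (nat_lit 2654548848) (nat_lit 760) (nat_lit 3045470304) (nat_lit 324) (nat_lit 5) (nat_lit 333) (nat_lit 5) (nat_lit 334) (nat_lit 5) (nat_lit 446) (nat_lit 385) (nat_lit 309)) (XT.lf (nat_lit 0) (nat_lit 657340447) (nat_lit 608) (nat_lit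 8544303562) (nat_lit 684) (nat_lit 373412595) (nat_lit 316) (nat_lit 5) (nat_lit 324) (nat_lit 5) (nat_lit 325) (nat_lit 5) (nat_lit 447) (nat_lit 385) (nat_lit 308))) (XT.nd (nat_lit 78) (nat_lit 1216) (nat_lit 0) (XT.lf (nat_lit 0) (nat_lit 2346911844) (nat_lit 684) (nat_lit 2521486879) (nat_lit 76) (nat_lit 4800396675) (nat_lit 315) (nat_lit 5) (nat_lit 324) (nat_lit 5) (nat_lit 316) (nat_lit 5) (nat_lit 448) (nat_lit 385) (nat_lit 307)) (XT.nd (nat_lit 78) (nat_lit 608) (nat_lit 0) (XT.lf (nat_lit 0) (nat_lit 4014963101) (nat_lit 608) (nat_lit 1097938799) (nat_lit 684) (nat_lit 4651532523) (nat_lit 307) (nat_lit 5) (nat_lit 315) (nat_lit 5) (nat_lit 316) (nat_lit 5) (nat_lit 449) (nat_lit 385) (nat_lit 306)) (XT.lf (nat_lit 0) (nat_lit 809157384) (nat_lit 608) (nat_lit 7135655735) (nat_lit 684) (nat_lit 1916961081) (nat_lit 299) (nat_lit 5) (nat_lit 307) (nat_lit 5) (nat_lit 308) (nat_lit 5) (nat_lit 450) (nat_lit 385) (nat_lit 305))))))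 (XT.nd (nat_lit 390) (nat_lit 1672) (nat_lit 0) (XT.nd (nat_lit 156) (nat_lit 1216) (nat_lit 0) (XT.nd (nat_lit 78) (nat_lit 608) (nat_lit 0) (XT.lf (nat_lit 0) (nat_lit 877583213) (nat_lit 684) (nat_lit 2434899543) (nat_lit 76) (nat_lit 6648130308) (nat_lit 298) (nat_lit 5) (nat_lit 307) (nat_lit 5) (nat_lit 299) (nat_lit 5) (nat_lit 451) (nat_lit 385) (nat_lit 304)) (XT.lf (nat_lit 0) (nat_lit 3705647599) (nat_lit 684) (nat_lit 5743622891) (nat_lit 76) (nat_lit 611838848) (nat_lit 290) (nat_lit 5) (nat_lit 299) (nat_lit 5) (nat_lit 291) (nat_lit 5) (nat_lit 452) (nat_lit 385) (nat_lit 303))) (XT.nd (nat_lit 78) (nat_lit 684) (nat_lit 0) (XT.lf (nat_lit 0) (nat_lit 1028249073) (nat_lit 532) (nat_lit 5578539650) (nat_lit 608) (nat_lit 3556496504) (nat_lit 283) (nat_lit 5) (nat_lit 290) (nat_lit 5) (nat_lit 291) (nat_lit 5) (nat_lit 453) (nat_lit 385) (nat_lit 302)) (XT.nd (nat_lit 78) (nat_lit 684) (nat_lit 0) (XT.lf (nat_lit 0) (nat_lit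 7975835136) (nat_lit 532) (nat_lit 1600430723) (nat_lit 608) (nat_lit 691032512) (nat_lit 283) (nat_lit 5) (nat_lit 290) (nat_lit 5) (nat_lit 291) (nat_lit 5) (nat_lit 454) (nat_lit 385) (nat_lit 301)) (XT.lf (nat_lit 0) (nat_lit 2221311485) (nat_lit 684) (nat_lit 5690335159) (nat_lit 76) (nat_lit 2461078528) (nat_lit 274) (nat_lit 5) (nat_lit 283) (nat_lit 5) (nat_lit 275) (nat_lit 5) (nat_lit 455) (nat_lit 385) (nat_lit 300))))) (XT.nd (nat_lit 156) (nat_lit 1140) (nat_lit 0) (XT.nd (nat_lit 78) (nat_lit 0) (nat_lit 0) (XT.lf (nat_lit 0) (nat_lit 1311291330) (nat_lit 532) (nat_lit 3878343967) (nat_lit 608) (nat_lit 5290394138) (nat_lit 267) (nat_lit 5) (nat_lit 274) (nat_lit 5) (nat_lit 275) (nat_lit 5) (nat_lit 456) (nat_lit 385) (nat_lit 299)) (XT.lf (nat_lit 0) (nat_lit 8229914838) (nat_lit 608) (nat_lit 2098108197) (nat_lit 76) (nat_lit 261204965) (nat_lit 267) (nat_lit 5) (nat_lit 275) (nat_lit 5) (nat_lit 268) (nat_lit 5) (nat_lit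 457) (nat_lit 385) (nat_lit 298))) (XT.nd (nat_lit 78) (nat_lit 532) (nat_lit 0) (XT.lf (nat_lit 0) (nat_lit 654409008) (nat_lit 608) (nat_lit 5585850043) (nat_lit 76) (nat_lit 4459623881) (nat_lit 259) (nat_lit 5) (nat_lit 267) (nat_lit 5) (nat_lit 260) (nat_lit 5) (nat_lit 458) (nat_lit 385) (nat_lit 297)) (XT.nd (nat_lit 78) (nat_lit 0) (nat_lit 0) (XT.lf (nat_lit 0) (nat_lit 1655312979) (nat_lit 532) (nat_lit 2039721341) (nat_lit 608) (nat_lit 7117440345) (nat_lit 252) (nat_lit 5) (nat_lit 259) (nat_lit 5) (nat_lit 260) (nat_lit 5) (nat_lit 459) (nat_lit 385) (nat_lit 296)) (XT.lf (nat_lit 0) (nat_lit 6822267257) (nat_lit 608) (nat_lit 1861659167) (nat_lit 76) (nat_lit 2242875906) (nat_lit 252) (nat_lit 5) (nat_lit 260) (nat_lit 5) (nat_lit 253) (nat_lit 5) (nat_lit 460) (nat_lit 385) (nat_lit 295))))))) (XT.nd (nat_lit 780) (nat_lit 3268) (nat_lit 0) (XT.nd (nat_lit 390) (nat_lit 1444) (nat_lit 0) (XT.nd (nat_lit 156) (nat_lit 1064)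 (nat_lit 0) (XT.nd (nat_lit 78) (nat_lit 532) (nat_lit 0) (XT.lf (nat_lit 0) (nat_lit 5603178679) (nat_lit 532) (nat_lit 4432761636) (nat_lit 608) (nat_lit 1006998324) (nat_lit 245) (nat_lit 5) (nat_lit 252) (nat_lit 5) (nat_lit 253) (nat_lit 5) (nat_lit 461) (nat_lit 385) (nat_lit 294)) (XT.lf (nat_lit 0) (nat_lit 2057672471) (nat_lit 456) (nat_lit 66633013) (nat_lit 532) (nat_lit 9036811749) (nat_lit 238) (nat_lit 5) (nat_lit 244) (nat_lit 5) (nat_lit 245) (nat_lit 5) (nat_lit 462) (nat_lit 385) (nat_lit 293))) (XT.nd (nat_lit 78) (nat_lit 1064) (nat_lit 0) (XT.lf (nat_lit 0) (nat_lit 5344304259) (nat_lit 532) (nat_lit 1574389111) (nat_lit 76) (nat_lit 4362041852) (nat_lit 238) (nat_lit 5) (nat_lit 245) (nat_lit 5) (nat_lit 239) (nat_lit 5) (nat_lit 463) (nat_lit 385) (nat_lit 292)) (XT.nd (nat_lit 78) (nat_lit 532) (nat_lit 0) (XT.lf (nat_lit 0) (nat_lit 6149320553) (nat_lit 532) (nat_lit 2494565340) (nat_lit 608) (nat_lit 2758556020)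 (nat_lit 231) (nat_lit 5) (nat_lit 238) (nat_lit 5) (nat_lit 239) (nat_lit 5) (nat_lit 464) (nat_lit 385) (nat_lit 291)) (XT.lf (nat_lit 0) (nat_lit 491655467) (nat_lit 532) (nat_lit 9023675468) (nat_lit 76) (nat_lit 2010886860) (nat_lit 224) (nat_lit 5) (nat_lit 231) (nat_lit 5) (nat_lit 225) (nat_lit 5) (nat_lit 465) (nat_lit 385) (nat_lit 290))))) (XT.nd (nat_lit 156) (nat_lit 988) (nat_lit 0) (XT.nd (nat_lit 78) (nat_lit 456) (nat_lit 0) (XT.lf (nat_lit 0) (nat_lit 3797071187) (nat_lit 532) (nat_lit 1238676475) (nat_lit 76) (nat_lit 6615814110) (nat_lit 224) (nat_lit 5) (nat_lit 231) (nat_lit 5) (nat_lit 225) (nat_lit 5) (nat_lit 466) (nat_lit 385) (nat_lit 289)) (XT.lf (nat_lit 0) (nat_lit 6754911727) (nat_lit 456) (nat_lit 433126721) (nat_lit 532) (nat_lit 4590985315) (nat_lit 218) (nat_lit 5) (nat_lit 224) (nat_lit 5) (nat_lit 225) (nat_lit 5) (nat_lit 467) (nat_lit 385) (nat_lit 288))) (XT.nd (nat_lit 78) (nat_lit 532) (nat_lit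 0) (XT.lf (nat_lit 0) (nat_lit 2991931716) (nat_lit 456) (nat_lit 7686115858) (nat_lit 532) (nat_lit 1230362970) (nat_lit 212) (nat_lit 5) (nat_lit 218) (nat_lit 5) (nat_lit 219) (nat_lit 5) (nat_lit 468) (nat_lit 385) (nat_lit 287)) (XT.nd (nat_lit 78) (nat_lit 456) (nat_lit 0) (XT.lf (nat_lit 0) (nat_lit 2181303548) (nat_lit 532) (nat_lit 856633032) (nat_lit 76) (nat_lit 9001910091) (nat_lit 211) (nat_lit 5) (nat_lit 218) (nat_lit 5) (nat_lit 212) (nat_lit 5) (nat_lit 469) (nat_lit 385) (nat_lit 286)) (XT.lf (nat_lit 0) (nat_lit 5680584326) (nat_lit 532) (nat_lit 4766318629) (nat_lit 76) (nat_lit 1726128804) (nat_lit 205) (nat_lit 5) (nat_lit 212) (nat_lit 5) (nat_lit 206) (nat_lit 5) (nat_lit 470) (nat_lit 385) (nat_lit 285)))))) (XT.nd (nat_lit 390) (nat_lit 1596) (nat_lit 0) (XT.nd (nat_lit 156) (nat_lit 1216) (nat_lit 0) (XT.nd (nat_lit 78) (nat_lit 76) (nat_lit 0) (XT.lf (nat_lit 0) (nat_lit 3528878318) (nat_lit 380) (nat_lit 5746270726)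 (nat_lit 456) (nat_lit 3033225537) (nat_lit 200) (nat_lit 5) (nat_lit 205) (nat_lit 5) (nat_lit 206) (nat_lit 5) (nat_lit 471) (nat_lit 385) (nat_lit 284)) (XT.lf (nat_lit 0) (nat_lit 497442418) (nat_lit 456) (nat_lit 430121235) (nat_lit 76) (nat_lit 11518621186) (nat_lit 199) (nat_lit 5) (nat_lit 205) (nat_lit 5) (nat_lit 200) (nat_lit 5) (nat_lit 472) (nat_lit 385) (nat_lit 283))) (XT.nd (nat_lit 78) (nat_lit 760) (nat_lit 0) (XT.lf (nat_lit 0) (nat_lit 4114299757) (nat_lit 532) (nat_lit 4473963748) (nat_lit 76) (nat_lit 3996962987) (nat_lit 193) (nat_lit 5) (nat_lit 200) (nat_lit 5) (nat_lit 194) (nat_lit 5) (nat_lit 473) (nat_lit 385) (nat_lit 282)) (XT.nd (nat_lit 78) (nat_lit 380) (nat_lit 0) (XT.lf (nat_lit 0) (nat_lit 4115171775) (nat_lit 380) (nat_lit 3701257850) (nat_lit 456) (nat_lit 4910360644) (nat_lit 188) (nat_lit 5) (nat_lit 193) (nat_lit 5) (nat_lit 194) (nat_lit 5) (nat_lit 474) (nat_lit 385) (nat_lit 281)) (XT.lf (nat_lit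 0) (nat_lit 22823468) (nat_lit 380) (nat_lit 11585793839) (nat_lit 456) (nat_lit 1262247711) (nat_lit 183) (nat_lit 5) (nat_lit 188) (nat_lit 5) (nat_lit 189) (nat_lit 5) (nat_lit 475) (nat_lit 385) (nat_lit 280))))) (XT.nd (nat_lit 234) (nat_lit 760) (nat_lit 0) (XT.nd (nat_lit 78) (nat_lit 760) (nat_lit 0) (XT.lf (nat_lit 0) (nat_lit 2486644348) (nat_lit 456) (nat_lit 4146001530) (nat_lit 76) (nat_lit 6383654801) (nat_lit 182) (nat_lit 5) (nat_lit 188) (nat_lit 5) (nat_lit 183) (nat_lit 5) (nat_lit 476) (nat_lit 385) (nat_lit 279)) (XT.nd (nat_lit 78) (nat_lit 380) (nat_lit 0) (XT.lf (nat_lit 0) (nat_lit 4749536176) (nat_lit 380) (nat_lit 1552754997) (nat_lit 456) (nat_lit 6862013441) (nat_lit 177) (nat_lit 5) (nat_lit 182) (nat_lit 5) (nat_lit 183) (nat_lit 5) (nat_lit 477) (nat_lit 385) (nat_lit 278)) (XT.lf (nat_lit 0) (nat_lit 512846722) (nat_lit 380) (nat_lit 9714258352) (nat_lit 456) (nat_lit 3087506471) (nat_lit 172) (nat_lit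 5) (nat_lit 177) (nat_lit 5) (nat_lit 178) (nat_lit 5) (nat_lit 478) (nat_lit 385) (nat_lit 277)))) (XT.nd (nat_lit 78) (nat_lit 684) (nat_lit 0) (XT.lf (nat_lit 0) (nat_lit 797637599) (nat_lit 456) (nat_lit 3783996307) (nat_lit 76) (nat_lit 8885288755) (nat_lit 171) (nat_lit 5) (nat_lit 177) (nat_lit 5) (nat_lit 172) (nat_lit 5) (nat_lit 479) (nat_lit 385) (nat_lit 276)) (XT.nd (nat_lit 78) (nat_lit 380) (nat_lit 0) (XT.lf (nat_lit 0) (nat_lit 4737428067) (nat_lit 380) (nat_lit 8195212910) (nat_lit 76) (nat_lit 688865149) (nat_lit 167) (nat_lit 5) (nat_lit 172) (nat_lit 5) (nat_lit 168) (nat_lit 5) (nat_lit 480) (nat_lit 385) (nat_lit 275)) (XT.lf (nat_lit 0) (nat_lit 1042455419) (nat_lit 380) (nat_lit 7754805982) (nat_lit 456) (nat_lit 4981094918) (nat_lit 162) (nat_lit 5) (nat_lit 167) (nat_lit 5) (nat_lit 168) (nat_lit 5) (nat_lit 481) (nat_lit 385) (nat_lit 274))))))))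
noncomputable def xc119 : XT := (XT.nd (nat_lit 1638) (nat_lit 532) (nat_lit 0) (XT.nd (nat_lit 780) (nat_lit 2432) (nat_lit 0) (XT.nd (nat_lit 390) (nat_lit 988) (nat_lit 0) (XT.nd (nat_lit 156) (nat_lit 760) (nat_lit 0) (XT.nd (nat_lit 78) (nat_lit 380) (nat_lit 0) (XT.lf (nat_lit 0) (nat_lit 10542075171) (nat_lit 380) (nat_lit 2429986492) (nat_lit 456) (nat_lit 965606448) (nat_lit 162) (nat_lit 5) (nat_lit 167) (nat_lit 5) (nat_lit 168) (nat_lit 5) (nat_lit 482) (nat_lit 385) (nat_lit 273)) (XT.lf (nat_lit 0) (nat_lit 3127982488) (nat_lit 380) (nat_lit 7960720168) (nat_lit 76) (nat_lit 3010280142) (nat_lit 157) (nat_lit 5) (nat_lit 162) (nat_lit 5) (nat_lit 158) (nat_lit 5) (nat_lit 483) (nat_lit 385) (nat_lit 272))) (XT.nd (nat_lit 78) (nat_lit 380) (nat_lit 0) (XT.lf (nat_lit 0) (nat_lit 1610623476) (nat_lit 380) (nat_lit 5708556976) (nat_lit 456) (nat_lit 6943642340) (nat_lit 152) (nat_lit 5) (nat_lit 157) (nat_lit 5) (nat_lit 158)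 (nat_lit 5) (nat_lit 484) (nat_lit 385) (nat_lit 271)) (XT.nd (nat_lit 78) (nat_lit 380) (nat_lit 0) (XT.lf (nat_lit 0) (nat_lit 11447907535) (nat_lit 380) (nat_lit 179074761) (nat_lit 456) (nat_lit 2802301690) (nat_lit 152) (nat_lit 5) (nat_lit 157) (nat_lit 5) (nat_lit 158) (nat_lit 5) (nat_lit 485) (nat_lit 385) (nat_lit 270)) (XT.lf (nat_lit 0) (nat_lit 1463585338) (nat_lit 380) (nat_lit 7702603198) (nat_lit 76) (nat_lit 5431493883) (nat_lit 147) (nat_lit 5) (nat_lit 152) (nat_lit 5) (nat_lit 148) (nat_lit 5) (nat_lit 486) (nat_lit 385) (nat_lit 269))))) (XT.nd (nat_lit 156) (nat_lit 684) (nat_lit 0) (XT.nd (nat_lit 78) (nat_lit 0) (nat_lit 0) (XT.lf (nat_lit 0) (nat_lit 2216505217) (nat_lit 304) (nat_lit 3576247805) (nat_lit 380) (nat_lit 8976015621) (nat_lit 143) (nat_lit 5) (nat_lit 147) (nat_lit 5) (nat_lit 148) (nat_lit 5) (nat_lit 487) (nat_lit 385) (nat_lit 268)) (XT.lf (nat_lit 0) (nat_lit 10254170146) (nat_lit 380) (nat_lit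 2551195760) (nat_lit 76) (nat_lit 2136997362) (nat_lit 143) (nat_lit 5) (nat_lit 148) (nat_lit 5) (nat_lit 144) (nat_lit 5) (nat_lit 488) (nat_lit 385) (nat_lit 267))) (XT.nd (nat_lit 78) (nat_lit 380) (nat_lit 0) (XT.lf (nat_lit 0) (nat_lit 7694559197) (nat_lit 304) (nat_lit 7164128900) (nat_lit 380) (nat_lit 259664240) (nat_lit 139) (nat_lit 5) (nat_lit 143) (nat_lit 5) (nat_lit 144) (nat_lit 5) (nat_lit 489) (nat_lit 385) (nat_lit 266)) (XT.nd (nat_lit 78) (nat_lit 0) (nat_lit 0) (XT.lf (nat_lit 0) (nat_lit 2859425334) (nat_lit 304) (nat_lit 1358249771) (nat_lit 380) (nat_lit 11079311701) (nat_lit 134) (nat_lit 5) (nat_lit 138) (nat_lit 5) (nat_lit 139) (nat_lit 5) (nat_lit 490) (nat_lit 385) (nat_lit 265)) (XT.lf (nat_lit 0) (nat_lit 8841237203) (nat_lit 380) (nat_lit 2093644943) (nat_lit 76) (nat_lit 4543074434) (nat_lit 134) (nat_lit 5) (nat_lit 139) (nat_lit 5) (nat_lit 135) (nat_lit 5) (nat_lit 491) (nat_lit 385) (nat_lit 264))))))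 (XT.nd (nat_lit 390) (nat_lit 1140) (nat_lit 0) (XT.nd (nat_lit 156) (nat_lit 608) (nat_lit 0) (XT.nd (nat_lit 78) (nat_lit 380) (nat_lit 0) (XT.lf (nat_lit 0) (nat_lit 8527935036) (nat_lit 304) (nat_lit 5074455697) (nat_lit 380) (nat_lit 2059252612) (nat_lit 130) (nat_lit 5) (nat_lit 134) (nat_lit 5) (nat_lit 135) (nat_lit 5) (nat_lit 492) (nat_lit 385) (nat_lit 263)) (XT.lf (nat_lit 0) (nat_lit 2599593763) (nat_lit 380) (nat_lit 12315575053) (nat_lit 76) (nat_lit 933014988) (nat_lit 125) (nat_lit 5) (nat_lit 130) (nat_lit 5) (nat_lit 126) (nat_lit 5) (nat_lit 493) (nat_lit 385) (nat_lit 262))) (XT.nd (nat_lit 78) (nat_lit 608) (nat_lit 0) (XT.lf (nat_lit 0) (nat_lit 7386749238) (nat_lit 380) (nat_lit 1608301593) (nat_lit 76) (nat_lit 7041877897) (nat_lit 125) (nat_lit 5) (nat_lit 130) (nat_lit 5) (nat_lit 126) (nat_lit 5) (nat_lit 494) (nat_lit 385) (nat_lit 261)) (XT.nd (nat_lit 78) (nat_lit 380) (nat_lit 0) (XT.lf (nat_lit 0) (nat_lit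 9404900313) (nat_lit 228) (nat_lit 2907071299) (nat_lit 304) (nat_lit 3916630462) (nat_lit 122) (nat_lit 5) (nat_lit 125) (nat_lit 5) (nat_lit 126) (nat_lit 5) (nat_lit 495) (nat_lit 385) (nat_lit 260)) (XT.lf (nat_lit 0) (nat_lit 941075958) (nat_lit 380) (nat_lit 12190770650) (nat_lit 76) (nat_lit 3291315064) (nat_lit 117) (nat_lit 5) (nat_lit 122) (nat_lit 5) (nat_lit 118) (nat_lit 5) (nat_lit 496) (nat_lit 385) (nat_lit 259))))) (XT.nd (nat_lit 234) (nat_lit 608) (nat_lit 0) (XT.nd (nat_lit 78) (nat_lit 532) (nat_lit 0) (XT.lf (nat_lit 0) (nat_lit 5890268905) (nat_lit 380) (nat_lit 1095771331) (nat_lit 76) (nat_lit 9634118927) (nat_lit 117) (nat_lit 5) (nat_lit 122) (nat_lit 5) (nat_lit 118) (nat_lit 5) (nat_lit 497) (nat_lit 385) (nat_lit 258)) (XT.nd (nat_lit 78) (nat_lit 304) (nat_lit 0) (XT.lf (nat_lit 0) (nat_lit 10325485742) (nat_lit 228) (nat_lit 661745996) (nat_lit 304) (nat_lit 5832889145) (nat_lit 114) (nat_lit 5) (nat_lit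 117) (nat_lit 5) (nat_lit 118) (nat_lit 5) (nat_lit 498) (nat_lit 385) (nat_lit 257)) (XT.lf (nat_lit 0) (nat_lit 4962396895) (nat_lit 304) (nat_lit 11282765085) (nat_lit 380) (nat_lit 777739294) (nat_lit 110) (nat_lit 5) (nat_lit 114) (nat_lit 5) (nat_lit 115) (nat_lit 5) (nat_lit 499) (nat_lit 385) (nat_lit 256)))) (XT.nd (nat_lit 78) (nat_lit 532) (nat_lit 0) (XT.lf (nat_lit 0) (nat_lit 4351199118) (nat_lit 380) (nat_lit 556532623) (nat_lit 76) (nat_lit 12320834757) (nat_lit 109) (nat_lit 5) (nat_lit 114) (nat_lit 5) (nat_lit 110) (nat_lit 5) (nat_lit 500) (nat_lit 385) (nat_lit 255)) (XT.nd (nat_lit 78) (nat_lit 304) (nat_lit 0) (XT.lf (nat_lit 0) (nat_lit 9638617405) (nat_lit 304) (nat_lit 6158048686) (nat_lit 76) (nat_lit 1640249817) (nat_lit 106) (nat_lit 5) (nat_lit 110) (nat_lit 5) (nat_lit 107) (nat_lit 5) (nat_lit 501) (nat_lit 385) (nat_lit 254)) (XT.lf (nat_lit 0) (nat_lit 5721035984) (nat_lit 304) (nat_lit 9366435576) (nat_lit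 380) (nat_lit 2560846996) (nat_lit 102) (nat_lit 5) (nat_lit 106) (nat_lit 5) (nat_lit 107) (nat_lit 5) (nat_lit 502) (nat_lit 385) (nat_lit 253))))))) (XT.nd (nat_lit 50778) (nat_lit 0) (nat_lit 48260) (XT.nd (nat_lit 50388) (nat_lit 0) (nat_lit 51300) (XT.nd (nat_lit 156) (nat_lit 228) (nat_lit 0) (XT.nd (nat_lit 78) (nat_lit 0) (nat_lit 0) (XT.lf (nat_lit 0) (nat_lit 9176773) (nat_lit 228) (nat_lit 2759671155) (nat_lit 304) (nat_lit 15094260714) (nat_lit 98) (nat_lit 5) (nat_lit 101) (nat_lit 5) (nat_lit 102) (nat_lit 5) (nat_lit 503) (nat_lit 385) (nat_lit 252)) (XT.lf (nat_lit 0) (nat_lit 8259663635) (nat_lit 304) (nat_lit 5808606194) (nat_lit 76) (nat_lit 4011809826) (nat_lit 98) (nat_lit 5) (nat_lit 102) (nat_lit 5) (nat_lit 99) (nat_lit 5) (nat_lit 504) (nat_lit 385) (nat_lit 251))) (XT.nd (nat_lit 50076) (nat_lit 0) (nat_lit 52440) (XT.lf (nat_lit 0) (nat_lit 6514663468) (nat_lit 228) (nat_lit 7388931533) (nat_lit 304) (nat_lit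 4396929100) (nat_lit 95) (nat_lit 5) (nat_lit 98) (nat_lit 5) (nat_lit 99) (nat_lit 5) (nat_lit 505) (nat_lit 385) (nat_lit 250)) (XT.nd (nat_lit 78) (nat_lit 0) (nat_lit 0) (XT.lf (nat_lit 0) (nat_lit 1522731172) (nat_lit 532) (nat_lit 866232092) (nat_lit 532) (nat_lit 866232092) (nat_lit 785) (nat_lit 3) (nat_lit 792) (nat_lit 3) (nat_lit 792) (nat_lit 5) (nat_lit 386) (nat_lit 386) (nat_lit 368)) (XT.lf (nat_lit 76) (nat_lit 1542967468) (nat_lit 0) (nat_lit 4185494307) (nat_lit 532) (nat_lit 793981951) (nat_lit 786) (nat_lit 5) (nat_lit 785) (nat_lit 3) (nat_lit 792) (nat_lit 5) (nat_lit 387) (nat_lit 386) (nat_lit 367))))) (XT.nd (nat_lit 156) (nat_lit 608) (nat_lit 0) (XT.nd (nat_lit 78) (nat_lit 0) (nat_lit 0) (XT.lf (nat_lit 0) (nat_lit 1846761236) (nat_lit 532) (nat_lit 1676474351) (nat_lit 608) (nat_lit 3012417640) (nat_lit 778) (nat_lit 5) (nat_lit 785) (nat_lit 3) (nat_lit 786) (nat_lit 5) (nat_lit 388) (nat_lit 386) (nat_lit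 366)) (XT.lf (nat_lit 76) (nat_lit 1673244423) (nat_lit 0) (nat_lit 2798682319) (nat_lit 608) (nat_lit 2078250434) (nat_lit 779) (nat_lit 5) (nat_lit 778) (nat_lit 5) (nat_lit 786) (nat_lit 5) (nat_lit 389) (nat_lit 386) (nat_lit 365))) (XT.nd (nat_lit 78) (nat_lit 0) (nat_lit 0) (XT.lf (nat_lit 0) (nat_lit 520292649) (nat_lit 608) (nat_lit 1492650260) (nat_lit 684) (nat_lit 4553105665) (nat_lit 770) (nat_lit 5) (nat_lit 778) (nat_lit 5) (nat_lit 779) (nat_lit 5) (nat_lit 390) (nat_lit 386) (nat_lit 364)) (XT.nd (nat_lit 78) (nat_lit 0) (nat_lit 0) (XT.lf (nat_lit 76) (nat_lit 1934955312) (nat_lit 0) (nat_lit 1153976606) (nat_lit 684) (nat_lit 3494111676) (nat_lit 771) (nat_lit 5) (nat_lit 770) (nat_lit 5) (nat_lit 779) (nat_lit 5) (nat_lit 391) (nat_lit 386) (nat_lit 363)) (XT.lf (nat_lit 76) (nat_lit 5415606343) (nat_lit 0) (nat_lit 237792709) (nat_lit 684) (nat_lit 948090360) (nat_lit 771) (nat_lit 5) (nat_lit 770) (nat_lit 5) (nat_lit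 779) (nat_lit 5) (nat_lit 392) (nat_lit 386) (nat_lit 362)))))) (XT.nd (nat_lit 390) (nat_lit 1672) (nat_lit 0) (XT.nd (nat_lit 156) (nat_lit 760) (nat_lit 0) (XT.nd (nat_lit 78) (nat_lit 0) (nat_lit 0) (XT.lf (nat_lit 0) (nat_lit 1582531209) (nat_lit 684) (nat_lit 4296449359) (nat_lit 760) (nat_lit 742003374) (nat_lit 762) (nat_lit 5) (nat_lit 771) (nat_lit 5) (nat_lit 772) (nat_lit 5) (nat_lit 393) (nat_lit 386) (nat_lit 361)) (XT.lf (nat_lit 0) (nat_lit 4097184910) (nat_lit 684) (nat_lit 764497794) (nat_lit 760) (nat_lit 1780138028) (nat_lit 762) (nat_lit 5) (nat_lit 771) (nat_lit 5) (nat_lit 772) (nat_lit 5) (nat_lit 394) (nat_lit 386) (nat_lit 360))) (XT.nd (nat_lit 78) (nat_lit 760) (nat_lit 0) (XT.lf (nat_lit 76) (nat_lit 2838935855) (nat_lit 0) (nat_lit 3779390217) (nat_lit 760) (nat_lit 45624298) (nat_lit 763) (nat_lit 5) (nat_lit 762) (nat_lit 5) (nat_lit 772) (nat_lit 5) (nat_lit 395) (nat_lit 386) (nat_lit 359)) (XT.nd (nat_lit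 78) (nat_lit 0) (nat_lit 0) (XT.lf (nat_lit 0) (nat_lit 2414041625) (nat_lit 760) (nat_lit 214876440) (nat_lit 836) (nat_lit 4058409339) (nat_lit 752) (nat_lit 5) (nat_lit 762) (nat_lit 5) (nat_lit 763) (nat_lit 5) (nat_lit 396) (nat_lit 386) (nat_lit 358)) (XT.lf (nat_lit 76) (nat_lit 3476512139) (nat_lit 0) (nat_lit 1407901316) (nat_lit 836) (nat_lit 1827510024) (nat_lit 753) (nat_lit 5) (nat_lit 752) (nat_lit 5) (nat_lit 763) (nat_lit 5) (nat_lit 397) (nat_lit 386) (nat_lit 357))))) (XT.nd (nat_lit 234) (nat_lit 836) (nat_lit 0) (XT.nd (nat_lit 78) (nat_lit 0) (nat_lit 76) (XT.lf (nat_lit 76) (nat_lit 472714302) (nat_lit 0) (nat_lit 130345974) (nat_lit 912) (nat_lit 6134971978) (nat_lit 742) (nat_lit 5) (nat_lit 741) (nat_lit 5) (nat_lit 753) (nat_lit 5) (nat_lit 398) (nat_lit 386) (nat_lit 356)) (XT.nd (nat_lit 78) (nat_lit 0) (nat_lit 0) (XT.lf (nat_lit 0) (nat_lit 3028454870) (nat_lit 836) (nat_lit 2523115530) (nat_lit 912) (nat_lit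 1213437543) (nat_lit 742) (nat_lit 5) (nat_lit 753) (nat_lit 5) (nat_lit 754) (nat_lit 5) (nat_lit 399) (nat_lit 386) (nat_lit 355)) (XT.lf (nat_lit 76) (nat_lit 1272616133) (nat_lit 0) (nat_lit 4181211164) (nat_lit 912) (nat_lit 1339666450) (nat_lit 743) (nat_lit 5) (nat_lit 742) (nat_lit 5) (nat_lit 754) (nat_lit 5) (nat_lit 400) (nat_lit 386) (nat_lit 354)))) (XT.nd (nat_lit 78) (nat_lit 0) (nat_lit 0) (XT.lf (nat_lit 0) (nat_lit 1050566194) (nat_lit 912) (nat_lit 1688691456) (nat_lit 988) (nat_lit 4083950055) (nat_lit 730) (nat_lit 5) (nat_lit 742) (nat_lit 5) (nat_lit 743) (nat_lit 5) (nat_lit 401) (nat_lit 386) (nat_lit 353)) (XT.nd (nat_lit 78) (nat_lit 0) (nat_lit 76) (XT.lf (nat_lit 76) (nat_lit 2203243577) (nat_lit 0) (nat_lit 1225722949) (nat_lit 988) (nat_lit 3425206290) (nat_lit 731) (nat_lit 5) (nat_lit 730) (nat_lit 5) (nat_lit 743) (nat_lit 5) (nat_lit 402) (nat_lit 386) (nat_lit 352)) (XT.lf (nat_lit 0) (nat_lit 5813366935)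 (nat_lit 912) (nat_lit 729662017) (nat_lit 76) (nat_lit 343559636) (nat_lit 731) (nat_lit 5) (nat_lit 743) (nat_lit 5) (nat_lit 732) (nat_lit 5) (nat_lit 403) (nat_lit 386) (nat_lit 351))))))))
noncomputable def xc120 : XT := (XT.nd (nat_lit 1560) (nat_lit 11248) (nat_lit 0) (XT.nd (nat_lit 780) (nat_lit 11400) (nat_lit 0) (XT.nd (nat_lit 390) (nat_lit 3800) (nat_lit 0) (XT.nd (nat_lit 156) (nat_lit 1140) (nat_lit 0) (XT.nd (nat_lit 78) (nat_lit 988) (nat_lit 0) (XT.lf (nat_lit 0) (nat_lit 1283623342) (nat_lit 988) (nat_lit 3660977652) (nat_lit 76) (nat_lit 1975375345) (nat_lit 718) (nat_lit 5) (nat_lit 731) (nat_lit 5) (nat_lit 719) (nat_lit 5) (nat_lit 404) (nat_lit 386) (nat_lit 350)) (XT.lf (nat_lit 0) (nat_lit 343127277) (nat_lit 988) (nat_lit 3283783107) (nat_lit 1064) (nat_lit 3327906070) (nat_lit 705) (nat_lit 5) (nat_lit 718) (nat_lit 5) (nat_lit 719) (nat_lit 5) (nat_lit 405) (nat_lit 386) (nat_lit 349))) (XT.nd (nat_lit 78)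 (nat_lit 1140) (nat_lit 0) (XT.lf (nat_lit 0) (nat_lit 4439564844) (nat_lit 988) (nat_lit 1549377155) (nat_lit 1064) (nat_lit 1001973795) (nat_lit 705) (nat_lit 5) (nat_lit 718) (nat_lit 5) (nat_lit 719) (nat_lit 5) (nat_lit 406) (nat_lit 386) (nat_lit 348)) (XT.nd (nat_lit 78) (nat_lit 0) (nat_lit 0) (XT.lf (nat_lit 0) (nat_lit 1312311436) (nat_lit 1140) (nat_lit 5465562611) (nat_lit 76) (nat_lit 250488946) (nat_lit 690) (nat_lit 5) (nat_lit 705) (nat_lit 5) (nat_lit 691) (nat_lit 5) (nat_lit 407) (nat_lit 386) (nat_lit 347)) (XT.lf (nat_lit 0) (nat_lit 3635846817) (nat_lit 1140) (nat_lit 1327611143) (nat_lit 76) (nat_lit 2103441097) (nat_lit 690) (nat_lit 5) (nat_lit 705) (nat_lit 5) (nat_lit 691) (nat_lit 5) (nat_lit 408) (nat_lit 386) (nat_lit 346))))) (XT.nd (nat_lit 156) (nat_lit 1368) (nat_lit 0) (XT.nd (nat_lit 78) (nat_lit 1292) (nat_lit 0) (XT.lf (nat_lit 0) (nat_lit 2893594805) (nat_lit 1140) (nat_lit 3080920988) (nat_lit 1216)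 (nat_lit 1132316792) (nat_lit 675) (nat_lit 5) (nat_lit 690) (nat_lit 5) (nat_lit 691) (nat_lit 5) (nat_lit 409) (nat_lit 386) (nat_lit 345)) (XT.lf (nat_lit 0) (nat_lit 24354364) (nat_lit 1216) (nat_lit 1131554297) (nat_lit 1292) (nat_lit 5992310369) (nat_lit 658) (nat_lit 5) (nat_lit 674) (nat_lit 5) (nat_lit 675) (nat_lit 5) (nat_lit 410) (nat_lit 386) (nat_lit 344))) (XT.nd (nat_lit 78) (nat_lit 1368) (nat_lit 0) (XT.lf (nat_lit 0) (nat_lit 3459868440) (nat_lit 1292) (nat_lit 2837979764) (nat_lit 76) (nat_lit 892732676) (nat_lit 658) (nat_lit 5) (nat_lit 675) (nat_lit 5) (nat_lit 659) (nat_lit 5) (nat_lit 411) (nat_lit 386) (nat_lit 343)) (XT.nd (nat_lit 78) (nat_lit 76) (nat_lit 0) (XT.lf (nat_lit 0) (nat_lit 1507991994) (nat_lit 1292) (nat_lit 4271253150) (nat_lit 1368) (nat_lit 1455158068) (nat_lit 641) (nat_lit 5) (nat_lit 658) (nat_lit 5) (nat_lit 659) (nat_lit 5) (nat_lit 412) (nat_lit 386) (nat_lit 342)) (XT.lf (nat_lit 0)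 (nat_lit 826157092) (nat_lit 1368) (nat_lit 1343413876) (nat_lit 76) (nat_lit 5109986459) (nat_lit 640) (nat_lit 5) (nat_lit 658) (nat_lit 5) (nat_lit 641) (nat_lit 5) (nat_lit 413) (nat_lit 386) (nat_lit 341)))))) (XT.nd (nat_lit 390) (nat_lit 6992) (nat_lit 0) (XT.nd (nat_lit 156) (nat_lit 1596) (nat_lit 0) (XT.nd (nat_lit 78) (nat_lit 1444) (nat_lit 0) (XT.lf (nat_lit 0) (nat_lit 3107353296) (nat_lit 1444) (nat_lit 4205045925) (nat_lit 76) (nat_lit 13548345) (nat_lit 622) (nat_lit 5) (nat_lit 641) (nat_lit 5) (nat_lit 623) (nat_lit 5) (nat_lit 414) (nat_lit 386) (nat_lit 340)) (XT.lf (nat_lit 0) (nat_lit 270473348) (nat_lit 1444) (nat_lit 5142995709) (nat_lit 1520) (nat_lit 1960210539) (nat_lit 603) (nat_lit 5) (nat_lit 622) (nat_lit 5) (nat_lit 623) (nat_lit 5) (nat_lit 415) (nat_lit 386) (nat_lit 339))) (XT.nd (nat_lit 78) (nat_lit 1520) (nat_lit 0) (XT.lf (nat_lit 0) (nat_lit 321693162) (nat_lit 1520) (nat_lit 2570342813) (nat_lit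 76) (nat_lit 4530628601) (nat_lit 602) (nat_lit 5) (nat_lit 622) (nat_lit 5) (nat_lit 603) (nat_lit 5) (nat_lit 416) (nat_lit 386) (nat_lit 338)) (XT.nd (nat_lit 78) (nat_lit 0) (nat_lit 0) (XT.lf (nat_lit 0) (nat_lit 2028935284) (nat_lit 1520) (nat_lit 562593622) (nat_lit 1596) (nat_lit 4881470388) (nat_lit 582) (nat_lit 5) (nat_lit 602) (nat_lit 5) (nat_lit 603) (nat_lit 5) (nat_lit 417) (nat_lit 386) (nat_lit 337)) (XT.lf (nat_lit 0) (nat_lit 4891914371) (nat_lit 1596) (nat_lit 819387247) (nat_lit 76) (nat_lit 1813336027) (nat_lit 582) (nat_lit 5) (nat_lit 603) (nat_lit 5) (nat_lit 583) (nat_lit 5) (nat_lit 418) (nat_lit 386) (nat_lit 336))))) (XT.nd (nat_lit 156) (nat_lit 3648) (nat_lit 0) (XT.nd (nat_lit 78) (nat_lit 1748) (nat_lit 0) (XT.lf (nat_lit 0) (nat_lit 3907516957) (nat_lit 1596) (nat_lit 3316765376) (nat_lit 1672) (nat_lit 353306935) (nat_lit 561) (nat_lit 5) (nat_lit 582) (nat_lit 5) (nat_lit 583) (nat_lit 5) (nat_lit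 419) (nat_lit 386) (nat_lit 335)) (XT.lf (nat_lit 0) (nat_lit 1071685373) (nat_lit 1672) (nat_lit 843845220) (nat_lit 1748) (nat_lit 5716419458) (nat_lit 538) (nat_lit 5) (nat_lit 560) (nat_lit 5) (nat_lit 561) (nat_lit 5) (nat_lit 420) (nat_lit 386) (nat_lit 334))) (XT.nd (nat_lit 78) (nat_lit 3648) (nat_lit 0) (XT.lf (nat_lit 0) (nat_lit 4218528573) (nat_lit 1748) (nat_lit 1781009488) (nat_lit 76) (nat_lit 1687942992) (nat_lit 538) (nat_lit 5) (nat_lit 561) (nat_lit 5) (nat_lit 539) (nat_lit 5) (nat_lit 421) (nat_lit 386) (nat_lit 333)) (XT.nd (nat_lit 78) (nat_lit 1900) (nat_lit 0) (XT.lf (nat_lit 0) (nat_lit 3090808371) (nat_lit 1748) (nat_lit 3461081831) (nat_lit 1824) (nat_lit 1192546399) (nat_lit 515) (nat_lit 5) (nat_lit 538) (nat_lit 5) (nat_lit 539) (nat_lit 5) (nat_lit 422) (nat_lit 386) (nat_lit 332)) (XT.lf (nat_lit 0) (nat_lit 239373577) (nat_lit 1824) (nat_lit 847730480) (nat_lit 1900) (nat_lit 6715829980) (nat_lit 490)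 (nat_lit 5) (nat_lit 514) (nat_lit 5) (nat_lit 515) (nat_lit 5) (nat_lit 423) (nat_lit 386) (nat_lit 331))))))) (XT.nd (nat_lit 780) (nat_lit 5472) (nat_lit 0) (XT.nd (nat_lit 390) (nat_lit 2736) (nat_lit 0) (XT.nd (nat_lit 156) (nat_lit 1900) (nat_lit 0) (XT.nd (nat_lit 78) (nat_lit 1140) (nat_lit 0) (XT.lf (nat_lit 0) (nat_lit 3399150177) (nat_lit 1900) (nat_lit 2627408395) (nat_lit 76) (nat_lit 1835829779) (nat_lit 490) (nat_lit 5) (nat_lit 515) (nat_lit 5) (nat_lit 491) (nat_lit 5) (nat_lit 424) (nat_lit 386) (nat_lit 330)) (XT.lf (nat_lit 0) (nat_lit 2395186776) (nat_lit 1140) (nat_lit 3343727344) (nat_lit 1216) (nat_lit 2184488094) (nat_lit 475) (nat_lit 5) (nat_lit 490) (nat_lit 5) (nat_lit 491) (nat_lit 5) (nat_lit 425) (nat_lit 386) (nat_lit 329))) (XT.nd (nat_lit 78) (nat_lit 1824) (nat_lit 0) (XT.lf (nat_lit 0) (nat_lit 116335992) (nat_lit 1216) (nat_lit 470811757) (nat_lit 76) (nat_lit 7398903786) (nat_lit 474) (nat_lit 5)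 (nat_lit 490) (nat_lit 5) (nat_lit 475) (nat_lit 5) (nat_lit 426) (nat_lit 386) (nat_lit 328)) (XT.nd (nat_lit 78) (nat_lit 912) (nat_lit 0) (XT.lf (nat_lit 0) (nat_lit 2440557120) (nat_lit 988) (nat_lit 3367296847) (nat_lit 76) (nat_lit 2241678470) (nat_lit 462) (nat_lit 5) (nat_lit 475) (nat_lit 5) (nat_lit 463) (nat_lit 5) (nat_lit 427) (nat_lit 386) (nat_lit 327)) (XT.lf (nat_lit 0) (nat_lit 1812244079) (nat_lit 912) (nat_lit 2979731571) (nat_lit 988) (nat_lit 3322693047) (nat_lit 450) (nat_lit 5) (nat_lit 462) (nat_lit 5) (nat_lit 463) (nat_lit 5) (nat_lit 428) (nat_lit 386) (nat_lit 326))))) (XT.nd (nat_lit 156) (nat_lit 1824) (nat_lit 0) (XT.nd (nat_lit 78) (nat_lit 912) (nat_lit 0) (XT.lf (nat_lit 0) (nat_lit 7103150610) (nat_lit 912) (nat_lit 72247865) (nat_lit 988) (nat_lit 1006009688) (nat_lit 450) (nat_lit 5) (nat_lit 462) (nat_lit 5) (nat_lit 463) (nat_lit 5) (nat_lit 429) (nat_lit 386) (nat_lit 325)) (XT.lf (nat_lit 0) (nat_lit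 1348764656) (nat_lit 912) (nat_lit 4008689645) (nat_lit 76) (nat_lit 2891660812) (nat_lit 438) (nat_lit 5) (nat_lit 450) (nat_lit 5) (nat_lit 439) (nat_lit 5) (nat_lit 430) (nat_lit 386) (nat_lit 324))) (XT.nd (nat_lit 78) (nat_lit 912) (nat_lit 0) (XT.lf (nat_lit 0) (nat_lit 1334276059) (nat_lit 912) (nat_lit 2382679181) (nat_lit 988) (nat_lit 4601492142) (nat_lit 426) (nat_lit 5) (nat_lit 438) (nat_lit 5) (nat_lit 439) (nat_lit 5) (nat_lit 431) (nat_lit 386) (nat_lit 323)) (XT.nd (nat_lit 78) (nat_lit 912) (nat_lit 0) (XT.lf (nat_lit 0) (nat_lit 6127634255) (nat_lit 988) (nat_lit 1593160242) (nat_lit 76) (nat_lit 668469309) (nat_lit 426) (nat_lit 5) (nat_lit 439) (nat_lit 5) (nat_lit 427) (nat_lit 5) (nat_lit 432) (nat_lit 386) (nat_lit 322)) (XT.lf (nat_lit 0) (nat_lit 129074875) (nat_lit 912) (nat_lit 4558955908) (nat_lit 76) (nat_lit 3773335850) (nat_lit 414) (nat_lit 5) (nat_lit 426) (nat_lit 5) (nat_lit 415) (nat_lit 5) (nat_lit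 433) (nat_lit 386) (nat_lit 321)))))) (XT.nd (nat_lit 390) (nat_lit 3040) (nat_lit 0) (XT.nd (nat_lit 156) (nat_lit 1596) (nat_lit 0) (XT.nd (nat_lit 78) (nat_lit 0) (nat_lit 0) (XT.lf (nat_lit 0) (nat_lit 954230734) (nat_lit 836) (nat_lit 1564809769) (nat_lit 912) (nat_lit 6015937422) (nat_lit 403) (nat_lit 5) (nat_lit 414) (nat_lit 5) (nat_lit 415) (nat_lit 5) (nat_lit 434) (nat_lit 386) (nat_lit 320)) (XT.lf (nat_lit 0) (nat_lit 4963296361) (nat_lit 912) (nat_lit 2019150582) (nat_lit 76) (nat_lit 1627484679) (nat_lit 403) (nat_lit 5) (nat_lit 415) (nat_lit 5) (nat_lit 404) (nat_lit 5) (nat_lit 435) (nat_lit 386) (nat_lit 319))) (XT.nd (nat_lit 78) (nat_lit 836) (nat_lit 0) (XT.lf (nat_lit 0) (nat_lit 3653532148) (nat_lit 760) (nat_lit 3802843754) (nat_lit 836) (nat_lit 1230009721) (nat_lit 393) (nat_lit 5) (nat_lit 403) (nat_lit 5) (nat_lit 404) (nat_lit 5) (nat_lit 436) (nat_lit 386) (nat_lit 318)) (XT.nd (nat_lit 78) (nat_lit 0)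 (nat_lit 0) (XT.lf (nat_lit 0) (nat_lit 665660743) (nat_lit 760) (nat_lit 537109710) (nat_lit 836) (nat_lit 7561757514) (nat_lit 382) (nat_lit 5) (nat_lit 392) (nat_lit 5) (nat_lit 393) (nat_lit 5) (nat_lit 437) (nat_lit 386) (nat_lit 317)) (XT.lf (nat_lit 0) (nat_lit 3686340393) (nat_lit 836) (nat_lit 2361997186) (nat_lit 76) (nat_lit 2795360893) (nat_lit 382) (nat_lit 5) (nat_lit 393) (nat_lit 5) (nat_lit 383) (nat_lit 5) (nat_lit 438) (nat_lit 386) (nat_lit 316))))) (XT.nd (nat_lit 234) (nat_lit 1444) (nat_lit 0) (XT.nd (nat_lit 78) (nat_lit 836) (nat_lit 0) (XT.lf (nat_lit 0) (nat_lit 3494336139) (nat_lit 760) (nat_lit 2718599698) (nat_lit 836) (nat_lit 2711649468) (nat_lit 372) (nat_lit 5) (nat_lit 382) (nat_lit 5) (nat_lit 383) (nat_lit 5) (nat_lit 439) (nat_lit 386) (nat_lit 315)) (XT.nd (nat_lit 78) (nat_lit 76) (nat_lit 0) (XT.lf (nat_lit 0) (nat_lit 456606525) (nat_lit 760) (nat_lit 8324257806) (nat_lit 836) (nat_lit 226409520)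 (nat_lit 362) (nat_lit 5) (nat_lit 372) (nat_lit 5) (nat_lit 373) (nat_lit 5) (nat_lit 440) (nat_lit 386) (nat_lit 314)) (XT.lf (nat_lit 0) (nat_lit 2300604846) (nat_lit 836) (nat_lit 2627411175) (nat_lit 76) (nat_lit 4162853446) (nat_lit 361) (nat_lit 5) (nat_lit 372) (nat_lit 5) (nat_lit 362) (nat_lit 5) (nat_lit 441) (nat_lit 386) (nat_lit 313)))) (XT.nd (nat_lit 78) (nat_lit 760) (nat_lit 0) (XT.lf (nat_lit 0) (nat_lit 3420318046) (nat_lit 684) (nat_lit 1445315081) (nat_lit 760) (nat_lit 4310663835) (nat_lit 352) (nat_lit 5) (nat_lit 361) (nat_lit 5) (nat_lit 362) (nat_lit 5) (nat_lit 442) (nat_lit 386) (nat_lit 312)) (XT.nd (nat_lit 78) (nat_lit 76) (nat_lit 0) (XT.lf (nat_lit 0) (nat_lit 314166052) (nat_lit 684) (nat_lit 7169902725) (nat_lit 760) (nat_lit 1779322091) (nat_lit 343) (nat_lit 5) (nat_lit 352) (nat_lit 5) (nat_lit 353) (nat_lit 5) (nat_lit 443) (nat_lit 386) (nat_lit 311)) (XT.lf (nat_lit 0) (nat_lit 809377934) (nat_lit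 760) (nat_lit 2820615672) (nat_lit 76) (nat_lit 5721783655) (nat_lit 342) (nat_lit 5) (nat_lit 352) (nat_lit 5) (nat_lit 343) (nat_lit 5) (nat_lit 444) (nat_lit 386) (nat_lit 310))))))))
noncomputable def xc121 : XT := (XT.nd (nat_lit 1560) (nat_lit 6004) (nat_lit 0) (XT.nd (nat_lit 780) (nat_lit 3952) (nat_lit 0) (XT.nd (nat_lit 390) (nat_lit 1824) (nat_lit 0) (XT.nd (nat_lit 156) (nat_lit 1292) (nat_lit 0) (XT.nd (nat_lit 78) (nat_lit 684) (nat_lit 0) (XT.lf (nat_lit 0) (nat_lit 3417771513) (nat_lit 760) (nat_lit 6015315705) (nat_lit 76) (nat_lit 8774043) (nat_lit 333) (nat_lit 5) (nat_lit 343) (nat_lit 5) (nat_lit 334) (nat_lit 5) (nat_lit 445) (nat_lit 386) (nat_lit 309)) (XT.lf (nat_lit 0) (nat_lit 245130461) (nat_lit 684) (nat_lit 5847620877) (nat_lit 760) (nat_lit 3440707237) (nat_lit 324) (nat_lit 5) (nat_lit 333) (nat_lit 5) (nat_lit 334) (nat_lit 5) (nat_lit 446) (nat_lit 386) (nat_lit 308))) (XT.nd (nat_lit 78) (nat_lit 1292)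 (nat_lit 0) (XT.lf (nat_lit 0) (nat_lit 6675135785) (nat_lit 684) (nat_lit 2156546872) (nat_lit 760) (nat_lit 794996138) (nat_lit 324) (nat_lit 5) (nat_lit 333) (nat_lit 5) (nat_lit 334) (nat_lit 5) (nat_lit 447) (nat_lit 386) (nat_lit 307)) (XT.nd (nat_lit 78) (nat_lit 608) (nat_lit 0) (XT.lf (nat_lit 0) (nat_lit 1882549983) (nat_lit 684) (nat_lit 6223494209) (nat_lit 76) (nat_lit 1615394293) (nat_lit 315) (nat_lit 5) (nat_lit 324) (nat_lit 5) (nat_lit 316) (nat_lit 5) (nat_lit 448) (nat_lit 386) (nat_lit 306)) (XT.lf (nat_lit 0) (nat_lit 245125046) (nat_lit 608) (nat_lit 4364469010) (nat_lit 684) (nat_lit 5208262372) (nat_lit 307) (nat_lit 5) (nat_lit 315) (nat_lit 5) (nat_lit 316) (nat_lit 5) (nat_lit 449) (nat_lit 386) (nat_lit 305))))) (XT.nd (nat_lit 156) (nat_lit 1140) (nat_lit 0) (XT.nd (nat_lit 78) (nat_lit 684) (nat_lit 0) (XT.lf (nat_lit 0) (nat_lit 6890577149) (nat_lit 608) (nat_lit 513469533) (nat_lit 684) (nat_lit 2511898694)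 (nat_lit 307) (nat_lit 5) (nat_lit 315) (nat_lit 5) (nat_lit 316) (nat_lit 5) (nat_lit 450) (nat_lit 386) (nat_lit 304)) (XT.lf (nat_lit 0) (nat_lit 252816315) (nat_lit 684) (nat_lit 6375467284) (nat_lit 76) (nat_lit 3387330536) (nat_lit 298) (nat_lit 5) (nat_lit 307) (nat_lit 5) (nat_lit 299) (nat_lit 5) (nat_lit 451) (nat_lit 386) (nat_lit 303))) (XT.nd (nat_lit 78) (nat_lit 532) (nat_lit 0) (XT.lf (nat_lit 0) (nat_lit 310183083) (nat_lit 608) (nat_lit 2726644632) (nat_lit 684) (nat_lit 7080163753) (nat_lit 290) (nat_lit 5) (nat_lit 298) (nat_lit 5) (nat_lit 299) (nat_lit 5) (nat_lit 452) (nat_lit 386) (nat_lit 302)) (XT.nd (nat_lit 78) (nat_lit 532) (nat_lit 0) (XT.lf (nat_lit 0) (nat_lit 5899735347) (nat_lit 684) (nat_lit 3049078707) (nat_lit 76) (nat_lit 1271117975) (nat_lit 290) (nat_lit 5) (nat_lit 299) (nat_lit 5) (nat_lit 291) (nat_lit 5) (nat_lit 453) (nat_lit 386) (nat_lit 301)) (XT.lf (nat_lit 0) (nat_lit 3839747691) (nat_lit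 532) (nat_lit 4995704061) (nat_lit 608) (nat_lit 1489168635) (nat_lit 283) (nat_lit 5) (nat_lit 290) (nat_lit 5) (nat_lit 291) (nat_lit 5) (nat_lit 454) (nat_lit 386) (nat_lit 300)))))) (XT.nd (nat_lit 390) (nat_lit 2128) (nat_lit 0) (XT.nd (nat_lit 156) (nat_lit 1140) (nat_lit 0) (XT.nd (nat_lit 78) (nat_lit 0) (nat_lit 0) (XT.lf (nat_lit 0) (nat_lit 436717278) (nat_lit 608) (nat_lit 939540215) (nat_lit 684) (nat_lit 9055041046) (nat_lit 274) (nat_lit 5) (nat_lit 282) (nat_lit 5) (nat_lit 283) (nat_lit 5) (nat_lit 455) (nat_lit 386) (nat_lit 299)) (XT.lf (nat_lit 0) (nat_lit 4316565067) (nat_lit 684) (nat_lit 3022232512) (nat_lit 76) (nat_lit 3200365549) (nat_lit 274) (nat_lit 5) (nat_lit 283) (nat_lit 5) (nat_lit 275) (nat_lit 5) (nat_lit 456) (nat_lit 386) (nat_lit 298))) (XT.nd (nat_lit 78) (nat_lit 608) (nat_lit 0) (XT.lf (nat_lit 0) (nat_lit 4101124471) (nat_lit 532) (nat_lit 3220861755) (nat_lit 608) (nat_lit 3327072633) (nat_lit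 267) (nat_lit 5) (nat_lit 274) (nat_lit 5) (nat_lit 275) (nat_lit 5) (nat_lit 457) (nat_lit 386) (nat_lit 297)) (XT.nd (nat_lit 78) (nat_lit 76) (nat_lit 0) (XT.lf (nat_lit 0) (nat_lit 612478136) (nat_lit 532) (nat_lit 9779473033) (nat_lit 608) (nat_lit 369112630) (nat_lit 260) (nat_lit 5) (nat_lit 267) (nat_lit 5) (nat_lit 268) (nat_lit 5) (nat_lit 458) (nat_lit 386) (nat_lit 296)) (XT.lf (nat_lit 0) (nat_lit 2652633221) (nat_lit 608) (nat_lit 2944725918) (nat_lit 76) (nat_lit 5276818732) (nat_lit 259) (nat_lit 5) (nat_lit 267) (nat_lit 5) (nat_lit 260) (nat_lit 5) (nat_lit 459) (nat_lit 386) (nat_lit 295))))) (XT.nd (nat_lit 156) (nat_lit 1064) (nat_lit 0) (XT.nd (nat_lit 78) (nat_lit 532) (nat_lit 0) (XT.lf (nat_lit 0) (nat_lit 4423149568) (nat_lit 532) (nat_lit 1309752918) (nat_lit 608) (nat_lit 5256542323) (nat_lit 252) (nat_lit 5) (nat_lit 259) (nat_lit 5) (nat_lit 260) (nat_lit 5) (nat_lit 460) (nat_lit 386) (nat_lit 294)) (XT.lf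 (nat_lit 0) (nat_lit 826660604) (nat_lit 532) (nat_lit 8067783720) (nat_lit 608) (nat_lit 2212179418) (nat_lit 245) (nat_lit 5) (nat_lit 252) (nat_lit 5) (nat_lit 253) (nat_lit 5) (nat_lit 461) (nat_lit 386) (nat_lit 293))) (XT.nd (nat_lit 78) (nat_lit 988) (nat_lit 0) (XT.lf (nat_lit 0) (nat_lit 909005934) (nat_lit 608) (nat_lit 2819483771) (nat_lit 76) (nat_lit 7496987620) (nat_lit 244) (nat_lit 5) (nat_lit 252) (nat_lit 5) (nat_lit 245) (nat_lit 5) (nat_lit 462) (nat_lit 386) (nat_lit 292)) (XT.nd (nat_lit 78) (nat_lit 532) (nat_lit 0) (XT.lf (nat_lit 0) (nat_lit 4074090170) (nat_lit 532) (nat_lit 6547736587) (nat_lit 76) (nat_lit 724366848) (nat_lit 238) (nat_lit 5) (nat_lit 245) (nat_lit 5) (nat_lit 239) (nat_lit 5) (nat_lit 463) (nat_lit 386) (nat_lit 291)) (XT.lf (nat_lit 0) (nat_lit 1092108851) (nat_lit 532) (nat_lit 6236505379) (nat_lit 608) (nat_lit 4140187220) (nat_lit 231) (nat_lit 5) (nat_lit 238) (nat_lit 5) (nat_lit 239)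 (nat_lit 5) (nat_lit 464) (nat_lit 386) (nat_lit 290))))))) (XT.nd (nat_lit 780) (nat_lit 3116) (nat_lit 0) (XT.nd (nat_lit 390) (nat_lit 1368) (nat_lit 0) (XT.nd (nat_lit 156) (nat_lit 988) (nat_lit 0) (XT.nd (nat_lit 78) (nat_lit 532) (nat_lit 0) (XT.lf (nat_lit 0) (nat_lit 8938313831) (nat_lit 532) (nat_lit 1729419256) (nat_lit 608) (nat_lit 925738276) (nat_lit 231) (nat_lit 5) (nat_lit 238) (nat_lit 5) (nat_lit 239) (nat_lit 5) (nat_lit 465) (nat_lit 386) (nat_lit 289)) (XT.lf (nat_lit 0) (nat_lit 2350920097) (nat_lit 532) (nat_lit 6499584766) (nat_lit 76) (nat_lit 2869248658) (nat_lit 224) (nat_lit 5) (nat_lit 231) (nat_lit 5) (nat_lit 225) (nat_lit 5) (nat_lit 466) (nat_lit 386) (nat_lit 288))) (XT.nd (nat_lit 78) (nat_lit 532) (nat_lit 0) (XT.lf (nat_lit 0) (nat_lit 1406530434) (nat_lit 456) (nat_lit 4288782462) (nat_lit 532) (nat_lit 6152834106) (nat_lit 218) (nat_lit 5) (nat_lit 224) (nat_lit 5) (nat_lit 225) (nat_lit 5) (nat_lit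 467) (nat_lit 386) (nat_lit 287)) (XT.nd (nat_lit 78) (nat_lit 532) (nat_lit 0) (XT.lf (nat_lit 0) (nat_lit 9129098677) (nat_lit 532) (nat_lit 2457192040) (nat_lit 76) (nat_lit 392367532) (nat_lit 218) (nat_lit 5) (nat_lit 225) (nat_lit 5) (nat_lit 219) (nat_lit 5) (nat_lit 468) (nat_lit 386) (nat_lit 286)) (XT.lf (nat_lit 0) (nat_lit 555347175) (nat_lit 532) (nat_lit 6415816854) (nat_lit 76) (nat_lit 5139700523) (nat_lit 211) (nat_lit 5) (nat_lit 218) (nat_lit 5) (nat_lit 212) (nat_lit 5) (nat_lit 469) (nat_lit 386) (nat_lit 285))))) (XT.nd (nat_lit 156) (nat_lit 912) (nat_lit 0) (XT.nd (nat_lit 78) (nat_lit 0) (nat_lit 0) (XT.lf (nat_lit 0) (nat_lit 1767894533) (nat_lit 456) (nat_lit 2227197983) (nat_lit 532) (nat_lit 8250147831) (nat_lit 205) (nat_lit 5) (nat_lit 211) (nat_lit 5) (nat_lit 212) (nat_lit 5) (nat_lit 470) (nat_lit 386) (nat_lit 284)) (XT.lf (nat_lit 0) (nat_lit 7540870291) (nat_lit 532) (nat_lit 2231160754) (nat_lit 76)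 (nat_lit 2609527863) (nat_lit 205) (nat_lit 5) (nat_lit 212) (nat_lit 5) (nat_lit 206) (nat_lit 5) (nat_lit 471) (nat_lit 386) (nat_lit 283))) (XT.nd (nat_lit 78) (nat_lit 532) (nat_lit 0) (XT.lf (nat_lit 0) (nat_lit 6212634315) (nat_lit 380) (nat_lit 4977409962) (nat_lit 456) (nat_lit 1329909951) (nat_lit 200) (nat_lit 5) (nat_lit 205) (nat_lit 5) (nat_lit 206) (nat_lit 5) (nat_lit 472) (nat_lit 386) (nat_lit 282)) (XT.nd (nat_lit 78) (nat_lit 0) (nat_lit 0) (XT.lf (nat_lit 0) (nat_lit 2174415113) (nat_lit 456) (nat_lit 53804859) (nat_lit 532) (nat_lit 10432471989) (nat_lit 193) (nat_lit 5) (nat_lit 199) (nat_lit 5) (nat_lit 200) (nat_lit 5) (nat_lit 473) (nat_lit 386) (nat_lit 281)) (XT.lf (nat_lit 0) (nat_lit 5892201075) (nat_lit 532) (nat_lit 1967726457) (nat_lit 76) (nat_lit 4943091183) (nat_lit 193) (nat_lit 5) (nat_lit 200) (nat_lit 5) (nat_lit 194) (nat_lit 5) (nat_lit 474) (nat_lit 386) (nat_lit 280)))))) (XT.nd (nat_lit 390)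 (nat_lit 1520) (nat_lit 0) (XT.nd (nat_lit 156) (nat_lit 760) (nat_lit 0) (XT.nd (nat_lit 78) (nat_lit 456) (nat_lit 0) (XT.lf (nat_lit 0) (nat_lit 6776114694) (nat_lit 380) (nat_lit 2875753725) (nat_lit 456) (nat_lit 3295875451) (nat_lit 188) (nat_lit 5) (nat_lit 193) (nat_lit 5) (nat_lit 194) (nat_lit 5) (nat_lit 475) (nat_lit 386) (nat_lit 279)) (XT.lf (nat_lit 0) (nat_lit 409167501) (nat_lit 456) (nat_lit 10485085706) (nat_lit 76) (nat_lit 2200600807) (nat_lit 182) (nat_lit 5) (nat_lit 188) (nat_lit 5) (nat_lit 183) (nat_lit 5) (nat_lit 476) (nat_lit 386) (nat_lit 278))) (XT.nd (nat_lit 78) (nat_lit 760) (nat_lit 0) (XT.lf (nat_lit 0) (nat_lit 4183214950) (nat_lit 456) (nat_lit 1668571149) (nat_lit 76) (nat_lit 7391903838) (nat_lit 182) (nat_lit 5) (nat_lit 188) (nat_lit 5) (nat_lit 183) (nat_lit 5) (nat_lit 477) (nat_lit 386) (nat_lit 277)) (XT.nd (nat_lit 78) (nat_lit 380) (nat_lit 0) (XT.lf (nat_lit 0) (nat_lit 7388032900) (nat_lit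 380) (nat_lit 671365004) (nat_lit 456) (nat_lit 5335571584) (nat_lit 177) (nat_lit 5) (nat_lit 182) (nat_lit 5) (nat_lit 183) (nat_lit 5) (nat_lit 478) (nat_lit 386) (nat_lit 276)) (XT.lf (nat_lit 0) (nat_lit 3076397447) (nat_lit 380) (nat_lit 8976714766) (nat_lit 456) (nat_lit 1495362264) (nat_lit 172) (nat_lit 5) (nat_lit 177) (nat_lit 5) (nat_lit 178) (nat_lit 5) (nat_lit 479) (nat_lit 386) (nat_lit 275))))) (XT.nd (nat_lit 234) (nat_lit 760) (nat_lit 0) (XT.nd (nat_lit 78) (nat_lit 684) (nat_lit 0) (XT.lf (nat_lit 0) (nat_lit 2413789582) (nat_lit 456) (nat_lit 1335181222) (nat_lit 76) (nat_lit 9955286326) (nat_lit 171) (nat_lit 5) (nat_lit 177) (nat_lit 5) (nat_lit 172) (nat_lit 5) (nat_lit 480) (nat_lit 386) (nat_lit 274)) (XT.nd (nat_lit 78) (nat_lit 380) (nat_lit 0) (XT.lf (nat_lit 0) (nat_lit 6423273572) (nat_lit 380) (nat_lit 5825519869) (nat_lit 76) (nat_lit 1613320869) (nat_lit 167) (nat_lit 5) (nat_lit 172) (nat_lit 5) (nat_lit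 168) (nat_lit 5) (nat_lit 481) (nat_lit 386) (nat_lit 273)) (XT.lf (nat_lit 0) (nat_lit 3580233423) (nat_lit 380) (nat_lit 6969213742) (nat_lit 456) (nat_lit 3472951470) (nat_lit 162) (nat_lit 5) (nat_lit 167) (nat_lit 5) (nat_lit 168) (nat_lit 5) (nat_lit 482) (nat_lit 386) (nat_lit 272)))) (XT.nd (nat_lit 78) (nat_lit 684) (nat_lit 0) (XT.lf (nat_lit 0) (nat_lit 583566664) (nat_lit 456) (nat_lit 968860028) (nat_lit 76) (nat_lit 12633011319) (nat_lit 161) (nat_lit 5) (nat_lit 167) (nat_lit 5) (nat_lit 162) (nat_lit 5) (nat_lit 483) (nat_lit 386) (nat_lit 271)) (XT.nd (nat_lit 78) (nat_lit 380) (nat_lit 0) (XT.lf (nat_lit 0) (nat_lit 4737700889) (nat_lit 380) (nat_lit 5623275438) (nat_lit 76) (nat_lit 3989042952) (nat_lit 157) (nat_lit 5) (nat_lit 162) (nat_lit 5) (nat_lit 158) (nat_lit 5) (nat_lit 484) (nat_lit 386) (nat_lit 270)) (XT.lf (nat_lit 0) (nat_lit 4123069690) (nat_lit 380) (nat_lit 4875419998) (nat_lit 456) (nat_lit 5518931047)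 (nat_lit 152) (nat_lit 5) (nat_lit 157) (nat_lit 5) (nat_lit 158) (nat_lit 5) (nat_lit 485) (nat_lit 386) (nat_lit 269))))))))
noncomputable def xc122 : XT := (XT.nd (nat_lit 51636) (nat_lit 0) (nat_lit 44992) (XT.nd (nat_lit 780) (nat_lit 1824) (nat_lit 0) (XT.nd (nat_lit 390) (nat_lit 1216) (nat_lit 0) (XT.nd (nat_lit 156) (nat_lit 684) (nat_lit 0) (XT.nd (nat_lit 78) (nat_lit 380) (nat_lit 0) (XT.lf (nat_lit 0) (nat_lit 13367234233) (nat_lit 456) (nat_lit 584188934) (nat_lit 76) (nat_lit 736292254) (nat_lit 152) (nat_lit 5) (nat_lit 158) (nat_lit 5) (nat_lit 153) (nat_lit 5) (nat_lit 486) (nat_lit 386) (nat_lit 268)) (XT.lf (nat_lit 0) (nat_lit 2997909362) (nat_lit 380) (nat_lit 5397180242) (nat_lit 76) (nat_lit 6464445417) (nat_lit 147) (nat_lit 5) (nat_lit 152) (nat_lit 5) (nat_lit 148) (nat_lit 5) (nat_lit 487) (nat_lit 386) (nat_lit 267))) (XT.nd (nat_lit 78) (nat_lit 380) (nat_lit 0) (XT.lf (nat_lit 0) (nat_lit 4704129584) (nat_lit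 304) (nat_lit 2695883472) (nat_lit 380) (nat_lit 7634302859) (nat_lit 143) (nat_lit 5) (nat_lit 147) (nat_lit 5) (nat_lit 148) (nat_lit 5) (nat_lit 488) (nat_lit 386) (nat_lit 266)) (XT.nd (nat_lit 78) (nat_lit 380) (nat_lit 0) (XT.lf (nat_lit 0) (nat_lit 11927474403) (nat_lit 380) (nat_lit 183649022) (nat_lit 76) (nat_lit 3100722691) (nat_lit 143) (nat_lit 5) (nat_lit 148) (nat_lit 5) (nat_lit 144) (nat_lit 5) (nat_lit 489) (nat_lit 386) (nat_lit 265)) (XT.lf (nat_lit 0) (nat_lit 1203283967) (nat_lit 380) (nat_lit 5148425703) (nat_lit 76) (nat_lit 9039750749) (nat_lit 138) (nat_lit 5) (nat_lit 143) (nat_lit 5) (nat_lit 139) (nat_lit 5) (nat_lit 490) (nat_lit 386) (nat_lit 264))))) (XT.nd (nat_lit 156) (nat_lit 608) (nat_lit 0) (XT.nd (nat_lit 78) (nat_lit 304) (nat_lit 0) (XT.lf (nat_lit 0) (nat_lit 5322802485) (nat_lit 304) (nat_lit 430797555) (nat_lit 380) (nat_lit 9820295073) (nat_lit 134) (nat_lit 5) (nat_lit 138) (nat_lit 5) (nat_lit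 139) (nat_lit 5) (nat_lit 491) (nat_lit 386) (nat_lit 263)) (XT.lf (nat_lit 0) (nat_lit 249143906) (nat_lit 304) (nat_lit 10199721376) (nat_lit 380) (nat_lit 5310034363) (nat_lit 130) (nat_lit 5) (nat_lit 134) (nat_lit 5) (nat_lit 135) (nat_lit 5) (nat_lit 492) (nat_lit 386) (nat_lit 262))) (XT.nd (nat_lit 78) (nat_lit 608) (nat_lit 0) (XT.lf (nat_lit 0) (nat_lit 11064220852) (nat_lit 304) (nat_lit 4226740043) (nat_lit 380) (nat_lit 655584870) (nat_lit 130) (nat_lit 5) (nat_lit 134) (nat_lit 5) (nat_lit 135) (nat_lit 5) (nat_lit 493) (nat_lit 386) (nat_lit 261)) (XT.nd (nat_lit 78) (nat_lit 228) (nat_lit 0) (XT.lf (nat_lit 0) (nat_lit 4071115877) (nat_lit 380) (nat_lit 10170836883) (nat_lit 76) (nat_lit 1894804116) (nat_lit 125) (nat_lit 5) (nat_lit 130) (nat_lit 5) (nat_lit 126) (nat_lit 5) (nat_lit 494) (nat_lit 386) (nat_lit 260)) (XT.lf (nat_lit 0) (nat_lit 713050504) (nat_lit 228) (nat_lit 8217759627) (nat_lit 304) (nat_lit 7398930653)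 (nat_lit 122) (nat_lit 5) (nat_lit 125) (nat_lit 5) (nat_lit 126) (nat_lit 5) (nat_lit 495) (nat_lit 386) (nat_lit 259)))))) (XT.nd (nat_lit 390) (nat_lit 836) (nat_lit 0) (XT.nd (nat_lit 156) (nat_lit 608) (nat_lit 0) (XT.nd (nat_lit 78) (nat_lit 380) (nat_lit 0) (XT.lf (nat_lit 0) (nat_lit 11921742516) (nat_lit 228) (nat_lit 2015996428) (nat_lit 304) (nat_lit 2587844612) (nat_lit 122) (nat_lit 5) (nat_lit 125) (nat_lit 5) (nat_lit 126) (nat_lit 5) (nat_lit 496) (nat_lit 386) (nat_lit 258)) (XT.lf (nat_lit 0) (nat_lit 2342673610) (nat_lit 380) (nat_lit 10081499539) (nat_lit 76) (nat_lit 4299796234) (nat_lit 117) (nat_lit 5) (nat_lit 122) (nat_lit 5) (nat_lit 118) (nat_lit 5) (nat_lit 497) (nat_lit 386) (nat_lit 257))) (XT.nd (nat_lit 78) (nat_lit 380) (nat_lit 0) (XT.lf (nat_lit 0) (nat_lit 1205065464) (nat_lit 228) (nat_lit 6166495778) (nat_lit 304) (nat_lit 9553731366) (nat_lit 114) (nat_lit 5) (nat_lit 117) (nat_lit 5) (nat_lit 118)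 (nat_lit 5) (nat_lit 498) (nat_lit 386) (nat_lit 256)) (XT.nd (nat_lit 78) (nat_lit 380) (nat_lit 0) (XT.lf (nat_lit 0) (nat_lit 12552708699) (nat_lit 304) (nat_lit 4307649723) (nat_lit 76) (nat_lit 269250232) (nat_lit 114) (nat_lit 5) (nat_lit 118) (nat_lit 5) (nat_lit 115) (nat_lit 5) (nat_lit 499) (nat_lit 386) (nat_lit 255)) (XT.lf (nat_lit 0) (nat_lit 564532121) (nat_lit 380) (nat_lit 9981375436) (nat_lit 76) (nat_lit 6790606313) (nat_lit 109) (nat_lit 5) (nat_lit 114) (nat_lit 5) (nat_lit 110) (nat_lit 5) (nat_lit 500) (nat_lit 386) (nat_lit 254))))) (XT.nd (nat_lit 156) (nat_lit 608) (nat_lit 0) (XT.nd (nat_lit 78) (nat_lit 0) (nat_lit 0) (XT.lf (nat_lit 0) (nat_lit 1724749714) (nat_lit 228) (nat_lit 4045673573) (nat_lit 304) (nat_lit 11776070537) (nat_lit 106) (nat_lit 5) (nat_lit 109) (nat_lit 5) (nat_lit 110) (nat_lit 5) (nat_lit 501) (nat_lit 386) (nat_lit 253)) (XT.lf (nat_lit 0) (nat_lit 11147266112) (nat_lit 304) (nat_lit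 4006291462) (nat_lit 76) (nat_lit 2605779125) (nat_lit 106) (nat_lit 5) (nat_lit 110) (nat_lit 5) (nat_lit 107) (nat_lit 5) (nat_lit 502) (nat_lit 386) (nat_lit 252))) (XT.nd (nat_lit 78) (nat_lit 304) (nat_lit 0) (XT.lf (nat_lit 0) (nat_lit 8095408334) (nat_lit 304) (nat_lit 8598560623) (nat_lit 380) (nat_lit 1281221011) (nat_lit 102) (nat_lit 5) (nat_lit 106) (nat_lit 5) (nat_lit 107) (nat_lit 5) (nat_lit 503) (nat_lit 386) (nat_lit 251)) (XT.nd (nat_lit 78) (nat_lit 0) (nat_lit 0) (XT.lf (nat_lit 0) (nat_lit 2271783250) (nat_lit 228) (nat_lit 1854766749) (nat_lit 304) (nat_lit 14067774314) (nat_lit 98) (nat_lit 5) (nat_lit 101) (nat_lit 5) (nat_lit 102) (nat_lit 5) (nat_lit 504) (nat_lit 386) (nat_lit 250)) (XT.lf (nat_lit 0) (nat_lit 9707757598) (nat_lit 304) (nat_lit 3687292189) (nat_lit 76) (nat_lit 5020973447) (nat_lit 98) (nat_lit 5) (nat_lit 102) (nat_lit 5) (nat_lit 99) (nat_lit 5) (nat_lit 505) (nat_lit 386) (nat_lit 249)))))))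 (XT.nd (nat_lit 780) (nat_lit 4636) (nat_lit 0) (XT.nd (nat_lit 390) (nat_lit 1444) (nat_lit 0) (XT.nd (nat_lit 156) (nat_lit 608) (nat_lit 0) (XT.nd (nat_lit 78) (nat_lit 0) (nat_lit 0) (XT.lf (nat_lit 0) (nat_lit 452385931) (nat_lit 0) (nat_lit 452385931) (nat_lit 532) (nat_lit 2362782681) (nat_lit 778) (nat_lit 5) (nat_lit 778) (nat_lit 3) (nat_lit 785) (nat_lit 3) (nat_lit 387) (nat_lit 387) (nat_lit 366)) (XT.lf (nat_lit 0) (nat_lit 4203248290) (nat_lit 0) (nat_lit 198059297) (nat_lit 532) (nat_lit 2147679222) (nat_lit 778) (nat_lit 5) (nat_lit 778) (nat_lit 3) (nat_lit 785) (nat_lit 3) (nat_lit 388) (nat_lit 387) (nat_lit 365))) (XT.nd (nat_lit 78) (nat_lit 0) (nat_lit 0) (XT.lf (nat_lit 0) (nat_lit 417524510) (nat_lit 608) (nat_lit 5588369907) (nat_lit 684) (nat_lit 558343545) (nat_lit 770) (nat_lit 5) (nat_lit 778) (nat_lit 5) (nat_lit 779) (nat_lit 5) (nat_lit 389) (nat_lit 387) (nat_lit 364)) (XT.nd (nat_lit 78) (nat_lit 0)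 (nat_lit 0) (XT.lf (nat_lit 0) (nat_lit 2955822882) (nat_lit 608) (nat_lit 2235390996) (nat_lit 684) (nat_lit 1389285375) (nat_lit 770) (nat_lit 5) (nat_lit 778) (nat_lit 5) (nat_lit 779) (nat_lit 5) (nat_lit 390) (nat_lit 387) (nat_lit 363)) (XT.lf (nat_lit 76) (nat_lit 1164650913) (nat_lit 0) (nat_lit 4322468652) (nat_lit 684) (nat_lit 1111121560) (nat_lit 771) (nat_lit 5) (nat_lit 770) (nat_lit 5) (nat_lit 779) (nat_lit 5) (nat_lit 391) (nat_lit 387) (nat_lit 362))))) (XT.nd (nat_lit 156) (nat_lit 760) (nat_lit 0) (XT.nd (nat_lit 78) (nat_lit 0) (nat_lit 0) (XT.lf (nat_lit 0) (nat_lit 1384050321) (nat_lit 684) (nat_lit 1998473096) (nat_lit 760) (nat_lit 3234617808) (nat_lit 761) (nat_lit 5) (nat_lit 770) (nat_lit 5) (nat_lit 771) (nat_lit 5) (nat_lit 392) (nat_lit 387) (nat_lit 361)) (XT.lf (nat_lit 76) (nat_lit 1482232602) (nat_lit 0) (nat_lit 2378219783) (nat_lit 760) (nat_lit 2776895960) (nat_lit 762) (nat_lit 5) (nat_lit 761) (nat_lit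 5) (nat_lit 771) (nat_lit 5) (nat_lit 393) (nat_lit 387) (nat_lit 360))) (XT.nd (nat_lit 78) (nat_lit 760) (nat_lit 0) (XT.lf (nat_lit 76) (nat_lit 5024678705) (nat_lit 0) (nat_lit 1312698485) (nat_lit 760) (nat_lit 321562523) (nat_lit 762) (nat_lit 5) (nat_lit 761) (nat_lit 5) (nat_lit 771) (nat_lit 5) (nat_lit 394) (nat_lit 387) (nat_lit 359)) (XT.nd (nat_lit 78) (nat_lit 0) (nat_lit 76) (XT.lf (nat_lit 76) (nat_lit 1933094435) (nat_lit 0) (nat_lit 172107737) (nat_lit 836) (nat_lit 4576458215) (nat_lit 752) (nat_lit 5) (nat_lit 751) (nat_lit 5) (nat_lit 762) (nat_lit 5) (nat_lit 395) (nat_lit 387) (nat_lit 358)) (XT.lf (nat_lit 0) (nat_lit 4533227091) (nat_lit 760) (nat_lit 1155549827) (nat_lit 836) (nat_lit 1016875432) (nat_lit 752) (nat_lit 5) (nat_lit 762) (nat_lit 5) (nat_lit 763) (nat_lit 5) (nat_lit 396) (nat_lit 387) (nat_lit 357)))))) (XT.nd (nat_lit 390) (nat_lit 2964) (nat_lit 0) (XT.nd (nat_lit 156) (nat_lit 912) (nat_lit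 0) (XT.nd (nat_lit 78) (nat_lit 0) (nat_lit 0) (XT.lf (nat_lit 0) (nat_lit 233886609) (nat_lit 836) (nat_lit 4226987425) (nat_lit 912) (nat_lit 2270056471) (nat_lit 741) (nat_lit 5) (nat_lit 752) (nat_lit 5) (nat_lit 753) (nat_lit 5) (nat_lit 397) (nat_lit 387) (nat_lit 356)) (XT.lf (nat_lit 0) (nat_lit 2608351749) (nat_lit 836) (nat_lit 554788823) (nat_lit 912) (nat_lit 3594304140) (nat_lit 741) (nat_lit 5) (nat_lit 752) (nat_lit 5) (nat_lit 753) (nat_lit 5) (nat_lit 398) (nat_lit 387) (nat_lit 355))) (XT.nd (nat_lit 78) (nat_lit 912) (nat_lit 0) (XT.lf (nat_lit 76) (nat_lit 3197414853) (nat_lit 0) (nat_lit 1796085308) (nat_lit 912) (nat_lit 1791725165) (nat_lit 742) (nat_lit 5) (nat_lit 741) (nat_lit 5) (nat_lit 753) (nat_lit 5) (nat_lit 399) (nat_lit 387) (nat_lit 354)) (XT.nd (nat_lit 78) (nat_lit 0) (nat_lit 76) (XT.lf (nat_lit 76) (nat_lit 181169713) (nat_lit 0) (nat_lit 371466827) (nat_lit 988) (nat_lit 6261887770) (nat_lit 730)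 (nat_lit 5) (nat_lit 729) (nat_lit 5) (nat_lit 742) (nat_lit 5) (nat_lit 400) (nat_lit 387) (nat_lit 353)) (XT.lf (nat_lit 0) (nat_lit 2895154480) (nat_lit 912) (nat_lit 2825731276) (nat_lit 988) (nat_lit 1123781447) (nat_lit 730) (nat_lit 5) (nat_lit 742) (nat_lit 5) (nat_lit 743) (nat_lit 5) (nat_lit 401) (nat_lit 387) (nat_lit 352))))) (XT.nd (nat_lit 234) (nat_lit 2052) (nat_lit 0) (XT.nd (nat_lit 78) (nat_lit 988) (nat_lit 0) (XT.lf (nat_lit 76) (nat_lit 1032936695) (nat_lit 0) (nat_lit 4205830563) (nat_lit 988) (nat_lit 1637560808) (nat_lit 731) (nat_lit 5) (nat_lit 730) (nat_lit 5) (nat_lit 743) (nat_lit 5) (nat_lit 402) (nat_lit 387) (nat_lit 351)) (XT.nd (nat_lit 78) (nat_lit 0) (nat_lit 0) (XT.lf (nat_lit 0) (nat_lit 675829908) (nat_lit 988) (nat_lit 1942645963) (nat_lit 1064) (nat_lit 4290759679) (nat_lit 717) (nat_lit 5) (nat_lit 730) (nat_lit 5) (nat_lit 731) (nat_lit 5) (nat_lit 403) (nat_lit 387) (nat_lit 350)) (XT.lf (nat_lit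 76) (nat_lit 2015745431) (nat_lit 0) (nat_lit 957554744) (nat_lit 1064) (nat_lit 3970089749) (nat_lit 718) (nat_lit 5) (nat_lit 717) (nat_lit 5) (nat_lit 731) (nat_lit 5) (nat_lit 404) (nat_lit 387) (nat_lit 349)))) (XT.nd (nat_lit 78) (nat_lit 2128) (nat_lit 0) (XT.lf (nat_lit 0) (nat_lit 5282179162) (nat_lit 988) (nat_lit 940082460) (nat_lit 76) (nat_lit 756656577) (nat_lit 718) (nat_lit 5) (nat_lit 731) (nat_lit 5) (nat_lit 719) (nat_lit 5) (nat_lit 405) (nat_lit 387) (nat_lit 348)) (XT.nd (nat_lit 78) (nat_lit 1064) (nat_lit 0) (XT.lf (nat_lit 0) (nat_lit 588974335) (nat_lit 1064) (nat_lit 3893805269) (nat_lit 76) (nat_lit 2532795571) (nat_lit 704) (nat_lit 5) (nat_lit 718) (nat_lit 5) (nat_lit 705) (nat_lit 5) (nat_lit 406) (nat_lit 387) (nat_lit 347)) (XT.lf (nat_lit 0) (nat_lit 179234366) (nat_lit 1064) (nat_lit 2675005761) (nat_lit 1140) (nat_lit 4199369705) (nat_lit 690) (nat_lit 5) (nat_lit 704) (nat_lit 5) (nat_lit 705) (nat_lit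 5) (nat_lit 407) (nat_lit 387) (nat_lit 346))))))))
noncomputable def xc123 : XT := (XT.nd (nat_lit 1638) (nat_lit 11172) (nat_lit 0) (XT.nd (nat_lit 780) (nat_lit 9120) (nat_lit 0) (XT.nd (nat_lit 390) (nat_lit 5776) (nat_lit 0) (XT.nd (nat_lit 156) (nat_lit 1216) (nat_lit 0) (XT.nd (nat_lit 78) (nat_lit 1216) (nat_lit 0) (XT.lf (nat_lit 0) (nat_lit 4350156018) (nat_lit 1064) (nat_lit 790570502) (nat_lit 1140) (nat_lit 1952160356) (nat_lit 690) (nat_lit 5) (nat_lit 704) (nat_lit 5) (nat_lit 705) (nat_lit 5) (nat_lit 408) (nat_lit 387) (nat_lit 345)) (XT.lf (nat_lit 0) (nat_lit 302916204) (nat_lit 1216) (nat_lit 5689140259) (nat_lit 76) (nat_lit 1141501206) (nat_lit 674) (nat_lit 5) (nat_lit 690) (nat_lit 5) (nat_lit 675) (nat_lit 5) (nat_lit 409) (nat_lit 387) (nat_lit 344))) (XT.nd (nat_lit 78) (nat_lit 1216) (nat_lit 0) (XT.lf (nat_lit 0) (nat_lit 2552006593) (nat_lit 1216) (nat_lit 1477598607) (nat_lit 76) (nat_lit 3145677570) (nat_lit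 674) (nat_lit 5) (nat_lit 690) (nat_lit 5) (nat_lit 675) (nat_lit 5) (nat_lit 410) (nat_lit 387) (nat_lit 343)) (XT.nd (nat_lit 78) (nat_lit 0) (nat_lit 0) (XT.lf (nat_lit 0) (nat_lit 2818743928) (nat_lit 1216) (nat_lit 1997856276) (nat_lit 1292) (nat_lit 2401831739) (nat_lit 658) (nat_lit 5) (nat_lit 674) (nat_lit 5) (nat_lit 675) (nat_lit 5) (nat_lit 411) (nat_lit 387) (nat_lit 342)) (XT.lf (nat_lit 0) (nat_lit 7089943946) (nat_lit 1292) (nat_lit 78924050) (nat_lit 76) (nat_lit 94306939) (nat_lit 658) (nat_lit 5) (nat_lit 675) (nat_lit 5) (nat_lit 659) (nat_lit 5) (nat_lit 412) (nat_lit 387) (nat_lit 341))))) (XT.nd (nat_lit 156) (nat_lit 3040) (nat_lit 0) (XT.nd (nat_lit 78) (nat_lit 1368) (nat_lit 0) (XT.lf (nat_lit 0) (nat_lit 2067663842) (nat_lit 1368) (nat_lit 2987067909) (nat_lit 76) (nat_lit 2253903087) (nat_lit 640) (nat_lit 5) (nat_lit 658) (nat_lit 5) (nat_lit 641) (nat_lit 5) (nat_lit 413) (nat_lit 387) (nat_lit 340)) (XT.lf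 (nat_lit 0) (nat_lit 1437030172) (nat_lit 1368) (nat_lit 2878175037) (nat_lit 1444) (nat_lit 3040492865) (nat_lit 622) (nat_lit 5) (nat_lit 640) (nat_lit 5) (nat_lit 641) (nat_lit 5) (nat_lit 414) (nat_lit 387) (nat_lit 339))) (XT.nd (nat_lit 78) (nat_lit 3040) (nat_lit 0) (XT.lf (nat_lit 0) (nat_lit 5953532659) (nat_lit 1368) (nat_lit 629151287) (nat_lit 1444) (nat_lit 821518899) (nat_lit 622) (nat_lit 5) (nat_lit 640) (nat_lit 5) (nat_lit 641) (nat_lit 5) (nat_lit 415) (nat_lit 387) (nat_lit 338)) (XT.nd (nat_lit 78) (nat_lit 1520) (nat_lit 0) (XT.lf (nat_lit 0) (nat_lit 1409651502) (nat_lit 1520) (nat_lit 4363472174) (nat_lit 76) (nat_lit 1680632270) (nat_lit 602) (nat_lit 5) (nat_lit 622) (nat_lit 5) (nat_lit 603) (nat_lit 5) (nat_lit 416) (nat_lit 387) (nat_lit 337)) (XT.lf (nat_lit 0) (nat_lit 193351534) (nat_lit 1520) (nat_lit 3452544160) (nat_lit 1596) (nat_lit 3858866801) (nat_lit 582) (nat_lit 5) (nat_lit 602) (nat_lit 5) (nat_lit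 603) (nat_lit 5) (nat_lit 417) (nat_lit 387) (nat_lit 336)))))) (XT.nd (nat_lit 390) (nat_lit 4028) (nat_lit 0) (XT.nd (nat_lit 156) (nat_lit 3420) (nat_lit 0) (XT.nd (nat_lit 78) (nat_lit 1672) (nat_lit 0) (XT.lf (nat_lit 0) (nat_lit 4863575635) (nat_lit 1520) (nat_lit 1049408381) (nat_lit 1596) (nat_lit 1644082774) (nat_lit 582) (nat_lit 5) (nat_lit 602) (nat_lit 5) (nat_lit 603) (nat_lit 5) (nat_lit 418) (nat_lit 387) (nat_lit 335)) (XT.lf (nat_lit 0) (nat_lit 586587701) (nat_lit 1672) (nat_lit 5617853200) (nat_lit 76) (nat_lit 1406303277) (nat_lit 560) (nat_lit 5) (nat_lit 582) (nat_lit 5) (nat_lit 561) (nat_lit 5) (nat_lit 419) (nat_lit 387) (nat_lit 334))) (XT.nd (nat_lit 78) (nat_lit 3420) (nat_lit 0) (XT.lf (nat_lit 0) (nat_lit 2823060307) (nat_lit 1672) (nat_lit 910940345) (nat_lit 76) (nat_lit 3931613057) (nat_lit 560) (nat_lit 5) (nat_lit 582) (nat_lit 5) (nat_lit 561) (nat_lit 5) (nat_lit 420) (nat_lit 387) (nat_lit 333))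 (XT.nd (nat_lit 78) (nat_lit 1748) (nat_lit 0) (XT.lf (nat_lit 0) (nat_lit 3904693017) (nat_lit 1672) (nat_lit 1183782226) (nat_lit 1748) (nat_lit 2633421129) (nat_lit 538) (nat_lit 5) (nat_lit 560) (nat_lit 5) (nat_lit 561) (nat_lit 5) (nat_lit 421) (nat_lit 387) (nat_lit 332)) (XT.lf (nat_lit 0) (nat_lit 1016668958) (nat_lit 1748) (nat_lit 6363945308) (nat_lit 1824) (nat_lit 399062106) (nat_lit 515) (nat_lit 5) (nat_lit 538) (nat_lit 5) (nat_lit 539) (nat_lit 5) (nat_lit 422) (nat_lit 387) (nat_lit 331))))) (XT.nd (nat_lit 234) (nat_lit 988) (nat_lit 0) (XT.nd (nat_lit 78) (nat_lit 2964) (nat_lit 0) (XT.lf (nat_lit 0) (nat_lit 1848701041) (nat_lit 1824) (nat_lit 1896869163) (nat_lit 76) (nat_lit 4092930180) (nat_lit 514) (nat_lit 5) (nat_lit 538) (nat_lit 5) (nat_lit 515) (nat_lit 5) (nat_lit 423) (nat_lit 387) (nat_lit 330)) (XT.nd (nat_lit 78) (nat_lit 1140) (nat_lit 0) (XT.lf (nat_lit 0) (nat_lit 3067398089) (nat_lit 1824) (nat_lit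 1049136317) (nat_lit 1900) (nat_lit 3782304547) (nat_lit 490) (nat_lit 5) (nat_lit 514) (nat_lit 5) (nat_lit 515) (nat_lit 5) (nat_lit 424) (nat_lit 387) (nat_lit 329)) (XT.lf (nat_lit 0) (nat_lit 150039053) (nat_lit 1140) (nat_lit 6265608170) (nat_lit 1216) (nat_lit 1545018614) (nat_lit 475) (nat_lit 5) (nat_lit 490) (nat_lit 5) (nat_lit 491) (nat_lit 5) (nat_lit 425) (nat_lit 387) (nat_lit 328)))) (XT.nd (nat_lit 78) (nat_lit 912) (nat_lit 0) (XT.lf (nat_lit 0) (nat_lit 728288903) (nat_lit 1216) (nat_lit 2775989027) (nat_lit 76) (nat_lit 4519336789) (nat_lit 474) (nat_lit 5) (nat_lit 490) (nat_lit 5) (nat_lit 475) (nat_lit 5) (nat_lit 426) (nat_lit 387) (nat_lit 327)) (XT.nd (nat_lit 78) (nat_lit 0) (nat_lit 0) (XT.lf (nat_lit 0) (nat_lit 2342974968) (nat_lit 912) (nat_lit 660746760) (nat_lit 988) (nat_lit 5084349657) (nat_lit 462) (nat_lit 5) (nat_lit 474) (nat_lit 5) (nat_lit 475) (nat_lit 5) (nat_lit 427) (nat_lit 387) (nat_lit 326))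 (XT.lf (nat_lit 0) (nat_lit 5320581718) (nat_lit 988) (nat_lit 603534946) (nat_lit 76) (nat_lit 2229782152) (nat_lit 462) (nat_lit 5) (nat_lit 475) (nat_lit 5) (nat_lit 463) (nat_lit 5) (nat_lit 428) (nat_lit 387) (nat_lit 325))))))) (XT.nd (nat_lit 780) (nat_lit 5092) (nat_lit 0) (XT.nd (nat_lit 390) (nat_lit 2432) (nat_lit 0) (XT.nd (nat_lit 156) (nat_lit 1824) (nat_lit 0) (XT.nd (nat_lit 78) (nat_lit 912) (nat_lit 0) (XT.lf (nat_lit 0) (nat_lit 4660971089) (nat_lit 912) (nat_lit 3020804040) (nat_lit 988) (nat_lit 539307743) (nat_lit 450) (nat_lit 5) (nat_lit 462) (nat_lit 5) (nat_lit 463) (nat_lit 5) (nat_lit 429) (nat_lit 387) (nat_lit 324)) (XT.lf (nat_lit 0) (nat_lit 1723421298) (nat_lit 836) (nat_lit 32412969) (nat_lit 912) (nat_lit 6533965180) (nat_lit 438) (nat_lit 5) (nat_lit 449) (nat_lit 5) (nat_lit 450) (nat_lit 5) (nat_lit 430) (nat_lit 387) (nat_lit 323))) (XT.nd (nat_lit 78) (nat_lit 1824) (nat_lit 0) (XT.lf (nat_lit 0)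 (nat_lit 4097365324) (nat_lit 912) (nat_lit 1259193427) (nat_lit 76) (nat_lit 3003106156) (nat_lit 438) (nat_lit 5) (nat_lit 450) (nat_lit 5) (nat_lit 439) (nat_lit 5) (nat_lit 431) (nat_lit 387) (nat_lit 322)) (XT.nd (nat_lit 78) (nat_lit 912) (nat_lit 0) (XT.lf (nat_lit 0) (nat_lit 4172015341) (nat_lit 912) (nat_lit 2305790402) (nat_lit 988) (nat_lit 1953280360) (nat_lit 426) (nat_lit 5) (nat_lit 438) (nat_lit 5) (nat_lit 439) (nat_lit 5) (nat_lit 432) (nat_lit 387) (nat_lit 321)) (XT.lf (nat_lit 0) (nat_lit 383301175) (nat_lit 912) (nat_lit 7308208341) (nat_lit 76) (nat_lit 812640951) (nat_lit 414) (nat_lit 5) (nat_lit 426) (nat_lit 5) (nat_lit 415) (nat_lit 5) (nat_lit 433) (nat_lit 387) (nat_lit 320))))) (XT.nd (nat_lit 156) (nat_lit 1596) (nat_lit 0) (XT.nd (nat_lit 78) (nat_lit 836) (nat_lit 0) (XT.lf (nat_lit 0) (nat_lit 2749960442) (nat_lit 912) (nat_lit 1825992640) (nat_lit 76) (nat_lit 4002274802) (nat_lit 414) (nat_lit 5)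 (nat_lit 426) (nat_lit 5) (nat_lit 415) (nat_lit 5) (nat_lit 434) (nat_lit 387) (nat_lit 319)) (XT.lf (nat_lit 0) (nat_lit 3778877851) (nat_lit 836) (nat_lit 1375723809) (nat_lit 912) (nat_lit 3499372216) (nat_lit 403) (nat_lit 5) (nat_lit 414) (nat_lit 5) (nat_lit 415) (nat_lit 5) (nat_lit 435) (nat_lit 387) (nat_lit 318))) (XT.nd (nat_lit 78) (nat_lit 836) (nat_lit 0) (XT.lf (nat_lit 0) (nat_lit 750143140) (nat_lit 760) (nat_lit 6853182922) (nat_lit 836) (nat_lit 1127988917) (nat_lit 393) (nat_lit 5) (nat_lit 403) (nat_lit 5) (nat_lit 404) (nat_lit 5) (nat_lit 436) (nat_lit 387) (nat_lit 317)) (XT.nd (nat_lit 78) (nat_lit 760) (nat_lit 0) (XT.lf (nat_lit 0) (nat_lit 1282657577) (nat_lit 836) (nat_lit 2310446024) (nat_lit 76) (nat_lit 5216756389) (nat_lit 392) (nat_lit 5) (nat_lit 403) (nat_lit 5) (nat_lit 393) (nat_lit 5) (nat_lit 437) (nat_lit 387) (nat_lit 316)) (XT.lf (nat_lit 0) (nat_lit 3475373517) (nat_lit 760) (nat_lit 240993778)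 (nat_lit 836) (nat_lit 5173660404) (nat_lit 382) (nat_lit 5) (nat_lit 392) (nat_lit 5) (nat_lit 393) (nat_lit 5) (nat_lit 438) (nat_lit 387) (nat_lit 315)))))) (XT.nd (nat_lit 390) (nat_lit 2812) (nat_lit 0) (XT.nd (nat_lit 156) (nat_lit 1520) (nat_lit 0) (XT.nd (nat_lit 78) (nat_lit 0) (nat_lit 0) (XT.lf (nat_lit 0) (nat_lit 384231607) (nat_lit 760) (nat_lit 5821010435) (nat_lit 836) (nat_lit 2766426902) (nat_lit 372) (nat_lit 5) (nat_lit 382) (nat_lit 5) (nat_lit 383) (nat_lit 5) (nat_lit 439) (nat_lit 387) (nat_lit 314)) (XT.lf (nat_lit 0) (nat_lit 6334307403) (nat_lit 760) (nat_lit 2415656844) (nat_lit 836) (nat_lit 304857371) (nat_lit 372) (nat_lit 5) (nat_lit 382) (nat_lit 5) (nat_lit 383) (nat_lit 5) (nat_lit 440) (nat_lit 387) (nat_lit 313))) (XT.nd (nat_lit 78) (nat_lit 684) (nat_lit 0) (XT.lf (nat_lit 0) (nat_lit 2173789831) (nat_lit 836) (nat_lit 5890770398) (nat_lit 76) (nat_lit 1074855112) (nat_lit 361) (nat_lit 5) (nat_lit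 372) (nat_lit 5) (nat_lit 362) (nat_lit 5) (nat_lit 441) (nat_lit 387) (nat_lit 312)) (XT.nd (nat_lit 78) (nat_lit 0) (nat_lit 0) (XT.lf (nat_lit 0) (nat_lit 95221680) (nat_lit 684) (nat_lit 4606620126) (nat_lit 760) (nat_lit 4523740555) (nat_lit 352) (nat_lit 5) (nat_lit 361) (nat_lit 5) (nat_lit 362) (nat_lit 5) (nat_lit 442) (nat_lit 387) (nat_lit 311)) (XT.lf (nat_lit 0) (nat_lit 6244407082) (nat_lit 684) (nat_lit 1044868289) (nat_lit 760) (nat_lit 2024020937) (nat_lit 352) (nat_lit 5) (nat_lit 361) (nat_lit 5) (nat_lit 362) (nat_lit 5) (nat_lit 443) (nat_lit 387) (nat_lit 310))))) (XT.nd (nat_lit 234) (nat_lit 1368) (nat_lit 0) (XT.nd (nat_lit 78) (nat_lit 684) (nat_lit 0) (XT.lf (nat_lit 0) (nat_lit 525640457) (nat_lit 760) (nat_lit 6304633010) (nat_lit 76) (nat_lit 2572285967) (nat_lit 342) (nat_lit 5) (nat_lit 352) (nat_lit 5) (nat_lit 343) (nat_lit 5) (nat_lit 444) (nat_lit 387) (nat_lit 309)) (XT.nd (nat_lit 78) (nat_lit 684)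 (nat_lit 0) (XT.lf (nat_lit 0) (nat_lit 3096885236) (nat_lit 760) (nat_lit 120368464) (nat_lit 76) (nat_lit 6276132711) (nat_lit 342) (nat_lit 5) (nat_lit 352) (nat_lit 5) (nat_lit 343) (nat_lit 5) (nat_lit 445) (nat_lit 387) (nat_lit 308)) (XT.lf (nat_lit 0) (nat_lit 5733898428) (nat_lit 760) (nat_lit 3355414239) (nat_lit 76) (nat_lit 496430390) (nat_lit 333) (nat_lit 5) (nat_lit 343) (nat_lit 5) (nat_lit 334) (nat_lit 5) (nat_lit 446) (nat_lit 387) (nat_lit 307)))) (XT.nd (nat_lit 78) (nat_lit 684) (nat_lit 0) (XT.lf (nat_lit 0) (nat_lit 3011950009) (nat_lit 684) (nat_lit 5424286086) (nat_lit 760) (nat_lit 1243459056) (nat_lit 324) (nat_lit 5) (nat_lit 333) (nat_lit 5) (nat_lit 334) (nat_lit 5) (nat_lit 447) (nat_lit 387) (nat_lit 306)) (XT.nd (nat_lit 78) (nat_lit 608) (nat_lit 0) (XT.lf (nat_lit 0) (nat_lit 1392231643) (nat_lit 760) (nat_lit 268410217) (nat_lit 76) (nat_lit 8114825955) (nat_lit 323) (nat_lit 5) (nat_lit 333) (nat_lit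 5) (nat_lit 324) (nat_lit 5) (nat_lit 448) (nat_lit 387) (nat_lit 305)) (XT.lf (nat_lit 0) (nat_lit 4090938689) (nat_lit 684) (nat_lit 3589310363) (nat_lit 76) (nat_lit 2192203448) (nat_lit 315) (nat_lit 5) (nat_lit 324) (nat_lit 5) (nat_lit 316) (nat_lit 5) (nat_lit 449) (nat_lit 387) (nat_lit 304))))))))
noncomputable def xc124 : XT := (XT.nd (nat_lit 1560) (nat_lit 5548) (nat_lit 0) (XT.nd (nat_lit 780) (nat_lit 3572) (nat_lit 0) (XT.nd (nat_lit 390) (nat_lit 2356) (nat_lit 0) (XT.nd (nat_lit 156) (nat_lit 1292) (nat_lit 0) (XT.nd (nat_lit 78) (nat_lit 0) (nat_lit 0) (XT.lf (nat_lit 0) (nat_lit 2990532239) (nat_lit 608) (nat_lit 3857221094) (nat_lit 684) (nat_lit 3123540875) (nat_lit 307) (nat_lit 5) (nat_lit 315) (nat_lit 5) (nat_lit 316) (nat_lit 5) (nat_lit 450) (nat_lit 387) (nat_lit 303)) (XT.lf (nat_lit 0) (nat_lit 9656401201) (nat_lit 684) (nat_lit 357412475) (nat_lit 76) (nat_lit 58365135) (nat_lit 307) (nat_lit 5) (nat_lit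 316) (nat_lit 5) (nat_lit 308) (nat_lit 5) (nat_lit 451) (nat_lit 387) (nat_lit 302))) (XT.nd (nat_lit 78) (nat_lit 608) (nat_lit 0) (XT.lf (nat_lit 0) (nat_lit 2355597077) (nat_lit 684) (nat_lit 3767964363) (nat_lit 76) (nat_lit 4050410489) (nat_lit 298) (nat_lit 5) (nat_lit 307) (nat_lit 5) (nat_lit 299) (nat_lit 5) (nat_lit 452) (nat_lit 387) (nat_lit 301)) (XT.nd (nat_lit 78) (nat_lit 0) (nat_lit 0) (XT.lf (nat_lit 0) (nat_lit 3033405510) (nat_lit 608) (nat_lit 2138392032) (nat_lit 684) (nat_lit 5106049091) (nat_lit 290) (nat_lit 5) (nat_lit 298) (nat_lit 5) (nat_lit 299) (nat_lit 5) (nat_lit 453) (nat_lit 387) (nat_lit 300)) (XT.lf (nat_lit 0) (nat_lit 8055383644) (nat_lit 684) (nat_lit 409736713) (nat_lit 76) (nat_lit 1918457241) (nat_lit 290) (nat_lit 5) (nat_lit 299) (nat_lit 5) (nat_lit 291) (nat_lit 5) (nat_lit 454) (nat_lit 387) (nat_lit 299))))) (XT.nd (nat_lit 156) (nat_lit 1140) (nat_lit 0) (XT.nd (nat_lit 78) (nat_lit 608)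 (nat_lit 0) (XT.lf (nat_lit 0) (nat_lit 529431009) (nat_lit 608) (nat_lit 3895192636) (nat_lit 76) (nat_lit 6066117157) (nat_lit 282) (nat_lit 5) (nat_lit 290) (nat_lit 5) (nat_lit 283) (nat_lit 5) (nat_lit 455) (nat_lit 387) (nat_lit 298)) (XT.lf (nat_lit 0) (nat_lit 3137141335) (nat_lit 608) (nat_lit 272805473) (nat_lit 684) (nat_lit 7189854419) (nat_lit 274) (nat_lit 5) (nat_lit 282) (nat_lit 5) (nat_lit 283) (nat_lit 5) (nat_lit 456) (nat_lit 387) (nat_lit 297))) (XT.nd (nat_lit 78) (nat_lit 1140) (nat_lit 0) (XT.lf (nat_lit 0) (nat_lit 6374087595) (nat_lit 684) (nat_lit 408792743) (nat_lit 76) (nat_lit 3927642227) (nat_lit 274) (nat_lit 5) (nat_lit 283) (nat_lit 5) (nat_lit 275) (nat_lit 5) (nat_lit 457) (nat_lit 387) (nat_lit 296)) (XT.nd (nat_lit 78) (nat_lit 608) (nat_lit 0) (XT.lf (nat_lit 0) (nat_lit 6839440035) (nat_lit 532) (nat_lit 2578772751) (nat_lit 608) (nat_lit 1404831514) (nat_lit 267) (nat_lit 5) (nat_lit 274) (nat_lit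 5) (nat_lit 275) (nat_lit 5) (nat_lit 458) (nat_lit 387) (nat_lit 295)) (XT.lf (nat_lit 0) (nat_lit 1574654711) (nat_lit 608) (nat_lit 7650249073) (nat_lit 76) (nat_lit 1712505944) (nat_lit 259) (nat_lit 5) (nat_lit 267) (nat_lit 5) (nat_lit 260) (nat_lit 5) (nat_lit 459) (nat_lit 387) (nat_lit 294)))))) (XT.nd (nat_lit 390) (nat_lit 1976) (nat_lit 0) (XT.nd (nat_lit 156) (nat_lit 1064) (nat_lit 0) (XT.nd (nat_lit 78) (nat_lit 532) (nat_lit 0) (XT.lf (nat_lit 0) (nat_lit 4613736666) (nat_lit 608) (nat_lit 357675486) (nat_lit 76) (nat_lit 6082088261) (nat_lit 259) (nat_lit 5) (nat_lit 267) (nat_lit 5) (nat_lit 260) (nat_lit 5) (nat_lit 460) (nat_lit 387) (nat_lit 293)) (XT.lf (nat_lit 0) (nat_lit 7140149977) (nat_lit 532) (nat_lit 595114788) (nat_lit 608) (nat_lit 3436214855) (nat_lit 252) (nat_lit 5) (nat_lit 259) (nat_lit 5) (nat_lit 260) (nat_lit 5) (nat_lit 461) (nat_lit 387) (nat_lit 292))) (XT.nd (nat_lit 78) (nat_lit 532) (nat_lit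 0) (XT.lf (nat_lit 0) (nat_lit 3487165591) (nat_lit 532) (nat_lit 7457740125) (nat_lit 608) (nat_lit 346399050) (nat_lit 245) (nat_lit 5) (nat_lit 252) (nat_lit 5) (nat_lit 253) (nat_lit 5) (nat_lit 462) (nat_lit 387) (nat_lit 291)) (XT.nd (nat_lit 78) (nat_lit 456) (nat_lit 0) (XT.lf (nat_lit 0) (nat_lit 2775199434) (nat_lit 608) (nat_lit 259185130) (nat_lit 76) (nat_lit 8378642041) (nat_lit 244) (nat_lit 5) (nat_lit 252) (nat_lit 5) (nat_lit 245) (nat_lit 5) (nat_lit 463) (nat_lit 387) (nat_lit 290)) (XT.lf (nat_lit 0) (nat_lit 5989231964) (nat_lit 532) (nat_lit 4047649612) (nat_lit 76) (nat_lit 1499562702) (nat_lit 238) (nat_lit 5) (nat_lit 245) (nat_lit 5) (nat_lit 239) (nat_lit 5) (nat_lit 464) (nat_lit 387) (nat_lit 289))))) (XT.nd (nat_lit 156) (nat_lit 1368) (nat_lit 0) (XT.nd (nat_lit 78) (nat_lit 76) (nat_lit 0) (XT.lf (nat_lit 0) (nat_lit 3727683250) (nat_lit 532) (nat_lit 5562179220) (nat_lit 608) (nat_lit 2372021489) (nat_lit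 231) (nat_lit 5) (nat_lit 238) (nat_lit 5) (nat_lit 239) (nat_lit 5) (nat_lit 465) (nat_lit 387) (nat_lit 288)) (XT.lf (nat_lit 0) (nat_lit 859007161) (nat_lit 608) (nat_lit 115847594) (nat_lit 76) (nat_lit 10814791127) (nat_lit 230) (nat_lit 5) (nat_lit 238) (nat_lit 5) (nat_lit 231) (nat_lit 5) (nat_lit 466) (nat_lit 387) (nat_lit 287))) (XT.nd (nat_lit 78) (nat_lit 912) (nat_lit 0) (XT.lf (nat_lit 0) (nat_lit 4175554339) (nat_lit 532) (nat_lit 4030033775) (nat_lit 76) (nat_lit 3713008160) (nat_lit 224) (nat_lit 5) (nat_lit 231) (nat_lit 5) (nat_lit 225) (nat_lit 5) (nat_lit 467) (nat_lit 387) (nat_lit 286)) (XT.nd (nat_lit 78) (nat_lit 456) (nat_lit 0) (XT.lf (nat_lit 0) (nat_lit 4017101475) (nat_lit 456) (nat_lit 3551645223) (nat_lit 532) (nat_lit 4481172693) (nat_lit 218) (nat_lit 5) (nat_lit 224) (nat_lit 5) (nat_lit 225) (nat_lit 5) (nat_lit 468) (nat_lit 387) (nat_lit 285)) (XT.lf (nat_lit 0) (nat_lit 55458214) (nat_lit 456) (nat_lit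 10986847645) (nat_lit 532) (nat_lit 1141313050) (nat_lit 212) (nat_lit 5) (nat_lit 218) (nat_lit 5) (nat_lit 219) (nat_lit 5) (nat_lit 469) (nat_lit 387) (nat_lit 284))))))) (XT.nd (nat_lit 780) (nat_lit 2888) (nat_lit 0) (XT.nd (nat_lit 390) (nat_lit 1216) (nat_lit 0) (XT.nd (nat_lit 156) (nat_lit 912) (nat_lit 0) (XT.nd (nat_lit 78) (nat_lit 456) (nat_lit 0) (XT.lf (nat_lit 0) (nat_lit 2290654662) (nat_lit 532) (nat_lit 3977001845) (nat_lit 76) (nat_lit 6050941326) (nat_lit 211) (nat_lit 5) (nat_lit 218) (nat_lit 5) (nat_lit 212) (nat_lit 5) (nat_lit 470) (nat_lit 387) (nat_lit 283)) (XT.lf (nat_lit 0) (nat_lit 4353494748) (nat_lit 456) (nat_lit 1428450173) (nat_lit 532) (nat_lit 6674061222) (nat_lit 205) (nat_lit 5) (nat_lit 211) (nat_lit 5) (nat_lit 212) (nat_lit 5) (nat_lit 471) (nat_lit 387) (nat_lit 282))) (XT.nd (nat_lit 78) (nat_lit 532) (nat_lit 0) (XT.lf (nat_lit 0) (nat_lit 255911697) (nat_lit 380) (nat_lit 9116286336) (nat_lit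 456) (nat_lit 3223381847) (nat_lit 200) (nat_lit 5) (nat_lit 205) (nat_lit 5) (nat_lit 206) (nat_lit 5) (nat_lit 472) (nat_lit 387) (nat_lit 281)) (XT.nd (nat_lit 78) (nat_lit 456) (nat_lit 0) (XT.lf (nat_lit 0) (nat_lit 334528737) (nat_lit 456) (nat_lit 3890716875) (nat_lit 76) (nat_lit 8511818927) (nat_lit 199) (nat_lit 5) (nat_lit 205) (nat_lit 5) (nat_lit 200) (nat_lit 5) (nat_lit 473) (nat_lit 387) (nat_lit 280)) (XT.lf (nat_lit 0) (nat_lit 3934796013) (nat_lit 532) (nat_lit 8150825900) (nat_lit 76) (nat_lit 795043655) (nat_lit 193) (nat_lit 5) (nat_lit 200) (nat_lit 5) (nat_lit 194) (nat_lit 5) (nat_lit 474) (nat_lit 387) (nat_lit 279))))) (XT.nd (nat_lit 156) (nat_lit 836) (nat_lit 0) (XT.nd (nat_lit 78) (nat_lit 0) (nat_lit 0) (XT.lf (nat_lit 0) (nat_lit 494323888) (nat_lit 380) (nat_lit 7148703201) (nat_lit 456) (nat_lit 5383392360) (nat_lit 188) (nat_lit 5) (nat_lit 193) (nat_lit 5) (nat_lit 194) (nat_lit 5) (nat_lit 475) (nat_lit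 387) (nat_lit 278)) (XT.lf (nat_lit 0) (nat_lit 9390144757) (nat_lit 380) (nat_lit 2068669337) (nat_lit 456) (nat_lit 1715606487) (nat_lit 188) (nat_lit 5) (nat_lit 193) (nat_lit 5) (nat_lit 194) (nat_lit 5) (nat_lit 476) (nat_lit 387) (nat_lit 277))) (XT.nd (nat_lit 78) (nat_lit 380) (nat_lit 0) (XT.lf (nat_lit 0) (nat_lit 2031897631) (nat_lit 456) (nat_lit 8184639958) (nat_lit 76) (nat_lit 3107922570) (nat_lit 182) (nat_lit 5) (nat_lit 188) (nat_lit 5) (nat_lit 183) (nat_lit 5) (nat_lit 477) (nat_lit 387) (nat_lit 276)) (XT.nd (nat_lit 78) (nat_lit 0) (nat_lit 0) (XT.lf (nat_lit 0) (nat_lit 769072840) (nat_lit 380) (nat_lit 5085688739) (nat_lit 456) (nat_lit 7622044510) (nat_lit 177) (nat_lit 5) (nat_lit 182) (nat_lit 5) (nat_lit 183) (nat_lit 5) (nat_lit 478) (nat_lit 387) (nat_lit 275)) (XT.lf (nat_lit 0) (nat_lit 9789558717) (nat_lit 456) (nat_lit 3652230290) (nat_lit 76) (nat_lit 189700414) (nat_lit 177) (nat_lit 5) (nat_lit 183)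 (nat_lit 5) (nat_lit 178) (nat_lit 5) (nat_lit 479) (nat_lit 387) (nat_lit 274)))))) (XT.nd (nat_lit 390) (nat_lit 1368) (nat_lit 0) (XT.nd (nat_lit 156) (nat_lit 760) (nat_lit 0) (XT.nd (nat_lit 78) (nat_lit 304) (nat_lit 0) (XT.lf (nat_lit 0) (nat_lit 63557449) (nat_lit 456) (nat_lit 8196620400) (nat_lit 76) (nat_lit 5528087722) (nat_lit 171) (nat_lit 5) (nat_lit 177) (nat_lit 5) (nat_lit 172) (nat_lit 5) (nat_lit 480) (nat_lit 387) (nat_lit 273)) (XT.lf (nat_lit 0) (nat_lit 1078728666) (nat_lit 304) (nat_lit 2928402073) (nat_lit 380) (nat_lit 9940310226) (nat_lit 167) (nat_lit 5) (nat_lit 171) (nat_lit 5) (nat_lit 172) (nat_lit 5) (nat_lit 481) (nat_lit 387) (nat_lit 272))) (XT.nd (nat_lit 78) (nat_lit 760) (nat_lit 0) (XT.lf (nat_lit 0) (nat_lit 8081051753) (nat_lit 380) (nat_lit 3506815639) (nat_lit 76) (nat_lit 2520902950) (nat_lit 167) (nat_lit 5) (nat_lit 172) (nat_lit 5) (nat_lit 168) (nat_lit 5) (nat_lit 482) (nat_lit 387) (nat_lit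 271)) (XT.nd (nat_lit 78) (nat_lit 380) (nat_lit 0) (XT.lf (nat_lit 0) (nat_lit 6071031570) (nat_lit 380) (nat_lit 6204437732) (nat_lit 456) (nat_lit 1997076641) (nat_lit 162) (nat_lit 5) (nat_lit 167) (nat_lit 5) (nat_lit 168) (nat_lit 5) (nat_lit 483) (nat_lit 387) (nat_lit 270)) (XT.lf (nat_lit 0) (nat_lit 1422041344) (nat_lit 304) (nat_lit 677592750) (nat_lit 380) (nat_lit 12339424755) (nat_lit 157) (nat_lit 5) (nat_lit 161) (nat_lit 5) (nat_lit 162) (nat_lit 5) (nat_lit 484) (nat_lit 387) (nat_lit 269))))) (XT.nd (nat_lit 234) (nat_lit 608) (nat_lit 0) (XT.nd (nat_lit 78) (nat_lit 760) (nat_lit 0) (XT.lf (nat_lit 0) (nat_lit 6319535598) (nat_lit 380) (nat_lit 3336030130) (nat_lit 76) (nat_lit 4951712323) (nat_lit 157) (nat_lit 5) (nat_lit 162) (nat_lit 5) (nat_lit 158) (nat_lit 5) (nat_lit 485) (nat_lit 387) (nat_lit 268)) (XT.nd (nat_lit 78) (nat_lit 380) (nat_lit 0) (XT.lf (nat_lit 0) (nat_lit 6589454329) (nat_lit 380) (nat_lit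 4062405410) (nat_lit 456) (nat_lit 4126441406) (nat_lit 152) (nat_lit 5) (nat_lit 157) (nat_lit 5) (nat_lit 158) (nat_lit 5) (nat_lit 486) (nat_lit 387) (nat_lit 267)) (XT.lf (nat_lit 0) (nat_lit 142369213) (nat_lit 380) (nat_lit 13165318792) (nat_lit 76) (nat_lit 1644524716) (nat_lit 147) (nat_lit 5) (nat_lit 152) (nat_lit 5) (nat_lit 148) (nat_lit 5) (nat_lit 487) (nat_lit 387) (nat_lit 266)))) (XT.nd (nat_lit 78) (nat_lit 608) (nat_lit 0) (XT.lf (nat_lit 0) (nat_lit 4504476851) (nat_lit 380) (nat_lit 3141153239) (nat_lit 76) (nat_lit 7482163446) (nat_lit 147) (nat_lit 5) (nat_lit 152) (nat_lit 5) (nat_lit 148) (nat_lit 5) (nat_lit 488) (nat_lit 387) (nat_lit 265)) (XT.nd (nat_lit 78) (nat_lit 304) (nat_lit 0) (XT.lf (nat_lit 0) (nat_lit 7146630346) (nat_lit 304) (nat_lit 1834874874) (nat_lit 380) (nat_lit 6324827177) (nat_lit 143) (nat_lit 5) (nat_lit 147) (nat_lit 5) (nat_lit 148) (nat_lit 5) (nat_lit 489) (nat_lit 387) (nat_lit 264))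 (XT.lf (nat_lit 0) (nat_lit 2165736629) (nat_lit 304) (nat_lit 11425556709) (nat_lit 380) (nat_lit 1896284312) (nat_lit 139) (nat_lit 5) (nat_lit 143) (nat_lit 5) (nat_lit 144) (nat_lit 5) (nat_lit 490) (nat_lit 387) (nat_lit 263))))))))
noncomputable def xc125 : XT := (XT.nd (nat_lit 51792) (nat_lit 0) (nat_lit 41192) (XT.nd (nat_lit 780) (nat_lit 1216) (nat_lit 0) (XT.nd (nat_lit 390) (nat_lit 836) (nat_lit 0) (XT.nd (nat_lit 156) (nat_lit 684) (nat_lit 0) (XT.nd (nat_lit 78) (nat_lit 304) (nat_lit 0) (XT.lf (nat_lit 0) (nat_lit 2635142648) (nat_lit 380) (nat_lit 2923324562) (nat_lit 76) (nat_lit 10112666558) (nat_lit 138) (nat_lit 5) (nat_lit 143) (nat_lit 5) (nat_lit 139) (nat_lit 5) (nat_lit 491) (nat_lit 387) (nat_lit 262)) (XT.lf (nat_lit 0) (nat_lit 7266981556) (nat_lit 380) (nat_lit 8118561339) (nat_lit 76) (nat_lit 471863930) (nat_lit 134) (nat_lit 5) (nat_lit 139) (nat_lit 5) (nat_lit 135) (nat_lit 5) (nat_lit 492) (nat_lit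 387) (nat_lit 261))) (XT.nd (nat_lit 78) (nat_lit 380) (nat_lit 0) (XT.lf (nat_lit 0) (nat_lit 2573467093) (nat_lit 304) (nat_lit 9473122894) (nat_lit 380) (nat_lit 3999712703) (nat_lit 130) (nat_lit 5) (nat_lit 134) (nat_lit 5) (nat_lit 135) (nat_lit 5) (nat_lit 493) (nat_lit 387) (nat_lit 260)) (XT.nd (nat_lit 78) (nat_lit 304) (nat_lit 0) (XT.lf (nat_lit 0) (nat_lit 710607235) (nat_lit 380) (nat_lit 2683553071) (nat_lit 76) (nat_lit 12843992533) (nat_lit 129) (nat_lit 5) (nat_lit 134) (nat_lit 5) (nat_lit 130) (nat_lit 5) (nat_lit 494) (nat_lit 387) (nat_lit 259)) (XT.lf (nat_lit 0) (nat_lit 5516946343) (nat_lit 380) (nat_lit 8076051323) (nat_lit 76) (nat_lit 2839206184) (nat_lit 125) (nat_lit 5) (nat_lit 130) (nat_lit 5) (nat_lit 126) (nat_lit 5) (nat_lit 495) (nat_lit 387) (nat_lit 258))))) (XT.nd (nat_lit 156) (nat_lit 608) (nat_lit 0) (XT.nd (nat_lit 78) (nat_lit 0) (nat_lit 0) (XT.lf (nat_lit 0) (nat_lit 3010394060) (nat_lit 228)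 (nat_lit 7451510608) (nat_lit 304) (nat_lit 6167381365) (nat_lit 122) (nat_lit 5) (nat_lit 125) (nat_lit 5) (nat_lit 126) (nat_lit 5) (nat_lit 496) (nat_lit 387) (nat_lit 257)) (XT.lf (nat_lit 0) (nat_lit 14398493588) (nat_lit 228) (nat_lit 1143959287) (nat_lit 304) (nat_lit 1287123170) (nat_lit 122) (nat_lit 5) (nat_lit 125) (nat_lit 5) (nat_lit 126) (nat_lit 5) (nat_lit 497) (nat_lit 387) (nat_lit 256))) (XT.nd (nat_lit 78) (nat_lit 228) (nat_lit 0) (XT.lf (nat_lit 0) (nat_lit 3718608332) (nat_lit 380) (nat_lit 8021416224) (nat_lit 76) (nat_lit 5291842590) (nat_lit 117) (nat_lit 5) (nat_lit 122) (nat_lit 5) (nat_lit 118) (nat_lit 5) (nat_lit 498) (nat_lit 387) (nat_lit 255)) (XT.nd (nat_lit 78) (nat_lit 0) (nat_lit 0) (XT.lf (nat_lit 0) (nat_lit 3476000386) (nat_lit 228) (nat_lit 5360600847) (nat_lit 304) (nat_lit 8400845050) (nat_lit 114) (nat_lit 5) (nat_lit 117) (nat_lit 5) (nat_lit 118) (nat_lit 5) (nat_lit 499) (nat_lit 387) (nat_lit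 254)) (XT.lf (nat_lit 0) (nat_lit 14101451021) (nat_lit 304) (nat_lit 2171104046) (nat_lit 76) (nat_lit 1173691997) (nat_lit 114) (nat_lit 5) (nat_lit 118) (nat_lit 5) (nat_lit 115) (nat_lit 5) (nat_lit 500) (nat_lit 387) (nat_lit 253)))))) (XT.nd (nat_lit 50544) (nat_lit 0) (nat_lit 50312) (XT.nd (nat_lit 156) (nat_lit 608) (nat_lit 0) (XT.nd (nat_lit 78) (nat_lit 228) (nat_lit 0) (XT.lf (nat_lit 0) (nat_lit 1870922733) (nat_lit 380) (nat_lit 7955716095) (nat_lit 76) (nat_lit 7830703322) (nat_lit 109) (nat_lit 5) (nat_lit 114) (nat_lit 5) (nat_lit 110) (nat_lit 5) (nat_lit 501) (nat_lit 387) (nat_lit 252)) (XT.lf (nat_lit 0) (nat_lit 3969891514) (nat_lit 228) (nat_lit 3199999077) (nat_lit 304) (nat_lit 10701851933) (nat_lit 106) (nat_lit 5) (nat_lit 109) (nat_lit 5) (nat_lit 110) (nat_lit 5) (nat_lit 502) (nat_lit 387) (nat_lit 251))) (XT.nd (nat_lit 78) (nat_lit 608) (nat_lit 0) (XT.lf (nat_lit 0) (nat_lit 12634990709) (nat_lit 304)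 (nat_lit 1899836940) (nat_lit 76) (nat_lit 3554400198) (nat_lit 106) (nat_lit 5) (nat_lit 110) (nat_lit 5) (nat_lit 107) (nat_lit 5) (nat_lit 503) (nat_lit 387) (nat_lit 250)) (XT.nd (nat_lit 78) (nat_lit 304) (nat_lit 0) (XT.lf (nat_lit 0) (nat_lit 10429511455) (nat_lit 304) (nat_lit 7852419894) (nat_lit 380) (nat_lit 27680758) (nat_lit 102) (nat_lit 5) (nat_lit 106) (nat_lit 5) (nat_lit 107) (nat_lit 5) (nat_lit 504) (nat_lit 387) (nat_lit 249)) (XT.lf (nat_lit 0) (nat_lit 4491789216) (nat_lit 228) (nat_lit 969046024) (nat_lit 304) (nat_lit 13072340475) (nat_lit 98) (nat_lit 5) (nat_lit 101) (nat_lit 5) (nat_lit 102) (nat_lit 5) (nat_lit 505) (nat_lit 387) (nat_lit 248))))) (XT.nd (nat_lit 234) (nat_lit 684) (nat_lit 0) (XT.nd (nat_lit 78) (nat_lit 0) (nat_lit 0) (XT.lf (nat_lit 0) (nat_lit 195461714) (nat_lit 684) (nat_lit 1543139516) (nat_lit 684) (nat_lit 1543139516) (nat_lit 769) (nat_lit 3) (nat_lit 778) (nat_lit 3) (nat_lit 778)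 (nat_lit 5) (nat_lit 388) (nat_lit 388) (nat_lit 364)) (XT.nd (nat_lit 78) (nat_lit 0) (nat_lit 0) (XT.lf (nat_lit 76) (nat_lit 198059297) (nat_lit 0) (nat_lit 2688171357) (nat_lit 684) (nat_lit 3693057694) (nat_lit 770) (nat_lit 5) (nat_lit 769) (nat_lit 3) (nat_lit 778) (nat_lit 5) (nat_lit 389) (nat_lit 388) (nat_lit 363)) (XT.lf (nat_lit 76) (nat_lit 3556165594) (nat_lit 0) (nat_lit 1830453299) (nat_lit 684) (nat_lit 1209688949) (nat_lit 770) (nat_lit 5) (nat_lit 769) (nat_lit 3) (nat_lit 778) (nat_lit 5) (nat_lit 390) (nat_lit 388) (nat_lit 362)))) (XT.nd (nat_lit 78) (nat_lit 0) (nat_lit 76) (XT.lf (nat_lit 76) (nat_lit 329544485) (nat_lit 0) (nat_lit 913910192) (nat_lit 760) (nat_lit 5371291941) (nat_lit 761) (nat_lit 5) (nat_lit 760) (nat_lit 5) (nat_lit 770) (nat_lit 5) (nat_lit 391) (nat_lit 388) (nat_lit 361)) (XT.nd (nat_lit 78) (nat_lit 0) (nat_lit 0) (XT.lf (nat_lit 0) (nat_lit 3686717872) (nat_lit 684) (nat_lit 2868788754)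 (nat_lit 760) (nat_lit 78742533) (nat_lit 761) (nat_lit 5) (nat_lit 770) (nat_lit 5) (nat_lit 771) (nat_lit 5) (nat_lit 392) (nat_lit 388) (nat_lit 360)) (XT.lf (nat_lit 76) (nat_lit 583042225) (nat_lit 0) (nat_lit 5543452887) (nat_lit 760) (nat_lit 528693663) (nat_lit 762) (nat_lit 5) (nat_lit 761) (nat_lit 5) (nat_lit 771) (nat_lit 5) (nat_lit 393) (nat_lit 388) (nat_lit 359))))))) (XT.nd (nat_lit 780) (nat_lit 5776) (nat_lit 0) (XT.nd (nat_lit 390) (nat_lit 1824) (nat_lit 0) (XT.nd (nat_lit 156) (nat_lit 836) (nat_lit 0) (XT.nd (nat_lit 78) (nat_lit 0) (nat_lit 0) (XT.lf (nat_lit 0) (nat_lit 1870877730) (nat_lit 760) (nat_lit 2581175381) (nat_lit 836) (nat_lit 2225086727) (nat_lit 751) (nat_lit 5) (nat_lit 761) (nat_lit 5) (nat_lit 762) (nat_lit 5) (nat_lit 394) (nat_lit 388) (nat_lit 358)) (XT.lf (nat_lit 76) (nat_lit 954220288) (nat_lit 0) (nat_lit 3302953389) (nat_lit 836) (nat_lit 2443370106) (nat_lit 752) (nat_lit 5) (nat_lit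 751) (nat_lit 5) (nat_lit 762) (nat_lit 5) (nat_lit 395) (nat_lit 388) (nat_lit 357))) (XT.nd (nat_lit 78) (nat_lit 836) (nat_lit 0) (XT.lf (nat_lit 76) (nat_lit 4561130345) (nat_lit 0) (nat_lit 2087958710) (nat_lit 836) (nat_lit 76168883) (nat_lit 752) (nat_lit 5) (nat_lit 751) (nat_lit 5) (nat_lit 762) (nat_lit 5) (nat_lit 396) (nat_lit 388) (nat_lit 356)) (XT.nd (nat_lit 78) (nat_lit 0) (nat_lit 76) (XT.lf (nat_lit 76) (nat_lit 1459378746) (nat_lit 0) (nat_lit 799156515) (nat_lit 912) (nat_lit 4492610926) (nat_lit 741) (nat_lit 5) (nat_lit 740) (nat_lit 5) (nat_lit 752) (nat_lit 5) (nat_lit 397) (nat_lit 388) (nat_lit 355)) (XT.lf (nat_lit 0) (nat_lit 4599313841) (nat_lit 836) (nat_lit 1631891852) (nat_lit 912) (nat_lit 547128432) (nat_lit 741) (nat_lit 5) (nat_lit 752) (nat_lit 5) (nat_lit 753) (nat_lit 5) (nat_lit 398) (nat_lit 388) (nat_lit 354))))) (XT.nd (nat_lit 156) (nat_lit 988) (nat_lit 0) (XT.nd (nat_lit 78) (nat_lit 0) (nat_lit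 0) (XT.lf (nat_lit 0) (nat_lit 140637474) (nat_lit 912) (nat_lit 4719141517) (nat_lit 988) (nat_lit 1947020007) (nat_lit 729) (nat_lit 5) (nat_lit 741) (nat_lit 5) (nat_lit 742) (nat_lit 5) (nat_lit 399) (nat_lit 388) (nat_lit 353)) (XT.lf (nat_lit 0) (nat_lit 2432639944) (nat_lit 912) (nat_lit 981593732) (nat_lit 988) (nat_lit 3422208854) (nat_lit 729) (nat_lit 5) (nat_lit 741) (nat_lit 5) (nat_lit 742) (nat_lit 5) (nat_lit 400) (nat_lit 388) (nat_lit 352))) (XT.nd (nat_lit 78) (nat_lit 988) (nat_lit 0) (XT.lf (nat_lit 76) (nat_lit 2833360150) (nat_lit 0) (nat_lit 1900692864) (nat_lit 988) (nat_lit 2133354507) (nat_lit 730) (nat_lit 5) (nat_lit 729) (nat_lit 5) (nat_lit 742) (nat_lit 5) (nat_lit 401) (nat_lit 388) (nat_lit 351)) (XT.nd (nat_lit 78) (nat_lit 0) (nat_lit 76) (XT.lf (nat_lit 0) (nat_lit 132409128) (nat_lit 988) (nat_lit 197169656) (nat_lit 1064) (nat_lit 6570343326) (nat_lit 716) (nat_lit 5) (nat_lit 729) (nat_lit 5) (nat_lit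 730) (nat_lit 5) (nat_lit 402) (nat_lit 388) (nat_lit 350)) (XT.lf (nat_lit 0) (nat_lit 2394456853) (nat_lit 988) (nat_lit 3225278762) (nat_lit 1064) (nat_lit 1313478659) (nat_lit 717) (nat_lit 5) (nat_lit 730) (nat_lit 5) (nat_lit 731) (nat_lit 5) (nat_lit 403) (nat_lit 388) (nat_lit 349)))))) (XT.nd (nat_lit 390) (nat_lit 3800) (nat_lit 0) (XT.nd (nat_lit 156) (nat_lit 2052) (nat_lit 0) (XT.nd (nat_lit 78) (nat_lit 0) (nat_lit 0) (XT.lf (nat_lit 76) (nat_lit 698381758) (nat_lit 0) (nat_lit 3959089728) (nat_lit 1064) (nat_lit 2310586275) (nat_lit 718) (nat_lit 5) (nat_lit 717) (nat_lit 5) (nat_lit 731) (nat_lit 5) (nat_lit 404) (nat_lit 388) (nat_lit 348)) (XT.lf (nat_lit 76) (nat_lit 4709211043) (nat_lit 0) (nat_lit 2226654308) (nat_lit 1064) (nat_lit 68330387) (nat_lit 718) (nat_lit 5) (nat_lit 717) (nat_lit 5) (nat_lit 731) (nat_lit 5) (nat_lit 405) (nat_lit 388) (nat_lit 347))) (XT.nd (nat_lit 78) (nat_lit 988) (nat_lit 0) (XT.lf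 (nat_lit 76) (nat_lit 1732503851) (nat_lit 0) (nat_lit 417567128) (nat_lit 1140) (nat_lit 4891489384) (nat_lit 704) (nat_lit 5) (nat_lit 703) (nat_lit 5) (nat_lit 718) (nat_lit 5) (nat_lit 406) (nat_lit 388) (nat_lit 346)) (XT.nd (nat_lit 78) (nat_lit 1064) (nat_lit 0) (XT.lf (nat_lit 0) (nat_lit 4386720296) (nat_lit 1064) (nat_lit 1253420533) (nat_lit 76) (nat_lit 1440026520) (nat_lit 704) (nat_lit 5) (nat_lit 718) (nat_lit 5) (nat_lit 705) (nat_lit 5) (nat_lit 407) (nat_lit 388) (nat_lit 345)) (XT.lf (nat_lit 0) (nat_lit 2883196599) (nat_lit 1064) (nat_lit 3757392810) (nat_lit 1140) (nat_lit 479507330) (nat_lit 690) (nat_lit 5) (nat_lit 704) (nat_lit 5) (nat_lit 705) (nat_lit 5) (nat_lit 408) (nat_lit 388) (nat_lit 344))))) (XT.nd (nat_lit 234) (nat_lit 1368) (nat_lit 0) (XT.nd (nat_lit 78) (nat_lit 2356) (nat_lit 0) (XT.lf (nat_lit 0) (nat_lit 1715265934) (nat_lit 1140) (nat_lit 88318320) (nat_lit 76) (nat_lit 5357811834) (nat_lit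 689) (nat_lit 5) (nat_lit 704) (nat_lit 5) (nat_lit 690) (nat_lit 5) (nat_lit 409) (nat_lit 388) (nat_lit 343)) (XT.nd (nat_lit 78) (nat_lit 1216) (nat_lit 0) (XT.lf (nat_lit 0) (nat_lit 3928408031) (nat_lit 1216) (nat_lit 3045663121) (nat_lit 76) (nat_lit 229769002) (nat_lit 674) (nat_lit 5) (nat_lit 690) (nat_lit 5) (nat_lit 675) (nat_lit 5) (nat_lit 410) (nat_lit 388) (nat_lit 342)) (XT.lf (nat_lit 0) (nat_lit 1211940257) (nat_lit 1216) (nat_lit 4947439405) (nat_lit 1292) (nat_lit 1088282104) (nat_lit 658) (nat_lit 5) (nat_lit 674) (nat_lit 5) (nat_lit 675) (nat_lit 5) (nat_lit 411) (nat_lit 388) (nat_lit 341)))) (XT.nd (nat_lit 78) (nat_lit 1292) (nat_lit 0) (XT.lf (nat_lit 0) (nat_lit 1101738503) (nat_lit 1292) (nat_lit 1739591777) (nat_lit 76) (nat_lit 4451398897) (nat_lit 657) (nat_lit 5) (nat_lit 674) (nat_lit 5) (nat_lit 658) (nat_lit 5) (nat_lit 412) (nat_lit 388) (nat_lit 340)) (XT.nd (nat_lit 78) (nat_lit 0) (nat_lit 0) (XT.lf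 (nat_lit 0) (nat_lit 2634444543) (nat_lit 1292) (nat_lit 658111834) (nat_lit 1368) (nat_lit 4046566309) (nat_lit 640) (nat_lit 5) (nat_lit 657) (nat_lit 5) (nat_lit 658) (nat_lit 5) (nat_lit 413) (nat_lit 388) (nat_lit 339)) (XT.lf (nat_lit 0) (nat_lit 5504306162) (nat_lit 1368) (nat_lit 313019642) (nat_lit 76) (nat_lit 1569575950) (nat_lit 640) (nat_lit 5) (nat_lit 658) (nat_lit 5) (nat_lit 641) (nat_lit 5) (nat_lit 414) (nat_lit 388) (nat_lit 338))))))))
noncomputable def xc126 : XT := (XT.nd (nat_lit 1560) (nat_lit 9956) (nat_lit 0) (XT.nd (nat_lit 780) (nat_lit 5776) (nat_lit 0) (XT.nd (nat_lit 390) (nat_lit 6916) (nat_lit 0) (XT.nd (nat_lit 156) (nat_lit 1596) (nat_lit 0) (XT.nd (nat_lit 78) (nat_lit 1444) (nat_lit 0) (XT.lf (nat_lit 0) (nat_lit 307880212) (nat_lit 1444) (nat_lit 3256335671) (nat_lit 76) (nat_lit 3871628692) (nat_lit 621) (nat_lit 5) (nat_lit 640) (nat_lit 5) (nat_lit 622) (nat_lit 5) (nat_lit 415) (nat_lit 388)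 (nat_lit 337)) (XT.lf (nat_lit 0) (nat_lit 1248573248) (nat_lit 1444) (nat_lit 1235033494) (nat_lit 1520) (nat_lit 5002577647) (nat_lit 602) (nat_lit 5) (nat_lit 621) (nat_lit 5) (nat_lit 622) (nat_lit 5) (nat_lit 416) (nat_lit 388) (nat_lit 336))) (XT.nd (nat_lit 78) (nat_lit 1596) (nat_lit 0) (XT.lf (nat_lit 0) (nat_lit 4689328163) (nat_lit 1520) (nat_lit 1693324593) (nat_lit 76) (nat_lit 1155148637) (nat_lit 602) (nat_lit 5) (nat_lit 622) (nat_lit 5) (nat_lit 603) (nat_lit 5) (nat_lit 417) (nat_lit 388) (nat_lit 335)) (XT.nd (nat_lit 78) (nat_lit 76) (nat_lit 0) (XT.lf (nat_lit 0) (nat_lit 2936494688) (nat_lit 1520) (nat_lit 3987833167) (nat_lit 1596) (nat_lit 666419605) (nat_lit 582) (nat_lit 5) (nat_lit 602) (nat_lit 5) (nat_lit 603) (nat_lit 5) (nat_lit 418) (nat_lit 388) (nat_lit 334)) (XT.lf (nat_lit 0) (nat_lit 1508502611) (nat_lit 1596) (nat_lit 8867290) (nat_lit 76) (nat_lit 6127786516) (nat_lit 581) (nat_lit 5) (nat_lit 602)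 (nat_lit 5) (nat_lit 582) (nat_lit 5) (nat_lit 419) (nat_lit 388) (nat_lit 333))))) (XT.nd (nat_lit 156) (nat_lit 3648) (nat_lit 0) (XT.nd (nat_lit 78) (nat_lit 1672) (nat_lit 0) (XT.lf (nat_lit 0) (nat_lit 3714698890) (nat_lit 1672) (nat_lit 2955510625) (nat_lit 76) (nat_lit 1030421958) (nat_lit 560) (nat_lit 5) (nat_lit 582) (nat_lit 5) (nat_lit 561) (nat_lit 5) (nat_lit 420) (nat_lit 388) (nat_lit 332)) (XT.lf (nat_lit 0) (nat_lit 1814937847) (nat_lit 1672) (nat_lit 4131641401) (nat_lit 1748) (nat_lit 1811005579) (nat_lit 538) (nat_lit 5) (nat_lit 560) (nat_lit 5) (nat_lit 561) (nat_lit 5) (nat_lit 421) (nat_lit 388) (nat_lit 331))) (XT.nd (nat_lit 78) (nat_lit 3572) (nat_lit 0) (XT.lf (nat_lit 0) (nat_lit 382004435) (nat_lit 1748) (nat_lit 1133405268) (nat_lit 76) (nat_lit 6300616084) (nat_lit 537) (nat_lit 5) (nat_lit 560) (nat_lit 5) (nat_lit 538) (nat_lit 5) (nat_lit 422) (nat_lit 388) (nat_lit 330)) (XT.nd (nat_lit 78) (nat_lit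 1824) (nat_lit 0) (XT.lf (nat_lit 0) (nat_lit 2587653038) (nat_lit 1824) (nat_lit 4109414988) (nat_lit 76) (nat_lit 1178467570) (nat_lit 514) (nat_lit 5) (nat_lit 538) (nat_lit 5) (nat_lit 515) (nat_lit 5) (nat_lit 423) (nat_lit 388) (nat_lit 329)) (XT.lf (nat_lit 0) (nat_lit 807360343) (nat_lit 1824) (nat_lit 4014299716) (nat_lit 1900) (nat_lit 3114890633) (nat_lit 490) (nat_lit 5) (nat_lit 514) (nat_lit 5) (nat_lit 515) (nat_lit 5) (nat_lit 424) (nat_lit 388) (nat_lit 328)))))) (XT.nd (nat_lit 390) (nat_lit 2736) (nat_lit 0) (XT.nd (nat_lit 156) (nat_lit 1824) (nat_lit 0) (XT.nd (nat_lit 78) (nat_lit 1216) (nat_lit 0) (XT.lf (nat_lit 0) (nat_lit 5842353356) (nat_lit 1824) (nat_lit 1247407806) (nat_lit 1900) (nat_lit 909236650) (nat_lit 490) (nat_lit 5) (nat_lit 514) (nat_lit 5) (nat_lit 515) (nat_lit 5) (nat_lit 425) (nat_lit 388) (nat_lit 327)) (XT.lf (nat_lit 0) (nat_lit 1314596343) (nat_lit 1216) (nat_lit 5164132986) (nat_lit 76)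 (nat_lit 1583957527) (nat_lit 474) (nat_lit 5) (nat_lit 490) (nat_lit 5) (nat_lit 475) (nat_lit 5) (nat_lit 426) (nat_lit 388) (nat_lit 326))) (XT.nd (nat_lit 78) (nat_lit 1824) (nat_lit 0) (XT.lf (nat_lit 0) (nat_lit 3556430044) (nat_lit 1216) (nat_lit 93788784) (nat_lit 76) (nat_lit 4477596678) (nat_lit 474) (nat_lit 5) (nat_lit 490) (nat_lit 5) (nat_lit 475) (nat_lit 5) (nat_lit 427) (nat_lit 388) (nat_lit 325)) (XT.nd (nat_lit 78) (nat_lit 912) (nat_lit 0) (XT.lf (nat_lit 0) (nat_lit 5109543175) (nat_lit 912) (nat_lit 730318360) (nat_lit 988) (nat_lit 2354449972) (nat_lit 462) (nat_lit 5) (nat_lit 474) (nat_lit 5) (nat_lit 475) (nat_lit 5) (nat_lit 428) (nat_lit 388) (nat_lit 324)) (XT.lf (nat_lit 0) (nat_lit 2133548699) (nat_lit 912) (nat_lit 6028571053) (nat_lit 988) (nat_lit 100154513) (nat_lit 450) (nat_lit 5) (nat_lit 462) (nat_lit 5) (nat_lit 463) (nat_lit 5) (nat_lit 429) (nat_lit 388) (nat_lit 323))))) (XT.nd (nat_lit 156)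 (nat_lit 1824) (nat_lit 0) (XT.nd (nat_lit 78) (nat_lit 836) (nat_lit 0) (XT.lf (nat_lit 0) (nat_lit 2160372327) (nat_lit 988) (nat_lit 888547633) (nat_lit 76) (nat_lit 5282590967) (nat_lit 449) (nat_lit 5) (nat_lit 462) (nat_lit 5) (nat_lit 450) (nat_lit 5) (nat_lit 430) (nat_lit 388) (nat_lit 322)) (XT.lf (nat_lit 0) (nat_lit 4458996469) (nat_lit 912) (nat_lit 3923304773) (nat_lit 76) (nat_lit 19933284) (nat_lit 438) (nat_lit 5) (nat_lit 450) (nat_lit 5) (nat_lit 439) (nat_lit 5) (nat_lit 431) (nat_lit 388) (nat_lit 321))) (XT.nd (nat_lit 78) (nat_lit 912) (nat_lit 0) (XT.lf (nat_lit 0) (nat_lit 1454489064) (nat_lit 912) (nat_lit 5350208419) (nat_lit 988) (nat_lit 1669653026) (nat_lit 426) (nat_lit 5) (nat_lit 438) (nat_lit 5) (nat_lit 439) (nat_lit 5) (nat_lit 432) (nat_lit 388) (nat_lit 320)) (XT.nd (nat_lit 78) (nat_lit 836) (nat_lit 0) (XT.lf (nat_lit 0) (nat_lit 633075495) (nat_lit 988) (nat_lit 1594876214) (nat_lit 76) (nat_lit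 6320028999) (nat_lit 425) (nat_lit 5) (nat_lit 438) (nat_lit 5) (nat_lit 426) (nat_lit 5) (nat_lit 433) (nat_lit 388) (nat_lit 319)) (XT.lf (nat_lit 0) (nat_lit 2957931973) (nat_lit 912) (nat_lit 4685605463) (nat_lit 76) (nat_lit 979356745) (nat_lit 414) (nat_lit 5) (nat_lit 426) (nat_lit 5) (nat_lit 415) (nat_lit 5) (nat_lit 434) (nat_lit 388) (nat_lit 318))))))) (XT.nd (nat_lit 780) (nat_lit 5168) (nat_lit 0) (XT.nd (nat_lit 390) (nat_lit 2356) (nat_lit 0) (XT.nd (nat_lit 156) (nat_lit 1596) (nat_lit 0) (XT.nd (nat_lit 78) (nat_lit 0) (nat_lit 0) (XT.lf (nat_lit 0) (nat_lit 863287168) (nat_lit 836) (nat_lit 4463909648) (nat_lit 912) (nat_lit 3372150884) (nat_lit 403) (nat_lit 5) (nat_lit 414) (nat_lit 5) (nat_lit 415) (nat_lit 5) (nat_lit 435) (nat_lit 388) (nat_lit 317)) (XT.lf (nat_lit 0) (nat_lit 6551074498) (nat_lit 836) (nat_lit 1191413838) (nat_lit 912) (nat_lit 1034869124) (nat_lit 403) (nat_lit 5) (nat_lit 414) (nat_lit 5) (nat_lit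 415) (nat_lit 5) (nat_lit 436) (nat_lit 388) (nat_lit 316))) (XT.nd (nat_lit 78) (nat_lit 760) (nat_lit 0) (XT.lf (nat_lit 0) (nat_lit 1335926308) (nat_lit 836) (nat_lit 5373600875) (nat_lit 76) (nat_lit 2147135791) (nat_lit 392) (nat_lit 5) (nat_lit 403) (nat_lit 5) (nat_lit 393) (nat_lit 5) (nat_lit 437) (nat_lit 388) (nat_lit 315)) (XT.nd (nat_lit 78) (nat_lit 0) (nat_lit 0) (XT.lf (nat_lit 0) (nat_lit 353594546) (nat_lit 760) (nat_lit 3379938767) (nat_lit 836) (nat_lit 5204019424) (nat_lit 382) (nat_lit 5) (nat_lit 392) (nat_lit 5) (nat_lit 393) (nat_lit 5) (nat_lit 438) (nat_lit 388) (nat_lit 314)) (XT.lf (nat_lit 0) (nat_lit 6183883122) (nat_lit 836) (nat_lit 2787596896) (nat_lit 76) (nat_lit 48484465) (nat_lit 382) (nat_lit 5) (nat_lit 393) (nat_lit 5) (nat_lit 383) (nat_lit 5) (nat_lit 439) (nat_lit 388) (nat_lit 313))))) (XT.nd (nat_lit 156) (nat_lit 1520) (nat_lit 0) (XT.nd (nat_lit 78) (nat_lit 76) (nat_lit 0) (XT.lf (nat_lit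 0) (nat_lit 3107685397) (nat_lit 760) (nat_lit 5587121969) (nat_lit 836) (nat_lit 408985748) (nat_lit 372) (nat_lit 5) (nat_lit 382) (nat_lit 5) (nat_lit 383) (nat_lit 5) (nat_lit 440) (nat_lit 388) (nat_lit 312)) (XT.lf (nat_lit 0) (nat_lit 2027560748) (nat_lit 836) (nat_lit 79363354) (nat_lit 76) (nat_lit 7082345584) (nat_lit 371) (nat_lit 5) (nat_lit 382) (nat_lit 5) (nat_lit 372) (nat_lit 5) (nat_lit 441) (nat_lit 388) (nat_lit 311))) (XT.nd (nat_lit 78) (nat_lit 760) (nat_lit 0) (XT.lf (nat_lit 0) (nat_lit 4525703490) (nat_lit 836) (nat_lit 3289044404) (nat_lit 76) (nat_lit 1461286997) (nat_lit 361) (nat_lit 5) (nat_lit 372) (nat_lit 5) (nat_lit 362) (nat_lit 5) (nat_lit 442) (nat_lit 388) (nat_lit 310)) (XT.nd (nat_lit 78) (nat_lit 76) (nat_lit 0) (XT.lf (nat_lit 0) (nat_lit 2798775796) (nat_lit 684) (nat_lit 4277818123) (nat_lit 760) (nat_lit 2287885784) (nat_lit 352) (nat_lit 5) (nat_lit 361) (nat_lit 5) (nat_lit 362) (nat_lit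 5) (nat_lit 443) (nat_lit 388) (nat_lit 309)) (XT.lf (nat_lit 0) (nat_lit 213378236) (nat_lit 760) (nat_lit 438274749) (nat_lit 76) (nat_lit 8803161267) (nat_lit 351) (nat_lit 5) (nat_lit 361) (nat_lit 5) (nat_lit 352) (nat_lit 5) (nat_lit 444) (nat_lit 388) (nat_lit 308)))))) (XT.nd (nat_lit 390) (nat_lit 2432) (nat_lit 0) (XT.nd (nat_lit 156) (nat_lit 1368) (nat_lit 0) (XT.nd (nat_lit 78) (nat_lit 684) (nat_lit 0) (XT.lf (nat_lit 0) (nat_lit 2762937328) (nat_lit 760) (nat_lit 3728118297) (nat_lit 76) (nat_lit 3055019317) (nat_lit 342) (nat_lit 5) (nat_lit 352) (nat_lit 5) (nat_lit 343) (nat_lit 5) (nat_lit 445) (nat_lit 388) (nat_lit 307)) (XT.lf (nat_lit 0) (nat_lit 2560419602) (nat_lit 684) (nat_lit 2798148910) (nat_lit 760) (nat_lit 4280690715) (nat_lit 333) (nat_lit 5) (nat_lit 342) (nat_lit 5) (nat_lit 343) (nat_lit 5) (nat_lit 446) (nat_lit 388) (nat_lit 306))) (XT.nd (nat_lit 78) (nat_lit 1368) (nat_lit 0) (XT.lf (nat_lit 0)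 (nat_lit 8009064175) (nat_lit 760) (nat_lit 750273600) (nat_lit 76) (nat_lit 974910387) (nat_lit 333) (nat_lit 5) (nat_lit 343) (nat_lit 5) (nat_lit 334) (nat_lit 5) (nat_lit 447) (nat_lit 388) (nat_lit 305)) (XT.nd (nat_lit 78) (nat_lit 608) (nat_lit 0) (XT.lf (nat_lit 0) (nat_lit 897808721) (nat_lit 760) (nat_lit 4109631120) (nat_lit 76) (nat_lit 4823023858) (nat_lit 323) (nat_lit 5) (nat_lit 333) (nat_lit 5) (nat_lit 324) (nat_lit 5) (nat_lit 448) (nat_lit 388) (nat_lit 304)) (XT.lf (nat_lit 0) (nat_lit 2388164447) (nat_lit 608) (nat_lit 1154772871) (nat_lit 684) (nat_lit 6385582633) (nat_lit 315) (nat_lit 5) (nat_lit 323) (nat_lit 5) (nat_lit 324) (nat_lit 5) (nat_lit 449) (nat_lit 388) (nat_lit 303))))) (XT.nd (nat_lit 234) (nat_lit 1140) (nat_lit 0) (XT.nd (nat_lit 78) (nat_lit 1292) (nat_lit 0) (XT.lf (nat_lit 0) (nat_lit 6259202778) (nat_lit 684) (nat_lit 1009564727) (nat_lit 76) (nat_lit 2759405138) (nat_lit 315) (nat_lit 5)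 (nat_lit 324) (nat_lit 5) (nat_lit 316) (nat_lit 5) (nat_lit 450) (nat_lit 388) (nat_lit 302)) (XT.nd (nat_lit 78) (nat_lit 684) (nat_lit 0) (XT.lf (nat_lit 0) (nat_lit 5684430439) (nat_lit 608) (nat_lit 3362914828) (nat_lit 684) (nat_lit 1082122088) (nat_lit 307) (nat_lit 5) (nat_lit 315) (nat_lit 5) (nat_lit 316) (nat_lit 5) (nat_lit 451) (nat_lit 388) (nat_lit 301)) (XT.lf (nat_lit 0) (nat_lit 1635647169) (nat_lit 684) (nat_lit 7958921951) (nat_lit 76) (nat_lit 638024773) (nat_lit 298) (nat_lit 5) (nat_lit 307) (nat_lit 5) (nat_lit 299) (nat_lit 5) (nat_lit 452) (nat_lit 388) (nat_lit 300)))) (XT.nd (nat_lit 78) (nat_lit 1140) (nat_lit 0) (XT.lf (nat_lit 0) (nat_lit 4418976258) (nat_lit 684) (nat_lit 1214515244) (nat_lit 76) (nat_lit 4703634521) (nat_lit 298) (nat_lit 5) (nat_lit 307) (nat_lit 5) (nat_lit 299) (nat_lit 5) (nat_lit 453) (nat_lit 388) (nat_lit 299)) (XT.nd (nat_lit 78) (nat_lit 532) (nat_lit 0) (XT.lf (nat_lit 0) (nat_lit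 5705587234) (nat_lit 608) (nat_lit 1563334525) (nat_lit 684) (nat_lit 3174608041) (nat_lit 290) (nat_lit 5) (nat_lit 298) (nat_lit 5) (nat_lit 299) (nat_lit 5) (nat_lit 454) (nat_lit 388) (nat_lit 298)) (XT.lf (nat_lit 0) (nat_lit 2206473563) (nat_lit 532) (nat_lit 7982872660) (nat_lit 608) (nat_lit 362445827) (nat_lit 283) (nat_lit 5) (nat_lit 290) (nat_lit 5) (nat_lit 291) (nat_lit 5) (nat_lit 455) (nat_lit 388) (nat_lit 297))))))))
noncomputable def xc127 : XT := (XT.nd (nat_lit 1638) (nat_lit 5016) (nat_lit 0) (XT.nd (nat_lit 780) (nat_lit 3800) (nat_lit 0) (XT.nd (nat_lit 390) (nat_lit 1596) (nat_lit 0) (XT.nd (nat_lit 156) (nat_lit 1140) (nat_lit 0) (XT.nd (nat_lit 78) (nat_lit 608) (nat_lit 0) (XT.lf (nat_lit 0) (nat_lit 2489713678) (nat_lit 608) (nat_lit 1368794806) (nat_lit 76) (nat_lit 6803053253) (nat_lit 282) (nat_lit 5) (nat_lit 290) (nat_lit 5) (nat_lit 283) (nat_lit 5) (nat_lit 456) (nat_lit 388) (nat_lit 296)) (XT.lf (nat_lit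 0) (nat_lit 5408879504) (nat_lit 684) (nat_lit 4988651118) (nat_lit 76) (nat_lit 375651953) (nat_lit 274) (nat_lit 5) (nat_lit 283) (nat_lit 5) (nat_lit 275) (nat_lit 5) (nat_lit 457) (nat_lit 388) (nat_lit 295))) (XT.nd (nat_lit 78) (nat_lit 608) (nat_lit 0) (XT.lf (nat_lit 0) (nat_lit 2181699004) (nat_lit 532) (nat_lit 6228682849) (nat_lit 608) (nat_lit 2476174914) (nat_lit 267) (nat_lit 5) (nat_lit 274) (nat_lit 5) (nat_lit 275) (nat_lit 5) (nat_lit 458) (nat_lit 388) (nat_lit 294)) (XT.nd (nat_lit 78) (nat_lit 532) (nat_lit 0) (XT.lf (nat_lit 0) (nat_lit 472350289) (nat_lit 608) (nat_lit 1475756458) (nat_lit 76) (nat_lit 9053854804) (nat_lit 266) (nat_lit 5) (nat_lit 274) (nat_lit 5) (nat_lit 267) (nat_lit 5) (nat_lit 459) (nat_lit 388) (nat_lit 293)) (XT.lf (nat_lit 0) (nat_lit 3476785826) (nat_lit 608) (nat_lit 5209190378) (nat_lit 76) (nat_lit 2432768959) (nat_lit 259) (nat_lit 5) (nat_lit 267) (nat_lit 5) (nat_lit 260) (nat_lit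 5) (nat_lit 460) (nat_lit 388) (nat_lit 292))))) (XT.nd (nat_lit 156) (nat_lit 1064) (nat_lit 0) (XT.nd (nat_lit 78) (nat_lit 0) (nat_lit 0) (XT.lf (nat_lit 0) (nat_lit 2207320087) (nat_lit 532) (nat_lit 4346981542) (nat_lit 608) (nat_lit 4683302987) (nat_lit 252) (nat_lit 5) (nat_lit 259) (nat_lit 5) (nat_lit 260) (nat_lit 5) (nat_lit 461) (nat_lit 388) (nat_lit 291)) (XT.lf (nat_lit 0) (nat_lit 9705054479) (nat_lit 608) (nat_lit 1549882129) (nat_lit 76) (nat_lit 103670916) (nat_lit 252) (nat_lit 5) (nat_lit 260) (nat_lit 5) (nat_lit 253) (nat_lit 5) (nat_lit 462) (nat_lit 388) (nat_lit 290))) (XT.nd (nat_lit 78) (nat_lit 456) (nat_lit 0) (XT.lf (nat_lit 0) (nat_lit 1463084740) (nat_lit 608) (nat_lit 5392547223) (nat_lit 76) (nat_lit 4625309222) (nat_lit 244) (nat_lit 5) (nat_lit 252) (nat_lit 5) (nat_lit 245) (nat_lit 5) (nat_lit 463) (nat_lit 388) (nat_lit 289)) (XT.nd (nat_lit 78) (nat_lit 0) (nat_lit 0) (XT.lf (nat_lit 0) (nat_lit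 2280621041) (nat_lit 456) (nat_lit 2341142454) (nat_lit 532) (nat_lit 6983702439) (nat_lit 238) (nat_lit 5) (nat_lit 244) (nat_lit 5) (nat_lit 245) (nat_lit 5) (nat_lit 464) (nat_lit 388) (nat_lit 288)) (XT.lf (nat_lit 0) (nat_lit 7871473341) (nat_lit 532) (nat_lit 1599727453) (nat_lit 76) (nat_lit 2260723234) (nat_lit 238) (nat_lit 5) (nat_lit 245) (nat_lit 5) (nat_lit 239) (nat_lit 5) (nat_lit 465) (nat_lit 388) (nat_lit 287)))))) (XT.nd (nat_lit 390) (nat_lit 1748) (nat_lit 0) (XT.nd (nat_lit 156) (nat_lit 988) (nat_lit 0) (XT.nd (nat_lit 78) (nat_lit 532) (nat_lit 0) (XT.lf (nat_lit 0) (nat_lit 6314474729) (nat_lit 532) (nat_lit 4905394868) (nat_lit 608) (nat_lit 640367844) (nat_lit 231) (nat_lit 5) (nat_lit 238) (nat_lit 5) (nat_lit 239) (nat_lit 5) (nat_lit 466) (nat_lit 388) (nat_lit 286)) (XT.lf (nat_lit 0) (nat_lit 2399154674) (nat_lit 456) (nat_lit 213943784) (nat_lit 532) (nat_lit 9377602118) (nat_lit 224) (nat_lit 5) (nat_lit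 230) (nat_lit 5) (nat_lit 231) (nat_lit 5) (nat_lit 467) (nat_lit 388) (nat_lit 285))) (XT.nd (nat_lit 78) (nat_lit 988) (nat_lit 0) (XT.lf (nat_lit 0) (nat_lit 5967654277) (nat_lit 532) (nat_lit 1612035175) (nat_lit 76) (nat_lit 4543106971) (nat_lit 224) (nat_lit 5) (nat_lit 231) (nat_lit 5) (nat_lit 225) (nat_lit 5) (nat_lit 468) (nat_lit 388) (nat_lit 284)) (XT.nd (nat_lit 78) (nat_lit 532) (nat_lit 0) (XT.lf (nat_lit 0) (nat_lit 6579604627) (nat_lit 456) (nat_lit 2831719950) (nat_lit 532) (nat_lit 2845769142) (nat_lit 218) (nat_lit 5) (nat_lit 224) (nat_lit 5) (nat_lit 225) (nat_lit 5) (nat_lit 469) (nat_lit 388) (nat_lit 283)) (XT.lf (nat_lit 0) (nat_lit 541521274) (nat_lit 532) (nat_lit 9846370108) (nat_lit 76) (nat_lit 2005743219) (nat_lit 211) (nat_lit 5) (nat_lit 218) (nat_lit 5) (nat_lit 212) (nat_lit 5) (nat_lit 470) (nat_lit 388) (nat_lit 282))))) (XT.nd (nat_lit 234) (nat_lit 912) (nat_lit 0) (XT.nd (nat_lit 78) (nat_lit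 836) (nat_lit 0) (XT.lf (nat_lit 0) (nat_lit 3993715490) (nat_lit 532) (nat_lit 1589095375) (nat_lit 76) (nat_lit 6949013970) (nat_lit 211) (nat_lit 5) (nat_lit 218) (nat_lit 5) (nat_lit 212) (nat_lit 5) (nat_lit 471) (nat_lit 388) (nat_lit 281)) (XT.nd (nat_lit 78) (nat_lit 380) (nat_lit 0) (XT.lf (nat_lit 0) (nat_lit 6891777949) (nat_lit 456) (nat_lit 646473454) (nat_lit 532) (nat_lit 5134061511) (nat_lit 205) (nat_lit 5) (nat_lit 211) (nat_lit 5) (nat_lit 212) (nat_lit 5) (nat_lit 472) (nat_lit 388) (nat_lit 280)) (XT.lf (nat_lit 0) (nat_lit 2723486330) (nat_lit 380) (nat_lit 8465800607) (nat_lit 456) (nat_lit 1625611641) (nat_lit 200) (nat_lit 5) (nat_lit 205) (nat_lit 5) (nat_lit 206) (nat_lit 5) (nat_lit 473) (nat_lit 388) (nat_lit 279)))) (XT.nd (nat_lit 78) (nat_lit 836) (nat_lit 0) (XT.lf (nat_lit 0) (nat_lit 1949491169) (nat_lit 456) (nat_lit 1532985185) (nat_lit 76) (nat_lit 9477164038) (nat_lit 199) (nat_lit 5) (nat_lit 205)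 (nat_lit 5) (nat_lit 200) (nat_lit 5) (nat_lit 474) (nat_lit 388) (nat_lit 278)) (XT.nd (nat_lit 78) (nat_lit 380) (nat_lit 0) (XT.lf (nat_lit 0) (nat_lit 5611308123) (nat_lit 532) (nat_lit 5867840724) (nat_lit 76) (nat_lit 1627173709) (nat_lit 193) (nat_lit 5) (nat_lit 200) (nat_lit 5) (nat_lit 194) (nat_lit 5) (nat_lit 475) (nat_lit 388) (nat_lit 277)) (XT.lf (nat_lit 0) (nat_lit 2934119944) (nat_lit 380) (nat_lit 6444030732) (nat_lit 456) (nat_lit 3877151901) (nat_lit 188) (nat_lit 5) (nat_lit 193) (nat_lit 5) (nat_lit 194) (nat_lit 5) (nat_lit 476) (nat_lit 388) (nat_lit 276))))))) (XT.nd (nat_lit 780) (nat_lit 2660) (nat_lit 0) (XT.nd (nat_lit 390) (nat_lit 1064) (nat_lit 0) (XT.nd (nat_lit 156) (nat_lit 836) (nat_lit 0) (XT.nd (nat_lit 78) (nat_lit 456) (nat_lit 0) (XT.lf (nat_lit 0) (nat_lit 11960211945) (nat_lit 380) (nat_lit 1279016711) (nat_lit 456) (nat_lit 167655572) (nat_lit 188) (nat_lit 5) (nat_lit 193) (nat_lit 5) (nat_lit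 194) (nat_lit 5) (nat_lit 477) (nat_lit 388) (nat_lit 275)) (XT.lf (nat_lit 0) (nat_lit 3624387544) (nat_lit 456) (nat_lit 5935657380) (nat_lit 76) (nat_lit 3999867398) (nat_lit 182) (nat_lit 5) (nat_lit 188) (nat_lit 5) (nat_lit 183) (nat_lit 5) (nat_lit 478) (nat_lit 388) (nat_lit 274))) (XT.nd (nat_lit 78) (nat_lit 456) (nat_lit 0) (XT.lf (nat_lit 0) (nat_lit 3181256809) (nat_lit 380) (nat_lit 4327585124) (nat_lit 456) (nat_lit 6206760575) (nat_lit 177) (nat_lit 5) (nat_lit 182) (nat_lit 5) (nat_lit 183) (nat_lit 5) (nat_lit 479) (nat_lit 388) (nat_lit 273)) (XT.nd (nat_lit 78) (nat_lit 456) (nat_lit 0) (XT.lf (nat_lit 0) (nat_lit 11497671095) (nat_lit 456) (nat_lit 1350804592) (nat_lit 76) (nat_lit 1025397099) (nat_lit 177) (nat_lit 5) (nat_lit 183) (nat_lit 5) (nat_lit 178) (nat_lit 5) (nat_lit 480) (nat_lit 388) (nat_lit 272)) (XT.lf (nat_lit 0) (nat_lit 1572732073) (nat_lit 456) (nat_lit 5981664776) (nat_lit 76) (nat_lit 6479475964)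 (nat_lit 171) (nat_lit 5) (nat_lit 177) (nat_lit 5) (nat_lit 172) (nat_lit 5) (nat_lit 481) (nat_lit 388) (nat_lit 271))))) (XT.nd (nat_lit 156) (nat_lit 760) (nat_lit 0) (XT.nd (nat_lit 78) (nat_lit 0) (nat_lit 0) (XT.lf (nat_lit 0) (nat_lit 3463540692) (nat_lit 304) (nat_lit 2117413107) (nat_lit 380) (nat_lit 8615562377) (nat_lit 167) (nat_lit 5) (nat_lit 171) (nat_lit 5) (nat_lit 172) (nat_lit 5) (nat_lit 482) (nat_lit 388) (nat_lit 270)) (XT.lf (nat_lit 0) (nat_lit 9712600421) (nat_lit 380) (nat_lit 1236299676) (nat_lit 76) (nat_lit 3412647099) (nat_lit 167) (nat_lit 5) (nat_lit 172) (nat_lit 5) (nat_lit 168) (nat_lit 5) (nat_lit 483) (nat_lit 388) (nat_lit 269))) (XT.nd (nat_lit 78) (nat_lit 380) (nat_lit 0) (XT.lf (nat_lit 0) (nat_lit 8517705449) (nat_lit 380) (nat_lit 5459475849) (nat_lit 456) (nat_lit 551691512) (nat_lit 162) (nat_lit 5) (nat_lit 167) (nat_lit 5) (nat_lit 168) (nat_lit 5) (nat_lit 484) (nat_lit 388) (nat_lit 268))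 (XT.nd (nat_lit 78) (nat_lit 0) (nat_lit 0) (XT.lf (nat_lit 0) (nat_lit 3595061653) (nat_lit 380) (nat_lit 10920212823) (nat_lit 76) (nat_lit 183496852) (nat_lit 157) (nat_lit 5) (nat_lit 162) (nat_lit 5) (nat_lit 158) (nat_lit 5) (nat_lit 485) (nat_lit 388) (nat_lit 267)) (XT.lf (nat_lit 0) (nat_lit 7875261845) (nat_lit 380) (nat_lit 1096223612) (nat_lit 76) (nat_lit 5899351444) (nat_lit 157) (nat_lit 5) (nat_lit 162) (nat_lit 5) (nat_lit 158) (nat_lit 5) (nat_lit 486) (nat_lit 388) (nat_lit 266)))))) (XT.nd (nat_lit 390) (nat_lit 1292) (nat_lit 0) (XT.nd (nat_lit 156) (nat_lit 608) (nat_lit 0) (XT.nd (nat_lit 78) (nat_lit 380) (nat_lit 0) (XT.lf (nat_lit 0) (nat_lit 9012596015) (nat_lit 380) (nat_lit 3268487247) (nat_lit 456) (nat_lit 2764460178) (nat_lit 152) (nat_lit 5) (nat_lit 157) (nat_lit 5) (nat_lit 158) (nat_lit 5) (nat_lit 487) (nat_lit 388) (nat_lit 265)) (XT.lf (nat_lit 0) (nat_lit 1563461010) (nat_lit 380) (nat_lit 11111006925)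 (nat_lit 76) (nat_lit 2548424152) (nat_lit 147) (nat_lit 5) (nat_lit 152) (nat_lit 5) (nat_lit 148) (nat_lit 5) (nat_lit 488) (nat_lit 388) (nat_lit 264))) (XT.nd (nat_lit 78) (nat_lit 608) (nat_lit 0) (XT.lf (nat_lit 0) (nat_lit 5985002087) (nat_lit 380) (nat_lit 931801556) (nat_lit 76) (nat_lit 8485737049) (nat_lit 147) (nat_lit 5) (nat_lit 152) (nat_lit 5) (nat_lit 148) (nat_lit 5) (nat_lit 489) (nat_lit 388) (nat_lit 263)) (XT.nd (nat_lit 78) (nat_lit 304) (nat_lit 0) (XT.lf (nat_lit 0) (nat_lit 9546789182) (nat_lit 304) (nat_lit 992173806) (nat_lit 380) (nat_lit 5045939503) (nat_lit 143) (nat_lit 5) (nat_lit 147) (nat_lit 5) (nat_lit 148) (nat_lit 5) (nat_lit 490) (nat_lit 388) (nat_lit 262)) (XT.lf (nat_lit 0) (nat_lit 4473130603) (nat_lit 304) (nat_lit 10761097626) (nat_lit 380) (nat_lit 535678793) (nat_lit 139) (nat_lit 5) (nat_lit 143) (nat_lit 5) (nat_lit 144) (nat_lit 5) (nat_lit 491) (nat_lit 388) (nat_lit 261))))) (XT.nd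 (nat_lit 234) (nat_lit 608) (nat_lit 0) (XT.nd (nat_lit 78) (nat_lit 608) (nat_lit 0) (XT.lf (nat_lit 0) (nat_lit 4040972184) (nat_lit 380) (nat_lit 744123180) (nat_lit 76) (nat_lit 11172398545) (nat_lit 138) (nat_lit 5) (nat_lit 143) (nat_lit 5) (nat_lit 139) (nat_lit 5) (nat_lit 492) (nat_lit 388) (nat_lit 260)) (XT.nd (nat_lit 78) (nat_lit 304) (nat_lit 0) (XT.lf (nat_lit 0) (nat_lit 8759074818) (nat_lit 380) (nat_lit 6036891641) (nat_lit 76) (nat_lit 1351653430) (nat_lit 134) (nat_lit 5) (nat_lit 139) (nat_lit 5) (nat_lit 135) (nat_lit 5) (nat_lit 493) (nat_lit 388) (nat_lit 259)) (XT.lf (nat_lit 0) (nat_lit 4854213932) (nat_lit 304) (nat_lit 8768128500) (nat_lit 380) (nat_lit 2718189899) (nat_lit 130) (nat_lit 5) (nat_lit 134) (nat_lit 5) (nat_lit 135) (nat_lit 5) (nat_lit 494) (nat_lit 388) (nat_lit 258)))) (XT.nd (nat_lit 78) (nat_lit 532) (nat_lit 0) (XT.lf (nat_lit 0) (nat_lit 2042133612) (nat_lit 380) (nat_lit 534151546) (nat_lit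 76) (nat_lit 13960284453) (nat_lit 129) (nat_lit 5) (nat_lit 134) (nat_lit 5) (nat_lit 130) (nat_lit 5) (nat_lit 495) (nat_lit 388) (nat_lit 257)) (XT.nd (nat_lit 78) (nat_lit 228) (nat_lit 0) (XT.lf (nat_lit 0) (nat_lit 6938711788) (nat_lit 380) (nat_lit 6028612047) (nat_lit 76) (nat_lit 3767295562) (nat_lit 125) (nat_lit 5) (nat_lit 130) (nat_lit 5) (nat_lit 126) (nat_lit 5) (nat_lit 496) (nat_lit 388) (nat_lit 256)) (XT.lf (nat_lit 0) (nat_lit 5265029609) (nat_lit 228) (nat_lit 6706073104) (nat_lit 304) (nat_lit 4964769841) (nat_lit 122) (nat_lit 5) (nat_lit 125) (nat_lit 5) (nat_lit 126) (nat_lit 5) (nat_lit 497) (nat_lit 388) (nat_lit 255))))))))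
noncomputable def xc128 : XT := (XT.nd (nat_lit 51870) (nat_lit 0) (nat_lit 33060) (XT.nd (nat_lit 51090) (nat_lit 0) (nat_lit 47576) (XT.nd (nat_lit 390) (nat_lit 532) (nat_lit 0) (XT.nd (nat_lit 156) (nat_lit 608) (nat_lit 0) (XT.nd (nat_lit 78) (nat_lit 380) (nat_lit 0) (XT.lf (nat_lit 0) (nat_lit 16837863135) (nat_lit 228) (nat_lit 289909339) (nat_lit 304) (nat_lit 12905682) (nat_lit 122) (nat_lit 5) (nat_lit 125) (nat_lit 5) (nat_lit 126) (nat_lit 5) (nat_lit 498) (nat_lit 388) (nat_lit 254)) (XT.lf (nat_lit 0) (nat_lit 5070451904) (nat_lit 380) (nat_lit 6007956327) (nat_lit 76) (nat_lit 6268546831) (nat_lit 117) (nat_lit 5) (nat_lit 122) (nat_lit 5) (nat_lit 118) (nat_lit 5) (nat_lit 499) (nat_lit 388) (nat_lit 253))) (XT.nd (nat_lit 78) (nat_lit 380) (nat_lit 0) (XT.lf (nat_lit 0) (nat_lit 5705106720) (nat_lit 228) (nat_lit 4574670952) (nat_lit 304) (nat_lit 7277088650) (nat_lit 114) (nat_lit 5) (nat_lit 117) (nat_lit 5) (nat_lit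 118) (nat_lit 5) (nat_lit 500) (nat_lit 388) (nat_lit 252)) (XT.nd (nat_lit 78) (nat_lit 380) (nat_lit 0) (XT.lf (nat_lit 0) (nat_lit 15630777378) (nat_lit 304) (nat_lit 78137554) (nat_lit 76) (nat_lit 2061311126) (nat_lit 114) (nat_lit 5) (nat_lit 118) (nat_lit 5) (nat_lit 115) (nat_lit 5) (nat_lit 501) (nat_lit 388) (nat_lit 251)) (XT.lf (nat_lit 0) (nat_lit 3153150846) (nat_lit 380) (nat_lit 5975954167) (nat_lit 76) (nat_lit 8856487786) (nat_lit 109) (nat_lit 5) (nat_lit 114) (nat_lit 5) (nat_lit 110) (nat_lit 5) (nat_lit 502) (nat_lit 388) (nat_lit 250))))) (XT.nd (nat_lit 50466) (nat_lit 0) (nat_lit 50008) (XT.nd (nat_lit 78) (nat_lit 304) (nat_lit 0) (XT.lf (nat_lit 0) (nat_lit 6174094040) (nat_lit 228) (nat_lit 2373391630) (nat_lit 304) (nat_lit 9657007759) (nat_lit 106) (nat_lit 5) (nat_lit 109) (nat_lit 5) (nat_lit 110) (nat_lit 5) (nat_lit 503) (nat_lit 388) (nat_lit 249)) (XT.lf (nat_lit 0) (nat_lit 166016427) (nat_lit 304)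 (nat_lit 13938418339) (nat_lit 380) (nat_lit 4322242753) (nat_lit 102) (nat_lit 5) (nat_lit 106) (nat_lit 5) (nat_lit 107) (nat_lit 5) (nat_lit 504) (nat_lit 388) (nat_lit 248))) (XT.nd (nat_lit 78) (nat_lit 684) (nat_lit 0) (XT.lf (nat_lit 0) (nat_lit 2673315549) (nat_lit 684) (nat_lit 312290560) (nat_lit 684) (nat_lit 312290560) (nat_lit 769) (nat_lit 3) (nat_lit 778) (nat_lit 3) (nat_lit 778) (nat_lit 5) (nat_lit 389) (nat_lit 389) (nat_lit 362)) (XT.nd (nat_lit 78) (nat_lit 0) (nat_lit 0) (XT.lf (nat_lit 0) (nat_lit 1181865454) (nat_lit 684) (nat_lit 3912464086) (nat_lit 760) (nat_lit 1519046112) (nat_lit 760) (nat_lit 5) (nat_lit 769) (nat_lit 3) (nat_lit 770) (nat_lit 5) (nat_lit 390) (nat_lit 389) (nat_lit 361)) (XT.lf (nat_lit 0) (nat_lit 3585614065) (nat_lit 684) (nat_lit 571431741) (nat_lit 760) (nat_lit 2475282133) (nat_lit 760) (nat_lit 5) (nat_lit 769) (nat_lit 3) (nat_lit 770) (nat_lit 5) (nat_lit 391) (nat_lit 389) (nat_lit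 360)))))) (XT.nd (nat_lit 390) (nat_lit 912) (nat_lit 0) (XT.nd (nat_lit 156) (nat_lit 760) (nat_lit 0) (XT.nd (nat_lit 78) (nat_lit 760) (nat_lit 0) (XT.lf (nat_lit 76) (nat_lit 2841048712) (nat_lit 0) (nat_lit 3152670186) (nat_lit 760) (nat_lit 658814749) (nat_lit 761) (nat_lit 5) (nat_lit 760) (nat_lit 5) (nat_lit 770) (nat_lit 5) (nat_lit 392) (nat_lit 389) (nat_lit 359)) (XT.lf (nat_lit 0) (nat_lit 1695837455) (nat_lit 760) (nat_lit 388340754) (nat_lit 836) (nat_lit 4589888558) (nat_lit 750) (nat_lit 5) (nat_lit 760) (nat_lit 5) (nat_lit 761) (nat_lit 5) (nat_lit 393) (nat_lit 389) (nat_lit 358))) (XT.nd (nat_lit 78) (nat_lit 760) (nat_lit 0) (XT.lf (nat_lit 76) (nat_lit 3107067931) (nat_lit 0) (nat_lit 941520422) (nat_lit 836) (nat_lit 2648158557) (nat_lit 751) (nat_lit 5) (nat_lit 750) (nat_lit 5) (nat_lit 761) (nat_lit 5) (nat_lit 394) (nat_lit 389) (nat_lit 357)) (XT.nd (nat_lit 78) (nat_lit 836) (nat_lit 0) (XT.lf (nat_lit 0)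 (nat_lit 6393266191) (nat_lit 760) (nat_lit 77384974) (nat_lit 836) (nat_lit 250332053) (nat_lit 751) (nat_lit 5) (nat_lit 761) (nat_lit 5) (nat_lit 762) (nat_lit 5) (nat_lit 395) (nat_lit 389) (nat_lit 356)) (XT.lf (nat_lit 0) (nat_lit 1983189782) (nat_lit 836) (nat_lit 3247425034) (nat_lit 912) (nat_lit 1515408646) (nat_lit 740) (nat_lit 5) (nat_lit 751) (nat_lit 5) (nat_lit 752) (nat_lit 5) (nat_lit 396) (nat_lit 389) (nat_lit 355))))) (XT.nd (nat_lit 156) (nat_lit 912) (nat_lit 0) (XT.nd (nat_lit 78) (nat_lit 0) (nat_lit 0) (XT.lf (nat_lit 76) (nat_lit 344319581) (nat_lit 0) (nat_lit 3936871233) (nat_lit 912) (nat_lit 2491425088) (nat_lit 741) (nat_lit 5) (nat_lit 740) (nat_lit 5) (nat_lit 752) (nat_lit 5) (nat_lit 397) (nat_lit 389) (nat_lit 354)) (XT.lf (nat_lit 76) (nat_lit 4018521137) (nat_lit 0) (nat_lit 2571835068) (nat_lit 912) (nat_lit 210079900) (nat_lit 741) (nat_lit 5) (nat_lit 740) (nat_lit 5) (nat_lit 752) (nat_lit 5)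 (nat_lit 398) (nat_lit 389) (nat_lit 353))) (XT.nd (nat_lit 78) (nat_lit 0) (nat_lit 76) (XT.lf (nat_lit 76) (nat_lit 901994612) (nat_lit 0) (nat_lit 1137145068) (nat_lit 988) (nat_lit 4790397928) (nat_lit 729) (nat_lit 5) (nat_lit 728) (nat_lit 5) (nat_lit 741) (nat_lit 5) (nat_lit 399) (nat_lit 389) (nat_lit 352)) (XT.nd (nat_lit 78) (nat_lit 0) (nat_lit 0) (XT.lf (nat_lit 0) (nat_lit 4296617713) (nat_lit 912) (nat_lit 2199693739) (nat_lit 988) (nat_lit 363560177) (nat_lit 729) (nat_lit 5) (nat_lit 741) (nat_lit 5) (nat_lit 742) (nat_lit 5) (nat_lit 400) (nat_lit 389) (nat_lit 351)) (XT.lf (nat_lit 76) (nat_lit 1582102987) (nat_lit 0) (nat_lit 4981194650) (nat_lit 988) (nat_lit 328233646) (nat_lit 730) (nat_lit 5) (nat_lit 729) (nat_lit 5) (nat_lit 742) (nat_lit 5) (nat_lit 401) (nat_lit 389) (nat_lit 350))))))) (XT.nd (nat_lit 780) (nat_lit 10336) (nat_lit 0) (XT.nd (nat_lit 390) (nat_lit 2280) (nat_lit 0) (XT.nd (nat_lit 156) (nat_lit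 988) (nat_lit 0) (XT.nd (nat_lit 78) (nat_lit 0) (nat_lit 0) (XT.lf (nat_lit 0) (nat_lit 1887486603) (nat_lit 988) (nat_lit 1501257569) (nat_lit 1064) (nat_lit 3535594676) (nat_lit 716) (nat_lit 5) (nat_lit 729) (nat_lit 5) (nat_lit 730) (nat_lit 5) (nat_lit 402) (nat_lit 389) (nat_lit 349)) (XT.lf (nat_lit 76) (nat_lit 2378455900) (nat_lit 0) (nat_lit 1727896166) (nat_lit 1064) (nat_lit 2852142592) (nat_lit 717) (nat_lit 5) (nat_lit 716) (nat_lit 5) (nat_lit 730) (nat_lit 5) (nat_lit 403) (nat_lit 389) (nat_lit 348))) (XT.nd (nat_lit 78) (nat_lit 988) (nat_lit 0) (XT.lf (nat_lit 76) (nat_lit 6322694086) (nat_lit 0) (nat_lit 5561170) (nat_lit 1064) (nat_lit 665905117) (nat_lit 717) (nat_lit 5) (nat_lit 716) (nat_lit 5) (nat_lit 730) (nat_lit 5) (nat_lit 404) (nat_lit 389) (nat_lit 347)) (XT.nd (nat_lit 78) (nat_lit 0) (nat_lit 0) (XT.lf (nat_lit 0) (nat_lit 1526021155) (nat_lit 1064) (nat_lit 3727449639) (nat_lit 1140) (nat_lit 1777215974)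 (nat_lit 703) (nat_lit 5) (nat_lit 717) (nat_lit 5) (nat_lit 718) (nat_lit 5) (nat_lit 405) (nat_lit 389) (nat_lit 346)) (XT.lf (nat_lit 76) (nat_lit 263333549) (nat_lit 0) (nat_lit 3445974972) (nat_lit 1140) (nat_lit 3359418354) (nat_lit 704) (nat_lit 5) (nat_lit 703) (nat_lit 5) (nat_lit 718) (nat_lit 5) (nat_lit 406) (nat_lit 389) (nat_lit 345))))) (XT.nd (nat_lit 156) (nat_lit 1216) (nat_lit 0) (XT.nd (nat_lit 78) (nat_lit 1064) (nat_lit 0) (XT.lf (nat_lit 76) (nat_lit 4350358367) (nat_lit 0) (nat_lit 1561820900) (nat_lit 1140) (nat_lit 1195830165) (nat_lit 704) (nat_lit 5) (nat_lit 703) (nat_lit 5) (nat_lit 718) (nat_lit 5) (nat_lit 407) (nat_lit 389) (nat_lit 344)) (XT.lf (nat_lit 0) (nat_lit 960603238) (nat_lit 1140) (nat_lit 5803186268) (nat_lit 76) (nat_lit 384900184) (nat_lit 689) (nat_lit 5) (nat_lit 704) (nat_lit 5) (nat_lit 690) (nat_lit 5) (nat_lit 408) (nat_lit 389) (nat_lit 343))) (XT.nd (nat_lit 78) (nat_lit 1216) (nat_lit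 0) (XT.lf (nat_lit 0) (nat_lit 3125507815) (nat_lit 1140) (nat_lit 1674993048) (nat_lit 76) (nat_lit 2389897508) (nat_lit 689) (nat_lit 5) (nat_lit 704) (nat_lit 5) (nat_lit 690) (nat_lit 5) (nat_lit 409) (nat_lit 389) (nat_lit 342)) (XT.nd (nat_lit 78) (nat_lit 76) (nat_lit 0) (XT.lf (nat_lit 0) (nat_lit 2534796437) (nat_lit 1140) (nat_lit 2768674249) (nat_lit 1216) (nat_lit 1930075335) (nat_lit 674) (nat_lit 5) (nat_lit 689) (nat_lit 5) (nat_lit 690) (nat_lit 5) (nat_lit 410) (nat_lit 389) (nat_lit 341)) (XT.lf (nat_lit 0) (nat_lit 209198484) (nat_lit 1216) (nat_lit 462128323) (nat_lit 76) (nat_lit 6606897537) (nat_lit 673) (nat_lit 5) (nat_lit 689) (nat_lit 5) (nat_lit 674) (nat_lit 5) (nat_lit 411) (nat_lit 389) (nat_lit 340)))))) (XT.nd (nat_lit 390) (nat_lit 6384) (nat_lit 0) (XT.nd (nat_lit 156) (nat_lit 1444) (nat_lit 0) (XT.nd (nat_lit 78) (nat_lit 1292) (nat_lit 0) (XT.lf (nat_lit 0) (nat_lit 2354977801) (nat_lit 1292) (nat_lit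 3470617178) (nat_lit 76) (nat_lit 1498154825) (nat_lit 657) (nat_lit 5) (nat_lit 674) (nat_lit 5) (nat_lit 658) (nat_lit 5) (nat_lit 412) (nat_lit 389) (nat_lit 339)) (XT.lf (nat_lit 0) (nat_lit 863024913) (nat_lit 1292) (nat_lit 3649162545) (nat_lit 1368) (nat_lit 2858628019) (nat_lit 640) (nat_lit 5) (nat_lit 657) (nat_lit 5) (nat_lit 658) (nat_lit 5) (nat_lit 413) (nat_lit 389) (nat_lit 338))) (XT.nd (nat_lit 78) (nat_lit 1444) (nat_lit 0) (XT.lf (nat_lit 0) (nat_lit 5295946327) (nat_lit 1292) (nat_lit 1395880551) (nat_lit 1368) (nat_lit 727409874) (nat_lit 640) (nat_lit 5) (nat_lit 657) (nat_lit 5) (nat_lit 658) (nat_lit 5) (nat_lit 414) (nat_lit 389) (nat_lit 337)) (XT.nd (nat_lit 78) (nat_lit 0) (nat_lit 0) (XT.lf (nat_lit 0) (nat_lit 1405282049) (nat_lit 1444) (nat_lit 5139282414) (nat_lit 76) (nat_lit 924317773) (nat_lit 621) (nat_lit 5) (nat_lit 640) (nat_lit 5) (nat_lit 622) (nat_lit 5) (nat_lit 415) (nat_lit 389) (nat_lit 336))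 (XT.lf (nat_lit 0) (nat_lit 3551743306) (nat_lit 1444) (nat_lit 668088801) (nat_lit 76) (nat_lit 3299975249) (nat_lit 621) (nat_lit 5) (nat_lit 640) (nat_lit 5) (nat_lit 622) (nat_lit 5) (nat_lit 416) (nat_lit 389) (nat_lit 335))))) (XT.nd (nat_lit 234) (nat_lit 3344) (nat_lit 0) (XT.nd (nat_lit 78) (nat_lit 1596) (nat_lit 0) (XT.lf (nat_lit 0) (nat_lit 3909461891) (nat_lit 1444) (nat_lit 1815152177) (nat_lit 1520) (nat_lit 1847467305) (nat_lit 602) (nat_lit 5) (nat_lit 621) (nat_lit 5) (nat_lit 622) (nat_lit 5) (nat_lit 417) (nat_lit 389) (nat_lit 334)) (XT.nd (nat_lit 78) (nat_lit 0) (nat_lit 0) (XT.lf (nat_lit 0) (nat_lit 284697707) (nat_lit 1596) (nat_lit 6692384194) (nat_lit 76) (nat_lit 648812101) (nat_lit 581) (nat_lit 5) (nat_lit 602) (nat_lit 5) (nat_lit 582) (nat_lit 5) (nat_lit 418) (nat_lit 389) (nat_lit 333)) (XT.lf (nat_lit 0) (nat_lit 2430611481) (nat_lit 1596) (nat_lit 2068801196) (nat_lit 76) (nat_lit 3181209110) (nat_lit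 581) (nat_lit 5) (nat_lit 602) (nat_lit 5) (nat_lit 582) (nat_lit 5) (nat_lit 419) (nat_lit 389) (nat_lit 332)))) (XT.nd (nat_lit 78) (nat_lit 1748) (nat_lit 0) (XT.lf (nat_lit 0) (nat_lit 2647365505) (nat_lit 1596) (nat_lit 1949127436) (nat_lit 1672) (nat_lit 3140410199) (nat_lit 560) (nat_lit 5) (nat_lit 581) (nat_lit 5) (nat_lit 582) (nat_lit 5) (nat_lit 420) (nat_lit 389) (nat_lit 331)) (XT.nd (nat_lit 78) (nat_lit 1748) (nat_lit 0) (XT.lf (nat_lit 0) (nat_lit 6784359491) (nat_lit 1672) (nat_lit 347666168) (nat_lit 76) (nat_lit 662711112) (nat_lit 560) (nat_lit 5) (nat_lit 582) (nat_lit 5) (nat_lit 561) (nat_lit 5) (nat_lit 421) (nat_lit 389) (nat_lit 330)) (XT.lf (nat_lit 0) (nat_lit 1150398495) (nat_lit 1748) (nat_lit 3360582703) (nat_lit 76) (nat_lit 3342527245) (nat_lit 537) (nat_lit 5) (nat_lit 560) (nat_lit 5) (nat_lit 538) (nat_lit 5) (nat_lit 422) (nat_lit 389) (nat_lit 329))))))))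
noncomputable def xc129 : XT := (XT.nd (nat_lit 1560) (nat_lit 8892) (nat_lit 0) (XT.nd (nat_lit 780) (nat_lit 5852) (nat_lit 0) (XT.nd (nat_lit 390) (nat_lit 2736) (nat_lit 0) (XT.nd (nat_lit 156) (nat_lit 3040) (nat_lit 0) (XT.nd (nat_lit 78) (nat_lit 0) (nat_lit 0) (XT.lf (nat_lit 0) (nat_lit 1499796534) (nat_lit 1748) (nat_lit 1814681241) (nat_lit 1824) (nat_lit 4599371863) (nat_lit 514) (nat_lit 5) (nat_lit 537) (nat_lit 5) (nat_lit 538) (nat_lit 5) (nat_lit 423) (nat_lit 389) (nat_lit 328)) (XT.lf (nat_lit 0) (nat_lit 5512683627) (nat_lit 1824) (nat_lit 1513585431) (nat_lit 76) (nat_lit 949311699) (nat_lit 514) (nat_lit 5) (nat_lit 538) (nat_lit 5) (nat_lit 515) (nat_lit 5) (nat_lit 424) (nat_lit 389) (nat_lit 327))) (XT.nd (nat_lit 78) (nat_lit 1216) (nat_lit 0) (XT.lf (nat_lit 0) (nat_lit 3483906869) (nat_lit 1824) (nat_lit 4268398222) (nat_lit 1900) (nat_lit 286292378) (nat_lit 490) (nat_lit 5) (nat_lit 514) (nat_lit 5) (nat_lit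 515) (nat_lit 5) (nat_lit 425) (nat_lit 389) (nat_lit 326)) (XT.nd (nat_lit 78) (nat_lit 0) (nat_lit 0) (XT.lf (nat_lit 0) (nat_lit 457652103) (nat_lit 1140) (nat_lit 1427101825) (nat_lit 1216) (nat_lit 6218344028) (nat_lit 474) (nat_lit 5) (nat_lit 489) (nat_lit 5) (nat_lit 490) (nat_lit 5) (nat_lit 426) (nat_lit 389) (nat_lit 325)) (XT.lf (nat_lit 0) (nat_lit 4099295488) (nat_lit 1216) (nat_lit 2583376407) (nat_lit 76) (nat_lit 1486100553) (nat_lit 474) (nat_lit 5) (nat_lit 490) (nat_lit 5) (nat_lit 475) (nat_lit 5) (nat_lit 427) (nat_lit 389) (nat_lit 324))))) (XT.nd (nat_lit 156) (nat_lit 1748) (nat_lit 0) (XT.nd (nat_lit 78) (nat_lit 76) (nat_lit 0) (XT.lf (nat_lit 0) (nat_lit 2569445193) (nat_lit 912) (nat_lit 3779116796) (nat_lit 988) (nat_lit 1887389760) (nat_lit 462) (nat_lit 5) (nat_lit 474) (nat_lit 5) (nat_lit 475) (nat_lit 5) (nat_lit 428) (nat_lit 389) (nat_lit 323)) (XT.lf (nat_lit 0) (nat_lit 315895657) (nat_lit 988) (nat_lit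 481077509) (nat_lit 76) (nat_lit 7507817657) (nat_lit 461) (nat_lit 5) (nat_lit 474) (nat_lit 5) (nat_lit 462) (nat_lit 5) (nat_lit 429) (nat_lit 389) (nat_lit 322))) (XT.nd (nat_lit 78) (nat_lit 836) (nat_lit 0) (XT.lf (nat_lit 0) (nat_lit 2549428922) (nat_lit 988) (nat_lit 3565151694) (nat_lit 76) (nat_lit 2259947465) (nat_lit 449) (nat_lit 5) (nat_lit 462) (nat_lit 5) (nat_lit 450) (nat_lit 5) (nat_lit 430) (nat_lit 389) (nat_lit 321)) (XT.nd (nat_lit 78) (nat_lit 0) (nat_lit 0) (XT.lf (nat_lit 0) (nat_lit 1749454360) (nat_lit 836) (nat_lit 3063765121) (nat_lit 912) (nat_lit 3632728871) (nat_lit 438) (nat_lit 5) (nat_lit 449) (nat_lit 5) (nat_lit 450) (nat_lit 5) (nat_lit 431) (nat_lit 389) (nat_lit 320)) (XT.lf (nat_lit 0) (nat_lit 7112824776) (nat_lit 912) (nat_lit 1335309618) (nat_lit 76) (nat_lit 70851855) (nat_lit 438) (nat_lit 5) (nat_lit 450) (nat_lit 5) (nat_lit 439) (nat_lit 5) (nat_lit 432) (nat_lit 389) (nat_lit 319))))))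 (XT.nd (nat_lit 390) (nat_lit 2356) (nat_lit 0) (XT.nd (nat_lit 156) (nat_lit 1672) (nat_lit 0) (XT.nd (nat_lit 78) (nat_lit 836) (nat_lit 0) (XT.lf (nat_lit 0) (nat_lit 867614656) (nat_lit 988) (nat_lit 4466416730) (nat_lit 76) (nat_lit 3259060780) (nat_lit 425) (nat_lit 5) (nat_lit 438) (nat_lit 5) (nat_lit 426) (nat_lit 5) (nat_lit 433) (nat_lit 389) (nat_lit 318)) (XT.lf (nat_lit 0) (nat_lit 1016742035) (nat_lit 836) (nat_lit 2133954164) (nat_lit 912) (nat_lit 5518144938) (nat_lit 414) (nat_lit 5) (nat_lit 425) (nat_lit 5) (nat_lit 426) (nat_lit 5) (nat_lit 434) (nat_lit 389) (nat_lit 317))) (XT.nd (nat_lit 78) (nat_lit 1672) (nat_lit 0) (XT.lf (nat_lit 0) (nat_lit 5484377017) (nat_lit 912) (nat_lit 2118065125) (nat_lit 76) (nat_lit 1143564195) (nat_lit 414) (nat_lit 5) (nat_lit 426) (nat_lit 5) (nat_lit 415) (nat_lit 5) (nat_lit 435) (nat_lit 389) (nat_lit 316)) (XT.nd (nat_lit 78) (nat_lit 836) (nat_lit 0) (XT.lf (nat_lit 0) (nat_lit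 3524297118) (nat_lit 836) (nat_lit 4345516814) (nat_lit 912) (nat_lit 954799258) (nat_lit 403) (nat_lit 5) (nat_lit 414) (nat_lit 5) (nat_lit 415) (nat_lit 5) (nat_lit 436) (nat_lit 389) (nat_lit 315)) (XT.lf (nat_lit 0) (nat_lit 364683326) (nat_lit 760) (nat_lit 1000085519) (nat_lit 836) (nat_lit 7540143005) (nat_lit 392) (nat_lit 5) (nat_lit 402) (nat_lit 5) (nat_lit 403) (nat_lit 5) (nat_lit 437) (nat_lit 389) (nat_lit 314))))) (XT.nd (nat_lit 156) (nat_lit 1596) (nat_lit 0) (XT.nd (nat_lit 78) (nat_lit 760) (nat_lit 0) (XT.lf (nat_lit 0) (nat_lit 3738063280) (nat_lit 836) (nat_lit 2828512074) (nat_lit 76) (nat_lit 2419712511) (nat_lit 392) (nat_lit 5) (nat_lit 403) (nat_lit 5) (nat_lit 393) (nat_lit 5) (nat_lit 438) (nat_lit 389) (nat_lit 313)) (XT.lf (nat_lit 0) (nat_lit 2995776198) (nat_lit 760) (nat_lit 3158378276) (nat_lit 836) (nat_lit 2915230309) (nat_lit 382) (nat_lit 5) (nat_lit 392) (nat_lit 5) (nat_lit 393) (nat_lit 5) (nat_lit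 439) (nat_lit 389) (nat_lit 312))) (XT.nd (nat_lit 78) (nat_lit 1596) (nat_lit 0) (XT.lf (nat_lit 0) (nat_lit 8609352851) (nat_lit 836) (nat_lit 215749465) (nat_lit 76) (nat_lit 329225615) (nat_lit 382) (nat_lit 5) (nat_lit 393) (nat_lit 5) (nat_lit 383) (nat_lit 5) (nat_lit 440) (nat_lit 389) (nat_lit 311)) (XT.nd (nat_lit 78) (nat_lit 760) (nat_lit 0) (XT.lf (nat_lit 0) (nat_lit 1876969504) (nat_lit 836) (nat_lit 3472593688) (nat_lit 76) (nat_lit 3890586679) (nat_lit 371) (nat_lit 5) (nat_lit 382) (nat_lit 5) (nat_lit 372) (nat_lit 5) (nat_lit 441) (nat_lit 389) (nat_lit 310)) (XT.lf (nat_lit 0) (nat_lit 2541328046) (nat_lit 760) (nat_lit 1787071911) (nat_lit 836) (nat_lit 4999449363) (nat_lit 361) (nat_lit 5) (nat_lit 371) (nat_lit 5) (nat_lit 372) (nat_lit 5) (nat_lit 442) (nat_lit 389) (nat_lit 309))))))) (XT.nd (nat_lit 780) (nat_lit 4712) (nat_lit 0) (XT.nd (nat_lit 390) (nat_lit 2052) (nat_lit 0) (XT.nd (nat_lit 156) (nat_lit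 1444) (nat_lit 0) (XT.nd (nat_lit 78) (nat_lit 684) (nat_lit 0) (XT.lf (nat_lit 0) (nat_lit 6835015967) (nat_lit 836) (nat_lit 740886997) (nat_lit 76) (nat_lit 1841276656) (nat_lit 361) (nat_lit 5) (nat_lit 372) (nat_lit 5) (nat_lit 362) (nat_lit 5) (nat_lit 443) (nat_lit 389) (nat_lit 308)) (XT.lf (nat_lit 0) (nat_lit 5451492644) (nat_lit 684) (nat_lit 3958785476) (nat_lit 760) (nat_lit 97648129) (nat_lit 352) (nat_lit 5) (nat_lit 361) (nat_lit 5) (nat_lit 362) (nat_lit 5) (nat_lit 444) (nat_lit 389) (nat_lit 307))) (XT.nd (nat_lit 78) (nat_lit 684) (nat_lit 0) (XT.lf (nat_lit 0) (nat_lit 2155808884) (nat_lit 684) (nat_lit 239235708) (nat_lit 760) (nat_lit 7205317968) (nat_lit 342) (nat_lit 5) (nat_lit 351) (nat_lit 5) (nat_lit 352) (nat_lit 5) (nat_lit 445) (nat_lit 389) (nat_lit 306)) (XT.nd (nat_lit 78) (nat_lit 684) (nat_lit 0) (XT.lf (nat_lit 0) (nat_lit 4958511398) (nat_lit 760) (nat_lit 1205018827) (nat_lit 76) (nat_lit 3530659909)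 (nat_lit 342) (nat_lit 5) (nat_lit 352) (nat_lit 5) (nat_lit 343) (nat_lit 5) (nat_lit 446) (nat_lit 389) (nat_lit 305)) (XT.lf (nat_lit 0) (nat_lit 5192199949) (nat_lit 684) (nat_lit 2388643074) (nat_lit 760) (nat_lit 2208899326) (nat_lit 333) (nat_lit 5) (nat_lit 342) (nat_lit 5) (nat_lit 343) (nat_lit 5) (nat_lit 447) (nat_lit 389) (nat_lit 304))))) (XT.nd (nat_lit 156) (nat_lit 1292) (nat_lit 0) (XT.nd (nat_lit 78) (nat_lit 0) (nat_lit 0) (XT.lf (nat_lit 0) (nat_lit 365678374) (nat_lit 760) (nat_lit 8062402984) (nat_lit 76) (nat_lit 1459034520) (nat_lit 323) (nat_lit 5) (nat_lit 333) (nat_lit 5) (nat_lit 324) (nat_lit 5) (nat_lit 448) (nat_lit 389) (nat_lit 303)) (XT.lf (nat_lit 0) (nat_lit 2981799694) (nat_lit 760) (nat_lit 1612782896) (nat_lit 76) (nat_lit 5391169686) (nat_lit 323) (nat_lit 5) (nat_lit 333) (nat_lit 5) (nat_lit 324) (nat_lit 5) (nat_lit 449) (nat_lit 389) (nat_lit 302))) (XT.nd (nat_lit 78) (nat_lit 684) (nat_lit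 0) (XT.lf (nat_lit 0) (nat_lit 4998001209) (nat_lit 608) (nat_lit 657953850) (nat_lit 684) (nat_lit 4430292112) (nat_lit 315) (nat_lit 5) (nat_lit 323) (nat_lit 5) (nat_lit 324) (nat_lit 5) (nat_lit 450) (nat_lit 389) (nat_lit 301)) (XT.nd (nat_lit 78) (nat_lit 76) (nat_lit 0) (XT.lf (nat_lit 0) (nat_lit 1538997841) (nat_lit 608) (nat_lit 6860807288) (nat_lit 684) (nat_lit 1788622601) (nat_lit 307) (nat_lit 5) (nat_lit 315) (nat_lit 5) (nat_lit 316) (nat_lit 5) (nat_lit 451) (nat_lit 389) (nat_lit 300)) (XT.lf (nat_lit 0) (nat_lit 906383121) (nat_lit 684) (nat_lit 1968447134) (nat_lit 76) (nat_lit 7417456343) (nat_lit 306) (nat_lit 5) (nat_lit 315) (nat_lit 5) (nat_lit 307) (nat_lit 5) (nat_lit 452) (nat_lit 389) (nat_lit 299)))))) (XT.nd (nat_lit 390) (nat_lit 2280) (nat_lit 0) (XT.nd (nat_lit 156) (nat_lit 1216) (nat_lit 0) (XT.nd (nat_lit 78) (nat_lit 608) (nat_lit 0) (XT.lf (nat_lit 0) (nat_lit 3645092700) (nat_lit 684) (nat_lit 5540837246)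 (nat_lit 76) (nat_lit 1211781173) (nat_lit 298) (nat_lit 5) (nat_lit 307) (nat_lit 5) (nat_lit 299) (nat_lit 5) (nat_lit 453) (nat_lit 389) (nat_lit 298)) (XT.lf (nat_lit 0) (nat_lit 1305038842) (nat_lit 608) (nat_lit 5148763244) (nat_lit 684) (nat_lit 4051137532) (nat_lit 290) (nat_lit 5) (nat_lit 298) (nat_lit 5) (nat_lit 299) (nat_lit 5) (nat_lit 454) (nat_lit 389) (nat_lit 297))) (XT.nd (nat_lit 78) (nat_lit 1216) (nat_lit 0) (XT.lf (nat_lit 0) (nat_lit 8329804337) (nat_lit 608) (nat_lit 1000766778) (nat_lit 684) (nat_lit 1283503862) (nat_lit 290) (nat_lit 5) (nat_lit 298) (nat_lit 5) (nat_lit 299) (nat_lit 5) (nat_lit 455) (nat_lit 389) (nat_lit 296)) (XT.nd (nat_lit 78) (nat_lit 608) (nat_lit 0) (XT.lf (nat_lit 0) (nat_lit 1546618622) (nat_lit 608) (nat_lit 5956587611) (nat_lit 76) (nat_lit 3221440370) (nat_lit 282) (nat_lit 5) (nat_lit 290) (nat_lit 5) (nat_lit 283) (nat_lit 5) (nat_lit 456) (nat_lit 389) (nat_lit 295)) (XT.lf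 (nat_lit 0) (nat_lit 1121714255) (nat_lit 608) (nat_lit 3299061662) (nat_lit 684) (nat_lit 6416391695) (nat_lit 274) (nat_lit 5) (nat_lit 282) (nat_lit 5) (nat_lit 283) (nat_lit 5) (nat_lit 457) (nat_lit 389) (nat_lit 294))))) (XT.nd (nat_lit 234) (nat_lit 1140) (nat_lit 0) (XT.nd (nat_lit 78) (nat_lit 1140) (nat_lit 0) (XT.lf (nat_lit 0) (nat_lit 7374554613) (nat_lit 684) (nat_lit 2568763133) (nat_lit 76) (nat_lit 1008178531) (nat_lit 274) (nat_lit 5) (nat_lit 283) (nat_lit 5) (nat_lit 275) (nat_lit 5) (nat_lit 458) (nat_lit 389) (nat_lit 293)) (XT.nd (nat_lit 78) (nat_lit 608) (nat_lit 0) (XT.lf (nat_lit 0) (nat_lit 4728417275) (nat_lit 532) (nat_lit 5687499897) (nat_lit 608) (nat_lit 651624177) (nat_lit 267) (nat_lit 5) (nat_lit 274) (nat_lit 5) (nat_lit 275) (nat_lit 5) (nat_lit 459) (nat_lit 389) (nat_lit 292)) (XT.lf (nat_lit 0) (nat_lit 985757894) (nat_lit 532) (nat_lit 1315670393) (nat_lit 608) (nat_lit 8884179874) (nat_lit 259)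 (nat_lit 5) (nat_lit 266) (nat_lit 5) (nat_lit 267) (nat_lit 5) (nat_lit 460) (nat_lit 389) (nat_lit 291)))) (XT.nd (nat_lit 78) (nat_lit 1140) (nat_lit 0) (XT.lf (nat_lit 0) (nat_lit 5344320409) (nat_lit 608) (nat_lit 2820041162) (nat_lit 76) (nat_lit 3140798517) (nat_lit 259) (nat_lit 5) (nat_lit 267) (nat_lit 5) (nat_lit 260) (nat_lit 5) (nat_lit 461) (nat_lit 389) (nat_lit 290)) (XT.nd (nat_lit 78) (nat_lit 608) (nat_lit 0) (XT.lf (nat_lit 0) (nat_lit 4728396004) (nat_lit 532) (nat_lit 3735817513) (nat_lit 608) (nat_lit 2962566674) (nat_lit 252) (nat_lit 5) (nat_lit 259) (nat_lit 5) (nat_lit 260) (nat_lit 5) (nat_lit 462) (nat_lit 389) (nat_lit 289)) (XT.lf (nat_lit 0) (nat_lit 101279638) (nat_lit 608) (nat_lit 10661777838) (nat_lit 76) (nat_lit 787625545) (nat_lit 244) (nat_lit 5) (nat_lit 252) (nat_lit 5) (nat_lit 245) (nat_lit 5) (nat_lit 463) (nat_lit 389) (nat_lit 288))))))))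
noncomputable def xc130 : XT := (XT.nd (nat_lit 1560) (nat_lit 4636) (nat_lit 0) (XT.nd (nat_lit 780) (nat_lit 2888) (nat_lit 0) (XT.nd (nat_lit 390) (nat_lit 1444) (nat_lit 0) (XT.nd (nat_lit 156) (nat_lit 1064) (nat_lit 0) (XT.nd (nat_lit 78) (nat_lit 456) (nat_lit 0) (XT.lf (nat_lit 0) (nat_lit 3233770719) (nat_lit 608) (nat_lit 3034634325) (nat_lit 76) (nat_lit 5407326481) (nat_lit 244) (nat_lit 5) (nat_lit 252) (nat_lit 5) (nat_lit 245) (nat_lit 5) (nat_lit 464) (nat_lit 389) (nat_lit 287)) (XT.lf (nat_lit 0) (nat_lit 4775775175) (nat_lit 456) (nat_lit 1661606350) (nat_lit 532) (nat_lit 5365730074) (nat_lit 238) (nat_lit 5) (nat_lit 244) (nat_lit 5) (nat_lit 245) (nat_lit 5) (nat_lit 465) (nat_lit 389) (nat_lit 286))) (XT.nd (nat_lit 78) (nat_lit 532) (nat_lit 0) (XT.lf (nat_lit 0) (nat_lit 809571519) (nat_lit 532) (nat_lit 8918605959) (nat_lit 608) (nat_lit 2204399538) (nat_lit 231) (nat_lit 5) (nat_lit 238) (nat_lit 5) (nat_lit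 239) (nat_lit 5) (nat_lit 466) (nat_lit 389) (nat_lit 285)) (XT.nd (nat_lit 78) (nat_lit 456) (nat_lit 0) (XT.lf (nat_lit 0) (nat_lit 1042973908) (nat_lit 608) (nat_lit 3215325476) (nat_lit 76) (nat_lit 7805475970) (nat_lit 230) (nat_lit 5) (nat_lit 238) (nat_lit 5) (nat_lit 231) (nat_lit 5) (nat_lit 467) (nat_lit 389) (nat_lit 284)) (XT.lf (nat_lit 0) (nat_lit 4339030690) (nat_lit 532) (nat_lit 7332352841) (nat_lit 76) (nat_lit 525657651) (nat_lit 224) (nat_lit 5) (nat_lit 231) (nat_lit 5) (nat_lit 225) (nat_lit 5) (nat_lit 468) (nat_lit 389) (nat_lit 283))))) (XT.nd (nat_lit 156) (nat_lit 988) (nat_lit 0) (XT.nd (nat_lit 78) (nat_lit 0) (nat_lit 0) (XT.lf (nat_lit 0) (nat_lit 767363857) (nat_lit 456) (nat_lit 6966868004) (nat_lit 532) (nat_lit 4598076000) (nat_lit 218) (nat_lit 5) (nat_lit 224) (nat_lit 5) (nat_lit 225) (nat_lit 5) (nat_lit 469) (nat_lit 389) (nat_lit 282)) (XT.lf (nat_lit 0) (nat_lit 9096972500) (nat_lit 456) (nat_lit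 2128110041) (nat_lit 532) (nat_lit 1244642422) (nat_lit 218) (nat_lit 5) (nat_lit 224) (nat_lit 5) (nat_lit 225) (nat_lit 5) (nat_lit 470) (nat_lit 389) (nat_lit 281))) (XT.nd (nat_lit 78) (nat_lit 456) (nat_lit 0) (XT.lf (nat_lit 0) (nat_lit 2177104380) (nat_lit 532) (nat_lit 7624232308) (nat_lit 76) (nat_lit 2807675552) (nat_lit 211) (nat_lit 5) (nat_lit 218) (nat_lit 5) (nat_lit 212) (nat_lit 5) (nat_lit 471) (nat_lit 389) (nat_lit 280)) (XT.nd (nat_lit 78) (nat_lit 0) (nat_lit 0) (XT.lf (nat_lit 0) (nat_lit 760732411) (nat_lit 456) (nat_lit 4910691353) (nat_lit 532) (nat_lit 7079080887) (nat_lit 205) (nat_lit 5) (nat_lit 211) (nat_lit 5) (nat_lit 212) (nat_lit 5) (nat_lit 472) (nat_lit 389) (nat_lit 279)) (XT.lf (nat_lit 0) (nat_lit 9266751860) (nat_lit 532) (nat_lit 3509353756) (nat_lit 76) (nat_lit 118098848) (nat_lit 205) (nat_lit 5) (nat_lit 212) (nat_lit 5) (nat_lit 206) (nat_lit 5) (nat_lit 473) (nat_lit 389) (nat_lit 278))))))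 (XT.nd (nat_lit 390) (nat_lit 1140) (nat_lit 0) (XT.nd (nat_lit 156) (nat_lit 836) (nat_lit 0) (XT.nd (nat_lit 78) (nat_lit 532) (nat_lit 0) (XT.lf (nat_lit 0) (nat_lit 5144792273) (nat_lit 380) (nat_lit 7834644248) (nat_lit 456) (nat_lit 60432753) (nat_lit 200) (nat_lit 5) (nat_lit 205) (nat_lit 5) (nat_lit 206) (nat_lit 5) (nat_lit 474) (nat_lit 389) (nat_lit 277)) (XT.lf (nat_lit 0) (nat_lit 787656169) (nat_lit 456) (nat_lit 2751759510) (nat_lit 532) (nat_lit 9648398827) (nat_lit 193) (nat_lit 5) (nat_lit 199) (nat_lit 5) (nat_lit 200) (nat_lit 5) (nat_lit 475) (nat_lit 389) (nat_lit 276))) (XT.nd (nat_lit 78) (nat_lit 836) (nat_lit 0) (XT.lf (nat_lit 0) (nat_lit 7259305325) (nat_lit 532) (nat_lit 3634177071) (nat_lit 76) (nat_lit 2444251190) (nat_lit 193) (nat_lit 5) (nat_lit 200) (nat_lit 5) (nat_lit 194) (nat_lit 5) (nat_lit 476) (nat_lit 389) (nat_lit 275)) (XT.nd (nat_lit 78) (nat_lit 456) (nat_lit 0) (XT.lf (nat_lit 0) (nat_lit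 5328355570) (nat_lit 380) (nat_lit 5758179962) (nat_lit 456) (nat_lit 2403456660) (nat_lit 188) (nat_lit 5) (nat_lit 193) (nat_lit 5) (nat_lit 194) (nat_lit 5) (nat_lit 477) (nat_lit 389) (nat_lit 274)) (XT.lf (nat_lit 0) (nat_lit 846307971) (nat_lit 380) (nat_lit 491296938) (nat_lit 456) (nat_lit 12307311794) (nat_lit 182) (nat_lit 5) (nat_lit 187) (nat_lit 5) (nat_lit 188) (nat_lit 5) (nat_lit 478) (nat_lit 389) (nat_lit 273))))) (XT.nd (nat_lit 156) (nat_lit 760) (nat_lit 0) (XT.nd (nat_lit 78) (nat_lit 380) (nat_lit 0) (XT.lf (nat_lit 0) (nat_lit 5188466953) (nat_lit 456) (nat_lit 3735382276) (nat_lit 76) (nat_lit 4877429507) (nat_lit 182) (nat_lit 5) (nat_lit 188) (nat_lit 5) (nat_lit 183) (nat_lit 5) (nat_lit 479) (nat_lit 389) (nat_lit 272)) (XT.lf (nat_lit 0) (nat_lit 5548613695) (nat_lit 380) (nat_lit 3587707194) (nat_lit 456) (nat_lit 4824047628) (nat_lit 177) (nat_lit 5) (nat_lit 182) (nat_lit 5) (nat_lit 183) (nat_lit 5) (nat_lit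 480) (nat_lit 389) (nat_lit 271))) (XT.nd (nat_lit 78) (nat_lit 380) (nat_lit 0) (XT.lf (nat_lit 0) (nat_lit 916465656) (nat_lit 380) (nat_lit 12270705091) (nat_lit 456) (nat_lit 934988570) (nat_lit 172) (nat_lit 5) (nat_lit 177) (nat_lit 5) (nat_lit 178) (nat_lit 5) (nat_lit 481) (nat_lit 389) (nat_lit 270)) (XT.nd (nat_lit 78) (nat_lit 304) (nat_lit 0) (XT.lf (nat_lit 0) (nat_lit 3053536460) (nat_lit 456) (nat_lit 3814785161) (nat_lit 76) (nat_lit 7417241655) (nat_lit 171) (nat_lit 5) (nat_lit 177) (nat_lit 5) (nat_lit 172) (nat_lit 5) (nat_lit 482) (nat_lit 389) (nat_lit 269)) (XT.lf (nat_lit 0) (nat_lit 5804281569) (nat_lit 304) (nat_lit 1323970319) (nat_lit 380) (nat_lit 7323481031) (nat_lit 167) (nat_lit 5) (nat_lit 171) (nat_lit 5) (nat_lit 172) (nat_lit 5) (nat_lit 483) (nat_lit 389) (nat_lit 268))))))) (XT.nd (nat_lit 780) (nat_lit 2128) (nat_lit 0) (XT.nd (nat_lit 390) (nat_lit 1368) (nat_lit 0) (XT.nd (nat_lit 156) (nat_lit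 684) (nat_lit 0) (XT.nd (nat_lit 78) (nat_lit 76) (nat_lit 0) (XT.lf (nat_lit 0) (nat_lit 1001876009) (nat_lit 380) (nat_lit 10324329816) (nat_lit 456) (nat_lit 3294185248) (nat_lit 162) (nat_lit 5) (nat_lit 167) (nat_lit 5) (nat_lit 168) (nat_lit 5) (nat_lit 484) (nat_lit 389) (nat_lit 267)) (XT.lf (nat_lit 0) (nat_lit 853580636) (nat_lit 456) (nat_lit 3874052411) (nat_lit 76) (nat_lit 10063711777) (nat_lit 161) (nat_lit 5) (nat_lit 167) (nat_lit 5) (nat_lit 162) (nat_lit 5) (nat_lit 485) (nat_lit 389) (nat_lit 266))) (XT.nd (nat_lit 78) (nat_lit 380) (nat_lit 0) (XT.lf (nat_lit 0) (nat_lit 5068272235) (nat_lit 380) (nat_lit 8877315981) (nat_lit 76) (nat_lit 1019132352) (nat_lit 157) (nat_lit 5) (nat_lit 162) (nat_lit 5) (nat_lit 158) (nat_lit 5) (nat_lit 486) (nat_lit 389) (nat_lit 265)) (XT.nd (nat_lit 78) (nat_lit 0) (nat_lit 0) (XT.lf (nat_lit 0) (nat_lit 1113416433) (nat_lit 380) (nat_lit 8300412381) (nat_lit 456) (nat_lit 5726803591)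 (nat_lit 152) (nat_lit 5) (nat_lit 157) (nat_lit 5) (nat_lit 158) (nat_lit 5) (nat_lit 487) (nat_lit 389) (nat_lit 264)) (XT.lf (nat_lit 0) (nat_lit 11395224522) (nat_lit 380) (nat_lit 2492674494) (nat_lit 456) (nat_lit 1431331412) (nat_lit 152) (nat_lit 5) (nat_lit 157) (nat_lit 5) (nat_lit 158) (nat_lit 5) (nat_lit 488) (nat_lit 389) (nat_lit 263))))) (XT.nd (nat_lit 156) (nat_lit 684) (nat_lit 0) (XT.nd (nat_lit 78) (nat_lit 304) (nat_lit 0) (XT.lf (nat_lit 0) (nat_lit 2957902485) (nat_lit 380) (nat_lit 9105604762) (nat_lit 76) (nat_lit 3436579237) (nat_lit 147) (nat_lit 5) (nat_lit 152) (nat_lit 5) (nat_lit 148) (nat_lit 5) (nat_lit 489) (nat_lit 389) (nat_lit 262)) (XT.lf (nat_lit 0) (nat_lit 1249898488) (nat_lit 304) (nat_lit 6199362197) (nat_lit 380) (nat_lit 8234439651) (nat_lit 143) (nat_lit 5) (nat_lit 147) (nat_lit 5) (nat_lit 148) (nat_lit 5) (nat_lit 490) (nat_lit 389) (nat_lit 261))) (XT.nd (nat_lit 78) (nat_lit 684) (nat_lit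 0) (XT.lf (nat_lit 0) (nat_lit 11907300350) (nat_lit 304) (nat_lit 166766834) (nat_lit 380) (nat_lit 3796046858) (nat_lit 143) (nat_lit 5) (nat_lit 147) (nat_lit 5) (nat_lit 148) (nat_lit 5) (nat_lit 491) (nat_lit 389) (nat_lit 260)) (XT.nd (nat_lit 78) (nat_lit 304) (nat_lit 0) (XT.lf (nat_lit 0) (nat_lit 787368452) (nat_lit 380) (nat_lit 9325372374) (nat_lit 76) (nat_lit 5946103392) (nat_lit 138) (nat_lit 5) (nat_lit 143) (nat_lit 5) (nat_lit 139) (nat_lit 5) (nat_lit 492) (nat_lit 389) (nat_lit 259)) (XT.lf (nat_lit 0) (nat_lit 1410266759) (nat_lit 304) (nat_lit 4021264380) (nat_lit 380) (nat_lit 10818917858) (nat_lit 134) (nat_lit 5) (nat_lit 138) (nat_lit 5) (nat_lit 139) (nat_lit 5) (nat_lit 493) (nat_lit 389) (nat_lit 258)))))) (XT.nd (nat_lit 390) (nat_lit 1216) (nat_lit 0) (XT.nd (nat_lit 156) (nat_lit 608) (nat_lit 0) (XT.nd (nat_lit 78) (nat_lit 304) (nat_lit 0) (XT.lf (nat_lit 0) (nat_lit 10228713861) (nat_lit 380) (nat_lit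 4000727393) (nat_lit 76) (nat_lit 2215241882) (nat_lit 134) (nat_lit 5) (nat_lit 139) (nat_lit 5) (nat_lit 135) (nat_lit 5) (nat_lit 494) (nat_lit 389) (nat_lit 257)) (XT.lf (nat_lit 0) (nat_lit 7094010146) (nat_lit 304) (nat_lit 8083767067) (nat_lit 380) (nat_lit 1463906005) (nat_lit 130) (nat_lit 5) (nat_lit 134) (nat_lit 5) (nat_lit 135) (nat_lit 5) (nat_lit 495) (nat_lit 389) (nat_lit 256))) (XT.nd (nat_lit 78) (nat_lit 228) (nat_lit 0) (XT.lf (nat_lit 0) (nat_lit 1593590238) (nat_lit 304) (nat_lit 1765894006) (nat_lit 380) (nat_lit 13482286600) (nat_lit 125) (nat_lit 5) (nat_lit 129) (nat_lit 5) (nat_lit 130) (nat_lit 5) (nat_lit 496) (nat_lit 389) (nat_lit 255)) (XT.nd (nat_lit 78) (nat_lit 228) (nat_lit 0) (XT.lf (nat_lit 0) (nat_lit 8337988251) (nat_lit 380) (nat_lit 4026000607) (nat_lit 76) (nat_lit 4680112882) (nat_lit 125) (nat_lit 5) (nat_lit 130) (nat_lit 5) (nat_lit 126) (nat_lit 5) (nat_lit 497) (nat_lit 389) (nat_lit 254))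 (XT.lf (nat_lit 0) (nat_lit 7479545569) (nat_lit 228) (nat_lit 5980460121) (nat_lit 304) (nat_lit 3789594697) (nat_lit 122) (nat_lit 5) (nat_lit 125) (nat_lit 5) (nat_lit 126) (nat_lit 5) (nat_lit 498) (nat_lit 389) (nat_lit 253))))) (XT.nd (nat_lit 234) (nat_lit 608) (nat_lit 0) (XT.nd (nat_lit 78) (nat_lit 228) (nat_lit 0) (XT.lf (nat_lit 0) (nat_lit 1235466361) (nat_lit 380) (nat_lit 15663226602) (nat_lit 76) (nat_lit 559831315) (nat_lit 117) (nat_lit 5) (nat_lit 122) (nat_lit 5) (nat_lit 118) (nat_lit 5) (nat_lit 499) (nat_lit 389) (nat_lit 252)) (XT.nd (nat_lit 78) (nat_lit 228) (nat_lit 0) (XT.lf (nat_lit 0) (nat_lit 6399726575) (nat_lit 380) (nat_lit 4038641960) (nat_lit 76) (nat_lit 7230968314) (nat_lit 117) (nat_lit 5) (nat_lit 122) (nat_lit 5) (nat_lit 118) (nat_lit 5) (nat_lit 500) (nat_lit 389) (nat_lit 251)) (XT.lf (nat_lit 0) (nat_lit 7894935811) (nat_lit 228) (nat_lit 3807704247) (nat_lit 304) (nat_lit 6181018253) (nat_lit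 114) (nat_lit 5) (nat_lit 117) (nat_lit 5) (nat_lit 118) (nat_lit 5) (nat_lit 501) (nat_lit 389) (nat_lit 250)))) (XT.nd (nat_lit 78) (nat_lit 304) (nat_lit 0) (XT.lf (nat_lit 0) (nat_lit 1999959523) (nat_lit 304) (nat_lit 15155281726) (nat_lit 380) (nat_lit 946152364) (nat_lit 110) (nat_lit 5) (nat_lit 114) (nat_lit 5) (nat_lit 115) (nat_lit 5) (nat_lit 502) (nat_lit 389) (nat_lit 249)) (XT.nd (nat_lit 78) (nat_lit 228) (nat_lit 0) (XT.lf (nat_lit 0) (nat_lit 4412686046) (nat_lit 380) (nat_lit 4039652171) (nat_lit 76) (nat_lit 9869036994) (nat_lit 109) (nat_lit 5) (nat_lit 114) (nat_lit 5) (nat_lit 110) (nat_lit 5) (nat_lit 503) (nat_lit 389) (nat_lit 248)) (XT.lf (nat_lit 0) (nat_lit 8339871860) (nat_lit 228) (nat_lit 1564835407) (nat_lit 304) (nat_lit 8640150593) (nat_lit 106) (nat_lit 5) (nat_lit 109) (nat_lit 5) (nat_lit 110) (nat_lit 5) (nat_lit 504) (nat_lit 389) (nat_lit 247))))))))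
noncomputable def xc131 : XT := (XT.nd (nat_lit 1638) (nat_lit 17100) (nat_lit 0) (XT.nd (nat_lit 780) (nat_lit 4104) (nat_lit 0) (XT.nd (nat_lit 390) (nat_lit 1672) (nat_lit 0) (XT.nd (nat_lit 156) (nat_lit 760) (nat_lit 0) (XT.nd (nat_lit 78) (nat_lit 0) (nat_lit 0) (XT.lf (nat_lit 0) (nat_lit 888298796) (nat_lit 0) (nat_lit 888298796) (nat_lit 684) (nat_lit 1539233435) (nat_lit 760) (nat_lit 5) (nat_lit 760) (nat_lit 3) (nat_lit 769) (nat_lit 3) (nat_lit 390) (nat_lit 390) (nat_lit 360)) (XT.lf (nat_lit 0) (nat_lit 5127561650) (nat_lit 0) (nat_lit 792216276) (nat_lit 684) (nat_lit 731579736) (nat_lit 760) (nat_lit 5) (nat_lit 760) (nat_lit 3) (nat_lit 769) (nat_lit 3) (nat_lit 391) (nat_lit 390) (nat_lit 359))) (XT.nd (nat_lit 78) (nat_lit 0) (nat_lit 0) (XT.lf (nat_lit 0) (nat_lit 1592669930) (nat_lit 760) (nat_lit 4817683371) (nat_lit 836) (nat_lit 261833521) (nat_lit 750) (nat_lit 5) (nat_lit 760) (nat_lit 5) (nat_lit 761) (nat_lit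 5) (nat_lit 392) (nat_lit 390) (nat_lit 358)) (XT.nd (nat_lit 78) (nat_lit 0) (nat_lit 0) (XT.lf (nat_lit 0) (nat_lit 3908803338) (nat_lit 760) (nat_lit 1414947901) (nat_lit 836) (nat_lit 1370480720) (nat_lit 750) (nat_lit 5) (nat_lit 760) (nat_lit 5) (nat_lit 761) (nat_lit 5) (nat_lit 393) (nat_lit 390) (nat_lit 357)) (XT.lf (nat_lit 76) (nat_lit 2050792593) (nat_lit 0) (nat_lit 4174611128) (nat_lit 836) (nat_lit 492231391) (nat_lit 751) (nat_lit 5) (nat_lit 750) (nat_lit 5) (nat_lit 761) (nat_lit 5) (nat_lit 394) (nat_lit 390) (nat_lit 356))))) (XT.nd (nat_lit 156) (nat_lit 836) (nat_lit 0) (XT.nd (nat_lit 78) (nat_lit 0) (nat_lit 0) (XT.lf (nat_lit 0) (nat_lit 1773564026) (nat_lit 836) (nat_lit 1180857083) (nat_lit 912) (nat_lit 3787826287) (nat_lit 739) (nat_lit 5) (nat_lit 750) (nat_lit 5) (nat_lit 751) (nat_lit 5) (nat_lit 395) (nat_lit 390) (nat_lit 355)) (XT.lf (nat_lit 76) (nat_lit 2370804505) (nat_lit 0) (nat_lit 1665225749)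 (nat_lit 912) (nat_lit 2732097682) (nat_lit 740) (nat_lit 5) (nat_lit 739) (nat_lit 5) (nat_lit 751) (nat_lit 5) (nat_lit 396) (nat_lit 390) (nat_lit 354))) (XT.nd (nat_lit 78) (nat_lit 836) (nat_lit 0) (XT.lf (nat_lit 76) (nat_lit 5977838600) (nat_lit 0) (nat_lit 317299189) (nat_lit 912) (nat_lit 500360458) (nat_lit 740) (nat_lit 5) (nat_lit 739) (nat_lit 5) (nat_lit 751) (nat_lit 5) (nat_lit 397) (nat_lit 390) (nat_lit 353)) (XT.nd (nat_lit 78) (nat_lit 0) (nat_lit 0) (XT.lf (nat_lit 0) (nat_lit 1722505458) (nat_lit 912) (nat_lit 4003794697) (nat_lit 988) (nat_lit 1097489455) (nat_lit 728) (nat_lit 5) (nat_lit 740) (nat_lit 5) (nat_lit 741) (nat_lit 5) (nat_lit 398) (nat_lit 390) (nat_lit 352)) (XT.lf (nat_lit 0) (nat_lit 3936009284) (nat_lit 912) (nat_lit 349330591) (nat_lit 988) (nat_lit 2568183169) (nat_lit 728) (nat_lit 5) (nat_lit 740) (nat_lit 5) (nat_lit 741) (nat_lit 5) (nat_lit 399) (nat_lit 390) (nat_lit 351)))))) (XT.nd (nat_lit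 390) (nat_lit 2128) (nat_lit 0) (XT.nd (nat_lit 156) (nat_lit 988) (nat_lit 0) (XT.nd (nat_lit 78) (nat_lit 988) (nat_lit 0) (XT.lf (nat_lit 76) (nat_lit 3390505190) (nat_lit 0) (nat_lit 2771614514) (nat_lit 988) (nat_lit 722364712) (nat_lit 729) (nat_lit 5) (nat_lit 728) (nat_lit 5) (nat_lit 741) (nat_lit 5) (nat_lit 400) (nat_lit 390) (nat_lit 350)) (XT.lf (nat_lit 76) (nat_lit 254652057) (nat_lit 0) (nat_lit 1192974846) (nat_lit 1064) (nat_lit 5469224542) (nat_lit 716) (nat_lit 5) (nat_lit 715) (nat_lit 5) (nat_lit 729) (nat_lit 5) (nat_lit 401) (nat_lit 390) (nat_lit 349))) (XT.nd (nat_lit 78) (nat_lit 1064) (nat_lit 0) (XT.lf (nat_lit 0) (nat_lit 3625444862) (nat_lit 988) (nat_lit 2865068057) (nat_lit 1064) (nat_lit 459775419) (nat_lit 716) (nat_lit 5) (nat_lit 729) (nat_lit 5) (nat_lit 730) (nat_lit 5) (nat_lit 402) (nat_lit 390) (nat_lit 348)) (XT.nd (nat_lit 78) (nat_lit 1064) (nat_lit 0) (XT.lf (nat_lit 76) (nat_lit 979976784)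 (nat_lit 0) (nat_lit 4829908722) (nat_lit 1064) (nat_lit 1175247137) (nat_lit 717) (nat_lit 5) (nat_lit 716) (nat_lit 5) (nat_lit 730) (nat_lit 5) (nat_lit 403) (nat_lit 390) (nat_lit 347)) (XT.lf (nat_lit 0) (nat_lit 972612448) (nat_lit 1064) (nat_lit 2119701128) (nat_lit 1140) (nat_lit 3928855874) (nat_lit 702) (nat_lit 5) (nat_lit 716) (nat_lit 5) (nat_lit 717) (nat_lit 5) (nat_lit 404) (nat_lit 390) (nat_lit 346))))) (XT.nd (nat_lit 234) (nat_lit 1064) (nat_lit 0) (XT.nd (nat_lit 78) (nat_lit 1064) (nat_lit 0) (XT.lf (nat_lit 76) (nat_lit 1826856298) (nat_lit 0) (nat_lit 1282967623) (nat_lit 1140) (nat_lit 3948705079) (nat_lit 703) (nat_lit 5) (nat_lit 702) (nat_lit 5) (nat_lit 717) (nat_lit 5) (nat_lit 405) (nat_lit 390) (nat_lit 345)) (XT.nd (nat_lit 78) (nat_lit 1140) (nat_lit 0) (XT.lf (nat_lit 0) (nat_lit 5258876570) (nat_lit 1064) (nat_lit 1252673383) (nat_lit 1140) (nat_lit 585703849) (nat_lit 703) (nat_lit 5) (nat_lit 717)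 (nat_lit 5) (nat_lit 718) (nat_lit 5) (nat_lit 406) (nat_lit 390) (nat_lit 344)) (XT.lf (nat_lit 0) (nat_lit 288663955) (nat_lit 1140) (nat_lit 4337923262) (nat_lit 1216) (nat_lit 2510552550) (nat_lit 688) (nat_lit 5) (nat_lit 703) (nat_lit 5) (nat_lit 704) (nat_lit 5) (nat_lit 407) (nat_lit 390) (nat_lit 343)))) (XT.nd (nat_lit 78) (nat_lit 1064) (nat_lit 0) (XT.lf (nat_lit 0) (nat_lit 2394613285) (nat_lit 1140) (nat_lit 274168871) (nat_lit 1216) (nat_lit 4509578596) (nat_lit 688) (nat_lit 5) (nat_lit 703) (nat_lit 5) (nat_lit 704) (nat_lit 5) (nat_lit 408) (nat_lit 390) (nat_lit 342)) (XT.nd (nat_lit 78) (nat_lit 1064) (nat_lit 0) (XT.lf (nat_lit 76) (nat_lit 3889114397) (nat_lit 0) (nat_lit 632247731) (nat_lit 1216) (nat_lit 2699470420) (nat_lit 689) (nat_lit 5) (nat_lit 688) (nat_lit 5) (nat_lit 704) (nat_lit 5) (nat_lit 409) (nat_lit 390) (nat_lit 341)) (XT.lf (nat_lit 0) (nat_lit 843388690) (nat_lit 1140) (nat_lit 5818185368) (nat_lit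 1216) (nat_lit 603161158) (nat_lit 674) (nat_lit 5) (nat_lit 689) (nat_lit 5) (nat_lit 690) (nat_lit 5) (nat_lit 410) (nat_lit 390) (nat_lit 340))))))) (XT.nd (nat_lit 780) (nat_lit 8436) (nat_lit 0) (XT.nd (nat_lit 390) (nat_lit 4636) (nat_lit 0) (XT.nd (nat_lit 156) (nat_lit 2736) (nat_lit 0) (XT.nd (nat_lit 78) (nat_lit 1216) (nat_lit 0) (XT.lf (nat_lit 0) (nat_lit 1496235152) (nat_lit 1216) (nat_lit 2210134410) (nat_lit 76) (nat_lit 3603321170) (nat_lit 673) (nat_lit 5) (nat_lit 689) (nat_lit 5) (nat_lit 674) (nat_lit 5) (nat_lit 411) (nat_lit 390) (nat_lit 339)) (XT.lf (nat_lit 0) (nat_lit 2075266416) (nat_lit 1216) (nat_lit 1523249302) (nat_lit 1292) (nat_lit 3757570448) (nat_lit 657) (nat_lit 5) (nat_lit 673) (nat_lit 5) (nat_lit 674) (nat_lit 5) (nat_lit 412) (nat_lit 390) (nat_lit 338))) (XT.nd (nat_lit 78) (nat_lit 2736) (nat_lit 0) (XT.lf (nat_lit 0) (nat_lit 5718558587) (nat_lit 1292) (nat_lit 965431678) (nat_lit 76) (nat_lit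 719904910) (nat_lit 657) (nat_lit 5) (nat_lit 674) (nat_lit 5) (nat_lit 658) (nat_lit 5) (nat_lit 413) (nat_lit 390) (nat_lit 337)) (XT.nd (nat_lit 78) (nat_lit 1368) (nat_lit 0) (XT.lf (nat_lit 0) (nat_lit 412141648) (nat_lit 1368) (nat_lit 4017636970) (nat_lit 76) (nat_lit 3023037775) (nat_lit 639) (nat_lit 5) (nat_lit 657) (nat_lit 5) (nat_lit 640) (nat_lit 5) (nat_lit 414) (nat_lit 390) (nat_lit 336)) (XT.lf (nat_lit 0) (nat_lit 394607072) (nat_lit 1368) (nat_lit 2100924858) (nat_lit 1444) (nat_lit 5007630722) (nat_lit 621) (nat_lit 5) (nat_lit 639) (nat_lit 5) (nat_lit 640) (nat_lit 5) (nat_lit 415) (nat_lit 390) (nat_lit 335))))) (XT.nd (nat_lit 156) (nat_lit 3192) (nat_lit 0) (XT.nd (nat_lit 78) (nat_lit 1444) (nat_lit 0) (XT.lf (nat_lit 0) (nat_lit 4607608759) (nat_lit 1444) (nat_lit 2640721413) (nat_lit 76) (nat_lit 306445289) (nat_lit 621) (nat_lit 5) (nat_lit 640) (nat_lit 5) (nat_lit 622) (nat_lit 5) (nat_lit 416) (nat_lit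 390) (nat_lit 334)) (XT.lf (nat_lit 0) (nat_lit 1893725830) (nat_lit 1444) (nat_lit 4853329106) (nat_lit 1520) (nat_lit 860663032) (nat_lit 602) (nat_lit 5) (nat_lit 621) (nat_lit 5) (nat_lit 622) (nat_lit 5) (nat_lit 417) (nat_lit 390) (nat_lit 333))) (XT.nd (nat_lit 78) (nat_lit 3116) (nat_lit 0) (XT.lf (nat_lit 0) (nat_lit 1228023553) (nat_lit 1520) (nat_lit 1149041438) (nat_lit 76) (nat_lit 5284948192) (nat_lit 601) (nat_lit 5) (nat_lit 621) (nat_lit 5) (nat_lit 602) (nat_lit 5) (nat_lit 418) (nat_lit 390) (nat_lit 332)) (XT.nd (nat_lit 78) (nat_lit 1596) (nat_lit 0) (XT.lf (nat_lit 0) (nat_lit 3331023486) (nat_lit 1596) (nat_lit 4204542411) (nat_lit 76) (nat_lit 182033349) (nat_lit 581) (nat_lit 5) (nat_lit 602) (nat_lit 5) (nat_lit 582) (nat_lit 5) (nat_lit 419) (nat_lit 390) (nat_lit 331)) (XT.lf (nat_lit 0) (nat_lit 466221145) (nat_lit 1596) (nat_lit 4997041175) (nat_lit 1672) (nat_lit 2311291130) (nat_lit 560) (nat_lit 5) (nat_lit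 581) (nat_lit 5) (nat_lit 582) (nat_lit 5) (nat_lit 420) (nat_lit 390) (nat_lit 330)))))) (XT.nd (nat_lit 390) (nat_lit 3040) (nat_lit 0) (XT.nd (nat_lit 156) (nat_lit 3648) (nat_lit 0) (XT.nd (nat_lit 78) (nat_lit 1748) (nat_lit 0) (XT.lf (nat_lit 0) (nat_lit 5253686846) (nat_lit 1596) (nat_lit 2373874538) (nat_lit 1672) (nat_lit 205297048) (nat_lit 560) (nat_lit 5) (nat_lit 581) (nat_lit 5) (nat_lit 582) (nat_lit 5) (nat_lit 421) (nat_lit 390) (nat_lit 329)) (XT.lf (nat_lit 0) (nat_lit 1895678584) (nat_lit 1748) (nat_lit 5667103868) (nat_lit 76) (nat_lit 329727937) (nat_lit 537) (nat_lit 5) (nat_lit 560) (nat_lit 5) (nat_lit 538) (nat_lit 5) (nat_lit 422) (nat_lit 390) (nat_lit 328))) (XT.nd (nat_lit 78) (nat_lit 3648) (nat_lit 0) (XT.lf (nat_lit 0) (nat_lit 4031343306) (nat_lit 1748) (nat_lit 843284742) (nat_lit 76) (nat_lit 3078791826) (nat_lit 537) (nat_lit 5) (nat_lit 560) (nat_lit 5) (nat_lit 538) (nat_lit 5) (nat_lit 423) (nat_lit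 390) (nat_lit 327)) (XT.nd (nat_lit 78) (nat_lit 1900) (nat_lit 0) (XT.lf (nat_lit 0) (nat_lit 4097298727) (nat_lit 1748) (nat_lit 2102037422) (nat_lit 1824) (nat_lit 1816419106) (nat_lit 514) (nat_lit 5) (nat_lit 537) (nat_lit 5) (nat_lit 538) (nat_lit 5) (nat_lit 424) (nat_lit 390) (nat_lit 326)) (XT.lf (nat_lit 0) (nat_lit 307608704) (nat_lit 1900) (nat_lit 7037886036) (nat_lit 76) (nat_lit 734187516) (nat_lit 489) (nat_lit 5) (nat_lit 514) (nat_lit 5) (nat_lit 490) (nat_lit 5) (nat_lit 425) (nat_lit 390) (nat_lit 325))))) (XT.nd (nat_lit 234) (nat_lit 1900) (nat_lit 0) (XT.nd (nat_lit 78) (nat_lit 1140) (nat_lit 0) (XT.lf (nat_lit 0) (nat_lit 2454008343) (nat_lit 1900) (nat_lit 2050353315) (nat_lit 76) (nat_lit 3640201746) (nat_lit 489) (nat_lit 5) (nat_lit 514) (nat_lit 5) (nat_lit 490) (nat_lit 5) (nat_lit 426) (nat_lit 390) (nat_lit 324)) (XT.nd (nat_lit 78) (nat_lit 0) (nat_lit 0) (XT.lf (nat_lit 0) (nat_lit 3043277535) (nat_lit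 1140) (nat_lit 1584327774) (nat_lit 1216) (nat_lit 3583451479) (nat_lit 474) (nat_lit 5) (nat_lit 489) (nat_lit 5) (nat_lit 490) (nat_lit 5) (nat_lit 427) (nat_lit 390) (nat_lit 323)) (XT.lf (nat_lit 0) (nat_lit 6832576302) (nat_lit 1216) (nat_lit 55229212) (nat_lit 76) (nat_lit 1391316485) (nat_lit 474) (nat_lit 5) (nat_lit 490) (nat_lit 5) (nat_lit 475) (nat_lit 5) (nat_lit 428) (nat_lit 390) (nat_lit 322)))) (XT.nd (nat_lit 78) (nat_lit 912) (nat_lit 0) (XT.lf (nat_lit 0) (nat_lit 733383532) (nat_lit 988) (nat_lit 3169500353) (nat_lit 76) (nat_lit 4445371433) (nat_lit 461) (nat_lit 5) (nat_lit 474) (nat_lit 5) (nat_lit 462) (nat_lit 5) (nat_lit 429) (nat_lit 390) (nat_lit 321)) (XT.nd (nat_lit 78) (nat_lit 0) (nat_lit 0) (XT.lf (nat_lit 0) (nat_lit 2083525839) (nat_lit 912) (nat_lit 833855130) (nat_lit 988) (nat_lit 5501602323) (nat_lit 449) (nat_lit 5) (nat_lit 461) (nat_lit 5) (nat_lit 462) (nat_lit 5) (nat_lit 430) (nat_lit 390)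 (nat_lit 320)) (XT.lf (nat_lit 0) (nat_lit 5147751902) (nat_lit 988) (nat_lit 1055250279) (nat_lit 76) (nat_lit 2288069774) (nat_lit 449) (nat_lit 5) (nat_lit 462) (nat_lit 5) (nat_lit 450) (nat_lit 5) (nat_lit 431) (nat_lit 390) (nat_lit 319))))))))
noncomputable def xc132 : XT := (XT.nd (nat_lit 1560) (nat_lit 7904) (nat_lit 0) (XT.nd (nat_lit 780) (nat_lit 4256) (nat_lit 0) (XT.nd (nat_lit 390) (nat_lit 2432) (nat_lit 0) (XT.nd (nat_lit 156) (nat_lit 1672) (nat_lit 0) (XT.nd (nat_lit 78) (nat_lit 988) (nat_lit 0) (XT.lf (nat_lit 0) (nat_lit 4348666288) (nat_lit 836) (nat_lit 3074852886) (nat_lit 912) (nat_lit 1141067439) (nat_lit 438) (nat_lit 5) (nat_lit 449) (nat_lit 5) (nat_lit 450) (nat_lit 5) (nat_lit 432) (nat_lit 390) (nat_lit 318)) (XT.lf (nat_lit 0) (nat_lit 1073864056) (nat_lit 988) (nat_lit 7430108783) (nat_lit 76) (nat_lit 135792624) (nat_lit 425) (nat_lit 5) (nat_lit 438) (nat_lit 5) (nat_lit 426) (nat_lit 5) (nat_lit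 433) (nat_lit 390) (nat_lit 317))) (XT.nd (nat_lit 78) (nat_lit 1672) (nat_lit 0) (XT.lf (nat_lit 0) (nat_lit 3334337372) (nat_lit 988) (nat_lit 1977136222) (nat_lit 76) (nat_lit 3404493007) (nat_lit 425) (nat_lit 5) (nat_lit 438) (nat_lit 5) (nat_lit 426) (nat_lit 5) (nat_lit 434) (nat_lit 390) (nat_lit 316)) (XT.nd (nat_lit 78) (nat_lit 836) (nat_lit 0) (XT.lf (nat_lit 0) (nat_lit 3598721187) (nat_lit 836) (nat_lit 2032964382) (nat_lit 912) (nat_lit 3162172883) (nat_lit 414) (nat_lit 5) (nat_lit 425) (nat_lit 5) (nat_lit 426) (nat_lit 5) (nat_lit 435) (nat_lit 390) (nat_lit 315)) (XT.lf (nat_lit 0) (nat_lit 402768726) (nat_lit 836) (nat_lit 7565389538) (nat_lit 912) (nat_lit 905286325) (nat_lit 403) (nat_lit 5) (nat_lit 414) (nat_lit 5) (nat_lit 415) (nat_lit 5) (nat_lit 436) (nat_lit 390) (nat_lit 314))))) (XT.nd (nat_lit 156) (nat_lit 1596) (nat_lit 0) (XT.nd (nat_lit 78) (nat_lit 760) (nat_lit 0) (XT.lf (nat_lit 0) (nat_lit 1395861530)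 (nat_lit 912) (nat_lit 2827591746) (nat_lit 76) (nat_lit 4730638961) (nat_lit 402) (nat_lit 5) (nat_lit 414) (nat_lit 5) (nat_lit 403) (nat_lit 5) (nat_lit 437) (nat_lit 390) (nat_lit 313)) (XT.lf (nat_lit 0) (nat_lit 2927460732) (nat_lit 760) (nat_lit 791963976) (nat_lit 836) (nat_lit 5317038169) (nat_lit 392) (nat_lit 5) (nat_lit 402) (nat_lit 5) (nat_lit 403) (nat_lit 5) (nat_lit 438) (nat_lit 390) (nat_lit 312))) (XT.nd (nat_lit 78) (nat_lit 1596) (nat_lit 0) (XT.lf (nat_lit 0) (nat_lit 6096002599) (nat_lit 836) (nat_lit 335523666) (nat_lit 76) (nat_lit 2688823796) (nat_lit 392) (nat_lit 5) (nat_lit 403) (nat_lit 5) (nat_lit 393) (nat_lit 5) (nat_lit 439) (nat_lit 390) (nat_lit 311)) (XT.nd (nat_lit 78) (nat_lit 836) (nat_lit 0) (XT.lf (nat_lit 0) (nat_lit 5588476959) (nat_lit 760) (nat_lit 2943614982) (nat_lit 836) (nat_lit 673583450) (nat_lit 382) (nat_lit 5) (nat_lit 392) (nat_lit 5) (nat_lit 393) (nat_lit 5) (nat_lit 440) (nat_lit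 390) (nat_lit 310)) (XT.lf (nat_lit 0) (nat_lit 1693746439) (nat_lit 836) (nat_lit 6967865053) (nat_lit 76) (nat_lit 631028567) (nat_lit 371) (nat_lit 5) (nat_lit 382) (nat_lit 5) (nat_lit 372) (nat_lit 5) (nat_lit 441) (nat_lit 390) (nat_lit 309)))))) (XT.nd (nat_lit 390) (nat_lit 2052) (nat_lit 0) (XT.nd (nat_lit 156) (nat_lit 1444) (nat_lit 0) (XT.nd (nat_lit 78) (nat_lit 760) (nat_lit 0) (XT.lf (nat_lit 0) (nat_lit 4114301059) (nat_lit 836) (nat_lit 1003860567) (nat_lit 76) (nat_lit 4262795399) (nat_lit 371) (nat_lit 5) (nat_lit 382) (nat_lit 5) (nat_lit 372) (nat_lit 5) (nat_lit 442) (nat_lit 390) (nat_lit 308)) (XT.lf (nat_lit 0) (nat_lit 5113641016) (nat_lit 760) (nat_lit 1474357088) (nat_lit 836) (nat_lit 2882947600) (nat_lit 361) (nat_lit 5) (nat_lit 371) (nat_lit 5) (nat_lit 372) (nat_lit 5) (nat_lit 443) (nat_lit 390) (nat_lit 307))) (XT.nd (nat_lit 78) (nat_lit 760) (nat_lit 0) (XT.lf (nat_lit 0) (nat_lit 1780077179) (nat_lit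 684) (nat_lit 7335836309) (nat_lit 760) (nat_lit 446725780) (nat_lit 352) (nat_lit 5) (nat_lit 361) (nat_lit 5) (nat_lit 362) (nat_lit 5) (nat_lit 444) (nat_lit 390) (nat_lit 306)) (XT.nd (nat_lit 78) (nat_lit 684) (nat_lit 0) (XT.lf (nat_lit 0) (nat_lit 2022687400) (nat_lit 760) (nat_lit 1612822163) (nat_lit 76) (nat_lit 6020168501) (nat_lit 351) (nat_lit 5) (nat_lit 361) (nat_lit 5) (nat_lit 352) (nat_lit 5) (nat_lit 445) (nat_lit 390) (nat_lit 305)) (XT.lf (nat_lit 0) (nat_lit 4539709498) (nat_lit 760) (nat_lit 5045133118) (nat_lit 76) (nat_lit 165591915) (nat_lit 342) (nat_lit 5) (nat_lit 352) (nat_lit 5) (nat_lit 343) (nat_lit 5) (nat_lit 446) (nat_lit 390) (nat_lit 304))))) (XT.nd (nat_lit 156) (nat_lit 1368) (nat_lit 0) (XT.nd (nat_lit 78) (nat_lit 0) (nat_lit 0) (XT.lf (nat_lit 0) (nat_lit 1284518953) (nat_lit 684) (nat_lit 5838706892) (nat_lit 760) (nat_lit 2723537207) (nat_lit 333) (nat_lit 5) (nat_lit 342) (nat_lit 5) (nat_lit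 343) (nat_lit 5) (nat_lit 447) (nat_lit 390) (nat_lit 303)) (XT.lf (nat_lit 0) (nat_lit 7776409150) (nat_lit 684) (nat_lit 1989021843) (nat_lit 760) (nat_lit 179446782) (nat_lit 333) (nat_lit 5) (nat_lit 342) (nat_lit 5) (nat_lit 343) (nat_lit 5) (nat_lit 448) (nat_lit 390) (nat_lit 302))) (XT.nd (nat_lit 78) (nat_lit 608) (nat_lit 0) (XT.lf (nat_lit 0) (nat_lit 2398516255) (nat_lit 760) (nat_lit 5695179626) (nat_lit 76) (nat_lit 1950651829) (nat_lit 323) (nat_lit 5) (nat_lit 333) (nat_lit 5) (nat_lit 324) (nat_lit 5) (nat_lit 449) (nat_lit 390) (nat_lit 301)) (XT.nd (nat_lit 78) (nat_lit 0) (nat_lit 0) (XT.lf (nat_lit 0) (nat_lit 844936487) (nat_lit 608) (nat_lit 4187793239) (nat_lit 684) (nat_lit 5112911715) (nat_lit 315) (nat_lit 5) (nat_lit 323) (nat_lit 5) (nat_lit 324) (nat_lit 5) (nat_lit 450) (nat_lit 390) (nat_lit 300)) (XT.lf (nat_lit 0) (nat_lit 7560546270) (nat_lit 608) (nat_lit 171387361) (nat_lit 684) (nat_lit 2516781294)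 (nat_lit 315) (nat_lit 5) (nat_lit 323) (nat_lit 5) (nat_lit 324) (nat_lit 5) (nat_lit 451) (nat_lit 390) (nat_lit 299))))))) (XT.nd (nat_lit 780) (nat_lit 3648) (nat_lit 0) (XT.nd (nat_lit 390) (nat_lit 1748) (nat_lit 0) (XT.nd (nat_lit 156) (nat_lit 1216) (nat_lit 0) (XT.nd (nat_lit 78) (nat_lit 608) (nat_lit 0) (XT.lf (nat_lit 0) (nat_lit 156072982) (nat_lit 684) (nat_lit 6302412373) (nat_lit 76) (nat_lit 3894817018) (nat_lit 306) (nat_lit 5) (nat_lit 315) (nat_lit 5) (nat_lit 307) (nat_lit 5) (nat_lit 452) (nat_lit 390) (nat_lit 298)) (XT.lf (nat_lit 0) (nat_lit 457160976) (nat_lit 608) (nat_lit 2388495221) (nat_lit 684) (nat_lit 7614053224) (nat_lit 298) (nat_lit 5) (nat_lit 306) (nat_lit 5) (nat_lit 307) (nat_lit 5) (nat_lit 453) (nat_lit 390) (nat_lit 297))) (XT.nd (nat_lit 78) (nat_lit 1216) (nat_lit 0) (XT.lf (nat_lit 0) (nat_lit 5617968206) (nat_lit 684) (nat_lit 3174469116) (nat_lit 76) (nat_lit 1775228546) (nat_lit 298) (nat_lit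 5) (nat_lit 307) (nat_lit 5) (nat_lit 299) (nat_lit 5) (nat_lit 454) (nat_lit 390) (nat_lit 296)) (XT.nd (nat_lit 78) (nat_lit 608) (nat_lit 0) (XT.lf (nat_lit 0) (nat_lit 3792027224) (nat_lit 608) (nat_lit 4669547885) (nat_lit 684) (nat_lit 2215889361) (nat_lit 290) (nat_lit 5) (nat_lit 298) (nat_lit 5) (nat_lit 299) (nat_lit 5) (nat_lit 455) (nat_lit 390) (nat_lit 295)) (XT.lf (nat_lit 0) (nat_lit 117357492) (nat_lit 532) (nat_lit 445458114) (nat_lit 608) (nat_lit 10226614482) (nat_lit 282) (nat_lit 5) (nat_lit 289) (nat_lit 5) (nat_lit 290) (nat_lit 5) (nat_lit 456) (nat_lit 390) (nat_lit 294))))) (XT.nd (nat_lit 156) (nat_lit 1140) (nat_lit 0) (XT.nd (nat_lit 78) (nat_lit 608) (nat_lit 0) (XT.lf (nat_lit 0) (nat_lit 3414791243) (nat_lit 608) (nat_lit 3621627722) (nat_lit 76) (nat_lit 3865975766) (nat_lit 282) (nat_lit 5) (nat_lit 290) (nat_lit 5) (nat_lit 283) (nat_lit 5) (nat_lit 457) (nat_lit 390) (nat_lit 293)) (XT.lf (nat_lit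 0) (nat_lit 3582094842) (nat_lit 608) (nat_lit 2744141287) (nat_lit 684) (nat_lit 4691333942) (nat_lit 274) (nat_lit 5) (nat_lit 282) (nat_lit 5) (nat_lit 283) (nat_lit 5) (nat_lit 458) (nat_lit 390) (nat_lit 292))) (XT.nd (nat_lit 78) (nat_lit 1140) (nat_lit 0) (XT.lf (nat_lit 0) (nat_lit 9307414332) (nat_lit 684) (nat_lit 198318895) (nat_lit 76) (nat_lit 1629085603) (nat_lit 274) (nat_lit 5) (nat_lit 283) (nat_lit 5) (nat_lit 275) (nat_lit 5) (nat_lit 459) (nat_lit 390) (nat_lit 291)) (XT.nd (nat_lit 78) (nat_lit 532) (nat_lit 0) (XT.lf (nat_lit 0) (nat_lit 1121737685) (nat_lit 608) (nat_lit 4032080292) (nat_lit 76) (nat_lit 6099606962) (nat_lit 266) (nat_lit 5) (nat_lit 274) (nat_lit 5) (nat_lit 267) (nat_lit 5) (nat_lit 460) (nat_lit 390) (nat_lit 290)) (XT.lf (nat_lit 0) (nat_lit 3419000300) (nat_lit 532) (nat_lit 686947610) (nat_lit 608) (nat_lit 7268202594) (nat_lit 259) (nat_lit 5) (nat_lit 266) (nat_lit 5) (nat_lit 267) (nat_lit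 5) (nat_lit 461) (nat_lit 390) (nat_lit 289)))))) (XT.nd (nat_lit 390) (nat_lit 2052) (nat_lit 0) (XT.nd (nat_lit 156) (nat_lit 1064) (nat_lit 0) (XT.nd (nat_lit 78) (nat_lit 532) (nat_lit 0) (XT.lf (nat_lit 0) (nat_lit 7179387197) (nat_lit 608) (nat_lit 479928123) (nat_lit 76) (nat_lit 3837384364) (nat_lit 259) (nat_lit 5) (nat_lit 267) (nat_lit 5) (nat_lit 260) (nat_lit 5) (nat_lit 462) (nat_lit 390) (nat_lit 288)) (XT.lf (nat_lit 0) (nat_lit 7203711249) (nat_lit 532) (nat_lit 3139538420) (nat_lit 608) (nat_lit 1277871090) (nat_lit 252) (nat_lit 5) (nat_lit 259) (nat_lit 5) (nat_lit 260) (nat_lit 5) (nat_lit 463) (nat_lit 390) (nat_lit 287))) (XT.nd (nat_lit 78) (nat_lit 456) (nat_lit 0) (XT.lf (nat_lit 0) (nat_lit 1810583940) (nat_lit 608) (nat_lit 8457597862) (nat_lit 76) (nat_lit 1479369305) (nat_lit 244) (nat_lit 5) (nat_lit 252) (nat_lit 5) (nat_lit 245) (nat_lit 5) (nat_lit 464) (nat_lit 390) (nat_lit 286)) (XT.nd (nat_lit 78)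 (nat_lit 456) (nat_lit 0) (XT.lf (nat_lit 0) (nat_lit 4972248789) (nat_lit 608) (nat_lit 725311783) (nat_lit 76) (nat_lit 6178209529) (nat_lit 244) (nat_lit 5) (nat_lit 252) (nat_lit 5) (nat_lit 245) (nat_lit 5) (nat_lit 465) (nat_lit 390) (nat_lit 285)) (XT.lf (nat_lit 0) (nat_lit 7225713701) (nat_lit 456) (nat_lit 996684926) (nat_lit 532) (nat_lit 3783649814) (nat_lit 238) (nat_lit 5) (nat_lit 244) (nat_lit 5) (nat_lit 245) (nat_lit 5) (nat_lit 466) (nat_lit 390) (nat_lit 284))))) (XT.nd (nat_lit 234) (nat_lit 988) (nat_lit 0) (XT.nd (nat_lit 78) (nat_lit 532) (nat_lit 0) (XT.lf (nat_lit 0) (nat_lit 3193100752) (nat_lit 532) (nat_lit 8373248199) (nat_lit 608) (nat_lit 572007447) (nat_lit 231) (nat_lit 5) (nat_lit 238) (nat_lit 5) (nat_lit 239) (nat_lit 5) (nat_lit 467) (nat_lit 390) (nat_lit 283)) (XT.nd (nat_lit 78) (nat_lit 456) (nat_lit 0) (XT.lf (nat_lit 0) (nat_lit 2685885096) (nat_lit 608) (nat_lit 937156359) (nat_lit 76) (nat_lit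 8649568373) (nat_lit 230) (nat_lit 5) (nat_lit 238) (nat_lit 5) (nat_lit 231) (nat_lit 5) (nat_lit 468) (nat_lit 390) (nat_lit 282)) (XT.lf (nat_lit 0) (nat_lit 6035852739) (nat_lit 532) (nat_lit 5124513995) (nat_lit 76) (nat_lit 1248414443) (nat_lit 224) (nat_lit 5) (nat_lit 231) (nat_lit 5) (nat_lit 225) (nat_lit 5) (nat_lit 469) (nat_lit 390) (nat_lit 281)))) (XT.nd (nat_lit 78) (nat_lit 532) (nat_lit 0) (XT.lf (nat_lit 0) (nat_lit 3121706998) (nat_lit 456) (nat_lit 6360867808) (nat_lit 532) (nat_lit 3064506047) (nat_lit 218) (nat_lit 5) (nat_lit 224) (nat_lit 5) (nat_lit 225) (nat_lit 5) (nat_lit 470) (nat_lit 390) (nat_lit 280)) (XT.nd (nat_lit 78) (nat_lit 456) (nat_lit 0) (XT.lf (nat_lit 0) (nat_lit 319872104) (nat_lit 532) (nat_lit 1117930533) (nat_lit 76) (nat_lit 11250026536) (nat_lit 217) (nat_lit 5) (nat_lit 224) (nat_lit 5) (nat_lit 218) (nat_lit 5) (nat_lit 471) (nat_lit 390) (nat_lit 279)) (XT.lf (nat_lit 0) (nat_lit 3782308022)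 (nat_lit 532) (nat_lit 5451587001) (nat_lit 76) (nat_lit 3596064231) (nat_lit 211) (nat_lit 5) (nat_lit 218) (nat_lit 5) (nat_lit 212) (nat_lit 5) (nat_lit 472) (nat_lit 390) (nat_lit 278))))))))
noncomputable def xc133 : XT := (XT.nd (nat_lit 1560) (nat_lit 2584) (nat_lit 0) (XT.nd (nat_lit 780) (nat_lit 2128) (nat_lit 0) (XT.nd (nat_lit 390) (nat_lit 1672) (nat_lit 0) (XT.nd (nat_lit 156) (nat_lit 912) (nat_lit 0) (XT.nd (nat_lit 78) (nat_lit 0) (nat_lit 0) (XT.lf (nat_lit 0) (nat_lit 3085780105) (nat_lit 456) (nat_lit 4245109842) (nat_lit 532) (nat_lit 5643704043) (nat_lit 205) (nat_lit 5) (nat_lit 211) (nat_lit 5) (nat_lit 212) (nat_lit 5) (nat_lit 473) (nat_lit 390) (nat_lit 277)) (XT.lf (nat_lit 0) (nat_lit 10972671970) (nat_lit 532) (nat_lit 1289545994) (nat_lit 76) (nat_lit 859458888) (nat_lit 205) (nat_lit 5) (nat_lit 212) (nat_lit 5) (nat_lit 206) (nat_lit 5) (nat_lit 474) (nat_lit 390) (nat_lit 276))) (XT.nd (nat_lit 78) (nat_lit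 456) (nat_lit 0) (XT.lf (nat_lit 0) (nat_lit 1454677520) (nat_lit 456) (nat_lit 5757508906) (nat_lit 76) (nat_lit 6058178027) (nat_lit 199) (nat_lit 5) (nat_lit 205) (nat_lit 5) (nat_lit 200) (nat_lit 5) (nat_lit 475) (nat_lit 390) (nat_lit 275)) (XT.nd (nat_lit 78) (nat_lit 0) (nat_lit 0) (XT.lf (nat_lit 0) (nat_lit 3083379569) (nat_lit 456) (nat_lit 2027422102) (nat_lit 532) (nat_lit 8310757172) (nat_lit 193) (nat_lit 5) (nat_lit 199) (nat_lit 5) (nat_lit 200) (nat_lit 5) (nat_lit 476) (nat_lit 390) (nat_lit 274)) (XT.lf (nat_lit 0) (nat_lit 8880626610) (nat_lit 532) (nat_lit 1447133135) (nat_lit 76) (nat_lit 3247205809) (nat_lit 193) (nat_lit 5) (nat_lit 200) (nat_lit 5) (nat_lit 194) (nat_lit 5) (nat_lit 477) (nat_lit 390) (nat_lit 273))))) (XT.nd (nat_lit 156) (nat_lit 836) (nat_lit 0) (XT.nd (nat_lit 78) (nat_lit 456) (nat_lit 0) (XT.lf (nat_lit 0) (nat_lit 7679783531) (nat_lit 380) (nat_lit 5090249190) (nat_lit 456) (nat_lit 960523986)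 (nat_lit 188) (nat_lit 5) (nat_lit 193) (nat_lit 5) (nat_lit 194) (nat_lit 5) (nat_lit 478) (nat_lit 390) (nat_lit 272)) (XT.lf (nat_lit 0) (nat_lit 2823448148) (nat_lit 456) (nat_lit 10777809391) (nat_lit 76) (nat_lit 287375675) (nat_lit 182) (nat_lit 5) (nat_lit 188) (nat_lit 5) (nat_lit 183) (nat_lit 5) (nat_lit 479) (nat_lit 390) (nat_lit 271))) (XT.nd (nat_lit 78) (nat_lit 836) (nat_lit 0) (XT.lf (nat_lit 0) (nat_lit 6725907628) (nat_lit 456) (nat_lit 1581150810) (nat_lit 76) (nat_lit 5741572446) (nat_lit 182) (nat_lit 5) (nat_lit 188) (nat_lit 5) (nat_lit 183) (nat_lit 5) (nat_lit 480) (nat_lit 390) (nat_lit 270)) (XT.nd (nat_lit 78) (nat_lit 456) (nat_lit 0) (XT.lf (nat_lit 0) (nat_lit 7873861007) (nat_lit 380) (nat_lit 2865122975) (nat_lit 456) (nat_lit 3472193171) (nat_lit 177) (nat_lit 5) (nat_lit 182) (nat_lit 5) (nat_lit 183) (nat_lit 5) (nat_lit 481) (nat_lit 390) (nat_lit 269)) (XT.lf (nat_lit 0) (nat_lit 479750575) (nat_lit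 456) (nat_lit 11221936233) (nat_lit 76) (nat_lit 2674620912) (nat_lit 171) (nat_lit 5) (nat_lit 177) (nat_lit 5) (nat_lit 172) (nat_lit 5) (nat_lit 482) (nat_lit 390) (nat_lit 268)))))) (XT.nd (nat_lit 390) (nat_lit 1064) (nat_lit 0) (XT.nd (nat_lit 156) (nat_lit 760) (nat_lit 0) (XT.nd (nat_lit 78) (nat_lit 304) (nat_lit 0) (XT.lf (nat_lit 0) (nat_lit 4507676917) (nat_lit 456) (nat_lit 1693356036) (nat_lit 76) (nat_lit 8342380193) (nat_lit 171) (nat_lit 5) (nat_lit 177) (nat_lit 5) (nat_lit 172) (nat_lit 5) (nat_lit 483) (nat_lit 390) (nat_lit 267)) (XT.lf (nat_lit 0) (nat_lit 8103633312) (nat_lit 304) (nat_lit 547113461) (nat_lit 380) (nat_lit 6062422208) (nat_lit 167) (nat_lit 5) (nat_lit 171) (nat_lit 5) (nat_lit 172) (nat_lit 5) (nat_lit 484) (nat_lit 390) (nat_lit 266))) (XT.nd (nat_lit 78) (nat_lit 380) (nat_lit 0) (XT.lf (nat_lit 0) (nat_lit 3213051598) (nat_lit 380) (nat_lit 9711890585) (nat_lit 456) (nat_lit 1960412465) (nat_lit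 162) (nat_lit 5) (nat_lit 167) (nat_lit 5) (nat_lit 168) (nat_lit 5) (nat_lit 485) (nat_lit 390) (nat_lit 265)) (XT.nd (nat_lit 78) (nat_lit 304) (nat_lit 0) (XT.lf (nat_lit 0) (nat_lit 2224867681) (nat_lit 456) (nat_lit 1785362072) (nat_lit 76) (nat_lit 11049857659) (nat_lit 161) (nat_lit 5) (nat_lit 167) (nat_lit 5) (nat_lit 162) (nat_lit 5) (nat_lit 486) (nat_lit 390) (nat_lit 264)) (XT.lf (nat_lit 0) (nat_lit 6516532478) (nat_lit 380) (nat_lit 6881370280) (nat_lit 76) (nat_lit 1839174326) (nat_lit 157) (nat_lit 5) (nat_lit 162) (nat_lit 5) (nat_lit 158) (nat_lit 5) (nat_lit 487) (nat_lit 390) (nat_lit 263))))) (XT.nd (nat_lit 156) (nat_lit 684) (nat_lit 0) (XT.nd (nat_lit 78) (nat_lit 0) (nat_lit 0) (XT.lf (nat_lit 0) (nat_lit 3294877493) (nat_lit 380) (nat_lit 7641731905) (nat_lit 456) (nat_lit 4480145574) (nat_lit 152) (nat_lit 5) (nat_lit 157) (nat_lit 5) (nat_lit 158) (nat_lit 5) (nat_lit 488) (nat_lit 390) (nat_lit 262)) (XT.lf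 (nat_lit 0) (nat_lit 13739984631) (nat_lit 380) (nat_lit 1734009628) (nat_lit 456) (nat_lit 125454032) (nat_lit 152) (nat_lit 5) (nat_lit 157) (nat_lit 5) (nat_lit 158) (nat_lit 5) (nat_lit 489) (nat_lit 390) (nat_lit 261))) (XT.nd (nat_lit 78) (nat_lit 304) (nat_lit 0) (XT.lf (nat_lit 0) (nat_lit 4327299149) (nat_lit 380) (nat_lit 7146595844) (nat_lit 76) (nat_lit 4309988448) (nat_lit 147) (nat_lit 5) (nat_lit 152) (nat_lit 5) (nat_lit 148) (nat_lit 5) (nat_lit 490) (nat_lit 390) (nat_lit 260)) (XT.nd (nat_lit 78) (nat_lit 0) (nat_lit 0) (XT.lf (nat_lit 0) (nat_lit 3401931149) (nat_lit 304) (nat_lit 5494672531) (nat_lit 380) (nat_lit 7074803507) (nat_lit 143) (nat_lit 5) (nat_lit 147) (nat_lit 5) (nat_lit 148) (nat_lit 5) (nat_lit 491) (nat_lit 390) (nat_lit 259)) (XT.lf (nat_lit 0) (nat_lit 13592618721) (nat_lit 380) (nat_lit 1935454250) (nat_lit 76) (nat_lit 633901948) (nat_lit 143) (nat_lit 5) (nat_lit 148) (nat_lit 5) (nat_lit 144)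 (nat_lit 5) (nat_lit 492) (nat_lit 390) (nat_lit 258))))))) (XT.nd (nat_lit 780) (nat_lit 380) (nat_lit 0) (XT.nd (nat_lit 390) (nat_lit 836) (nat_lit 0) (XT.nd (nat_lit 156) (nat_lit 684) (nat_lit 0) (XT.nd (nat_lit 78) (nat_lit 304) (nat_lit 0) (XT.lf (nat_lit 0) (nat_lit 2078197316) (nat_lit 380) (nat_lit 7403275408) (nat_lit 76) (nat_lit 6873046749) (nat_lit 138) (nat_lit 5) (nat_lit 143) (nat_lit 5) (nat_lit 139) (nat_lit 5) (nat_lit 493) (nat_lit 390) (nat_lit 257)) (XT.lf (nat_lit 0) (nat_lit 3533204111) (nat_lit 304) (nat_lit 3270637938) (nat_lit 380) (nat_lit 9746342323) (nat_lit 134) (nat_lit 5) (nat_lit 138) (nat_lit 5) (nat_lit 139) (nat_lit 5) (nat_lit 494) (nat_lit 390) (nat_lit 256))) (XT.nd (nat_lit 78) (nat_lit 684) (nat_lit 0) (XT.lf (nat_lit 0) (nat_lit 11677480320) (nat_lit 380) (nat_lit 2007594997) (nat_lit 76) (nat_lit 3063617638) (nat_lit 134) (nat_lit 5) (nat_lit 139) (nat_lit 5) (nat_lit 135) (nat_lit 5) (nat_lit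 495) (nat_lit 390) (nat_lit 255)) (XT.nd (nat_lit 78) (nat_lit 380) (nat_lit 0) (XT.lf (nat_lit 0) (nat_lit 9295398169) (nat_lit 304) (nat_lit 7419102537) (nat_lit 380) (nat_lit 235352818) (nat_lit 130) (nat_lit 5) (nat_lit 134) (nat_lit 5) (nat_lit 135) (nat_lit 5) (nat_lit 496) (nat_lit 390) (nat_lit 254)) (XT.lf (nat_lit 0) (nat_lit 3687808622) (nat_lit 304) (nat_lit 969250157) (nat_lit 380) (nat_lit 12496939785) (nat_lit 125) (nat_lit 5) (nat_lit 129) (nat_lit 5) (nat_lit 130) (nat_lit 5) (nat_lit 497) (nat_lit 390) (nat_lit 253))))) (XT.nd (nat_lit 156) (nat_lit 608) (nat_lit 0) (XT.nd (nat_lit 78) (nat_lit 228) (nat_lit 0) (XT.lf (nat_lit 0) (nat_lit 9716303406) (nat_lit 380) (nat_lit 2065782748) (nat_lit 76) (nat_lit 5578666513) (nat_lit 125) (nat_lit 5) (nat_lit 130) (nat_lit 5) (nat_lit 126) (nat_lit 5) (nat_lit 498) (nat_lit 390) (nat_lit 252)) (XT.lf (nat_lit 0) (nat_lit 9656448445) (nat_lit 228) (nat_lit 5273719416) (nat_lit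 304) (nat_lit 2640405294) (nat_lit 122) (nat_lit 5) (nat_lit 125) (nat_lit 5) (nat_lit 126) (nat_lit 5) (nat_lit 499) (nat_lit 390) (nat_lit 251))) (XT.nd (nat_lit 78) (nat_lit 228) (nat_lit 0) (XT.lf (nat_lit 0) (nat_lit 2463965525) (nat_lit 380) (nat_lit 13927987710) (nat_lit 76) (nat_lit 1391665732) (nat_lit 117) (nat_lit 5) (nat_lit 122) (nat_lit 5) (nat_lit 118) (nat_lit 5) (nat_lit 500) (nat_lit 390) (nat_lit 250)) (XT.nd (nat_lit 78) (nat_lit 228) (nat_lit 0) (XT.lf (nat_lit 0) (nat_lit 7707907221) (nat_lit 380) (nat_lit 2111078109) (nat_lit 76) (nat_lit 8180134534) (nat_lit 117) (nat_lit 5) (nat_lit 122) (nat_lit 5) (nat_lit 118) (nat_lit 5) (nat_lit 501) (nat_lit 390) (nat_lit 249)) (XT.lf (nat_lit 0) (nat_lit 10047958476) (nat_lit 228) (nat_lit 3058733261) (nat_lit 304) (nat_lit 5111239763) (nat_lit 114) (nat_lit 5) (nat_lit 117) (nat_lit 5) (nat_lit 118) (nat_lit 5) (nat_lit 502) (nat_lit 390) (nat_lit 248)))))) (XT.nd (nat_lit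 50856) (nat_lit 0) (nat_lit 46968) (XT.nd (nat_lit 50622) (nat_lit 0) (nat_lit 48640) (XT.nd (nat_lit 78) (nat_lit 0) (nat_lit 0) (XT.lf (nat_lit 0) (nat_lit 220593669) (nat_lit 380) (nat_lit 14401686002) (nat_lit 76) (nat_lit 3817806895) (nat_lit 109) (nat_lit 5) (nat_lit 114) (nat_lit 5) (nat_lit 110) (nat_lit 5) (nat_lit 503) (nat_lit 390) (nat_lit 247)) (XT.lf (nat_lit 0) (nat_lit 5650951476) (nat_lit 380) (nat_lit 2144454174) (nat_lit 76) (nat_lit 10869396831) (nat_lit 109) (nat_lit 5) (nat_lit 114) (nat_lit 5) (nat_lit 110) (nat_lit 5) (nat_lit 504) (nat_lit 390) (nat_lit 246))) (XT.nd (nat_lit 78) (nat_lit 0) (nat_lit 0) (XT.lf (nat_lit 0) (nat_lit 781826217) (nat_lit 836) (nat_lit 1276950119) (nat_lit 836) (nat_lit 1276950119) (nat_lit 749) (nat_lit 3) (nat_lit 760) (nat_lit 3) (nat_lit 760) (nat_lit 5) (nat_lit 391) (nat_lit 391) (nat_lit 358)) (XT.nd (nat_lit 78) (nat_lit 0) (nat_lit 0) (XT.lf (nat_lit 76) (nat_lit 792216276)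 (nat_lit 0) (nat_lit 3047587489) (nat_lit 836) (nat_lit 2853153379) (nat_lit 750) (nat_lit 5) (nat_lit 749) (nat_lit 3) (nat_lit 760) (nat_lit 5) (nat_lit 392) (nat_lit 391) (nat_lit 357)) (XT.lf (nat_lit 76) (nat_lit 4209301762) (nat_lit 0) (nat_lit 1909956684) (nat_lit 836) (nat_lit 596477411) (nat_lit 750) (nat_lit 5) (nat_lit 749) (nat_lit 3) (nat_lit 760) (nat_lit 5) (nat_lit 393) (nat_lit 391) (nat_lit 356))))) (XT.nd (nat_lit 234) (nat_lit 836) (nat_lit 0) (XT.nd (nat_lit 78) (nat_lit 0) (nat_lit 76) (XT.lf (nat_lit 76) (nat_lit 926081205) (nat_lit 0) (nat_lit 704318661) (nat_lit 912) (nat_lit 5109400162) (nat_lit 739) (nat_lit 5) (nat_lit 738) (nat_lit 5) (nat_lit 750) (nat_lit 5) (nat_lit 394) (nat_lit 391) (nat_lit 355)) (XT.nd (nat_lit 78) (nat_lit 0) (nat_lit 0) (XT.lf (nat_lit 0) (nat_lit 3856724541) (nat_lit 836) (nat_lit 2342137204) (nat_lit 912) (nat_lit 566146951) (nat_lit 739) (nat_lit 5) (nat_lit 750) (nat_lit 5) (nat_lit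 751) (nat_lit 5) (nat_lit 395) (nat_lit 391) (nat_lit 354)) (XT.lf (nat_lit 76) (nat_lit 1178414575) (nat_lit 0) (nat_lit 4905149960) (nat_lit 912) (nat_lit 708037225) (nat_lit 740) (nat_lit 5) (nat_lit 739) (nat_lit 5) (nat_lit 751) (nat_lit 5) (nat_lit 396) (nat_lit 391) (nat_lit 353)))) (XT.nd (nat_lit 78) (nat_lit 0) (nat_lit 0) (XT.lf (nat_lit 0) (nat_lit 1476097210) (nat_lit 912) (nat_lit 2059152931) (nat_lit 988) (nat_lit 3284076455) (nat_lit 727) (nat_lit 5) (nat_lit 739) (nat_lit 5) (nat_lit 740) (nat_lit 5) (nat_lit 397) (nat_lit 391) (nat_lit 352)) (XT.nd (nat_lit 78) (nat_lit 0) (nat_lit 0) (XT.lf (nat_lit 76) (nat_lit 1550442595) (nat_lit 0) (nat_lit 2099369660) (nat_lit 988) (nat_lit 3198592503) (nat_lit 728) (nat_lit 5) (nat_lit 727) (nat_lit 5) (nat_lit 740) (nat_lit 5) (nat_lit 398) (nat_lit 391) (nat_lit 351)) (XT.lf (nat_lit 76) (nat_lit 5229182667) (nat_lit 0) (nat_lit 597811584) (nat_lit 988) (nat_lit 1051870376)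 (nat_lit 728) (nat_lit 5) (nat_lit 727) (nat_lit 5) (nat_lit 740) (nat_lit 5) (nat_lit 399) (nat_lit 391) (nat_lit 350))))))))
noncomputable def xc134 : XT := (XT.nd (nat_lit 1560) (nat_lit 15124) (nat_lit 0) (XT.nd (nat_lit 780) (nat_lit 8056) (nat_lit 0) (XT.nd (nat_lit 390) (nat_lit 1064) (nat_lit 0) (XT.nd (nat_lit 156) (nat_lit 1064) (nat_lit 0) (XT.nd (nat_lit 78) (nat_lit 0) (nat_lit 0) (XT.lf (nat_lit 0) (nat_lit 1089463718) (nat_lit 988) (nat_lit 4856787218) (nat_lit 1064) (nat_lit 964203019) (nat_lit 715) (nat_lit 5) (nat_lit 728) (nat_lit 5) (nat_lit 729) (nat_lit 5) (nat_lit 400) (nat_lit 391) (nat_lit 349)) (XT.lf (nat_lit 0) (nat_lit 3222516591) (nat_lit 988) (nat_lit 1132046668) (nat_lit 1064) (nat_lit 2588713219) (nat_lit 715) (nat_lit 5) (nat_lit 728) (nat_lit 5) (nat_lit 729) (nat_lit 5) (nat_lit 401) (nat_lit 391) (nat_lit 348))) (XT.nd (nat_lit 78) (nat_lit 1064) (nat_lit 0) (XT.lf (nat_lit 76) (nat_lit 2670806077)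 (nat_lit 0) (nat_lit 2693648332) (nat_lit 1064) (nat_lit 1612976565) (nat_lit 716) (nat_lit 5) (nat_lit 715) (nat_lit 5) (nat_lit 729) (nat_lit 5) (nat_lit 402) (nat_lit 391) (nat_lit 347)) (XT.nd (nat_lit 78) (nat_lit 0) (nat_lit 76) (XT.lf (nat_lit 0) (nat_lit 486916713) (nat_lit 1064) (nat_lit 482469366) (nat_lit 1140) (nat_lit 6043672822) (nat_lit 701) (nat_lit 5) (nat_lit 715) (nat_lit 5) (nat_lit 716) (nat_lit 5) (nat_lit 403) (nat_lit 391) (nat_lit 346)) (XT.lf (nat_lit 0) (nat_lit 2585247614) (nat_lit 1064) (nat_lit 3634093486) (nat_lit 1140) (nat_lit 830284301) (nat_lit 702) (nat_lit 5) (nat_lit 716) (nat_lit 5) (nat_lit 717) (nat_lit 5) (nat_lit 404) (nat_lit 391) (nat_lit 345))))) (XT.nd (nat_lit 156) (nat_lit 1140) (nat_lit 0) (XT.nd (nat_lit 78) (nat_lit 0) (nat_lit 0) (XT.lf (nat_lit 76) (nat_lit 276216096) (nat_lit 0) (nat_lit 4412032022) (nat_lit 1140) (nat_lit 2399421052) (nat_lit 703) (nat_lit 5) (nat_lit 702) (nat_lit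 5) (nat_lit 717) (nat_lit 5) (nat_lit 405) (nat_lit 391) (nat_lit 344)) (XT.lf (nat_lit 76) (nat_lit 4282064359) (nat_lit 0) (nat_lit 2527610680) (nat_lit 1140) (nat_lit 317271448) (nat_lit 703) (nat_lit 5) (nat_lit 702) (nat_lit 5) (nat_lit 717) (nat_lit 5) (nat_lit 406) (nat_lit 391) (nat_lit 343))) (XT.nd (nat_lit 78) (nat_lit 0) (nat_lit 76) (XT.lf (nat_lit 76) (nat_lit 1172739441) (nat_lit 0) (nat_lit 570312578) (nat_lit 1216) (nat_lit 5424518275) (nat_lit 688) (nat_lit 5) (nat_lit 687) (nat_lit 5) (nat_lit 703) (nat_lit 5) (nat_lit 407) (nat_lit 391) (nat_lit 342)) (XT.nd (nat_lit 78) (nat_lit 0) (nat_lit 0) (XT.lf (nat_lit 0) (nat_lit 3822243956) (nat_lit 1140) (nat_lit 1943587795) (nat_lit 1216) (nat_lit 1443494677) (nat_lit 688) (nat_lit 5) (nat_lit 703) (nat_lit 5) (nat_lit 704) (nat_lit 5) (nat_lit 408) (nat_lit 391) (nat_lit 341)) (XT.lf (nat_lit 76) (nat_lit 2181402266) (nat_lit 0) (nat_lit 3733900436) (nat_lit 1216) (nat_lit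 1337169322) (nat_lit 689) (nat_lit 5) (nat_lit 688) (nat_lit 5) (nat_lit 704) (nat_lit 5) (nat_lit 409) (nat_lit 391) (nat_lit 340)))))) (XT.nd (nat_lit 390) (nat_lit 4408) (nat_lit 0) (XT.nd (nat_lit 156) (nat_lit 2508) (nat_lit 0) (XT.nd (nat_lit 78) (nat_lit 0) (nat_lit 76) (XT.lf (nat_lit 0) (nat_lit 711718772) (nat_lit 1216) (nat_lit 918462634) (nat_lit 1292) (nat_lit 5666844009) (nat_lit 672) (nat_lit 5) (nat_lit 688) (nat_lit 5) (nat_lit 689) (nat_lit 5) (nat_lit 410) (nat_lit 391) (nat_lit 339)) (XT.lf (nat_lit 0) (nat_lit 2764503655) (nat_lit 1216) (nat_lit 4026359199) (nat_lit 76) (nat_lit 551813771) (nat_lit 673) (nat_lit 5) (nat_lit 689) (nat_lit 5) (nat_lit 674) (nat_lit 5) (nat_lit 411) (nat_lit 391) (nat_lit 338))) (XT.nd (nat_lit 78) (nat_lit 1368) (nat_lit 0) (XT.lf (nat_lit 0) (nat_lit 218548632) (nat_lit 1216) (nat_lit 4614578479) (nat_lit 1292) (nat_lit 2556618090) (nat_lit 657) (nat_lit 5) (nat_lit 673) (nat_lit 5)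 (nat_lit 674) (nat_lit 5) (nat_lit 412) (nat_lit 391) (nat_lit 337)) (XT.nd (nat_lit 78) (nat_lit 1368) (nat_lit 0) (XT.lf (nat_lit 0) (nat_lit 4570541042) (nat_lit 1216) (nat_lit 2356610109) (nat_lit 1292) (nat_lit 510923435) (nat_lit 657) (nat_lit 5) (nat_lit 673) (nat_lit 5) (nat_lit 674) (nat_lit 5) (nat_lit 413) (nat_lit 391) (nat_lit 336)) (XT.lf (nat_lit 0) (nat_lit 1499315506) (nat_lit 1292) (nat_lit 23011721) (nat_lit 1368) (nat_lit 5965492575) (nat_lit 639) (nat_lit 5) (nat_lit 656) (nat_lit 5) (nat_lit 657) (nat_lit 5) (nat_lit 414) (nat_lit 391) (nat_lit 335))))) (XT.nd (nat_lit 156) (nat_lit 3040) (nat_lit 0) (XT.nd (nat_lit 78) (nat_lit 1368) (nat_lit 0) (XT.lf (nat_lit 0) (nat_lit 3582342362) (nat_lit 1368) (nat_lit 1597626297) (nat_lit 76) (nat_lit 2358664904) (nat_lit 639) (nat_lit 5) (nat_lit 657) (nat_lit 5) (nat_lit 640) (nat_lit 5) (nat_lit 415) (nat_lit 391) (nat_lit 334)) (XT.lf (nat_lit 0) (nat_lit 2886412866)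 (nat_lit 1368) (nat_lit 2775115624) (nat_lit 1444) (nat_lit 1929375696) (nat_lit 621) (nat_lit 5) (nat_lit 639) (nat_lit 5) (nat_lit 640) (nat_lit 5) (nat_lit 416) (nat_lit 391) (nat_lit 333))) (XT.nd (nat_lit 78) (nat_lit 2964) (nat_lit 0) (XT.lf (nat_lit 0) (nat_lit 106463504) (nat_lit 1444) (nat_lit 195870662) (nat_lit 76) (nat_lit 7342464200) (nat_lit 620) (nat_lit 5) (nat_lit 639) (nat_lit 5) (nat_lit 621) (nat_lit 5) (nat_lit 417) (nat_lit 391) (nat_lit 332)) (XT.nd (nat_lit 78) (nat_lit 1520) (nat_lit 0) (XT.lf (nat_lit 0) (nat_lit 2160819311) (nat_lit 1520) (nat_lit 3298458941) (nat_lit 76) (nat_lit 2240164428) (nat_lit 601) (nat_lit 5) (nat_lit 621) (nat_lit 5) (nat_lit 602) (nat_lit 5) (nat_lit 418) (nat_lit 391) (nat_lit 331)) (XT.lf (nat_lit 0) (nat_lit 1319909450) (nat_lit 1520) (nat_lit 2909069889) (nat_lit 1596) (nat_lit 3526746201) (nat_lit 581) (nat_lit 5) (nat_lit 601) (nat_lit 5) (nat_lit 602) (nat_lit 5) (nat_lit 419)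 (nat_lit 391) (nat_lit 330))))))) (XT.nd (nat_lit 780) (nat_lit 6004) (nat_lit 0) (XT.nd (nat_lit 390) (nat_lit 4028) (nat_lit 0) (XT.nd (nat_lit 156) (nat_lit 3420) (nat_lit 0) (XT.nd (nat_lit 78) (nat_lit 1672) (nat_lit 0) (XT.lf (nat_lit 0) (nat_lit 6042904411) (nat_lit 1520) (nat_lit 279112112) (nat_lit 1596) (nat_lit 1491447257) (nat_lit 581) (nat_lit 5) (nat_lit 601) (nat_lit 5) (nat_lit 602) (nat_lit 5) (nat_lit 420) (nat_lit 391) (nat_lit 329)) (XT.lf (nat_lit 0) (nat_lit 573993558) (nat_lit 1672) (nat_lit 4897337185) (nat_lit 76) (nat_lit 2401008084) (nat_lit 559) (nat_lit 5) (nat_lit 581) (nat_lit 5) (nat_lit 560) (nat_lit 5) (nat_lit 421) (nat_lit 391) (nat_lit 328))) (XT.nd (nat_lit 78) (nat_lit 3420) (nat_lit 0) (XT.lf (nat_lit 0) (nat_lit 2637060282) (nat_lit 1672) (nat_lit 137380529) (nat_lit 76) (nat_lit 5158227642) (nat_lit 559) (nat_lit 5) (nat_lit 581) (nat_lit 5) (nat_lit 560) (nat_lit 5) (nat_lit 422) (nat_lit 391)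 (nat_lit 327)) (XT.nd (nat_lit 78) (nat_lit 1748) (nat_lit 0) (XT.lf (nat_lit 0) (nat_lit 4735491019) (nat_lit 1748) (nat_lit 3246612989) (nat_lit 76) (nat_lit 12218610) (nat_lit 537) (nat_lit 5) (nat_lit 560) (nat_lit 5) (nat_lit 538) (nat_lit 5) (nat_lit 423) (nat_lit 391) (nat_lit 326)) (XT.lf (nat_lit 0) (nat_lit 1645581617) (nat_lit 1748) (nat_lit 5224032433) (nat_lit 1824) (nat_lit 1187721345) (nat_lit 514) (nat_lit 5) (nat_lit 537) (nat_lit 5) (nat_lit 538) (nat_lit 5) (nat_lit 424) (nat_lit 391) (nat_lit 325))))) (XT.nd (nat_lit 156) (nat_lit 2128) (nat_lit 0) (XT.nd (nat_lit 78) (nat_lit 1824) (nat_lit 0) (XT.lf (nat_lit 0) (nat_lit 898613178) (nat_lit 1824) (nat_lit 1480748316) (nat_lit 76) (nat_lit 5742408221) (nat_lit 513) (nat_lit 5) (nat_lit 537) (nat_lit 5) (nat_lit 514) (nat_lit 5) (nat_lit 425) (nat_lit 391) (nat_lit 324)) (XT.lf (nat_lit 0) (nat_lit 3002189014) (nat_lit 1900) (nat_lit 4635962265) (nat_lit 76) (nat_lit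 549356059) (nat_lit 489) (nat_lit 5) (nat_lit 514) (nat_lit 5) (nat_lit 490) (nat_lit 5) (nat_lit 426) (nat_lit 391) (nat_lit 323))) (XT.nd (nat_lit 78) (nat_lit 988) (nat_lit 0) (XT.lf (nat_lit 0) (nat_lit 406799863) (nat_lit 1140) (nat_lit 4734643720) (nat_lit 1216) (nat_lit 3113243989) (nat_lit 474) (nat_lit 5) (nat_lit 489) (nat_lit 5) (nat_lit 490) (nat_lit 5) (nat_lit 427) (nat_lit 391) (nat_lit 322)) (XT.nd (nat_lit 78) (nat_lit 988) (nat_lit 0) (XT.lf (nat_lit 0) (nat_lit 5580567913) (nat_lit 1140) (nat_lit 1739701289) (nat_lit 1216) (nat_lit 1003006486) (nat_lit 474) (nat_lit 5) (nat_lit 489) (nat_lit 5) (nat_lit 490) (nat_lit 5) (nat_lit 428) (nat_lit 391) (nat_lit 321)) (XT.lf (nat_lit 0) (nat_lit 1125141224) (nat_lit 988) (nat_lit 5945312986) (nat_lit 76) (nat_lit 1322816491) (nat_lit 461) (nat_lit 5) (nat_lit 474) (nat_lit 5) (nat_lit 462) (nat_lit 5) (nat_lit 429) (nat_lit 391) (nat_lit 320)))))) (XT.nd (nat_lit 390) (nat_lit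 3268) (nat_lit 0) (XT.nd (nat_lit 156) (nat_lit 1824) (nat_lit 0) (XT.nd (nat_lit 78) (nat_lit 912) (nat_lit 0) (XT.lf (nat_lit 0) (nat_lit 3279070582) (nat_lit 988) (nat_lit 735930475) (nat_lit 76) (nat_lit 4449598979) (nat_lit 461) (nat_lit 5) (nat_lit 474) (nat_lit 5) (nat_lit 462) (nat_lit 5) (nat_lit 430) (nat_lit 391) (nat_lit 319)) (XT.lf (nat_lit 0) (nat_lit 4605728873) (nat_lit 912) (nat_lit 867496527) (nat_lit 988) (nat_lit 3064187622) (nat_lit 449) (nat_lit 5) (nat_lit 461) (nat_lit 5) (nat_lit 462) (nat_lit 5) (nat_lit 431) (nat_lit 391) (nat_lit 318))) (XT.nd (nat_lit 78) (nat_lit 988) (nat_lit 0) (XT.lf (nat_lit 0) (nat_lit 1423284481) (nat_lit 836) (nat_lit 6285081667) (nat_lit 912) (nat_lit 903374062) (nat_lit 438) (nat_lit 5) (nat_lit 449) (nat_lit 5) (nat_lit 450) (nat_lit 5) (nat_lit 432) (nat_lit 391) (nat_lit 317)) (XT.nd (nat_lit 78) (nat_lit 912) (nat_lit 0) (XT.lf (nat_lit 0) (nat_lit 1283790800) (nat_lit 912)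 (nat_lit 1795705536) (nat_lit 76) (nat_lit 5607884844) (nat_lit 437) (nat_lit 5) (nat_lit 449) (nat_lit 5) (nat_lit 438) (nat_lit 5) (nat_lit 433) (nat_lit 391) (nat_lit 316)) (XT.lf (nat_lit 0) (nat_lit 3496684889) (nat_lit 988) (nat_lit 5050663074) (nat_lit 76) (nat_lit 217185939) (nat_lit 425) (nat_lit 5) (nat_lit 438) (nat_lit 5) (nat_lit 426) (nat_lit 5) (nat_lit 434) (nat_lit 391) (nat_lit 315))))) (XT.nd (nat_lit 234) (nat_lit 1520) (nat_lit 0) (XT.nd (nat_lit 78) (nat_lit 912) (nat_lit 0) (XT.lf (nat_lit 0) (nat_lit 467936442) (nat_lit 836) (nat_lit 5290384214) (nat_lit 912) (nat_lit 3084819345) (nat_lit 414) (nat_lit 5) (nat_lit 425) (nat_lit 5) (nat_lit 426) (nat_lit 5) (nat_lit 435) (nat_lit 391) (nat_lit 314)) (XT.nd (nat_lit 78) (nat_lit 912) (nat_lit 0) (XT.lf (nat_lit 0) (nat_lit 6132868150) (nat_lit 836) (nat_lit 1935533642) (nat_lit 912) (nat_lit 854852178) (nat_lit 414) (nat_lit 5) (nat_lit 425) (nat_lit 5) (nat_lit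 426) (nat_lit 5) (nat_lit 436) (nat_lit 391) (nat_lit 313)) (XT.lf (nat_lit 0) (nat_lit 1399486991) (nat_lit 912) (nat_lit 6112125996) (nat_lit 76) (nat_lit 1493205027) (nat_lit 402) (nat_lit 5) (nat_lit 414) (nat_lit 5) (nat_lit 403) (nat_lit 5) (nat_lit 437) (nat_lit 391) (nat_lit 312)))) (XT.nd (nat_lit 78) (nat_lit 1520) (nat_lit 0) (XT.lf (nat_lit 0) (nat_lit 3689238164) (nat_lit 912) (nat_lit 411625825) (nat_lit 76) (nat_lit 4987000905) (nat_lit 402) (nat_lit 5) (nat_lit 414) (nat_lit 5) (nat_lit 403) (nat_lit 5) (nat_lit 438) (nat_lit 391) (nat_lit 311)) (XT.nd (nat_lit 78) (nat_lit 760) (nat_lit 0) (XT.lf (nat_lit 0) (nat_lit 5442261139) (nat_lit 760) (nat_lit 588538306) (nat_lit 836) (nat_lit 3141652966) (nat_lit 392) (nat_lit 5) (nat_lit 402) (nat_lit 5) (nat_lit 403) (nat_lit 5) (nat_lit 439) (nat_lit 391) (nat_lit 310)) (XT.lf (nat_lit 0) (nat_lit 2136340530) (nat_lit 760) (nat_lit 6289972127) (nat_lit 836) (nat_lit 832276606)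 (nat_lit 382) (nat_lit 5) (nat_lit 392) (nat_lit 5) (nat_lit 393) (nat_lit 5) (nat_lit 440) (nat_lit 391) (nat_lit 309))))))))
noncomputable def xc135 : XT := (XT.nd (nat_lit 1638) (nat_lit 6764) (nat_lit 0) (XT.nd (nat_lit 780) (nat_lit 4332) (nat_lit 0) (XT.nd (nat_lit 390) (nat_lit 2128) (nat_lit 0) (XT.nd (nat_lit 156) (nat_lit 1520) (nat_lit 0) (XT.nd (nat_lit 78) (nat_lit 760) (nat_lit 0) (XT.lf (nat_lit 0) (nat_lit 1503604317) (nat_lit 836) (nat_lit 1221654523) (nat_lit 76) (nat_lit 6620986304) (nat_lit 381) (nat_lit 5) (nat_lit 392) (nat_lit 5) (nat_lit 382) (nat_lit 5) (nat_lit 441) (nat_lit 391) (nat_lit 308)) (XT.lf (nat_lit 0) (nat_lit 3884280353) (nat_lit 836) (nat_lit 4618805692) (nat_lit 76) (nat_lit 932273636) (nat_lit 371) (nat_lit 5) (nat_lit 382) (nat_lit 5) (nat_lit 372) (nat_lit 5) (nat_lit 442) (nat_lit 391) (nat_lit 307))) (XT.nd (nat_lit 78) (nat_lit 760) (nat_lit 0) (XT.lf (nat_lit 0) (nat_lit 1434500125) (nat_lit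 760) (nat_lit 4885772234) (nat_lit 836) (nat_lit 3205830101) (nat_lit 361) (nat_lit 5) (nat_lit 371) (nat_lit 5) (nat_lit 372) (nat_lit 5) (nat_lit 443) (nat_lit 391) (nat_lit 306)) (XT.nd (nat_lit 78) (nat_lit 760) (nat_lit 0) (XT.lf (nat_lit 0) (nat_lit 7639487856) (nat_lit 760) (nat_lit 1168918948) (nat_lit 836) (nat_lit 810184840) (nat_lit 361) (nat_lit 5) (nat_lit 371) (nat_lit 5) (nat_lit 372) (nat_lit 5) (nat_lit 444) (nat_lit 391) (nat_lit 305)) (XT.lf (nat_lit 0) (nat_lit 1629710091) (nat_lit 760) (nat_lit 5460653472) (nat_lit 76) (nat_lit 2621999774) (nat_lit 351) (nat_lit 5) (nat_lit 361) (nat_lit 5) (nat_lit 352) (nat_lit 5) (nat_lit 445) (nat_lit 391) (nat_lit 304))))) (XT.nd (nat_lit 156) (nat_lit 1444) (nat_lit 0) (XT.nd (nat_lit 78) (nat_lit 0) (nat_lit 0) (XT.lf (nat_lit 0) (nat_lit 791380302) (nat_lit 684) (nat_lit 3315520894) (nat_lit 760) (nat_lit 5701015228) (nat_lit 342) (nat_lit 5) (nat_lit 351) (nat_lit 5) (nat_lit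 352) (nat_lit 5) (nat_lit 446) (nat_lit 391) (nat_lit 303)) (XT.lf (nat_lit 0) (nat_lit 6647370621) (nat_lit 760) (nat_lit 2698201015) (nat_lit 76) (nat_lit 559534248) (nat_lit 342) (nat_lit 5) (nat_lit 352) (nat_lit 5) (nat_lit 343) (nat_lit 5) (nat_lit 447) (nat_lit 391) (nat_lit 302))) (XT.nd (nat_lit 78) (nat_lit 760) (nat_lit 0) (XT.lf (nat_lit 0) (nat_lit 3741939922) (nat_lit 684) (nat_lit 5516859370) (nat_lit 760) (nat_lit 745036843) (nat_lit 333) (nat_lit 5) (nat_lit 342) (nat_lit 5) (nat_lit 343) (nat_lit 5) (nat_lit 448) (nat_lit 391) (nat_lit 301)) (XT.nd (nat_lit 78) (nat_lit 0) (nat_lit 0) (XT.lf (nat_lit 0) (nat_lit 202191751) (nat_lit 684) (nat_lit 1585454786) (nat_lit 760) (nat_lit 8316786926) (nat_lit 323) (nat_lit 5) (nat_lit 332) (nat_lit 5) (nat_lit 333) (nat_lit 5) (nat_lit 449) (nat_lit 391) (nat_lit 300)) (XT.lf (nat_lit 0) (nat_lit 4393357315) (nat_lit 760) (nat_lit 3378795427) (nat_lit 76) (nat_lit 2434144507)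 (nat_lit 323) (nat_lit 5) (nat_lit 333) (nat_lit 5) (nat_lit 324) (nat_lit 5) (nat_lit 450) (nat_lit 391) (nat_lit 299)))))) (XT.nd (nat_lit 390) (nat_lit 2432) (nat_lit 0) (XT.nd (nat_lit 156) (nat_lit 1292) (nat_lit 0) (XT.nd (nat_lit 78) (nat_lit 0) (nat_lit 0) (XT.lf (nat_lit 0) (nat_lit 3276134273) (nat_lit 608) (nat_lit 3781622079) (nat_lit 684) (nat_lit 3252310478) (nat_lit 315) (nat_lit 5) (nat_lit 323) (nat_lit 5) (nat_lit 324) (nat_lit 5) (nat_lit 451) (nat_lit 391) (nat_lit 298)) (XT.lf (nat_lit 0) (nat_lit 9775195094) (nat_lit 684) (nat_lit 339222929) (nat_lit 76) (nat_lit 301498745) (nat_lit 315) (nat_lit 5) (nat_lit 324) (nat_lit 5) (nat_lit 316) (nat_lit 5) (nat_lit 452) (nat_lit 391) (nat_lit 297))) (XT.nd (nat_lit 78) (nat_lit 608) (nat_lit 0) (XT.lf (nat_lit 0) (nat_lit 2039760345) (nat_lit 684) (nat_lit 4017694636) (nat_lit 76) (nat_lit 4465302122) (nat_lit 306) (nat_lit 5) (nat_lit 315) (nat_lit 5) (nat_lit 307) (nat_lit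 5) (nat_lit 453) (nat_lit 391) (nat_lit 296)) (XT.nd (nat_lit 78) (nat_lit 0) (nat_lit 0) (XT.lf (nat_lit 0) (nat_lit 2861209878) (nat_lit 608) (nat_lit 1900600822) (nat_lit 684) (nat_lit 5869908082) (nat_lit 298) (nat_lit 5) (nat_lit 306) (nat_lit 5) (nat_lit 307) (nat_lit 5) (nat_lit 454) (nat_lit 391) (nat_lit 295)) (XT.lf (nat_lit 0) (nat_lit 7556522930) (nat_lit 684) (nat_lit 856965731) (nat_lit 76) (nat_lit 2329006617) (nat_lit 298) (nat_lit 5) (nat_lit 307) (nat_lit 5) (nat_lit 299) (nat_lit 5) (nat_lit 455) (nat_lit 391) (nat_lit 294))))) (XT.nd (nat_lit 234) (nat_lit 1216) (nat_lit 0) (XT.nd (nat_lit 78) (nat_lit 608) (nat_lit 0) (XT.lf (nat_lit 0) (nat_lit 6233196110) (nat_lit 608) (nat_lit 4203355389) (nat_lit 684) (nat_lit 418347363) (nat_lit 290) (nat_lit 5) (nat_lit 298) (nat_lit 5) (nat_lit 299) (nat_lit 5) (nat_lit 456) (nat_lit 391) (nat_lit 293)) (XT.nd (nat_lit 78) (nat_lit 0) (nat_lit 0) (XT.lf (nat_lit 0) (nat_lit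 2372337794) (nat_lit 608) (nat_lit 8476591797) (nat_lit 76) (nat_lit 120323781) (nat_lit 282) (nat_lit 5) (nat_lit 290) (nat_lit 5) (nat_lit 283) (nat_lit 5) (nat_lit 457) (nat_lit 391) (nat_lit 292)) (XT.lf (nat_lit 0) (nat_lit 5248985037) (nat_lit 608) (nat_lit 1335264004) (nat_lit 76) (nat_lit 4500875624) (nat_lit 282) (nat_lit 5) (nat_lit 290) (nat_lit 5) (nat_lit 283) (nat_lit 5) (nat_lit 458) (nat_lit 391) (nat_lit 291)))) (XT.nd (nat_lit 78) (nat_lit 608) (nat_lit 0) (XT.lf (nat_lit 0) (nat_lit 5997014614) (nat_lit 608) (nat_lit 2202232871) (nat_lit 684) (nat_lit 3003744254) (nat_lit 274) (nat_lit 5) (nat_lit 282) (nat_lit 5) (nat_lit 283) (nat_lit 5) (nat_lit 459) (nat_lit 391) (nat_lit 290)) (XT.nd (nat_lit 78) (nat_lit 76) (nat_lit 0) (XT.lf (nat_lit 0) (nat_lit 2153738694) (nat_lit 532) (nat_lit 9069848011) (nat_lit 608) (nat_lit 99328020) (nat_lit 267) (nat_lit 5) (nat_lit 274) (nat_lit 5) (nat_lit 275) (nat_lit 5) (nat_lit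 460) (nat_lit 391) (nat_lit 289)) (XT.lf (nat_lit 0) (nat_lit 2852820318) (nat_lit 608) (nat_lit 1777551893) (nat_lit 76) (nat_lit 6813948268) (nat_lit 266) (nat_lit 5) (nat_lit 274) (nat_lit 5) (nat_lit 267) (nat_lit 5) (nat_lit 461) (nat_lit 391) (nat_lit 288))))))) (XT.nd (nat_lit 780) (nat_lit 3116) (nat_lit 0) (XT.nd (nat_lit 390) (nat_lit 1520) (nat_lit 0) (XT.nd (nat_lit 156) (nat_lit 1064) (nat_lit 0) (XT.nd (nat_lit 78) (nat_lit 532) (nat_lit 0) (XT.lf (nat_lit 0) (nat_lit 5807187350) (nat_lit 532) (nat_lit 71086225) (nat_lit 608) (nat_lit 5689555805) (nat_lit 259) (nat_lit 5) (nat_lit 266) (nat_lit 5) (nat_lit 267) (nat_lit 5) (nat_lit 462) (nat_lit 391) (nat_lit 287)) (XT.lf (nat_lit 0) (nat_lit 1838033766) (nat_lit 532) (nat_lit 7157947937) (nat_lit 608) (nat_lit 2697191838) (nat_lit 252) (nat_lit 5) (nat_lit 259) (nat_lit 5) (nat_lit 260) (nat_lit 5) (nat_lit 463) (nat_lit 391) (nat_lit 286))) (XT.nd (nat_lit 78) (nat_lit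 988) (nat_lit 0) (XT.lf (nat_lit 0) (nat_lit 367909497) (nat_lit 608) (nat_lit 2187010951) (nat_lit 76) (nat_lit 9265707113) (nat_lit 251) (nat_lit 5) (nat_lit 259) (nat_lit 5) (nat_lit 252) (nat_lit 5) (nat_lit 464) (nat_lit 391) (nat_lit 285)) (XT.nd (nat_lit 78) (nat_lit 456) (nat_lit 0) (XT.lf (nat_lit 0) (nat_lit 3487778615) (nat_lit 608) (nat_lit 6303205478) (nat_lit 76) (nat_lit 2158698376) (nat_lit 244) (nat_lit 5) (nat_lit 252) (nat_lit 5) (nat_lit 245) (nat_lit 5) (nat_lit 465) (nat_lit 391) (nat_lit 284)) (XT.lf (nat_lit 0) (nat_lit 1558608053) (nat_lit 456) (nat_lit 5132012088) (nat_lit 532) (nat_lit 5390286835) (nat_lit 238) (nat_lit 5) (nat_lit 244) (nat_lit 5) (nat_lit 245) (nat_lit 5) (nat_lit 466) (nat_lit 391) (nat_lit 283))))) (XT.nd (nat_lit 156) (nat_lit 912) (nat_lit 0) (XT.nd (nat_lit 78) (nat_lit 608) (nat_lit 0) (XT.lf (nat_lit 0) (nat_lit 9633225882) (nat_lit 456) (nat_lit 345575228) (nat_lit 532) (nat_lit 2235529210)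 (nat_lit 238) (nat_lit 5) (nat_lit 244) (nat_lit 5) (nat_lit 245) (nat_lit 5) (nat_lit 467) (nat_lit 391) (nat_lit 282)) (XT.lf (nat_lit 0) (nat_lit 1014451198) (nat_lit 608) (nat_lit 6823827898) (nat_lit 76) (nat_lit 4511115258) (nat_lit 230) (nat_lit 5) (nat_lit 238) (nat_lit 5) (nat_lit 231) (nat_lit 5) (nat_lit 468) (nat_lit 391) (nat_lit 281))) (XT.nd (nat_lit 78) (nat_lit 456) (nat_lit 0) (XT.lf (nat_lit 0) (nat_lit 1312832998) (nat_lit 456) (nat_lit 2994359047) (nat_lit 532) (nat_lit 8179518194) (nat_lit 224) (nat_lit 5) (nat_lit 230) (nat_lit 5) (nat_lit 231) (nat_lit 5) (nat_lit 469) (nat_lit 391) (nat_lit 280)) (XT.nd (nat_lit 78) (nat_lit 456) (nat_lit 0) (XT.lf (nat_lit 0) (nat_lit 7704091357) (nat_lit 532) (nat_lit 2963945929) (nat_lit 76) (nat_lit 1957969083) (nat_lit 224) (nat_lit 5) (nat_lit 231) (nat_lit 5) (nat_lit 225) (nat_lit 5) (nat_lit 470) (nat_lit 391) (nat_lit 279)) (XT.lf (nat_lit 0) (nat_lit 5432310941) (nat_lit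 456) (nat_lit 5771689973) (nat_lit 532) (nat_lit 1563386062) (nat_lit 218) (nat_lit 5) (nat_lit 224) (nat_lit 5) (nat_lit 225) (nat_lit 5) (nat_lit 471) (nat_lit 391) (nat_lit 278)))))) (XT.nd (nat_lit 390) (nat_lit 1672) (nat_lit 0) (XT.nd (nat_lit 156) (nat_lit 912) (nat_lit 0) (XT.nd (nat_lit 78) (nat_lit 0) (nat_lit 0) (XT.lf (nat_lit 0) (nat_lit 1098292704) (nat_lit 456) (nat_lit 746792800) (nat_lit 532) (nat_lit 11066123934) (nat_lit 211) (nat_lit 5) (nat_lit 217) (nat_lit 5) (nat_lit 218) (nat_lit 5) (nat_lit 472) (nat_lit 391) (nat_lit 277)) (XT.lf (nat_lit 0) (nat_lit 5358974516) (nat_lit 532) (nat_lit 3325776418) (nat_lit 76) (nat_lit 4371787099) (nat_lit 211) (nat_lit 5) (nat_lit 218) (nat_lit 5) (nat_lit 212) (nat_lit 5) (nat_lit 473) (nat_lit 391) (nat_lit 276))) (XT.nd (nat_lit 78) (nat_lit 456) (nat_lit 0) (XT.lf (nat_lit 0) (nat_lit 5367635120) (nat_lit 456) (nat_lit 3595875805) (nat_lit 532) (nat_lit 4240854881) (nat_lit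 205) (nat_lit 5) (nat_lit 211) (nat_lit 5) (nat_lit 212) (nat_lit 5) (nat_lit 474) (nat_lit 391) (nat_lit 275)) (XT.nd (nat_lit 78) (nat_lit 76) (nat_lit 0) (XT.lf (nat_lit 0) (nat_lit 897505579) (nat_lit 380) (nat_lit 11761985932) (nat_lit 456) (nat_lit 695271556) (nat_lit 200) (nat_lit 5) (nat_lit 205) (nat_lit 5) (nat_lit 206) (nat_lit 5) (nat_lit 475) (nat_lit 391) (nat_lit 274)) (XT.lf (nat_lit 0) (nat_lit 2940432442) (nat_lit 456) (nat_lit 3666710009) (nat_lit 76) (nat_lit 6899496064) (nat_lit 199) (nat_lit 5) (nat_lit 205) (nat_lit 5) (nat_lit 200) (nat_lit 5) (nat_lit 476) (nat_lit 391) (nat_lit 273))))) (XT.nd (nat_lit 234) (nat_lit 760) (nat_lit 0) (XT.nd (nat_lit 78) (nat_lit 456) (nat_lit 0) (XT.lf (nat_lit 0) (nat_lit 5336483413) (nat_lit 456) (nat_lit 1318861933) (nat_lit 532) (nat_lit 7005798121) (nat_lit 193) (nat_lit 5) (nat_lit 199) (nat_lit 5) (nat_lit 200) (nat_lit 5) (nat_lit 477) (nat_lit 391) (nat_lit 272)) (XT.nd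 (nat_lit 78) (nat_lit 76) (nat_lit 0) (XT.lf (nat_lit 0) (nat_lit 705151901) (nat_lit 380) (nat_lit 9776480606) (nat_lit 456) (nat_lit 3336364492) (nat_lit 188) (nat_lit 5) (nat_lit 193) (nat_lit 5) (nat_lit 194) (nat_lit 5) (nat_lit 478) (nat_lit 391) (nat_lit 271)) (XT.lf (nat_lit 0) (nat_lit 447423895) (nat_lit 456) (nat_lit 3988941965) (nat_lit 76) (nat_lit 9540643023) (nat_lit 187) (nat_lit 5) (nat_lit 193) (nat_lit 5) (nat_lit 188) (nat_lit 5) (nat_lit 479) (nat_lit 391) (nat_lit 270)))) (XT.nd (nat_lit 78) (nat_lit 380) (nat_lit 0) (XT.lf (nat_lit 0) (nat_lit 4285477244) (nat_lit 456) (nat_lit 8808131156) (nat_lit 76) (nat_lit 1044686276) (nat_lit 182) (nat_lit 5) (nat_lit 188) (nat_lit 5) (nat_lit 183) (nat_lit 5) (nat_lit 480) (nat_lit 391) (nat_lit 269)) (XT.nd (nat_lit 78) (nat_lit 0) (nat_lit 0) (XT.lf (nat_lit 0) (nat_lit 536651138) (nat_lit 380) (nat_lit 7705259068) (nat_lit 456) (nat_lit 6060063608) (nat_lit 177) (nat_lit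 5) (nat_lit 182) (nat_lit 5) (nat_lit 183) (nat_lit 5) (nat_lit 481) (nat_lit 391) (nat_lit 268)) (XT.lf (nat_lit 0) (nat_lit 10159630267) (nat_lit 380) (nat_lit 2158932198) (nat_lit 456) (nat_lit 2149542255) (nat_lit 177) (nat_lit 5) (nat_lit 182) (nat_lit 5) (nat_lit 183) (nat_lit 5) (nat_lit 482) (nat_lit 391) (nat_lit 267))))))))
noncomputable def xc136 : XT := (XT.nd (nat_lit 1560) (nat_lit 608) (nat_lit 0) (XT.nd (nat_lit 780) (nat_lit 1976) (nat_lit 0) (XT.nd (nat_lit 390) (nat_lit 1064) (nat_lit 0) (XT.nd (nat_lit 156) (nat_lit 760) (nat_lit 0) (XT.nd (nat_lit 78) (nat_lit 304) (nat_lit 0) (XT.lf (nat_lit 0) (nat_lit 1855100222) (nat_lit 456) (nat_lit 9291742773) (nat_lit 76) (nat_lit 3489675786) (nat_lit 171) (nat_lit 5) (nat_lit 177) (nat_lit 5) (nat_lit 172) (nat_lit 5) (nat_lit 483) (nat_lit 391) (nat_lit 266)) (XT.lf (nat_lit 0) (nat_lit 390279928) (nat_lit 304) (nat_lit 5549059616) (nat_lit 380) (nat_lit 8868111683) (nat_lit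 167) (nat_lit 5) (nat_lit 171) (nat_lit 5) (nat_lit 172) (nat_lit 5) (nat_lit 484) (nat_lit 391) (nat_lit 265))) (XT.nd (nat_lit 78) (nat_lit 760) (nat_lit 0) (XT.lf (nat_lit 0) (nat_lit 10151497187) (nat_lit 380) (nat_lit 4618102233) (nat_lit 76) (nat_lit 211278231) (nat_lit 167) (nat_lit 5) (nat_lit 172) (nat_lit 5) (nat_lit 168) (nat_lit 5) (nat_lit 485) (nat_lit 391) (nat_lit 264)) (XT.nd (nat_lit 78) (nat_lit 380) (nat_lit 0) (XT.lf (nat_lit 0) (nat_lit 5383366137) (nat_lit 380) (nat_lit 9119002459) (nat_lit 456) (nat_lit 654314595) (nat_lit 162) (nat_lit 5) (nat_lit 167) (nat_lit 5) (nat_lit 168) (nat_lit 5) (nat_lit 486) (nat_lit 391) (nat_lit 263)) (XT.lf (nat_lit 0) (nat_lit 264455378) (nat_lit 304) (nat_lit 3308256271) (nat_lit 380) (nat_lit 11762510578) (nat_lit 157) (nat_lit 5) (nat_lit 161) (nat_lit 5) (nat_lit 162) (nat_lit 5) (nat_lit 487) (nat_lit 391) (nat_lit 262))))) (XT.nd (nat_lit 156) (nat_lit 684) (nat_lit 0) (XT.nd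 (nat_lit 78) (nat_lit 380) (nat_lit 0) (XT.lf (nat_lit 0) (nat_lit 7941456359) (nat_lit 380) (nat_lit 4929905009) (nat_lit 76) (nat_lit 2644565393) (nat_lit 157) (nat_lit 5) (nat_lit 162) (nat_lit 5) (nat_lit 158) (nat_lit 5) (nat_lit 488) (nat_lit 391) (nat_lit 261)) (XT.lf (nat_lit 0) (nat_lit 5436123689) (nat_lit 380) (nat_lit 7001901488) (nat_lit 456) (nat_lit 3261411223) (nat_lit 152) (nat_lit 5) (nat_lit 157) (nat_lit 5) (nat_lit 158) (nat_lit 5) (nat_lit 489) (nat_lit 391) (nat_lit 260))) (XT.nd (nat_lit 78) (nat_lit 304) (nat_lit 0) (XT.lf (nat_lit 0) (nat_lit 157724635) (nat_lit 304) (nat_lit 982875528) (nat_lit 380) (nat_lit 14745516010) (nat_lit 147) (nat_lit 5) (nat_lit 151) (nat_lit 5) (nat_lit 152) (nat_lit 5) (nat_lit 490) (nat_lit 391) (nat_lit 259)) (XT.nd (nat_lit 78) (nat_lit 304) (nat_lit 0) (XT.lf (nat_lit 0) (nat_lit 5673205583) (nat_lit 380) (nat_lit 5231549087) (nat_lit 76) (nat_lit 5169619231) (nat_lit 147) (nat_lit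 5) (nat_lit 152) (nat_lit 5) (nat_lit 148) (nat_lit 5) (nat_lit 491) (nat_lit 391) (nat_lit 258)) (XT.lf (nat_lit 0) (nat_lit 5514409113) (nat_lit 304) (nat_lit 4808067607) (nat_lit 380) (nat_lit 5943399792) (nat_lit 143) (nat_lit 5) (nat_lit 147) (nat_lit 5) (nat_lit 148) (nat_lit 5) (nat_lit 492) (nat_lit 391) (nat_lit 257)))))) (XT.nd (nat_lit 390) (nat_lit 912) (nat_lit 0) (XT.nd (nat_lit 156) (nat_lit 684) (nat_lit 0) (XT.nd (nat_lit 78) (nat_lit 76) (nat_lit 0) (XT.lf (nat_lit 0) (nat_lit 50247397) (nat_lit 304) (nat_lit 15043091468) (nat_lit 380) (nat_lit 1367298196) (nat_lit 139) (nat_lit 5) (nat_lit 143) (nat_lit 5) (nat_lit 144) (nat_lit 5) (nat_lit 493) (nat_lit 391) (nat_lit 256)) (XT.lf (nat_lit 0) (nat_lit 3345329788) (nat_lit 380) (nat_lit 5524616181) (nat_lit 76) (nat_lit 7787152521) (nat_lit 138) (nat_lit 5) (nat_lit 143) (nat_lit 5) (nat_lit 139) (nat_lit 5) (nat_lit 494) (nat_lit 391) (nat_lit 255))) (XT.nd (nat_lit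 78) (nat_lit 380) (nat_lit 0) (XT.lf (nat_lit 0) (nat_lit 5617259212) (nat_lit 304) (nat_lit 2537269718) (nat_lit 380) (nat_lit 8702366927) (nat_lit 134) (nat_lit 5) (nat_lit 138) (nat_lit 5) (nat_lit 139) (nat_lit 5) (nat_lit 495) (nat_lit 391) (nat_lit 254)) (XT.nd (nat_lit 78) (nat_lit 380) (nat_lit 0) (XT.lf (nat_lit 0) (nat_lit 13106908610) (nat_lit 380) (nat_lit 55102776) (nat_lit 76) (nat_lit 3897737855) (nat_lit 134) (nat_lit 5) (nat_lit 139) (nat_lit 5) (nat_lit 135) (nat_lit 5) (nat_lit 496) (nat_lit 391) (nat_lit 253)) (XT.lf (nat_lit 0) (nat_lit 956220639) (nat_lit 380) (nat_lit 5810595117) (nat_lit 76) (nat_lit 10498203369) (nat_lit 129) (nat_lit 5) (nat_lit 134) (nat_lit 5) (nat_lit 130) (nat_lit 5) (nat_lit 497) (nat_lit 391) (nat_lit 252))))) (XT.nd (nat_lit 156) (nat_lit 608) (nat_lit 0) (XT.nd (nat_lit 78) (nat_lit 0) (nat_lit 0) (XT.lf (nat_lit 0) (nat_lit 5743827942) (nat_lit 304) (nat_lit 188979519) (nat_lit 380)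 (nat_lit 11540618923) (nat_lit 125) (nat_lit 5) (nat_lit 129) (nat_lit 5) (nat_lit 130) (nat_lit 5) (nat_lit 498) (nat_lit 391) (nat_lit 251)) (XT.lf (nat_lit 0) (nat_lit 11075138692) (nat_lit 380) (nat_lit 145604871) (nat_lit 76) (nat_lit 6463933974) (nat_lit 125) (nat_lit 5) (nat_lit 130) (nat_lit 5) (nat_lit 126) (nat_lit 5) (nat_lit 499) (nat_lit 391) (nat_lit 250))) (XT.nd (nat_lit 78) (nat_lit 380) (nat_lit 0) (XT.lf (nat_lit 0) (nat_lit 11798166383) (nat_lit 228) (nat_lit 4584932070) (nat_lit 304) (nat_lit 1515799620) (nat_lit 122) (nat_lit 5) (nat_lit 125) (nat_lit 5) (nat_lit 126) (nat_lit 5) (nat_lit 500) (nat_lit 391) (nat_lit 249)) (XT.nd (nat_lit 78) (nat_lit 0) (nat_lit 0) (XT.lf (nat_lit 0) (nat_lit 3670290045) (nat_lit 380) (nat_lit 12237589925) (nat_lit 76) (nat_lit 2208270472) (nat_lit 117) (nat_lit 5) (nat_lit 122) (nat_lit 5) (nat_lit 118) (nat_lit 5) (nat_lit 501) (nat_lit 391) (nat_lit 248)) (XT.lf (nat_lit 0) (nat_lit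 8996423415) (nat_lit 380) (nat_lit 222949142) (nat_lit 76) (nat_lit 9117042543) (nat_lit 117) (nat_lit 5) (nat_lit 122) (nat_lit 5) (nat_lit 118) (nat_lit 5) (nat_lit 502) (nat_lit 391) (nat_lit 247))))))) (XT.nd (nat_lit 51324) (nat_lit 0) (nat_lit 42788) (XT.nd (nat_lit 50934) (nat_lit 0) (nat_lit 45980) (XT.nd (nat_lit 50700) (nat_lit 0) (nat_lit 47804) (XT.nd (nat_lit 78) (nat_lit 380) (nat_lit 0) (XT.lf (nat_lit 0) (nat_lit 12166568500) (nat_lit 228) (nat_lit 2326823468) (nat_lit 304) (nat_lit 4066406834) (nat_lit 114) (nat_lit 5) (nat_lit 117) (nat_lit 5) (nat_lit 118) (nat_lit 5) (nat_lit 503) (nat_lit 391) (nat_lit 246)) (XT.lf (nat_lit 0) (nat_lit 1352468002) (nat_lit 380) (nat_lit 12752473604) (nat_lit 76) (nat_lit 4681397441) (nat_lit 109) (nat_lit 5) (nat_lit 114) (nat_lit 5) (nat_lit 110) (nat_lit 5) (nat_lit 504) (nat_lit 391) (nat_lit 245))) (XT.nd (nat_lit 78) (nat_lit 836) (nat_lit 0) (XT.lf (nat_lit 0) (nat_lit 3038190589)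 (nat_lit 836) (nat_lit 159717919) (nat_lit 836) (nat_lit 159717919) (nat_lit 749) (nat_lit 3) (nat_lit 760) (nat_lit 3) (nat_lit 760) (nat_lit 5) (nat_lit 392) (nat_lit 392) (nat_lit 356)) (XT.nd (nat_lit 78) (nat_lit 0) (nat_lit 0) (XT.lf (nat_lit 0) (nat_lit 1565471419) (nat_lit 836) (nat_lit 3670382387) (nat_lit 912) (nat_lit 1502589986) (nat_lit 738) (nat_lit 5) (nat_lit 749) (nat_lit 3) (nat_lit 750) (nat_lit 5) (nat_lit 393) (nat_lit 392) (nat_lit 355)) (XT.lf (nat_lit 0) (nat_lit 3750082068) (nat_lit 836) (nat_lit 268810395) (nat_lit 912) (nat_lit 2744226921) (nat_lit 738) (nat_lit 5) (nat_lit 749) (nat_lit 3) (nat_lit 750) (nat_lit 5) (nat_lit 394) (nat_lit 392) (nat_lit 354))))) (XT.nd (nat_lit 156) (nat_lit 912) (nat_lit 0) (XT.nd (nat_lit 78) (nat_lit 912) (nat_lit 0) (XT.lf (nat_lit 76) (nat_lit 3213380015) (nat_lit 0) (nat_lit 2729563804) (nat_lit 912) (nat_lit 846053490) (nat_lit 739) (nat_lit 5) (nat_lit 738) (nat_lit 5)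 (nat_lit 750) (nat_lit 5) (nat_lit 395) (nat_lit 392) (nat_lit 353)) (XT.lf (nat_lit 0) (nat_lit 1292435206) (nat_lit 912) (nat_lit 85471996) (nat_lit 988) (nat_lit 5438387280) (nat_lit 726) (nat_lit 5) (nat_lit 738) (nat_lit 5) (nat_lit 739) (nat_lit 5) (nat_lit 396) (nat_lit 392) (nat_lit 352))) (XT.nd (nat_lit 78) (nat_lit 988) (nat_lit 0) (XT.lf (nat_lit 0) (nat_lit 3430693643) (nat_lit 912) (nat_lit 3359954483) (nat_lit 988) (nat_lit 54011051) (nat_lit 727) (nat_lit 5) (nat_lit 739) (nat_lit 5) (nat_lit 740) (nat_lit 5) (nat_lit 397) (nat_lit 392) (nat_lit 351)) (XT.nd (nat_lit 78) (nat_lit 988) (nat_lit 0) (XT.lf (nat_lit 76) (nat_lit 217027478) (nat_lit 0) (nat_lit 5352177092) (nat_lit 988) (nat_lit 1305236850) (nat_lit 728) (nat_lit 5) (nat_lit 727) (nat_lit 5) (nat_lit 740) (nat_lit 5) (nat_lit 398) (nat_lit 392) (nat_lit 350)) (XT.lf (nat_lit 0) (nat_lit 804152303) (nat_lit 988) (nat_lit 3029972766) (nat_lit 1064) (nat_lit 3071192887)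 (nat_lit 714) (nat_lit 5) (nat_lit 727) (nat_lit 5) (nat_lit 728) (nat_lit 5) (nat_lit 399) (nat_lit 392) (nat_lit 349)))))) (XT.nd (nat_lit 390) (nat_lit 2204) (nat_lit 0) (XT.nd (nat_lit 156) (nat_lit 988) (nat_lit 0) (XT.nd (nat_lit 78) (nat_lit 0) (nat_lit 0) (XT.lf (nat_lit 76) (nat_lit 639308314) (nat_lit 0) (nat_lit 2251033091) (nat_lit 1064) (nat_lit 4047256280) (nat_lit 715) (nat_lit 5) (nat_lit 714) (nat_lit 5) (nat_lit 728) (nat_lit 5) (nat_lit 400) (nat_lit 392) (nat_lit 348)) (XT.lf (nat_lit 76) (nat_lit 4392797813) (nat_lit 0) (nat_lit 594536062) (nat_lit 1064) (nat_lit 1983807541) (nat_lit 715) (nat_lit 5) (nat_lit 714) (nat_lit 5) (nat_lit 728) (nat_lit 5) (nat_lit 401) (nat_lit 392) (nat_lit 347))) (XT.nd (nat_lit 78) (nat_lit 0) (nat_lit 0) (XT.lf (nat_lit 0) (nat_lit 83837168) (nat_lit 1064) (nat_lit 5812860179) (nat_lit 1140) (nat_lit 1109352721) (nat_lit 701) (nat_lit 5) (nat_lit 715) (nat_lit 5) (nat_lit 716) (nat_lit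 5) (nat_lit 402) (nat_lit 392) (nat_lit 346)) (XT.nd (nat_lit 78) (nat_lit 0) (nat_lit 0) (XT.lf (nat_lit 0) (nat_lit 2137993223) (nat_lit 1064) (nat_lit 2014648517) (nat_lit 1140) (nat_lit 2889318458) (nat_lit 701) (nat_lit 5) (nat_lit 715) (nat_lit 5) (nat_lit 716) (nat_lit 5) (nat_lit 403) (nat_lit 392) (nat_lit 345)) (XT.lf (nat_lit 76) (nat_lit 1853192983) (nat_lit 0) (nat_lit 2343388097) (nat_lit 1140) (nat_lit 2882740478) (nat_lit 702) (nat_lit 5) (nat_lit 701) (nat_lit 5) (nat_lit 716) (nat_lit 5) (nat_lit 404) (nat_lit 392) (nat_lit 344))))) (XT.nd (nat_lit 234) (nat_lit 1140) (nat_lit 0) (XT.nd (nat_lit 78) (nat_lit 1064) (nat_lit 0) (XT.lf (nat_lit 76) (nat_lit 5795262628) (nat_lit 0) (nat_lit 466670898) (nat_lit 1140) (nat_lit 856184763) (nat_lit 702) (nat_lit 5) (nat_lit 701) (nat_lit 5) (nat_lit 716) (nat_lit 5) (nat_lit 405) (nat_lit 392) (nat_lit 343)) (XT.nd (nat_lit 78) (nat_lit 0) (nat_lit 0) (XT.lf (nat_lit 0) (nat_lit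 1174634886) (nat_lit 1140) (nat_lit 4512837420) (nat_lit 1216) (nat_lit 1470469129) (nat_lit 687) (nat_lit 5) (nat_lit 702) (nat_lit 5) (nat_lit 703) (nat_lit 5) (nat_lit 406) (nat_lit 392) (nat_lit 342)) (XT.lf (nat_lit 0) (nat_lit 3200182459) (nat_lit 1140) (nat_lit 528154606) (nat_lit 1216) (nat_lit 3470799274) (nat_lit 687) (nat_lit 5) (nat_lit 702) (nat_lit 5) (nat_lit 703) (nat_lit 5) (nat_lit 407) (nat_lit 392) (nat_lit 341)))) (XT.nd (nat_lit 78) (nat_lit 1140) (nat_lit 0) (XT.lf (nat_lit 76) (nat_lit 3552116127) (nat_lit 0) (nat_lit 1691637300) (nat_lit 1216) (nat_lit 1997851465) (nat_lit 688) (nat_lit 5) (nat_lit 687) (nat_lit 5) (nat_lit 703) (nat_lit 5) (nat_lit 408) (nat_lit 392) (nat_lit 340)) (XT.nd (nat_lit 78) (nat_lit 0) (nat_lit 0) (XT.lf (nat_lit 0) (nat_lit 6424126) (nat_lit 1216) (nat_lit 6878049226) (nat_lit 1292) (nat_lit 401169472) (nat_lit 672) (nat_lit 5) (nat_lit 688) (nat_lit 5) (nat_lit 689) (nat_lit 5) (nat_lit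 409) (nat_lit 392) (nat_lit 339)) (XT.lf (nat_lit 0) (nat_lit 2015805133) (nat_lit 1216) (nat_lit 2749897892) (nat_lit 1292) (nat_lit 2564758950) (nat_lit 672) (nat_lit 5) (nat_lit 688) (nat_lit 5) (nat_lit 689) (nat_lit 5) (nat_lit 410) (nat_lit 392) (nat_lit 338))))))))
noncomputable def xc137 : XT := (XT.nd (nat_lit 1560) (nat_lit 10488) (nat_lit 0) (XT.nd (nat_lit 780) (nat_lit 9120) (nat_lit 0) (XT.nd (nat_lit 390) (nat_lit 4408) (nat_lit 0) (XT.nd (nat_lit 156) (nat_lit 2508) (nat_lit 0) (XT.nd (nat_lit 78) (nat_lit 0) (nat_lit 0) (XT.lf (nat_lit 76) (nat_lit 1448576092) (nat_lit 0) (nat_lit 2582693822) (nat_lit 1292) (nat_lit 3345589674) (nat_lit 673) (nat_lit 5) (nat_lit 672) (nat_lit 5) (nat_lit 689) (nat_lit 5) (nat_lit 411) (nat_lit 392) (nat_lit 337)) (XT.lf (nat_lit 76) (nat_lit 5737261954) (nat_lit 0) (nat_lit 325377964) (nat_lit 1292) (nat_lit 1362033315) (nat_lit 673) (nat_lit 5) (nat_lit 672) (nat_lit 5) (nat_lit 689)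 (nat_lit 5) (nat_lit 412) (nat_lit 392) (nat_lit 336))) (XT.nd (nat_lit 78) (nat_lit 1292) (nat_lit 0) (XT.lf (nat_lit 0) (nat_lit 640404033) (nat_lit 1292) (nat_lit 4849321333) (nat_lit 76) (nat_lit 1983874297) (nat_lit 656) (nat_lit 5) (nat_lit 673) (nat_lit 5) (nat_lit 657) (nat_lit 5) (nat_lit 413) (nat_lit 392) (nat_lit 335)) (XT.nd (nat_lit 78) (nat_lit 1292) (nat_lit 0) (XT.lf (nat_lit 0) (nat_lit 2636627641) (nat_lit 1292) (nat_lit 521139908) (nat_lit 76) (nat_lit 4366117508) (nat_lit 656) (nat_lit 5) (nat_lit 673) (nat_lit 5) (nat_lit 657) (nat_lit 5) (nat_lit 414) (nat_lit 392) (nat_lit 334)) (XT.lf (nat_lit 0) (nat_lit 3913870679) (nat_lit 1292) (nat_lit 743536939) (nat_lit 1368) (nat_lit 2918075903) (nat_lit 639) (nat_lit 5) (nat_lit 656) (nat_lit 5) (nat_lit 657) (nat_lit 5) (nat_lit 415) (nat_lit 392) (nat_lit 333))))) (XT.nd (nat_lit 156) (nat_lit 2964) (nat_lit 0) (XT.nd (nat_lit 78) (nat_lit 76) (nat_lit 0) (XT.lf (nat_lit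 0) (nat_lit 783974394) (nat_lit 1368) (nat_lit 5914280098) (nat_lit 1444) (nat_lit 930266436) (nat_lit 621) (nat_lit 5) (nat_lit 639) (nat_lit 5) (nat_lit 640) (nat_lit 5) (nat_lit 416) (nat_lit 392) (nat_lit 332)) (XT.lf (nat_lit 0) (nat_lit 1072766485) (nat_lit 1444) (nat_lit 2358276872) (nat_lit 76) (nat_lit 4251636069) (nat_lit 620) (nat_lit 5) (nat_lit 639) (nat_lit 5) (nat_lit 621) (nat_lit 5) (nat_lit 417) (nat_lit 392) (nat_lit 331))) (XT.nd (nat_lit 78) (nat_lit 1520) (nat_lit 0) (XT.lf (nat_lit 0) (nat_lit 2209113225) (nat_lit 1444) (nat_lit 869626012) (nat_lit 1520) (nat_lit 4659552166) (nat_lit 601) (nat_lit 5) (nat_lit 620) (nat_lit 5) (nat_lit 621) (nat_lit 5) (nat_lit 418) (nat_lit 392) (nat_lit 330)) (XT.nd (nat_lit 78) (nat_lit 1520) (nat_lit 0) (XT.lf (nat_lit 0) (nat_lit 5113668627) (nat_lit 1520) (nat_lit 938329230) (nat_lit 76) (nat_lit 1743241019) (nat_lit 601) (nat_lit 5) (nat_lit 621) (nat_lit 5) (nat_lit 602)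 (nat_lit 5) (nat_lit 419) (nat_lit 392) (nat_lit 329)) (XT.lf (nat_lit 0) (nat_lit 3756445353) (nat_lit 1520) (nat_lit 3425343090) (nat_lit 1596) (nat_lit 671687019) (nat_lit 581) (nat_lit 5) (nat_lit 601) (nat_lit 5) (nat_lit 602) (nat_lit 5) (nat_lit 420) (nat_lit 392) (nat_lit 328)))))) (XT.nd (nat_lit 390) (nat_lit 3952) (nat_lit 0) (XT.nd (nat_lit 156) (nat_lit 3496) (nat_lit 0) (XT.nd (nat_lit 78) (nat_lit 0) (nat_lit 0) (XT.lf (nat_lit 0) (nat_lit 612436245) (nat_lit 1596) (nat_lit 720827874) (nat_lit 1672) (nat_lit 6579974708) (nat_lit 559) (nat_lit 5) (nat_lit 580) (nat_lit 5) (nat_lit 581) (nat_lit 5) (nat_lit 421) (nat_lit 392) (nat_lit 327)) (XT.lf (nat_lit 0) (nat_lit 3373431188) (nat_lit 1672) (nat_lit 2552132060) (nat_lit 76) (nat_lit 2048463200) (nat_lit 559) (nat_lit 5) (nat_lit 581) (nat_lit 5) (nat_lit 560) (nat_lit 5) (nat_lit 422) (nat_lit 392) (nat_lit 326))) (XT.nd (nat_lit 78) (nat_lit 1824) (nat_lit 0) (XT.lf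 (nat_lit 0) (nat_lit 2285088131) (nat_lit 1672) (nat_lit 3152841585) (nat_lit 1748) (nat_lit 2598429542) (nat_lit 537) (nat_lit 5) (nat_lit 559) (nat_lit 5) (nat_lit 560) (nat_lit 5) (nat_lit 423) (nat_lit 392) (nat_lit 325)) (XT.nd (nat_lit 78) (nat_lit 1824) (nat_lit 0) (XT.lf (nat_lit 0) (nat_lit 7222236182) (nat_lit 1672) (nat_lit 303029844) (nat_lit 1748) (nat_lit 575041741) (nat_lit 537) (nat_lit 5) (nat_lit 559) (nat_lit 5) (nat_lit 560) (nat_lit 5) (nat_lit 424) (nat_lit 392) (nat_lit 324)) (XT.lf (nat_lit 0) (nat_lit 1478002705) (nat_lit 1824) (nat_lit 4077174054) (nat_lit 76) (nat_lit 2609990863) (nat_lit 513) (nat_lit 5) (nat_lit 537) (nat_lit 5) (nat_lit 514) (nat_lit 5) (nat_lit 425) (nat_lit 392) (nat_lit 323))))) (XT.nd (nat_lit 156) (nat_lit 2128) (nat_lit 0) (XT.nd (nat_lit 78) (nat_lit 0) (nat_lit 0) (XT.lf (nat_lit 0) (nat_lit 908362899) (nat_lit 1824) (nat_lit 2635286663) (nat_lit 1900) (nat_lit 4688014264) (nat_lit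 489) (nat_lit 5) (nat_lit 513) (nat_lit 5) (nat_lit 514) (nat_lit 5) (nat_lit 426) (nat_lit 392) (nat_lit 322)) (XT.lf (nat_lit 0) (nat_lit 5646265989) (nat_lit 1900) (nat_lit 2284735440) (nat_lit 76) (nat_lit 368575393) (nat_lit 489) (nat_lit 5) (nat_lit 514) (nat_lit 5) (nat_lit 490) (nat_lit 5) (nat_lit 427) (nat_lit 392) (nat_lit 321))) (XT.nd (nat_lit 78) (nat_lit 988) (nat_lit 0) (XT.lf (nat_lit 0) (nat_lit 2842803338) (nat_lit 1140) (nat_lit 4950598319) (nat_lit 1216) (nat_lit 575397081) (nat_lit 474) (nat_lit 5) (nat_lit 489) (nat_lit 5) (nat_lit 490) (nat_lit 5) (nat_lit 428) (nat_lit 392) (nat_lit 320)) (XT.nd (nat_lit 78) (nat_lit 912) (nat_lit 0) (XT.lf (nat_lit 0) (nat_lit 1506048001) (nat_lit 1216) (nat_lit 377224983) (nat_lit 76) (nat_lit 6556287128) (nat_lit 473) (nat_lit 5) (nat_lit 489) (nat_lit 5) (nat_lit 474) (nat_lit 5) (nat_lit 429) (nat_lit 392) (nat_lit 319)) (XT.lf (nat_lit 0) (nat_lit 3629035597) (nat_lit 988)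 (nat_lit 3616219358) (nat_lit 76) (nat_lit 1266253328) (nat_lit 461) (nat_lit 5) (nat_lit 474) (nat_lit 5) (nat_lit 462) (nat_lit 5) (nat_lit 430) (nat_lit 392) (nat_lit 318))))))) (XT.nd (nat_lit 780) (nat_lit 5244) (nat_lit 0) (XT.nd (nat_lit 390) (nat_lit 2508) (nat_lit 0) (XT.nd (nat_lit 156) (nat_lit 1824) (nat_lit 0) (XT.nd (nat_lit 78) (nat_lit 0) (nat_lit 0) (XT.lf (nat_lit 0) (nat_lit 1671269808) (nat_lit 912) (nat_lit 4116969990) (nat_lit 988) (nat_lit 2796780483) (nat_lit 449) (nat_lit 5) (nat_lit 461) (nat_lit 5) (nat_lit 462) (nat_lit 5) (nat_lit 431) (nat_lit 392) (nat_lit 317)) (XT.lf (nat_lit 0) (nat_lit 7082053867) (nat_lit 912) (nat_lit 901152007) (nat_lit 988) (nat_lit 676945089) (nat_lit 449) (nat_lit 5) (nat_lit 461) (nat_lit 5) (nat_lit 462) (nat_lit 5) (nat_lit 432) (nat_lit 392) (nat_lit 316))) (XT.nd (nat_lit 78) (nat_lit 912) (nat_lit 0) (XT.lf (nat_lit 0) (nat_lit 1475363895) (nat_lit 912) (nat_lit 4878226100)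 (nat_lit 76) (nat_lit 2382810261) (nat_lit 437) (nat_lit 5) (nat_lit 449) (nat_lit 5) (nat_lit 438) (nat_lit 5) (nat_lit 433) (nat_lit 392) (nat_lit 315)) (XT.nd (nat_lit 78) (nat_lit 0) (nat_lit 0) (XT.lf (nat_lit 0) (nat_lit 575949857) (nat_lit 912) (nat_lit 3075217548) (nat_lit 988) (nat_lit 5163127383) (nat_lit 425) (nat_lit 5) (nat_lit 437) (nat_lit 5) (nat_lit 438) (nat_lit 5) (nat_lit 434) (nat_lit 392) (nat_lit 314)) (XT.lf (nat_lit 0) (nat_lit 5874715041) (nat_lit 988) (nat_lit 2721795631) (nat_lit 76) (nat_lit 297151978) (nat_lit 425) (nat_lit 5) (nat_lit 438) (nat_lit 5) (nat_lit 426) (nat_lit 5) (nat_lit 435) (nat_lit 392) (nat_lit 313))))) (XT.nd (nat_lit 156) (nat_lit 1596) (nat_lit 0) (XT.nd (nat_lit 78) (nat_lit 76) (nat_lit 0) (XT.lf (nat_lit 0) (nat_lit 2891189818) (nat_lit 836) (nat_lit 5260809518) (nat_lit 912) (nat_lit 822433220) (nat_lit 414) (nat_lit 5) (nat_lit 425) (nat_lit 5) (nat_lit 426) (nat_lit 5) (nat_lit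 436) (nat_lit 392) (nat_lit 312)) (XT.lf (nat_lit 0) (nat_lit 1388115717) (nat_lit 912) (nat_lit 444085786) (nat_lit 76) (nat_lit 7224658189) (nat_lit 413) (nat_lit 5) (nat_lit 425) (nat_lit 5) (nat_lit 414) (nat_lit 5) (nat_lit 437) (nat_lit 392) (nat_lit 311))) (XT.nd (nat_lit 78) (nat_lit 760) (nat_lit 0) (XT.lf (nat_lit 0) (nat_lit 3648515361) (nat_lit 912) (nat_lit 3810331500) (nat_lit 76) (nat_lit 1681646741) (nat_lit 402) (nat_lit 5) (nat_lit 414) (nat_lit 5) (nat_lit 403) (nat_lit 5) (nat_lit 438) (nat_lit 392) (nat_lit 310)) (XT.nd (nat_lit 78) (nat_lit 0) (nat_lit 0) (XT.lf (nat_lit 0) (nat_lit 1982651365) (nat_lit 760) (nat_lit 3970733103) (nat_lit 836) (nat_lit 3272430494) (nat_lit 392) (nat_lit 5) (nat_lit 402) (nat_lit 5) (nat_lit 403) (nat_lit 5) (nat_lit 439) (nat_lit 392) (nat_lit 309)) (XT.lf (nat_lit 0) (nat_lit 7911978326) (nat_lit 760) (nat_lit 389558448) (nat_lit 836) (nat_lit 1011362258) (nat_lit 392) (nat_lit 5)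 (nat_lit 402) (nat_lit 5) (nat_lit 403) (nat_lit 5) (nat_lit 440) (nat_lit 392) (nat_lit 308)))))) (XT.nd (nat_lit 390) (nat_lit 2128) (nat_lit 0) (XT.nd (nat_lit 156) (nat_lit 1520) (nat_lit 0) (XT.nd (nat_lit 78) (nat_lit 760) (nat_lit 0) (XT.lf (nat_lit 0) (nat_lit 1301082790) (nat_lit 836) (nat_lit 4844057372) (nat_lit 76) (nat_lit 3255953697) (nat_lit 381) (nat_lit 5) (nat_lit 392) (nat_lit 5) (nat_lit 382) (nat_lit 5) (nat_lit 441) (nat_lit 392) (nat_lit 307)) (XT.lf (nat_lit 0) (nat_lit 1136588130) (nat_lit 760) (nat_lit 2501400269) (nat_lit 836) (nat_lit 5853095407) (nat_lit 371) (nat_lit 5) (nat_lit 381) (nat_lit 5) (nat_lit 382) (nat_lit 5) (nat_lit 442) (nat_lit 392) (nat_lit 306))) (XT.nd (nat_lit 78) (nat_lit 1520) (nat_lit 0) (XT.lf (nat_lit 0) (nat_lit 6034879248) (nat_lit 836) (nat_lit 2319393397) (nat_lit 76) (nat_lit 1228335964) (nat_lit 371) (nat_lit 5) (nat_lit 382) (nat_lit 5) (nat_lit 372) (nat_lit 5) (nat_lit 443)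 (nat_lit 392) (nat_lit 305)) (XT.nd (nat_lit 78) (nat_lit 760) (nat_lit 0) (XT.lf (nat_lit 0) (nat_lit 3839243087) (nat_lit 760) (nat_lit 4655129561) (nat_lit 836) (nat_lit 1181297965) (nat_lit 361) (nat_lit 5) (nat_lit 371) (nat_lit 5) (nat_lit 372) (nat_lit 5) (nat_lit 444) (nat_lit 392) (nat_lit 304)) (XT.lf (nat_lit 0) (nat_lit 347557448) (nat_lit 684) (nat_lit 859987777) (nat_lit 760) (nat_lit 8563063651) (nat_lit 351) (nat_lit 5) (nat_lit 360) (nat_lit 5) (nat_lit 361) (nat_lit 5) (nat_lit 445) (nat_lit 392) (nat_lit 303))))) (XT.nd (nat_lit 234) (nat_lit 1444) (nat_lit 0) (XT.nd (nat_lit 78) (nat_lit 684) (nat_lit 0) (XT.lf (nat_lit 0) (nat_lit 3660953198) (nat_lit 760) (nat_lit 3191356919) (nat_lit 76) (nat_lit 3014327508) (nat_lit 351) (nat_lit 5) (nat_lit 361) (nat_lit 5) (nat_lit 352) (nat_lit 5) (nat_lit 446) (nat_lit 392) (nat_lit 302)) (XT.nd (nat_lit 78) (nat_lit 0) (nat_lit 0) (XT.lf (nat_lit 0) (nat_lit 3170069441) (nat_lit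 684) (nat_lit 2993770755) (nat_lit 760) (nat_lit 3800738538) (nat_lit 342) (nat_lit 5) (nat_lit 351) (nat_lit 5) (nat_lit 352) (nat_lit 5) (nat_lit 447) (nat_lit 392) (nat_lit 301)) (XT.lf (nat_lit 0) (nat_lit 8718867564) (nat_lit 760) (nat_lit 399382677) (nat_lit 76) (nat_lit 946186770) (nat_lit 342) (nat_lit 5) (nat_lit 352) (nat_lit 5) (nat_lit 343) (nat_lit 5) (nat_lit 448) (nat_lit 392) (nat_lit 300)))) (XT.nd (nat_lit 78) (nat_lit 684) (nat_lit 0) (XT.lf (nat_lit 0) (nat_lit 1178430066) (nat_lit 760) (nat_lit 4019269159) (nat_lit 76) (nat_lit 4967744295) (nat_lit 332) (nat_lit 5) (nat_lit 342) (nat_lit 5) (nat_lit 333) (nat_lit 5) (nat_lit 449) (nat_lit 392) (nat_lit 299)) (XT.nd (nat_lit 78) (nat_lit 0) (nat_lit 0) (XT.lf (nat_lit 0) (nat_lit 2553620948) (nat_lit 684) (nat_lit 1175608449) (nat_lit 760) (nat_lit 6539176137) (nat_lit 323) (nat_lit 5) (nat_lit 332) (nat_lit 5) (nat_lit 333) (nat_lit 5) (nat_lit 450) (nat_lit 392)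 (nat_lit 298)) (XT.lf (nat_lit 0) (nat_lit 6352495834) (nat_lit 760) (nat_lit 1110454581) (nat_lit 76) (nat_lit 2910047352) (nat_lit 323) (nat_lit 5) (nat_lit 333) (nat_lit 5) (nat_lit 324) (nat_lit 5) (nat_lit 451) (nat_lit 392) (nat_lit 297))))))))
noncomputable def xc138 : XT := (XT.nd (nat_lit 1560) (nat_lit 5852) (nat_lit 0) (XT.nd (nat_lit 780) (nat_lit 3192) (nat_lit 0) (XT.nd (nat_lit 390) (nat_lit 1824) (nat_lit 0) (XT.nd (nat_lit 156) (nat_lit 1216) (nat_lit 0) (XT.nd (nat_lit 78) (nat_lit 684) (nat_lit 0) (XT.lf (nat_lit 0) (nat_lit 5662205839) (nat_lit 608) (nat_lit 3386351958) (nat_lit 684) (nat_lit 1430717443) (nat_lit 315) (nat_lit 5) (nat_lit 323) (nat_lit 5) (nat_lit 324) (nat_lit 5) (nat_lit 452) (nat_lit 392) (nat_lit 296)) (XT.lf (nat_lit 0) (nat_lit 1196435758) (nat_lit 684) (nat_lit 8607131946) (nat_lit 76) (nat_lit 783924250) (nat_lit 306) (nat_lit 5) (nat_lit 315) (nat_lit 5) (nat_lit 307) (nat_lit 5) (nat_lit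 453) (nat_lit 392) (nat_lit 295))) (XT.nd (nat_lit 78) (nat_lit 1216) (nat_lit 0) (XT.lf (nat_lit 0) (nat_lit 3888096790) (nat_lit 684) (nat_lit 1780895524) (nat_lit 76) (nat_lit 5028069106) (nat_lit 306) (nat_lit 5) (nat_lit 315) (nat_lit 5) (nat_lit 307) (nat_lit 5) (nat_lit 454) (nat_lit 392) (nat_lit 294)) (XT.nd (nat_lit 78) (nat_lit 608) (nat_lit 0) (XT.lf (nat_lit 0) (nat_lit 5220342652) (nat_lit 608) (nat_lit 1423749032) (nat_lit 684) (nat_lit 4164520578) (nat_lit 298) (nat_lit 5) (nat_lit 306) (nat_lit 5) (nat_lit 307) (nat_lit 5) (nat_lit 455) (nat_lit 392) (nat_lit 293)) (XT.lf (nat_lit 0) (nat_lit 1433227911) (nat_lit 608) (nat_lit 8039012911) (nat_lit 684) (nat_lit 1449812613) (nat_lit 290) (nat_lit 5) (nat_lit 298) (nat_lit 5) (nat_lit 299) (nat_lit 5) (nat_lit 456) (nat_lit 392) (nat_lit 292))))) (XT.nd (nat_lit 156) (nat_lit 1216) (nat_lit 0) (XT.nd (nat_lit 78) (nat_lit 532) (nat_lit 0) (XT.lf (nat_lit 0) (nat_lit 1326001946)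 (nat_lit 684) (nat_lit 2414668234) (nat_lit 76) (nat_lit 7296439673) (nat_lit 289) (nat_lit 5) (nat_lit 298) (nat_lit 5) (nat_lit 290) (nat_lit 5) (nat_lit 457) (nat_lit 392) (nat_lit 291)) (XT.lf (nat_lit 0) (nat_lit 4151057070) (nat_lit 608) (nat_lit 6333578268) (nat_lit 76) (nat_lit 669377651) (nat_lit 282) (nat_lit 5) (nat_lit 290) (nat_lit 5) (nat_lit 283) (nat_lit 5) (nat_lit 458) (nat_lit 392) (nat_lit 290))) (XT.nd (nat_lit 78) (nat_lit 608) (nat_lit 0) (XT.lf (nat_lit 0) (nat_lit 917262110) (nat_lit 608) (nat_lit 6139984101) (nat_lit 684) (nat_lit 4215515318) (nat_lit 274) (nat_lit 5) (nat_lit 282) (nat_lit 5) (nat_lit 283) (nat_lit 5) (nat_lit 459) (nat_lit 392) (nat_lit 289)) (XT.nd (nat_lit 78) (nat_lit 608) (nat_lit 0) (XT.lf (nat_lit 0) (nat_lit 8369240446) (nat_lit 608) (nat_lit 1672660418) (nat_lit 684) (nat_lit 1351577341) (nat_lit 274) (nat_lit 5) (nat_lit 282) (nat_lit 5) (nat_lit 283) (nat_lit 5) (nat_lit 460) (nat_lit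 392) (nat_lit 288)) (XT.lf (nat_lit 0) (nat_lit 1575159158) (nat_lit 608) (nat_lit 7062519394) (nat_lit 76) (nat_lit 2878204725) (nat_lit 266) (nat_lit 5) (nat_lit 274) (nat_lit 5) (nat_lit 267) (nat_lit 5) (nat_lit 461) (nat_lit 392) (nat_lit 287)))))) (XT.nd (nat_lit 390) (nat_lit 1520) (nat_lit 0) (XT.nd (nat_lit 156) (nat_lit 1140) (nat_lit 0) (XT.nd (nat_lit 78) (nat_lit 0) (nat_lit 0) (XT.lf (nat_lit 0) (nat_lit 437122515) (nat_lit 532) (nat_lit 4117891299) (nat_lit 608) (nat_lit 7085290334) (nat_lit 259) (nat_lit 5) (nat_lit 266) (nat_lit 5) (nat_lit 267) (nat_lit 5) (nat_lit 462) (nat_lit 392) (nat_lit 286)) (XT.lf (nat_lit 0) (nat_lit 7623871247) (nat_lit 608) (nat_lit 3617095563) (nat_lit 76) (nat_lit 525658514) (nat_lit 259) (nat_lit 5) (nat_lit 267) (nat_lit 5) (nat_lit 260) (nat_lit 5) (nat_lit 463) (nat_lit 392) (nat_lit 285))) (XT.nd (nat_lit 78) (nat_lit 608) (nat_lit 0) (XT.lf (nat_lit 0) (nat_lit 4118225818) (nat_lit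 532) (nat_lit 6668812903) (nat_lit 608) (nat_lit 1107775544) (nat_lit 252) (nat_lit 5) (nat_lit 259) (nat_lit 5) (nat_lit 260) (nat_lit 5) (nat_lit 464) (nat_lit 392) (nat_lit 284)) (XT.nd (nat_lit 78) (nat_lit 532) (nat_lit 0) (XT.lf (nat_lit 0) (nat_lit 1965274714) (nat_lit 608) (nat_lit 10178287) (nat_lit 76) (nat_lit 10049786971) (nat_lit 251) (nat_lit 5) (nat_lit 259) (nat_lit 5) (nat_lit 252) (nat_lit 5) (nat_lit 465) (nat_lit 392) (nat_lit 283)) (XT.lf (nat_lit 0) (nat_lit 5134795814) (nat_lit 608) (nat_lit 4195951305) (nat_lit 76) (nat_lit 2826383767) (nat_lit 244) (nat_lit 5) (nat_lit 252) (nat_lit 5) (nat_lit 245) (nat_lit 5) (nat_lit 466) (nat_lit 392) (nat_lit 282))))) (XT.nd (nat_lit 156) (nat_lit 1064) (nat_lit 0) (XT.nd (nat_lit 78) (nat_lit 0) (nat_lit 0) (XT.lf (nat_lit 0) (nat_lit 3808405613) (nat_lit 456) (nat_lit 4576766646) (nat_lit 532) (nat_lit 3906138062) (nat_lit 238) (nat_lit 5) (nat_lit 244) (nat_lit 5) (nat_lit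 245) (nat_lit 5) (nat_lit 467) (nat_lit 392) (nat_lit 281)) (XT.lf (nat_lit 0) (nat_lit 11710413208) (nat_lit 532) (nat_lit 428899946) (nat_lit 76) (nat_lit 288663051) (nat_lit 238) (nat_lit 5) (nat_lit 245) (nat_lit 5) (nat_lit 239) (nat_lit 5) (nat_lit 468) (nat_lit 392) (nat_lit 280))) (XT.nd (nat_lit 78) (nat_lit 456) (nat_lit 0) (XT.lf (nat_lit 0) (nat_lit 2563235776) (nat_lit 608) (nat_lit 4752937354) (nat_lit 76) (nat_lit 5249639200) (nat_lit 230) (nat_lit 5) (nat_lit 238) (nat_lit 5) (nat_lit 231) (nat_lit 5) (nat_lit 469) (nat_lit 392) (nat_lit 279)) (XT.nd (nat_lit 78) (nat_lit 0) (nat_lit 0) (XT.lf (nat_lit 0) (nat_lit 3531934608) (nat_lit 456) (nat_lit 2374163735) (nat_lit 532) (nat_lit 6800090852) (nat_lit 224) (nat_lit 5) (nat_lit 230) (nat_lit 5) (nat_lit 231) (nat_lit 5) (nat_lit 470) (nat_lit 392) (nat_lit 278)) (XT.lf (nat_lit 0) (nat_lit 9345602600) (nat_lit 532) (nat_lit 848043816) (nat_lit 76) (nat_lit 2655131493)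 (nat_lit 224) (nat_lit 5) (nat_lit 231) (nat_lit 5) (nat_lit 225) (nat_lit 5) (nat_lit 471) (nat_lit 392) (nat_lit 277))))))) (XT.nd (nat_lit 780) (nat_lit 2660) (nat_lit 0) (XT.nd (nat_lit 390) (nat_lit 1292) (nat_lit 0) (XT.nd (nat_lit 156) (nat_lit 912) (nat_lit 0) (XT.nd (nat_lit 78) (nat_lit 532) (nat_lit 0) (XT.lf (nat_lit 0) (nat_lit 7701827790) (nat_lit 456) (nat_lit 5198547081) (nat_lit 532) (nat_lit 92913967) (nat_lit 218) (nat_lit 5) (nat_lit 224) (nat_lit 5) (nat_lit 225) (nat_lit 5) (nat_lit 472) (nat_lit 392) (nat_lit 276)) (XT.lf (nat_lit 0) (nat_lit 3286478946) (nat_lit 456) (nat_lit 62557346) (nat_lit 532) (nat_lit 9791056353) (nat_lit 211) (nat_lit 5) (nat_lit 217) (nat_lit 5) (nat_lit 218) (nat_lit 5) (nat_lit 473) (nat_lit 392) (nat_lit 275))) (XT.nd (nat_lit 78) (nat_lit 912) (nat_lit 0) (XT.lf (nat_lit 0) (nat_lit 6908887890) (nat_lit 532) (nat_lit 1244231274) (nat_lit 76) (nat_lit 5135694951) (nat_lit 211) (nat_lit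 5) (nat_lit 218) (nat_lit 5) (nat_lit 212) (nat_lit 5) (nat_lit 474) (nat_lit 392) (nat_lit 274)) (XT.nd (nat_lit 78) (nat_lit 456) (nat_lit 0) (XT.lf (nat_lit 0) (nat_lit 7608916516) (nat_lit 456) (nat_lit 2962164492) (nat_lit 532) (nat_lit 2868806117) (nat_lit 205) (nat_lit 5) (nat_lit 211) (nat_lit 5) (nat_lit 212) (nat_lit 5) (nat_lit 475) (nat_lit 392) (nat_lit 273)) (XT.lf (nat_lit 0) (nat_lit 728223379) (nat_lit 456) (nat_lit 10539103019) (nat_lit 76) (nat_lit 2326062031) (nat_lit 199) (nat_lit 5) (nat_lit 205) (nat_lit 5) (nat_lit 200) (nat_lit 5) (nat_lit 476) (nat_lit 392) (nat_lit 272))))) (XT.nd (nat_lit 156) (nat_lit 836) (nat_lit 0) (XT.nd (nat_lit 78) (nat_lit 456) (nat_lit 0) (XT.lf (nat_lit 0) (nat_lit 4399338526) (nat_lit 456) (nat_lit 1619754825) (nat_lit 76) (nat_lit 7729675986) (nat_lit 199) (nat_lit 5) (nat_lit 205) (nat_lit 5) (nat_lit 200) (nat_lit 5) (nat_lit 477) (nat_lit 392) (nat_lit 271)) (XT.lf (nat_lit 0)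 (nat_lit 7549553194) (nat_lit 456) (nat_lit 625219361) (nat_lit 532) (nat_lit 5731867376) (nat_lit 193) (nat_lit 5) (nat_lit 199) (nat_lit 5) (nat_lit 200) (nat_lit 5) (nat_lit 478) (nat_lit 392) (nat_lit 270))) (XT.nd (nat_lit 78) (nat_lit 456) (nat_lit 0) (XT.lf (nat_lit 0) (nat_lit 2834637455) (nat_lit 380) (nat_lit 9234082901) (nat_lit 456) (nat_lit 1998087478) (nat_lit 188) (nat_lit 5) (nat_lit 193) (nat_lit 5) (nat_lit 194) (nat_lit 5) (nat_lit 479) (nat_lit 392) (nat_lit 269)) (XT.nd (nat_lit 78) (nat_lit 380) (nat_lit 0) (XT.lf (nat_lit 0) (nat_lit 1815761999) (nat_lit 456) (nat_lit 1976750804) (nat_lit 76) (nat_lit 10436848464) (nat_lit 187) (nat_lit 5) (nat_lit 193) (nat_lit 5) (nat_lit 188) (nat_lit 5) (nat_lit 480) (nat_lit 392) (nat_lit 268)) (XT.lf (nat_lit 0) (nat_lit 5722167309) (nat_lit 456) (nat_lit 6883914672) (nat_lit 76) (nat_lit 1787958978) (nat_lit 182) (nat_lit 5) (nat_lit 188) (nat_lit 5) (nat_lit 183) (nat_lit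 5) (nat_lit 481) (nat_lit 392) (nat_lit 267)))))) (XT.nd (nat_lit 390) (nat_lit 1520) (nat_lit 0) (XT.nd (nat_lit 156) (nat_lit 760) (nat_lit 0) (XT.nd (nat_lit 78) (nat_lit 0) (nat_lit 0) (XT.lf (nat_lit 0) (nat_lit 2633944984) (nat_lit 380) (nat_lit 7110841468) (nat_lit 456) (nat_lit 4816466076) (nat_lit 177) (nat_lit 5) (nat_lit 182) (nat_lit 5) (nat_lit 183) (nat_lit 5) (nat_lit 482) (nat_lit 392) (nat_lit 266)) (XT.lf (nat_lit 0) (nat_lit 12408470739) (nat_lit 380) (nat_lit 1468264979) (nat_lit 456) (nat_lit 854495058) (nat_lit 177) (nat_lit 5) (nat_lit 182) (nat_lit 5) (nat_lit 183) (nat_lit 5) (nat_lit 483) (nat_lit 392) (nat_lit 265))) (XT.nd (nat_lit 78) (nat_lit 304) (nat_lit 0) (XT.lf (nat_lit 0) (nat_lit 3204922945) (nat_lit 456) (nat_lit 7406612438) (nat_lit 76) (nat_lit 4291459360) (nat_lit 171) (nat_lit 5) (nat_lit 177) (nat_lit 5) (nat_lit 172) (nat_lit 5) (nat_lit 484) (nat_lit 392) (nat_lit 264)) (XT.nd (nat_lit 78)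 (nat_lit 0) (nat_lit 0) (XT.lf (nat_lit 0) (nat_lit 2455425946) (nat_lit 304) (nat_lit 4903039104) (nat_lit 380) (nat_lit 7719128428) (nat_lit 167) (nat_lit 5) (nat_lit 171) (nat_lit 5) (nat_lit 172) (nat_lit 5) (nat_lit 485) (nat_lit 392) (nat_lit 263)) (XT.lf (nat_lit 0) (nat_lit 11634187593) (nat_lit 380) (nat_lit 2672785614) (nat_lit 76) (nat_lit 947928787) (nat_lit 167) (nat_lit 5) (nat_lit 172) (nat_lit 5) (nat_lit 168) (nat_lit 5) (nat_lit 486) (nat_lit 392) (nat_lit 262))))) (XT.nd (nat_lit 234) (nat_lit 760) (nat_lit 0) (XT.nd (nat_lit 78) (nat_lit 304) (nat_lit 0) (XT.lf (nat_lit 0) (nat_lit 617459642) (nat_lit 456) (nat_lit 7923218507) (nat_lit 76) (nat_lit 6893703220) (nat_lit 161) (nat_lit 5) (nat_lit 167) (nat_lit 5) (nat_lit 162) (nat_lit 5) (nat_lit 487) (nat_lit 392) (nat_lit 261)) (XT.nd (nat_lit 78) (nat_lit 0) (nat_lit 0) (XT.lf (nat_lit 0) (nat_lit 2297547009) (nat_lit 304) (nat_lit 2610870445) (nat_lit 380) (nat_lit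 10708224186) (nat_lit 157) (nat_lit 5) (nat_lit 161) (nat_lit 5) (nat_lit 162) (nat_lit 5) (nat_lit 488) (nat_lit 392) (nat_lit 260)) (XT.lf (nat_lit 0) (nat_lit 9344608085) (nat_lit 380) (nat_lit 3020532447) (nat_lit 76) (nat_lit 3436218312) (nat_lit 157) (nat_lit 5) (nat_lit 162) (nat_lit 5) (nat_lit 158) (nat_lit 5) (nat_lit 489) (nat_lit 392) (nat_lit 259)))) (XT.nd (nat_lit 78) (nat_lit 380) (nat_lit 0) (XT.lf (nat_lit 0) (nat_lit 7539606491) (nat_lit 380) (nat_lit 6380054613) (nat_lit 456) (nat_lit 2069106515) (nat_lit 152) (nat_lit 5) (nat_lit 157) (nat_lit 5) (nat_lit 158) (nat_lit 5) (nat_lit 490) (nat_lit 392) (nat_lit 258)) (XT.nd (nat_lit 78) (nat_lit 0) (nat_lit 0) (XT.lf (nat_lit 0) (nat_lit 2158900299) (nat_lit 304) (nat_lit 234190387) (nat_lit 380) (nat_lit 13786154241) (nat_lit 147) (nat_lit 5) (nat_lit 151) (nat_lit 5) (nat_lit 152) (nat_lit 5) (nat_lit 491) (nat_lit 392) (nat_lit 257)) (XT.lf (nat_lit 0) (nat_lit 6997127646)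 (nat_lit 380) (nat_lit 3358115214) (nat_lit 76) (nat_lit 6016409360) (nat_lit 147) (nat_lit 5) (nat_lit 152) (nat_lit 5) (nat_lit 148) (nat_lit 5) (nat_lit 492) (nat_lit 392) (nat_lit 256))))))))
noncomputable def xc139 : XT := (XT.nd (nat_lit 52260) (nat_lit 0) (nat_lit 33820) (XT.nd (nat_lit 780) (nat_lit 228) (nat_lit 0) (XT.nd (nat_lit 390) (nat_lit 988) (nat_lit 0) (XT.nd (nat_lit 156) (nat_lit 684) (nat_lit 0) (XT.nd (nat_lit 78) (nat_lit 304) (nat_lit 0) (XT.lf (nat_lit 0) (nat_lit 7589748565) (nat_lit 304) (nat_lit 4138659586) (nat_lit 380) (nat_lit 4838796253) (nat_lit 143) (nat_lit 5) (nat_lit 147) (nat_lit 5) (nat_lit 148) (nat_lit 5) (nat_lit 493) (nat_lit 392) (nat_lit 255)) (XT.lf (nat_lit 0) (nat_lit 2022269575) (nat_lit 304) (nat_lit 14566568986) (nat_lit 380) (nat_lit 177138585) (nat_lit 139) (nat_lit 5) (nat_lit 143) (nat_lit 5) (nat_lit 144) (nat_lit 5) (nat_lit 494) (nat_lit 392) (nat_lit 254))) (XT.nd (nat_lit 78)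 (nat_lit 608) (nat_lit 0) (XT.lf (nat_lit 0) (nat_lit 4590214591) (nat_lit 380) (nat_lit 3687083962) (nat_lit 76) (nat_lit 8689382344) (nat_lit 138) (nat_lit 5) (nat_lit 143) (nat_lit 5) (nat_lit 139) (nat_lit 5) (nat_lit 495) (nat_lit 392) (nat_lit 253)) (XT.nd (nat_lit 78) (nat_lit 304) (nat_lit 0) (XT.lf (nat_lit 0) (nat_lit 7664812989) (nat_lit 304) (nat_lit 1820251773) (nat_lit 380) (nat_lit 7685620108) (nat_lit 134) (nat_lit 5) (nat_lit 138) (nat_lit 5) (nat_lit 139) (nat_lit 5) (nat_lit 496) (nat_lit 392) (nat_lit 252)) (XT.lf (nat_lit 0) (nat_lit 1883768452) (nat_lit 304) (nat_lit 12646950261) (nat_lit 380) (nat_lit 2846992075) (nat_lit 130) (nat_lit 5) (nat_lit 134) (nat_lit 5) (nat_lit 135) (nat_lit 5) (nat_lit 497) (nat_lit 392) (nat_lit 251))))) (XT.nd (nat_lit 156) (nat_lit 608) (nat_lit 0) (XT.nd (nat_lit 78) (nat_lit 304) (nat_lit 0) (XT.lf (nat_lit 0) (nat_lit 2122146366) (nat_lit 380) (nat_lit 4008899754) (nat_lit 76)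 (nat_lit 11456337362) (nat_lit 129) (nat_lit 5) (nat_lit 134) (nat_lit 5) (nat_lit 130) (nat_lit 5) (nat_lit 498) (nat_lit 392) (nat_lit 250)) (XT.lf (nat_lit 0) (nat_lit 7191887795) (nat_lit 380) (nat_lit 10039906017) (nat_lit 76) (nat_lit 568292617) (nat_lit 125) (nat_lit 5) (nat_lit 130) (nat_lit 5) (nat_lit 126) (nat_lit 5) (nat_lit 499) (nat_lit 392) (nat_lit 249))) (XT.nd (nat_lit 78) (nat_lit 380) (nat_lit 0) (XT.lf (nat_lit 0) (nat_lit 1759890662) (nat_lit 228) (nat_lit 10667467086) (nat_lit 304) (nat_lit 5588399014) (nat_lit 122) (nat_lit 5) (nat_lit 125) (nat_lit 5) (nat_lit 126) (nat_lit 5) (nat_lit 500) (nat_lit 392) (nat_lit 248)) (XT.nd (nat_lit 78) (nat_lit 380) (nat_lit 0) (XT.lf (nat_lit 0) (nat_lit 13907052596) (nat_lit 228) (nat_lit 3913211128) (nat_lit 304) (nat_lit 414422244) (nat_lit 122) (nat_lit 5) (nat_lit 125) (nat_lit 5) (nat_lit 126) (nat_lit 5) (nat_lit 501) (nat_lit 392) (nat_lit 247)) (XT.lf (nat_lit 0)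 (nat_lit 4855811581) (nat_lit 380) (nat_lit 10589841205) (nat_lit 76) (nat_lit 3010578351) (nat_lit 117) (nat_lit 5) (nat_lit 122) (nat_lit 5) (nat_lit 118) (nat_lit 5) (nat_lit 502) (nat_lit 392) (nat_lit 246)))))) (XT.nd (nat_lit 51012) (nat_lit 0) (nat_lit 45524) (XT.nd (nat_lit 50778) (nat_lit 0) (nat_lit 46512) (XT.nd (nat_lit 78) (nat_lit 0) (nat_lit 0) (XT.lf (nat_lit 0) (nat_lit 1649619597) (nat_lit 228) (nat_lit 8627752254) (nat_lit 304) (nat_lit 8403751152) (nat_lit 114) (nat_lit 5) (nat_lit 117) (nat_lit 5) (nat_lit 118) (nat_lit 5) (nat_lit 503) (nat_lit 392) (nat_lit 245)) (XT.lf (nat_lit 0) (nat_lit 14253086005) (nat_lit 228) (nat_lit 1611071915) (nat_lit 304) (nat_lit 3045218896) (nat_lit 114) (nat_lit 5) (nat_lit 117) (nat_lit 5) (nat_lit 118) (nat_lit 5) (nat_lit 504) (nat_lit 392) (nat_lit 244))) (XT.nd (nat_lit 78) (nat_lit 912) (nat_lit 0) (XT.lf (nat_lit 0) (nat_lit 929329227) (nat_lit 0) (nat_lit 929329227) (nat_lit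 836) (nat_lit 1522558617) (nat_lit 738) (nat_lit 5) (nat_lit 738) (nat_lit 3) (nat_lit 749) (nat_lit 3) (nat_lit 393) (nat_lit 393) (nat_lit 354)) (XT.nd (nat_lit 78) (nat_lit 912) (nat_lit 0) (XT.lf (nat_lit 0) (nat_lit 5279255926) (nat_lit 0) (nat_lit 586538669) (nat_lit 836) (nat_lit 922037798) (nat_lit 738) (nat_lit 5) (nat_lit 738) (nat_lit 3) (nat_lit 749) (nat_lit 3) (nat_lit 394) (nat_lit 393) (nat_lit 353)) (XT.lf (nat_lit 0) (nat_lit 1188996814) (nat_lit 912) (nat_lit 4875858924) (nat_lit 988) (nat_lit 749485350) (nat_lit 726) (nat_lit 5) (nat_lit 738) (nat_lit 5) (nat_lit 739) (nat_lit 5) (nat_lit 395) (nat_lit 393) (nat_lit 352))))) (XT.nd (nat_lit 234) (nat_lit 0) (nat_lit 0) (XT.nd (nat_lit 78) (nat_lit 988) (nat_lit 0) (XT.lf (nat_lit 0) (nat_lit 3289327650) (nat_lit 912) (nat_lit 1405817335) (nat_lit 988) (nat_lit 2146924648) (nat_lit 726) (nat_lit 5) (nat_lit 738) (nat_lit 5) (nat_lit 739) (nat_lit 5) (nat_lit 396) (nat_lit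 393) (nat_lit 351)) (XT.nd (nat_lit 78) (nat_lit 988) (nat_lit 0) (XT.lf (nat_lit 76) (nat_lit 2132660657) (nat_lit 0) (nat_lit 3259258277) (nat_lit 988) (nat_lit 1479228737) (nat_lit 727) (nat_lit 5) (nat_lit 726) (nat_lit 5) (nat_lit 739) (nat_lit 5) (nat_lit 397) (nat_lit 393) (nat_lit 350)) (XT.lf (nat_lit 0) (nat_lit 583835186) (nat_lit 988) (nat_lit 1173294053) (nat_lit 1064) (nat_lit 5144467108) (nat_lit 713) (nat_lit 5) (nat_lit 726) (nat_lit 5) (nat_lit 727) (nat_lit 5) (nat_lit 398) (nat_lit 393) (nat_lit 349)))) (XT.nd (nat_lit 78) (nat_lit 0) (nat_lit 76) (XT.lf (nat_lit 76) (nat_lit 2456755108) (nat_lit 0) (nat_lit 175530749) (nat_lit 1064) (nat_lit 4300893938) (nat_lit 714) (nat_lit 5) (nat_lit 713) (nat_lit 5) (nat_lit 727) (nat_lit 5) (nat_lit 399) (nat_lit 393) (nat_lit 348)) (XT.nd (nat_lit 78) (nat_lit 0) (nat_lit 0) (XT.lf (nat_lit 0) (nat_lit 4687908876) (nat_lit 988) (nat_lit 829167081) (nat_lit 1064) (nat_lit 1448994887)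 (nat_lit 714) (nat_lit 5) (nat_lit 727) (nat_lit 5) (nat_lit 728) (nat_lit 5) (nat_lit 400) (nat_lit 393) (nat_lit 347)) (XT.lf (nat_lit 76) (nat_lit 2898621955) (nat_lit 0) (nat_lit 3855949016) (nat_lit 1064) (nat_lit 245650213) (nat_lit 715) (nat_lit 5) (nat_lit 714) (nat_lit 5) (nat_lit 728) (nat_lit 5) (nat_lit 401) (nat_lit 393) (nat_lit 346))))))) (XT.nd (nat_lit 780) (nat_lit 8512) (nat_lit 0) (XT.nd (nat_lit 390) (nat_lit 1140) (nat_lit 0) (XT.nd (nat_lit 156) (nat_lit 1064) (nat_lit 0) (XT.nd (nat_lit 78) (nat_lit 0) (nat_lit 0) (XT.lf (nat_lit 0) (nat_lit 1759555479) (nat_lit 1064) (nat_lit 364372842) (nat_lit 1140) (nat_lit 4911768663) (nat_lit 700) (nat_lit 5) (nat_lit 714) (nat_lit 5) (nat_lit 715) (nat_lit 5) (nat_lit 402) (nat_lit 393) (nat_lit 345)) (XT.lf (nat_lit 76) (nat_lit 3462228329) (nat_lit 0) (nat_lit 313213044) (nat_lit 1140) (nat_lit 3296931146) (nat_lit 701) (nat_lit 5) (nat_lit 700) (nat_lit 5) (nat_lit 715)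 (nat_lit 5) (nat_lit 403) (nat_lit 393) (nat_lit 344))) (XT.nd (nat_lit 78) (nat_lit 1140) (nat_lit 0) (XT.lf (nat_lit 76) (nat_lit 223486418) (nat_lit 0) (nat_lit 5574299922) (nat_lit 1140) (nat_lit 1312672397) (nat_lit 702) (nat_lit 5) (nat_lit 701) (nat_lit 5) (nat_lit 716) (nat_lit 5) (nat_lit 404) (nat_lit 393) (nat_lit 343)) (XT.nd (nat_lit 78) (nat_lit 0) (nat_lit 0) (XT.lf (nat_lit 0) (nat_lit 681105779) (nat_lit 1140) (nat_lit 3003418332) (nat_lit 1216) (nat_lit 3465106953) (nat_lit 686) (nat_lit 5) (nat_lit 701) (nat_lit 5) (nat_lit 702) (nat_lit 5) (nat_lit 405) (nat_lit 393) (nat_lit 342)) (XT.lf (nat_lit 76) (nat_lit 931457693) (nat_lit 0) (nat_lit 1725418669) (nat_lit 1216) (nat_lit 4533343071) (nat_lit 687) (nat_lit 5) (nat_lit 686) (nat_lit 5) (nat_lit 702) (nat_lit 5) (nat_lit 406) (nat_lit 393) (nat_lit 341))))) (XT.nd (nat_lit 156) (nat_lit 1216) (nat_lit 0) (XT.nd (nat_lit 78) (nat_lit 0) (nat_lit 0) (XT.lf (nat_lit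 0) (nat_lit 4648671744) (nat_lit 1140) (nat_lit 2278070610) (nat_lit 1216) (nat_lit 305347026) (nat_lit 687) (nat_lit 5) (nat_lit 702) (nat_lit 5) (nat_lit 703) (nat_lit 5) (nat_lit 407) (nat_lit 393) (nat_lit 340)) (XT.lf (nat_lit 76) (nat_lit 1763850377) (nat_lit 0) (nat_lit 4894674250) (nat_lit 1216) (nat_lit 616707669) (nat_lit 688) (nat_lit 5) (nat_lit 687) (nat_lit 5) (nat_lit 703) (nat_lit 5) (nat_lit 408) (nat_lit 393) (nat_lit 339))) (XT.nd (nat_lit 78) (nat_lit 0) (nat_lit 0) (XT.lf (nat_lit 0) (nat_lit 1342236601) (nat_lit 1216) (nat_lit 1441045314) (nat_lit 1292) (nat_lit 4536353314) (nat_lit 671) (nat_lit 5) (nat_lit 687) (nat_lit 5) (nat_lit 688) (nat_lit 5) (nat_lit 409) (nat_lit 393) (nat_lit 338)) (XT.nd (nat_lit 78) (nat_lit 0) (nat_lit 76) (XT.lf (nat_lit 76) (nat_lit 2712302987) (nat_lit 0) (nat_lit 594018030) (nat_lit 1292) (nat_lit 4059039295) (nat_lit 672) (nat_lit 5) (nat_lit 671) (nat_lit 5) (nat_lit 688) (nat_lit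 5) (nat_lit 410) (nat_lit 393) (nat_lit 337)) (XT.lf (nat_lit 0) (nat_lit 5287407167) (nat_lit 1216) (nat_lit 484886396) (nat_lit 1292) (nat_lit 1640151934) (nat_lit 672) (nat_lit 5) (nat_lit 688) (nat_lit 5) (nat_lit 689) (nat_lit 5) (nat_lit 411) (nat_lit 393) (nat_lit 336)))))) (XT.nd (nat_lit 390) (nat_lit 6004) (nat_lit 0) (XT.nd (nat_lit 156) (nat_lit 1292) (nat_lit 0) (XT.nd (nat_lit 78) (nat_lit 1292) (nat_lit 0) (XT.lf (nat_lit 76) (nat_lit 3782293848) (nat_lit 0) (nat_lit 3512492789) (nat_lit 1292) (nat_lit 165952316) (nat_lit 673) (nat_lit 5) (nat_lit 672) (nat_lit 5) (nat_lit 689) (nat_lit 5) (nat_lit 412) (nat_lit 393) (nat_lit 335)) (XT.lf (nat_lit 76) (nat_lit 596989530) (nat_lit 0) (nat_lit 1176980249) (nat_lit 1368) (nat_lit 5736476856) (nat_lit 656) (nat_lit 5) (nat_lit 655) (nat_lit 5) (nat_lit 673) (nat_lit 5) (nat_lit 413) (nat_lit 393) (nat_lit 334))) (XT.nd (nat_lit 78) (nat_lit 1368) (nat_lit 0) (XT.lf (nat_lit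 0) (nat_lit 3742363757) (nat_lit 1292) (nat_lit 2593012947) (nat_lit 76) (nat_lit 1225911919) (nat_lit 656) (nat_lit 5) (nat_lit 673) (nat_lit 5) (nat_lit 657) (nat_lit 5) (nat_lit 414) (nat_lit 393) (nat_lit 333)) (XT.nd (nat_lit 78) (nat_lit 76) (nat_lit 0) (XT.lf (nat_lit 0) (nat_lit 1799185714) (nat_lit 1292) (nat_lit 3930436029) (nat_lit 1368) (nat_lit 1883935784) (nat_lit 639) (nat_lit 5) (nat_lit 656) (nat_lit 5) (nat_lit 657) (nat_lit 5) (nat_lit 415) (nat_lit 393) (nat_lit 332)) (XT.lf (nat_lit 0) (nat_lit 66438320) (nat_lit 1368) (nat_lit 1383627505) (nat_lit 76) (nat_lit 6217237083) (nat_lit 638) (nat_lit 5) (nat_lit 656) (nat_lit 5) (nat_lit 639) (nat_lit 5) (nat_lit 416) (nat_lit 393) (nat_lit 331))))) (XT.nd (nat_lit 234) (nat_lit 3192) (nat_lit 0) (XT.nd (nat_lit 78) (nat_lit 1444) (nat_lit 0) (XT.lf (nat_lit 0) (nat_lit 2019376294) (nat_lit 1444) (nat_lit 4595348377) (nat_lit 76) (nat_lit 1107373823) (nat_lit 620) (nat_lit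 5) (nat_lit 639) (nat_lit 5) (nat_lit 621) (nat_lit 5) (nat_lit 417) (nat_lit 393) (nat_lit 330)) (XT.nd (nat_lit 78) (nat_lit 1444) (nat_lit 0) (XT.lf (nat_lit 0) (nat_lit 3992068320) (nat_lit 1444) (nat_lit 72179288) (nat_lit 76) (nat_lit 3714128476) (nat_lit 620) (nat_lit 5) (nat_lit 639) (nat_lit 5) (nat_lit 621) (nat_lit 5) (nat_lit 418) (nat_lit 393) (nat_lit 329)) (XT.lf (nat_lit 0) (nat_lit 4571208196) (nat_lit 1444) (nat_lit 1425181238) (nat_lit 1520) (nat_lit 1839546288) (nat_lit 601) (nat_lit 5) (nat_lit 620) (nat_lit 5) (nat_lit 621) (nat_lit 5) (nat_lit 419) (nat_lit 393) (nat_lit 328)))) (XT.nd (nat_lit 78) (nat_lit 1596) (nat_lit 0) (XT.lf (nat_lit 0) (nat_lit 124944793) (nat_lit 1596) (nat_lit 6502786802) (nat_lit 76) (nat_lit 1267281757) (nat_lit 580) (nat_lit 5) (nat_lit 601) (nat_lit 5) (nat_lit 581) (nat_lit 5) (nat_lit 420) (nat_lit 393) (nat_lit 327)) (XT.nd (nat_lit 78) (nat_lit 1596) (nat_lit 0) (XT.lf (nat_lit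 0) (nat_lit 2098974692) (nat_lit 1596) (nat_lit 1821093573) (nat_lit 76) (nat_lit 4035063471) (nat_lit 580) (nat_lit 5) (nat_lit 601) (nat_lit 5) (nat_lit 581) (nat_lit 5) (nat_lit 421) (nat_lit 393) (nat_lit 326)) (XT.lf (nat_lit 0) (nat_lit 2962630765) (nat_lit 1596) (nat_lit 1133174181) (nat_lit 1672) (nat_lit 3920981146) (nat_lit 559) (nat_lit 5) (nat_lit 580) (nat_lit 5) (nat_lit 581) (nat_lit 5) (nat_lit 422) (nat_lit 393) (nat_lit 325))))))))
noncomputable def xc140 : XT := (XT.nd (nat_lit 1560) (nat_lit 9272) (nat_lit 0) (XT.nd (nat_lit 780) (nat_lit 5168) (nat_lit 0) (XT.nd (nat_lit 390) (nat_lit 3040) (nat_lit 0) (XT.nd (nat_lit 156) (nat_lit 3572) (nat_lit 0) (XT.nd (nat_lit 78) (nat_lit 1748) (nat_lit 0) (XT.lf (nat_lit 0) (nat_lit 6120597773) (nat_lit 1672) (nat_lit 254893398) (nat_lit 76) (nat_lit 1704421847) (nat_lit 559) (nat_lit 5) (nat_lit 581) (nat_lit 5) (nat_lit 560) (nat_lit 5) (nat_lit 423) (nat_lit 393) (nat_lit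 324)) (XT.lf (nat_lit 0) (nat_lit 44162155) (nat_lit 1748) (nat_lit 3480908983) (nat_lit 76) (nat_lit 4619163471) (nat_lit 536) (nat_lit 5) (nat_lit 559) (nat_lit 5) (nat_lit 537) (nat_lit 5) (nat_lit 424) (nat_lit 393) (nat_lit 323))) (XT.nd (nat_lit 78) (nat_lit 1824) (nat_lit 0) (XT.lf (nat_lit 0) (nat_lit 1448922619) (nat_lit 1748) (nat_lit 589281684) (nat_lit 1824) (nat_lit 6171844699) (nat_lit 513) (nat_lit 5) (nat_lit 536) (nat_lit 5) (nat_lit 537) (nat_lit 5) (nat_lit 425) (nat_lit 393) (nat_lit 322)) (XT.nd (nat_lit 78) (nat_lit 1824) (nat_lit 0) (XT.lf (nat_lit 0) (nat_lit 4077333765) (nat_lit 1824) (nat_lit 1799097105) (nat_lit 76) (nat_lit 2400644684) (nat_lit 513) (nat_lit 5) (nat_lit 537) (nat_lit 5) (nat_lit 514) (nat_lit 5) (nat_lit 426) (nat_lit 393) (nat_lit 321)) (XT.lf (nat_lit 0) (nat_lit 3270626768) (nat_lit 1824) (nat_lit 2878498554) (nat_lit 1900) (nat_lit 2196479725) (nat_lit 489) (nat_lit 5) (nat_lit 513) (nat_lit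 5) (nat_lit 514) (nat_lit 5) (nat_lit 427) (nat_lit 393) (nat_lit 320))))) (XT.nd (nat_lit 156) (nat_lit 1824) (nat_lit 0) (XT.nd (nat_lit 78) (nat_lit 76) (nat_lit 0) (XT.lf (nat_lit 0) (nat_lit 18861894) (nat_lit 1140) (nat_lit 8224143915) (nat_lit 1216) (nat_lit 172886259) (nat_lit 474) (nat_lit 5) (nat_lit 489) (nat_lit 5) (nat_lit 490) (nat_lit 5) (nat_lit 428) (nat_lit 393) (nat_lit 319)) (XT.lf (nat_lit 0) (nat_lit 1887161866) (nat_lit 1216) (nat_lit 3266337555) (nat_lit 76) (nat_lit 3333424114) (nat_lit 473) (nat_lit 5) (nat_lit 489) (nat_lit 5) (nat_lit 474) (nat_lit 5) (nat_lit 429) (nat_lit 393) (nat_lit 318))) (XT.nd (nat_lit 78) (nat_lit 912) (nat_lit 0) (XT.lf (nat_lit 0) (nat_lit 1960916104) (nat_lit 912) (nat_lit 2005993762) (nat_lit 988) (nat_lit 4592826631) (nat_lit 461) (nat_lit 5) (nat_lit 473) (nat_lit 5) (nat_lit 474) (nat_lit 5) (nat_lit 430) (nat_lit 393) (nat_lit 317)) (XT.nd (nat_lit 78) (nat_lit 912) (nat_lit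 0) (XT.lf (nat_lit 0) (nat_lit 6086652400) (nat_lit 988) (nat_lit 1335602677) (nat_lit 76) (nat_lit 1211782650) (nat_lit 461) (nat_lit 5) (nat_lit 474) (nat_lit 5) (nat_lit 462) (nat_lit 5) (nat_lit 431) (nat_lit 393) (nat_lit 316)) (XT.lf (nat_lit 0) (nat_lit 4042156397) (nat_lit 912) (nat_lit 4215295223) (nat_lit 988) (nat_lit 452200127) (nat_lit 449) (nat_lit 5) (nat_lit 461) (nat_lit 5) (nat_lit 462) (nat_lit 5) (nat_lit 432) (nat_lit 393) (nat_lit 315)))))) (XT.nd (nat_lit 390) (nat_lit 2432) (nat_lit 0) (XT.nd (nat_lit 156) (nat_lit 1824) (nat_lit 0) (XT.nd (nat_lit 78) (nat_lit 0) (nat_lit 0) (XT.lf (nat_lit 0) (nat_lit 726851328) (nat_lit 836) (nat_lit 919020847) (nat_lit 912) (nat_lit 7141025461) (nat_lit 437) (nat_lit 5) (nat_lit 448) (nat_lit 5) (nat_lit 449) (nat_lit 5) (nat_lit 433) (nat_lit 393) (nat_lit 314)) (XT.lf (nat_lit 0) (nat_lit 3796990134) (nat_lit 912) (nat_lit 2622833937) (nat_lit 76) (nat_lit 2445461811) (nat_lit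 437) (nat_lit 5) (nat_lit 449) (nat_lit 5) (nat_lit 438) (nat_lit 5) (nat_lit 434) (nat_lit 393) (nat_lit 313))) (XT.nd (nat_lit 78) (nat_lit 912) (nat_lit 0) (XT.lf (nat_lit 0) (nat_lit 2924945560) (nat_lit 912) (nat_lit 3061597094) (nat_lit 988) (nat_lit 2958790991) (nat_lit 425) (nat_lit 5) (nat_lit 437) (nat_lit 5) (nat_lit 438) (nat_lit 5) (nat_lit 435) (nat_lit 393) (nat_lit 312)) (XT.nd (nat_lit 78) (nat_lit 912) (nat_lit 0) (XT.lf (nat_lit 0) (nat_lit 8210679599) (nat_lit 988) (nat_lit 440706069) (nat_lit 76) (nat_lit 375780831) (nat_lit 425) (nat_lit 5) (nat_lit 438) (nat_lit 5) (nat_lit 426) (nat_lit 5) (nat_lit 436) (nat_lit 393) (nat_lit 311)) (XT.lf (nat_lit 0) (nat_lit 1376658602) (nat_lit 912) (nat_lit 3850003685) (nat_lit 76) (nat_lit 3883277084) (nat_lit 413) (nat_lit 5) (nat_lit 425) (nat_lit 5) (nat_lit 414) (nat_lit 5) (nat_lit 437) (nat_lit 393) (nat_lit 310))))) (XT.nd (nat_lit 156) (nat_lit 1596) (nat_lit 0) (XT.nd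 (nat_lit 78) (nat_lit 0) (nat_lit 0) (XT.lf (nat_lit 0) (nat_lit 1875013172) (nat_lit 836) (nat_lit 1714350845) (nat_lit 912) (nat_lit 5605163149) (nat_lit 402) (nat_lit 5) (nat_lit 413) (nat_lit 5) (nat_lit 414) (nat_lit 5) (nat_lit 438) (nat_lit 393) (nat_lit 309)) (XT.lf (nat_lit 0) (nat_lit 5856278662) (nat_lit 912) (nat_lit 1556629426) (nat_lit 76) (nat_lit 1867699526) (nat_lit 402) (nat_lit 5) (nat_lit 414) (nat_lit 5) (nat_lit 403) (nat_lit 5) (nat_lit 439) (nat_lit 393) (nat_lit 308))) (XT.nd (nat_lit 78) (nat_lit 836) (nat_lit 0) (XT.lf (nat_lit 0) (nat_lit 4336884749) (nat_lit 760) (nat_lit 3843529506) (nat_lit 836) (nat_lit 1187757764) (nat_lit 392) (nat_lit 5) (nat_lit 402) (nat_lit 5) (nat_lit 403) (nat_lit 5) (nat_lit 440) (nat_lit 393) (nat_lit 307)) (XT.nd (nat_lit 78) (nat_lit 0) (nat_lit 0) (XT.lf (nat_lit 0) (nat_lit 886224365) (nat_lit 760) (nat_lit 181785365) (nat_lit 836) (nat_lit 8389559843) (nat_lit 381) (nat_lit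 5) (nat_lit 391) (nat_lit 5) (nat_lit 392) (nat_lit 5) (nat_lit 441) (nat_lit 393) (nat_lit 306)) (XT.lf (nat_lit 0) (nat_lit 3382920634) (nat_lit 836) (nat_lit 2619596181) (nat_lit 76) (nat_lit 3545482599) (nat_lit 381) (nat_lit 5) (nat_lit 392) (nat_lit 5) (nat_lit 382) (nat_lit 5) (nat_lit 442) (nat_lit 393) (nat_lit 305))))))) (XT.nd (nat_lit 780) (nat_lit 4256) (nat_lit 0) (XT.nd (nat_lit 390) (nat_lit 2736) (nat_lit 0) (XT.nd (nat_lit 156) (nat_lit 1520) (nat_lit 0) (XT.nd (nat_lit 78) (nat_lit 0) (nat_lit 0) (XT.lf (nat_lit 0) (nat_lit 3465390242) (nat_lit 760) (nat_lit 2275836529) (nat_lit 836) (nat_lit 3899069139) (nat_lit 371) (nat_lit 5) (nat_lit 381) (nat_lit 5) (nat_lit 382) (nat_lit 5) (nat_lit 443) (nat_lit 393) (nat_lit 304)) (XT.lf (nat_lit 0) (nat_lit 8147996371) (nat_lit 836) (nat_lit 66868914) (nat_lit 76) (nat_lit 1519547105) (nat_lit 371) (nat_lit 5) (nat_lit 382) (nat_lit 5) (nat_lit 372) (nat_lit 5) (nat_lit 444)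 (nat_lit 393) (nat_lit 303))) (XT.nd (nat_lit 78) (nat_lit 684) (nat_lit 0) (XT.lf (nat_lit 0) (nat_lit 792093530) (nat_lit 836) (nat_lit 3635215684) (nat_lit 76) (nat_lit 5402406981) (nat_lit 360) (nat_lit 5) (nat_lit 371) (nat_lit 5) (nat_lit 361) (nat_lit 5) (nat_lit 445) (nat_lit 393) (nat_lit 302)) (XT.nd (nat_lit 78) (nat_lit 0) (nat_lit 0) (XT.lf (nat_lit 0) (nat_lit 2649427684) (nat_lit 684) (nat_lit 539535897) (nat_lit 760) (nat_lit 6737912122) (nat_lit 351) (nat_lit 5) (nat_lit 360) (nat_lit 5) (nat_lit 361) (nat_lit 5) (nat_lit 446) (nat_lit 393) (nat_lit 301)) (XT.lf (nat_lit 0) (nat_lit 5655211194) (nat_lit 760) (nat_lit 969034863) (nat_lit 76) (nat_lit 3401303542) (nat_lit 351) (nat_lit 5) (nat_lit 361) (nat_lit 5) (nat_lit 352) (nat_lit 5) (nat_lit 447) (nat_lit 393) (nat_lit 300))))) (XT.nd (nat_lit 156) (nat_lit 1292) (nat_lit 0) (XT.nd (nat_lit 78) (nat_lit 760) (nat_lit 0) (XT.lf (nat_lit 0) (nat_lit 5504579569) (nat_lit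 684) (nat_lit 2680654477) (nat_lit 760) (nat_lit 1940673921) (nat_lit 342) (nat_lit 5) (nat_lit 351) (nat_lit 5) (nat_lit 352) (nat_lit 5) (nat_lit 448) (nat_lit 393) (nat_lit 299)) (XT.lf (nat_lit 0) (nat_lit 533410825) (nat_lit 760) (nat_lit 8353035636) (nat_lit 76) (nat_lit 1341699684) (nat_lit 332) (nat_lit 5) (nat_lit 342) (nat_lit 5) (nat_lit 333) (nat_lit 5) (nat_lit 449) (nat_lit 393) (nat_lit 298))) (XT.nd (nat_lit 78) (nat_lit 1292) (nat_lit 0) (XT.lf (nat_lit 0) (nat_lit 3055517438) (nat_lit 760) (nat_lit 1828479070) (nat_lit 76) (nat_lit 5447685506) (nat_lit 332) (nat_lit 5) (nat_lit 342) (nat_lit 5) (nat_lit 333) (nat_lit 5) (nat_lit 450) (nat_lit 393) (nat_lit 297)) (XT.nd (nat_lit 78) (nat_lit 608) (nat_lit 0) (XT.lf (nat_lit 0) (nat_lit 4860926895) (nat_lit 684) (nat_lit 774711320) (nat_lit 760) (nat_lit 4801498945) (nat_lit 323) (nat_lit 5) (nat_lit 332) (nat_lit 5) (nat_lit 333) (nat_lit 5) (nat_lit 451) (nat_lit 393)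 (nat_lit 296)) (XT.lf (nat_lit 0) (nat_lit 1127331745) (nat_lit 608) (nat_lit 7158141014) (nat_lit 684) (nat_lit 2258866422) (nat_lit 315) (nat_lit 5) (nat_lit 323) (nat_lit 5) (nat_lit 324) (nat_lit 5) (nat_lit 452) (nat_lit 393) (nat_lit 295)))))) (XT.nd (nat_lit 390) (nat_lit 2280) (nat_lit 0) (XT.nd (nat_lit 156) (nat_lit 1292) (nat_lit 0) (XT.nd (nat_lit 78) (nat_lit 608) (nat_lit 0) (XT.lf (nat_lit 0) (nat_lit 349403562) (nat_lit 684) (nat_lit 2649713911) (nat_lit 76) (nat_lit 7654140851) (nat_lit 314) (nat_lit 5) (nat_lit 323) (nat_lit 5) (nat_lit 315) (nat_lit 5) (nat_lit 453) (nat_lit 393) (nat_lit 294)) (XT.lf (nat_lit 0) (nat_lit 2992463726) (nat_lit 684) (nat_lit 6507555953) (nat_lit 76) (nat_lit 1263780129) (nat_lit 306) (nat_lit 5) (nat_lit 315) (nat_lit 5) (nat_lit 307) (nat_lit 5) (nat_lit 454) (nat_lit 393) (nat_lit 293))) (XT.nd (nat_lit 78) (nat_lit 684) (nat_lit 0) (XT.lf (nat_lit 0) (nat_lit 416119171) (nat_lit 608)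 (nat_lit 5289793485) (nat_lit 684) (nat_lit 5170288914) (nat_lit 298) (nat_lit 5) (nat_lit 306) (nat_lit 5) (nat_lit 307) (nat_lit 5) (nat_lit 455) (nat_lit 393) (nat_lit 292)) (XT.nd (nat_lit 78) (nat_lit 684) (nat_lit 0) (XT.lf (nat_lit 0) (nat_lit 7537272166) (nat_lit 608) (nat_lit 957352996) (nat_lit 684) (nat_lit 2495806313) (nat_lit 298) (nat_lit 5) (nat_lit 306) (nat_lit 5) (nat_lit 307) (nat_lit 5) (nat_lit 456) (nat_lit 393) (nat_lit 291)) (XT.lf (nat_lit 0) (nat_lit 253448549) (nat_lit 684) (nat_lit 7417335861) (nat_lit 76) (nat_lit 3435644871) (nat_lit 289) (nat_lit 5) (nat_lit 298) (nat_lit 5) (nat_lit 290) (nat_lit 5) (nat_lit 457) (nat_lit 393) (nat_lit 290))))) (XT.nd (nat_lit 234) (nat_lit 1140) (nat_lit 0) (XT.nd (nat_lit 78) (nat_lit 1140) (nat_lit 0) (XT.lf (nat_lit 0) (nat_lit 3031799016) (nat_lit 684) (nat_lit 255447122) (nat_lit 76) (nat_lit 7937020372) (nat_lit 289) (nat_lit 5) (nat_lit 298) (nat_lit 5) (nat_lit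 290) (nat_lit 5) (nat_lit 458) (nat_lit 393) (nat_lit 289)) (XT.nd (nat_lit 78) (nat_lit 608) (nat_lit 0) (XT.lf (nat_lit 0) (nat_lit 5898123309) (nat_lit 608) (nat_lit 4237503424) (nat_lit 76) (nat_lit 1208185614) (nat_lit 282) (nat_lit 5) (nat_lit 290) (nat_lit 5) (nat_lit 283) (nat_lit 5) (nat_lit 459) (nat_lit 393) (nat_lit 288)) (XT.lf (nat_lit 0) (nat_lit 3143730430) (nat_lit 608) (nat_lit 5700414067) (nat_lit 684) (nat_lit 2621157195) (nat_lit 274) (nat_lit 5) (nat_lit 282) (nat_lit 5) (nat_lit 283) (nat_lit 5) (nat_lit 460) (nat_lit 393) (nat_lit 287)))) (XT.nd (nat_lit 78) (nat_lit 1064) (nat_lit 0) (XT.lf (nat_lit 0) (nat_lit 263640825) (nat_lit 684) (nat_lit 889360774) (nat_lit 76) (nat_lit 10436041808) (nat_lit 273) (nat_lit 5) (nat_lit 282) (nat_lit 5) (nat_lit 274) (nat_lit 5) (nat_lit 461) (nat_lit 393) (nat_lit 286)) (XT.nd (nat_lit 78) (nat_lit 532) (nat_lit 0) (XT.lf (nat_lit 0) (nat_lit 3216759400) (nat_lit 608) (nat_lit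 5003286931) (nat_lit 76) (nat_lit 3493952669) (nat_lit 266) (nat_lit 5) (nat_lit 274) (nat_lit 5) (nat_lit 267) (nat_lit 5) (nat_lit 462) (nat_lit 393) (nat_lit 285)) (XT.lf (nat_lit 0) (nat_lit 2631870955) (nat_lit 532) (nat_lit 3606962665) (nat_lit 608) (nat_lit 5602422221) (nat_lit 259) (nat_lit 5) (nat_lit 266) (nat_lit 5) (nat_lit 267) (nat_lit 5) (nat_lit 463) (nat_lit 393) (nat_lit 284))))))))
noncomputable def xc141 : XT := (XT.nd (nat_lit 1560) (nat_lit 4788) (nat_lit 0) (XT.nd (nat_lit 780) (nat_lit 3040) (nat_lit 0) (XT.nd (nat_lit 390) (nat_lit 1596) (nat_lit 0) (XT.nd (nat_lit 156) (nat_lit 988) (nat_lit 0) (XT.nd (nat_lit 78) (nat_lit 608) (nat_lit 0) (XT.lf (nat_lit 0) (nat_lit 9341614886) (nat_lit 608) (nat_lit 1518841033) (nat_lit 76) (nat_lit 1110196587) (nat_lit 259) (nat_lit 5) (nat_lit 267) (nat_lit 5) (nat_lit 260) (nat_lit 5) (nat_lit 464) (nat_lit 393) (nat_lit 283)) (XT.lf (nat_lit 0) (nat_lit 443718611) (nat_lit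 608) (nat_lit 5747751717) (nat_lit 76) (nat_lit 5910210339) (nat_lit 251) (nat_lit 5) (nat_lit 259) (nat_lit 5) (nat_lit 252) (nat_lit 5) (nat_lit 465) (nat_lit 393) (nat_lit 282))) (XT.nd (nat_lit 78) (nat_lit 456) (nat_lit 0) (XT.lf (nat_lit 0) (nat_lit 2152189834) (nat_lit 532) (nat_lit 1394628934) (nat_lit 608) (nat_lit 8688081233) (nat_lit 244) (nat_lit 5) (nat_lit 251) (nat_lit 5) (nat_lit 252) (nat_lit 5) (nat_lit 466) (nat_lit 393) (nat_lit 281)) (XT.nd (nat_lit 78) (nat_lit 456) (nat_lit 0) (XT.lf (nat_lit 0) (nat_lit 6753506365) (nat_lit 608) (nat_lit 2133274520) (nat_lit 76) (nat_lit 3483172327) (nat_lit 244) (nat_lit 5) (nat_lit 252) (nat_lit 5) (nat_lit 245) (nat_lit 5) (nat_lit 467) (nat_lit 393) (nat_lit 280)) (XT.lf (nat_lit 0) (nat_lit 6017047197) (nat_lit 456) (nat_lit 4035962798) (nat_lit 532) (nat_lit 2454123847) (nat_lit 238) (nat_lit 5) (nat_lit 244) (nat_lit 5) (nat_lit 245) (nat_lit 5) (nat_lit 468) (nat_lit 393)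 (nat_lit 279))))) (XT.nd (nat_lit 156) (nat_lit 988) (nat_lit 0) (XT.nd (nat_lit 78) (nat_lit 0) (nat_lit 0) (XT.lf (nat_lit 0) (nat_lit 773312777) (nat_lit 608) (nat_lit 10951028563) (nat_lit 76) (nat_lit 922376874) (nat_lit 230) (nat_lit 5) (nat_lit 238) (nat_lit 5) (nat_lit 231) (nat_lit 5) (nat_lit 469) (nat_lit 393) (nat_lit 278)) (XT.lf (nat_lit 0) (nat_lit 4083642700) (nat_lit 608) (nat_lit 2726343754) (nat_lit 76) (nat_lit 5977759278) (nat_lit 230) (nat_lit 5) (nat_lit 238) (nat_lit 5) (nat_lit 231) (nat_lit 5) (nat_lit 470) (nat_lit 393) (nat_lit 277))) (XT.nd (nat_lit 78) (nat_lit 532) (nat_lit 0) (XT.lf (nat_lit 0) (nat_lit 5710267408) (nat_lit 456) (nat_lit 1767972948) (nat_lit 532) (nat_lit 5452992221) (nat_lit 224) (nat_lit 5) (nat_lit 230) (nat_lit 5) (nat_lit 231) (nat_lit 5) (nat_lit 471) (nat_lit 393) (nat_lit 276)) (XT.nd (nat_lit 78) (nat_lit 76) (nat_lit 0) (XT.lf (nat_lit 0) (nat_lit 1242000467) (nat_lit 456) (nat_lit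 9728248793) (nat_lit 532) (nat_lit 2106749514) (nat_lit 218) (nat_lit 5) (nat_lit 224) (nat_lit 5) (nat_lit 225) (nat_lit 5) (nat_lit 472) (nat_lit 393) (nat_lit 275)) (XT.lf (nat_lit 0) (nat_lit 1330965353) (nat_lit 532) (nat_lit 3300782770) (nat_lit 76) (nat_lit 8592928905) (nat_lit 217) (nat_lit 5) (nat_lit 224) (nat_lit 5) (nat_lit 218) (nat_lit 5) (nat_lit 473) (nat_lit 393) (nat_lit 274)))))) (XT.nd (nat_lit 390) (nat_lit 1216) (nat_lit 0) (XT.nd (nat_lit 156) (nat_lit 912) (nat_lit 0) (XT.nd (nat_lit 78) (nat_lit 456) (nat_lit 0) (XT.lf (nat_lit 0) (nat_lit 4830047715) (nat_lit 532) (nat_lit 7944329851) (nat_lit 76) (nat_lit 600236317) (nat_lit 211) (nat_lit 5) (nat_lit 218) (nat_lit 5) (nat_lit 212) (nat_lit 5) (nat_lit 474) (nat_lit 393) (nat_lit 273)) (XT.lf (nat_lit 0) (nat_lit 806105172) (nat_lit 456) (nat_lit 7632905014) (nat_lit 532) (nat_lit 5087741321) (nat_lit 205) (nat_lit 5) (nat_lit 211) (nat_lit 5) (nat_lit 212) (nat_lit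 5) (nat_lit 475) (nat_lit 393) (nat_lit 272))) (XT.nd (nat_lit 78) (nat_lit 912) (nat_lit 0) (XT.lf (nat_lit 0) (nat_lit 9812160488) (nat_lit 456) (nat_lit 2343179381) (nat_lit 532) (nat_lit 1525888254) (nat_lit 205) (nat_lit 5) (nat_lit 211) (nat_lit 5) (nat_lit 212) (nat_lit 5) (nat_lit 476) (nat_lit 393) (nat_lit 271)) (XT.nd (nat_lit 78) (nat_lit 456) (nat_lit 0) (XT.lf (nat_lit 0) (nat_lit 2115432391) (nat_lit 456) (nat_lit 8671169997) (nat_lit 76) (nat_lit 3051200919) (nat_lit 199) (nat_lit 5) (nat_lit 205) (nat_lit 5) (nat_lit 200) (nat_lit 5) (nat_lit 477) (nat_lit 393) (nat_lit 270)) (XT.lf (nat_lit 0) (nat_lit 390933200) (nat_lit 456) (nat_lit 5444660239) (nat_lit 532) (nat_lit 8161185921) (nat_lit 193) (nat_lit 5) (nat_lit 199) (nat_lit 5) (nat_lit 200) (nat_lit 5) (nat_lit 478) (nat_lit 393) (nat_lit 269))))) (XT.nd (nat_lit 156) (nat_lit 836) (nat_lit 0) (XT.nd (nat_lit 78) (nat_lit 380) (nat_lit 0) (XT.lf (nat_lit 0) (nat_lit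 9671108591) (nat_lit 532) (nat_lit 4433383148) (nat_lit 76) (nat_lit 53624178) (nat_lit 193) (nat_lit 5) (nat_lit 200) (nat_lit 5) (nat_lit 194) (nat_lit 5) (nat_lit 479) (nat_lit 393) (nat_lit 268)) (XT.lf (nat_lit 0) (nat_lit 4924569839) (nat_lit 380) (nat_lit 8709491860) (nat_lit 456) (nat_lit 687602954) (nat_lit 188) (nat_lit 5) (nat_lit 193) (nat_lit 5) (nat_lit 194) (nat_lit 5) (nat_lit 480) (nat_lit 393) (nat_lit 267))) (XT.nd (nat_lit 78) (nat_lit 760) (nat_lit 0) (XT.lf (nat_lit 0) (nat_lit 3158680110) (nat_lit 456) (nat_lit 5549565) (nat_lit 76) (nat_lit 11323586761) (nat_lit 187) (nat_lit 5) (nat_lit 193) (nat_lit 5) (nat_lit 188) (nat_lit 5) (nat_lit 481) (nat_lit 393) (nat_lit 266)) (XT.nd (nat_lit 78) (nat_lit 380) (nat_lit 0) (XT.lf (nat_lit 0) (nat_lit 7135130955) (nat_lit 456) (nat_lit 5002774139) (nat_lit 76) (nat_lit 2518046278) (nat_lit 182) (nat_lit 5) (nat_lit 188) (nat_lit 5) (nat_lit 183) (nat_lit 5) (nat_lit 482)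 (nat_lit 393) (nat_lit 265)) (XT.lf (nat_lit 0) (nat_lit 4692161007) (nat_lit 380) (nat_lit 6533601569) (nat_lit 456) (nat_lit 3600993395) (nat_lit 177) (nat_lit 5) (nat_lit 182) (nat_lit 5) (nat_lit 183) (nat_lit 5) (nat_lit 483) (nat_lit 393) (nat_lit 264))))))) (XT.nd (nat_lit 780) (nat_lit 2508) (nat_lit 0) (XT.nd (nat_lit 390) (nat_lit 1064) (nat_lit 0) (XT.nd (nat_lit 156) (nat_lit 760) (nat_lit 0) (XT.nd (nat_lit 78) (nat_lit 380) (nat_lit 0) (XT.lf (nat_lit 0) (nat_lit 409059253) (nat_lit 456) (nat_lit 380476288) (nat_lit 76) (nat_lit 14211048764) (nat_lit 176) (nat_lit 5) (nat_lit 182) (nat_lit 5) (nat_lit 177) (nat_lit 5) (nat_lit 484) (nat_lit 393) (nat_lit 263)) (XT.lf (nat_lit 0) (nat_lit 4530767576) (nat_lit 456) (nat_lit 5564197599) (nat_lit 76) (nat_lit 5080854539) (nat_lit 171) (nat_lit 5) (nat_lit 177) (nat_lit 5) (nat_lit 172) (nat_lit 5) (nat_lit 485) (nat_lit 393) (nat_lit 262))) (XT.nd (nat_lit 78) (nat_lit 456)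 (nat_lit 0) (XT.lf (nat_lit 0) (nat_lit 4481985848) (nat_lit 304) (nat_lit 4273493480) (nat_lit 380) (nat_lit 6598669119) (nat_lit 167) (nat_lit 5) (nat_lit 171) (nat_lit 5) (nat_lit 172) (nat_lit 5) (nat_lit 486) (nat_lit 393) (nat_lit 261)) (XT.nd (nat_lit 78) (nat_lit 456) (nat_lit 0) (XT.lf (nat_lit 0) (nat_lit 13096841033) (nat_lit 380) (nat_lit 767688209) (nat_lit 76) (nat_lit 1670871398) (nat_lit 167) (nat_lit 5) (nat_lit 172) (nat_lit 5) (nat_lit 168) (nat_lit 5) (nat_lit 487) (nat_lit 393) (nat_lit 260)) (XT.lf (nat_lit 0) (nat_lit 1856363475) (nat_lit 456) (nat_lit 6119714712) (nat_lit 76) (nat_lit 7742459717) (nat_lit 161) (nat_lit 5) (nat_lit 167) (nat_lit 5) (nat_lit 162) (nat_lit 5) (nat_lit 488) (nat_lit 393) (nat_lit 259))))) (XT.nd (nat_lit 156) (nat_lit 760) (nat_lit 0) (XT.nd (nat_lit 78) (nat_lit 0) (nat_lit 0) (XT.lf (nat_lit 0) (nat_lit 4292558429) (nat_lit 304) (nat_lit 1929186517) (nat_lit 380) (nat_lit 9682926345)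 (nat_lit 157) (nat_lit 5) (nat_lit 161) (nat_lit 5) (nat_lit 162) (nat_lit 5) (nat_lit 489) (nat_lit 393) (nat_lit 258)) (XT.lf (nat_lit 0) (nat_lit 10727504283) (nat_lit 380) (nat_lit 1150944381) (nat_lit 76) (nat_lit 4215017276) (nat_lit 157) (nat_lit 5) (nat_lit 162) (nat_lit 5) (nat_lit 158) (nat_lit 5) (nat_lit 490) (nat_lit 393) (nat_lit 257))) (XT.nd (nat_lit 78) (nat_lit 380) (nat_lit 0) (XT.lf (nat_lit 0) (nat_lit 9607699975) (nat_lit 380) (nat_lit 5775355720) (nat_lit 456) (nat_lit 901787250) (nat_lit 152) (nat_lit 5) (nat_lit 157) (nat_lit 5) (nat_lit 158) (nat_lit 5) (nat_lit 491) (nat_lit 393) (nat_lit 256)) (XT.nd (nat_lit 78) (nat_lit 0) (nat_lit 0) (XT.lf (nat_lit 0) (nat_lit 3626125051) (nat_lit 380) (nat_lit 12359921322) (nat_lit 76) (nat_lit 493080001) (nat_lit 147) (nat_lit 5) (nat_lit 152) (nat_lit 5) (nat_lit 148) (nat_lit 5) (nat_lit 492) (nat_lit 393) (nat_lit 255)) (XT.lf (nat_lit 0) (nat_lit 8300524592) (nat_lit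 380) (nat_lit 1524023333) (nat_lit 76) (nat_lit 6851268252) (nat_lit 147) (nat_lit 5) (nat_lit 152) (nat_lit 5) (nat_lit 148) (nat_lit 5) (nat_lit 493) (nat_lit 393) (nat_lit 254)))))) (XT.nd (nat_lit 390) (nat_lit 1216) (nat_lit 0) (XT.nd (nat_lit 156) (nat_lit 608) (nat_lit 0) (XT.nd (nat_lit 78) (nat_lit 380) (nat_lit 0) (XT.lf (nat_lit 0) (nat_lit 9630289470) (nat_lit 304) (nat_lit 3485591398) (nat_lit 380) (nat_lit 3759609533) (nat_lit 143) (nat_lit 5) (nat_lit 147) (nat_lit 5) (nat_lit 148) (nat_lit 5) (nat_lit 494) (nat_lit 393) (nat_lit 253)) (XT.lf (nat_lit 0) (nat_lit 976568906) (nat_lit 380) (nat_lit 13127580636) (nat_lit 76) (nat_lit 2974072996) (nat_lit 138) (nat_lit 5) (nat_lit 143) (nat_lit 5) (nat_lit 139) (nat_lit 5) (nat_lit 495) (nat_lit 393) (nat_lit 252))) (XT.nd (nat_lit 78) (nat_lit 608) (nat_lit 0) (XT.lf (nat_lit 0) (nat_lit 5814254760) (nat_lit 380) (nat_lit 1888445266) (nat_lit 76) (nat_lit 9580669771) (nat_lit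 138) (nat_lit 5) (nat_lit 143) (nat_lit 5) (nat_lit 139) (nat_lit 5) (nat_lit 496) (nat_lit 393) (nat_lit 251)) (XT.nd (nat_lit 78) (nat_lit 304) (nat_lit 0) (XT.lf (nat_lit 0) (nat_lit 9678171332) (nat_lit 304) (nat_lit 1118706656) (nat_lit 380) (nat_lit 6694778341) (nat_lit 134) (nat_lit 5) (nat_lit 138) (nat_lit 5) (nat_lit 139) (nat_lit 5) (nat_lit 497) (nat_lit 393) (nat_lit 250)) (XT.lf (nat_lit 0) (nat_lit 3786803506) (nat_lit 304) (nat_lit 12151447785) (nat_lit 380) (nat_lit 1764675348) (nat_lit 130) (nat_lit 5) (nat_lit 134) (nat_lit 5) (nat_lit 135) (nat_lit 5) (nat_lit 498) (nat_lit 393) (nat_lit 249))))) (XT.nd (nat_lit 234) (nat_lit 608) (nat_lit 0) (XT.nd (nat_lit 78) (nat_lit 532) (nat_lit 0) (XT.lf (nat_lit 0) (nat_lit 3266858914) (nat_lit 380) (nat_lit 2245645161) (nat_lit 76) (nat_lit 12404581684) (nat_lit 129) (nat_lit 5) (nat_lit 134) (nat_lit 5) (nat_lit 130) (nat_lit 5) (nat_lit 499) (nat_lit 393) (nat_lit 248))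 (XT.nd (nat_lit 78) (nat_lit 228) (nat_lit 0) (XT.lf (nat_lit 0) (nat_lit 8433068595) (nat_lit 380) (nat_lit 8392344973) (nat_lit 76) (nat_lit 1308727729) (nat_lit 125) (nat_lit 5) (nat_lit 130) (nat_lit 5) (nat_lit 126) (nat_lit 5) (nat_lit 500) (nat_lit 393) (nat_lit 247)) (XT.lf (nat_lit 0) (nat_lit 3631287382) (nat_lit 228) (nat_lit 10132365856) (nat_lit 304) (nat_lit 4590663692) (nat_lit 122) (nat_lit 5) (nat_lit 125) (nat_lit 5) (nat_lit 126) (nat_lit 5) (nat_lit 501) (nat_lit 393) (nat_lit 246)))) (XT.nd (nat_lit 78) (nat_lit 532) (nat_lit 0) (XT.lf (nat_lit 0) (nat_lit 656315557) (nat_lit 304) (nat_lit 2596980500) (nat_lit 76) (nat_lit 15324668874) (nat_lit 121) (nat_lit 5) (nat_lit 125) (nat_lit 5) (nat_lit 122) (nat_lit 5) (nat_lit 502) (nat_lit 393) (nat_lit 245)) (XT.nd (nat_lit 78) (nat_lit 228) (nat_lit 0) (XT.lf (nat_lit 0) (nat_lit 6021858738) (nat_lit 380) (nat_lit 8982625612) (nat_lit 76) (nat_lit 3799492791) (nat_lit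 117) (nat_lit 5) (nat_lit 122) (nat_lit 5) (nat_lit 118) (nat_lit 5) (nat_lit 503) (nat_lit 393) (nat_lit 244)) (XT.lf (nat_lit 0) (nat_lit 3489657219) (nat_lit 228) (nat_lit 8052966100) (nat_lit 304) (nat_lit 7490928063) (nat_lit 114) (nat_lit 5) (nat_lit 117) (nat_lit 5) (nat_lit 118) (nat_lit 5) (nat_lit 504) (nat_lit 393) (nat_lit 243))))))))
noncomputable def xc142 : XT := (XT.nd (nat_lit 1560) (nat_lit 16568) (nat_lit 0) (XT.nd (nat_lit 780) (nat_lit 3344) (nat_lit 0) (XT.nd (nat_lit 390) (nat_lit 1064) (nat_lit 0) (XT.nd (nat_lit 156) (nat_lit 912) (nat_lit 0) (XT.nd (nat_lit 78) (nat_lit 0) (nat_lit 0) (XT.lf (nat_lit 0) (nat_lit 578846109) (nat_lit 988) (nat_lit 1413983604) (nat_lit 988) (nat_lit 1413983604) (nat_lit 725) (nat_lit 3) (nat_lit 738) (nat_lit 3) (nat_lit 738) (nat_lit 5) (nat_lit 394) (nat_lit 394) (nat_lit 352)) (XT.lf (nat_lit 76) (nat_lit 586538669) (nat_lit 0) (nat_lit 2629297864) (nat_lit 988) (nat_lit 3624995021)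 (nat_lit 726) (nat_lit 5) (nat_lit 725) (nat_lit 3) (nat_lit 738) (nat_lit 5) (nat_lit 395) (nat_lit 394) (nat_lit 351))) (XT.nd (nat_lit 78) (nat_lit 912) (nat_lit 0) (XT.lf (nat_lit 76) (nat_lit 4079978366) (nat_lit 0) (nat_lit 1200380426) (nat_lit 988) (nat_lit 1588917477) (nat_lit 726) (nat_lit 5) (nat_lit 725) (nat_lit 3) (nat_lit 738) (nat_lit 5) (nat_lit 396) (nat_lit 394) (nat_lit 350)) (XT.nd (nat_lit 78) (nat_lit 0) (nat_lit 0) (XT.lf (nat_lit 0) (nat_lit 435008281) (nat_lit 988) (nat_lit 6177613407) (nat_lit 1064) (nat_lit 286534333) (nat_lit 713) (nat_lit 5) (nat_lit 726) (nat_lit 5) (nat_lit 727) (nat_lit 5) (nat_lit 397) (nat_lit 394) (nat_lit 349)) (XT.lf (nat_lit 0) (nat_lit 2452910934) (nat_lit 988) (nat_lit 2636317761) (nat_lit 1064) (nat_lit 1840699136) (nat_lit 713) (nat_lit 5) (nat_lit 726) (nat_lit 5) (nat_lit 727) (nat_lit 5) (nat_lit 398) (nat_lit 394) (nat_lit 348))))) (XT.nd (nat_lit 156) (nat_lit 1064) (nat_lit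 0) (XT.nd (nat_lit 78) (nat_lit 0) (nat_lit 0) (XT.lf (nat_lit 76) (nat_lit 960089436) (nat_lit 0) (nat_lit 3506299019) (nat_lit 1064) (nat_lit 2495822287) (nat_lit 714) (nat_lit 5) (nat_lit 713) (nat_lit 5) (nat_lit 727) (nat_lit 5) (nat_lit 399) (nat_lit 394) (nat_lit 347)) (XT.lf (nat_lit 76) (nat_lit 4636040877) (nat_lit 0) (nat_lit 1851586762) (nat_lit 1064) (nat_lit 508161830) (nat_lit 714) (nat_lit 5) (nat_lit 713) (nat_lit 5) (nat_lit 727) (nat_lit 5) (nat_lit 400) (nat_lit 394) (nat_lit 346))) (XT.nd (nat_lit 78) (nat_lit 0) (nat_lit 76) (XT.lf (nat_lit 76) (nat_lit 1334888000) (nat_lit 0) (nat_lit 123564953) (nat_lit 1140) (nat_lit 5572207011) (nat_lit 700) (nat_lit 5) (nat_lit 699) (nat_lit 5) (nat_lit 714) (nat_lit 5) (nat_lit 401) (nat_lit 394) (nat_lit 345)) (XT.nd (nat_lit 78) (nat_lit 0) (nat_lit 0) (XT.lf (nat_lit 0) (nat_lit 3435566904) (nat_lit 1064) (nat_lit 1973769258) (nat_lit 1140) (nat_lit 1657265103) (nat_lit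 700) (nat_lit 5) (nat_lit 714) (nat_lit 5) (nat_lit 715) (nat_lit 5) (nat_lit 402) (nat_lit 394) (nat_lit 344)) (XT.lf (nat_lit 76) (nat_lit 1817107800) (nat_lit 0) (nat_lit 3600067972) (nat_lit 1140) (nat_lit 1686786569) (nat_lit 701) (nat_lit 5) (nat_lit 700) (nat_lit 5) (nat_lit 715) (nat_lit 5) (nat_lit 403) (nat_lit 394) (nat_lit 343)))))) (XT.nd (nat_lit 390) (nat_lit 1140) (nat_lit 0) (XT.nd (nat_lit 156) (nat_lit 1140) (nat_lit 0) (XT.nd (nat_lit 78) (nat_lit 0) (nat_lit 76) (XT.lf (nat_lit 0) (nat_lit 258568311) (nat_lit 1140) (nat_lit 1462278812) (nat_lit 1216) (nat_lit 5421862857) (nat_lit 685) (nat_lit 5) (nat_lit 700) (nat_lit 5) (nat_lit 701) (nat_lit 5) (nat_lit 404) (nat_lit 394) (nat_lit 342)) (XT.lf (nat_lit 0) (nat_lit 2191317991) (nat_lit 1140) (nat_lit 4753134435) (nat_lit 1216) (nat_lit 238135678) (nat_lit 686) (nat_lit 5) (nat_lit 701) (nat_lit 5) (nat_lit 702) (nat_lit 5) (nat_lit 405) (nat_lit 394) (nat_lit 341)))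 (XT.nd (nat_lit 78) (nat_lit 1216) (nat_lit 0) (XT.lf (nat_lit 0) (nat_lit 4138535329) (nat_lit 1140) (nat_lit 844972840) (nat_lit 1216) (nat_lit 2240239368) (nat_lit 686) (nat_lit 5) (nat_lit 701) (nat_lit 5) (nat_lit 702) (nat_lit 5) (nat_lit 406) (nat_lit 394) (nat_lit 340)) (XT.nd (nat_lit 78) (nat_lit 1216) (nat_lit 0) (XT.lf (nat_lit 76) (nat_lit 3154005219) (nat_lit 0) (nat_lit 2946599768) (nat_lit 1216) (nat_lit 1165607012) (nat_lit 687) (nat_lit 5) (nat_lit 686) (nat_lit 5) (nat_lit 702) (nat_lit 5) (nat_lit 407) (nat_lit 394) (nat_lit 339)) (XT.lf (nat_lit 0) (nat_lit 743533913) (nat_lit 1216) (nat_lit 99288188) (nat_lit 1292) (nat_lit 6467370035) (nat_lit 670) (nat_lit 5) (nat_lit 686) (nat_lit 5) (nat_lit 687) (nat_lit 5) (nat_lit 408) (nat_lit 394) (nat_lit 338))))) (XT.nd (nat_lit 156) (nat_lit 1216) (nat_lit 0) (XT.nd (nat_lit 78) (nat_lit 0) (nat_lit 0) (XT.lf (nat_lit 0) (nat_lit 2666775694) (nat_lit 1216) (nat_lit 3353797536)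 (nat_lit 1292) (nat_lit 1334494044) (nat_lit 671) (nat_lit 5) (nat_lit 687) (nat_lit 5) (nat_lit 688) (nat_lit 5) (nat_lit 409) (nat_lit 394) (nat_lit 337)) (XT.lf (nat_lit 76) (nat_lit 759434948) (nat_lit 0) (nat_lit 3837682552) (nat_lit 1292) (nat_lit 2804349710) (nat_lit 672) (nat_lit 5) (nat_lit 671) (nat_lit 5) (nat_lit 688) (nat_lit 5) (nat_lit 410) (nat_lit 394) (nat_lit 336))) (XT.nd (nat_lit 78) (nat_lit 1216) (nat_lit 0) (XT.lf (nat_lit 76) (nat_lit 4971289163) (nat_lit 0) (nat_lit 1575380177) (nat_lit 1292) (nat_lit 902513741) (nat_lit 672) (nat_lit 5) (nat_lit 671) (nat_lit 5) (nat_lit 688) (nat_lit 5) (nat_lit 411) (nat_lit 394) (nat_lit 335)) (XT.nd (nat_lit 78) (nat_lit 0) (nat_lit 0) (XT.lf (nat_lit 0) (nat_lit 998760308) (nat_lit 1292) (nat_lit 5746522398) (nat_lit 1368) (nat_lit 752935728) (nat_lit 655) (nat_lit 5) (nat_lit 672) (nat_lit 5) (nat_lit 673) (nat_lit 5) (nat_lit 412) (nat_lit 394) (nat_lit 334)) (XT.lf (nat_lit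 0) (nat_lit 2912504673) (nat_lit 1292) (nat_lit 1494739178) (nat_lit 1368) (nat_lit 3141140741) (nat_lit 655) (nat_lit 5) (nat_lit 672) (nat_lit 5) (nat_lit 673) (nat_lit 5) (nat_lit 413) (nat_lit 394) (nat_lit 333))))))) (XT.nd (nat_lit 780) (nat_lit 9272) (nat_lit 0) (XT.nd (nat_lit 390) (nat_lit 4636) (nat_lit 0) (XT.nd (nat_lit 156) (nat_lit 2660) (nat_lit 0) (XT.nd (nat_lit 78) (nat_lit 0) (nat_lit 76) (XT.lf (nat_lit 76) (nat_lit 2850261867) (nat_lit 0) (nat_lit 1992912087) (nat_lit 1368) (nat_lit 2756807119) (nat_lit 656) (nat_lit 5) (nat_lit 655) (nat_lit 5) (nat_lit 673) (nat_lit 5) (nat_lit 414) (nat_lit 394) (nat_lit 332)) (XT.lf (nat_lit 0) (nat_lit 6786407153) (nat_lit 1292) (nat_lit 382959699) (nat_lit 76) (nat_lit 483763622) (nat_lit 656) (nat_lit 5) (nat_lit 673) (nat_lit 5) (nat_lit 657) (nat_lit 5) (nat_lit 415) (nat_lit 394) (nat_lit 331))) (XT.nd (nat_lit 78) (nat_lit 1368) (nat_lit 0) (XT.lf (nat_lit 0) (nat_lit 1048528241)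 (nat_lit 1368) (nat_lit 3632013649) (nat_lit 76) (nat_lit 3026637508) (nat_lit 638) (nat_lit 5) (nat_lit 656) (nat_lit 5) (nat_lit 639) (nat_lit 5) (nat_lit 416) (nat_lit 394) (nat_lit 330)) (XT.nd (nat_lit 78) (nat_lit 0) (nat_lit 0) (XT.lf (nat_lit 0) (nat_lit 841073128) (nat_lit 1368) (nat_lit 2119351255) (nat_lit 1444) (nat_lit 4802371437) (nat_lit 620) (nat_lit 5) (nat_lit 638) (nat_lit 5) (nat_lit 639) (nat_lit 5) (nat_lit 417) (nat_lit 394) (nat_lit 329)) (XT.lf (nat_lit 0) (nat_lit 4900789805) (nat_lit 1444) (nat_lit 2399742480) (nat_lit 76) (nat_lit 519187658) (nat_lit 620) (nat_lit 5) (nat_lit 639) (nat_lit 5) (nat_lit 621) (nat_lit 5) (nat_lit 418) (nat_lit 394) (nat_lit 328))))) (XT.nd (nat_lit 156) (nat_lit 3116) (nat_lit 0) (XT.nd (nat_lit 78) (nat_lit 76) (nat_lit 0) (XT.lf (nat_lit 0) (nat_lit 2197862154) (nat_lit 1444) (nat_lit 4673637105) (nat_lit 1520) (nat_lit 1006452556) (nat_lit 601) (nat_lit 5) (nat_lit 620) (nat_lit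 5) (nat_lit 621) (nat_lit 5) (nat_lit 419) (nat_lit 394) (nat_lit 327)) (XT.lf (nat_lit 0) (nat_lit 911621746) (nat_lit 1520) (nat_lit 1053210848) (nat_lit 76) (nat_lit 5972798483) (nat_lit 600) (nat_lit 5) (nat_lit 620) (nat_lit 5) (nat_lit 601) (nat_lit 5) (nat_lit 420) (nat_lit 394) (nat_lit 326))) (XT.nd (nat_lit 78) (nat_lit 1596) (nat_lit 0) (XT.lf (nat_lit 0) (nat_lit 2848139739) (nat_lit 1596) (nat_lit 4325559323) (nat_lit 76) (nat_lit 824800637) (nat_lit 580) (nat_lit 5) (nat_lit 601) (nat_lit 5) (nat_lit 581) (nat_lit 5) (nat_lit 421) (nat_lit 394) (nat_lit 325)) (XT.nd (nat_lit 78) (nat_lit 0) (nat_lit 0) (XT.lf (nat_lit 0) (nat_lit 409902872) (nat_lit 1596) (nat_lit 4401061743) (nat_lit 1672) (nat_lit 3249869548) (nat_lit 559) (nat_lit 5) (nat_lit 580) (nat_lit 5) (nat_lit 581) (nat_lit 5) (nat_lit 422) (nat_lit 394) (nat_lit 324)) (XT.lf (nat_lit 0) (nat_lit 5269043891) (nat_lit 1596) (nat_lit 1538315318) (nat_lit 1672) (nat_lit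 1317169843) (nat_lit 559) (nat_lit 5) (nat_lit 580) (nat_lit 5) (nat_lit 581) (nat_lit 5) (nat_lit 423) (nat_lit 394) (nat_lit 323)))))) (XT.nd (nat_lit 390) (nat_lit 3876) (nat_lit 0) (XT.nd (nat_lit 156) (nat_lit 3648) (nat_lit 0) (XT.nd (nat_lit 78) (nat_lit 0) (nat_lit 0) (XT.lf (nat_lit 0) (nat_lit 633634263) (nat_lit 1748) (nat_lit 6170260442) (nat_lit 76) (nat_lit 1385757583) (nat_lit 536) (nat_lit 5) (nat_lit 559) (nat_lit 5) (nat_lit 537) (nat_lit 5) (nat_lit 424) (nat_lit 394) (nat_lit 322)) (XT.lf (nat_lit 0) (nat_lit 2601561969) (nat_lit 1748) (nat_lit 1274307031) (nat_lit 76) (nat_lit 4380119969) (nat_lit 536) (nat_lit 5) (nat_lit 559) (nat_lit 5) (nat_lit 537) (nat_lit 5) (nat_lit 425) (nat_lit 394) (nat_lit 321))) (XT.nd (nat_lit 78) (nat_lit 1900) (nat_lit 0) (XT.lf (nat_lit 0) (nat_lit 3739146070) (nat_lit 1748) (nat_lit 860892616) (nat_lit 1824) (nat_lit 3723789890) (nat_lit 513) (nat_lit 5) (nat_lit 536) (nat_lit 5)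 (nat_lit 537) (nat_lit 5) (nat_lit 426) (nat_lit 394) (nat_lit 320)) (XT.nd (nat_lit 78) (nat_lit 76) (nat_lit 0) (XT.lf (nat_lit 0) (nat_lit 438667650) (nat_lit 1824) (nat_lit 6193044577) (nat_lit 1900) (nat_lit 1761448202) (nat_lit 489) (nat_lit 5) (nat_lit 513) (nat_lit 5) (nat_lit 514) (nat_lit 5) (nat_lit 427) (nat_lit 394) (nat_lit 319)) (XT.lf (nat_lit 0) (nat_lit 241288755) (nat_lit 1900) (nat_lit 2876269167) (nat_lit 76) (nat_lit 5346203857) (nat_lit 488) (nat_lit 5) (nat_lit 513) (nat_lit 5) (nat_lit 489) (nat_lit 5) (nat_lit 428) (nat_lit 394) (nat_lit 318))))) (XT.nd (nat_lit 234) (nat_lit 1824) (nat_lit 0) (XT.nd (nat_lit 78) (nat_lit 912) (nat_lit 0) (XT.lf (nat_lit 0) (nat_lit 2243978135) (nat_lit 1216) (nat_lit 6243858015) (nat_lit 76) (nat_lit 48036471) (nat_lit 473) (nat_lit 5) (nat_lit 489) (nat_lit 5) (nat_lit 474) (nat_lit 5) (nat_lit 429) (nat_lit 394) (nat_lit 317)) (XT.nd (nat_lit 78) (nat_lit 912) (nat_lit 0)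 (XT.lf (nat_lit 0) (nat_lit 4295502493) (nat_lit 1216) (nat_lit 1057186050) (nat_lit 76) (nat_lit 3256561514) (nat_lit 473) (nat_lit 5) (nat_lit 489) (nat_lit 5) (nat_lit 474) (nat_lit 5) (nat_lit 430) (nat_lit 394) (nat_lit 316)) (XT.lf (nat_lit 0) (nat_lit 4259649010) (nat_lit 912) (nat_lit 2125384410) (nat_lit 988) (nat_lit 2299122100) (nat_lit 461) (nat_lit 5) (nat_lit 473) (nat_lit 5) (nat_lit 474) (nat_lit 5) (nat_lit 431) (nat_lit 394) (nat_lit 315)))) (XT.nd (nat_lit 78) (nat_lit 912) (nat_lit 0) (XT.lf (nat_lit 0) (nat_lit 911209443) (nat_lit 912) (nat_lit 7595514414) (nat_lit 988) (nat_lit 254027858) (nat_lit 449) (nat_lit 5) (nat_lit 461) (nat_lit 5) (nat_lit 462) (nat_lit 5) (nat_lit 432) (nat_lit 394) (nat_lit 314)) (XT.nd (nat_lit 78) (nat_lit 836) (nat_lit 0) (XT.lf (nat_lit 0) (nat_lit 1821845507) (nat_lit 988) (nat_lit 2480895161) (nat_lit 76) (nat_lit 4535623201) (nat_lit 448) (nat_lit 5) (nat_lit 461) (nat_lit 5) (nat_lit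 449) (nat_lit 5) (nat_lit 433) (nat_lit 394) (nat_lit 313)) (XT.lf (nat_lit 0) (nat_lit 3003363779) (nat_lit 836) (nat_lit 922504573) (nat_lit 912) (nat_lit 4991825663) (nat_lit 437) (nat_lit 5) (nat_lit 448) (nat_lit 5) (nat_lit 449) (nat_lit 5) (nat_lit 434) (nat_lit 394) (nat_lit 312))))))))
noncomputable def xc143 : XT := (XT.nd (nat_lit 1638) (nat_lit 7676) (nat_lit 0) (XT.nd (nat_lit 780) (nat_lit 4940) (nat_lit 0) (XT.nd (nat_lit 390) (nat_lit 2356) (nat_lit 0) (XT.nd (nat_lit 156) (nat_lit 1748) (nat_lit 0) (XT.nd (nat_lit 78) (nat_lit 912) (nat_lit 0) (XT.lf (nat_lit 0) (nat_lit 6076043125) (nat_lit 912) (nat_lit 413702106) (nat_lit 76) (nat_lit 2508784104) (nat_lit 437) (nat_lit 5) (nat_lit 449) (nat_lit 5) (nat_lit 438) (nat_lit 5) (nat_lit 435) (nat_lit 394) (nat_lit 311)) (XT.lf (nat_lit 0) (nat_lit 5230154109) (nat_lit 912) (nat_lit 3050621418) (nat_lit 988) (nat_lit 799974751) (nat_lit 425) (nat_lit 5) (nat_lit 437) (nat_lit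 5) (nat_lit 438) (nat_lit 5) (nat_lit 436) (nat_lit 394) (nat_lit 310))) (XT.nd (nat_lit 78) (nat_lit 836) (nat_lit 0) (XT.lf (nat_lit 0) (nat_lit 1336441103) (nat_lit 912) (nat_lit 7354446730) (nat_lit 76) (nat_lit 473763435) (nat_lit 413) (nat_lit 5) (nat_lit 425) (nat_lit 5) (nat_lit 414) (nat_lit 5) (nat_lit 437) (nat_lit 394) (nat_lit 309)) (XT.nd (nat_lit 78) (nat_lit 836) (nat_lit 0) (XT.lf (nat_lit 0) (nat_lit 3523125261) (nat_lit 912) (nat_lit 1668778719) (nat_lit 76) (nat_lit 4057855508) (nat_lit 413) (nat_lit 5) (nat_lit 425) (nat_lit 5) (nat_lit 414) (nat_lit 5) (nat_lit 438) (nat_lit 394) (nat_lit 308)) (XT.lf (nat_lit 0) (nat_lit 4155881731) (nat_lit 836) (nat_lit 1597220773) (nat_lit 912) (nat_lit 3583476181) (nat_lit 402) (nat_lit 5) (nat_lit 413) (nat_lit 5) (nat_lit 414) (nat_lit 5) (nat_lit 439) (nat_lit 394) (nat_lit 307))))) (XT.nd (nat_lit 156) (nat_lit 1520) (nat_lit 0) (XT.nd (nat_lit 78) (nat_lit 76) (nat_lit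 0) (XT.lf (nat_lit 0) (nat_lit 660333892) (nat_lit 760) (nat_lit 7369254048) (nat_lit 836) (nat_lit 1395508153) (nat_lit 392) (nat_lit 5) (nat_lit 402) (nat_lit 5) (nat_lit 403) (nat_lit 5) (nat_lit 440) (nat_lit 394) (nat_lit 306)) (XT.lf (nat_lit 0) (nat_lit 843901580) (nat_lit 836) (nat_lit 2872240471) (nat_lit 76) (nat_lit 5798760221) (nat_lit 391) (nat_lit 5) (nat_lit 402) (nat_lit 5) (nat_lit 392) (nat_lit 5) (nat_lit 441) (nat_lit 394) (nat_lit 305))) (XT.nd (nat_lit 78) (nat_lit 760) (nat_lit 0) (XT.lf (nat_lit 0) (nat_lit 3103672115) (nat_lit 836) (nat_lit 6465742413) (nat_lit 76) (nat_lit 37020392) (nat_lit 381) (nat_lit 5) (nat_lit 392) (nat_lit 5) (nat_lit 382) (nat_lit 5) (nat_lit 442) (nat_lit 394) (nat_lit 304)) (XT.nd (nat_lit 78) (nat_lit 760) (nat_lit 0) (XT.lf (nat_lit 0) (nat_lit 5426565386) (nat_lit 836) (nat_lit 440786318) (nat_lit 76) (nat_lit 3832087971) (nat_lit 381) (nat_lit 5) (nat_lit 392) (nat_lit 5) (nat_lit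 382) (nat_lit 5) (nat_lit 443) (nat_lit 394) (nat_lit 303)) (XT.lf (nat_lit 0) (nat_lit 5751220875) (nat_lit 760) (nat_lit 2056463078) (nat_lit 836) (nat_lit 1986385222) (nat_lit 371) (nat_lit 5) (nat_lit 381) (nat_lit 5) (nat_lit 382) (nat_lit 5) (nat_lit 444) (nat_lit 394) (nat_lit 302)))))) (XT.nd (nat_lit 390) (nat_lit 2736) (nat_lit 0) (XT.nd (nat_lit 156) (nat_lit 1368) (nat_lit 0) (XT.nd (nat_lit 78) (nat_lit 0) (nat_lit 0) (XT.lf (nat_lit 0) (nat_lit 344993532) (nat_lit 836) (nat_lit 7722892483) (nat_lit 76) (nat_lit 1822586433) (nat_lit 360) (nat_lit 5) (nat_lit 371) (nat_lit 5) (nat_lit 361) (nat_lit 5) (nat_lit 445) (nat_lit 394) (nat_lit 301)) (XT.lf (nat_lit 0) (nat_lit 2712217083) (nat_lit 836) (nat_lit 1487507438) (nat_lit 76) (nat_lit 5788500365) (nat_lit 360) (nat_lit 5) (nat_lit 371) (nat_lit 5) (nat_lit 361) (nat_lit 5) (nat_lit 446) (nat_lit 394) (nat_lit 300))) (XT.nd (nat_lit 78) (nat_lit 684) (nat_lit 0) (XT.lf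 (nat_lit 0) (nat_lit 4908220821) (nat_lit 684) (nat_lit 225786404) (nat_lit 760) (nat_lit 4953780705) (nat_lit 351) (nat_lit 5) (nat_lit 360) (nat_lit 5) (nat_lit 361) (nat_lit 5) (nat_lit 447) (nat_lit 394) (nat_lit 299)) (XT.nd (nat_lit 78) (nat_lit 0) (nat_lit 0) (XT.lf (nat_lit 0) (nat_lit 1225026111) (nat_lit 684) (nat_lit 6397685637) (nat_lit 760) (nat_lit 2566260917) (nat_lit 342) (nat_lit 5) (nat_lit 351) (nat_lit 5) (nat_lit 352) (nat_lit 5) (nat_lit 448) (nat_lit 394) (nat_lit 298)) (XT.lf (nat_lit 0) (nat_lit 7797589979) (nat_lit 684) (nat_lit 2375759596) (nat_lit 760) (nat_lit 118588334) (nat_lit 342) (nat_lit 5) (nat_lit 351) (nat_lit 5) (nat_lit 352) (nat_lit 5) (nat_lit 449) (nat_lit 394) (nat_lit 297))))) (XT.nd (nat_lit 234) (nat_lit 1292) (nat_lit 0) (XT.nd (nat_lit 78) (nat_lit 684) (nat_lit 0) (XT.lf (nat_lit 0) (nat_lit 2361254307) (nat_lit 760) (nat_lit 6293453730) (nat_lit 76) (nat_lit 1741657526) (nat_lit 332)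 (nat_lit 5) (nat_lit 342) (nat_lit 5) (nat_lit 333) (nat_lit 5) (nat_lit 450) (nat_lit 394) (nat_lit 296)) (XT.nd (nat_lit 78) (nat_lit 0) (nat_lit 0) (XT.lf (nat_lit 0) (nat_lit 322159486) (nat_lit 684) (nat_lit 4578104350) (nat_lit 760) (nat_lit 5602379097) (nat_lit 323) (nat_lit 5) (nat_lit 332) (nat_lit 5) (nat_lit 333) (nat_lit 5) (nat_lit 451) (nat_lit 394) (nat_lit 295)) (XT.lf (nat_lit 0) (nat_lit 7126766662) (nat_lit 684) (nat_lit 382276579) (nat_lit 760) (nat_lit 3101622816) (nat_lit 323) (nat_lit 5) (nat_lit 332) (nat_lit 5) (nat_lit 333) (nat_lit 5) (nat_lit 452) (nat_lit 394) (nat_lit 294)))) (XT.nd (nat_lit 78) (nat_lit 684) (nat_lit 0) (XT.lf (nat_lit 0) (nat_lit 3336583420) (nat_lit 608) (nat_lit 6857561833) (nat_lit 684) (nat_lit 526221452) (nat_lit 315) (nat_lit 5) (nat_lit 323) (nat_lit 5) (nat_lit 324) (nat_lit 5) (nat_lit 453) (nat_lit 394) (nat_lit 293)) (XT.nd (nat_lit 78) (nat_lit 608) (nat_lit 0) (XT.lf (nat_lit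 0) (nat_lit 2076495397) (nat_lit 684) (nat_lit 536020445) (nat_lit 76) (nat_lit 8219405573) (nat_lit 314) (nat_lit 5) (nat_lit 323) (nat_lit 5) (nat_lit 315) (nat_lit 5) (nat_lit 454) (nat_lit 394) (nat_lit 292)) (XT.lf (nat_lit 0) (nat_lit 4755599480) (nat_lit 684) (nat_lit 4454202044) (nat_lit 76) (nat_lit 1735208551) (nat_lit 306) (nat_lit 5) (nat_lit 315) (nat_lit 5) (nat_lit 307) (nat_lit 5) (nat_lit 455) (nat_lit 394) (nat_lit 291))))))) (XT.nd (nat_lit 780) (nat_lit 3572) (nat_lit 0) (XT.nd (nat_lit 390) (nat_lit 2280) (nat_lit 0) (XT.nd (nat_lit 156) (nat_lit 1216) (nat_lit 0) (XT.nd (nat_lit 78) (nat_lit 0) (nat_lit 0) (XT.lf (nat_lit 0) (nat_lit 2593581418) (nat_lit 608) (nat_lit 4910421691) (nat_lit 684) (nat_lit 3556043049) (nat_lit 298) (nat_lit 5) (nat_lit 306) (nat_lit 5) (nat_lit 307) (nat_lit 5) (nat_lit 456) (nat_lit 394) (nat_lit 290)) (XT.lf (nat_lit 0) (nat_lit 9814625319) (nat_lit 608) (nat_lit 500845483) (nat_lit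 684) (nat_lit 861750240) (nat_lit 298) (nat_lit 5) (nat_lit 306) (nat_lit 5) (nat_lit 307) (nat_lit 5) (nat_lit 457) (nat_lit 394) (nat_lit 289))) (XT.nd (nat_lit 78) (nat_lit 532) (nat_lit 0) (XT.lf (nat_lit 0) (nat_lit 1904867550) (nat_lit 684) (nat_lit 5401452699) (nat_lit 76) (nat_lit 3989310617) (nat_lit 289) (nat_lit 5) (nat_lit 298) (nat_lit 5) (nat_lit 290) (nat_lit 5) (nat_lit 458) (nat_lit 394) (nat_lit 288)) (XT.nd (nat_lit 78) (nat_lit 0) (nat_lit 0) (XT.lf (nat_lit 0) (nat_lit 1885972807) (nat_lit 532) (nat_lit 2832775832) (nat_lit 608) (nat_lit 6697476928) (nat_lit 282) (nat_lit 5) (nat_lit 289) (nat_lit 5) (nat_lit 290) (nat_lit 5) (nat_lit 459) (nat_lit 394) (nat_lit 287)) (XT.lf (nat_lit 0) (nat_lit 7615513973) (nat_lit 608) (nat_lit 2185819035) (nat_lit 76) (nat_lit 1737367022) (nat_lit 282) (nat_lit 5) (nat_lit 290) (nat_lit 5) (nat_lit 283) (nat_lit 5) (nat_lit 460) (nat_lit 394) (nat_lit 286))))) (XT.nd (nat_lit 156)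 (nat_lit 1064) (nat_lit 0) (XT.nd (nat_lit 78) (nat_lit 608) (nat_lit 0) (XT.lf (nat_lit 0) (nat_lit 5328984007) (nat_lit 608) (nat_lit 5273890134) (nat_lit 684) (nat_lit 1060096651) (nat_lit 274) (nat_lit 5) (nat_lit 282) (nat_lit 5) (nat_lit 283) (nat_lit 5) (nat_lit 461) (nat_lit 394) (nat_lit 285)) (XT.lf (nat_lit 0) (nat_lit 1210234349) (nat_lit 532) (nat_lit 627637484) (nat_lit 608) (nat_lit 9951573277) (nat_lit 266) (nat_lit 5) (nat_lit 273) (nat_lit 5) (nat_lit 274) (nat_lit 5) (nat_lit 462) (nat_lit 394) (nat_lit 284))) (XT.nd (nat_lit 78) (nat_lit 1064) (nat_lit 0) (XT.lf (nat_lit 0) (nat_lit 4828669616) (nat_lit 608) (nat_lit 2988317251) (nat_lit 76) (nat_lit 4100340613) (nat_lit 266) (nat_lit 5) (nat_lit 274) (nat_lit 5) (nat_lit 267) (nat_lit 5) (nat_lit 463) (nat_lit 394) (nat_lit 283)) (XT.nd (nat_lit 78) (nat_lit 532) (nat_lit 0) (XT.lf (nat_lit 0) (nat_lit 4785629086) (nat_lit 532) (nat_lit 3108853495) (nat_lit 608) (nat_lit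 4152980930) (nat_lit 259) (nat_lit 5) (nat_lit 266) (nat_lit 5) (nat_lit 267) (nat_lit 5) (nat_lit 464) (nat_lit 394) (nat_lit 282)) (XT.lf (nat_lit 0) (nat_lit 544229348) (nat_lit 532) (nat_lit 10492236353) (nat_lit 608) (nat_lit 1143439485) (nat_lit 252) (nat_lit 5) (nat_lit 259) (nat_lit 5) (nat_lit 260) (nat_lit 5) (nat_lit 465) (nat_lit 394) (nat_lit 281)))))) (XT.nd (nat_lit 390) (nat_lit 1900) (nat_lit 0) (XT.nd (nat_lit 156) (nat_lit 1064) (nat_lit 0) (XT.nd (nat_lit 78) (nat_lit 532) (nat_lit 0) (XT.lf (nat_lit 0) (nat_lit 1950892117) (nat_lit 608) (nat_lit 3770211329) (nat_lit 76) (nat_lit 6592644852) (nat_lit 251) (nat_lit 5) (nat_lit 259) (nat_lit 5) (nat_lit 252) (nat_lit 5) (nat_lit 466) (nat_lit 394) (nat_lit 280)) (XT.lf (nat_lit 0) (nat_lit 4273962636) (nat_lit 532) (nat_lit 826209713) (nat_lit 608) (nat_lit 7349777307) (nat_lit 244) (nat_lit 5) (nat_lit 251) (nat_lit 5) (nat_lit 252) (nat_lit 5) (nat_lit 467) (nat_lit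 394) (nat_lit 279))) (XT.nd (nat_lit 78) (nat_lit 1064) (nat_lit 0) (XT.lf (nat_lit 0) (nat_lit 8345722432) (nat_lit 608) (nat_lit 112699130) (nat_lit 76) (nat_lit 4129787795) (nat_lit 244) (nat_lit 5) (nat_lit 252) (nat_lit 5) (nat_lit 245) (nat_lit 5) (nat_lit 468) (nat_lit 394) (nat_lit 278)) (XT.nd (nat_lit 78) (nat_lit 608) (nat_lit 0) (XT.lf (nat_lit 0) (nat_lit 8187055068) (nat_lit 456) (nat_lit 3508897375) (nat_lit 532) (nat_lit 1032486431) (nat_lit 238) (nat_lit 5) (nat_lit 244) (nat_lit 5) (nat_lit 245) (nat_lit 5) (nat_lit 469) (nat_lit 394) (nat_lit 277)) (XT.lf (nat_lit 0) (nat_lit 2229114531) (nat_lit 608) (nat_lit 9089997813) (nat_lit 76) (nat_lit 1551733523) (nat_lit 230) (nat_lit 5) (nat_lit 238) (nat_lit 5) (nat_lit 231) (nat_lit 5) (nat_lit 470) (nat_lit 394) (nat_lit 276))))) (XT.nd (nat_lit 234) (nat_lit 988) (nat_lit 0) (XT.nd (nat_lit 78) (nat_lit 912) (nat_lit 0) (XT.lf (nat_lit 0) (nat_lit 5577409180) (nat_lit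 608) (nat_lit 741604628) (nat_lit 76) (nat_lit 6696244965) (nat_lit 230) (nat_lit 5) (nat_lit 238) (nat_lit 5) (nat_lit 231) (nat_lit 5) (nat_lit 471) (nat_lit 394) (nat_lit 275)) (XT.nd (nat_lit 78) (nat_lit 456) (nat_lit 0) (XT.lf (nat_lit 0) (nat_lit 7850322533) (nat_lit 456) (nat_lit 1175041307) (nat_lit 532) (nat_lit 4136542215) (nat_lit 224) (nat_lit 5) (nat_lit 230) (nat_lit 5) (nat_lit 231) (nat_lit 5) (nat_lit 472) (nat_lit 394) (nat_lit 274)) (XT.lf (nat_lit 0) (nat_lit 3303077134) (nat_lit 456) (nat_lit 9273952572) (nat_lit 532) (nat_lit 733761535) (nat_lit 218) (nat_lit 5) (nat_lit 224) (nat_lit 5) (nat_lit 225) (nat_lit 5) (nat_lit 473) (nat_lit 394) (nat_lit 273)))) (XT.nd (nat_lit 78) (nat_lit 912) (nat_lit 0) (XT.lf (nat_lit 0) (nat_lit 2726764442) (nat_lit 532) (nat_lit 1352292299) (nat_lit 76) (nat_lit 9382730232) (nat_lit 217) (nat_lit 5) (nat_lit 224) (nat_lit 5) (nat_lit 218) (nat_lit 5) (nat_lit 474) (nat_lit 394)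 (nat_lit 272)) (XT.nd (nat_lit 78) (nat_lit 456) (nat_lit 0) (XT.lf (nat_lit 0) (nat_lit 6286169031) (nat_lit 532) (nat_lit 6079050901) (nat_lit 76) (nat_lit 1249695821) (nat_lit 211) (nat_lit 5) (nat_lit 218) (nat_lit 5) (nat_lit 212) (nat_lit 5) (nat_lit 475) (nat_lit 394) (nat_lit 271)) (XT.lf (nat_lit 0) (nat_lit 2833075944) (nat_lit 456) (nat_lit 7120633309) (nat_lit 532) (nat_lit 3816658907) (nat_lit 205) (nat_lit 5) (nat_lit 211) (nat_lit 5) (nat_lit 212) (nat_lit 5) (nat_lit 476) (nat_lit 394) (nat_lit 270))))))))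
noncomputable def xc144 : XT := (XT.nd (nat_lit 1560) (nat_lit 1292) (nat_lit 0) (XT.nd (nat_lit 780) (nat_lit 2508) (nat_lit 0) (XT.nd (nat_lit 390) (nat_lit 1216) (nat_lit 0) (XT.nd (nat_lit 156) (nat_lit 912) (nat_lit 0) (XT.nd (nat_lit 78) (nat_lit 456) (nat_lit 0) (XT.lf (nat_lit 0) (nat_lit 11979823961) (nat_lit 456) (nat_lit 1738151002) (nat_lit 532) (nat_lit 210487156) (nat_lit 205) (nat_lit 5) (nat_lit 211) (nat_lit 5) (nat_lit 212) (nat_lit 5) (nat_lit 477) (nat_lit 394) (nat_lit 269)) (XT.lf (nat_lit 0) (nat_lit 3477084123) (nat_lit 456) (nat_lit 6846597355) (nat_lit 76) (nat_lit 3764491034) (nat_lit 199) (nat_lit 5) (nat_lit 205) (nat_lit 5) (nat_lit 200) (nat_lit 5) (nat_lit 478) (nat_lit 394) (nat_lit 268))) (XT.nd (nat_lit 78) (nat_lit 456) (nat_lit 0) (XT.lf (nat_lit 0) (nat_lit 2383603196) (nat_lit 456) (nat_lit 4875062695) (nat_lit 532) (nat_lit 6991921845) (nat_lit 193) (nat_lit 5) (nat_lit 199) (nat_lit 5) (nat_lit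 200) (nat_lit 5) (nat_lit 479) (nat_lit 394) (nat_lit 267)) (XT.nd (nat_lit 78) (nat_lit 456) (nat_lit 0) (XT.lf (nat_lit 0) (nat_lit 11149595268) (nat_lit 532) (nat_lit 2554822055) (nat_lit 76) (nat_lit 711159622) (nat_lit 193) (nat_lit 5) (nat_lit 200) (nat_lit 5) (nat_lit 194) (nat_lit 5) (nat_lit 480) (nat_lit 394) (nat_lit 266)) (XT.lf (nat_lit 0) (nat_lit 588826590) (nat_lit 456) (nat_lit 7609172994) (nat_lit 76) (nat_lit 6384569770) (nat_lit 187) (nat_lit 5) (nat_lit 193) (nat_lit 5) (nat_lit 188) (nat_lit 5) (nat_lit 481) (nat_lit 394) (nat_lit 265))))) (XT.nd (nat_lit 156) (nat_lit 836) (nat_lit 0) (XT.nd (nat_lit 78) (nat_lit 0) (nat_lit 0) (XT.lf (nat_lit 0) (nat_lit 1952605126) (nat_lit 380) (nat_lit 2537792082) (nat_lit 456) (nat_lit 10261804686) (nat_lit 182) (nat_lit 5) (nat_lit 187) (nat_lit 5) (nat_lit 188) (nat_lit 5) (nat_lit 482) (nat_lit 394) (nat_lit 264)) (XT.lf (nat_lit 0) (nat_lit 8525930748) (nat_lit 456) (nat_lit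 3162403991) (nat_lit 76) (nat_lit 3235773717) (nat_lit 182) (nat_lit 5) (nat_lit 188) (nat_lit 5) (nat_lit 183) (nat_lit 5) (nat_lit 483) (nat_lit 394) (nat_lit 263))) (XT.nd (nat_lit 78) (nat_lit 456) (nat_lit 0) (XT.lf (nat_lit 0) (nat_lit 6713663900) (nat_lit 380) (nat_lit 5972754253) (nat_lit 456) (nat_lit 2412150131) (nat_lit 177) (nat_lit 5) (nat_lit 182) (nat_lit 5) (nat_lit 183) (nat_lit 5) (nat_lit 484) (nat_lit 394) (nat_lit 262)) (XT.nd (nat_lit 78) (nat_lit 0) (nat_lit 0) (XT.lf (nat_lit 0) (nat_lit 1538162085) (nat_lit 380) (nat_lit 108993244) (nat_lit 456) (nat_lit 13628842364) (nat_lit 171) (nat_lit 5) (nat_lit 176) (nat_lit 5) (nat_lit 177) (nat_lit 5) (nat_lit 485) (nat_lit 394) (nat_lit 261)) (XT.lf (nat_lit 0) (nat_lit 5834133959) (nat_lit 456) (nat_lit 3762229832) (nat_lit 76) (nat_lit 5858717296) (nat_lit 171) (nat_lit 5) (nat_lit 177) (nat_lit 5) (nat_lit 172) (nat_lit 5) (nat_lit 486) (nat_lit 394) (nat_lit 260))))))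 (XT.nd (nat_lit 390) (nat_lit 1064) (nat_lit 0) (XT.nd (nat_lit 156) (nat_lit 760) (nat_lit 0) (XT.nd (nat_lit 78) (nat_lit 380) (nat_lit 0) (XT.lf (nat_lit 0) (nat_lit 6472290102) (nat_lit 304) (nat_lit 3659610788) (nat_lit 380) (nat_lit 5505304287) (nat_lit 167) (nat_lit 5) (nat_lit 171) (nat_lit 5) (nat_lit 172) (nat_lit 5) (nat_lit 487) (nat_lit 394) (nat_lit 259)) (XT.lf (nat_lit 0) (nat_lit 1114069358) (nat_lit 380) (nat_lit 13434150237) (nat_lit 456) (nat_lit 1274100223) (nat_lit 162) (nat_lit 5) (nat_lit 167) (nat_lit 5) (nat_lit 168) (nat_lit 5) (nat_lit 488) (nat_lit 394) (nat_lit 258))) (XT.nd (nat_lit 78) (nat_lit 684) (nat_lit 0) (XT.lf (nat_lit 0) (nat_lit 3072416773) (nat_lit 456) (nat_lit 4356326456) (nat_lit 76) (nat_lit 8580586913) (nat_lit 161) (nat_lit 5) (nat_lit 167) (nat_lit 5) (nat_lit 162) (nat_lit 5) (nat_lit 489) (nat_lit 394) (nat_lit 257)) (XT.nd (nat_lit 78) (nat_lit 380) (nat_lit 0) (XT.lf (nat_lit 0) (nat_lit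 6251785684) (nat_lit 304) (nat_lit 1262367193) (nat_lit 380) (nat_lit 8685252379) (nat_lit 157) (nat_lit 5) (nat_lit 161) (nat_lit 5) (nat_lit 162) (nat_lit 5) (nat_lit 490) (nat_lit 394) (nat_lit 256)) (XT.lf (nat_lit 0) (nat_lit 690142586) (nat_lit 380) (nat_lit 11405954387) (nat_lit 456) (nat_lit 4296157434) (nat_lit 152) (nat_lit 5) (nat_lit 157) (nat_lit 5) (nat_lit 158) (nat_lit 5) (nat_lit 491) (nat_lit 394) (nat_lit 255))))) (XT.nd (nat_lit 156) (nat_lit 684) (nat_lit 0) (XT.nd (nat_lit 78) (nat_lit 304) (nat_lit 0) (XT.lf (nat_lit 0) (nat_lit 238769925) (nat_lit 456) (nat_lit 4946626752) (nat_lit 76) (nat_lit 11402331983) (nat_lit 151) (nat_lit 5) (nat_lit 157) (nat_lit 5) (nat_lit 152) (nat_lit 5) (nat_lit 492) (nat_lit 394) (nat_lit 254)) (XT.lf (nat_lit 0) (nat_lit 4839289114) (nat_lit 380) (nat_lit 10743145057) (nat_lit 76) (nat_lit 1203461899) (nat_lit 147) (nat_lit 5) (nat_lit 152) (nat_lit 5) (nat_lit 148) (nat_lit 5)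 (nat_lit 493) (nat_lit 394) (nat_lit 253))) (XT.nd (nat_lit 78) (nat_lit 380) (nat_lit 0) (XT.lf (nat_lit 0) (nat_lit 276549362) (nat_lit 304) (nat_lit 9310057304) (nat_lit 380) (nat_lit 7400324402) (nat_lit 143) (nat_lit 5) (nat_lit 147) (nat_lit 5) (nat_lit 148) (nat_lit 5) (nat_lit 494) (nat_lit 394) (nat_lit 252)) (XT.nd (nat_lit 78) (nat_lit 380) (nat_lit 0) (XT.lf (nat_lit 0) (nat_lit 11638298887) (nat_lit 304) (nat_lit 2848035462) (nat_lit 380) (nat_lit 2704503142) (nat_lit 143) (nat_lit 5) (nat_lit 147) (nat_lit 5) (nat_lit 148) (nat_lit 5) (nat_lit 495) (nat_lit 394) (nat_lit 251)) (XT.lf (nat_lit 0) (nat_lit 2106135458) (nat_lit 380) (nat_lit 11554465213) (nat_lit 76) (nat_lit 3736985614) (nat_lit 138) (nat_lit 5) (nat_lit 143) (nat_lit 5) (nat_lit 139) (nat_lit 5) (nat_lit 496) (nat_lit 394) (nat_lit 250))))))) (XT.nd (nat_lit 51636) (nat_lit 0) (nat_lit 41724) (XT.nd (nat_lit 390) (nat_lit 304) (nat_lit 0) (XT.nd (nat_lit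 156) (nat_lit 684) (nat_lit 0) (XT.nd (nat_lit 78) (nat_lit 304) (nat_lit 0) (XT.lf (nat_lit 0) (nat_lit 7018809634) (nat_lit 380) (nat_lit 126540607) (nat_lit 76) (nat_lit 10461921557) (nat_lit 138) (nat_lit 5) (nat_lit 143) (nat_lit 5) (nat_lit 139) (nat_lit 5) (nat_lit 497) (nat_lit 394) (nat_lit 249)) (XT.lf (nat_lit 0) (nat_lit 11659568365) (nat_lit 304) (nat_lit 431786140) (nat_lit 380) (nat_lit 5728564171) (nat_lit 134) (nat_lit 5) (nat_lit 138) (nat_lit 5) (nat_lit 139) (nat_lit 5) (nat_lit 498) (nat_lit 394) (nat_lit 248))) (XT.nd (nat_lit 78) (nat_lit 380) (nat_lit 0) (XT.lf (nat_lit 0) (nat_lit 5655465071) (nat_lit 304) (nat_lit 11675098154) (nat_lit 380) (nat_lit 704951008) (nat_lit 130) (nat_lit 5) (nat_lit 134) (nat_lit 5) (nat_lit 135) (nat_lit 5) (nat_lit 499) (nat_lit 394) (nat_lit 247)) (XT.nd (nat_lit 78) (nat_lit 304) (nat_lit 0) (XT.lf (nat_lit 0) (nat_lit 4391663240) (nat_lit 380) (nat_lit 518708210) (nat_lit 76)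 (nat_lit 13343866680) (nat_lit 129) (nat_lit 5) (nat_lit 134) (nat_lit 5) (nat_lit 130) (nat_lit 5) (nat_lit 500) (nat_lit 394) (nat_lit 246)) (XT.lf (nat_lit 0) (nat_lit 9656461844) (nat_lit 380) (nat_lit 6783606746) (nat_lit 76) (nat_lit 2035660895) (nat_lit 125) (nat_lit 5) (nat_lit 130) (nat_lit 5) (nat_lit 126) (nat_lit 5) (nat_lit 501) (nat_lit 394) (nat_lit 245))))) (XT.nd (nat_lit 51012) (nat_lit 0) (nat_lit 44916) (XT.nd (nat_lit 78) (nat_lit 76) (nat_lit 0) (XT.lf (nat_lit 0) (nat_lit 5468810195) (nat_lit 228) (nat_lit 9615625850) (nat_lit 304) (nat_lit 3616057029) (nat_lit 122) (nat_lit 5) (nat_lit 125) (nat_lit 5) (nat_lit 126) (nat_lit 5) (nat_lit 502) (nat_lit 394) (nat_lit 244)) (XT.lf (nat_lit 0) (nat_lit 1701239562) (nat_lit 304) (nat_lit 904916821) (nat_lit 76) (nat_lit 16322731893) (nat_lit 121) (nat_lit 5) (nat_lit 125) (nat_lit 5) (nat_lit 122) (nat_lit 5) (nat_lit 503) (nat_lit 394) (nat_lit 243))) (XT.nd (nat_lit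 78) (nat_lit 988) (nat_lit 0) (XT.lf (nat_lit 0) (nat_lit 2619919279) (nat_lit 988) (nat_lit 407220190) (nat_lit 988) (nat_lit 407220190) (nat_lit 725) (nat_lit 3) (nat_lit 738) (nat_lit 3) (nat_lit 738) (nat_lit 5) (nat_lit 395) (nat_lit 395) (nat_lit 350)) (XT.nd (nat_lit 78) (nat_lit 0) (nat_lit 0) (XT.lf (nat_lit 0) (nat_lit 370196840) (nat_lit 988) (nat_lit 4245491937) (nat_lit 1064) (nat_lit 2282055571) (nat_lit 712) (nat_lit 5) (nat_lit 725) (nat_lit 3) (nat_lit 726) (nat_lit 5) (nat_lit 396) (nat_lit 395) (nat_lit 349)) (XT.lf (nat_lit 0) (nat_lit 2340950528) (nat_lit 988) (nat_lit 766051213) (nat_lit 1064) (nat_lit 3821062694) (nat_lit 712) (nat_lit 5) (nat_lit 725) (nat_lit 3) (nat_lit 726) (nat_lit 5) (nat_lit 397) (nat_lit 395) (nat_lit 348)))))) (XT.nd (nat_lit 390) (nat_lit 2204) (nat_lit 0) (XT.nd (nat_lit 156) (nat_lit 988) (nat_lit 0) (XT.nd (nat_lit 78) (nat_lit 0) (nat_lit 76) (XT.lf (nat_lit 76) (nat_lit 2792836116)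 (nat_lit 0) (nat_lit 1525419393) (nat_lit 1064) (nat_lit 2641392690) (nat_lit 713) (nat_lit 5) (nat_lit 712) (nat_lit 5) (nat_lit 726) (nat_lit 5) (nat_lit 398) (nat_lit 395) (nat_lit 347)) (XT.lf (nat_lit 0) (nat_lit 6290834868) (nat_lit 988) (nat_lit 586830757) (nat_lit 1064) (nat_lit 115083448) (nat_lit 713) (nat_lit 5) (nat_lit 726) (nat_lit 5) (nat_lit 727) (nat_lit 5) (nat_lit 399) (nat_lit 395) (nat_lit 346))) (XT.nd (nat_lit 78) (nat_lit 0) (nat_lit 0) (XT.lf (nat_lit 0) (nat_lit 1240472111) (nat_lit 1064) (nat_lit 3967379058) (nat_lit 1140) (nat_lit 1818877901) (nat_lit 699) (nat_lit 5) (nat_lit 713) (nat_lit 5) (nat_lit 714) (nat_lit 5) (nat_lit 400) (nat_lit 395) (nat_lit 345)) (XT.nd (nat_lit 78) (nat_lit 0) (nat_lit 0) (XT.lf (nat_lit 0) (nat_lit 3167711117) (nat_lit 1064) (nat_lit 307248793) (nat_lit 1140) (nat_lit 3587227890) (nat_lit 699) (nat_lit 5) (nat_lit 713) (nat_lit 5) (nat_lit 714) (nat_lit 5) (nat_lit 401) (nat_lit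 395) (nat_lit 344)) (XT.lf (nat_lit 76) (nat_lit 3444123580) (nat_lit 0) (nat_lit 1664115980) (nat_lit 1140) (nat_lit 1990621252) (nat_lit 700) (nat_lit 5) (nat_lit 699) (nat_lit 5) (nat_lit 714) (nat_lit 5) (nat_lit 402) (nat_lit 395) (nat_lit 343))))) (XT.nd (nat_lit 234) (nat_lit 1140) (nat_lit 0) (XT.nd (nat_lit 78) (nat_lit 1140) (nat_lit 0) (XT.lf (nat_lit 76) (nat_lit 110693796) (nat_lit 0) (nat_lit 6934137766) (nat_lit 1140) (nat_lit 92290663) (nat_lit 701) (nat_lit 5) (nat_lit 700) (nat_lit 5) (nat_lit 715) (nat_lit 5) (nat_lit 403) (nat_lit 395) (nat_lit 342)) (XT.nd (nat_lit 78) (nat_lit 0) (nat_lit 0) (XT.lf (nat_lit 0) (nat_lit 1809232304) (nat_lit 1140) (nat_lit 3226289212) (nat_lit 1216) (nat_lit 2140599694) (nat_lit 685) (nat_lit 5) (nat_lit 700) (nat_lit 5) (nat_lit 701) (nat_lit 5) (nat_lit 404) (nat_lit 395) (nat_lit 341)) (XT.lf (nat_lit 76) (nat_lit 629607186) (nat_lit 0) (nat_lit 3076641538) (nat_lit 1216) (nat_lit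 3510465274) (nat_lit 686) (nat_lit 5) (nat_lit 685) (nat_lit 5) (nat_lit 701) (nat_lit 5) (nat_lit 405) (nat_lit 395) (nat_lit 340)))) (XT.nd (nat_lit 78) (nat_lit 1140) (nat_lit 0) (XT.lf (nat_lit 76) (nat_lit 4578646395) (nat_lit 0) (nat_lit 1039529066) (nat_lit 1216) (nat_lit 1640403783) (nat_lit 686) (nat_lit 5) (nat_lit 685) (nat_lit 5) (nat_lit 701) (nat_lit 5) (nat_lit 406) (nat_lit 395) (nat_lit 339)) (XT.nd (nat_lit 78) (nat_lit 0) (nat_lit 0) (XT.lf (nat_lit 0) (nat_lit 234771044) (nat_lit 1216) (nat_lit 6016020101) (nat_lit 1292) (nat_lit 1051031678) (nat_lit 670) (nat_lit 5) (nat_lit 686) (nat_lit 5) (nat_lit 687) (nat_lit 5) (nat_lit 407) (nat_lit 395) (nat_lit 338)) (XT.lf (nat_lit 0) (nat_lit 2107186369) (nat_lit 1216) (nat_lit 2024797842) (nat_lit 1292) (nat_lit 3214096161) (nat_lit 670) (nat_lit 5) (nat_lit 686) (nat_lit 5) (nat_lit 687) (nat_lit 5) (nat_lit 408) (nat_lit 395) (nat_lit 337))))))))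
noncomputable def xc145 : XT := (XT.nd (nat_lit 1560) (nat_lit 11096) (nat_lit 0) (XT.nd (nat_lit 780) (nat_lit 10032) (nat_lit 0) (XT.nd (nat_lit 390) (nat_lit 2584) (nat_lit 0) (XT.nd (nat_lit 156) (nat_lit 1216) (nat_lit 0) (XT.nd (nat_lit 78) (nat_lit 0) (nat_lit 76) (XT.lf (nat_lit 76) (nat_lit 2045090743) (nat_lit 0) (nat_lit 1942780790) (nat_lit 1292) (nat_lit 3403935108) (nat_lit 671) (nat_lit 5) (nat_lit 670) (nat_lit 5) (nat_lit 687) (nat_lit 5) (nat_lit 409) (nat_lit 395) (nat_lit 336)) (XT.lf (nat_lit 0) (nat_lit 5880018475) (nat_lit 1216) (nat_lit 1245048934) (nat_lit 1292) (nat_lit 313903065) (nat_lit 671) (nat_lit 5) (nat_lit 687) (nat_lit 5) (nat_lit 688) (nat_lit 5) (nat_lit 410) (nat_lit 395) (nat_lit 335))) (XT.nd (nat_lit 78) (nat_lit 0) (nat_lit 0) (XT.lf (nat_lit 0) (nat_lit 309669848) (nat_lit 1292) (nat_lit 4553160646) (nat_lit 1368) (nat_lit 2624385669) (nat_lit 654) (nat_lit 5) (nat_lit 671) (nat_lit 5) (nat_lit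 672) (nat_lit 5) (nat_lit 411) (nat_lit 395) (nat_lit 334)) (XT.nd (nat_lit 78) (nat_lit 0) (nat_lit 0) (XT.lf (nat_lit 0) (nat_lit 2162677396) (nat_lit 1292) (nat_lit 361533308) (nat_lit 1368) (nat_lit 5012652216) (nat_lit 654) (nat_lit 5) (nat_lit 671) (nat_lit 5) (nat_lit 672) (nat_lit 5) (nat_lit 412) (nat_lit 395) (nat_lit 333)) (XT.lf (nat_lit 76) (nat_lit 3937615039) (nat_lit 0) (nat_lit 100948460) (nat_lit 1368) (nat_lit 3549222744) (nat_lit 655) (nat_lit 5) (nat_lit 654) (nat_lit 5) (nat_lit 672) (nat_lit 5) (nat_lit 413) (nat_lit 395) (nat_lit 332))))) (XT.nd (nat_lit 156) (nat_lit 1292) (nat_lit 0) (XT.nd (nat_lit 78) (nat_lit 1368) (nat_lit 0) (XT.lf (nat_lit 76) (nat_lit 652489303) (nat_lit 0) (nat_lit 5282474956) (nat_lit 1368) (nat_lit 1705103836) (nat_lit 656) (nat_lit 5) (nat_lit 655) (nat_lit 5) (nat_lit 673) (nat_lit 5) (nat_lit 414) (nat_lit 395) (nat_lit 331)) (XT.lf (nat_lit 0) (nat_lit 160168166) (nat_lit 1368)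 (nat_lit 2633150027) (nat_lit 1444) (nat_lit 4900322996) (nat_lit 637) (nat_lit 5) (nat_lit 655) (nat_lit 5) (nat_lit 656) (nat_lit 5) (nat_lit 415) (nat_lit 395) (nat_lit 330))) (XT.nd (nat_lit 78) (nat_lit 1292) (nat_lit 0) (XT.lf (nat_lit 76) (nat_lit 1792194306) (nat_lit 0) (nat_lit 221389501) (nat_lit 1444) (nat_lit 5735003133) (nat_lit 638) (nat_lit 5) (nat_lit 637) (nat_lit 5) (nat_lit 656) (nat_lit 5) (nat_lit 416) (nat_lit 395) (nat_lit 329)) (XT.nd (nat_lit 78) (nat_lit 1368) (nat_lit 0) (XT.lf (nat_lit 0) (nat_lit 3900083602) (nat_lit 1368) (nat_lit 1507259453) (nat_lit 76) (nat_lit 2397368234) (nat_lit 638) (nat_lit 5) (nat_lit 656) (nat_lit 5) (nat_lit 639) (nat_lit 5) (nat_lit 417) (nat_lit 395) (nat_lit 328)) (XT.lf (nat_lit 0) (nat_lit 3040832516) (nat_lit 1368) (nat_lit 2768056568) (nat_lit 1444) (nat_lit 2053377527) (nat_lit 620) (nat_lit 5) (nat_lit 638) (nat_lit 5) (nat_lit 639) (nat_lit 5) (nat_lit 418) (nat_lit 395)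 (nat_lit 327)))))) (XT.nd (nat_lit 390) (nat_lit 5396) (nat_lit 0) (XT.nd (nat_lit 156) (nat_lit 3116) (nat_lit 0) (XT.nd (nat_lit 78) (nat_lit 1520) (nat_lit 0) (XT.lf (nat_lit 0) (nat_lit 7672065938) (nat_lit 1368) (nat_lit 57820557) (nat_lit 1444) (nat_lit 191606230) (nat_lit 620) (nat_lit 5) (nat_lit 638) (nat_lit 5) (nat_lit 639) (nat_lit 5) (nat_lit 419) (nat_lit 395) (nat_lit 326)) (XT.lf (nat_lit 0) (nat_lit 1696049313) (nat_lit 1520) (nat_lit 3566801888) (nat_lit 76) (nat_lit 2718609613) (nat_lit 600) (nat_lit 5) (nat_lit 620) (nat_lit 5) (nat_lit 601) (nat_lit 5) (nat_lit 420) (nat_lit 395) (nat_lit 325))) (XT.nd (nat_lit 78) (nat_lit 1596) (nat_lit 0) (XT.lf (nat_lit 0) (nat_lit 1117065963) (nat_lit 1520) (nat_lit 2476087144) (nat_lit 1596) (nat_lit 4449964612) (nat_lit 580) (nat_lit 5) (nat_lit 600) (nat_lit 5) (nat_lit 601) (nat_lit 5) (nat_lit 421) (nat_lit 395) (nat_lit 324)) (XT.nd (nat_lit 78) (nat_lit 1596) (nat_lit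 0) (XT.lf (nat_lit 0) (nat_lit 5520150640) (nat_lit 1596) (nat_lit 2194381913) (nat_lit 76) (nat_lit 391636178) (nat_lit 580) (nat_lit 5) (nat_lit 601) (nat_lit 5) (nat_lit 581) (nat_lit 5) (nat_lit 422) (nat_lit 395) (nat_lit 323)) (XT.lf (nat_lit 0) (nat_lit 2621199469) (nat_lit 1596) (nat_lit 4864061069) (nat_lit 1672) (nat_lit 685228776) (nat_lit 559) (nat_lit 5) (nat_lit 580) (nat_lit 5) (nat_lit 581) (nat_lit 5) (nat_lit 423) (nat_lit 395) (nat_lit 322))))) (XT.nd (nat_lit 156) (nat_lit 3648) (nat_lit 0) (XT.nd (nat_lit 78) (nat_lit 1672) (nat_lit 0) (XT.lf (nat_lit 0) (nat_lit 1218371868) (nat_lit 1672) (nat_lit 710159418) (nat_lit 76) (nat_lit 6307777513) (nat_lit 558) (nat_lit 5) (nat_lit 580) (nat_lit 5) (nat_lit 559) (nat_lit 5) (nat_lit 424) (nat_lit 395) (nat_lit 321)) (XT.lf (nat_lit 0) (nat_lit 3152695743) (nat_lit 1748) (nat_lit 4062077287) (nat_lit 76) (nat_lit 1088544527) (nat_lit 536) (nat_lit 5) (nat_lit 559) (nat_lit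 5) (nat_lit 537) (nat_lit 5) (nat_lit 425) (nat_lit 395) (nat_lit 320))) (XT.nd (nat_lit 78) (nat_lit 1900) (nat_lit 0) (XT.lf (nat_lit 0) (nat_lit 899840122) (nat_lit 1748) (nat_lit 4216839362) (nat_lit 1824) (nat_lit 3255167540) (nat_lit 513) (nat_lit 5) (nat_lit 536) (nat_lit 5) (nat_lit 537) (nat_lit 5) (nat_lit 426) (nat_lit 395) (nat_lit 319)) (XT.nd (nat_lit 78) (nat_lit 1900) (nat_lit 0) (XT.lf (nat_lit 0) (nat_lit 5987367091) (nat_lit 1748) (nat_lit 1127846434) (nat_lit 1824) (nat_lit 1326628141) (nat_lit 513) (nat_lit 5) (nat_lit 536) (nat_lit 5) (nat_lit 537) (nat_lit 5) (nat_lit 427) (nat_lit 395) (nat_lit 318)) (XT.lf (nat_lit 0) (nat_lit 631116679) (nat_lit 1900) (nat_lit 5861071872) (nat_lit 76) (nat_lit 2020983790) (nat_lit 488) (nat_lit 5) (nat_lit 513) (nat_lit 5) (nat_lit 489) (nat_lit 5) (nat_lit 428) (nat_lit 395) (nat_lit 317))))))) (XT.nd (nat_lit 780) (nat_lit 5396) (nat_lit 0) (XT.nd (nat_lit 390) (nat_lit 2660)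 (nat_lit 0) (XT.nd (nat_lit 156) (nat_lit 1900) (nat_lit 0) (XT.nd (nat_lit 78) (nat_lit 1140) (nat_lit 0) (XT.lf (nat_lit 0) (nat_lit 2603202865) (nat_lit 1900) (nat_lit 736887154) (nat_lit 76) (nat_lit 5245805228) (nat_lit 488) (nat_lit 5) (nat_lit 513) (nat_lit 5) (nat_lit 489) (nat_lit 5) (nat_lit 429) (nat_lit 395) (nat_lit 316)) (XT.lf (nat_lit 0) (nat_lit 4520637754) (nat_lit 1140) (nat_lit 92938450) (nat_lit 1216) (nat_lit 4046519499) (nat_lit 473) (nat_lit 5) (nat_lit 488) (nat_lit 5) (nat_lit 489) (nat_lit 5) (nat_lit 430) (nat_lit 395) (nat_lit 315))) (XT.nd (nat_lit 78) (nat_lit 988) (nat_lit 0) (XT.lf (nat_lit 0) (nat_lit 1122550169) (nat_lit 912) (nat_lit 5544694918) (nat_lit 988) (nat_lit 2068473320) (nat_lit 461) (nat_lit 5) (nat_lit 473) (nat_lit 5) (nat_lit 474) (nat_lit 5) (nat_lit 431) (nat_lit 395) (nat_lit 314)) (XT.nd (nat_lit 78) (nat_lit 988) (nat_lit 0) (XT.lf (nat_lit 0) (nat_lit 6516616868) (nat_lit 912) (nat_lit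 2244084689) (nat_lit 988) (nat_lit 52177723) (nat_lit 461) (nat_lit 5) (nat_lit 473) (nat_lit 5) (nat_lit 474) (nat_lit 5) (nat_lit 432) (nat_lit 395) (nat_lit 313)) (XT.lf (nat_lit 0) (nat_lit 1976682326) (nat_lit 988) (nat_lit 5772541605) (nat_lit 76) (nat_lit 1142128615) (nat_lit 448) (nat_lit 5) (nat_lit 461) (nat_lit 5) (nat_lit 449) (nat_lit 5) (nat_lit 433) (nat_lit 395) (nat_lit 312))))) (XT.nd (nat_lit 156) (nat_lit 1824) (nat_lit 0) (XT.nd (nat_lit 78) (nat_lit 836) (nat_lit 0) (XT.lf (nat_lit 0) (nat_lit 4046902504) (nat_lit 988) (nat_lit 341974623) (nat_lit 76) (nat_lit 4582481617) (nat_lit 448) (nat_lit 5) (nat_lit 461) (nat_lit 5) (nat_lit 449) (nat_lit 5) (nat_lit 434) (nat_lit 395) (nat_lit 311)) (XT.lf (nat_lit 0) (nat_lit 5237571216) (nat_lit 836) (nat_lit 926636431) (nat_lit 912) (nat_lit 2888643811) (nat_lit 437) (nat_lit 5) (nat_lit 448) (nat_lit 5) (nat_lit 449) (nat_lit 5) (nat_lit 435) (nat_lit 395) (nat_lit 310)))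 (XT.nd (nat_lit 78) (nat_lit 912) (nat_lit 0) (XT.lf (nat_lit 0) (nat_lit 1775072517) (nat_lit 912) (nat_lit 6551580037) (nat_lit 988) (nat_lit 809265597) (nat_lit 425) (nat_lit 5) (nat_lit 437) (nat_lit 5) (nat_lit 438) (nat_lit 5) (nat_lit 436) (nat_lit 395) (nat_lit 309)) (XT.nd (nat_lit 78) (nat_lit 836) (nat_lit 0) (XT.lf (nat_lit 0) (nat_lit 1298632338) (nat_lit 988) (nat_lit 1734883294) (nat_lit 76) (nat_lit 6186877510) (nat_lit 424) (nat_lit 5) (nat_lit 437) (nat_lit 5) (nat_lit 425) (nat_lit 5) (nat_lit 437) (nat_lit 395) (nat_lit 308)) (XT.lf (nat_lit 0) (nat_lit 3440555697) (nat_lit 912) (nat_lit 5287589548) (nat_lit 76) (nat_lit 578251333) (nat_lit 413) (nat_lit 5) (nat_lit 425) (nat_lit 5) (nat_lit 414) (nat_lit 5) (nat_lit 438) (nat_lit 395) (nat_lit 307)))))) (XT.nd (nat_lit 390) (nat_lit 2964) (nat_lit 0) (XT.nd (nat_lit 156) (nat_lit 1596) (nat_lit 0) (XT.nd (nat_lit 78) (nat_lit 0) (nat_lit 0) (XT.lf (nat_lit 0) (nat_lit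 474605653) (nat_lit 836) (nat_lit 5158716286) (nat_lit 912) (nat_lit 3760638056) (nat_lit 402) (nat_lit 5) (nat_lit 413) (nat_lit 5) (nat_lit 414) (nat_lit 5) (nat_lit 439) (nat_lit 395) (nat_lit 306)) (XT.lf (nat_lit 0) (nat_lit 6395254936) (nat_lit 836) (nat_lit 1483627810) (nat_lit 912) (nat_lit 1604213148) (nat_lit 402) (nat_lit 5) (nat_lit 413) (nat_lit 5) (nat_lit 414) (nat_lit 5) (nat_lit 440) (nat_lit 395) (nat_lit 305))) (XT.nd (nat_lit 78) (nat_lit 760) (nat_lit 0) (XT.lf (nat_lit 0) (nat_lit 594784669) (nat_lit 836) (nat_lit 6723162141) (nat_lit 76) (nat_lit 2255845348) (nat_lit 391) (nat_lit 5) (nat_lit 402) (nat_lit 5) (nat_lit 392) (nat_lit 5) (nat_lit 441) (nat_lit 395) (nat_lit 304)) (XT.nd (nat_lit 78) (nat_lit 760) (nat_lit 0) (XT.lf (nat_lit 0) (nat_lit 2821107650) (nat_lit 836) (nat_lit 765319076) (nat_lit 76) (nat_lit 6079567031) (nat_lit 391) (nat_lit 5) (nat_lit 402) (nat_lit 5) (nat_lit 392) (nat_lit 5) (nat_lit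 442) (nat_lit 395) (nat_lit 303)) (XT.lf (nat_lit 0) (nat_lit 5102987067) (nat_lit 836) (nat_lit 4407604529) (nat_lit 76) (nat_lit 249227192) (nat_lit 381) (nat_lit 5) (nat_lit 392) (nat_lit 5) (nat_lit 382) (nat_lit 5) (nat_lit 443) (nat_lit 395) (nat_lit 302))))) (XT.nd (nat_lit 234) (nat_lit 1368) (nat_lit 0) (XT.nd (nat_lit 78) (nat_lit 836) (nat_lit 0) (XT.lf (nat_lit 0) (nat_lit 1717484576) (nat_lit 760) (nat_lit 5728019548) (nat_lit 836) (nat_lit 2409716195) (nat_lit 371) (nat_lit 5) (nat_lit 381) (nat_lit 5) (nat_lit 382) (nat_lit 5) (nat_lit 444) (nat_lit 395) (nat_lit 301)) (XT.nd (nat_lit 78) (nat_lit 836) (nat_lit 0) (XT.lf (nat_lit 0) (nat_lit 7996697837) (nat_lit 760) (nat_lit 1842988166) (nat_lit 836) (nat_lit 112747588) (nat_lit 371) (nat_lit 5) (nat_lit 381) (nat_lit 5) (nat_lit 382) (nat_lit 5) (nat_lit 445) (nat_lit 395) (nat_lit 300)) (XT.lf (nat_lit 0) (nat_lit 2218836228) (nat_lit 836) (nat_lit 5700475273) (nat_lit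 76) (nat_lit 2131631539) (nat_lit 360) (nat_lit 5) (nat_lit 371) (nat_lit 5) (nat_lit 361) (nat_lit 5) (nat_lit 446) (nat_lit 395) (nat_lit 299)))) (XT.nd (nat_lit 78) (nat_lit 684) (nat_lit 0) (XT.lf (nat_lit 0) (nat_lit 625132370) (nat_lit 684) (nat_lit 3975723931) (nat_lit 760) (nat_lit 5550445185) (nat_lit 351) (nat_lit 5) (nat_lit 360) (nat_lit 5) (nat_lit 361) (nat_lit 5) (nat_lit 447) (nat_lit 395) (nat_lit 298)) (XT.nd (nat_lit 78) (nat_lit 684) (nat_lit 0) (XT.lf (nat_lit 0) (nat_lit 7045429987) (nat_lit 760) (nat_lit 3127373732) (nat_lit 76) (nat_lit 80565117) (nat_lit 351) (nat_lit 5) (nat_lit 361) (nat_lit 5) (nat_lit 352) (nat_lit 5) (nat_lit 448) (nat_lit 395) (nat_lit 297)) (XT.lf (nat_lit 0) (nat_lit 3389643123) (nat_lit 684) (nat_lit 6174160947) (nat_lit 760) (nat_lit 793175287) (nat_lit 342) (nat_lit 5) (nat_lit 351) (nat_lit 5) (nat_lit 352) (nat_lit 5) (nat_lit 449) (nat_lit 395) (nat_lit 296))))))))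
noncomputable def xc146 : XT := (XT.nd (nat_lit 1560) (nat_lit 5852) (nat_lit 0) (XT.nd (nat_lit 780) (nat_lit 3876) (nat_lit 0) (XT.nd (nat_lit 390) (nat_lit 1900) (nat_lit 0) (XT.nd (nat_lit 156) (nat_lit 1368) (nat_lit 0) (XT.nd (nat_lit 78) (nat_lit 684) (nat_lit 0) (XT.lf (nat_lit 0) (nat_lit 1645806088) (nat_lit 760) (nat_lit 421837805) (nat_lit 76) (nat_lit 8394844887) (nat_lit 341) (nat_lit 5) (nat_lit 351) (nat_lit 5) (nat_lit 342) (nat_lit 5) (nat_lit 450) (nat_lit 395) (nat_lit 295)) (XT.lf (nat_lit 0) (nat_lit 4155091528) (nat_lit 760) (nat_lit 4279143433) (nat_lit 76) (nat_lit 2135125671) (nat_lit 332) (nat_lit 5) (nat_lit 342) (nat_lit 5) (nat_lit 333) (nat_lit 5) (nat_lit 451) (nat_lit 395) (nat_lit 294))) (XT.nd (nat_lit 78) (nat_lit 684) (nat_lit 0) (XT.lf (nat_lit 0) (nat_lit 2454701921) (nat_lit 684) (nat_lit 4269736077) (nat_lit 760) (nat_lit 3953734417) (nat_lit 323) (nat_lit 5) (nat_lit 332) (nat_lit 5) (nat_lit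 333) (nat_lit 5) (nat_lit 452) (nat_lit 395) (nat_lit 293)) (XT.nd (nat_lit 78) (nat_lit 684) (nat_lit 0) (XT.lf (nat_lit 0) (nat_lit 9351560609) (nat_lit 760) (nat_lit 1435333978) (nat_lit 76) (nat_lit 2138062) (nat_lit 323) (nat_lit 5) (nat_lit 333) (nat_lit 5) (nat_lit 324) (nat_lit 5) (nat_lit 453) (nat_lit 395) (nat_lit 292)) (XT.lf (nat_lit 0) (nat_lit 1156669875) (nat_lit 684) (nat_lit 5403770371) (nat_lit 76) (nat_lit 4340675966) (nat_lit 314) (nat_lit 5) (nat_lit 323) (nat_lit 5) (nat_lit 315) (nat_lit 5) (nat_lit 454) (nat_lit 395) (nat_lit 291))))) (XT.nd (nat_lit 156) (nat_lit 1292) (nat_lit 0) (XT.nd (nat_lit 78) (nat_lit 0) (nat_lit 0) (XT.lf (nat_lit 0) (nat_lit 1556221892) (nat_lit 608) (nat_lit 2225217475) (nat_lit 684) (nat_lit 7233852195) (nat_lit 306) (nat_lit 5) (nat_lit 314) (nat_lit 5) (nat_lit 315) (nat_lit 5) (nat_lit 455) (nat_lit 395) (nat_lit 290)) (XT.lf (nat_lit 0) (nat_lit 6487857258) (nat_lit 684) (nat_lit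 2444569218) (nat_lit 76) (nat_lit 2198740884) (nat_lit 306) (nat_lit 5) (nat_lit 315) (nat_lit 5) (nat_lit 307) (nat_lit 5) (nat_lit 456) (nat_lit 395) (nat_lit 289))) (XT.nd (nat_lit 78) (nat_lit 684) (nat_lit 0) (XT.lf (nat_lit 0) (nat_lit 4730362565) (nat_lit 608) (nat_lit 4542302112) (nat_lit 684) (nat_lit 1976210773) (nat_lit 298) (nat_lit 5) (nat_lit 306) (nat_lit 5) (nat_lit 307) (nat_lit 5) (nat_lit 457) (nat_lit 395) (nat_lit 288)) (XT.nd (nat_lit 78) (nat_lit 0) (nat_lit 0) (XT.lf (nat_lit 0) (nat_lit 690167920) (nat_lit 608) (nat_lit 44209430) (nat_lit 684) (nat_lit 10634465560) (nat_lit 289) (nat_lit 5) (nat_lit 297) (nat_lit 5) (nat_lit 298) (nat_lit 5) (nat_lit 458) (nat_lit 395) (nat_lit 287)) (XT.lf (nat_lit 0) (nat_lit 3525385153) (nat_lit 684) (nat_lit 3429291557) (nat_lit 76) (nat_lit 4535218368) (nat_lit 289) (nat_lit 5) (nat_lit 298) (nat_lit 5) (nat_lit 290) (nat_lit 5) (nat_lit 459) (nat_lit 395) (nat_lit 286))))))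 (XT.nd (nat_lit 390) (nat_lit 2128) (nat_lit 0) (XT.nd (nat_lit 156) (nat_lit 1216) (nat_lit 0) (XT.nd (nat_lit 78) (nat_lit 0) (nat_lit 0) (XT.lf (nat_lit 0) (nat_lit 3990196996) (nat_lit 532) (nat_lit 2387736139) (nat_lit 608) (nat_lit 5235320753) (nat_lit 282) (nat_lit 5) (nat_lit 289) (nat_lit 5) (nat_lit 290) (nat_lit 5) (nat_lit 460) (nat_lit 395) (nat_lit 285)) (XT.lf (nat_lit 0) (nat_lit 9305144705) (nat_lit 608) (nat_lit 176061312) (nat_lit 76) (nat_lit 2257521605) (nat_lit 282) (nat_lit 5) (nat_lit 290) (nat_lit 5) (nat_lit 283) (nat_lit 5) (nat_lit 461) (nat_lit 395) (nat_lit 284))) (XT.nd (nat_lit 78) (nat_lit 532) (nat_lit 0) (XT.lf (nat_lit 0) (nat_lit 463373574) (nat_lit 684) (nat_lit 4393342191) (nat_lit 76) (nat_lit 7009045037) (nat_lit 273) (nat_lit 5) (nat_lit 282) (nat_lit 5) (nat_lit 274) (nat_lit 5) (nat_lit 462) (nat_lit 395) (nat_lit 283)) (XT.nd (nat_lit 78) (nat_lit 0) (nat_lit 0) (XT.lf (nat_lit 0) (nat_lit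 3281188228) (nat_lit 532) (nat_lit 107211007) (nat_lit 608) (nat_lit 8606559379) (nat_lit 266) (nat_lit 5) (nat_lit 273) (nat_lit 5) (nat_lit 274) (nat_lit 5) (nat_lit 463) (nat_lit 395) (nat_lit 282)) (XT.lf (nat_lit 0) (nat_lit 6412723812) (nat_lit 608) (nat_lit 1015177580) (nat_lit 76) (nat_lit 4698023021) (nat_lit 266) (nat_lit 5) (nat_lit 274) (nat_lit 5) (nat_lit 267) (nat_lit 5) (nat_lit 464) (nat_lit 395) (nat_lit 281))))) (XT.nd (nat_lit 156) (nat_lit 988) (nat_lit 0) (XT.nd (nat_lit 78) (nat_lit 608) (nat_lit 0) (XT.lf (nat_lit 0) (nat_lit 6900873302) (nat_lit 532) (nat_lit 2622925583) (nat_lit 608) (nat_lit 2735185364) (nat_lit 259) (nat_lit 5) (nat_lit 266) (nat_lit 5) (nat_lit 267) (nat_lit 5) (nat_lit 465) (nat_lit 395) (nat_lit 280)) (XT.lf (nat_lit 0) (nat_lit 317908786) (nat_lit 608) (nat_lit 9809350808) (nat_lit 76) (nat_lit 2267016730) (nat_lit 251) (nat_lit 5) (nat_lit 259) (nat_lit 5) (nat_lit 252) (nat_lit 5) (nat_lit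 466) (nat_lit 395) (nat_lit 279))) (XT.nd (nat_lit 78) (nat_lit 988) (nat_lit 0) (XT.lf (nat_lit 0) (nat_lit 3430028311) (nat_lit 608) (nat_lit 1834374280) (nat_lit 76) (nat_lit 7266818306) (nat_lit 251) (nat_lit 5) (nat_lit 259) (nat_lit 5) (nat_lit 252) (nat_lit 5) (nat_lit 467) (nat_lit 395) (nat_lit 278)) (XT.nd (nat_lit 78) (nat_lit 456) (nat_lit 0) (XT.lf (nat_lit 0) (nat_lit 6357451313) (nat_lit 532) (nat_lit 269577623) (nat_lit 608) (nat_lit 6043422651) (nat_lit 244) (nat_lit 5) (nat_lit 251) (nat_lit 5) (nat_lit 252) (nat_lit 5) (nat_lit 468) (nat_lit 395) (nat_lit 277)) (XT.lf (nat_lit 0) (nat_lit 1892996599) (nat_lit 456) (nat_lit 8032494057) (nat_lit 532) (nat_lit 2886225813) (nat_lit 238) (nat_lit 5) (nat_lit 244) (nat_lit 5) (nat_lit 245) (nat_lit 5) (nat_lit 469) (nat_lit 395) (nat_lit 276))))))) (XT.nd (nat_lit 780) (nat_lit 2888) (nat_lit 0) (XT.nd (nat_lit 390) (nat_lit 1368) (nat_lit 0) (XT.nd (nat_lit 156) (nat_lit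 988) (nat_lit 0) (XT.nd (nat_lit 78) (nat_lit 532) (nat_lit 0) (XT.lf (nat_lit 0) (nat_lit 355746206) (nat_lit 532) (nat_lit 2636758212) (nat_lit 76) (nat_lit 9962738581) (nat_lit 237) (nat_lit 5) (nat_lit 244) (nat_lit 5) (nat_lit 238) (nat_lit 5) (nat_lit 470) (nat_lit 395) (nat_lit 275)) (XT.lf (nat_lit 0) (nat_lit 3658102338) (nat_lit 608) (nat_lit 7272517377) (nat_lit 76) (nat_lit 2169954960) (nat_lit 230) (nat_lit 5) (nat_lit 238) (nat_lit 5) (nat_lit 231) (nat_lit 5) (nat_lit 471) (nat_lit 395) (nat_lit 274))) (XT.nd (nat_lit 78) (nat_lit 532) (nat_lit 0) (XT.lf (nat_lit 0) (nat_lit 1219637865) (nat_lit 456) (nat_lit 5834498507) (nat_lit 532) (nat_lit 6194123998) (nat_lit 224) (nat_lit 5) (nat_lit 230) (nat_lit 5) (nat_lit 231) (nat_lit 5) (nat_lit 472) (nat_lit 395) (nat_lit 273)) (XT.nd (nat_lit 78) (nat_lit 532) (nat_lit 0) (XT.lf (nat_lit 0) (nat_lit 9954512545) (nat_lit 456) (nat_lit 594648342) (nat_lit 532) (nat_lit 2849117494)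 (nat_lit 224) (nat_lit 5) (nat_lit 230) (nat_lit 5) (nat_lit 231) (nat_lit 5) (nat_lit 473) (nat_lit 395) (nat_lit 272)) (XT.lf (nat_lit 0) (nat_lit 603712236) (nat_lit 532) (nat_lit 8228003035) (nat_lit 76) (nat_lit 4718542319) (nat_lit 217) (nat_lit 5) (nat_lit 224) (nat_lit 5) (nat_lit 218) (nat_lit 5) (nat_lit 474) (nat_lit 395) (nat_lit 271))))) (XT.nd (nat_lit 156) (nat_lit 912) (nat_lit 0) (XT.nd (nat_lit 78) (nat_lit 0) (nat_lit 0) (XT.lf (nat_lit 0) (nat_lit 564343722) (nat_lit 456) (nat_lit 3536632965) (nat_lit 532) (nat_lit 9603652487) (nat_lit 211) (nat_lit 5) (nat_lit 217) (nat_lit 5) (nat_lit 218) (nat_lit 5) (nat_lit 475) (nat_lit 395) (nat_lit 270)) (XT.lf (nat_lit 0) (nat_lit 7718620941) (nat_lit 532) (nat_lit 4255067187) (nat_lit 76) (nat_lit 1887391370) (nat_lit 211) (nat_lit 5) (nat_lit 218) (nat_lit 5) (nat_lit 212) (nat_lit 5) (nat_lit 476) (nat_lit 395) (nat_lit 269))) (XT.nd (nat_lit 78) (nat_lit 456) (nat_lit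 0) (XT.lf (nat_lit 0) (nat_lit 4822502426) (nat_lit 456) (nat_lit 6623936205) (nat_lit 532) (nat_lit 2573463788) (nat_lit 205) (nat_lit 5) (nat_lit 211) (nat_lit 5) (nat_lit 212) (nat_lit 5) (nat_lit 477) (nat_lit 395) (nat_lit 268)) (XT.nd (nat_lit 78) (nat_lit 380) (nat_lit 0) (XT.lf (nat_lit 0) (nat_lit 1064807561) (nat_lit 532) (nat_lit 74382835) (nat_lit 76) (nat_lit 13042335071) (nat_lit 204) (nat_lit 5) (nat_lit 211) (nat_lit 5) (nat_lit 205) (nat_lit 5) (nat_lit 478) (nat_lit 395) (nat_lit 267)) (XT.lf (nat_lit 0) (nat_lit 4814737189) (nat_lit 456) (nat_lit 5063117881) (nat_lit 76) (nat_lit 4466718665) (nat_lit 199) (nat_lit 5) (nat_lit 205) (nat_lit 5) (nat_lit 200) (nat_lit 5) (nat_lit 479) (nat_lit 395) (nat_lit 266)))))) (XT.nd (nat_lit 390) (nat_lit 1596) (nat_lit 0) (XT.nd (nat_lit 156) (nat_lit 836) (nat_lit 0) (XT.nd (nat_lit 78) (nat_lit 0) (nat_lit 0) (XT.lf (nat_lit 0) (nat_lit 4339052395) (nat_lit 456) (nat_lit 4320419823)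 (nat_lit 532) (nat_lit 5851014613) (nat_lit 193) (nat_lit 5) (nat_lit 199) (nat_lit 5) (nat_lit 200) (nat_lit 5) (nat_lit 480) (nat_lit 395) (nat_lit 265)) (XT.lf (nat_lit 0) (nat_lit 12607751057) (nat_lit 532) (nat_lit 715079630) (nat_lit 76) (nat_lit 1356354519) (nat_lit 193) (nat_lit 5) (nat_lit 200) (nat_lit 5) (nat_lit 194) (nat_lit 5) (nat_lit 481) (nat_lit 395) (nat_lit 264))) (XT.nd (nat_lit 78) (nat_lit 380) (nat_lit 0) (XT.lf (nat_lit 0) (nat_lit 1831844189) (nat_lit 456) (nat_lit 5866594771) (nat_lit 76) (nat_lit 7151156959) (nat_lit 187) (nat_lit 5) (nat_lit 193) (nat_lit 5) (nat_lit 188) (nat_lit 5) (nat_lit 482) (nat_lit 395) (nat_lit 263)) (XT.nd (nat_lit 78) (nat_lit 0) (nat_lit 0) (XT.lf (nat_lit 0) (nat_lit 3873953374) (nat_lit 380) (nat_lit 1925571980) (nat_lit 456) (nat_lit 9223334175) (nat_lit 182) (nat_lit 5) (nat_lit 187) (nat_lit 5) (nat_lit 188) (nat_lit 5) (nat_lit 483) (nat_lit 395) (nat_lit 262)) (XT.lf (nat_lit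 0) (nat_lit 9896081403) (nat_lit 456) (nat_lit 1360575532) (nat_lit 76) (nat_lit 3941941050) (nat_lit 182) (nat_lit 5) (nat_lit 188) (nat_lit 5) (nat_lit 183) (nat_lit 5) (nat_lit 484) (nat_lit 395) (nat_lit 261))))) (XT.nd (nat_lit 234) (nat_lit 760) (nat_lit 0) (XT.nd (nat_lit 78) (nat_lit 456) (nat_lit 0) (XT.lf (nat_lit 0) (nat_lit 8700743477) (nat_lit 380) (nat_lit 5427542530) (nat_lit 456) (nat_lit 1248490853) (nat_lit 177) (nat_lit 5) (nat_lit 182) (nat_lit 5) (nat_lit 183) (nat_lit 5) (nat_lit 485) (nat_lit 395) (nat_lit 260)) (XT.nd (nat_lit 78) (nat_lit 0) (nat_lit 0) (XT.lf (nat_lit 0) (nat_lit 2868348226) (nat_lit 456) (nat_lit 12136133532) (nat_lit 76) (nat_lit 553270893) (nat_lit 171) (nat_lit 5) (nat_lit 177) (nat_lit 5) (nat_lit 172) (nat_lit 5) (nat_lit 486) (nat_lit 395) (nat_lit 259)) (XT.lf (nat_lit 0) (nat_lit 7116475069) (nat_lit 456) (nat_lit 1998516607) (nat_lit 76) (nat_lit 6625877865) (nat_lit 171) (nat_lit 5)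 (nat_lit 177) (nat_lit 5) (nat_lit 172) (nat_lit 5) (nat_lit 487) (nat_lit 395) (nat_lit 258)))) (XT.nd (nat_lit 78) (nat_lit 456) (nat_lit 0) (XT.lf (nat_lit 0) (nat_lit 8428595320) (nat_lit 304) (nat_lit 3060607154) (nat_lit 380) (nat_lit 4437653536) (nat_lit 167) (nat_lit 5) (nat_lit 171) (nat_lit 5) (nat_lit 172) (nat_lit 5) (nat_lit 488) (nat_lit 395) (nat_lit 257)) (XT.nd (nat_lit 78) (nat_lit 76) (nat_lit 0) (XT.lf (nat_lit 0) (nat_lit 2969797063) (nat_lit 380) (nat_lit 13017592745) (nat_lit 456) (nat_lit 128412291) (nat_lit 162) (nat_lit 5) (nat_lit 167) (nat_lit 5) (nat_lit 168) (nat_lit 5) (nat_lit 489) (nat_lit 395) (nat_lit 256)) (XT.lf (nat_lit 0) (nat_lit 4267012002) (nat_lit 456) (nat_lit 2630897670) (nat_lit 76) (nat_lit 9408944135) (nat_lit 161) (nat_lit 5) (nat_lit 167) (nat_lit 5) (nat_lit 162) (nat_lit 5) (nat_lit 490) (nat_lit 395) (nat_lit 255))))))))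
noncomputable def xc147 : XT := (XT.nd (nat_lit 52572) (nat_lit 0) (nat_lit 33136) (XT.nd (nat_lit 780) (nat_lit 532) (nat_lit 0) (XT.nd (nat_lit 390) (nat_lit 1064) (nat_lit 0) (XT.nd (nat_lit 156) (nat_lit 684) (nat_lit 0) (XT.nd (nat_lit 78) (nat_lit 380) (nat_lit 0) (XT.lf (nat_lit 0) (nat_lit 8177452007) (nat_lit 304) (nat_lit 609603143) (nat_lit 380) (nat_lit 7713885827) (nat_lit 157) (nat_lit 5) (nat_lit 161) (nat_lit 5) (nat_lit 162) (nat_lit 5) (nat_lit 491) (nat_lit 395) (nat_lit 254)) (XT.lf (nat_lit 0) (nat_lit 2510661326) (nat_lit 380) (nat_lit 10944010843) (nat_lit 456) (nat_lit 3243094261) (nat_lit 152) (nat_lit 5) (nat_lit 157) (nat_lit 5) (nat_lit 158) (nat_lit 5) (nat_lit 492) (nat_lit 395) (nat_lit 253))) (XT.nd (nat_lit 78) (nat_lit 608) (nat_lit 0) (XT.lf (nat_lit 0) (nat_lit 1345553471) (nat_lit 456) (nat_lit 3259624092) (nat_lit 76) (nat_lit 12292265507) (nat_lit 151) (nat_lit 5) (nat_lit 157) (nat_lit 5) (nat_lit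 152) (nat_lit 5) (nat_lit 493) (nat_lit 395) (nat_lit 252)) (XT.nd (nat_lit 78) (nat_lit 304) (nat_lit 0) (XT.lf (nat_lit 0) (nat_lit 6032423956) (nat_lit 380) (nat_lit 9166413676) (nat_lit 76) (nat_lit 1900849378) (nat_lit 147) (nat_lit 5) (nat_lit 152) (nat_lit 5) (nat_lit 148) (nat_lit 5) (nat_lit 494) (nat_lit 395) (nat_lit 251)) (XT.lf (nat_lit 0) (nat_lit 2061887827) (nat_lit 304) (nat_lit 8802858683) (nat_lit 380) (nat_lit 6440195026) (nat_lit 143) (nat_lit 5) (nat_lit 147) (nat_lit 5) (nat_lit 148) (nat_lit 5) (nat_lit 495) (nat_lit 395) (nat_lit 250))))) (XT.nd (nat_lit 156) (nat_lit 684) (nat_lit 0) (XT.nd (nat_lit 78) (nat_lit 380) (nat_lit 0) (XT.lf (nat_lit 0) (nat_lit 13615974157) (nat_lit 304) (nat_lit 2225192478) (nat_lit 380) (nat_lit 1672185495) (nat_lit 143) (nat_lit 5) (nat_lit 147) (nat_lit 5) (nat_lit 148) (nat_lit 5) (nat_lit 496) (nat_lit 395) (nat_lit 249)) (XT.lf (nat_lit 0) (nat_lit 3215189323) (nat_lit 380)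 (nat_lit 10021168671) (nat_lit 76) (nat_lit 4487841394) (nat_lit 138) (nat_lit 5) (nat_lit 143) (nat_lit 5) (nat_lit 139) (nat_lit 5) (nat_lit 497) (nat_lit 395) (nat_lit 248))) (XT.nd (nat_lit 78) (nat_lit 380) (nat_lit 0) (XT.lf (nat_lit 0) (nat_lit 1621991334) (nat_lit 304) (nat_lit 6593736473) (nat_lit 380) (nat_lit 9722558588) (nat_lit 134) (nat_lit 5) (nat_lit 138) (nat_lit 5) (nat_lit 139) (nat_lit 5) (nat_lit 498) (nat_lit 395) (nat_lit 247)) (XT.nd (nat_lit 78) (nat_lit 380) (nat_lit 0) (XT.lf (nat_lit 0) (nat_lit 13371406445) (nat_lit 380) (nat_lit 4545981185) (nat_lit 76) (nat_lit 238164923) (nat_lit 134) (nat_lit 5) (nat_lit 139) (nat_lit 5) (nat_lit 135) (nat_lit 5) (nat_lit 499) (nat_lit 395) (nat_lit 246)) (XT.lf (nat_lit 0) (nat_lit 329073724) (nat_lit 380) (nat_lit 10885873896) (nat_lit 76) (nat_lit 7160596404) (nat_lit 129) (nat_lit 5) (nat_lit 134) (nat_lit 5) (nat_lit 130) (nat_lit 5) (nat_lit 500) (nat_lit 395) (nat_lit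 245)))))) (XT.nd (nat_lit 51324) (nat_lit 0) (nat_lit 42712) (XT.nd (nat_lit 156) (nat_lit 228) (nat_lit 0) (XT.nd (nat_lit 78) (nat_lit 0) (nat_lit 0) (XT.lf (nat_lit 0) (nat_lit 1189565758) (nat_lit 304) (nat_lit 4315980944) (nat_lit 380) (nat_lit 13093255188) (nat_lit 125) (nat_lit 5) (nat_lit 129) (nat_lit 5) (nat_lit 130) (nat_lit 5) (nat_lit 501) (nat_lit 395) (nat_lit 244)) (XT.lf (nat_lit 0) (nat_lit 10863366433) (nat_lit 380) (nat_lit 5211680721) (nat_lit 76) (nat_lit 2749921413) (nat_lit 125) (nat_lit 5) (nat_lit 130) (nat_lit 5) (nat_lit 126) (nat_lit 5) (nat_lit 502) (nat_lit 395) (nat_lit 243))) (XT.nd (nat_lit 51012) (nat_lit 0) (nat_lit 44840) (XT.lf (nat_lit 0) (nat_lit 7274550360) (nat_lit 228) (nat_lit 9116485730) (nat_lit 304) (nat_lit 2663368619) (nat_lit 122) (nat_lit 5) (nat_lit 125) (nat_lit 5) (nat_lit 126) (nat_lit 5) (nat_lit 503) (nat_lit 395) (nat_lit 242)) (XT.nd (nat_lit 78) (nat_lit 0) (nat_lit 0) (XT.lf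 (nat_lit 0) (nat_lit 575674096) (nat_lit 0) (nat_lit 575674096) (nat_lit 988) (nat_lit 2312382888) (nat_lit 712) (nat_lit 5) (nat_lit 712) (nat_lit 3) (nat_lit 725) (nat_lit 3) (nat_lit 396) (nat_lit 396) (nat_lit 348)) (XT.lf (nat_lit 0) (nat_lit 4240728854) (nat_lit 988) (nat_lit 2302450779) (nat_lit 1064) (nat_lit 415257040) (nat_lit 712) (nat_lit 5) (nat_lit 725) (nat_lit 3) (nat_lit 726) (nat_lit 5) (nat_lit 397) (nat_lit 396) (nat_lit 347))))) (XT.nd (nat_lit 234) (nat_lit 1064) (nat_lit 0) (XT.nd (nat_lit 78) (nat_lit 1064) (nat_lit 0) (XT.lf (nat_lit 76) (nat_lit 1222852949) (nat_lit 0) (nat_lit 4960236629) (nat_lit 1064) (nat_lit 807629745) (nat_lit 713) (nat_lit 5) (nat_lit 712) (nat_lit 5) (nat_lit 726) (nat_lit 5) (nat_lit 398) (nat_lit 396) (nat_lit 346)) (XT.nd (nat_lit 78) (nat_lit 0) (nat_lit 0) (XT.lf (nat_lit 0) (nat_lit 1091731564) (nat_lit 1064) (nat_lit 2207704861) (nat_lit 1140) (nat_lit 3724742253) (nat_lit 698)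 (nat_lit 5) (nat_lit 712) (nat_lit 5) (nat_lit 713) (nat_lit 5) (nat_lit 399) (nat_lit 396) (nat_lit 345)) (XT.lf (nat_lit 76) (nat_lit 1410604663) (nat_lit 0) (nat_lit 1568289301) (nat_lit 1140) (nat_lit 4080093928) (nat_lit 699) (nat_lit 5) (nat_lit 698) (nat_lit 5) (nat_lit 713) (nat_lit 5) (nat_lit 400) (nat_lit 396) (nat_lit 344)))) (XT.nd (nat_lit 78) (nat_lit 1140) (nat_lit 0) (XT.lf (nat_lit 0) (nat_lit 4872377884) (nat_lit 1064) (nat_lit 1991501677) (nat_lit 1140) (nat_lit 231242163) (nat_lit 699) (nat_lit 5) (nat_lit 713) (nat_lit 5) (nat_lit 714) (nat_lit 5) (nat_lit 401) (nat_lit 396) (nat_lit 343)) (XT.nd (nat_lit 78) (nat_lit 1140) (nat_lit 0) (XT.lf (nat_lit 76) (nat_lit 1724145137) (nat_lit 0) (nat_lit 5054483448) (nat_lit 1140) (nat_lit 353851706) (nat_lit 700) (nat_lit 5) (nat_lit 699) (nat_lit 5) (nat_lit 714) (nat_lit 5) (nat_lit 402) (nat_lit 396) (nat_lit 342)) (XT.lf (nat_lit 0) (nat_lit 1499266901) (nat_lit 1140)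 (nat_lit 1666424745) (nat_lit 1216) (nat_lit 4005348618) (nat_lit 684) (nat_lit 5) (nat_lit 699) (nat_lit 5) (nat_lit 700) (nat_lit 5) (nat_lit 403) (nat_lit 396) (nat_lit 341))))))) (XT.nd (nat_lit 780) (nat_lit 7220) (nat_lit 0) (XT.nd (nat_lit 390) (nat_lit 1216) (nat_lit 0) (XT.nd (nat_lit 156) (nat_lit 1140) (nat_lit 0) (XT.nd (nat_lit 78) (nat_lit 0) (nat_lit 76) (XT.lf (nat_lit 76) (nat_lit 2149665515) (nat_lit 0) (nat_lit 1203668862) (nat_lit 1216) (nat_lit 3857617791) (nat_lit 685) (nat_lit 5) (nat_lit 684) (nat_lit 5) (nat_lit 700) (nat_lit 5) (nat_lit 404) (nat_lit 396) (nat_lit 340)) (XT.lf (nat_lit 0) (nat_lit 5216418147) (nat_lit 1140) (nat_lit 1219369737) (nat_lit 1216) (nat_lit 816435726) (nat_lit 685) (nat_lit 5) (nat_lit 700) (nat_lit 5) (nat_lit 701) (nat_lit 5) (nat_lit 405) (nat_lit 396) (nat_lit 339))) (XT.nd (nat_lit 78) (nat_lit 1216) (nat_lit 0) (XT.lf (nat_lit 76) (nat_lit 2700016660) (nat_lit 0) (nat_lit 4398620889)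 (nat_lit 1216) (nat_lit 196045453) (nat_lit 686) (nat_lit 5) (nat_lit 685) (nat_lit 5) (nat_lit 701) (nat_lit 5) (nat_lit 406) (nat_lit 396) (nat_lit 338)) (XT.nd (nat_lit 78) (nat_lit 0) (nat_lit 0) (XT.lf (nat_lit 0) (nat_lit 1623476837) (nat_lit 1216) (nat_lit 661680308) (nat_lit 1292) (nat_lit 5053316072) (nat_lit 669) (nat_lit 5) (nat_lit 685) (nat_lit 5) (nat_lit 686) (nat_lit 5) (nat_lit 407) (nat_lit 396) (nat_lit 337)) (XT.lf (nat_lit 76) (nat_lit 3366141281) (nat_lit 0) (nat_lit 90099023) (nat_lit 1292) (nat_lit 3927283498) (nat_lit 670) (nat_lit 5) (nat_lit 669) (nat_lit 5) (nat_lit 686) (nat_lit 5) (nat_lit 408) (nat_lit 396) (nat_lit 336))))) (XT.nd (nat_lit 156) (nat_lit 1292) (nat_lit 0) (XT.nd (nat_lit 78) (nat_lit 0) (nat_lit 0) (XT.lf (nat_lit 76) (nat_lit 12858134) (nat_lit 0) (nat_lit 5289681775) (nat_lit 1292) (nat_lit 2127397874) (nat_lit 671) (nat_lit 5) (nat_lit 670) (nat_lit 5) (nat_lit 687) (nat_lit 5) (nat_lit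 409) (nat_lit 396) (nat_lit 335)) (XT.lf (nat_lit 76) (nat_lit 4150304912) (nat_lit 0) (nat_lit 3022027260) (nat_lit 1292) (nat_lit 305216537) (nat_lit 671) (nat_lit 5) (nat_lit 670) (nat_lit 5) (nat_lit 687) (nat_lit 5) (nat_lit 410) (nat_lit 396) (nat_lit 334))) (XT.nd (nat_lit 78) (nat_lit 0) (nat_lit 76) (XT.lf (nat_lit 76) (nat_lit 817774316) (nat_lit 0) (nat_lit 680123093) (nat_lit 1368) (nat_lit 6028715486) (nat_lit 654) (nat_lit 5) (nat_lit 653) (nat_lit 5) (nat_lit 671) (nat_lit 5) (nat_lit 411) (nat_lit 396) (nat_lit 333)) (XT.nd (nat_lit 78) (nat_lit 0) (nat_lit 0) (XT.lf (nat_lit 0) (nat_lit 3326812314) (nat_lit 1292) (nat_lit 2526634078) (nat_lit 1368) (nat_lit 1723295113) (nat_lit 654) (nat_lit 5) (nat_lit 671) (nat_lit 5) (nat_lit 672) (nat_lit 5) (nat_lit 412) (nat_lit 396) (nat_lit 332)) (XT.lf (nat_lit 76) (nat_lit 1729993616) (nat_lit 0) (nat_lit 3439080445) (nat_lit 1368) (nat_lit 2459263254) (nat_lit 655) (nat_lit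 5) (nat_lit 654) (nat_lit 5) (nat_lit 672) (nat_lit 5) (nat_lit 413) (nat_lit 396) (nat_lit 331)))))) (XT.nd (nat_lit 390) (nat_lit 4712) (nat_lit 0) (XT.nd (nat_lit 156) (nat_lit 1292) (nat_lit 0) (XT.nd (nat_lit 78) (nat_lit 1292) (nat_lit 0) (XT.lf (nat_lit 76) (nat_lit 6078777409) (nat_lit 0) (nat_lit 947978142) (nat_lit 1368) (nat_lit 654638002) (nat_lit 655) (nat_lit 5) (nat_lit 654) (nat_lit 5) (nat_lit 672) (nat_lit 5) (nat_lit 414) (nat_lit 396) (nat_lit 330)) (XT.lf (nat_lit 0) (nat_lit 1161282797) (nat_lit 1368) (nat_lit 4965737737) (nat_lit 1444) (nat_lit 1608521189) (nat_lit 637) (nat_lit 5) (nat_lit 655) (nat_lit 5) (nat_lit 656) (nat_lit 5) (nat_lit 415) (nat_lit 396) (nat_lit 329))) (XT.nd (nat_lit 78) (nat_lit 1292) (nat_lit 0) (XT.lf (nat_lit 0) (nat_lit 2984625169) (nat_lit 1368) (nat_lit 577675231) (nat_lit 1444) (nat_lit 4228788540) (nat_lit 637) (nat_lit 5) (nat_lit 655) (nat_lit 5) (nat_lit 656) (nat_lit 5) (nat_lit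 416) (nat_lit 396) (nat_lit 328)) (XT.nd (nat_lit 78) (nat_lit 1292) (nat_lit 0) (XT.lf (nat_lit 76) (nat_lit 3922306661) (nat_lit 0) (nat_lit 911081143) (nat_lit 1444) (nat_lit 3014580228) (nat_lit 638) (nat_lit 5) (nat_lit 637) (nat_lit 5) (nat_lit 656) (nat_lit 5) (nat_lit 417) (nat_lit 396) (nat_lit 327)) (XT.lf (nat_lit 0) (nat_lit 582299280) (nat_lit 1368) (nat_lit 6120236405) (nat_lit 1444) (nat_lit 1203780822) (nat_lit 620) (nat_lit 5) (nat_lit 638) (nat_lit 5) (nat_lit 639) (nat_lit 5) (nat_lit 418) (nat_lit 396) (nat_lit 326))))) (XT.nd (nat_lit 234) (nat_lit 3192) (nat_lit 0) (XT.nd (nat_lit 78) (nat_lit 1444) (nat_lit 0) (XT.lf (nat_lit 0) (nat_lit 631724551) (nat_lit 1444) (nat_lit 2770228154) (nat_lit 76) (nat_lit 4563857197) (nat_lit 619) (nat_lit 5) (nat_lit 638) (nat_lit 5) (nat_lit 620) (nat_lit 5) (nat_lit 419) (nat_lit 396) (nat_lit 325)) (XT.nd (nat_lit 78) (nat_lit 0) (nat_lit 0) (XT.lf (nat_lit 0) (nat_lit 1863485795)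 (nat_lit 1444) (nat_lit 601522952) (nat_lit 1520) (nat_lit 5561781532) (nat_lit 600) (nat_lit 5) (nat_lit 619) (nat_lit 5) (nat_lit 620) (nat_lit 5) (nat_lit 420) (nat_lit 396) (nat_lit 324)) (XT.lf (nat_lit 0) (nat_lit 4333937157) (nat_lit 1520) (nat_lit 1504127624) (nat_lit 76) (nat_lit 2250945912) (nat_lit 600) (nat_lit 5) (nat_lit 620) (nat_lit 5) (nat_lit 601) (nat_lit 5) (nat_lit 421) (nat_lit 396) (nat_lit 323)))) (XT.nd (nat_lit 78) (nat_lit 1672) (nat_lit 0) (XT.lf (nat_lit 0) (nat_lit 3259378043) (nat_lit 1520) (nat_lit 2972311067) (nat_lit 1596) (nat_lit 1920957506) (nat_lit 580) (nat_lit 5) (nat_lit 600) (nat_lit 5) (nat_lit 601) (nat_lit 5) (nat_lit 422) (nat_lit 396) (nat_lit 322)) (XT.nd (nat_lit 78) (nat_lit 1672) (nat_lit 0) (XT.lf (nat_lit 0) (nat_lit 8111105907) (nat_lit 1520) (nat_lit 33165680) (nat_lit 1596) (nat_lit 73746160) (nat_lit 580) (nat_lit 5) (nat_lit 600) (nat_lit 5) (nat_lit 601) (nat_lit 5) (nat_lit 423)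 (nat_lit 396) (nat_lit 321)) (XT.lf (nat_lit 0) (nat_lit 1804610433) (nat_lit 1672) (nat_lit 3505039205) (nat_lit 76) (nat_lit 2974452678) (nat_lit 558) (nat_lit 5) (nat_lit 580) (nat_lit 5) (nat_lit 559) (nat_lit 5) (nat_lit 424) (nat_lit 396) (nat_lit 320))))))))
noncomputable def xc148 : XT := (XT.nd (nat_lit 1560) (nat_lit 9272) (nat_lit 0) (XT.nd (nat_lit 780) (nat_lit 5092) (nat_lit 0) (XT.nd (nat_lit 390) (nat_lit 3040) (nat_lit 0) (XT.nd (nat_lit 156) (nat_lit 3648) (nat_lit 0) (XT.nd (nat_lit 78) (nat_lit 0) (nat_lit 0) (XT.lf (nat_lit 0) (nat_lit 1402560160) (nat_lit 1672) (nat_lit 2294753288) (nat_lit 1748) (nat_lit 4654630043) (nat_lit 536) (nat_lit 5) (nat_lit 558) (nat_lit 5) (nat_lit 559) (nat_lit 5) (nat_lit 425) (nat_lit 396) (nat_lit 319)) (XT.lf (nat_lit 0) (nat_lit 5624812321) (nat_lit 1748) (nat_lit 1998385765) (nat_lit 76) (nat_lit 798004569) (nat_lit 536) (nat_lit 5) (nat_lit 559) (nat_lit 5) (nat_lit 537) (nat_lit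 5) (nat_lit 426) (nat_lit 396) (nat_lit 318))) (XT.nd (nat_lit 78) (nat_lit 1900) (nat_lit 0) (XT.lf (nat_lit 0) (nat_lit 3048658590) (nat_lit 1748) (nat_lit 4546015332) (nat_lit 1824) (nat_lit 897096825) (nat_lit 513) (nat_lit 5) (nat_lit 536) (nat_lit 5) (nat_lit 537) (nat_lit 5) (nat_lit 427) (nat_lit 396) (nat_lit 317)) (XT.nd (nat_lit 78) (nat_lit 1824) (nat_lit 0) (XT.lf (nat_lit 0) (nat_lit 1009089870) (nat_lit 1824) (nat_lit 374580382) (nat_lit 76) (nat_lit 7180293888) (nat_lit 512) (nat_lit 5) (nat_lit 536) (nat_lit 5) (nat_lit 513) (nat_lit 5) (nat_lit 428) (nat_lit 396) (nat_lit 316)) (XT.lf (nat_lit 0) (nat_lit 2954609929) (nat_lit 1900) (nat_lit 3824462529) (nat_lit 76) (nat_lit 1858145911) (nat_lit 488) (nat_lit 5) (nat_lit 513) (nat_lit 5) (nat_lit 489) (nat_lit 5) (nat_lit 429) (nat_lit 396) (nat_lit 315))))) (XT.nd (nat_lit 156) (nat_lit 1900) (nat_lit 0) (XT.nd (nat_lit 78) (nat_lit 0) (nat_lit 0) (XT.lf (nat_lit 0)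 (nat_lit 1378047244) (nat_lit 1140) (nat_lit 3551726598) (nat_lit 1216) (nat_lit 3782349172) (nat_lit 473) (nat_lit 5) (nat_lit 488) (nat_lit 5) (nat_lit 489) (nat_lit 5) (nat_lit 430) (nat_lit 396) (nat_lit 314)) (XT.lf (nat_lit 0) (nat_lit 6708757216) (nat_lit 1140) (nat_lit 231847198) (nat_lit 1216) (nat_lit 1847998069) (nat_lit 473) (nat_lit 5) (nat_lit 488) (nat_lit 5) (nat_lit 489) (nat_lit 5) (nat_lit 431) (nat_lit 396) (nat_lit 313))) (XT.nd (nat_lit 78) (nat_lit 912) (nat_lit 0) (XT.lf (nat_lit 0) (nat_lit 136313152) (nat_lit 988) (nat_lit 5593059550) (nat_lit 76) (nat_lit 3136964344) (nat_lit 460) (nat_lit 5) (nat_lit 473) (nat_lit 5) (nat_lit 461) (nat_lit 5) (nat_lit 432) (nat_lit 396) (nat_lit 312)) (XT.nd (nat_lit 78) (nat_lit 912) (nat_lit 0) (XT.lf (nat_lit 0) (nat_lit 2122461995) (nat_lit 988) (nat_lit 225495491) (nat_lit 76) (nat_lit 6597686586) (nat_lit 460) (nat_lit 5) (nat_lit 473) (nat_lit 5) (nat_lit 461) (nat_lit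 5) (nat_lit 433) (nat_lit 396) (nat_lit 311)) (XT.lf (nat_lit 0) (nat_lit 4161921939) (nat_lit 988) (nat_lit 3742366515) (nat_lit 76) (nat_lit 1121977023) (nat_lit 448) (nat_lit 5) (nat_lit 461) (nat_lit 5) (nat_lit 449) (nat_lit 5) (nat_lit 434) (nat_lit 396) (nat_lit 310)))))) (XT.nd (nat_lit 390) (nat_lit 2432) (nat_lit 0) (XT.nd (nat_lit 156) (nat_lit 1824) (nat_lit 0) (XT.nd (nat_lit 78) (nat_lit 0) (nat_lit 0) (XT.lf (nat_lit 0) (nat_lit 1778060289) (nat_lit 836) (nat_lit 4464957912) (nat_lit 912) (nat_lit 2865464165) (nat_lit 437) (nat_lit 5) (nat_lit 448) (nat_lit 5) (nat_lit 449) (nat_lit 5) (nat_lit 435) (nat_lit 396) (nat_lit 309)) (XT.lf (nat_lit 0) (nat_lit 7432038289) (nat_lit 836) (nat_lit 931406919) (nat_lit 912) (nat_lit 828944209) (nat_lit 437) (nat_lit 5) (nat_lit 448) (nat_lit 5) (nat_lit 449) (nat_lit 5) (nat_lit 436) (nat_lit 396) (nat_lit 308))) (XT.nd (nat_lit 78) (nat_lit 836) (nat_lit 0) (XT.lf (nat_lit 0) (nat_lit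 1248026925) (nat_lit 988) (nat_lit 5358166943) (nat_lit 76) (nat_lit 2671296794) (nat_lit 424) (nat_lit 5) (nat_lit 437) (nat_lit 5) (nat_lit 425) (nat_lit 5) (nat_lit 437) (nat_lit 396) (nat_lit 307)) (XT.nd (nat_lit 78) (nat_lit 0) (nat_lit 0) (XT.lf (nat_lit 0) (nat_lit 337329677) (nat_lit 836) (nat_lit 3011673218) (nat_lit 912) (nat_lit 6015310151) (nat_lit 413) (nat_lit 5) (nat_lit 424) (nat_lit 5) (nat_lit 425) (nat_lit 5) (nat_lit 438) (nat_lit 396) (nat_lit 306)) (XT.lf (nat_lit 0) (nat_lit 5506085162) (nat_lit 912) (nat_lit 3265365448) (nat_lit 76) (nat_lit 681139533) (nat_lit 413) (nat_lit 5) (nat_lit 425) (nat_lit 5) (nat_lit 414) (nat_lit 5) (nat_lit 439) (nat_lit 396) (nat_lit 305))))) (XT.nd (nat_lit 156) (nat_lit 1520) (nat_lit 0) (XT.nd (nat_lit 78) (nat_lit 76) (nat_lit 0) (XT.lf (nat_lit 0) (nat_lit 2598073816) (nat_lit 836) (nat_lit 5119206907) (nat_lit 912) (nat_lit 1825132625) (nat_lit 402) (nat_lit 5) (nat_lit 413)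 (nat_lit 5) (nat_lit 414) (nat_lit 5) (nat_lit 440) (nat_lit 396) (nat_lit 304)) (XT.lf (nat_lit 0) (nat_lit 330601414) (nat_lit 912) (nat_lit 1040594457) (nat_lit 76) (nat_lit 8262865650) (nat_lit 401) (nat_lit 5) (nat_lit 413) (nat_lit 5) (nat_lit 402) (nat_lit 5) (nat_lit 441) (nat_lit 396) (nat_lit 303))) (XT.nd (nat_lit 78) (nat_lit 760) (nat_lit 0) (XT.lf (nat_lit 0) (nat_lit 2528570595) (nat_lit 836) (nat_lit 4735697733) (nat_lit 76) (nat_lit 2462561868) (nat_lit 391) (nat_lit 5) (nat_lit 402) (nat_lit 5) (nat_lit 392) (nat_lit 5) (nat_lit 442) (nat_lit 396) (nat_lit 302)) (XT.nd (nat_lit 78) (nat_lit 0) (nat_lit 0) (XT.lf (nat_lit 0) (nat_lit 1316968041) (nat_lit 760) (nat_lit 3453318502) (nat_lit 836) (nat_lit 5051171954) (nat_lit 381) (nat_lit 5) (nat_lit 391) (nat_lit 5) (nat_lit 392) (nat_lit 5) (nat_lit 443) (nat_lit 396) (nat_lit 301)) (XT.lf (nat_lit 0) (nat_lit 7067062869) (nat_lit 836) (nat_lit 2393245343) (nat_lit 76)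 (nat_lit 457466631) (nat_lit 381) (nat_lit 5) (nat_lit 392) (nat_lit 5) (nat_lit 382) (nat_lit 5) (nat_lit 444) (nat_lit 396) (nat_lit 300))))))) (XT.nd (nat_lit 780) (nat_lit 4180) (nat_lit 0) (XT.nd (nat_lit 390) (nat_lit 2812) (nat_lit 0) (XT.nd (nat_lit 156) (nat_lit 684) (nat_lit 0) (XT.nd (nat_lit 78) (nat_lit 836) (nat_lit 0) (XT.lf (nat_lit 0) (nat_lit 3840513234) (nat_lit 760) (nat_lit 5592968004) (nat_lit 836) (nat_lit 582062147) (nat_lit 371) (nat_lit 5) (nat_lit 381) (nat_lit 5) (nat_lit 382) (nat_lit 5) (nat_lit 445) (nat_lit 396) (nat_lit 299)) (XT.lf (nat_lit 0) (nat_lit 78773502) (nat_lit 760) (nat_lit 1623191022) (nat_lit 836) (nat_lit 8413223497) (nat_lit 360) (nat_lit 5) (nat_lit 370) (nat_lit 5) (nat_lit 371) (nat_lit 5) (nat_lit 446) (nat_lit 396) (nat_lit 298))) (XT.nd (nat_lit 78) (nat_lit 684) (nat_lit 0) (XT.lf (nat_lit 0) (nat_lit 4057660112) (nat_lit 836) (nat_lit 3722140432) (nat_lit 76) (nat_lit 2436272413)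 (nat_lit 360) (nat_lit 5) (nat_lit 371) (nat_lit 5) (nat_lit 361) (nat_lit 5) (nat_lit 447) (nat_lit 396) (nat_lit 297)) (XT.nd (nat_lit 78) (nat_lit 0) (nat_lit 0) (XT.lf (nat_lit 0) (nat_lit 2716213942) (nat_lit 684) (nat_lit 3749416920) (nat_lit 760) (nat_lit 3853241505) (nat_lit 351) (nat_lit 5) (nat_lit 360) (nat_lit 5) (nat_lit 361) (nat_lit 5) (nat_lit 448) (nat_lit 396) (nat_lit 296)) (XT.lf (nat_lit 0) (nat_lit 8926282735) (nat_lit 760) (nat_lit 1119285445) (nat_lit 76) (nat_lit 378069150) (nat_lit 351) (nat_lit 5) (nat_lit 361) (nat_lit 5) (nat_lit 352) (nat_lit 5) (nat_lit 449) (nat_lit 396) (nat_lit 295))))) (XT.nd (nat_lit 156) (nat_lit 1368) (nat_lit 0) (XT.nd (nat_lit 78) (nat_lit 684) (nat_lit 0) (XT.lf (nat_lit 0) (nat_lit 932140304) (nat_lit 760) (nat_lit 5021418641) (nat_lit 76) (nat_lit 4576053687) (nat_lit 341) (nat_lit 5) (nat_lit 351) (nat_lit 5) (nat_lit 342) (nat_lit 5) (nat_lit 450) (nat_lit 396) (nat_lit 294))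 (XT.lf (nat_lit 0) (nat_lit 1630334530) (nat_lit 684) (nat_lit 1755608586) (nat_lit 760) (nat_lit 7251651020) (nat_lit 332) (nat_lit 5) (nat_lit 341) (nat_lit 5) (nat_lit 342) (nat_lit 5) (nat_lit 451) (nat_lit 396) (nat_lit 293))) (XT.nd (nat_lit 78) (nat_lit 1368) (nat_lit 0) (XT.lf (nat_lit 0) (nat_lit 5916982416) (nat_lit 760) (nat_lit 2307652702) (nat_lit 76) (nat_lit 2522536945) (nat_lit 332) (nat_lit 5) (nat_lit 342) (nat_lit 5) (nat_lit 333) (nat_lit 5) (nat_lit 452) (nat_lit 396) (nat_lit 292)) (XT.nd (nat_lit 78) (nat_lit 684) (nat_lit 0) (XT.lf (nat_lit 0) (nat_lit 4547336179) (nat_lit 684) (nat_lit 3970730222) (nat_lit 760) (nat_lit 2340486669) (nat_lit 323) (nat_lit 5) (nat_lit 332) (nat_lit 5) (nat_lit 333) (nat_lit 5) (nat_lit 453) (nat_lit 396) (nat_lit 291)) (XT.lf (nat_lit 0) (nat_lit 196622681) (nat_lit 684) (nat_lit 10396366840) (nat_lit 76) (nat_lit 379141887) (nat_lit 314) (nat_lit 5) (nat_lit 323) (nat_lit 5) (nat_lit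 315) (nat_lit 5) (nat_lit 454) (nat_lit 396) (nat_lit 290)))))) (XT.nd (nat_lit 390) (nat_lit 2280) (nat_lit 0) (XT.nd (nat_lit 156) (nat_lit 1292) (nat_lit 0) (XT.nd (nat_lit 78) (nat_lit 608) (nat_lit 0) (XT.lf (nat_lit 0) (nat_lit 2800695467) (nat_lit 684) (nat_lit 3470127526) (nat_lit 76) (nat_lit 4815897700) (nat_lit 314) (nat_lit 5) (nat_lit 323) (nat_lit 5) (nat_lit 315) (nat_lit 5) (nat_lit 455) (nat_lit 396) (nat_lit 289)) (XT.lf (nat_lit 0) (nat_lit 3615632226) (nat_lit 608) (nat_lit 1843714901) (nat_lit 684) (nat_lit 5744204688) (nat_lit 306) (nat_lit 5) (nat_lit 314) (nat_lit 5) (nat_lit 315) (nat_lit 5) (nat_lit 456) (nat_lit 396) (nat_lit 288))) (XT.nd (nat_lit 78) (nat_lit 1292) (nat_lit 0) (XT.lf (nat_lit 0) (nat_lit 8191187826) (nat_lit 684) (nat_lit 476239469) (nat_lit 76) (nat_lit 2654891943) (nat_lit 306) (nat_lit 5) (nat_lit 315) (nat_lit 5) (nat_lit 307) (nat_lit 5) (nat_lit 457) (nat_lit 396) (nat_lit 287)) (XT.nd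 (nat_lit 78) (nat_lit 684) (nat_lit 0) (XT.lf (nat_lit 0) (nat_lit 6828919758) (nat_lit 608) (nat_lit 4184928228) (nat_lit 684) (nat_lit 428890374) (nat_lit 298) (nat_lit 5) (nat_lit 306) (nat_lit 5) (nat_lit 307) (nat_lit 5) (nat_lit 458) (nat_lit 396) (nat_lit 286)) (XT.lf (nat_lit 0) (nat_lit 2300164524) (nat_lit 684) (nat_lit 8852553561) (nat_lit 76) (nat_lit 412479692) (nat_lit 289) (nat_lit 5) (nat_lit 298) (nat_lit 5) (nat_lit 290) (nat_lit 5) (nat_lit 459) (nat_lit 396) (nat_lit 285))))) (XT.nd (nat_lit 234) (nat_lit 1140) (nat_lit 0) (XT.nd (nat_lit 78) (nat_lit 1140) (nat_lit 0) (XT.lf (nat_lit 0) (nat_lit 5116865801) (nat_lit 684) (nat_lit 1498463514) (nat_lit 76) (nat_lit 5073944206) (nat_lit 289) (nat_lit 5) (nat_lit 298) (nat_lit 5) (nat_lit 290) (nat_lit 5) (nat_lit 460) (nat_lit 396) (nat_lit 284)) (XT.nd (nat_lit 78) (nat_lit 608) (nat_lit 0) (XT.lf (nat_lit 0) (nat_lit 6056260772) (nat_lit 532) (nat_lit 1953277087) (nat_lit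 608) (nat_lit 3805900185) (nat_lit 282) (nat_lit 5) (nat_lit 289) (nat_lit 5) (nat_lit 290) (nat_lit 5) (nat_lit 461) (nat_lit 396) (nat_lit 283)) (XT.lf (nat_lit 0) (nat_lit 1817996007) (nat_lit 608) (nat_lit 9162679652) (nat_lit 684) (nat_lit 963037953) (nat_lit 274) (nat_lit 5) (nat_lit 282) (nat_lit 5) (nat_lit 283) (nat_lit 5) (nat_lit 462) (nat_lit 396) (nat_lit 282)))) (XT.nd (nat_lit 78) (nat_lit 1064) (nat_lit 0) (XT.lf (nat_lit 0) (nat_lit 1943700959) (nat_lit 684) (nat_lit 2500909322) (nat_lit 76) (nat_lit 7629044540) (nat_lit 273) (nat_lit 5) (nat_lit 282) (nat_lit 5) (nat_lit 274) (nat_lit 5) (nat_lit 463) (nat_lit 396) (nat_lit 281)) (XT.nd (nat_lit 78) (nat_lit 532) (nat_lit 0) (XT.lf (nat_lit 0) (nat_lit 4913771727) (nat_lit 608) (nat_lit 6894290674) (nat_lit 76) (nat_lit 397643295) (nat_lit 266) (nat_lit 5) (nat_lit 274) (nat_lit 5) (nat_lit 267) (nat_lit 5) (nat_lit 464) (nat_lit 396) (nat_lit 280)) (XT.lf (nat_lit 0)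 (nat_lit 930690843) (nat_lit 532) (nat_lit 7046050218) (nat_lit 608) (nat_lit 4362986585) (nat_lit 259) (nat_lit 5) (nat_lit 266) (nat_lit 5) (nat_lit 267) (nat_lit 5) (nat_lit 465) (nat_lit 396) (nat_lit 279))))))))
noncomputable def xc149 : XT := (XT.nd (nat_lit 1560) (nat_lit 3952) (nat_lit 0) (XT.nd (nat_lit 780) (nat_lit 3040) (nat_lit 0) (XT.nd (nat_lit 390) (nat_lit 1596) (nat_lit 0) (XT.nd (nat_lit 156) (nat_lit 988) (nat_lit 0) (XT.nd (nat_lit 78) (nat_lit 608) (nat_lit 0) (XT.lf (nat_lit 0) (nat_lit 8980001528) (nat_lit 532) (nat_lit 2148562697) (nat_lit 608) (nat_lit 1347313922) (nat_lit 259) (nat_lit 5) (nat_lit 266) (nat_lit 5) (nat_lit 267) (nat_lit 5) (nat_lit 466) (nat_lit 396) (nat_lit 278)) (XT.lf (nat_lit 0) (nat_lit 1736147699) (nat_lit 608) (nat_lit 8033732652) (nat_lit 76) (nat_lit 2844043885) (nat_lit 251) (nat_lit 5) (nat_lit 259) (nat_lit 5) (nat_lit 252) (nat_lit 5) (nat_lit 467) (nat_lit 396) (nat_lit 277)))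 (XT.nd (nat_lit 78) (nat_lit 456) (nat_lit 0) (XT.lf (nat_lit 0) (nat_lit 62905576) (nat_lit 532) (nat_lit 4820328526) (nat_lit 608) (nat_lit 7870919108) (nat_lit 244) (nat_lit 5) (nat_lit 251) (nat_lit 5) (nat_lit 252) (nat_lit 5) (nat_lit 468) (nat_lit 396) (nat_lit 276)) (XT.nd (nat_lit 78) (nat_lit 456) (nat_lit 0) (XT.lf (nat_lit 0) (nat_lit 8130885396) (nat_lit 608) (nat_lit 4493237034) (nat_lit 76) (nat_lit 272311871) (nat_lit 244) (nat_lit 5) (nat_lit 252) (nat_lit 5) (nat_lit 245) (nat_lit 5) (nat_lit 469) (nat_lit 396) (nat_lit 275)) (XT.lf (nat_lit 0) (nat_lit 3862303455) (nat_lit 456) (nat_lit 7620414860) (nat_lit 532) (nat_lit 1558058126) (nat_lit 238) (nat_lit 5) (nat_lit 244) (nat_lit 5) (nat_lit 245) (nat_lit 5) (nat_lit 470) (nat_lit 396) (nat_lit 274))))) (XT.nd (nat_lit 156) (nat_lit 988) (nat_lit 0) (XT.nd (nat_lit 78) (nat_lit 532) (nat_lit 0) (XT.lf (nat_lit 0) (nat_lit 1703759147) (nat_lit 532) (nat_lit 778098132)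 (nat_lit 76) (nat_lit 10705672619) (nat_lit 237) (nat_lit 5) (nat_lit 244) (nat_lit 5) (nat_lit 238) (nat_lit 5) (nat_lit 471) (nat_lit 396) (nat_lit 273)) (XT.lf (nat_lit 0) (nat_lit 5061911747) (nat_lit 608) (nat_lit 5496321826) (nat_lit 76) (nat_lit 2777739648) (nat_lit 230) (nat_lit 5) (nat_lit 238) (nat_lit 5) (nat_lit 231) (nat_lit 5) (nat_lit 472) (nat_lit 396) (nat_lit 272))) (XT.nd (nat_lit 78) (nat_lit 532) (nat_lit 0) (XT.lf (nat_lit 0) (nat_lit 3153034113) (nat_lit 456) (nat_lit 5359135740) (nat_lit 532) (nat_lit 4974716708) (nat_lit 224) (nat_lit 5) (nat_lit 230) (nat_lit 5) (nat_lit 231) (nat_lit 5) (nat_lit 473) (nat_lit 396) (nat_lit 271)) (XT.nd (nat_lit 78) (nat_lit 532) (nat_lit 0) (XT.lf (nat_lit 0) (nat_lit 12025174846) (nat_lit 456) (nat_lit 26097449) (nat_lit 532) (nat_lit 1589149090) (nat_lit 224) (nat_lit 5) (nat_lit 230) (nat_lit 5) (nat_lit 231) (nat_lit 5) (nat_lit 474) (nat_lit 396) (nat_lit 270)) (XT.lf (nat_lit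 0) (nat_lit 1905995170) (nat_lit 532) (nat_lit 6494248979) (nat_lit 76) (nat_lit 5395214419) (nat_lit 217) (nat_lit 5) (nat_lit 224) (nat_lit 5) (nat_lit 218) (nat_lit 5) (nat_lit 475) (nat_lit 396) (nat_lit 269)))))) (XT.nd (nat_lit 390) (nat_lit 1672) (nat_lit 0) (XT.nd (nat_lit 156) (nat_lit 912) (nat_lit 0) (XT.nd (nat_lit 78) (nat_lit 0) (nat_lit 0) (XT.lf (nat_lit 0) (nat_lit 2461455804) (nat_lit 456) (nat_lit 2998694924) (nat_lit 532) (nat_lit 8493027939) (nat_lit 211) (nat_lit 5) (nat_lit 217) (nat_lit 5) (nat_lit 218) (nat_lit 5) (nat_lit 476) (nat_lit 396) (nat_lit 268)) (XT.lf (nat_lit 0) (nat_lit 9128980028) (nat_lit 532) (nat_lit 2470152449) (nat_lit 76) (nat_lit 2514048879) (nat_lit 211) (nat_lit 5) (nat_lit 218) (nat_lit 5) (nat_lit 212) (nat_lit 5) (nat_lit 477) (nat_lit 396) (nat_lit 267))) (XT.nd (nat_lit 78) (nat_lit 456) (nat_lit 0) (XT.lf (nat_lit 0) (nat_lit 6776665820) (nat_lit 456) (nat_lit 6142122569) (nat_lit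 532) (nat_lit 1356643659) (nat_lit 205) (nat_lit 5) (nat_lit 211) (nat_lit 5) (nat_lit 212) (nat_lit 5) (nat_lit 478) (nat_lit 396) (nat_lit 266)) (XT.nd (nat_lit 78) (nat_lit 0) (nat_lit 0) (XT.lf (nat_lit 0) (nat_lit 1785137185) (nat_lit 380) (nat_lit 539670117) (nat_lit 456) (nat_lit 12115574603) (nat_lit 199) (nat_lit 5) (nat_lit 204) (nat_lit 5) (nat_lit 205) (nat_lit 5) (nat_lit 479) (nat_lit 396) (nat_lit 265)) (XT.lf (nat_lit 0) (nat_lit 6129901006) (nat_lit 456) (nat_lit 3318540733) (nat_lit 76) (nat_lit 5158646088) (nat_lit 199) (nat_lit 5) (nat_lit 205) (nat_lit 5) (nat_lit 200) (nat_lit 5) (nat_lit 480) (nat_lit 396) (nat_lit 264))))) (XT.nd (nat_lit 156) (nat_lit 836) (nat_lit 0) (XT.nd (nat_lit 78) (nat_lit 380) (nat_lit 0) (XT.lf (nat_lit 0) (nat_lit 6259529267) (nat_lit 456) (nat_lit 3780007645) (nat_lit 532) (nat_lit 4737022151) (nat_lit 193) (nat_lit 5) (nat_lit 199) (nat_lit 5) (nat_lit 200) (nat_lit 5) (nat_lit 481)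 (nat_lit 396) (nat_lit 263)) (XT.lf (nat_lit 0) (nat_lit 1102493465) (nat_lit 380) (nat_lit 12951771697) (nat_lit 456) (nat_lit 894616568) (nat_lit 188) (nat_lit 5) (nat_lit 193) (nat_lit 5) (nat_lit 194) (nat_lit 5) (nat_lit 482) (nat_lit 396) (nat_lit 262))) (XT.nd (nat_lit 78) (nat_lit 760) (nat_lit 0) (XT.lf (nat_lit 0) (nat_lit 3051911549) (nat_lit 456) (nat_lit 4162740890) (nat_lit 76) (nat_lit 7908266790) (nat_lit 187) (nat_lit 5) (nat_lit 193) (nat_lit 5) (nat_lit 188) (nat_lit 5) (nat_lit 483) (nat_lit 396) (nat_lit 261)) (XT.nd (nat_lit 78) (nat_lit 380) (nat_lit 0) (XT.lf (nat_lit 0) (nat_lit 5760636733) (nat_lit 380) (nat_lit 1326851639) (nat_lit 456) (nat_lit 8212388897) (nat_lit 182) (nat_lit 5) (nat_lit 187) (nat_lit 5) (nat_lit 188) (nat_lit 5) (nat_lit 484) (nat_lit 396) (nat_lit 260)) (XT.lf (nat_lit 0) (nat_lit 410246760) (nat_lit 380) (nat_lit 10839468729) (nat_lit 456) (nat_lit 4229740205) (nat_lit 177) (nat_lit 5)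 (nat_lit 182) (nat_lit 5) (nat_lit 183) (nat_lit 5) (nat_lit 485) (nat_lit 396) (nat_lit 259))))))) (XT.nd (nat_lit 780) (nat_lit 1672) (nat_lit 0) (XT.nd (nat_lit 390) (nat_lit 1064) (nat_lit 0) (XT.nd (nat_lit 156) (nat_lit 760) (nat_lit 0) (XT.nd (nat_lit 78) (nat_lit 456) (nat_lit 0) (XT.lf (nat_lit 0) (nat_lit 10655617918) (nat_lit 380) (nat_lit 4897236395) (nat_lit 456) (nat_lit 108618033) (nat_lit 177) (nat_lit 5) (nat_lit 182) (nat_lit 5) (nat_lit 183) (nat_lit 5) (nat_lit 486) (nat_lit 396) (nat_lit 258)) (XT.lf (nat_lit 0) (nat_lit 4068517573) (nat_lit 456) (nat_lit 10575956376) (nat_lit 76) (nat_lit 1201577706) (nat_lit 171) (nat_lit 5) (nat_lit 177) (nat_lit 5) (nat_lit 172) (nat_lit 5) (nat_lit 487) (nat_lit 396) (nat_lit 257))) (XT.nd (nat_lit 78) (nat_lit 760) (nat_lit 0) (XT.lf (nat_lit 0) (nat_lit 8379199064) (nat_lit 456) (nat_lit 270938090) (nat_lit 76) (nat_lit 7383141889) (nat_lit 171) (nat_lit 5) (nat_lit 177) (nat_lit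 5) (nat_lit 172) (nat_lit 5) (nat_lit 488) (nat_lit 396) (nat_lit 256)) (XT.nd (nat_lit 78) (nat_lit 456) (nat_lit 0) (XT.lf (nat_lit 0) (nat_lit 10353087464) (nat_lit 304) (nat_lit 2475725631) (nat_lit 380) (nat_lit 3394383502) (nat_lit 167) (nat_lit 5) (nat_lit 171) (nat_lit 5) (nat_lit 172) (nat_lit 5) (nat_lit 489) (nat_lit 396) (nat_lit 255)) (XT.lf (nat_lit 0) (nat_lit 981665623) (nat_lit 456) (nat_lit 11631059709) (nat_lit 76) (nat_lit 3803191250) (nat_lit 161) (nat_lit 5) (nat_lit 167) (nat_lit 5) (nat_lit 162) (nat_lit 5) (nat_lit 490) (nat_lit 396) (nat_lit 254))))) (XT.nd (nat_lit 156) (nat_lit 760) (nat_lit 0) (XT.nd (nat_lit 78) (nat_lit 304) (nat_lit 0) (XT.lf (nat_lit 0) (nat_lit 5441497661) (nat_lit 456) (nat_lit 941344040) (nat_lit 76) (nat_lit 10228366273) (nat_lit 161) (nat_lit 5) (nat_lit 167) (nat_lit 5) (nat_lit 162) (nat_lit 5) (nat_lit 491) (nat_lit 396) (nat_lit 253)) (XT.lf (nat_lit 0) (nat_lit 10042016850) (nat_lit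 380) (nat_lit 6737862345) (nat_lit 76) (nat_lit 29496189) (nat_lit 157) (nat_lit 5) (nat_lit 162) (nat_lit 5) (nat_lit 158) (nat_lit 5) (nat_lit 492) (nat_lit 396) (nat_lit 252))) (XT.nd (nat_lit 78) (nat_lit 380) (nat_lit 0) (XT.lf (nat_lit 0) (nat_lit 4297433460) (nat_lit 380) (nat_lit 10499624401) (nat_lit 456) (nat_lit 2213198052) (nat_lit 152) (nat_lit 5) (nat_lit 157) (nat_lit 5) (nat_lit 158) (nat_lit 5) (nat_lit 493) (nat_lit 396) (nat_lit 251)) (XT.nd (nat_lit 78) (nat_lit 304) (nat_lit 0) (XT.lf (nat_lit 0) (nat_lit 2431680369) (nat_lit 456) (nat_lit 1608231420) (nat_lit 76) (nat_lit 13174295827) (nat_lit 151) (nat_lit 5) (nat_lit 157) (nat_lit 5) (nat_lit 152) (nat_lit 5) (nat_lit 494) (nat_lit 396) (nat_lit 250)) (XT.lf (nat_lit 0) (nat_lit 7206848925) (nat_lit 380) (nat_lit 7627717456) (nat_lit 76) (nat_lit 2586038839) (nat_lit 147) (nat_lit 5) (nat_lit 152) (nat_lit 5) (nat_lit 148) (nat_lit 5) (nat_lit 495) (nat_lit 396)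 (nat_lit 249)))))) (XT.nd (nat_lit 390) (nat_lit 684) (nat_lit 0) (XT.nd (nat_lit 156) (nat_lit 684) (nat_lit 0) (XT.nd (nat_lit 78) (nat_lit 0) (nat_lit 0) (XT.lf (nat_lit 0) (nat_lit 3813820968) (nat_lit 304) (nat_lit 8312441647) (nat_lit 380) (nat_lit 5503893328) (nat_lit 143) (nat_lit 5) (nat_lit 147) (nat_lit 5) (nat_lit 148) (nat_lit 5) (nat_lit 496) (nat_lit 396) (nat_lit 248)) (XT.lf (nat_lit 0) (nat_lit 15565445977) (nat_lit 304) (nat_lit 1616290240) (nat_lit 380) (nat_lit 661408030) (nat_lit 143) (nat_lit 5) (nat_lit 147) (nat_lit 5) (nat_lit 148) (nat_lit 5) (nat_lit 497) (nat_lit 396) (nat_lit 247))) (XT.nd (nat_lit 78) (nat_lit 304) (nat_lit 0) (XT.lf (nat_lit 0) (nat_lit 4304994028) (nat_lit 380) (nat_lit 8525719450) (nat_lit 76) (nat_lit 5227459880) (nat_lit 138) (nat_lit 5) (nat_lit 143) (nat_lit 5) (nat_lit 139) (nat_lit 5) (nat_lit 498) (nat_lit 396) (nat_lit 246)) (XT.nd (nat_lit 78) (nat_lit 0) (nat_lit 0) (XT.lf (nat_lit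 0) (nat_lit 3339146698) (nat_lit 304) (nat_lit 6057227012) (nat_lit 380) (nat_lit 8880351785) (nat_lit 134) (nat_lit 5) (nat_lit 138) (nat_lit 5) (nat_lit 139) (nat_lit 5) (nat_lit 499) (nat_lit 396) (nat_lit 245)) (XT.lf (nat_lit 0) (nat_lit 14639492359) (nat_lit 380) (nat_lit 2969545347) (nat_lit 76) (nat_lit 889612742) (nat_lit 134) (nat_lit 5) (nat_lit 139) (nat_lit 5) (nat_lit 135) (nat_lit 5) (nat_lit 500) (nat_lit 396) (nat_lit 244))))) (XT.nd (nat_lit 51246) (nat_lit 0) (nat_lit 43472) (XT.nd (nat_lit 78) (nat_lit 304) (nat_lit 0) (XT.lf (nat_lit 0) (nat_lit 1334014755) (nat_lit 380) (nat_lit 9433937683) (nat_lit 76) (nat_lit 7955135275) (nat_lit 129) (nat_lit 5) (nat_lit 134) (nat_lit 5) (nat_lit 130) (nat_lit 5) (nat_lit 501) (nat_lit 396) (nat_lit 243)) (XT.nd (nat_lit 78) (nat_lit 0) (nat_lit 0) (XT.lf (nat_lit 0) (nat_lit 2872026201) (nat_lit 304) (nat_lit 3733184495) (nat_lit 380) (nat_lit 12345776171) (nat_lit 125) (nat_lit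 5) (nat_lit 129) (nat_lit 5) (nat_lit 130) (nat_lit 5) (nat_lit 502) (nat_lit 396) (nat_lit 242)) (XT.lf (nat_lit 0) (nat_lit 12055042982) (nat_lit 380) (nat_lit 3674624294) (nat_lit 76) (nat_lit 3452312480) (nat_lit 125) (nat_lit 5) (nat_lit 130) (nat_lit 5) (nat_lit 126) (nat_lit 5) (nat_lit 503) (nat_lit 396) (nat_lit 241)))) (XT.nd (nat_lit 78) (nat_lit 1140) (nat_lit 0) (XT.lf (nat_lit 0) (nat_lit 1537116479) (nat_lit 0) (nat_lit 1537116479) (nat_lit 988) (nat_lit 420775588) (nat_lit 712) (nat_lit 5) (nat_lit 712) (nat_lit 3) (nat_lit 725) (nat_lit 3) (nat_lit 397) (nat_lit 397) (nat_lit 346)) (XT.nd (nat_lit 78) (nat_lit 0) (nat_lit 76) (XT.lf (nat_lit 0) (nat_lit 1011370717) (nat_lit 1140) (nat_lit 415257040) (nat_lit 1140) (nat_lit 5596396078) (nat_lit 697) (nat_lit 3) (nat_lit 712) (nat_lit 3) (nat_lit 712) (nat_lit 5) (nat_lit 398) (nat_lit 397) (nat_lit 345)) (XT.lf (nat_lit 0) (nat_lit 2864097126) (nat_lit 1064) (nat_lit 3892629281)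 (nat_lit 1140) (nat_lit 300372765) (nat_lit 698) (nat_lit 5) (nat_lit 712) (nat_lit 5) (nat_lit 713) (nat_lit 5) (nat_lit 399) (nat_lit 397) (nat_lit 344))))))))
noncomputable def xc150 : XT := (XT.nd (nat_lit 1560) (nat_lit 15656) (nat_lit 0) (XT.nd (nat_lit 780) (nat_lit 3724) (nat_lit 0) (XT.nd (nat_lit 390) (nat_lit 1140) (nat_lit 0) (XT.nd (nat_lit 156) (nat_lit 1140) (nat_lit 0) (XT.nd (nat_lit 78) (nat_lit 0) (nat_lit 0) (XT.lf (nat_lit 0) (nat_lit 4718542091) (nat_lit 1064) (nat_lit 305539469) (nat_lit 1140) (nat_lit 2068481174) (nat_lit 698) (nat_lit 5) (nat_lit 712) (nat_lit 5) (nat_lit 713) (nat_lit 5) (nat_lit 400) (nat_lit 397) (nat_lit 343)) (XT.lf (nat_lit 76) (nat_lit 3372331513) (nat_lit 0) (nat_lit 3212984085) (nat_lit 1140) (nat_lit 543915177) (nat_lit 699) (nat_lit 5) (nat_lit 698) (nat_lit 5) (nat_lit 713) (nat_lit 5) (nat_lit 401) (nat_lit 397) (nat_lit 342))) (XT.nd (nat_lit 78) (nat_lit 0) (nat_lit 76) (XT.lf (nat_lit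 0) (nat_lit 1261300228) (nat_lit 1140) (nat_lit 72929324) (nat_lit 1216) (nat_lit 5833113725) (nat_lit 683) (nat_lit 5) (nat_lit 698) (nat_lit 5) (nat_lit 699) (nat_lit 5) (nat_lit 402) (nat_lit 397) (nat_lit 341)) (XT.nd (nat_lit 78) (nat_lit 0) (nat_lit 0) (XT.lf (nat_lit 0) (nat_lit 3078188312) (nat_lit 1140) (nat_lit 3506095421) (nat_lit 1216) (nat_lit 622205363) (nat_lit 684) (nat_lit 5) (nat_lit 699) (nat_lit 5) (nat_lit 700) (nat_lit 5) (nat_lit 403) (nat_lit 397) (nat_lit 340)) (XT.lf (nat_lit 76) (nat_lit 272510040) (nat_lit 0) (nat_lit 4625554072) (nat_lit 1216) (nat_lit 2349020721) (nat_lit 685) (nat_lit 5) (nat_lit 684) (nat_lit 5) (nat_lit 700) (nat_lit 5) (nat_lit 404) (nat_lit 397) (nat_lit 339))))) (XT.nd (nat_lit 156) (nat_lit 0) (nat_lit 76) (XT.nd (nat_lit 78) (nat_lit 1216) (nat_lit 0) (XT.lf (nat_lit 76) (nat_lit 4148396185) (nat_lit 0) (nat_lit 2585724938) (nat_lit 1216) (nat_lit 554775687) (nat_lit 685) (nat_lit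 5) (nat_lit 684) (nat_lit 5) (nat_lit 700) (nat_lit 5) (nat_lit 405) (nat_lit 397) (nat_lit 338)) (XT.lf (nat_lit 76) (nat_lit 745871865) (nat_lit 0) (nat_lit 474428237) (nat_lit 1292) (nat_lit 6111845868) (nat_lit 669) (nat_lit 5) (nat_lit 668) (nat_lit 5) (nat_lit 685) (nat_lit 5) (nat_lit 406) (nat_lit 397) (nat_lit 337))) (XT.nd (nat_lit 78) (nat_lit 0) (nat_lit 0) (XT.lf (nat_lit 0) (nat_lit 3013189783) (nat_lit 1216) (nat_lit 2664685279) (nat_lit 1292) (nat_lit 1698516895) (nat_lit 669) (nat_lit 5) (nat_lit 685) (nat_lit 5) (nat_lit 686) (nat_lit 5) (nat_lit 407) (nat_lit 397) (nat_lit 336)) (XT.nd (nat_lit 78) (nat_lit 0) (nat_lit 0) (XT.lf (nat_lit 76) (nat_lit 1323399647) (nat_lit 0) (nat_lit 3488721028) (nat_lit 1292) (nat_lit 2609998520) (nat_lit 670) (nat_lit 5) (nat_lit 669) (nat_lit 5) (nat_lit 686) (nat_lit 5) (nat_lit 408) (nat_lit 397) (nat_lit 335)) (XT.lf (nat_lit 76) (nat_lit 5401388432) (nat_lit 0) (nat_lit 1222618368)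 (nat_lit 1292) (nat_lit 845214644) (nat_lit 670) (nat_lit 5) (nat_lit 669) (nat_lit 5) (nat_lit 686) (nat_lit 5) (nat_lit 409) (nat_lit 397) (nat_lit 334)))))) (XT.nd (nat_lit 390) (nat_lit 1292) (nat_lit 0) (XT.nd (nat_lit 156) (nat_lit 1292) (nat_lit 0) (XT.nd (nat_lit 78) (nat_lit 0) (nat_lit 0) (XT.lf (nat_lit 0) (nat_lit 922497865) (nat_lit 1292) (nat_lit 5486778132) (nat_lit 1368) (nat_lit 1108262627) (nat_lit 653) (nat_lit 5) (nat_lit 670) (nat_lit 5) (nat_lit 671) (nat_lit 5) (nat_lit 410) (nat_lit 397) (nat_lit 333)) (XT.lf (nat_lit 0) (nat_lit 2696668501) (nat_lit 1292) (nat_lit 1367694448) (nat_lit 1368) (nat_lit 3502699034) (nat_lit 653) (nat_lit 5) (nat_lit 670) (nat_lit 5) (nat_lit 671) (nat_lit 5) (nat_lit 411) (nat_lit 397) (nat_lit 332))) (XT.nd (nat_lit 78) (nat_lit 1292) (nat_lit 0) (XT.lf (nat_lit 76) (nat_lit 2844886458) (nat_lit 0) (nat_lit 1641030282) (nat_lit 1368) (nat_lit 3132067186) (nat_lit 654) (nat_lit 5)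 (nat_lit 653) (nat_lit 5) (nat_lit 671) (nat_lit 5) (nat_lit 412) (nat_lit 397) (nat_lit 331)) (XT.nd (nat_lit 78) (nat_lit 1368) (nat_lit 0) (XT.lf (nat_lit 0) (nat_lit 6287378807) (nat_lit 1292) (nat_lit 541805570) (nat_lit 1368) (nat_lit 841211353) (nat_lit 654) (nat_lit 5) (nat_lit 671) (nat_lit 5) (nat_lit 672) (nat_lit 5) (nat_lit 413) (nat_lit 397) (nat_lit 330)) (XT.lf (nat_lit 0) (nat_lit 393739668) (nat_lit 1368) (nat_lit 3939922061) (nat_lit 1444) (nat_lit 3390182275) (nat_lit 636) (nat_lit 5) (nat_lit 654) (nat_lit 5) (nat_lit 655) (nat_lit 5) (nat_lit 414) (nat_lit 397) (nat_lit 329))))) (XT.nd (nat_lit 156) (nat_lit 1292) (nat_lit 0) (XT.nd (nat_lit 78) (nat_lit 0) (nat_lit 76) (XT.lf (nat_lit 76) (nat_lit 394549313) (nat_lit 0) (nat_lit 1762067866) (nat_lit 1444) (nat_lit 5622179141) (nat_lit 637) (nat_lit 5) (nat_lit 636) (nat_lit 5) (nat_lit 655) (nat_lit 5) (nat_lit 415) (nat_lit 397) (nat_lit 328)) (XT.lf (nat_lit 0)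 (nat_lit 3950443394) (nat_lit 1368) (nat_lit 2998250731) (nat_lit 1444) (nat_lit 886239734) (nat_lit 637) (nat_lit 5) (nat_lit 655) (nat_lit 5) (nat_lit 656) (nat_lit 5) (nat_lit 416) (nat_lit 397) (nat_lit 327))) (XT.nd (nat_lit 78) (nat_lit 1368) (nat_lit 0) (XT.lf (nat_lit 76) (nat_lit 1456145105) (nat_lit 0) (nat_lit 4309327750) (nat_lit 1444) (nat_lit 2127014761) (nat_lit 638) (nat_lit 5) (nat_lit 637) (nat_lit 5) (nat_lit 656) (nat_lit 5) (nat_lit 417) (nat_lit 397) (nat_lit 326)) (XT.nd (nat_lit 78) (nat_lit 1368) (nat_lit 0) (XT.lf (nat_lit 76) (nat_lit 6013698266) (nat_lit 0) (nat_lit 1587956988) (nat_lit 1444) (nat_lit 349840145) (nat_lit 638) (nat_lit 5) (nat_lit 637) (nat_lit 5) (nat_lit 656) (nat_lit 5) (nat_lit 418) (nat_lit 397) (nat_lit 325)) (XT.lf (nat_lit 0) (nat_lit 1434032026) (nat_lit 1444) (nat_lit 5370333262) (nat_lit 76) (nat_lit 1207321292) (nat_lit 619) (nat_lit 5) (nat_lit 638) (nat_lit 5) (nat_lit 620) (nat_lit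 5) (nat_lit 419) (nat_lit 397) (nat_lit 324))))))) (XT.nd (nat_lit 780) (nat_lit 5700) (nat_lit 0) (XT.nd (nat_lit 390) (nat_lit 5320) (nat_lit 0) (XT.nd (nat_lit 156) (nat_lit 3192) (nat_lit 0) (XT.nd (nat_lit 78) (nat_lit 1444) (nat_lit 0) (XT.lf (nat_lit 0) (nat_lit 3238265814) (nat_lit 1444) (nat_lit 774463843) (nat_lit 76) (nat_lit 4060518308) (nat_lit 619) (nat_lit 5) (nat_lit 638) (nat_lit 5) (nat_lit 620) (nat_lit 5) (nat_lit 420) (nat_lit 397) (nat_lit 323)) (XT.lf (nat_lit 0) (nat_lit 3938429853) (nat_lit 1444) (nat_lit 1132154857) (nat_lit 1520) (nat_lit 3065615859) (nat_lit 600) (nat_lit 5) (nat_lit 619) (nat_lit 5) (nat_lit 620) (nat_lit 5) (nat_lit 421) (nat_lit 397) (nat_lit 322))) (XT.nd (nat_lit 78) (nat_lit 1672) (nat_lit 0) (XT.lf (nat_lit 0) (nat_lit 523803683) (nat_lit 1520) (nat_lit 6403064748) (nat_lit 1596) (nat_lit 1273797425) (nat_lit 580) (nat_lit 5) (nat_lit 600) (nat_lit 5) (nat_lit 601) (nat_lit 5) (nat_lit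 422) (nat_lit 397) (nat_lit 321)) (XT.nd (nat_lit 78) (nat_lit 1596) (nat_lit 0) (XT.lf (nat_lit 0) (nat_lit 549664610) (nat_lit 1596) (nat_lit 2907760329) (nat_lit 76) (nat_lit 4808862167) (nat_lit 579) (nat_lit 5) (nat_lit 600) (nat_lit 5) (nat_lit 580) (nat_lit 5) (nat_lit 423) (nat_lit 397) (nat_lit 320)) (XT.lf (nat_lit 0) (nat_lit 1947024911) (nat_lit 1596) (nat_lit 426032595) (nat_lit 1672) (nat_lit 5960384522) (nat_lit 558) (nat_lit 5) (nat_lit 579) (nat_lit 5) (nat_lit 580) (nat_lit 5) (nat_lit 424) (nat_lit 397) (nat_lit 319))))) (XT.nd (nat_lit 156) (nat_lit 3648) (nat_lit 0) (XT.nd (nat_lit 78) (nat_lit 1672) (nat_lit 0) (XT.lf (nat_lit 0) (nat_lit 4238220085) (nat_lit 1672) (nat_lit 1507955736) (nat_lit 76) (nat_lit 2655658192) (nat_lit 558) (nat_lit 5) (nat_lit 580) (nat_lit 5) (nat_lit 559) (nat_lit 5) (nat_lit 425) (nat_lit 397) (nat_lit 318)) (XT.lf (nat_lit 0) (nat_lit 3484195721) (nat_lit 1672) (nat_lit 2650904526)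 (nat_lit 1748) (nat_lit 2336605304) (nat_lit 536) (nat_lit 5) (nat_lit 558) (nat_lit 5) (nat_lit 559) (nat_lit 5) (nat_lit 426) (nat_lit 397) (nat_lit 317))) (XT.nd (nat_lit 78) (nat_lit 1900) (nat_lit 0) (XT.lf (nat_lit 0) (nat_lit 23598723) (nat_lit 1748) (nat_lit 8029378887) (nat_lit 1824) (nat_lit 490335717) (nat_lit 513) (nat_lit 5) (nat_lit 536) (nat_lit 5) (nat_lit 537) (nat_lit 5) (nat_lit 427) (nat_lit 397) (nat_lit 316)) (XT.nd (nat_lit 78) (nat_lit 1824) (nat_lit 0) (XT.lf (nat_lit 0) (nat_lit 1395495105) (nat_lit 1824) (nat_lit 3467407805) (nat_lit 76) (nat_lit 3752851414) (nat_lit 512) (nat_lit 5) (nat_lit 536) (nat_lit 5) (nat_lit 513) (nat_lit 5) (nat_lit 428) (nat_lit 397) (nat_lit 315)) (XT.lf (nat_lit 0) (nat_lit 1677800863) (nat_lit 1824) (nat_lit 1615827896) (nat_lit 1900) (nat_lit 5396327522) (nat_lit 488) (nat_lit 5) (nat_lit 512) (nat_lit 5) (nat_lit 513) (nat_lit 5) (nat_lit 429) (nat_lit 397) (nat_lit 314))))))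 (XT.nd (nat_lit 390) (nat_lit 2660) (nat_lit 0) (XT.nd (nat_lit 156) (nat_lit 1900) (nat_lit 0) (XT.nd (nat_lit 78) (nat_lit 1140) (nat_lit 0) (XT.lf (nat_lit 0) (nat_lit 5234839111) (nat_lit 1900) (nat_lit 1830756873) (nat_lit 76) (nat_lit 1699944013) (nat_lit 488) (nat_lit 5) (nat_lit 513) (nat_lit 5) (nat_lit 489) (nat_lit 5) (nat_lit 430) (nat_lit 397) (nat_lit 313)) (XT.lf (nat_lit 0) (nat_lit 3462183392) (nat_lit 1140) (nat_lit 3757123854) (nat_lit 1216) (nat_lit 1623239469) (nat_lit 473) (nat_lit 5) (nat_lit 488) (nat_lit 5) (nat_lit 489) (nat_lit 5) (nat_lit 431) (nat_lit 397) (nat_lit 312))) (XT.nd (nat_lit 78) (nat_lit 1824) (nat_lit 0) (XT.lf (nat_lit 0) (nat_lit 301966915) (nat_lit 1216) (nat_lit 64219032) (nat_lit 76) (nat_lit 8555189287) (nat_lit 472) (nat_lit 5) (nat_lit 488) (nat_lit 5) (nat_lit 473) (nat_lit 5) (nat_lit 432) (nat_lit 397) (nat_lit 311)) (XT.nd (nat_lit 78) (nat_lit 912) (nat_lit 0) (XT.lf (nat_lit 0)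 (nat_lit 2271377912) (nat_lit 988) (nat_lit 3630071111) (nat_lit 76) (nat_lit 3099567993) (nat_lit 460) (nat_lit 5) (nat_lit 473) (nat_lit 5) (nat_lit 461) (nat_lit 5) (nat_lit 433) (nat_lit 397) (nat_lit 310)) (XT.lf (nat_lit 0) (nat_lit 1828137250) (nat_lit 912) (nat_lit 2439171402) (nat_lit 988) (nat_lit 4815200353) (nat_lit 448) (nat_lit 5) (nat_lit 460) (nat_lit 5) (nat_lit 461) (nat_lit 5) (nat_lit 434) (nat_lit 397) (nat_lit 309))))) (XT.nd (nat_lit 234) (nat_lit 836) (nat_lit 0) (XT.nd (nat_lit 78) (nat_lit 1824) (nat_lit 0) (XT.lf (nat_lit 0) (nat_lit 6307545967) (nat_lit 988) (nat_lit 1754905192) (nat_lit 76) (nat_lit 1103091914) (nat_lit 448) (nat_lit 5) (nat_lit 461) (nat_lit 5) (nat_lit 449) (nat_lit 5) (nat_lit 435) (nat_lit 397) (nat_lit 308)) (XT.nd (nat_lit 78) (nat_lit 988) (nat_lit 0) (XT.lf (nat_lit 0) (nat_lit 3862362327) (nat_lit 836) (nat_lit 4540764679) (nat_lit 912) (nat_lit 846820039) (nat_lit 437) (nat_lit 5)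 (nat_lit 448) (nat_lit 5) (nat_lit 449) (nat_lit 5) (nat_lit 436) (nat_lit 397) (nat_lit 307)) (XT.lf (nat_lit 0) (nat_lit 248452131) (nat_lit 912) (nat_lit 927282869) (nat_lit 988) (nat_lit 8160408622) (nat_lit 424) (nat_lit 5) (nat_lit 436) (nat_lit 5) (nat_lit 437) (nat_lit 5) (nat_lit 437) (nat_lit 397) (nat_lit 306)))) (XT.nd (nat_lit 78) (nat_lit 836) (nat_lit 0) (XT.lf (nat_lit 0) (nat_lit 3255544075) (nat_lit 988) (nat_lit 3404069009) (nat_lit 76) (nat_lit 2763776260) (nat_lit 424) (nat_lit 5) (nat_lit 437) (nat_lit 5) (nat_lit 425) (nat_lit 5) (nat_lit 438) (nat_lit 397) (nat_lit 305)) (XT.nd (nat_lit 78) (nat_lit 0) (nat_lit 0) (XT.lf (nat_lit 0) (nat_lit 2391776615) (nat_lit 836) (nat_lit 2981184320) (nat_lit 912) (nat_lit 4139498814) (nat_lit 413) (nat_lit 5) (nat_lit 424) (nat_lit 5) (nat_lit 425) (nat_lit 5) (nat_lit 439) (nat_lit 397) (nat_lit 304)) (XT.lf (nat_lit 0) (nat_lit 7535390209) (nat_lit 912) (nat_lit 1285328763)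 (nat_lit 76) (nat_lit 782539307) (nat_lit 413) (nat_lit 5) (nat_lit 425) (nat_lit 5) (nat_lit 414) (nat_lit 5) (nat_lit 440) (nat_lit 397) (nat_lit 303))))))))
noncomputable def xc151 : XT := (XT.nd (nat_lit 1638) (nat_lit 6764) (nat_lit 0) (XT.nd (nat_lit 780) (nat_lit 4484) (nat_lit 0) (XT.nd (nat_lit 390) (nat_lit 3040) (nat_lit 0) (XT.nd (nat_lit 156) (nat_lit 760) (nat_lit 0) (XT.nd (nat_lit 78) (nat_lit 760) (nat_lit 0) (XT.lf (nat_lit 0) (nat_lit 70073041) (nat_lit 912) (nat_lit 5013904654) (nat_lit 76) (nat_lit 4611379806) (nat_lit 401) (nat_lit 5) (nat_lit 413) (nat_lit 5) (nat_lit 402) (nat_lit 5) (nat_lit 441) (nat_lit 397) (nat_lit 302)) (XT.lf (nat_lit 0) (nat_lit 968188380) (nat_lit 760) (nat_lit 1245205927) (nat_lit 836) (nat_lit 7575824828) (nat_lit 391) (nat_lit 5) (nat_lit 401) (nat_lit 5) (nat_lit 402) (nat_lit 5) (nat_lit 442) (nat_lit 397) (nat_lit 301))) (XT.nd (nat_lit 78) (nat_lit 760) (nat_lit 0) (XT.lf (nat_lit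 0) (nat_lit 4426402900) (nat_lit 836) (nat_lit 2790881073) (nat_lit 76) (nat_lit 2667137609) (nat_lit 391) (nat_lit 5) (nat_lit 402) (nat_lit 5) (nat_lit 392) (nat_lit 5) (nat_lit 443) (nat_lit 397) (nat_lit 300)) (XT.nd (nat_lit 78) (nat_lit 0) (nat_lit 0) (XT.lf (nat_lit 0) (nat_lit 3369420051) (nat_lit 760) (nat_lit 3320467181) (nat_lit 836) (nat_lit 3291516536) (nat_lit 381) (nat_lit 5) (nat_lit 391) (nat_lit 5) (nat_lit 392) (nat_lit 5) (nat_lit 444) (nat_lit 397) (nat_lit 299)) (XT.lf (nat_lit 0) (nat_lit 8998115834) (nat_lit 836) (nat_lit 420242049) (nat_lit 76) (nat_lit 661978223) (nat_lit 381) (nat_lit 5) (nat_lit 392) (nat_lit 5) (nat_lit 382) (nat_lit 5) (nat_lit 445) (nat_lit 397) (nat_lit 298))))) (XT.nd (nat_lit 156) (nat_lit 1444) (nat_lit 0) (XT.nd (nat_lit 78) (nat_lit 760) (nat_lit 0) (XT.lf (nat_lit 0) (nat_lit 1193443269) (nat_lit 836) (nat_lit 4263456264) (nat_lit 76) (nat_lit 4723444612) (nat_lit 370) (nat_lit 5)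 (nat_lit 381) (nat_lit 5) (nat_lit 371) (nat_lit 5) (nat_lit 446) (nat_lit 397) (nat_lit 297)) (XT.lf (nat_lit 0) (nat_lit 2098205459) (nat_lit 760) (nat_lit 1395370337) (nat_lit 836) (nat_lit 6788764545) (nat_lit 360) (nat_lit 5) (nat_lit 370) (nat_lit 5) (nat_lit 371) (nat_lit 5) (nat_lit 447) (nat_lit 397) (nat_lit 296))) (XT.nd (nat_lit 78) (nat_lit 1444) (nat_lit 0) (XT.lf (nat_lit 0) (nat_lit 5863579904) (nat_lit 836) (nat_lit 1785487174) (nat_lit 76) (nat_lit 2736832006) (nat_lit 360) (nat_lit 5) (nat_lit 371) (nat_lit 5) (nat_lit 361) (nat_lit 5) (nat_lit 448) (nat_lit 397) (nat_lit 295)) (XT.nd (nat_lit 78) (nat_lit 760) (nat_lit 0) (XT.lf (nat_lit 0) (nat_lit 4768403391) (nat_lit 684) (nat_lit 3530459191) (nat_lit 760) (nat_lit 2192308850) (nat_lit 351) (nat_lit 5) (nat_lit 360) (nat_lit 5) (nat_lit 361) (nat_lit 5) (nat_lit 449) (nat_lit 397) (nat_lit 294)) (XT.lf (nat_lit 0) (nat_lit 181804105) (nat_lit 760) (nat_lit 9739910703)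 (nat_lit 76) (nat_lit 676812095) (nat_lit 341) (nat_lit 5) (nat_lit 351) (nat_lit 5) (nat_lit 342) (nat_lit 5) (nat_lit 450) (nat_lit 397) (nat_lit 293)))))) (XT.nd (nat_lit 390) (nat_lit 2432) (nat_lit 0) (XT.nd (nat_lit 156) (nat_lit 1368) (nat_lit 0) (XT.nd (nat_lit 78) (nat_lit 684) (nat_lit 0) (XT.lf (nat_lit 0) (nat_lit 2614151438) (nat_lit 760) (nat_lit 3122604895) (nat_lit 76) (nat_lit 4970181186) (nat_lit 341) (nat_lit 5) (nat_lit 351) (nat_lit 5) (nat_lit 342) (nat_lit 5) (nat_lit 451) (nat_lit 397) (nat_lit 292)) (XT.lf (nat_lit 0) (nat_lit 3649030432) (nat_lit 684) (nat_lit 1448279818) (nat_lit 760) (nat_lit 5720162804) (nat_lit 332) (nat_lit 5) (nat_lit 341) (nat_lit 5) (nat_lit 342) (nat_lit 5) (nat_lit 452) (nat_lit 397) (nat_lit 291))) (XT.nd (nat_lit 78) (nat_lit 1368) (nat_lit 0) (XT.lf (nat_lit 0) (nat_lit 7648921696) (nat_lit 760) (nat_lit 376610832) (nat_lit 76) (nat_lit 2904310983) (nat_lit 332) (nat_lit 5) (nat_lit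 342) (nat_lit 5) (nat_lit 333) (nat_lit 5) (nat_lit 453) (nat_lit 397) (nat_lit 290)) (XT.nd (nat_lit 78) (nat_lit 684) (nat_lit 0) (XT.lf (nat_lit 0) (nat_lit 6602469965) (nat_lit 684) (nat_lit 3680670993) (nat_lit 760) (nat_lit 760688909) (nat_lit 323) (nat_lit 5) (nat_lit 332) (nat_lit 5) (nat_lit 333) (nat_lit 5) (nat_lit 454) (nat_lit 397) (nat_lit 289)) (XT.lf (nat_lit 0) (nat_lit 1789665129) (nat_lit 684) (nat_lit 8602609616) (nat_lit 76) (nat_lit 767517091) (nat_lit 314) (nat_lit 5) (nat_lit 323) (nat_lit 5) (nat_lit 315) (nat_lit 5) (nat_lit 455) (nat_lit 397) (nat_lit 288))))) (XT.nd (nat_lit 234) (nat_lit 1216) (nat_lit 0) (XT.nd (nat_lit 78) (nat_lit 1216) (nat_lit 0) (XT.lf (nat_lit 0) (nat_lit 4414660351) (nat_lit 684) (nat_lit 1577094232) (nat_lit 76) (nat_lit 5285541504) (nat_lit 314) (nat_lit 5) (nat_lit 323) (nat_lit 5) (nat_lit 315) (nat_lit 5) (nat_lit 456) (nat_lit 397) (nat_lit 287)) (XT.nd (nat_lit 78) (nat_lit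 608) (nat_lit 0) (XT.lf (nat_lit 0) (nat_lit 5637469953) (nat_lit 608) (nat_lit 1471124643) (nat_lit 684) (nat_lit 4288227044) (nat_lit 306) (nat_lit 5) (nat_lit 314) (nat_lit 5) (nat_lit 315) (nat_lit 5) (nat_lit 457) (nat_lit 397) (nat_lit 286)) (XT.lf (nat_lit 0) (nat_lit 1472436994) (nat_lit 608) (nat_lit 8404604275) (nat_lit 684) (nat_lit 1641283761) (nat_lit 298) (nat_lit 5) (nat_lit 306) (nat_lit 5) (nat_lit 307) (nat_lit 5) (nat_lit 458) (nat_lit 397) (nat_lit 285)))) (XT.nd (nat_lit 78) (nat_lit 1140) (nat_lit 0) (XT.lf (nat_lit 0) (nat_lit 1073491189) (nat_lit 684) (nat_lit 2757116911) (nat_lit 76) (nat_lit 7810937395) (nat_lit 297) (nat_lit 5) (nat_lit 306) (nat_lit 5) (nat_lit 298) (nat_lit 5) (nat_lit 459) (nat_lit 397) (nat_lit 284)) (XT.nd (nat_lit 78) (nat_lit 532) (nat_lit 0) (XT.lf (nat_lit 0) (nat_lit 3837317760) (nat_lit 684) (nat_lit 7069394951) (nat_lit 76) (nat_lit 859966022) (nat_lit 289) (nat_lit 5) (nat_lit 298)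 (nat_lit 5) (nat_lit 290) (nat_lit 5) (nat_lit 460) (nat_lit 397) (nat_lit 283)) (XT.lf (nat_lit 0) (nat_lit 398568712) (nat_lit 532) (nat_lit 6285133888) (nat_lit 608) (nat_lit 5210066401) (nat_lit 282) (nat_lit 5) (nat_lit 289) (nat_lit 5) (nat_lit 290) (nat_lit 5) (nat_lit 461) (nat_lit 397) (nat_lit 282))))))) (XT.nd (nat_lit 780) (nat_lit 3420) (nat_lit 0) (XT.nd (nat_lit 390) (nat_lit 1596) (nat_lit 0) (XT.nd (nat_lit 156) (nat_lit 1064) (nat_lit 0) (XT.nd (nat_lit 78) (nat_lit 684) (nat_lit 0) (XT.lf (nat_lit 0) (nat_lit 8086516934) (nat_lit 532) (nat_lit 1528853804) (nat_lit 608) (nat_lit 2407463226) (nat_lit 282) (nat_lit 5) (nat_lit 289) (nat_lit 5) (nat_lit 290) (nat_lit 5) (nat_lit 462) (nat_lit 397) (nat_lit 281)) (XT.lf (nat_lit 0) (nat_lit 472799912) (nat_lit 684) (nat_lit 8380383916) (nat_lit 76) (nat_lit 3300687300) (nat_lit 273) (nat_lit 5) (nat_lit 282) (nat_lit 5) (nat_lit 274) (nat_lit 5) (nat_lit 463) (nat_lit 397)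 (nat_lit 280))) (XT.nd (nat_lit 78) (nat_lit 1064) (nat_lit 0) (XT.lf (nat_lit 0) (nat_lit 3396511842) (nat_lit 684) (nat_lit 647525246) (nat_lit 76) (nat_lit 8242812092) (nat_lit 273) (nat_lit 5) (nat_lit 282) (nat_lit 5) (nat_lit 274) (nat_lit 5) (nat_lit 464) (nat_lit 397) (nat_lit 279)) (XT.nd (nat_lit 78) (nat_lit 532) (nat_lit 0) (XT.lf (nat_lit 0) (nat_lit 6413733545) (nat_lit 608) (nat_lit 5116523744) (nat_lit 76) (nat_lit 891528793) (nat_lit 266) (nat_lit 5) (nat_lit 274) (nat_lit 5) (nat_lit 267) (nat_lit 5) (nat_lit 465) (nat_lit 397) (nat_lit 278)) (XT.lf (nat_lit 0) (nat_lit 2852354424) (nat_lit 532) (nat_lit 6670479656) (nat_lit 608) (nat_lit 3035956955) (nat_lit 259) (nat_lit 5) (nat_lit 266) (nat_lit 5) (nat_lit 267) (nat_lit 5) (nat_lit 466) (nat_lit 397) (nat_lit 277))))) (XT.nd (nat_lit 156) (nat_lit 988) (nat_lit 0) (XT.nd (nat_lit 78) (nat_lit 532) (nat_lit 0) (XT.lf (nat_lit 0) (nat_lit 12136706) (nat_lit 608) (nat_lit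 1672951519) (nat_lit 76) (nat_lit 11013118471) (nat_lit 258) (nat_lit 5) (nat_lit 266) (nat_lit 5) (nat_lit 259) (nat_lit 5) (nat_lit 467) (nat_lit 397) (nat_lit 276)) (XT.lf (nat_lit 0) (nat_lit 3127926340) (nat_lit 608) (nat_lit 6299169731) (nat_lit 76) (nat_lit 3411965535) (nat_lit 251) (nat_lit 5) (nat_lit 259) (nat_lit 5) (nat_lit 252) (nat_lit 5) (nat_lit 468) (nat_lit 397) (nat_lit 275))) (XT.nd (nat_lit 78) (nat_lit 456) (nat_lit 0) (XT.lf (nat_lit 0) (nat_lit 1946932593) (nat_lit 532) (nat_lit 4376637128) (nat_lit 608) (nat_lit 6658813134) (nat_lit 244) (nat_lit 5) (nat_lit 251) (nat_lit 5) (nat_lit 252) (nat_lit 5) (nat_lit 469) (nat_lit 397) (nat_lit 274)) (XT.nd (nat_lit 78) (nat_lit 456) (nat_lit 0) (XT.lf (nat_lit 0) (nat_lit 9613285076) (nat_lit 608) (nat_lit 2714360942) (nat_lit 76) (nat_lit 800321330) (nat_lit 244) (nat_lit 5) (nat_lit 252) (nat_lit 5) (nat_lit 245) (nat_lit 5) (nat_lit 470) (nat_lit 397) (nat_lit 273))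 (XT.lf (nat_lit 0) (nat_lit 5795996010) (nat_lit 456) (nat_lit 7222333847) (nat_lit 532) (nat_lit 257142970) (nat_lit 238) (nat_lit 5) (nat_lit 244) (nat_lit 5) (nat_lit 245) (nat_lit 5) (nat_lit 471) (nat_lit 397) (nat_lit 272)))))) (XT.nd (nat_lit 390) (nat_lit 1824) (nat_lit 0) (XT.nd (nat_lit 156) (nat_lit 988) (nat_lit 0) (XT.nd (nat_lit 78) (nat_lit 0) (nat_lit 0) (XT.lf (nat_lit 0) (nat_lit 1057381085) (nat_lit 532) (nat_lit 1976147776) (nat_lit 608) (nat_lit 10391837744) (nat_lit 230) (nat_lit 5) (nat_lit 237) (nat_lit 5) (nat_lit 238) (nat_lit 5) (nat_lit 472) (nat_lit 397) (nat_lit 271)) (XT.lf (nat_lit 0) (nat_lit 6442126686) (nat_lit 608) (nat_lit 3759222216) (nat_lit 76) (nat_lit 3375764250) (nat_lit 230) (nat_lit 5) (nat_lit 238) (nat_lit 5) (nat_lit 231) (nat_lit 5) (nat_lit 473) (nat_lit 397) (nat_lit 270))) (XT.nd (nat_lit 78) (nat_lit 532) (nat_lit 0) (XT.lf (nat_lit 0) (nat_lit 5050969355) (nat_lit 456) (nat_lit 4897255848)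 (nat_lit 532) (nat_lit 3783082851) (nat_lit 224) (nat_lit 5) (nat_lit 230) (nat_lit 5) (nat_lit 231) (nat_lit 5) (nat_lit 474) (nat_lit 397) (nat_lit 269)) (XT.nd (nat_lit 78) (nat_lit 76) (nat_lit 0) (XT.lf (nat_lit 0) (nat_lit 175010841) (nat_lit 456) (nat_lit 13362864752) (nat_lit 532) (nat_lit 350442663) (nat_lit 218) (nat_lit 5) (nat_lit 224) (nat_lit 5) (nat_lit 225) (nat_lit 5) (nat_lit 475) (nat_lit 397) (nat_lit 268)) (XT.lf (nat_lit 0) (nat_lit 3184223386) (nat_lit 532) (nat_lit 4799533694) (nat_lit 76) (nat_lit 6062808494) (nat_lit 217) (nat_lit 5) (nat_lit 224) (nat_lit 5) (nat_lit 218) (nat_lit 5) (nat_lit 476) (nat_lit 397) (nat_lit 267))))) (XT.nd (nat_lit 234) (nat_lit 912) (nat_lit 0) (XT.nd (nat_lit 78) (nat_lit 456) (nat_lit 0) (XT.lf (nat_lit 0) (nat_lit 4323281236) (nat_lit 456) (nat_lit 2473633547) (nat_lit 532) (nat_lit 7410776236) (nat_lit 211) (nat_lit 5) (nat_lit 217) (nat_lit 5) (nat_lit 218) (nat_lit 5) (nat_lit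 477) (nat_lit 397) (nat_lit 266)) (XT.nd (nat_lit 78) (nat_lit 456) (nat_lit 0) (XT.lf (nat_lit 0) (nat_lit 10518774803) (nat_lit 532) (nat_lit 722154419) (nat_lit 76) (nat_lit 3130371457) (nat_lit 211) (nat_lit 5) (nat_lit 218) (nat_lit 5) (nat_lit 212) (nat_lit 5) (nat_lit 478) (nat_lit 397) (nat_lit 265)) (XT.lf (nat_lit 0) (nat_lit 8697775208) (nat_lit 456) (nat_lit 5674526382) (nat_lit 532) (nat_lit 164736350) (nat_lit 205) (nat_lit 5) (nat_lit 211) (nat_lit 5) (nat_lit 212) (nat_lit 5) (nat_lit 479) (nat_lit 397) (nat_lit 264)))) (XT.nd (nat_lit 78) (nat_lit 456) (nat_lit 0) (XT.lf (nat_lit 0) (nat_lit 3562699154) (nat_lit 456) (nat_lit 11095129067) (nat_lit 76) (nat_lit 47533408) (nat_lit 199) (nat_lit 5) (nat_lit 205) (nat_lit 5) (nat_lit 200) (nat_lit 5) (nat_lit 480) (nat_lit 397) (nat_lit 263)) (XT.nd (nat_lit 78) (nat_lit 456) (nat_lit 0) (XT.lf (nat_lit 0) (nat_lit 7424037928) (nat_lit 456) (nat_lit 1610748240) (nat_lit 76)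 (nat_lit 5841012638) (nat_lit 199) (nat_lit 5) (nat_lit 205) (nat_lit 5) (nat_lit 200) (nat_lit 5) (nat_lit 481) (nat_lit 397) (nat_lit 262)) (XT.lf (nat_lit 0) (nat_lit 8147211033) (nat_lit 456) (nat_lit 3253127430) (nat_lit 532) (nat_lit 3648551565) (nat_lit 193) (nat_lit 5) (nat_lit 199) (nat_lit 5) (nat_lit 200) (nat_lit 5) (nat_lit 482) (nat_lit 397) (nat_lit 261))))))))
noncomputable def xc152 : XT := (XT.nd (nat_lit 1560) (nat_lit 304) (nat_lit 0) (XT.nd (nat_lit 780) (nat_lit 2128) (nat_lit 0) (XT.nd (nat_lit 390) (nat_lit 1444) (nat_lit 0) (XT.nd (nat_lit 156) (nat_lit 836) (nat_lit 0) (XT.nd (nat_lit 78) (nat_lit 0) (nat_lit 0) (XT.lf (nat_lit 0) (nat_lit 259684775) (nat_lit 456) (nat_lit 12331915165) (nat_lit 76) (nat_lit 2633173396) (nat_lit 187) (nat_lit 5) (nat_lit 193) (nat_lit 5) (nat_lit 188) (nat_lit 5) (nat_lit 483) (nat_lit 397) (nat_lit 260)) (XT.lf (nat_lit 0) (nat_lit 4250426209) (nat_lit 456) (nat_lit 2495528794)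 (nat_lit 76) (nat_lit 8656673082) (nat_lit 187) (nat_lit 5) (nat_lit 193) (nat_lit 5) (nat_lit 188) (nat_lit 5) (nat_lit 484) (nat_lit 397) (nat_lit 259))) (XT.nd (nat_lit 78) (nat_lit 456) (nat_lit 0) (XT.lf (nat_lit 0) (nat_lit 7614800152) (nat_lit 380) (nat_lit 740901378) (nat_lit 456) (nat_lit 7227644017) (nat_lit 182) (nat_lit 5) (nat_lit 187) (nat_lit 5) (nat_lit 188) (nat_lit 5) (nat_lit 485) (nat_lit 397) (nat_lit 258)) (XT.nd (nat_lit 78) (nat_lit 76) (nat_lit 0) (XT.lf (nat_lit 0) (nat_lit 2164392452) (nat_lit 380) (nat_lit 10429927726) (nat_lit 456) (nat_lit 3172332423) (nat_lit 177) (nat_lit 5) (nat_lit 182) (nat_lit 5) (nat_lit 183) (nat_lit 5) (nat_lit 486) (nat_lit 397) (nat_lit 257)) (XT.lf (nat_lit 0) (nat_lit 995589128) (nat_lit 456) (nat_lit 3378861677) (nat_lit 76) (nat_lit 11578166845) (nat_lit 176) (nat_lit 5) (nat_lit 182) (nat_lit 5) (nat_lit 177) (nat_lit 5) (nat_lit 487) (nat_lit 397) (nat_lit 256))))) (XT.nd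 (nat_lit 156) (nat_lit 760) (nat_lit 0) (XT.nd (nat_lit 78) (nat_lit 304) (nat_lit 0) (XT.lf (nat_lit 0) (nat_lit 5248313899) (nat_lit 456) (nat_lit 9054584475) (nat_lit 76) (nat_lit 1838105796) (nat_lit 171) (nat_lit 5) (nat_lit 177) (nat_lit 5) (nat_lit 172) (nat_lit 5) (nat_lit 488) (nat_lit 397) (nat_lit 255)) (XT.lf (nat_lit 0) (nat_lit 1441460940) (nat_lit 304) (nat_lit 8191569235) (nat_lit 380) (nat_lit 6699189506) (nat_lit 167) (nat_lit 5) (nat_lit 171) (nat_lit 5) (nat_lit 172) (nat_lit 5) (nat_lit 489) (nat_lit 397) (nat_lit 254))) (XT.nd (nat_lit 78) (nat_lit 760) (nat_lit 0) (XT.lf (nat_lit 0) (nat_lit 12247884929) (nat_lit 304) (nat_lit 1904235083) (nat_lit 380) (nat_lit 2374205905) (nat_lit 167) (nat_lit 5) (nat_lit 171) (nat_lit 5) (nat_lit 172) (nat_lit 5) (nat_lit 490) (nat_lit 397) (nat_lit 253)) (XT.nd (nat_lit 78) (nat_lit 304) (nat_lit 0) (XT.lf (nat_lit 0) (nat_lit 2069088561) (nat_lit 456) (nat_lit 10155669547)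 (nat_lit 76) (nat_lit 4498121013) (nat_lit 161) (nat_lit 5) (nat_lit 167) (nat_lit 5) (nat_lit 162) (nat_lit 5) (nat_lit 491) (nat_lit 397) (nat_lit 252)) (XT.lf (nat_lit 0) (nat_lit 723843352) (nat_lit 304) (nat_lit 5878036508) (nat_lit 380) (nat_lit 10320521229) (nat_lit 157) (nat_lit 5) (nat_lit 161) (nat_lit 5) (nat_lit 162) (nat_lit 5) (nat_lit 492) (nat_lit 397) (nat_lit 251)))))) (XT.nd (nat_lit 390) (nat_lit 1064) (nat_lit 0) (XT.nd (nat_lit 156) (nat_lit 684) (nat_lit 0) (XT.nd (nat_lit 78) (nat_lit 380) (nat_lit 0) (XT.lf (nat_lit 0) (nat_lit 11284050675) (nat_lit 380) (nat_lit 5192439566) (nat_lit 76) (nat_lit 648248781) (nat_lit 157) (nat_lit 5) (nat_lit 162) (nat_lit 5) (nat_lit 158) (nat_lit 5) (nat_lit 493) (nat_lit 397) (nat_lit 250)) (XT.lf (nat_lit 0) (nat_lit 6052508339) (nat_lit 380) (nat_lit 10072105682) (nat_lit 456) (nat_lit 1205214710) (nat_lit 152) (nat_lit 5) (nat_lit 157) (nat_lit 5) (nat_lit 158) (nat_lit 5)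 (nat_lit 494) (nat_lit 397) (nat_lit 249))) (XT.nd (nat_lit 78) (nat_lit 304) (nat_lit 0) (XT.lf (nat_lit 0) (nat_lit 9658687) (nat_lit 304) (nat_lit 3488803186) (nat_lit 380) (nat_lit 14039666937) (nat_lit 147) (nat_lit 5) (nat_lit 151) (nat_lit 5) (nat_lit 152) (nat_lit 5) (nat_lit 495) (nat_lit 397) (nat_lit 248)) (XT.nd (nat_lit 78) (nat_lit 304) (nat_lit 0) (XT.lf (nat_lit 0) (nat_lit 8363842968) (nat_lit 380) (nat_lit 6125115622) (nat_lit 76) (nat_lit 3259801593) (nat_lit 147) (nat_lit 5) (nat_lit 152) (nat_lit 5) (nat_lit 148) (nat_lit 5) (nat_lit 496) (nat_lit 397) (nat_lit 247)) (XT.lf (nat_lit 0) (nat_lit 5534364385) (nat_lit 304) (nat_lit 7838096276) (nat_lit 380) (nat_lit 4590224945) (nat_lit 143) (nat_lit 5) (nat_lit 147) (nat_lit 5) (nat_lit 148) (nat_lit 5) (nat_lit 497) (nat_lit 397) (nat_lit 246))))) (XT.nd (nat_lit 156) (nat_lit 684) (nat_lit 0) (XT.nd (nat_lit 78) (nat_lit 304) (nat_lit 0) (XT.lf (nat_lit 0) (nat_lit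 324721228) (nat_lit 380) (nat_lit 693682232) (nat_lit 76) (nat_lit 17161881086) (nat_lit 142) (nat_lit 5) (nat_lit 147) (nat_lit 5) (nat_lit 143) (nat_lit 5) (nat_lit 498) (nat_lit 397) (nat_lit 245)) (XT.lf (nat_lit 0) (nat_lit 5376773376) (nat_lit 380) (nat_lit 7066214044) (nat_lit 76) (nat_lit 5956635815) (nat_lit 138) (nat_lit 5) (nat_lit 143) (nat_lit 5) (nat_lit 139) (nat_lit 5) (nat_lit 499) (nat_lit 397) (nat_lit 244))) (XT.nd (nat_lit 78) (nat_lit 380) (nat_lit 0) (XT.lf (nat_lit 0) (nat_lit 5025225612) (nat_lit 304) (nat_lit 5535941536) (nat_lit 380) (nat_lit 8061555538) (nat_lit 134) (nat_lit 5) (nat_lit 138) (nat_lit 5) (nat_lit 139) (nat_lit 5) (nat_lit 500) (nat_lit 397) (nat_lit 243)) (XT.nd (nat_lit 78) (nat_lit 380) (nat_lit 0) (XT.lf (nat_lit 0) (nat_lit 15894083231) (nat_lit 380) (nat_lit 1426326236) (nat_lit 76) (nat_lit 1528977970) (nat_lit 134) (nat_lit 5) (nat_lit 139) (nat_lit 5) (nat_lit 135) (nat_lit 5) (nat_lit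 501) (nat_lit 397) (nat_lit 242)) (XT.lf (nat_lit 0) (nat_lit 2320287088) (nat_lit 380) (nat_lit 8017797433) (nat_lit 76) (nat_lit 8740273105) (nat_lit 129) (nat_lit 5) (nat_lit 134) (nat_lit 5) (nat_lit 130) (nat_lit 5) (nat_lit 502) (nat_lit 397) (nat_lit 241))))))) (XT.nd (nat_lit 51870) (nat_lit 0) (nat_lit 38760) (XT.nd (nat_lit 51480) (nat_lit 0) (nat_lit 41268) (XT.nd (nat_lit 51246) (nat_lit 0) (nat_lit 42408) (XT.nd (nat_lit 51168) (nat_lit 0) (nat_lit 43472) (XT.lf (nat_lit 0) (nat_lit 4523727708) (nat_lit 304) (nat_lit 3164714709) (nat_lit 380) (nat_lit 11622541637) (nat_lit 125) (nat_lit 5) (nat_lit 129) (nat_lit 5) (nat_lit 130) (nat_lit 5) (nat_lit 503) (nat_lit 397) (nat_lit 240)) (XT.lf (nat_lit 0) (nat_lit 1414615098) (nat_lit 1140) (nat_lit 1056792903) (nat_lit 1140) (nat_lit 1056792903) (nat_lit 697) (nat_lit 3) (nat_lit 712) (nat_lit 3) (nat_lit 712) (nat_lit 5) (nat_lit 398) (nat_lit 398) (nat_lit 344))) (XT.nd (nat_lit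 78) (nat_lit 1064) (nat_lit 0) (XT.lf (nat_lit 76) (nat_lit 1433414588) (nat_lit 0) (nat_lit 3211759398) (nat_lit 1140) (nat_lit 2446038810) (nat_lit 698) (nat_lit 5) (nat_lit 697) (nat_lit 3) (nat_lit 712) (nat_lit 5) (nat_lit 399) (nat_lit 398) (nat_lit 343)) (XT.nd (nat_lit 78) (nat_lit 1064) (nat_lit 0) (XT.lf (nat_lit 76) (nat_lit 5055899270) (nat_lit 0) (nat_lit 1408917519) (nat_lit 1140) (nat_lit 662555612) (nat_lit 698) (nat_lit 5) (nat_lit 697) (nat_lit 3) (nat_lit 712) (nat_lit 5) (nat_lit 400) (nat_lit 398) (nat_lit 342)) (XT.lf (nat_lit 0) (nat_lit 1108519716) (nat_lit 1140) (nat_lit 5592391158) (nat_lit 1216) (nat_lit 463852308) (nat_lit 683) (nat_lit 5) (nat_lit 698) (nat_lit 5) (nat_lit 699) (nat_lit 5) (nat_lit 401) (nat_lit 398) (nat_lit 341))))) (XT.nd (nat_lit 156) (nat_lit 1140) (nat_lit 0) (XT.nd (nat_lit 78) (nat_lit 0) (nat_lit 0) (XT.lf (nat_lit 0) (nat_lit 2884175147) (nat_lit 1140) (nat_lit 1924395753) (nat_lit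 1216) (nat_lit 2394682684) (nat_lit 683) (nat_lit 5) (nat_lit 698) (nat_lit 5) (nat_lit 699) (nat_lit 5) (nat_lit 402) (nat_lit 398) (nat_lit 340)) (XT.lf (nat_lit 76) (nat_lit 1816136345) (nat_lit 0) (nat_lit 2846585775) (nat_lit 1216) (nat_lit 2580444105) (nat_lit 684) (nat_lit 5) (nat_lit 683) (nat_lit 5) (nat_lit 699) (nat_lit 5) (nat_lit 403) (nat_lit 398) (nat_lit 339))) (XT.nd (nat_lit 78) (nat_lit 1140) (nat_lit 0) (XT.lf (nat_lit 76) (nat_lit 5633084727) (nat_lit 0) (nat_lit 812967792) (nat_lit 1216) (nat_lit 838440350) (nat_lit 684) (nat_lit 5) (nat_lit 683) (nat_lit 5) (nat_lit 699) (nat_lit 5) (nat_lit 404) (nat_lit 398) (nat_lit 338)) (XT.nd (nat_lit 78) (nat_lit 0) (nat_lit 0) (XT.lf (nat_lit 0) (nat_lit 905682874) (nat_lit 1216) (nat_lit 5137660258) (nat_lit 1292) (nat_lit 1283589326) (nat_lit 668) (nat_lit 5) (nat_lit 684) (nat_lit 5) (nat_lit 685) (nat_lit 5) (nat_lit 405) (nat_lit 398) (nat_lit 337)) (XT.lf (nat_lit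 0) (nat_lit 2647687580) (nat_lit 1216) (nat_lit 1277235055) (nat_lit 1292) (nat_lit 3445702846) (nat_lit 668) (nat_lit 5) (nat_lit 684) (nat_lit 5) (nat_lit 685) (nat_lit 5) (nat_lit 406) (nat_lit 398) (nat_lit 336)))))) (XT.nd (nat_lit 390) (nat_lit 1292) (nat_lit 0) (XT.nd (nat_lit 156) (nat_lit 1216) (nat_lit 0) (XT.nd (nat_lit 78) (nat_lit 0) (nat_lit 76) (XT.lf (nat_lit 76) (nat_lit 2670543496) (nat_lit 0) (nat_lit 1729833842) (nat_lit 1292) (nat_lit 3015298128) (nat_lit 669) (nat_lit 5) (nat_lit 668) (nat_lit 5) (nat_lit 685) (nat_lit 5) (nat_lit 407) (nat_lit 398) (nat_lit 335)) (XT.lf (nat_lit 0) (nat_lit 6159318199) (nat_lit 1216) (nat_lit 775864340) (nat_lit 1292) (nat_lit 527019964) (nat_lit 669) (nat_lit 5) (nat_lit 685) (nat_lit 5) (nat_lit 686) (nat_lit 5) (nat_lit 408) (nat_lit 398) (nat_lit 334))) (XT.nd (nat_lit 78) (nat_lit 0) (nat_lit 0) (XT.lf (nat_lit 0) (nat_lit 430719168) (nat_lit 1292) (nat_lit 4233432363) (nat_lit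 1368) (nat_lit 2845595693) (nat_lit 652) (nat_lit 5) (nat_lit 669) (nat_lit 5) (nat_lit 670) (nat_lit 5) (nat_lit 409) (nat_lit 398) (nat_lit 333)) (XT.nd (nat_lit 78) (nat_lit 0) (nat_lit 76) (XT.lf (nat_lit 0) (nat_lit 2147229522) (nat_lit 1292) (nat_lit 172242404) (nat_lit 1368) (nat_lit 5239285064) (nat_lit 652) (nat_lit 5) (nat_lit 669) (nat_lit 5) (nat_lit 670) (nat_lit 5) (nat_lit 410) (nat_lit 398) (nat_lit 332)) (XT.lf (nat_lit 0) (nat_lit 3885954039) (nat_lit 1292) (nat_lit 3612128475) (nat_lit 1368) (nat_lit 110906758) (nat_lit 653) (nat_lit 5) (nat_lit 670) (nat_lit 5) (nat_lit 671) (nat_lit 5) (nat_lit 411) (nat_lit 398) (nat_lit 331))))) (XT.nd (nat_lit 234) (nat_lit 0) (nat_lit 76) (XT.nd (nat_lit 78) (nat_lit 1368) (nat_lit 0) (XT.lf (nat_lit 76) (nat_lit 557742258) (nat_lit 0) (nat_lit 5083741842) (nat_lit 1368) (nat_lit 2019101478) (nat_lit 654) (nat_lit 5) (nat_lit 653) (nat_lit 5) (nat_lit 671) (nat_lit 5) (nat_lit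 412) (nat_lit 398) (nat_lit 330)) (XT.nd (nat_lit 78) (nat_lit 1368) (nat_lit 0) (XT.lf (nat_lit 76) (nat_lit 4834460710) (nat_lit 0) (nat_lit 2584370618) (nat_lit 1368) (nat_lit 294648351) (nat_lit 654) (nat_lit 5) (nat_lit 653) (nat_lit 5) (nat_lit 671) (nat_lit 5) (nat_lit 413) (nat_lit 398) (nat_lit 329)) (XT.lf (nat_lit 76) (nat_lit 1412798770) (nat_lit 0) (nat_lit 4422947) (nat_lit 1444) (nat_lit 6350577154) (nat_lit 636) (nat_lit 5) (nat_lit 635) (nat_lit 5) (nat_lit 654) (nat_lit 5) (nat_lit 414) (nat_lit 398) (nat_lit 328)))) (XT.nd (nat_lit 78) (nat_lit 0) (nat_lit 0) (XT.lf (nat_lit 0) (nat_lit 3159485890) (nat_lit 1368) (nat_lit 2038614772) (nat_lit 1444) (nat_lit 2625062793) (nat_lit 636) (nat_lit 5) (nat_lit 654) (nat_lit 5) (nat_lit 655) (nat_lit 5) (nat_lit 415) (nat_lit 398) (nat_lit 327)) (XT.nd (nat_lit 78) (nat_lit 0) (nat_lit 76) (XT.lf (nat_lit 76) (nat_lit 2369519018) (nat_lit 0) (nat_lit 2546797603) (nat_lit 1444)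 (nat_lit 2963724284) (nat_lit 637) (nat_lit 5) (nat_lit 636) (nat_lit 5) (nat_lit 655) (nat_lit 5) (nat_lit 416) (nat_lit 398) (nat_lit 326)) (XT.lf (nat_lit 0) (nat_lit 6687982578) (nat_lit 1368) (nat_lit 1071670415) (nat_lit 1444) (nat_lit 178808937) (nat_lit 637) (nat_lit 5) (nat_lit 655) (nat_lit 5) (nat_lit 656) (nat_lit 5) (nat_lit 417) (nat_lit 398) (nat_lit 325))))))))
noncomputable def xc153 : XT := (XT.nd (nat_lit 1560) (nat_lit 9880) (nat_lit 0) (XT.nd (nat_lit 780) (nat_lit 7600) (nat_lit 0) (XT.nd (nat_lit 390) (nat_lit 4864) (nat_lit 0) (XT.nd (nat_lit 156) (nat_lit 1368) (nat_lit 0) (XT.nd (nat_lit 78) (nat_lit 0) (nat_lit 0) (XT.lf (nat_lit 0) (nat_lit 495460230) (nat_lit 1444) (nat_lit 4542468708) (nat_lit 1520) (nat_lit 2959958930) (nat_lit 618) (nat_lit 5) (nat_lit 637) (nat_lit 5) (nat_lit 638) (nat_lit 5) (nat_lit 418) (nat_lit 398) (nat_lit 324)) (XT.lf (nat_lit 0) (nat_lit 2232706936) (nat_lit 1444) (nat_lit 5104427)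 (nat_lit 1520) (nat_lit 5821063002) (nat_lit 618) (nat_lit 5) (nat_lit 637) (nat_lit 5) (nat_lit 638) (nat_lit 5) (nat_lit 419) (nat_lit 398) (nat_lit 323))) (XT.nd (nat_lit 78) (nat_lit 1444) (nat_lit 0) (XT.lf (nat_lit 0) (nat_lit 4005758522) (nat_lit 1444) (nat_lit 3466790050) (nat_lit 76) (nat_lit 648510823) (nat_lit 619) (nat_lit 5) (nat_lit 638) (nat_lit 5) (nat_lit 620) (nat_lit 5) (nat_lit 420) (nat_lit 398) (nat_lit 322)) (XT.nd (nat_lit 78) (nat_lit 0) (nat_lit 0) (XT.lf (nat_lit 0) (nat_lit 1197268761) (nat_lit 1444) (nat_lit 4606718042) (nat_lit 1520) (nat_lit 2380707008) (nat_lit 600) (nat_lit 5) (nat_lit 619) (nat_lit 5) (nat_lit 620) (nat_lit 5) (nat_lit 421) (nat_lit 398) (nat_lit 321)) (XT.lf (nat_lit 0) (nat_lit 5975747414) (nat_lit 1444) (nat_lit 1653261474) (nat_lit 1520) (nat_lit 620775443) (nat_lit 600) (nat_lit 5) (nat_lit 619) (nat_lit 5) (nat_lit 620) (nat_lit 5) (nat_lit 422) (nat_lit 398) (nat_lit 320))))) (XT.nd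 (nat_lit 156) (nat_lit 3268) (nat_lit 0) (XT.nd (nat_lit 78) (nat_lit 0) (nat_lit 0) (XT.lf (nat_lit 0) (nat_lit 1152417504) (nat_lit 1596) (nat_lit 5791912651) (nat_lit 76) (nat_lit 1371824719) (nat_lit 579) (nat_lit 5) (nat_lit 600) (nat_lit 5) (nat_lit 580) (nat_lit 5) (nat_lit 423) (nat_lit 398) (nat_lit 319)) (XT.lf (nat_lit 0) (nat_lit 2947570329) (nat_lit 1596) (nat_lit 975669435) (nat_lit 76) (nat_lit 4460634835) (nat_lit 579) (nat_lit 5) (nat_lit 600) (nat_lit 5) (nat_lit 580) (nat_lit 5) (nat_lit 424) (nat_lit 398) (nat_lit 318))) (XT.nd (nat_lit 78) (nat_lit 1672) (nat_lit 0) (XT.lf (nat_lit 0) (nat_lit 3963117785) (nat_lit 1596) (nat_lit 810348078) (nat_lit 1672) (nat_lit 3679586061) (nat_lit 558) (nat_lit 5) (nat_lit 579) (nat_lit 5) (nat_lit 580) (nat_lit 5) (nat_lit 425) (nat_lit 398) (nat_lit 317)) (XT.nd (nat_lit 78) (nat_lit 0) (nat_lit 0) (XT.lf (nat_lit 0) (nat_lit 454762409) (nat_lit 1672) (nat_lit 6175593616) (nat_lit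 1748) (nat_lit 1893367237) (nat_lit 536) (nat_lit 5) (nat_lit 558) (nat_lit 5) (nat_lit 559) (nat_lit 5) (nat_lit 426) (nat_lit 398) (nat_lit 316)) (XT.lf (nat_lit 0) (nat_lit 5527720809) (nat_lit 1672) (nat_lit 3002131163) (nat_lit 1748) (nat_lit 65846695) (nat_lit 536) (nat_lit 5) (nat_lit 558) (nat_lit 5) (nat_lit 559) (nat_lit 5) (nat_lit 427) (nat_lit 398) (nat_lit 315)))))) (XT.nd (nat_lit 390) (nat_lit 2736) (nat_lit 0) (XT.nd (nat_lit 156) (nat_lit 3040) (nat_lit 0) (XT.nd (nat_lit 78) (nat_lit 0) (nat_lit 0) (XT.lf (nat_lit 0) (nat_lit 1759880721) (nat_lit 1824) (nat_lit 6648993447) (nat_lit 76) (nat_lit 260301097) (nat_lit 512) (nat_lit 5) (nat_lit 536) (nat_lit 5) (nat_lit 513) (nat_lit 5) (nat_lit 428) (nat_lit 398) (nat_lit 314)) (XT.lf (nat_lit 0) (nat_lit 3632683140) (nat_lit 1824) (nat_lit 1538845967) (nat_lit 76) (nat_lit 3572354740) (nat_lit 512) (nat_lit 5) (nat_lit 536) (nat_lit 5) (nat_lit 513) (nat_lit 5) (nat_lit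 429) (nat_lit 398) (nat_lit 313))) (XT.nd (nat_lit 78) (nat_lit 1216) (nat_lit 0) (XT.lf (nat_lit 0) (nat_lit 3696122729) (nat_lit 1824) (nat_lit 1842223975) (nat_lit 1900) (nat_lit 3281831795) (nat_lit 488) (nat_lit 5) (nat_lit 512) (nat_lit 5) (nat_lit 513) (nat_lit 5) (nat_lit 430) (nat_lit 398) (nat_lit 312)) (XT.nd (nat_lit 78) (nat_lit 76) (nat_lit 0) (XT.lf (nat_lit 0) (nat_lit 124061796) (nat_lit 1140) (nat_lit 7351167115) (nat_lit 1216) (nat_lit 1422908025) (nat_lit 473) (nat_lit 5) (nat_lit 488) (nat_lit 5) (nat_lit 489) (nat_lit 5) (nat_lit 431) (nat_lit 398) (nat_lit 311)) (XT.lf (nat_lit 0) (nat_lit 485817837) (nat_lit 1216) (nat_lit 3472333657) (nat_lit 76) (nat_lit 5019065010) (nat_lit 472) (nat_lit 5) (nat_lit 488) (nat_lit 5) (nat_lit 473) (nat_lit 5) (nat_lit 432) (nat_lit 398) (nat_lit 310))))) (XT.nd (nat_lit 156) (nat_lit 1824) (nat_lit 0) (XT.nd (nat_lit 78) (nat_lit 0) (nat_lit 0) (XT.lf (nat_lit 0) (nat_lit 1925323038)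 (nat_lit 912) (nat_lit 473426078) (nat_lit 988) (nat_lit 6659238764) (nat_lit 460) (nat_lit 5) (nat_lit 472) (nat_lit 5) (nat_lit 473) (nat_lit 5) (nat_lit 433) (nat_lit 398) (nat_lit 309)) (XT.lf (nat_lit 0) (nat_lit 4366342665) (nat_lit 988) (nat_lit 1708391844) (nat_lit 76) (nat_lit 3065312105) (nat_lit 460) (nat_lit 5) (nat_lit 473) (nat_lit 5) (nat_lit 461) (nat_lit 5) (nat_lit 434) (nat_lit 398) (nat_lit 308))) (XT.nd (nat_lit 78) (nat_lit 912) (nat_lit 0) (XT.lf (nat_lit 0) (nat_lit 3845860418) (nat_lit 912) (nat_lit 2529007606) (nat_lit 988) (nat_lit 2848846898) (nat_lit 448) (nat_lit 5) (nat_lit 460) (nat_lit 5) (nat_lit 461) (nat_lit 5) (nat_lit 435) (nat_lit 398) (nat_lit 307)) (XT.nd (nat_lit 78) (nat_lit 76) (nat_lit 0) (XT.lf (nat_lit 0) (nat_lit 194777945) (nat_lit 836) (nat_lit 8222484213) (nat_lit 912) (nat_lit 891920473) (nat_lit 437) (nat_lit 5) (nat_lit 448) (nat_lit 5) (nat_lit 449) (nat_lit 5) (nat_lit 436) (nat_lit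 398) (nat_lit 306)) (XT.lf (nat_lit 0) (nat_lit 1116744225) (nat_lit 912) (nat_lit 3494373340) (nat_lit 76) (nat_lit 4784557136) (nat_lit 436) (nat_lit 5) (nat_lit 448) (nat_lit 5) (nat_lit 437) (nat_lit 5) (nat_lit 437) (nat_lit 398) (nat_lit 305))))))) (XT.nd (nat_lit 780) (nat_lit 4864) (nat_lit 0) (XT.nd (nat_lit 390) (nat_lit 2356) (nat_lit 0) (XT.nd (nat_lit 156) (nat_lit 1748) (nat_lit 0) (XT.nd (nat_lit 78) (nat_lit 0) (nat_lit 0) (XT.lf (nat_lit 0) (nat_lit 2235648831) (nat_lit 912) (nat_lit 907031927) (nat_lit 988) (nat_lit 6341317115) (nat_lit 424) (nat_lit 5) (nat_lit 436) (nat_lit 5) (nat_lit 437) (nat_lit 5) (nat_lit 438) (nat_lit 398) (nat_lit 304)) (XT.lf (nat_lit 0) (nat_lit 5226226478) (nat_lit 988) (nat_lit 1490930403) (nat_lit 76) (nat_lit 2856588819) (nat_lit 424) (nat_lit 5) (nat_lit 437) (nat_lit 5) (nat_lit 425) (nat_lit 5) (nat_lit 439) (nat_lit 398) (nat_lit 303))) (XT.nd (nat_lit 78) (nat_lit 912) (nat_lit 0)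 (XT.lf (nat_lit 0) (nat_lit 4407797791) (nat_lit 836) (nat_lit 2953608503) (nat_lit 912) (nat_lit 2303682927) (nat_lit 413) (nat_lit 5) (nat_lit 424) (nat_lit 5) (nat_lit 425) (nat_lit 5) (nat_lit 440) (nat_lit 398) (nat_lit 302)) (XT.nd (nat_lit 78) (nat_lit 76) (nat_lit 0) (XT.lf (nat_lit 0) (nat_lit 663588537) (nat_lit 836) (nat_lit 8871477048) (nat_lit 912) (nat_lit 223278508) (nat_lit 402) (nat_lit 5) (nat_lit 413) (nat_lit 5) (nat_lit 414) (nat_lit 5) (nat_lit 441) (nat_lit 398) (nat_lit 301)) (XT.lf (nat_lit 0) (nat_lit 1904704643) (nat_lit 912) (nat_lit 3136832979) (nat_lit 76) (nat_lit 4811062426) (nat_lit 401) (nat_lit 5) (nat_lit 413) (nat_lit 5) (nat_lit 402) (nat_lit 5) (nat_lit 442) (nat_lit 398) (nat_lit 300))))) (XT.nd (nat_lit 156) (nat_lit 1596) (nat_lit 0) (XT.nd (nat_lit 78) (nat_lit 0) (nat_lit 0) (XT.lf (nat_lit 0) (nat_lit 2951893036) (nat_lit 760) (nat_lit 1115807413) (nat_lit 836) (nat_lit 5881102303) (nat_lit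 391) (nat_lit 5) (nat_lit 401) (nat_lit 5) (nat_lit 402) (nat_lit 5) (nat_lit 443) (nat_lit 398) (nat_lit 299)) (XT.lf (nat_lit 0) (nat_lit 6290460459) (nat_lit 836) (nat_lit 886365540) (nat_lit 76) (nat_lit 2869773425) (nat_lit 391) (nat_lit 5) (nat_lit 402) (nat_lit 5) (nat_lit 392) (nat_lit 5) (nat_lit 444) (nat_lit 398) (nat_lit 298))) (XT.nd (nat_lit 78) (nat_lit 836) (nat_lit 0) (XT.lf (nat_lit 0) (nat_lit 5384244679) (nat_lit 760) (nat_lit 3192799543) (nat_lit 836) (nat_lit 1568920437) (nat_lit 381) (nat_lit 5) (nat_lit 391) (nat_lit 5) (nat_lit 392) (nat_lit 5) (nat_lit 445) (nat_lit 398) (nat_lit 297)) (XT.nd (nat_lit 78) (nat_lit 0) (nat_lit 0) (XT.lf (nat_lit 0) (nat_lit 652244703) (nat_lit 836) (nat_lit 8717764977) (nat_lit 76) (nat_lit 877243848) (nat_lit 370) (nat_lit 5) (nat_lit 381) (nat_lit 5) (nat_lit 371) (nat_lit 5) (nat_lit 446) (nat_lit 398) (nat_lit 296)) (XT.lf (nat_lit 0) (nat_lit 2927577545) (nat_lit 836) (nat_lit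 2396380353) (nat_lit 76) (nat_lit 5025787821) (nat_lit 370) (nat_lit 5) (nat_lit 381) (nat_lit 5) (nat_lit 371) (nat_lit 5) (nat_lit 447) (nat_lit 398) (nat_lit 295)))))) (XT.nd (nat_lit 390) (nat_lit 2660) (nat_lit 0) (XT.nd (nat_lit 156) (nat_lit 760) (nat_lit 0) (XT.nd (nat_lit 78) (nat_lit 684) (nat_lit 0) (XT.lf (nat_lit 0) (nat_lit 4079670229) (nat_lit 760) (nat_lit 1173100403) (nat_lit 836) (nat_lit 5201430050) (nat_lit 360) (nat_lit 5) (nat_lit 370) (nat_lit 5) (nat_lit 371) (nat_lit 5) (nat_lit 448) (nat_lit 398) (nat_lit 294)) (XT.lf (nat_lit 0) (nat_lit 113291677) (nat_lit 684) (nat_lit 7526087191) (nat_lit 760) (nat_lit 2921067651) (nat_lit 351) (nat_lit 5) (nat_lit 360) (nat_lit 5) (nat_lit 361) (nat_lit 5) (nat_lit 449) (nat_lit 398) (nat_lit 293))) (XT.nd (nat_lit 78) (nat_lit 760) (nat_lit 0) (XT.lf (nat_lit 0) (nat_lit 6784057091) (nat_lit 684) (nat_lit 3318536591) (nat_lit 760) (nat_lit 565646103) (nat_lit 351) (nat_lit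 5) (nat_lit 360) (nat_lit 5) (nat_lit 361) (nat_lit 5) (nat_lit 450) (nat_lit 398) (nat_lit 292)) (XT.nd (nat_lit 78) (nat_lit 0) (nat_lit 0) (XT.lf (nat_lit 0) (nat_lit 1816193449) (nat_lit 760) (nat_lit 7974667623) (nat_lit 76) (nat_lit 987021303) (nat_lit 341) (nat_lit 5) (nat_lit 351) (nat_lit 5) (nat_lit 342) (nat_lit 5) (nat_lit 451) (nat_lit 398) (nat_lit 291)) (XT.lf (nat_lit 0) (nat_lit 4265212175) (nat_lit 760) (nat_lit 1263447881) (nat_lit 76) (nat_lit 5360440658) (nat_lit 341) (nat_lit 5) (nat_lit 351) (nat_lit 5) (nat_lit 342) (nat_lit 5) (nat_lit 452) (nat_lit 398) (nat_lit 290))))) (XT.nd (nat_lit 234) (nat_lit 1216) (nat_lit 0) (XT.nd (nat_lit 78) (nat_lit 760) (nat_lit 0) (XT.lf (nat_lit 0) (nat_lit 5630977986) (nat_lit 684) (nat_lit 1148101874) (nat_lit 760) (nat_lit 4223146187) (nat_lit 332) (nat_lit 5) (nat_lit 341) (nat_lit 5) (nat_lit 342) (nat_lit 5) (nat_lit 453) (nat_lit 398) (nat_lit 289)) (XT.nd (nat_lit 78)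 (nat_lit 76) (nat_lit 0) (XT.lf (nat_lit 0) (nat_lit 1536425482) (nat_lit 684) (nat_lit 7826391733) (nat_lit 760) (nat_lit 1754404826) (nat_lit 323) (nat_lit 5) (nat_lit 332) (nat_lit 5) (nat_lit 333) (nat_lit 5) (nat_lit 454) (nat_lit 398) (nat_lit 288)) (XT.lf (nat_lit 0) (nat_lit 777212903) (nat_lit 760) (nat_lit 2616729286) (nat_lit 76) (nat_lit 7840006238) (nat_lit 322) (nat_lit 5) (nat_lit 332) (nat_lit 5) (nat_lit 323) (nat_lit 5) (nat_lit 455) (nat_lit 398) (nat_lit 287)))) (XT.nd (nat_lit 78) (nat_lit 608) (nat_lit 0) (XT.lf (nat_lit 0) (nat_lit 3352861348) (nat_lit 684) (nat_lit 6850705098) (nat_lit 76) (nat_lit 1148873169) (nat_lit 314) (nat_lit 5) (nat_lit 323) (nat_lit 5) (nat_lit 315) (nat_lit 5) (nat_lit 456) (nat_lit 398) (nat_lit 286)) (XT.nd (nat_lit 78) (nat_lit 0) (nat_lit 0) (XT.lf (nat_lit 0) (nat_lit 281285056) (nat_lit 608) (nat_lit 5720948631) (nat_lit 684) (nat_lit 5470622719) (nat_lit 306) (nat_lit 5) (nat_lit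 314) (nat_lit 5) (nat_lit 315) (nat_lit 5) (nat_lit 457) (nat_lit 398) (nat_lit 285)) (XT.lf (nat_lit 0) (nat_lit 7624041999) (nat_lit 608) (nat_lit 1106982588) (nat_lit 684) (nat_lit 2864128324) (nat_lit 306) (nat_lit 5) (nat_lit 314) (nat_lit 5) (nat_lit 315) (nat_lit 5) (nat_lit 458) (nat_lit 398) (nat_lit 284))))))))
noncomputable def xc154 : XT := (XT.nd (nat_lit 1560) (nat_lit 5548) (nat_lit 0) (XT.nd (nat_lit 780) (nat_lit 3040) (nat_lit 0) (XT.nd (nat_lit 390) (nat_lit 2356) (nat_lit 0) (XT.nd (nat_lit 156) (nat_lit 1140) (nat_lit 0) (XT.nd (nat_lit 78) (nat_lit 76) (nat_lit 0) (XT.lf (nat_lit 0) (nat_lit 3390252521) (nat_lit 608) (nat_lit 8150328712) (nat_lit 684) (nat_lit 178790315) (nat_lit 298) (nat_lit 5) (nat_lit 306) (nat_lit 5) (nat_lit 307) (nat_lit 5) (nat_lit 459) (nat_lit 398) (nat_lit 283)) (XT.lf (nat_lit 0) (nat_lit 2541733310) (nat_lit 684) (nat_lit 941692419) (nat_lit 76) (nat_lit 8362015230) (nat_lit 297) (nat_lit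 5) (nat_lit 306) (nat_lit 5) (nat_lit 298) (nat_lit 5) (nat_lit 460) (nat_lit 398) (nat_lit 282))) (XT.nd (nat_lit 78) (nat_lit 532) (nat_lit 0) (XT.lf (nat_lit 0) (nat_lit 5347310892) (nat_lit 684) (nat_lit 5326690500) (nat_lit 76) (nat_lit 1299345981) (nat_lit 289) (nat_lit 5) (nat_lit 298) (nat_lit 5) (nat_lit 290) (nat_lit 5) (nat_lit 461) (nat_lit 398) (nat_lit 281)) (XT.nd (nat_lit 78) (nat_lit 0) (nat_lit 0) (XT.lf (nat_lit 0) (nat_lit 2278237092) (nat_lit 532) (nat_lit 5956435756) (nat_lit 608) (nat_lit 3868625609) (nat_lit 282) (nat_lit 5) (nat_lit 289) (nat_lit 5) (nat_lit 290) (nat_lit 5) (nat_lit 462) (nat_lit 398) (nat_lit 280)) (XT.lf (nat_lit 0) (nat_lit 10083244337) (nat_lit 532) (nat_lit 1113939890) (nat_lit 608) (nat_lit 1038316294) (nat_lit 282) (nat_lit 5) (nat_lit 289) (nat_lit 5) (nat_lit 290) (nat_lit 5) (nat_lit 463) (nat_lit 398) (nat_lit 279))))) (XT.nd (nat_lit 156) (nat_lit 1140) (nat_lit 0) (XT.nd (nat_lit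 78) (nat_lit 532) (nat_lit 0) (XT.lf (nat_lit 0) (nat_lit 1868468522) (nat_lit 684) (nat_lit 6681910945) (nat_lit 76) (nat_lit 3818844831) (nat_lit 273) (nat_lit 5) (nat_lit 282) (nat_lit 5) (nat_lit 274) (nat_lit 5) (nat_lit 464) (nat_lit 398) (nat_lit 278)) (XT.lf (nat_lit 0) (nat_lit 1184550676) (nat_lit 532) (nat_lit 3646614264) (nat_lit 608) (nat_lit 7674086767) (nat_lit 266) (nat_lit 5) (nat_lit 273) (nat_lit 5) (nat_lit 274) (nat_lit 5) (nat_lit 465) (nat_lit 398) (nat_lit 277))) (XT.nd (nat_lit 78) (nat_lit 1140) (nat_lit 0) (XT.lf (nat_lit 0) (nat_lit 7889265409) (nat_lit 608) (nat_lit 3377588607) (nat_lit 76) (nat_lit 1376422645) (nat_lit 266) (nat_lit 5) (nat_lit 274) (nat_lit 5) (nat_lit 267) (nat_lit 5) (nat_lit 466) (nat_lit 398) (nat_lit 276)) (XT.nd (nat_lit 78) (nat_lit 608) (nat_lit 0) (XT.lf (nat_lit 0) (nat_lit 4738553535) (nat_lit 532) (nat_lit 6307453680) (nat_lit 608) (nat_lit 1737305312) (nat_lit 259) (nat_lit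 5) (nat_lit 266) (nat_lit 5) (nat_lit 267) (nat_lit 5) (nat_lit 467) (nat_lit 398) (nat_lit 275)) (XT.lf (nat_lit 0) (nat_lit 105741379) (nat_lit 532) (nat_lit 1222562241) (nat_lit 608) (nat_lit 11597548726) (nat_lit 251) (nat_lit 5) (nat_lit 258) (nat_lit 5) (nat_lit 259) (nat_lit 5) (nat_lit 468) (nat_lit 398) (nat_lit 274)))))) (XT.nd (nat_lit 390) (nat_lit 1444) (nat_lit 0) (XT.nd (nat_lit 156) (nat_lit 1064) (nat_lit 0) (XT.nd (nat_lit 78) (nat_lit 532) (nat_lit 0) (XT.lf (nat_lit 0) (nat_lit 4494844428) (nat_lit 608) (nat_lit 4603509937) (nat_lit 76) (nat_lit 3971401282) (nat_lit 251) (nat_lit 5) (nat_lit 259) (nat_lit 5) (nat_lit 252) (nat_lit 5) (nat_lit 469) (nat_lit 398) (nat_lit 273)) (XT.lf (nat_lit 0) (nat_lit 3795529939) (nat_lit 532) (nat_lit 3945044564) (nat_lit 608) (nat_lit 5475645341) (nat_lit 244) (nat_lit 5) (nat_lit 251) (nat_lit 5) (nat_lit 252) (nat_lit 5) (nat_lit 470) (nat_lit 398) (nat_lit 272))) (XT.nd (nat_lit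 78) (nat_lit 1064) (nat_lit 0) (XT.lf (nat_lit 0) (nat_lit 11074084006) (nat_lit 608) (nat_lit 972472811) (nat_lit 76) (nat_lit 1318599212) (nat_lit 244) (nat_lit 5) (nat_lit 252) (nat_lit 5) (nat_lit 245) (nat_lit 5) (nat_lit 471) (nat_lit 398) (nat_lit 271)) (XT.nd (nat_lit 78) (nat_lit 532) (nat_lit 0) (XT.lf (nat_lit 0) (nat_lit 1004712245) (nat_lit 532) (nat_lit 5826212991) (nat_lit 76) (nat_lit 6684819942) (nat_lit 237) (nat_lit 5) (nat_lit 244) (nat_lit 5) (nat_lit 238) (nat_lit 5) (nat_lit 472) (nat_lit 398) (nat_lit 270)) (XT.lf (nat_lit 0) (nat_lit 2867829462) (nat_lit 532) (nat_lit 1476769803) (nat_lit 608) (nat_lit 9324266676) (nat_lit 230) (nat_lit 5) (nat_lit 237) (nat_lit 5) (nat_lit 238) (nat_lit 5) (nat_lit 473) (nat_lit 398) (nat_lit 269))))) (XT.nd (nat_lit 156) (nat_lit 988) (nat_lit 0) (XT.nd (nat_lit 78) (nat_lit 456) (nat_lit 0) (XT.lf (nat_lit 0) (nat_lit 7800281699) (nat_lit 608) (nat_lit 2059102887) (nat_lit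 76) (nat_lit 3964684579) (nat_lit 230) (nat_lit 5) (nat_lit 238) (nat_lit 5) (nat_lit 231) (nat_lit 5) (nat_lit 474) (nat_lit 398) (nat_lit 268)) (XT.lf (nat_lit 0) (nat_lit 6915612885) (nat_lit 456) (nat_lit 4448235752) (nat_lit 532) (nat_lit 2617752399) (nat_lit 224) (nat_lit 5) (nat_lit 230) (nat_lit 5) (nat_lit 231) (nat_lit 5) (nat_lit 475) (nat_lit 398) (nat_lit 267))) (XT.nd (nat_lit 78) (nat_lit 456) (nat_lit 0) (XT.lf (nat_lit 0) (nat_lit 863028987) (nat_lit 532) (nat_lit 12196428962) (nat_lit 76) (nat_lit 1082357239) (nat_lit 217) (nat_lit 5) (nat_lit 224) (nat_lit 5) (nat_lit 218) (nat_lit 5) (nat_lit 476) (nat_lit 398) (nat_lit 266)) (XT.nd (nat_lit 78) (nat_lit 456) (nat_lit 0) (XT.lf (nat_lit 0) (nat_lit 4439861249) (nat_lit 532) (nat_lit 3141775554) (nat_lit 76) (nat_lit 6722021014) (nat_lit 217) (nat_lit 5) (nat_lit 224) (nat_lit 5) (nat_lit 218) (nat_lit 5) (nat_lit 477) (nat_lit 398) (nat_lit 265)) (XT.lf (nat_lit 0)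 (nat_lit 6151957854) (nat_lit 456) (nat_lit 1960788576) (nat_lit 532) (nat_lit 6355500544) (nat_lit 211) (nat_lit 5) (nat_lit 217) (nat_lit 5) (nat_lit 218) (nat_lit 5) (nat_lit 478) (nat_lit 398) (nat_lit 264))))))) (XT.nd (nat_lit 780) (nat_lit 2888) (nat_lit 0) (XT.nd (nat_lit 390) (nat_lit 1292) (nat_lit 0) (XT.nd (nat_lit 156) (nat_lit 836) (nat_lit 0) (XT.nd (nat_lit 78) (nat_lit 76) (nat_lit 0) (XT.lf (nat_lit 0) (nat_lit 1004178274) (nat_lit 456) (nat_lit 10891829354) (nat_lit 532) (nat_lit 2739381918) (nat_lit 205) (nat_lit 5) (nat_lit 211) (nat_lit 5) (nat_lit 212) (nat_lit 5) (nat_lit 479) (nat_lit 398) (nat_lit 263)) (XT.lf (nat_lit 0) (nat_lit 990508945) (nat_lit 532) (nat_lit 4223349941) (nat_lit 76) (nat_lit 9590814906) (nat_lit 204) (nat_lit 5) (nat_lit 211) (nat_lit 5) (nat_lit 205) (nat_lit 5) (nat_lit 480) (nat_lit 398) (nat_lit 262))) (XT.nd (nat_lit 78) (nat_lit 456) (nat_lit 0) (XT.lf (nat_lit 0) (nat_lit 4782520688)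 (nat_lit 456) (nat_lit 9577655856) (nat_lit 76) (nat_lit 616320966) (nat_lit 199) (nat_lit 5) (nat_lit 205) (nat_lit 5) (nat_lit 200) (nat_lit 5) (nat_lit 481) (nat_lit 398) (nat_lit 261)) (XT.nd (nat_lit 78) (nat_lit 0) (nat_lit 0) (XT.lf (nat_lit 0) (nat_lit 63135207) (nat_lit 456) (nat_lit 8635840013) (nat_lit 532) (nat_lit 6451810432) (nat_lit 193) (nat_lit 5) (nat_lit 199) (nat_lit 5) (nat_lit 200) (nat_lit 5) (nat_lit 482) (nat_lit 398) (nat_lit 260)) (XT.lf (nat_lit 0) (nat_lit 10004206754) (nat_lit 456) (nat_lit 2739104657) (nat_lit 532) (nat_lit 2584257094) (nat_lit 193) (nat_lit 5) (nat_lit 199) (nat_lit 5) (nat_lit 200) (nat_lit 5) (nat_lit 483) (nat_lit 398) (nat_lit 259))))) (XT.nd (nat_lit 156) (nat_lit 836) (nat_lit 0) (XT.nd (nat_lit 78) (nat_lit 0) (nat_lit 0) (XT.lf (nat_lit 0) (nat_lit 1380051440) (nat_lit 456) (nat_lit 10862409436) (nat_lit 76) (nat_lit 3264504469) (nat_lit 187) (nat_lit 5) (nat_lit 193) (nat_lit 5)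 (nat_lit 188) (nat_lit 5) (nat_lit 484) (nat_lit 398) (nat_lit 258)) (XT.lf (nat_lit 0) (nat_lit 5428741566) (nat_lit 456) (nat_lit 862945219) (nat_lit 76) (nat_lit 9397127725) (nat_lit 187) (nat_lit 5) (nat_lit 193) (nat_lit 5) (nat_lit 188) (nat_lit 5) (nat_lit 485) (nat_lit 398) (nat_lit 257))) (XT.nd (nat_lit 78) (nat_lit 456) (nat_lit 0) (XT.lf (nat_lit 0) (nat_lit 9438521264) (nat_lit 380) (nat_lit 167015740) (nat_lit 456) (nat_lit 6267821024) (nat_lit 182) (nat_lit 5) (nat_lit 187) (nat_lit 5) (nat_lit 188) (nat_lit 5) (nat_lit 486) (nat_lit 398) (nat_lit 256)) (XT.nd (nat_lit 78) (nat_lit 76) (nat_lit 0) (XT.lf (nat_lit 0) (nat_lit 3885824050) (nat_lit 380) (nat_lit 10036517074) (nat_lit 456) (nat_lit 2138121838) (nat_lit 177) (nat_lit 5) (nat_lit 182) (nat_lit 5) (nat_lit 183) (nat_lit 5) (nat_lit 487) (nat_lit 398) (nat_lit 255)) (XT.lf (nat_lit 0) (nat_lit 2077521755) (nat_lit 456) (nat_lit 1787086242) (nat_lit 76) (nat_lit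 12385821588) (nat_lit 176) (nat_lit 5) (nat_lit 182) (nat_lit 5) (nat_lit 177) (nat_lit 5) (nat_lit 488) (nat_lit 398) (nat_lit 254)))))) (XT.nd (nat_lit 390) (nat_lit 1444) (nat_lit 0) (XT.nd (nat_lit 156) (nat_lit 760) (nat_lit 0) (XT.nd (nat_lit 78) (nat_lit 304) (nat_lit 0) (XT.lf (nat_lit 0) (nat_lit 6409052931) (nat_lit 456) (nat_lit 7570075407) (nat_lit 76) (nat_lit 2463580460) (nat_lit 171) (nat_lit 5) (nat_lit 177) (nat_lit 5) (nat_lit 172) (nat_lit 5) (nat_lit 489) (nat_lit 398) (nat_lit 253)) (XT.lf (nat_lit 0) (nat_lit 3124933017) (nat_lit 304) (nat_lit 7746572128) (nat_lit 380) (nat_lit 5766442642) (nat_lit 167) (nat_lit 5) (nat_lit 171) (nat_lit 5) (nat_lit 172) (nat_lit 5) (nat_lit 490) (nat_lit 398) (nat_lit 252))) (XT.nd (nat_lit 78) (nat_lit 760) (nat_lit 0) (XT.lf (nat_lit 0) (nat_lit 14115041508) (nat_lit 304) (nat_lit 1345429107) (nat_lit 380) (nat_lit 1375875656) (nat_lit 167) (nat_lit 5) (nat_lit 171) (nat_lit 5)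 (nat_lit 172) (nat_lit 5) (nat_lit 491) (nat_lit 398) (nat_lit 251)) (XT.nd (nat_lit 78) (nat_lit 304) (nat_lit 0) (XT.lf (nat_lit 0) (nat_lit 3136796386) (nat_lit 456) (nat_lit 8717095745) (nat_lit 76) (nat_lit 5182918052) (nat_lit 161) (nat_lit 5) (nat_lit 167) (nat_lit 5) (nat_lit 162) (nat_lit 5) (nat_lit 492) (nat_lit 398) (nat_lit 250)) (XT.lf (nat_lit 0) (nat_lit 2369206839) (nat_lit 304) (nat_lit 5381501430) (nat_lit 380) (nat_lit 9489805026) (nat_lit 157) (nat_lit 5) (nat_lit 161) (nat_lit 5) (nat_lit 162) (nat_lit 5) (nat_lit 493) (nat_lit 398) (nat_lit 249))))) (XT.nd (nat_lit 234) (nat_lit 684) (nat_lit 0) (XT.nd (nat_lit 78) (nat_lit 760) (nat_lit 0) (XT.lf (nat_lit 0) (nat_lit 12510494363) (nat_lit 380) (nat_lit 3681351770) (nat_lit 76) (nat_lit 1255372416) (nat_lit 157) (nat_lit 5) (nat_lit 162) (nat_lit 5) (nat_lit 158) (nat_lit 5) (nat_lit 494) (nat_lit 398) (nat_lit 248)) (XT.nd (nat_lit 78) (nat_lit 380) (nat_lit 0)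 (XT.lf (nat_lit 0) (nat_lit 7777870510) (nat_lit 380) (nat_lit 9660791927) (nat_lit 456) (nat_lit 217931747) (nat_lit 152) (nat_lit 5) (nat_lit 157) (nat_lit 5) (nat_lit 158) (nat_lit 5) (nat_lit 495) (nat_lit 398) (nat_lit 247)) (XT.lf (nat_lit 0) (nat_lit 1616786440) (nat_lit 304) (nat_lit 2940629654) (nat_lit 380) (nat_lit 13311695593) (nat_lit 147) (nat_lit 5) (nat_lit 151) (nat_lit 5) (nat_lit 152) (nat_lit 5) (nat_lit 496) (nat_lit 398) (nat_lit 246)))) (XT.nd (nat_lit 78) (nat_lit 684) (nat_lit 0) (XT.lf (nat_lit 0) (nat_lit 9504646418) (nat_lit 380) (nat_lit 4656733483) (nat_lit 76) (nat_lit 3922884955) (nat_lit 147) (nat_lit 5) (nat_lit 152) (nat_lit 5) (nat_lit 148) (nat_lit 5) (nat_lit 497) (nat_lit 398) (nat_lit 245)) (XT.nd (nat_lit 78) (nat_lit 380) (nat_lit 0) (XT.lf (nat_lit 0) (nat_lit 7225469779) (nat_lit 304) (nat_lit 7379139052) (nat_lit 380) (nat_lit 3698036509) (nat_lit 143) (nat_lit 5) (nat_lit 147) (nat_lit 5)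 (nat_lit 148) (nat_lit 5) (nat_lit 498) (nat_lit 398) (nat_lit 244)) (XT.lf (nat_lit 0) (nat_lit 865882037) (nat_lit 304) (nat_lit 423002252) (nat_lit 380) (nat_lit 17235852576) (nat_lit 138) (nat_lit 5) (nat_lit 142) (nat_lit 5) (nat_lit 143) (nat_lit 5) (nat_lit 499) (nat_lit 398) (nat_lit 243))))))))
noncomputable def xc155 : XT := (XT.nd (nat_lit 52806) (nat_lit 0) (nat_lit 24244) (XT.nd (nat_lit 51948) (nat_lit 0) (nat_lit 38456) (XT.nd (nat_lit 51558) (nat_lit 0) (nat_lit 40888) (XT.nd (nat_lit 156) (nat_lit 380) (nat_lit 0) (XT.nd (nat_lit 78) (nat_lit 304) (nat_lit 0) (XT.lf (nat_lit 0) (nat_lit 6431713176) (nat_lit 380) (nat_lit 5640814186) (nat_lit 76) (nat_lit 6676140251) (nat_lit 138) (nat_lit 5) (nat_lit 143) (nat_lit 5) (nat_lit 139) (nat_lit 5) (nat_lit 500) (nat_lit 398) (nat_lit 242)) (XT.lf (nat_lit 0) (nat_lit 6682146868) (nat_lit 304) (nat_lit 5029176690) (nat_lit 380) (nat_lit 7265074920) (nat_lit 134) (nat_lit 5)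 (nat_lit 138) (nat_lit 5) (nat_lit 139) (nat_lit 5) (nat_lit 501) (nat_lit 398) (nat_lit 241))) (XT.nd (nat_lit 78) (nat_lit 76) (nat_lit 0) (XT.lf (nat_lit 0) (nat_lit 86662550) (nat_lit 304) (nat_lit 17050318134) (nat_lit 380) (nat_lit 2070894186) (nat_lit 130) (nat_lit 5) (nat_lit 134) (nat_lit 5) (nat_lit 135) (nat_lit 5) (nat_lit 502) (nat_lit 398) (nat_lit 240)) (XT.nd (nat_lit 51246) (nat_lit 0) (nat_lit 43168) (XT.lf (nat_lit 0) (nat_lit 3289022739) (nat_lit 380) (nat_lit 6635651456) (nat_lit 76) (nat_lit 9516803985) (nat_lit 129) (nat_lit 5) (nat_lit 134) (nat_lit 5) (nat_lit 130) (nat_lit 5) (nat_lit 503) (nat_lit 398) (nat_lit 239)) (XT.lf (nat_lit 0) (nat_lit 3209706016) (nat_lit 1140) (nat_lit 176861467) (nat_lit 1140) (nat_lit 176861467) (nat_lit 697) (nat_lit 3) (nat_lit 712) (nat_lit 3) (nat_lit 712) (nat_lit 5) (nat_lit 399) (nat_lit 399) (nat_lit 342))))) (XT.nd (nat_lit 156) (nat_lit 1140) (nat_lit 0) (XT.nd (nat_lit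 78) (nat_lit 0) (nat_lit 0) (XT.lf (nat_lit 0) (nat_lit 1036716378) (nat_lit 1140) (nat_lit 3917977542) (nat_lit 1216) (nat_lit 2208688028) (nat_lit 682) (nat_lit 5) (nat_lit 697) (nat_lit 3) (nat_lit 698) (nat_lit 5) (nat_lit 400) (nat_lit 399) (nat_lit 341)) (XT.lf (nat_lit 0) (nat_lit 2763403780) (nat_lit 1140) (nat_lit 307752359) (nat_lit 1216) (nat_lit 4130244522) (nat_lit 682) (nat_lit 5) (nat_lit 697) (nat_lit 3) (nat_lit 698) (nat_lit 5) (nat_lit 401) (nat_lit 399) (nat_lit 340))) (XT.nd (nat_lit 78) (nat_lit 1140) (nat_lit 0) (XT.lf (nat_lit 76) (nat_lit 3395909739) (nat_lit 0) (nat_lit 1106367971) (nat_lit 1216) (nat_lit 2738348983) (nat_lit 683) (nat_lit 5) (nat_lit 682) (nat_lit 5) (nat_lit 698) (nat_lit 5) (nat_lit 402) (nat_lit 399) (nat_lit 339)) (XT.nd (nat_lit 78) (nat_lit 1216) (nat_lit 0) (XT.lf (nat_lit 0) (nat_lit 6240294263) (nat_lit 1140) (nat_lit 132780431) (nat_lit 1216) (nat_lit 908275249) (nat_lit 683) (nat_lit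 5) (nat_lit 698) (nat_lit 5) (nat_lit 699) (nat_lit 5) (nat_lit 403) (nat_lit 399) (nat_lit 338)) (XT.lf (nat_lit 0) (nat_lit 669525141) (nat_lit 1216) (nat_lit 3657000875) (nat_lit 1292) (nat_lit 2996504148) (nat_lit 667) (nat_lit 5) (nat_lit 683) (nat_lit 5) (nat_lit 684) (nat_lit 5) (nat_lit 404) (nat_lit 399) (nat_lit 337)))))) (XT.nd (nat_lit 390) (nat_lit 1216) (nat_lit 0) (XT.nd (nat_lit 156) (nat_lit 1216) (nat_lit 0) (XT.nd (nat_lit 78) (nat_lit 0) (nat_lit 0) (XT.lf (nat_lit 76) (nat_lit 148038784) (nat_lit 0) (nat_lit 2211927760) (nat_lit 1292) (nat_lit 5006248045) (nat_lit 668) (nat_lit 5) (nat_lit 667) (nat_lit 5) (nat_lit 684) (nat_lit 5) (nat_lit 405) (nat_lit 399) (nat_lit 336)) (XT.lf (nat_lit 76) (nat_lit 4054817972) (nat_lit 0) (nat_lit 12330458) (nat_lit 1292) (nat_lit 3343455639) (nat_lit 668) (nat_lit 5) (nat_lit 667) (nat_lit 5) (nat_lit 684) (nat_lit 5) (nat_lit 406) (nat_lit 399) (nat_lit 335))) (XT.nd (nat_lit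 78) (nat_lit 1292) (nat_lit 0) (XT.lf (nat_lit 76) (nat_lit 552215018) (nat_lit 0) (nat_lit 5233650720) (nat_lit 1292) (nat_lit 1670467765) (nat_lit 669) (nat_lit 5) (nat_lit 668) (nat_lit 5) (nat_lit 685) (nat_lit 5) (nat_lit 407) (nat_lit 399) (nat_lit 334)) (XT.nd (nat_lit 78) (nat_lit 0) (nat_lit 0) (XT.lf (nat_lit 0) (nat_lit 17952653) (nat_lit 1292) (nat_lit 2943893956) (nat_lit 1368) (nat_lit 4541477350) (nat_lit 651) (nat_lit 5) (nat_lit 668) (nat_lit 5) (nat_lit 669) (nat_lit 5) (nat_lit 408) (nat_lit 399) (nat_lit 333)) (XT.lf (nat_lit 76) (nat_lit 1074280236) (nat_lit 0) (nat_lit 610974615) (nat_lit 1368) (nat_lit 5866428920) (nat_lit 652) (nat_lit 5) (nat_lit 651) (nat_lit 5) (nat_lit 669) (nat_lit 5) (nat_lit 409) (nat_lit 399) (nat_lit 332))))) (XT.nd (nat_lit 234) (nat_lit 1292) (nat_lit 0) (XT.nd (nat_lit 78) (nat_lit 0) (nat_lit 0) (XT.lf (nat_lit 0) (nat_lit 3378590037) (nat_lit 1292) (nat_lit 2424620794) (nat_lit 1368)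 (nat_lit 1797946209) (nat_lit 652) (nat_lit 5) (nat_lit 669) (nat_lit 5) (nat_lit 670) (nat_lit 5) (nat_lit 410) (nat_lit 399) (nat_lit 331)) (XT.nd (nat_lit 78) (nat_lit 0) (nat_lit 0) (XT.lf (nat_lit 76) (nat_lit 1703001066) (nat_lit 0) (nat_lit 3379854065) (nat_lit 1368) (nat_lit 2569223380) (nat_lit 653) (nat_lit 5) (nat_lit 652) (nat_lit 5) (nat_lit 670) (nat_lit 5) (nat_lit 411) (nat_lit 399) (nat_lit 330)) (XT.lf (nat_lit 76) (nat_lit 5921697445) (nat_lit 0) (nat_lit 878326387) (nat_lit 1368) (nat_lit 904418211) (nat_lit 653) (nat_lit 5) (nat_lit 652) (nat_lit 5) (nat_lit 670) (nat_lit 5) (nat_lit 412) (nat_lit 399) (nat_lit 329)))) (XT.nd (nat_lit 78) (nat_lit 0) (nat_lit 0) (XT.lf (nat_lit 0) (nat_lit 773434211) (nat_lit 1368) (nat_lit 5299458719) (nat_lit 1444) (nat_lit 1685053646) (nat_lit 635) (nat_lit 5) (nat_lit 653) (nat_lit 5) (nat_lit 654) (nat_lit 5) (nat_lit 413) (nat_lit 399) (nat_lit 328)) (XT.nd (nat_lit 78) (nat_lit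 0) (nat_lit 0) (XT.lf (nat_lit 0) (nat_lit 2454289769) (nat_lit 1368) (nat_lit 1040461824) (nat_lit 1444) (nat_lit 4318018917) (nat_lit 635) (nat_lit 5) (nat_lit 653) (nat_lit 5) (nat_lit 654) (nat_lit 5) (nat_lit 414) (nat_lit 399) (nat_lit 327)) (XT.lf (nat_lit 76) (nat_lit 3322779206) (nat_lit 0) (nat_lit 831954776) (nat_lit 1444) (nat_lit 3714237511) (nat_lit 636) (nat_lit 5) (nat_lit 635) (nat_lit 5) (nat_lit 654) (nat_lit 5) (nat_lit 415) (nat_lit 399) (nat_lit 326))))))) (XT.nd (nat_lit 780) (nat_lit 8360) (nat_lit 0) (XT.nd (nat_lit 390) (nat_lit 4484) (nat_lit 0) (XT.nd (nat_lit 156) (nat_lit 1444) (nat_lit 0) (XT.nd (nat_lit 78) (nat_lit 0) (nat_lit 0) (XT.lf (nat_lit 0) (nat_lit 5873455528) (nat_lit 1368) (nat_lit 176171256) (nat_lit 1444) (nat_lit 1876984342) (nat_lit 636) (nat_lit 5) (nat_lit 654) (nat_lit 5) (nat_lit 655) (nat_lit 5) (nat_lit 416) (nat_lit 399) (nat_lit 325)) (XT.lf (nat_lit 76) (nat_lit 4307604053) (nat_lit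 0) (nat_lit 3318118387) (nat_lit 1444) (nat_lit 359697693) (nat_lit 637) (nat_lit 5) (nat_lit 636) (nat_lit 5) (nat_lit 655) (nat_lit 5) (nat_lit 417) (nat_lit 399) (nat_lit 324))) (XT.nd (nat_lit 78) (nat_lit 0) (nat_lit 76) (XT.lf (nat_lit 76) (nat_lit 814940422) (nat_lit 0) (nat_lit 507216899) (nat_lit 1520) (nat_lit 6723621114) (nat_lit 618) (nat_lit 5) (nat_lit 617) (nat_lit 5) (nat_lit 637) (nat_lit 5) (nat_lit 418) (nat_lit 399) (nat_lit 323)) (XT.nd (nat_lit 78) (nat_lit 0) (nat_lit 0) (XT.lf (nat_lit 0) (nat_lit 3039549734) (nat_lit 1444) (nat_lit 2702796683) (nat_lit 1520) (nat_lit 2364815602) (nat_lit 618) (nat_lit 5) (nat_lit 637) (nat_lit 5) (nat_lit 638) (nat_lit 5) (nat_lit 419) (nat_lit 399) (nat_lit 322)) (XT.lf (nat_lit 76) (nat_lit 1912544891) (nat_lit 0) (nat_lit 2861724183) (nat_lit 1520) (nat_lit 3395844619) (nat_lit 619) (nat_lit 5) (nat_lit 618) (nat_lit 5) (nat_lit 638) (nat_lit 5) (nat_lit 420) (nat_lit 399)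 (nat_lit 321))))) (XT.nd (nat_lit 156) (nat_lit 3116) (nat_lit 0) (XT.nd (nat_lit 78) (nat_lit 1520) (nat_lit 0) (XT.lf (nat_lit 0) (nat_lit 6530169977) (nat_lit 1444) (nat_lit 1603263609) (nat_lit 76) (nat_lit 101161071) (nat_lit 619) (nat_lit 5) (nat_lit 638) (nat_lit 5) (nat_lit 620) (nat_lit 5) (nat_lit 421) (nat_lit 399) (nat_lit 320)) (XT.lf (nat_lit 0) (nat_lit 28315043) (nat_lit 1520) (nat_lit 5159037076) (nat_lit 76) (nat_lit 3112855127) (nat_lit 599) (nat_lit 5) (nat_lit 619) (nat_lit 5) (nat_lit 600) (nat_lit 5) (nat_lit 422) (nat_lit 399) (nat_lit 319))) (XT.nd (nat_lit 78) (nat_lit 3116) (nat_lit 0) (XT.lf (nat_lit 0) (nat_lit 1752356915) (nat_lit 1520) (nat_lit 401318125) (nat_lit 76) (nat_lit 6213642331) (nat_lit 599) (nat_lit 5) (nat_lit 619) (nat_lit 5) (nat_lit 600) (nat_lit 5) (nat_lit 423) (nat_lit 399) (nat_lit 318)) (XT.nd (nat_lit 78) (nat_lit 1596) (nat_lit 0) (XT.lf (nat_lit 0) (nat_lit 3515576077) (nat_lit 1596)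 (nat_lit 3956529237) (nat_lit 76) (nat_lit 963570454) (nat_lit 579) (nat_lit 5) (nat_lit 600) (nat_lit 5) (nat_lit 580) (nat_lit 5) (nat_lit 424) (nat_lit 399) (nat_lit 317)) (XT.lf (nat_lit 0) (nat_lit 929976401) (nat_lit 1596) (nat_lit 4376809066) (nat_lit 1672) (nat_lit 3198761350) (nat_lit 558) (nat_lit 5) (nat_lit 579) (nat_lit 5) (nat_lit 580) (nat_lit 5) (nat_lit 425) (nat_lit 399) (nat_lit 316)))))) (XT.nd (nat_lit 390) (nat_lit 3040) (nat_lit 0) (XT.nd (nat_lit 156) (nat_lit 3572) (nat_lit 0) (XT.nd (nat_lit 78) (nat_lit 1748) (nat_lit 0) (XT.lf (nat_lit 0) (nat_lit 5942757280) (nat_lit 1596) (nat_lit 1187757300) (nat_lit 1672) (nat_lit 1446366795) (nat_lit 558) (nat_lit 5) (nat_lit 579) (nat_lit 5) (nat_lit 580) (nat_lit 5) (nat_lit 426) (nat_lit 399) (nat_lit 315)) (XT.lf (nat_lit 0) (nat_lit 336345286) (nat_lit 1748) (nat_lit 6252864468) (nat_lit 76) (nat_lit 2060393723) (nat_lit 535) (nat_lit 5) (nat_lit 558) (nat_lit 5)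 (nat_lit 536) (nat_lit 5) (nat_lit 427) (nat_lit 399) (nat_lit 314))) (XT.nd (nat_lit 78) (nat_lit 3572) (nat_lit 0) (XT.lf (nat_lit 0) (nat_lit 2132002900) (nat_lit 1748) (nat_lit 1202492770) (nat_lit 76) (nat_lit 5389159979) (nat_lit 535) (nat_lit 5) (nat_lit 558) (nat_lit 5) (nat_lit 536) (nat_lit 5) (nat_lit 428) (nat_lit 399) (nat_lit 313)) (XT.nd (nat_lit 78) (nat_lit 1824) (nat_lit 0) (XT.lf (nat_lit 0) (nat_lit 3961037289) (nat_lit 1824) (nat_lit 4823238028) (nat_lit 76) (nat_lit 14964274) (nat_lit 512) (nat_lit 5) (nat_lit 536) (nat_lit 5) (nat_lit 513) (nat_lit 5) (nat_lit 429) (nat_lit 399) (nat_lit 312)) (XT.lf (nat_lit 0) (nat_lit 355366522) (nat_lit 1824) (nat_lit 5475766726) (nat_lit 1900) (nat_lit 3045112347) (nat_lit 488) (nat_lit 5) (nat_lit 512) (nat_lit 5) (nat_lit 513) (nat_lit 5) (nat_lit 430) (nat_lit 399) (nat_lit 311))))) (XT.nd (nat_lit 234) (nat_lit 1824) (nat_lit 0) (XT.nd (nat_lit 78) (nat_lit 1216) (nat_lit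 0) (XT.lf (nat_lit 0) (nat_lit 5677740156) (nat_lit 1824) (nat_lit 2065611632) (nat_lit 1900) (nat_lit 1211345518) (nat_lit 488) (nat_lit 5) (nat_lit 512) (nat_lit 5) (nat_lit 513) (nat_lit 5) (nat_lit 431) (nat_lit 399) (nat_lit 310)) (XT.nd (nat_lit 78) (nat_lit 0) (nat_lit 0) (XT.lf (nat_lit 0) (nat_lit 645911132) (nat_lit 1216) (nat_lit 6974557917) (nat_lit 76) (nat_lit 1414254243) (nat_lit 472) (nat_lit 5) (nat_lit 488) (nat_lit 5) (nat_lit 473) (nat_lit 5) (nat_lit 432) (nat_lit 399) (nat_lit 309)) (XT.lf (nat_lit 0) (nat_lit 2533026733) (nat_lit 1216) (nat_lit 1614745532) (nat_lit 76) (nat_lit 4968238718) (nat_lit 472) (nat_lit 5) (nat_lit 488) (nat_lit 5) (nat_lit 473) (nat_lit 5) (nat_lit 433) (nat_lit 399) (nat_lit 308)))) (XT.nd (nat_lit 78) (nat_lit 912) (nat_lit 0) (XT.lf (nat_lit 0) (nat_lit 3878186437) (nat_lit 912) (nat_lit 578508643) (nat_lit 988) (nat_lit 4742253140) (nat_lit 460) (nat_lit 5) (nat_lit 472) (nat_lit 5)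 (nat_lit 473) (nat_lit 5) (nat_lit 434) (nat_lit 399) (nat_lit 307)) (XT.nd (nat_lit 78) (nat_lit 0) (nat_lit 0) (XT.lf (nat_lit 0) (nat_lit 176596757) (nat_lit 912) (nat_lit 6248170511) (nat_lit 988) (nat_lit 2858658323) (nat_lit 448) (nat_lit 5) (nat_lit 460) (nat_lit 5) (nat_lit 461) (nat_lit 5) (nat_lit 435) (nat_lit 399) (nat_lit 306)) (XT.lf (nat_lit 0) (nat_lit 5827007174) (nat_lit 912) (nat_lit 2619046404) (nat_lit 988) (nat_lit 923261877) (nat_lit 448) (nat_lit 5) (nat_lit 460) (nat_lit 5) (nat_lit 461) (nat_lit 5) (nat_lit 436) (nat_lit 399) (nat_lit 305))))))))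
noncomputable def xc156 : XT := (XT.nd (nat_lit 1560) (nat_lit 7980) (nat_lit 0) (XT.nd (nat_lit 780) (nat_lit 4408) (nat_lit 0) (XT.nd (nat_lit 390) (nat_lit 2508) (nat_lit 0) (XT.nd (nat_lit 156) (nat_lit 1748) (nat_lit 0) (XT.nd (nat_lit 78) (nat_lit 0) (nat_lit 0) (XT.lf (nat_lit 0) (nat_lit 1032733890) (nat_lit 912) (nat_lit 7334555636) (nat_lit 76) (nat_lit 1089583669) (nat_lit 436) (nat_lit 5) (nat_lit 448) (nat_lit 5) (nat_lit 437) (nat_lit 5) (nat_lit 437) (nat_lit 399) (nat_lit 304)) (XT.lf (nat_lit 0) (nat_lit 3031786092) (nat_lit 912) (nat_lit 1646387880) (nat_lit 76) (nat_lit 4867560084) (nat_lit 436) (nat_lit 5) (nat_lit 448) (nat_lit 5) (nat_lit 437) (nat_lit 5) (nat_lit 438) (nat_lit 399) (nat_lit 303))) (XT.nd (nat_lit 78) (nat_lit 836) (nat_lit 0) (XT.lf (nat_lit 0) (nat_lit 4185617150) (nat_lit 912) (nat_lit 887882486) (nat_lit 988) (nat_lit 4562818890) (nat_lit 424) (nat_lit 5) (nat_lit 436) (nat_lit 5) (nat_lit 437)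 (nat_lit 5) (nat_lit 439) (nat_lit 399) (nat_lit 302)) (XT.nd (nat_lit 78) (nat_lit 0) (nat_lit 0) (XT.lf (nat_lit 0) (nat_lit 388634802) (nat_lit 836) (nat_lit 6776215337) (nat_lit 912) (nat_lit 2563688493) (nat_lit 413) (nat_lit 5) (nat_lit 424) (nat_lit 5) (nat_lit 425) (nat_lit 5) (nat_lit 440) (nat_lit 399) (nat_lit 301)) (XT.lf (nat_lit 0) (nat_lit 6387712343) (nat_lit 836) (nat_lit 2928867233) (nat_lit 912) (nat_lit 505652526) (nat_lit 413) (nat_lit 5) (nat_lit 424) (nat_lit 5) (nat_lit 425) (nat_lit 5) (nat_lit 441) (nat_lit 399) (nat_lit 300))))) (XT.nd (nat_lit 156) (nat_lit 1596) (nat_lit 0) (XT.nd (nat_lit 78) (nat_lit 0) (nat_lit 0) (XT.lf (nat_lit 0) (nat_lit 1572527277) (nat_lit 912) (nat_lit 7336593798) (nat_lit 76) (nat_lit 1008473784) (nat_lit 401) (nat_lit 5) (nat_lit 413) (nat_lit 5) (nat_lit 402) (nat_lit 5) (nat_lit 442) (nat_lit 399) (nat_lit 299)) (XT.lf (nat_lit 0) (nat_lit 3704842317) (nat_lit 912) (nat_lit 1299002772)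 (nat_lit 76) (nat_lit 5010566089) (nat_lit 401) (nat_lit 5) (nat_lit 413) (nat_lit 5) (nat_lit 402) (nat_lit 5) (nat_lit 443) (nat_lit 399) (nat_lit 298))) (XT.nd (nat_lit 78) (nat_lit 836) (nat_lit 0) (XT.lf (nat_lit 0) (nat_lit 4898994034) (nat_lit 760) (nat_lit 989812689) (nat_lit 836) (nat_lit 4224177039) (nat_lit 391) (nat_lit 5) (nat_lit 401) (nat_lit 5) (nat_lit 402) (nat_lit 5) (nat_lit 444) (nat_lit 399) (nat_lit 297)) (XT.nd (nat_lit 78) (nat_lit 76) (nat_lit 0) (XT.lf (nat_lit 0) (nat_lit 993143432) (nat_lit 760) (nat_lit 7136157908) (nat_lit 836) (nat_lit 2083969439) (nat_lit 381) (nat_lit 5) (nat_lit 391) (nat_lit 5) (nat_lit 392) (nat_lit 5) (nat_lit 445) (nat_lit 399) (nat_lit 296)) (XT.lf (nat_lit 0) (nat_lit 117124285) (nat_lit 836) (nat_lit 2952204547) (nat_lit 76) (nat_lit 7245834225) (nat_lit 380) (nat_lit 5) (nat_lit 391) (nat_lit 5) (nat_lit 381) (nat_lit 5) (nat_lit 446) (nat_lit 399) (nat_lit 295)))))) (XT.nd (nat_lit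 390) (nat_lit 2128) (nat_lit 0) (XT.nd (nat_lit 156) (nat_lit 1520) (nat_lit 0) (XT.nd (nat_lit 78) (nat_lit 0) (nat_lit 0) (XT.lf (nat_lit 0) (nat_lit 2342020392) (nat_lit 836) (nat_lit 6978056516) (nat_lit 76) (nat_lit 1098587075) (nat_lit 370) (nat_lit 5) (nat_lit 381) (nat_lit 5) (nat_lit 371) (nat_lit 5) (nat_lit 447) (nat_lit 399) (nat_lit 294)) (XT.lf (nat_lit 0) (nat_lit 4629982817) (nat_lit 836) (nat_lit 567774861) (nat_lit 76) (nat_lit 5326105881) (nat_lit 370) (nat_lit 5) (nat_lit 381) (nat_lit 5) (nat_lit 371) (nat_lit 5) (nat_lit 448) (nat_lit 399) (nat_lit 293))) (XT.nd (nat_lit 78) (nat_lit 760) (nat_lit 0) (XT.lf (nat_lit 0) (nat_lit 6025451120) (nat_lit 760) (nat_lit 956099761) (nat_lit 836) (nat_lit 3649259318) (nat_lit 360) (nat_lit 5) (nat_lit 370) (nat_lit 5) (nat_lit 371) (nat_lit 5) (nat_lit 449) (nat_lit 399) (nat_lit 292)) (XT.nd (nat_lit 78) (nat_lit 76) (nat_lit 0) (XT.lf (nat_lit 0) (nat_lit 1998190483) (nat_lit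 684) (nat_lit 7399616989) (nat_lit 760) (nat_lit 1341735157) (nat_lit 351) (nat_lit 5) (nat_lit 360) (nat_lit 5) (nat_lit 361) (nat_lit 5) (nat_lit 450) (nat_lit 399) (nat_lit 291)) (XT.lf (nat_lit 0) (nat_lit 1015190652) (nat_lit 760) (nat_lit 2091343476) (nat_lit 76) (nat_lit 7743453717) (nat_lit 350) (nat_lit 5) (nat_lit 360) (nat_lit 5) (nat_lit 351) (nat_lit 5) (nat_lit 451) (nat_lit 399) (nat_lit 290))))) (XT.nd (nat_lit 156) (nat_lit 760) (nat_lit 0) (XT.nd (nat_lit 78) (nat_lit 684) (nat_lit 0) (XT.lf (nat_lit 0) (nat_lit 3419946444) (nat_lit 760) (nat_lit 6250230474) (nat_lit 76) (nat_lit 1291914522) (nat_lit 341) (nat_lit 5) (nat_lit 351) (nat_lit 5) (nat_lit 342) (nat_lit 5) (nat_lit 452) (nat_lit 399) (nat_lit 289)) (XT.lf (nat_lit 0) (nat_lit 565693013) (nat_lit 684) (nat_lit 5325191480) (nat_lit 760) (nat_lit 5185190874) (nat_lit 332) (nat_lit 5) (nat_lit 341) (nat_lit 5) (nat_lit 342) (nat_lit 5) (nat_lit 453) (nat_lit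 399) (nat_lit 288))) (XT.nd (nat_lit 78) (nat_lit 760) (nat_lit 0) (XT.lf (nat_lit 0) (nat_lit 7578436979) (nat_lit 684) (nat_lit 854701415) (nat_lit 760) (nat_lit 2758762635) (nat_lit 332) (nat_lit 5) (nat_lit 341) (nat_lit 5) (nat_lit 342) (nat_lit 5) (nat_lit 454) (nat_lit 399) (nat_lit 287)) (XT.nd (nat_lit 78) (nat_lit 76) (nat_lit 0) (XT.lf (nat_lit 0) (nat_lit 3418051330) (nat_lit 684) (nat_lit 7634756122) (nat_lit 760) (nat_lit 256704352) (nat_lit 323) (nat_lit 5) (nat_lit 332) (nat_lit 5) (nat_lit 333) (nat_lit 5) (nat_lit 455) (nat_lit 399) (nat_lit 286)) (XT.lf (nat_lit 0) (nat_lit 2275782429) (nat_lit 760) (nat_lit 834750013) (nat_lit 76) (nat_lit 8318434449) (nat_lit 322) (nat_lit 5) (nat_lit 332) (nat_lit 5) (nat_lit 323) (nat_lit 5) (nat_lit 456) (nat_lit 399) (nat_lit 285))))))) (XT.nd (nat_lit 780) (nat_lit 3724) (nat_lit 0) (XT.nd (nat_lit 390) (nat_lit 1748) (nat_lit 0) (XT.nd (nat_lit 156) (nat_lit 1292) (nat_lit 0)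 (XT.nd (nat_lit 78) (nat_lit 608) (nat_lit 0) (XT.lf (nat_lit 0) (nat_lit 4888010575) (nat_lit 684) (nat_lit 5138472073) (nat_lit 76) (nat_lit 1523643919) (nat_lit 314) (nat_lit 5) (nat_lit 323) (nat_lit 5) (nat_lit 315) (nat_lit 5) (nat_lit 457) (nat_lit 399) (nat_lit 284)) (XT.lf (nat_lit 0) (nat_lit 2123991784) (nat_lit 608) (nat_lit 5449520008) (nat_lit 684) (nat_lit 4099777074) (nat_lit 306) (nat_lit 5) (nat_lit 314) (nat_lit 5) (nat_lit 315) (nat_lit 5) (nat_lit 458) (nat_lit 399) (nat_lit 283))) (XT.nd (nat_lit 78) (nat_lit 1292) (nat_lit 0) (XT.lf (nat_lit 0) (nat_lit 9577582670) (nat_lit 608) (nat_lit 750840283) (nat_lit 684) (nat_lit 1470177460) (nat_lit 306) (nat_lit 5) (nat_lit 314) (nat_lit 5) (nat_lit 315) (nat_lit 5) (nat_lit 459) (nat_lit 399) (nat_lit 282)) (XT.nd (nat_lit 78) (nat_lit 608) (nat_lit 0) (XT.lf (nat_lit 0) (nat_lit 1238429855) (nat_lit 684) (nat_lit 6660628317) (nat_lit 76) (nat_lit 4026356403) (nat_lit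 297) (nat_lit 5) (nat_lit 306) (nat_lit 5) (nat_lit 298) (nat_lit 5) (nat_lit 460) (nat_lit 399) (nat_lit 281)) (XT.lf (nat_lit 0) (nat_lit 848532832) (nat_lit 608) (nat_lit 3140136746) (nat_lit 684) (nat_lit 8065758168) (nat_lit 289) (nat_lit 5) (nat_lit 297) (nat_lit 5) (nat_lit 298) (nat_lit 5) (nat_lit 461) (nat_lit 399) (nat_lit 280))))) (XT.nd (nat_lit 156) (nat_lit 1216) (nat_lit 0) (XT.nd (nat_lit 78) (nat_lit 532) (nat_lit 0) (XT.lf (nat_lit 0) (nat_lit 6831849167) (nat_lit 684) (nat_lit 3622293562) (nat_lit 76) (nat_lit 1731119750) (nat_lit 289) (nat_lit 5) (nat_lit 298) (nat_lit 5) (nat_lit 290) (nat_lit 5) (nat_lit 462) (nat_lit 399) (nat_lit 279)) (XT.lf (nat_lit 0) (nat_lit 4122818564) (nat_lit 532) (nat_lit 5638808600) (nat_lit 608) (nat_lit 2556492046) (nat_lit 282) (nat_lit 5) (nat_lit 289) (nat_lit 5) (nat_lit 290) (nat_lit 5) (nat_lit 463) (nat_lit 399) (nat_lit 278))) (XT.nd (nat_lit 78) (nat_lit 1140) (nat_lit 0)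 (XT.lf (nat_lit 0) (nat_lit 299202000) (nat_lit 608) (nat_lit 406816853) (nat_lit 76) (nat_lit 11747441312) (nat_lit 281) (nat_lit 5) (nat_lit 289) (nat_lit 5) (nat_lit 282) (nat_lit 5) (nat_lit 464) (nat_lit 399) (nat_lit 277)) (XT.nd (nat_lit 78) (nat_lit 532) (nat_lit 0) (XT.lf (nat_lit 0) (nat_lit 3238222180) (nat_lit 684) (nat_lit 5021930700) (nat_lit 76) (nat_lit 4329808218) (nat_lit 273) (nat_lit 5) (nat_lit 282) (nat_lit 5) (nat_lit 274) (nat_lit 5) (nat_lit 465) (nat_lit 399) (nat_lit 276)) (XT.lf (nat_lit 0) (nat_lit 2990060031) (nat_lit 532) (nat_lit 3255556058) (nat_lit 608) (nat_lit 6483384094) (nat_lit 266) (nat_lit 5) (nat_lit 273) (nat_lit 5) (nat_lit 274) (nat_lit 5) (nat_lit 466) (nat_lit 399) (nat_lit 275)))))) (XT.nd (nat_lit 390) (nat_lit 2052) (nat_lit 0) (XT.nd (nat_lit 156) (nat_lit 1140) (nat_lit 0) (XT.nd (nat_lit 78) (nat_lit 532) (nat_lit 0) (XT.lf (nat_lit 0) (nat_lit 9341992271) (nat_lit 608) (nat_lit 1675373355)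 (nat_lit 76) (nat_lit 1852877737) (nat_lit 266) (nat_lit 5) (nat_lit 274) (nat_lit 5) (nat_lit 267) (nat_lit 5) (nat_lit 467) (nat_lit 399) (nat_lit 274)) (XT.lf (nat_lit 0) (nat_lit 6591448426) (nat_lit 532) (nat_lit 5956444382) (nat_lit 608) (nat_lit 465466660) (nat_lit 259) (nat_lit 5) (nat_lit 266) (nat_lit 5) (nat_lit 267) (nat_lit 5) (nat_lit 468) (nat_lit 399) (nat_lit 273))) (XT.nd (nat_lit 78) (nat_lit 532) (nat_lit 0) (XT.lf (nat_lit 0) (nat_lit 1871436780) (nat_lit 532) (nat_lit 759048605) (nat_lit 608) (nat_lit 10528371695) (nat_lit 251) (nat_lit 5) (nat_lit 258) (nat_lit 5) (nat_lit 259) (nat_lit 5) (nat_lit 469) (nat_lit 399) (nat_lit 272)) (XT.nd (nat_lit 78) (nat_lit 532) (nat_lit 0) (XT.lf (nat_lit 0) (nat_lit 5838451006) (nat_lit 608) (nat_lit 2944673572) (nat_lit 76) (nat_lit 4522951988) (nat_lit 251) (nat_lit 5) (nat_lit 259) (nat_lit 5) (nat_lit 252) (nat_lit 5) (nat_lit 470) (nat_lit 399) (nat_lit 271)) (XT.lf (nat_lit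 0) (nat_lit 5610827980) (nat_lit 532) (nat_lit 3524978418) (nat_lit 608) (nat_lit 4319929436) (nat_lit 244) (nat_lit 5) (nat_lit 251) (nat_lit 5) (nat_lit 252) (nat_lit 5) (nat_lit 471) (nat_lit 399) (nat_lit 270))))) (XT.nd (nat_lit 234) (nat_lit 988) (nat_lit 0) (XT.nd (nat_lit 78) (nat_lit 608) (nat_lit 0) (XT.lf (nat_lit 0) (nat_lit 744266593) (nat_lit 456) (nat_lit 11775405903) (nat_lit 532) (nat_lit 1088304518) (nat_lit 238) (nat_lit 5) (nat_lit 244) (nat_lit 5) (nat_lit 245) (nat_lit 5) (nat_lit 472) (nat_lit 399) (nat_lit 269)) (XT.nd (nat_lit 78) (nat_lit 532) (nat_lit 0) (XT.lf (nat_lit 0) (nat_lit 2239299137) (nat_lit 532) (nat_lit 4211527688) (nat_lit 76) (nat_lit 7310943404) (nat_lit 237) (nat_lit 5) (nat_lit 244) (nat_lit 5) (nat_lit 238) (nat_lit 5) (nat_lit 473) (nat_lit 399) (nat_lit 268)) (XT.lf (nat_lit 0) (nat_lit 4645006077) (nat_lit 532) (nat_lit 988330451) (nat_lit 608) (nat_lit 8284869826) (nat_lit 230) (nat_lit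 5) (nat_lit 237) (nat_lit 5) (nat_lit 238) (nat_lit 5) (nat_lit 474) (nat_lit 399) (nat_lit 267)))) (XT.nd (nat_lit 78) (nat_lit 988) (nat_lit 0) (XT.lf (nat_lit 0) (nat_lit 9137864110) (nat_lit 608) (nat_lit 393918380) (nat_lit 76) (nat_lit 4545136522) (nat_lit 230) (nat_lit 5) (nat_lit 238) (nat_lit 5) (nat_lit 231) (nat_lit 5) (nat_lit 475) (nat_lit 399) (nat_lit 266)) (XT.nd (nat_lit 78) (nat_lit 532) (nat_lit 0) (XT.lf (nat_lit 0) (nat_lit 8749065612) (nat_lit 456) (nat_lit 4011474580) (nat_lit 532) (nat_lit 1477304573) (nat_lit 224) (nat_lit 5) (nat_lit 230) (nat_lit 5) (nat_lit 231) (nat_lit 5) (nat_lit 476) (nat_lit 399) (nat_lit 265)) (XT.lf (nat_lit 0) (nat_lit 2048871328) (nat_lit 532) (nat_lit 10720995959) (nat_lit 76) (nat_lit 1631412570) (nat_lit 217) (nat_lit 5) (nat_lit 224) (nat_lit 5) (nat_lit 218) (nat_lit 5) (nat_lit 477) (nat_lit 399) (nat_lit 264))))))))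
noncomputable def xc157 : XT := (XT.nd (nat_lit 1638) (nat_lit 1292) (nat_lit 0) (XT.nd (nat_lit 780) (nat_lit 2660) (nat_lit 0) (XT.nd (nat_lit 390) (nat_lit 1292) (nat_lit 0) (XT.nd (nat_lit 156) (nat_lit 912) (nat_lit 0) (XT.nd (nat_lit 78) (nat_lit 456) (nat_lit 0) (XT.lf (nat_lit 0) (nat_lit 5674326867) (nat_lit 532) (nat_lit 1518962455) (nat_lit 76) (nat_lit 7373528283) (nat_lit 217) (nat_lit 5) (nat_lit 224) (nat_lit 5) (nat_lit 218) (nat_lit 5) (nat_lit 478) (nat_lit 399) (nat_lit 263)) (XT.lf (nat_lit 0) (nat_lit 7949555827) (nat_lit 456) (nat_lit 1459522184) (nat_lit 532) (nat_lit 5325852368) (nat_lit 211) (nat_lit 5) (nat_lit 217) (nat_lit 5) (nat_lit 218) (nat_lit 5) (nat_lit 479) (nat_lit 399) (nat_lit 262))) (XT.nd (nat_lit 78) (nat_lit 456) (nat_lit 0) (XT.lf (nat_lit 0) (nat_lit 2706850052) (nat_lit 456) (nat_lit 10553282425) (nat_lit 532) (nat_lit 1645440766) (nat_lit 205) (nat_lit 5) (nat_lit 211) (nat_lit 5) (nat_lit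 212) (nat_lit 5) (nat_lit 480) (nat_lit 399) (nat_lit 261)) (XT.nd (nat_lit 78) (nat_lit 380) (nat_lit 0) (XT.lf (nat_lit 0) (nat_lit 2121753443) (nat_lit 532) (nat_lit 2643450277) (nat_lit 76) (nat_lit 10313334863) (nat_lit 204) (nat_lit 5) (nat_lit 211) (nat_lit 5) (nat_lit 205) (nat_lit 5) (nat_lit 481) (nat_lit 399) (nat_lit 260)) (XT.lf (nat_lit 0) (nat_lit 5982138375) (nat_lit 456) (nat_lit 8097375264) (nat_lit 76) (nat_lit 1174434477) (nat_lit 199) (nat_lit 5) (nat_lit 205) (nat_lit 5) (nat_lit 200) (nat_lit 5) (nat_lit 482) (nat_lit 399) (nat_lit 259))))) (XT.nd (nat_lit 156) (nat_lit 836) (nat_lit 0) (XT.nd (nat_lit 78) (nat_lit 0) (nat_lit 0) (XT.lf (nat_lit 0) (nat_lit 1725232715) (nat_lit 456) (nat_lit 8240826106) (nat_lit 532) (nat_lit 5465880462) (nat_lit 193) (nat_lit 5) (nat_lit 199) (nat_lit 5) (nat_lit 200) (nat_lit 5) (nat_lit 483) (nat_lit 399) (nat_lit 258)) (XT.lf (nat_lit 0) (nat_lit 11832560304) (nat_lit 456) (nat_lit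 2237288018) (nat_lit 532) (nat_lit 1542838139) (nat_lit 193) (nat_lit 5) (nat_lit 199) (nat_lit 5) (nat_lit 200) (nat_lit 5) (nat_lit 484) (nat_lit 399) (nat_lit 257))) (XT.nd (nat_lit 78) (nat_lit 380) (nat_lit 0) (XT.lf (nat_lit 0) (nat_lit 2479521913) (nat_lit 456) (nat_lit 9430153556) (nat_lit 76) (nat_lit 3885991794) (nat_lit 187) (nat_lit 5) (nat_lit 193) (nat_lit 5) (nat_lit 188) (nat_lit 5) (nat_lit 485) (nat_lit 399) (nat_lit 256)) (XT.nd (nat_lit 78) (nat_lit 0) (nat_lit 0) (XT.lf (nat_lit 0) (nat_lit 746750494) (nat_lit 380) (nat_lit 5846266698) (nat_lit 456) (nat_lit 9388459593) (nat_lit 182) (nat_lit 5) (nat_lit 187) (nat_lit 5) (nat_lit 188) (nat_lit 5) (nat_lit 486) (nat_lit 399) (nat_lit 255)) (XT.lf (nat_lit 0) (nat_lit 10840893563) (nat_lit 456) (nat_lit 4938766071) (nat_lit 76) (nat_lit 390300639) (nat_lit 182) (nat_lit 5) (nat_lit 188) (nat_lit 5) (nat_lit 183) (nat_lit 5) (nat_lit 487) (nat_lit 399) (nat_lit 254))))))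 (XT.nd (nat_lit 390) (nat_lit 1520) (nat_lit 0) (XT.nd (nat_lit 156) (nat_lit 684) (nat_lit 0) (XT.nd (nat_lit 78) (nat_lit 76) (nat_lit 0) (XT.lf (nat_lit 0) (nat_lit 5576519913) (nat_lit 380) (nat_lit 9658614960) (nat_lit 456) (nat_lit 1125850410) (nat_lit 177) (nat_lit 5) (nat_lit 182) (nat_lit 5) (nat_lit 183) (nat_lit 5) (nat_lit 488) (nat_lit 399) (nat_lit 253)) (XT.lf (nat_lit 0) (nat_lit 3139853471) (nat_lit 456) (nat_lit 227909986) (nat_lit 76) (nat_lit 13187259094) (nat_lit 176) (nat_lit 5) (nat_lit 182) (nat_lit 5) (nat_lit 177) (nat_lit 5) (nat_lit 489) (nat_lit 399) (nat_lit 252))) (XT.nd (nat_lit 78) (nat_lit 304) (nat_lit 0) (XT.lf (nat_lit 0) (nat_lit 7552009801) (nat_lit 456) (nat_lit 6120553465) (nat_lit 76) (nat_lit 3078704192) (nat_lit 171) (nat_lit 5) (nat_lit 177) (nat_lit 5) (nat_lit 172) (nat_lit 5) (nat_lit 490) (nat_lit 399) (nat_lit 251)) (XT.nd (nat_lit 78) (nat_lit 0) (nat_lit 0) (XT.lf (nat_lit 0) (nat_lit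 4777822737) (nat_lit 304) (nat_lit 7316316631) (nat_lit 380) (nat_lit 4856463292) (nat_lit 167) (nat_lit 5) (nat_lit 171) (nat_lit 5) (nat_lit 172) (nat_lit 5) (nat_lit 491) (nat_lit 399) (nat_lit 250)) (XT.lf (nat_lit 0) (nat_lit 15956549259) (nat_lit 304) (nat_lit 798625003) (nat_lit 380) (nat_lit 398189049) (nat_lit 167) (nat_lit 5) (nat_lit 171) (nat_lit 5) (nat_lit 172) (nat_lit 5) (nat_lit 492) (nat_lit 399) (nat_lit 249))))) (XT.nd (nat_lit 234) (nat_lit 760) (nat_lit 0) (XT.nd (nat_lit 78) (nat_lit 304) (nat_lit 0) (XT.lf (nat_lit 0) (nat_lit 4186004876) (nat_lit 456) (nat_lit 7313499181) (nat_lit 76) (nat_lit 5858312878) (nat_lit 161) (nat_lit 5) (nat_lit 167) (nat_lit 5) (nat_lit 162) (nat_lit 5) (nat_lit 493) (nat_lit 399) (nat_lit 248)) (XT.nd (nat_lit 78) (nat_lit 0) (nat_lit 0) (XT.lf (nat_lit 0) (nat_lit 3984148280) (nat_lit 304) (nat_lit 4898881738) (nat_lit 380) (nat_lit 8682747390) (nat_lit 157) (nat_lit 5) (nat_lit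 161) (nat_lit 5) (nat_lit 162) (nat_lit 5) (nat_lit 494) (nat_lit 399) (nat_lit 247)) (XT.lf (nat_lit 0) (nat_lit 13722606091) (nat_lit 380) (nat_lit 2202752175) (nat_lit 76) (nat_lit 1851566618) (nat_lit 157) (nat_lit 5) (nat_lit 162) (nat_lit 5) (nat_lit 158) (nat_lit 5) (nat_lit 495) (nat_lit 399) (nat_lit 246)))) (XT.nd (nat_lit 78) (nat_lit 304) (nat_lit 0) (XT.lf (nat_lit 0) (nat_lit 739989405) (nat_lit 456) (nat_lit 8520090829) (nat_lit 76) (nat_lit 8730487410) (nat_lit 151) (nat_lit 5) (nat_lit 157) (nat_lit 5) (nat_lit 152) (nat_lit 5) (nat_lit 496) (nat_lit 399) (nat_lit 245)) (XT.nd (nat_lit 78) (nat_lit 0) (nat_lit 0) (XT.lf (nat_lit 0) (nat_lit 3193657520) (nat_lit 304) (nat_lit 2405488387) (nat_lit 380) (nat_lit 12608336384) (nat_lit 147) (nat_lit 5) (nat_lit 151) (nat_lit 5) (nat_lit 152) (nat_lit 5) (nat_lit 497) (nat_lit 399) (nat_lit 244)) (XT.lf (nat_lit 0) (nat_lit 10630462712) (nat_lit 380) (nat_lit 3220759684) (nat_lit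 76) (nat_lit 4576013289) (nat_lit 147) (nat_lit 5) (nat_lit 152) (nat_lit 5) (nat_lit 148) (nat_lit 5) (nat_lit 498) (nat_lit 399) (nat_lit 243))))))) (XT.nd (nat_lit 52026) (nat_lit 0) (nat_lit 38304) (XT.nd (nat_lit 51636) (nat_lit 0) (nat_lit 40736) (XT.nd (nat_lit 156) (nat_lit 608) (nat_lit 0) (XT.nd (nat_lit 78) (nat_lit 380) (nat_lit 0) (XT.lf (nat_lit 0) (nat_lit 8889027719) (nat_lit 304) (nat_lit 6934911807) (nat_lit 380) (nat_lit 2826213949) (nat_lit 143) (nat_lit 5) (nat_lit 147) (nat_lit 5) (nat_lit 148) (nat_lit 5) (nat_lit 499) (nat_lit 399) (nat_lit 242)) (XT.lf (nat_lit 0) (nat_lit 2240688412) (nat_lit 380) (nat_lit 16473226528) (nat_lit 76) (nat_lit 162796133) (nat_lit 138) (nat_lit 5) (nat_lit 143) (nat_lit 5) (nat_lit 139) (nat_lit 5) (nat_lit 500) (nat_lit 399) (nat_lit 241))) (XT.nd (nat_lit 78) (nat_lit 608) (nat_lit 0) (XT.lf (nat_lit 0) (nat_lit 7470962908) (nat_lit 380) (nat_lit 4247744138) (nat_lit 76) (nat_lit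 7386721610) (nat_lit 138) (nat_lit 5) (nat_lit 143) (nat_lit 5) (nat_lit 139) (nat_lit 5) (nat_lit 501) (nat_lit 399) (nat_lit 240)) (XT.nd (nat_lit 78) (nat_lit 304) (nat_lit 0) (XT.lf (nat_lit 0) (nat_lit 8311768990) (nat_lit 304) (nat_lit 4536254191) (nat_lit 380) (nat_lit 6489853804) (nat_lit 134) (nat_lit 5) (nat_lit 138) (nat_lit 5) (nat_lit 139) (nat_lit 5) (nat_lit 502) (nat_lit 399) (nat_lit 239)) (XT.lf (nat_lit 0) (nat_lit 1588635650) (nat_lit 304) (nat_lit 16789380677) (nat_lit 380) (nat_lit 1196050120) (nat_lit 130) (nat_lit 5) (nat_lit 134) (nat_lit 5) (nat_lit 135) (nat_lit 5) (nat_lit 503) (nat_lit 399) (nat_lit 238))))) (XT.nd (nat_lit 156) (nat_lit 1216) (nat_lit 0) (XT.nd (nat_lit 78) (nat_lit 0) (nat_lit 0) (XT.lf (nat_lit 0) (nat_lit 681168010) (nat_lit 0) (nat_lit 681168010) (nat_lit 1140) (nat_lit 2238040329) (nat_lit 682) (nat_lit 5) (nat_lit 682) (nat_lit 3) (nat_lit 697) (nat_lit 3) (nat_lit 400) (nat_lit 400)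 (nat_lit 340)) (XT.lf (nat_lit 0) (nat_lit 4420536174) (nat_lit 1140) (nat_lit 2230883711) (nat_lit 1216) (nat_lit 587967992) (nat_lit 682) (nat_lit 5) (nat_lit 697) (nat_lit 3) (nat_lit 698) (nat_lit 5) (nat_lit 401) (nat_lit 400) (nat_lit 339))) (XT.nd (nat_lit 78) (nat_lit 1216) (nat_lit 0) (XT.lf (nat_lit 76) (nat_lit 1435759485) (nat_lit 0) (nat_lit 4689376889) (nat_lit 1216) (nat_lit 1154163010) (nat_lit 683) (nat_lit 5) (nat_lit 682) (nat_lit 5) (nat_lit 698) (nat_lit 5) (nat_lit 402) (nat_lit 400) (nat_lit 338)) (XT.nd (nat_lit 78) (nat_lit 0) (nat_lit 0) (XT.lf (nat_lit 0) (nat_lit 508653992) (nat_lit 1216) (nat_lit 2140635004) (nat_lit 1292) (nat_lit 4671210171) (nat_lit 666) (nat_lit 5) (nat_lit 682) (nat_lit 5) (nat_lit 683) (nat_lit 5) (nat_lit 403) (nat_lit 400) (nat_lit 337)) (XT.lf (nat_lit 76) (nat_lit 1627210908) (nat_lit 0) (nat_lit 530383994) (nat_lit 1292) (nat_lit 5205409029) (nat_lit 667) (nat_lit 5) (nat_lit 666)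 (nat_lit 5) (nat_lit 683) (nat_lit 5) (nat_lit 404) (nat_lit 400) (nat_lit 336)))))) (XT.nd (nat_lit 390) (nat_lit 1292) (nat_lit 0) (XT.nd (nat_lit 156) (nat_lit 1216) (nat_lit 0) (XT.nd (nat_lit 78) (nat_lit 0) (nat_lit 0) (XT.lf (nat_lit 0) (nat_lit 3823110070) (nat_lit 1216) (nat_lit 1940943883) (nat_lit 1292) (nat_lit 1642632926) (nat_lit 667) (nat_lit 5) (nat_lit 683) (nat_lit 5) (nat_lit 684) (nat_lit 5) (nat_lit 405) (nat_lit 400) (nat_lit 335)) (XT.lf (nat_lit 76) (nat_lit 1928425537) (nat_lit 0) (nat_lit 3568902553) (nat_lit 1292) (nat_lit 1954407547) (nat_lit 668) (nat_lit 5) (nat_lit 667) (nat_lit 5) (nat_lit 684) (nat_lit 5) (nat_lit 406) (nat_lit 400) (nat_lit 334))) (XT.nd (nat_lit 78) (nat_lit 1216) (nat_lit 0) (XT.lf (nat_lit 76) (nat_lit 5878488818) (nat_lit 0) (nat_lit 1299573379) (nat_lit 1292) (nat_lit 320162536) (nat_lit 668) (nat_lit 5) (nat_lit 667) (nat_lit 5) (nat_lit 684) (nat_lit 5) (nat_lit 407) (nat_lit 400)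 (nat_lit 333)) (XT.nd (nat_lit 78) (nat_lit 0) (nat_lit 0) (XT.lf (nat_lit 0) (nat_lit 1311822126) (nat_lit 1292) (nat_lit 5191754045) (nat_lit 1368) (nat_lit 1042238203) (nat_lit 651) (nat_lit 5) (nat_lit 668) (nat_lit 5) (nat_lit 669) (nat_lit 5) (nat_lit 408) (nat_lit 400) (nat_lit 332)) (XT.lf (nat_lit 0) (nat_lit 2952971111) (nat_lit 1292) (nat_lit 1199454080) (nat_lit 1368) (nat_lit 3442272059) (nat_lit 651) (nat_lit 5) (nat_lit 668) (nat_lit 5) (nat_lit 669) (nat_lit 5) (nat_lit 409) (nat_lit 400) (nat_lit 331))))) (XT.nd (nat_lit 234) (nat_lit 0) (nat_lit 0) (XT.nd (nat_lit 78) (nat_lit 1292) (nat_lit 0) (XT.lf (nat_lit 76) (nat_lit 2887219663) (nat_lit 0) (nat_lit 1720488654) (nat_lit 1368) (nat_lit 3037234162) (nat_lit 652) (nat_lit 5) (nat_lit 651) (nat_lit 5) (nat_lit 669) (nat_lit 5) (nat_lit 410) (nat_lit 400) (nat_lit 330)) (XT.nd (nat_lit 78) (nat_lit 1368) (nat_lit 0) (XT.lf (nat_lit 0) (nat_lit 6271283412) (nat_lit 1292)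 (nat_lit 653159138) (nat_lit 1368) (nat_lit 772235200) (nat_lit 652) (nat_lit 5) (nat_lit 669) (nat_lit 5) (nat_lit 670) (nat_lit 5) (nat_lit 411) (nat_lit 400) (nat_lit 329)) (XT.lf (nat_lit 0) (nat_lit 213647840) (nat_lit 1368) (nat_lit 4205854569) (nat_lit 1444) (nat_lit 3329960247) (nat_lit 634) (nat_lit 5) (nat_lit 652) (nat_lit 5) (nat_lit 653) (nat_lit 5) (nat_lit 412) (nat_lit 400) (nat_lit 328)))) (XT.nd (nat_lit 78) (nat_lit 0) (nat_lit 76) (XT.lf (nat_lit 0) (nat_lit 1834578485) (nat_lit 1368) (nat_lit 3400455) (nat_lit 1444) (nat_lit 5965772010) (nat_lit 634) (nat_lit 5) (nat_lit 652) (nat_lit 5) (nat_lit 653) (nat_lit 5) (nat_lit 413) (nat_lit 400) (nat_lit 327)) (XT.nd (nat_lit 78) (nat_lit 0) (nat_lit 0) (XT.lf (nat_lit 0) (nat_lit 3485853322) (nat_lit 1368) (nat_lit 3548402588) (nat_lit 1444) (nat_lit 824910589) (nat_lit 635) (nat_lit 5) (nat_lit 653) (nat_lit 5) (nat_lit 654) (nat_lit 5) (nat_lit 414) (nat_lit 400) (nat_lit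 326)) (XT.lf (nat_lit 76) (nat_lit 769453106) (nat_lit 0) (nat_lit 4382987303) (nat_lit 1444) (nat_lit 2763604215) (nat_lit 636) (nat_lit 5) (nat_lit 635) (nat_lit 5) (nat_lit 654) (nat_lit 5) (nat_lit 415) (nat_lit 400) (nat_lit 325))))))))
noncomputable def xc158 : XT := (XT.nd (nat_lit 1560) (nat_lit 10488) (nat_lit 0) (XT.nd (nat_lit 780) (nat_lit 9044) (nat_lit 0) (XT.nd (nat_lit 390) (nat_lit 2888) (nat_lit 0) (XT.nd (nat_lit 156) (nat_lit 0) (nat_lit 0) (XT.nd (nat_lit 78) (nat_lit 1368) (nat_lit 0) (XT.lf (nat_lit 76) (nat_lit 5197889596) (nat_lit 0) (nat_lit 1643906607) (nat_lit 1444) (nat_lit 1132475370) (nat_lit 636) (nat_lit 5) (nat_lit 635) (nat_lit 5) (nat_lit 654) (nat_lit 5) (nat_lit 416) (nat_lit 400) (nat_lit 324)) (XT.lf (nat_lit 0) (nat_lit 508892022) (nat_lit 1444) (nat_lit 6365777849) (nat_lit 1520) (nat_lit 1159232525) (nat_lit 617) (nat_lit 5) (nat_lit 636) (nat_lit 5) (nat_lit 637) (nat_lit 5) (nat_lit 417) (nat_lit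 400) (nat_lit 323))) (XT.nd (nat_lit 78) (nat_lit 0) (nat_lit 0) (XT.lf (nat_lit 0) (nat_lit 2164228741) (nat_lit 1444) (nat_lit 1898140310) (nat_lit 1520) (nat_lit 4032280955) (nat_lit 617) (nat_lit 5) (nat_lit 636) (nat_lit 5) (nat_lit 637) (nat_lit 5) (nat_lit 418) (nat_lit 400) (nat_lit 322)) (XT.nd (nat_lit 78) (nat_lit 0) (nat_lit 76) (XT.lf (nat_lit 76) (nat_lit 2669912574) (nat_lit 0) (nat_lit 1167398858) (nat_lit 1520) (nat_lit 4319608353) (nat_lit 618) (nat_lit 5) (nat_lit 617) (nat_lit 5) (nat_lit 637) (nat_lit 5) (nat_lit 419) (nat_lit 400) (nat_lit 321)) (XT.lf (nat_lit 0) (nat_lit 5536115718) (nat_lit 1444) (nat_lit 901295717) (nat_lit 1520) (nat_lit 1783178325) (nat_lit 618) (nat_lit 5) (nat_lit 637) (nat_lit 5) (nat_lit 638) (nat_lit 5) (nat_lit 420) (nat_lit 400) (nat_lit 320))))) (XT.nd (nat_lit 156) (nat_lit 1444) (nat_lit 0) (XT.nd (nat_lit 78) (nat_lit 1520) (nat_lit 0) (XT.lf (nat_lit 76) (nat_lit 3794145078) (nat_lit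 0) (nat_lit 3475592319) (nat_lit 1520) (nat_lit 1015778911) (nat_lit 619) (nat_lit 5) (nat_lit 618) (nat_lit 5) (nat_lit 638) (nat_lit 5) (nat_lit 421) (nat_lit 400) (nat_lit 319)) (XT.lf (nat_lit 76) (nat_lit 218184966) (nat_lit 0) (nat_lit 435342767) (nat_lit 1596) (nat_lit 7698599769) (nat_lit 599) (nat_lit 5) (nat_lit 598) (nat_lit 5) (nat_lit 619) (nat_lit 5) (nat_lit 422) (nat_lit 400) (nat_lit 318))) (XT.nd (nat_lit 78) (nat_lit 1520) (nat_lit 0) (XT.lf (nat_lit 0) (nat_lit 2359512181) (nat_lit 1520) (nat_lit 3385660528) (nat_lit 76) (nat_lit 2674426065) (nat_lit 599) (nat_lit 5) (nat_lit 619) (nat_lit 5) (nat_lit 600) (nat_lit 5) (nat_lit 423) (nat_lit 400) (nat_lit 317)) (XT.nd (nat_lit 78) (nat_lit 0) (nat_lit 0) (XT.lf (nat_lit 0) (nat_lit 1449427056) (nat_lit 1520) (nat_lit 2632319831) (nat_lit 1596) (nat_lit 4407029973) (nat_lit 579) (nat_lit 5) (nat_lit 599) (nat_lit 5) (nat_lit 600) (nat_lit 5) (nat_lit 424) (nat_lit 400)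 (nat_lit 316)) (XT.lf (nat_lit 0) (nat_lit 5835128489) (nat_lit 1596) (nat_lit 2160206470) (nat_lit 76) (nat_lit 564069506) (nat_lit 579) (nat_lit 5) (nat_lit 600) (nat_lit 5) (nat_lit 580) (nat_lit 5) (nat_lit 425) (nat_lit 400) (nat_lit 315)))))) (XT.nd (nat_lit 390) (nat_lit 3952) (nat_lit 0) (XT.nd (nat_lit 156) (nat_lit 3420) (nat_lit 0) (XT.nd (nat_lit 78) (nat_lit 76) (nat_lit 0) (XT.lf (nat_lit 0) (nat_lit 2811690771) (nat_lit 1596) (nat_lit 4818465110) (nat_lit 1672) (nat_lit 1001157177) (nat_lit 558) (nat_lit 5) (nat_lit 579) (nat_lit 5) (nat_lit 580) (nat_lit 5) (nat_lit 426) (nat_lit 400) (nat_lit 314)) (XT.lf (nat_lit 0) (nat_lit 732209889) (nat_lit 1672) (nat_lit 821565378) (nat_lit 76) (nat_lit 7151072201) (nat_lit 557) (nat_lit 5) (nat_lit 579) (nat_lit 5) (nat_lit 558) (nat_lit 5) (nat_lit 427) (nat_lit 400) (nat_lit 313))) (XT.nd (nat_lit 78) (nat_lit 1748) (nat_lit 0) (XT.lf (nat_lit 0) (nat_lit 2498254218) (nat_lit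 1748) (nat_lit 4489285900) (nat_lit 76) (nat_lit 1791951789) (nat_lit 535) (nat_lit 5) (nat_lit 558) (nat_lit 5) (nat_lit 536) (nat_lit 5) (nat_lit 428) (nat_lit 400) (nat_lit 312)) (XT.nd (nat_lit 78) (nat_lit 0) (nat_lit 0) (XT.lf (nat_lit 0) (nat_lit 633367890) (nat_lit 1748) (nat_lit 3658310868) (nat_lit 1824) (nat_lit 4564109289) (nat_lit 512) (nat_lit 5) (nat_lit 535) (nat_lit 5) (nat_lit 536) (nat_lit 5) (nat_lit 429) (nat_lit 400) (nat_lit 311)) (XT.lf (nat_lit 0) (nat_lit 5895046200) (nat_lit 1748) (nat_lit 228547847) (nat_lit 1824) (nat_lit 2809963616) (nat_lit 512) (nat_lit 5) (nat_lit 535) (nat_lit 5) (nat_lit 536) (nat_lit 5) (nat_lit 430) (nat_lit 400) (nat_lit 310))))) (XT.nd (nat_lit 156) (nat_lit 2052) (nat_lit 0) (XT.nd (nat_lit 78) (nat_lit 76) (nat_lit 0) (XT.lf (nat_lit 0) (nat_lit 2232763041) (nat_lit 1824) (nat_lit 5768167529) (nat_lit 1900) (nat_lit 1011776445) (nat_lit 488) (nat_lit 5) (nat_lit 512) (nat_lit 5)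 (nat_lit 513) (nat_lit 5) (nat_lit 431) (nat_lit 400) (nat_lit 309)) (XT.lf (nat_lit 0) (nat_lit 806879226) (nat_lit 1900) (nat_lit 1473929532) (nat_lit 76) (nat_lit 6812617999) (nat_lit 487) (nat_lit 5) (nat_lit 512) (nat_lit 5) (nat_lit 488) (nat_lit 5) (nat_lit 432) (nat_lit 400) (nat_lit 308))) (XT.nd (nat_lit 78) (nat_lit 912) (nat_lit 0) (XT.lf (nat_lit 0) (nat_lit 2656371060) (nat_lit 1216) (nat_lit 5224799274) (nat_lit 76) (nat_lit 1294296590) (nat_lit 472) (nat_lit 5) (nat_lit 488) (nat_lit 5) (nat_lit 473) (nat_lit 5) (nat_lit 433) (nat_lit 400) (nat_lit 307)) (XT.nd (nat_lit 78) (nat_lit 0) (nat_lit 0) (XT.lf (nat_lit 0) (nat_lit 207891783) (nat_lit 912) (nat_lit 4335519477) (nat_lit 988) (nat_lit 4715725463) (nat_lit 460) (nat_lit 5) (nat_lit 472) (nat_lit 5) (nat_lit 473) (nat_lit 5) (nat_lit 434) (nat_lit 400) (nat_lit 306)) (XT.lf (nat_lit 0) (nat_lit 5795770290) (nat_lit 912) (nat_lit 681980049) (nat_lit 988) (nat_lit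 2866538418) (nat_lit 460) (nat_lit 5) (nat_lit 472) (nat_lit 5) (nat_lit 473) (nat_lit 5) (nat_lit 435) (nat_lit 400) (nat_lit 305))))))) (XT.nd (nat_lit 780) (nat_lit 5244) (nat_lit 0) (XT.nd (nat_lit 390) (nat_lit 2508) (nat_lit 0) (XT.nd (nat_lit 156) (nat_lit 1748) (nat_lit 0) (XT.nd (nat_lit 78) (nat_lit 76) (nat_lit 0) (XT.lf (nat_lit 0) (nat_lit 2047020406) (nat_lit 912) (nat_lit 6411818869) (nat_lit 988) (nat_lit 972143294) (nat_lit 448) (nat_lit 5) (nat_lit 460) (nat_lit 5) (nat_lit 461) (nat_lit 5) (nat_lit 436) (nat_lit 400) (nat_lit 304)) (XT.lf (nat_lit 0) (nat_lit 951208486) (nat_lit 988) (nat_lit 1751762156) (nat_lit 76) (nat_lit 6816241716) (nat_lit 447) (nat_lit 5) (nat_lit 460) (nat_lit 5) (nat_lit 448) (nat_lit 5) (nat_lit 437) (nat_lit 400) (nat_lit 303))) (XT.nd (nat_lit 78) (nat_lit 912) (nat_lit 0) (XT.lf (nat_lit 0) (nat_lit 2908983648) (nat_lit 912) (nat_lit 5600979174) (nat_lit 76) (nat_lit 1098935936) (nat_lit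 436) (nat_lit 5) (nat_lit 448) (nat_lit 5) (nat_lit 437) (nat_lit 5) (nat_lit 438) (nat_lit 400) (nat_lit 302)) (XT.nd (nat_lit 78) (nat_lit 0) (nat_lit 0) (XT.lf (nat_lit 0) (nat_lit 166264535) (nat_lit 912) (nat_lit 4746447642) (nat_lit 988) (nat_lit 4787530753) (nat_lit 424) (nat_lit 5) (nat_lit 436) (nat_lit 5) (nat_lit 437) (nat_lit 5) (nat_lit 439) (nat_lit 400) (nat_lit 301)) (XT.lf (nat_lit 0) (nat_lit 6100601448) (nat_lit 912) (nat_lit 869798075) (nat_lit 988) (nat_lit 2822736775) (nat_lit 424) (nat_lit 5) (nat_lit 436) (nat_lit 5) (nat_lit 437) (nat_lit 5) (nat_lit 440) (nat_lit 400) (nat_lit 300))))) (XT.nd (nat_lit 156) (nat_lit 1596) (nat_lit 0) (XT.nd (nat_lit 78) (nat_lit 76) (nat_lit 0) (XT.lf (nat_lit 0) (nat_lit 2251072789) (nat_lit 836) (nat_lit 6829569604) (nat_lit 912) (nat_lit 807017106) (nat_lit 413) (nat_lit 5) (nat_lit 424) (nat_lit 5) (nat_lit 425) (nat_lit 5) (nat_lit 441) (nat_lit 400) (nat_lit 299)) (XT.lf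 (nat_lit 0) (nat_lit 1240247439) (nat_lit 912) (nat_lit 1658315564) (nat_lit 76) (nat_lit 7085195742) (nat_lit 412) (nat_lit 5) (nat_lit 424) (nat_lit 5) (nat_lit 413) (nat_lit 5) (nat_lit 442) (nat_lit 400) (nat_lit 298))) (XT.nd (nat_lit 78) (nat_lit 760) (nat_lit 0) (XT.lf (nat_lit 0) (nat_lit 3331471529) (nat_lit 912) (nat_lit 5620024824) (nat_lit 76) (nat_lit 1129900529) (nat_lit 401) (nat_lit 5) (nat_lit 413) (nat_lit 5) (nat_lit 402) (nat_lit 5) (nat_lit 443) (nat_lit 400) (nat_lit 297)) (XT.nd (nat_lit 78) (nat_lit 0) (nat_lit 0) (XT.lf (nat_lit 0) (nat_lit 508451138) (nat_lit 760) (nat_lit 4967410507) (nat_lit 836) (nat_lit 4704899307) (nat_lit 391) (nat_lit 5) (nat_lit 401) (nat_lit 5) (nat_lit 402) (nat_lit 5) (nat_lit 444) (nat_lit 400) (nat_lit 296)) (XT.lf (nat_lit 0) (nat_lit 6811721259) (nat_lit 760) (nat_lit 867057162) (nat_lit 836) (nat_lit 2603021105) (nat_lit 391) (nat_lit 5) (nat_lit 401) (nat_lit 5) (nat_lit 402)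 (nat_lit 5) (nat_lit 445) (nat_lit 400) (nat_lit 295)))))) (XT.nd (nat_lit 390) (nat_lit 2888) (nat_lit 0) (XT.nd (nat_lit 156) (nat_lit 1520) (nat_lit 0) (XT.nd (nat_lit 78) (nat_lit 76) (nat_lit 0) (XT.lf (nat_lit 0) (nat_lit 2848118952) (nat_lit 760) (nat_lit 7095997992) (nat_lit 836) (nat_lit 440374659) (nat_lit 381) (nat_lit 5) (nat_lit 391) (nat_lit 5) (nat_lit 392) (nat_lit 5) (nat_lit 446) (nat_lit 400) (nat_lit 294)) (XT.lf (nat_lit 0) (nat_lit 1750027059) (nat_lit 836) (nat_lit 1190449300) (nat_lit 76) (nat_lit 7548378753) (nat_lit 380) (nat_lit 5) (nat_lit 391) (nat_lit 5) (nat_lit 381) (nat_lit 5) (nat_lit 447) (nat_lit 400) (nat_lit 293))) (XT.nd (nat_lit 78) (nat_lit 760) (nat_lit 0) (XT.lf (nat_lit 0) (nat_lit 4000482095) (nat_lit 836) (nat_lit 5277879314) (nat_lit 76) (nat_lit 1316443428) (nat_lit 370) (nat_lit 5) (nat_lit 381) (nat_lit 5) (nat_lit 371) (nat_lit 5) (nat_lit 448) (nat_lit 400) (nat_lit 292)) (XT.nd (nat_lit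 78) (nat_lit 0) (nat_lit 0) (XT.lf (nat_lit 0) (nat_lit 1240808094) (nat_lit 760) (nat_lit 5069851406) (nat_lit 836) (nat_lit 4391919791) (nat_lit 360) (nat_lit 5) (nat_lit 370) (nat_lit 5) (nat_lit 371) (nat_lit 5) (nat_lit 449) (nat_lit 400) (nat_lit 291)) (XT.lf (nat_lit 0) (nat_lit 7937758957) (nat_lit 760) (nat_lit 744096564) (nat_lit 836) (nat_lit 2130357410) (nat_lit 360) (nat_lit 5) (nat_lit 370) (nat_lit 5) (nat_lit 371) (nat_lit 5) (nat_lit 450) (nat_lit 400) (nat_lit 290))))) (XT.nd (nat_lit 234) (nat_lit 1444) (nat_lit 0) (XT.nd (nat_lit 78) (nat_lit 684) (nat_lit 0) (XT.lf (nat_lit 0) (nat_lit 202891685) (nat_lit 760) (nat_lit 7077120124) (nat_lit 76) (nat_lit 3643429136) (nat_lit 350) (nat_lit 5) (nat_lit 360) (nat_lit 5) (nat_lit 351) (nat_lit 5) (nat_lit 451) (nat_lit 400) (nat_lit 289)) (XT.nd (nat_lit 78) (nat_lit 684) (nat_lit 0) (XT.lf (nat_lit 0) (nat_lit 2558545941) (nat_lit 760) (nat_lit 338882696) (nat_lit 76)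 (nat_lit 8139097935) (nat_lit 350) (nat_lit 5) (nat_lit 360) (nat_lit 5) (nat_lit 351) (nat_lit 5) (nat_lit 452) (nat_lit 400) (nat_lit 288)) (XT.lf (nat_lit 0) (nat_lit 4994909316) (nat_lit 760) (nat_lit 4564459900) (nat_lit 76) (nat_lit 1591832775) (nat_lit 341) (nat_lit 5) (nat_lit 351) (nat_lit 5) (nat_lit 342) (nat_lit 5) (nat_lit 453) (nat_lit 400) (nat_lit 287)))) (XT.nd (nat_lit 78) (nat_lit 760) (nat_lit 0) (XT.lf (nat_lit 0) (nat_lit 2375869063) (nat_lit 684) (nat_lit 5121536000) (nat_lit 760) (nat_lit 3770417754) (nat_lit 332) (nat_lit 5) (nat_lit 341) (nat_lit 5) (nat_lit 342) (nat_lit 5) (nat_lit 454) (nat_lit 400) (nat_lit 286)) (XT.nd (nat_lit 78) (nat_lit 760) (nat_lit 0) (XT.lf (nat_lit 0) (nat_lit 9493596100) (nat_lit 684) (nat_lit 567717689) (nat_lit 760) (nat_lit 1325235008) (nat_lit 332) (nat_lit 5) (nat_lit 341) (nat_lit 5) (nat_lit 342) (nat_lit 5) (nat_lit 455) (nat_lit 400) (nat_lit 285)) (XT.lf (nat_lit 0) (nat_lit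 1195541959) (nat_lit 760) (nat_lit 6249242734) (nat_lit 76) (nat_lit 4061872420) (nat_lit 322) (nat_lit 5) (nat_lit 332) (nat_lit 5) (nat_lit 323) (nat_lit 5) (nat_lit 456) (nat_lit 400) (nat_lit 284))))))))
noncomputable def xc159 : XT := (XT.nd (nat_lit 1638) (nat_lit 5852) (nat_lit 0) (XT.nd (nat_lit 780) (nat_lit 3724) (nat_lit 0) (XT.nd (nat_lit 390) (nat_lit 1824) (nat_lit 0) (XT.nd (nat_lit 156) (nat_lit 1292) (nat_lit 0) (XT.nd (nat_lit 78) (nat_lit 0) (nat_lit 0) (XT.lf (nat_lit 0) (nat_lit 923755420) (nat_lit 608) (nat_lit 2828977879) (nat_lit 684) (nat_lit 7876184226) (nat_lit 314) (nat_lit 5) (nat_lit 322) (nat_lit 5) (nat_lit 323) (nat_lit 5) (nat_lit 457) (nat_lit 400) (nat_lit 283)) (XT.lf (nat_lit 0) (nat_lit 6396854985) (nat_lit 684) (nat_lit 3463802908) (nat_lit 76) (nat_lit 1892249522) (nat_lit 314) (nat_lit 5) (nat_lit 323) (nat_lit 5) (nat_lit 315) (nat_lit 5) (nat_lit 458) (nat_lit 400) (nat_lit 282))) (XT.nd (nat_lit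 78) (nat_lit 684) (nat_lit 0) (XT.lf (nat_lit 0) (nat_lit 3932216551) (nat_lit 608) (nat_lit 5187645744) (nat_lit 684) (nat_lit 2758994742) (nat_lit 306) (nat_lit 5) (nat_lit 314) (nat_lit 5) (nat_lit 315) (nat_lit 5) (nat_lit 459) (nat_lit 400) (nat_lit 281)) (XT.nd (nat_lit 78) (nat_lit 684) (nat_lit 0) (XT.lf (nat_lit 0) (nat_lit 11500256805) (nat_lit 608) (nat_lit 402264281) (nat_lit 684) (nat_lit 104700741) (nat_lit 306) (nat_lit 5) (nat_lit 314) (nat_lit 5) (nat_lit 315) (nat_lit 5) (nat_lit 460) (nat_lit 400) (nat_lit 280)) (XT.lf (nat_lit 0) (nat_lit 2626524300) (nat_lit 684) (nat_lit 5031163982) (nat_lit 76) (nat_lit 4478968068) (nat_lit 297) (nat_lit 5) (nat_lit 306) (nat_lit 5) (nat_lit 298) (nat_lit 5) (nat_lit 461) (nat_lit 400) (nat_lit 279))))) (XT.nd (nat_lit 156) (nat_lit 1216) (nat_lit 0) (XT.nd (nat_lit 78) (nat_lit 0) (nat_lit 0) (XT.lf (nat_lit 0) (nat_lit 2616583832) (nat_lit 608) (nat_lit 2799822282) (nat_lit 684)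 (nat_lit 6852150925) (nat_lit 289) (nat_lit 5) (nat_lit 297) (nat_lit 5) (nat_lit 298) (nat_lit 5) (nat_lit 462) (nat_lit 400) (nat_lit 278)) (XT.lf (nat_lit 0) (nat_lit 8292584628) (nat_lit 684) (nat_lit 1954129333) (nat_lit 76) (nat_lit 2155771797) (nat_lit 289) (nat_lit 5) (nat_lit 298) (nat_lit 5) (nat_lit 290) (nat_lit 5) (nat_lit 463) (nat_lit 400) (nat_lit 277))) (XT.nd (nat_lit 78) (nat_lit 684) (nat_lit 0) (XT.lf (nat_lit 0) (nat_lit 5934433653) (nat_lit 532) (nat_lit 5331788662) (nat_lit 608) (nat_lit 1272072026) (nat_lit 282) (nat_lit 5) (nat_lit 289) (nat_lit 5) (nat_lit 290) (nat_lit 5) (nat_lit 464) (nat_lit 400) (nat_lit 276)) (XT.nd (nat_lit 78) (nat_lit 0) (nat_lit 0) (XT.lf (nat_lit 0) (nat_lit 1314715713) (nat_lit 608) (nat_lit 291196416) (nat_lit 684) (nat_lit 11070602718) (nat_lit 273) (nat_lit 5) (nat_lit 281) (nat_lit 5) (nat_lit 282) (nat_lit 5) (nat_lit 465) (nat_lit 400) (nat_lit 275)) (XT.lf (nat_lit 0) (nat_lit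 4583632804) (nat_lit 684) (nat_lit 3398399242) (nat_lit 76) (nat_lit 4834115351) (nat_lit 273) (nat_lit 5) (nat_lit 282) (nat_lit 5) (nat_lit 274) (nat_lit 5) (nat_lit 466) (nat_lit 400) (nat_lit 274)))))) (XT.nd (nat_lit 390) (nat_lit 2052) (nat_lit 0) (XT.nd (nat_lit 156) (nat_lit 1140) (nat_lit 0) (XT.nd (nat_lit 78) (nat_lit 0) (nat_lit 0) (XT.lf (nat_lit 0) (nat_lit 4762489396) (nat_lit 532) (nat_lit 2874694005) (nat_lit 608) (nat_lit 5321063687) (nat_lit 266) (nat_lit 5) (nat_lit 273) (nat_lit 5) (nat_lit 274) (nat_lit 5) (nat_lit 467) (nat_lit 400) (nat_lit 273)) (XT.lf (nat_lit 0) (nat_lit 10773489512) (nat_lit 608) (nat_lit 7836008) (nat_lit 76) (nat_lit 2321429562) (nat_lit 266) (nat_lit 5) (nat_lit 274) (nat_lit 5) (nat_lit 267) (nat_lit 5) (nat_lit 468) (nat_lit 400) (nat_lit 272))) (XT.nd (nat_lit 78) (nat_lit 532) (nat_lit 0) (XT.lf (nat_lit 0) (nat_lit 770828579) (nat_lit 608) (nat_lit 4840942295) (nat_lit 76) (nat_lit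 7637129879) (nat_lit 258) (nat_lit 5) (nat_lit 266) (nat_lit 5) (nat_lit 259) (nat_lit 5) (nat_lit 469) (nat_lit 400) (nat_lit 271)) (XT.nd (nat_lit 78) (nat_lit 0) (nat_lit 0) (XT.lf (nat_lit 0) (nat_lit 3603964105) (nat_lit 532) (nat_lit 305212967) (nat_lit 608) (nat_lit 9488335510) (nat_lit 251) (nat_lit 5) (nat_lit 258) (nat_lit 5) (nat_lit 259) (nat_lit 5) (nat_lit 470) (nat_lit 400) (nat_lit 270)) (XT.lf (nat_lit 0) (nat_lit 7160246641) (nat_lit 608) (nat_lit 1320650316) (nat_lit 76) (nat_lit 5067200609) (nat_lit 251) (nat_lit 5) (nat_lit 259) (nat_lit 5) (nat_lit 252) (nat_lit 5) (nat_lit 471) (nat_lit 400) (nat_lit 269))))) (XT.nd (nat_lit 234) (nat_lit 988) (nat_lit 0) (XT.nd (nat_lit 78) (nat_lit 532) (nat_lit 0) (XT.lf (nat_lit 0) (nat_lit 7394889447) (nat_lit 532) (nat_lit 3115886446) (nat_lit 608) (nat_lit 3190229590) (nat_lit 244) (nat_lit 5) (nat_lit 251) (nat_lit 5) (nat_lit 252) (nat_lit 5) (nat_lit 472) (nat_lit 400)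 (nat_lit 268)) (XT.nd (nat_lit 78) (nat_lit 0) (nat_lit 0) (XT.lf (nat_lit 0) (nat_lit 95167232) (nat_lit 532) (nat_lit 11416513038) (nat_lit 76) (nat_lit 2344786849) (nat_lit 237) (nat_lit 5) (nat_lit 244) (nat_lit 5) (nat_lit 238) (nat_lit 5) (nat_lit 473) (nat_lit 400) (nat_lit 267)) (XT.lf (nat_lit 0) (nat_lit 3451417537) (nat_lit 532) (nat_lit 2631773657) (nat_lit 76) (nat_lit 7930467792) (nat_lit 237) (nat_lit 5) (nat_lit 244) (nat_lit 5) (nat_lit 238) (nat_lit 5) (nat_lit 474) (nat_lit 400) (nat_lit 266)))) (XT.nd (nat_lit 78) (nat_lit 456) (nat_lit 0) (XT.lf (nat_lit 0) (nat_lit 6390943517) (nat_lit 532) (nat_lit 510235903) (nat_lit 608) (nat_lit 7272287539) (nat_lit 230) (nat_lit 5) (nat_lit 237) (nat_lit 5) (nat_lit 238) (nat_lit 5) (nat_lit 475) (nat_lit 400) (nat_lit 265)) (XT.nd (nat_lit 78) (nat_lit 0) (nat_lit 0) (XT.lf (nat_lit 0) (nat_lit 1254766005) (nat_lit 456) (nat_lit 9209696872) (nat_lit 532) (nat_lit 3871117687)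 (nat_lit 224) (nat_lit 5) (nat_lit 230) (nat_lit 5) (nat_lit 231) (nat_lit 5) (nat_lit 476) (nat_lit 400) (nat_lit 264)) (XT.lf (nat_lit 0) (nat_lit 10553363022) (nat_lit 456) (nat_lit 3586392762) (nat_lit 532) (nat_lit 360365780) (nat_lit 224) (nat_lit 5) (nat_lit 230) (nat_lit 5) (nat_lit 231) (nat_lit 5) (nat_lit 477) (nat_lit 400) (nat_lit 263))))))) (XT.nd (nat_lit 780) (nat_lit 2660) (nat_lit 0) (XT.nd (nat_lit 390) (nat_lit 1672) (nat_lit 0) (XT.nd (nat_lit 156) (nat_lit 532) (nat_lit 0) (XT.nd (nat_lit 78) (nat_lit 456) (nat_lit 0) (XT.lf (nat_lit 0) (nat_lit 3213053061) (nat_lit 532) (nat_lit 9282819202) (nat_lit 76) (nat_lit 2170969105) (nat_lit 217) (nat_lit 5) (nat_lit 224) (nat_lit 5) (nat_lit 218) (nat_lit 5) (nat_lit 478) (nat_lit 400) (nat_lit 262)) (XT.lf (nat_lit 0) (nat_lit 71792688) (nat_lit 456) (nat_lit 6817667534) (nat_lit 532) (nat_lit 7946660799) (nat_lit 211) (nat_lit 5) (nat_lit 217) (nat_lit 5) (nat_lit 218)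 (nat_lit 5) (nat_lit 479) (nat_lit 400) (nat_lit 261))) (XT.nd (nat_lit 78) (nat_lit 532) (nat_lit 0) (XT.lf (nat_lit 0) (nat_lit 9718080600) (nat_lit 456) (nat_lit 969218046) (nat_lit 532) (nat_lit 4320529560) (nat_lit 211) (nat_lit 5) (nat_lit 217) (nat_lit 5) (nat_lit 218) (nat_lit 5) (nat_lit 480) (nat_lit 400) (nat_lit 260)) (XT.nd (nat_lit 78) (nat_lit 76) (nat_lit 0) (XT.lf (nat_lit 0) (nat_lit 4378238314) (nat_lit 456) (nat_lit 10229569607) (nat_lit 532) (nat_lit 574227330) (nat_lit 205) (nat_lit 5) (nat_lit 211) (nat_lit 5) (nat_lit 212) (nat_lit 5) (nat_lit 481) (nat_lit 400) (nat_lit 259)) (XT.lf (nat_lit 0) (nat_lit 3232464482) (nat_lit 532) (nat_lit 1096582004) (nat_lit 76) (nat_lit 11029697348) (nat_lit 204) (nat_lit 5) (nat_lit 211) (nat_lit 5) (nat_lit 205) (nat_lit 5) (nat_lit 482) (nat_lit 400) (nat_lit 258))))) (XT.nd (nat_lit 156) (nat_lit 836) (nat_lit 0) (XT.nd (nat_lit 78) (nat_lit 456) (nat_lit 0) (XT.lf (nat_lit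 0) (nat_lit 7162880020) (nat_lit 456) (nat_lit 6652408400) (nat_lit 76) (nat_lit 1722516680) (nat_lit 199) (nat_lit 5) (nat_lit 205) (nat_lit 5) (nat_lit 200) (nat_lit 5) (nat_lit 483) (nat_lit 400) (nat_lit 257)) (XT.lf (nat_lit 0) (nat_lit 3356079934) (nat_lit 456) (nat_lit 7859957597) (nat_lit 532) (nat_lit 4503527388) (nat_lit 193) (nat_lit 5) (nat_lit 199) (nat_lit 5) (nat_lit 200) (nat_lit 5) (nat_lit 484) (nat_lit 400) (nat_lit 256))) (XT.nd (nat_lit 78) (nat_lit 836) (nat_lit 0) (XT.lf (nat_lit 0) (nat_lit 13634253240) (nat_lit 456) (nat_lit 1747048453) (nat_lit 532) (nat_lit 523037369) (nat_lit 193) (nat_lit 5) (nat_lit 199) (nat_lit 5) (nat_lit 200) (nat_lit 5) (nat_lit 485) (nat_lit 400) (nat_lit 255)) (XT.nd (nat_lit 78) (nat_lit 380) (nat_lit 0) (XT.lf (nat_lit 0) (nat_lit 3559359798) (nat_lit 456) (nat_lit 8033304811) (nat_lit 76) (nat_lit 4498311050) (nat_lit 187) (nat_lit 5) (nat_lit 193) (nat_lit 5) (nat_lit 188) (nat_lit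 5) (nat_lit 486) (nat_lit 400) (nat_lit 254)) (XT.lf (nat_lit 0) (nat_lit 2336706715) (nat_lit 380) (nat_lit 5408443419) (nat_lit 456) (nat_lit 8535550734) (nat_lit 182) (nat_lit 5) (nat_lit 187) (nat_lit 5) (nat_lit 188) (nat_lit 5) (nat_lit 487) (nat_lit 400) (nat_lit 253)))))) (XT.nd (nat_lit 390) (nat_lit 1520) (nat_lit 0) (XT.nd (nat_lit 156) (nat_lit 760) (nat_lit 0) (XT.nd (nat_lit 78) (nat_lit 380) (nat_lit 0) (XT.lf (nat_lit 0) (nat_lit 12061509861) (nat_lit 456) (nat_lit 3476928777) (nat_lit 76) (nat_lit 934844872) (nat_lit 182) (nat_lit 5) (nat_lit 188) (nat_lit 5) (nat_lit 183) (nat_lit 5) (nat_lit 488) (nat_lit 400) (nat_lit 252)) (XT.lf (nat_lit 0) (nat_lit 7238395738) (nat_lit 380) (nat_lit 9295623808) (nat_lit 456) (nat_lit 134301803) (nat_lit 177) (nat_lit 5) (nat_lit 182) (nat_lit 5) (nat_lit 183) (nat_lit 5) (nat_lit 489) (nat_lit 400) (nat_lit 251))) (XT.nd (nat_lit 78) (nat_lit 304) (nat_lit 0) (XT.lf (nat_lit 0)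 (nat_lit 1317800375) (nat_lit 380) (nat_lit 2874549299) (nat_lit 456) (nat_lit 12673979346) (nat_lit 171) (nat_lit 5) (nat_lit 176) (nat_lit 5) (nat_lit 177) (nat_lit 5) (nat_lit 490) (nat_lit 400) (nat_lit 250)) (XT.nd (nat_lit 78) (nat_lit 304) (nat_lit 0) (XT.lf (nat_lit 0) (nat_lit 8678420827) (nat_lit 456) (nat_lit 4704206892) (nat_lit 76) (nat_lit 3684157671) (nat_lit 171) (nat_lit 5) (nat_lit 177) (nat_lit 5) (nat_lit 172) (nat_lit 5) (nat_lit 491) (nat_lit 400) (nat_lit 249)) (XT.lf (nat_lit 0) (nat_lit 6402013428) (nat_lit 304) (nat_lit 6900179547) (nat_lit 380) (nat_lit 3968098322) (nat_lit 167) (nat_lit 5) (nat_lit 171) (nat_lit 5) (nat_lit 172) (nat_lit 5) (nat_lit 492) (nat_lit 400) (nat_lit 248))))) (XT.nd (nat_lit 234) (nat_lit 760) (nat_lit 0) (XT.nd (nat_lit 78) (nat_lit 304) (nat_lit 0) (XT.lf (nat_lit 0) (nat_lit 297115927) (nat_lit 380) (nat_lit 257486397) (nat_lit 456) (nat_lit 16922772426) (nat_lit 161) (nat_lit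 5) (nat_lit 166) (nat_lit 5) (nat_lit 167) (nat_lit 5) (nat_lit 493) (nat_lit 400) (nat_lit 247)) (XT.nd (nat_lit 78) (nat_lit 304) (nat_lit 0) (XT.lf (nat_lit 0) (nat_lit 5217891604) (nat_lit 456) (nat_lit 5943103959) (nat_lit 76) (nat_lit 6525014378) (nat_lit 161) (nat_lit 5) (nat_lit 167) (nat_lit 5) (nat_lit 162) (nat_lit 5) (nat_lit 494) (nat_lit 400) (nat_lit 246)) (XT.lf (nat_lit 0) (nat_lit 5570518390) (nat_lit 304) (nat_lit 4429529769) (nat_lit 380) (nat_lit 7898257647) (nat_lit 157) (nat_lit 5) (nat_lit 161) (nat_lit 5) (nat_lit 162) (nat_lit 5) (nat_lit 495) (nat_lit 400) (nat_lit 245)))) (XT.nd (nat_lit 78) (nat_lit 760) (nat_lit 0) (XT.lf (nat_lit 0) (nat_lit 14921608233) (nat_lit 380) (nat_lit 754855439) (nat_lit 76) (nat_lit 2437508709) (nat_lit 157) (nat_lit 5) (nat_lit 162) (nat_lit 5) (nat_lit 158) (nat_lit 5) (nat_lit 496) (nat_lit 400) (nat_lit 244)) (XT.nd (nat_lit 78) (nat_lit 304) (nat_lit 0) (XT.lf (nat_lit 0)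 (nat_lit 1676900314) (nat_lit 456) (nat_lit 7196101967) (nat_lit 76) (nat_lit 9458934494) (nat_lit 151) (nat_lit 5) (nat_lit 157) (nat_lit 5) (nat_lit 152) (nat_lit 5) (nat_lit 497) (nat_lit 400) (nat_lit 243)) (XT.lf (nat_lit 0) (nat_lit 4742089831) (nat_lit 304) (nat_lit 1882708247) (nat_lit 380) (nat_lit 11928560473) (nat_lit 147) (nat_lit 5) (nat_lit 151) (nat_lit 5) (nat_lit 152) (nat_lit 5) (nat_lit 498) (nat_lit 400) (nat_lit 242))))))))
noncomputable def xc160 : XT := (XT.nd (nat_lit 52962) (nat_lit 0) (nat_lit 23484) (XT.nd (nat_lit 52182) (nat_lit 0) (nat_lit 37620) (XT.nd (nat_lit 51792) (nat_lit 0) (nat_lit 40052) (XT.nd (nat_lit 156) (nat_lit 380) (nat_lit 0) (XT.nd (nat_lit 78) (nat_lit 304) (nat_lit 0) (XT.lf (nat_lit 0) (nat_lit 11742460054) (nat_lit 380) (nat_lit 1815443554) (nat_lit 76) (nat_lit 5219889030) (nat_lit 147) (nat_lit 5) (nat_lit 152) (nat_lit 5) (nat_lit 148) (nat_lit 5) (nat_lit 499) (nat_lit 400) (nat_lit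 241)) (XT.lf (nat_lit 0) (nat_lit 10526870312) (nat_lit 304) (nat_lit 6504780723) (nat_lit 380) (nat_lit 1973680855) (nat_lit 143) (nat_lit 5) (nat_lit 147) (nat_lit 5) (nat_lit 148) (nat_lit 5) (nat_lit 500) (nat_lit 400) (nat_lit 240))) (XT.nd (nat_lit 78) (nat_lit 0) (nat_lit 0) (XT.lf (nat_lit 0) (nat_lit 3178262443) (nat_lit 380) (nat_lit 15326331910) (nat_lit 76) (nat_lit 731795737) (nat_lit 138) (nat_lit 5) (nat_lit 143) (nat_lit 5) (nat_lit 139) (nat_lit 5) (nat_lit 501) (nat_lit 400) (nat_lit 239)) (XT.nd (nat_lit 51480) (nat_lit 0) (nat_lit 41344) (XT.lf (nat_lit 0) (nat_lit 8495637325) (nat_lit 380) (nat_lit 2885288091) (nat_lit 76) (nat_lit 8089106710) (nat_lit 138) (nat_lit 5) (nat_lit 143) (nat_lit 5) (nat_lit 139) (nat_lit 5) (nat_lit 502) (nat_lit 400) (nat_lit 238)) (XT.lf (nat_lit 0) (nat_lit 1521761644) (nat_lit 0) (nat_lit 1521761644) (nat_lit 1140) (nat_lit 595781777) (nat_lit 682) (nat_lit 5) (nat_lit 682) (nat_lit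 3) (nat_lit 697) (nat_lit 3) (nat_lit 401) (nat_lit 401) (nat_lit 338))))) (XT.nd (nat_lit 156) (nat_lit 0) (nat_lit 76) (XT.nd (nat_lit 78) (nat_lit 0) (nat_lit 76) (XT.lf (nat_lit 0) (nat_lit 423006339) (nat_lit 1292) (nat_lit 587967992) (nat_lit 1292) (nat_lit 6308364143) (nat_lit 665) (nat_lit 3) (nat_lit 682) (nat_lit 3) (nat_lit 682) (nat_lit 5) (nat_lit 402) (nat_lit 401) (nat_lit 337)) (XT.lf (nat_lit 0) (nat_lit 2039308954) (nat_lit 1216) (nat_lit 4224491226) (nat_lit 1292) (nat_lit 1097215752) (nat_lit 666) (nat_lit 5) (nat_lit 682) (nat_lit 5) (nat_lit 683) (nat_lit 5) (nat_lit 403) (nat_lit 401) (nat_lit 336))) (XT.nd (nat_lit 78) (nat_lit 0) (nat_lit 0) (XT.lf (nat_lit 0) (nat_lit 3657175531) (nat_lit 1216) (nat_lit 489059462) (nat_lit 1292) (nat_lit 3257907188) (nat_lit 666) (nat_lit 5) (nat_lit 682) (nat_lit 5) (nat_lit 683) (nat_lit 5) (nat_lit 404) (nat_lit 401) (nat_lit 335)) (XT.nd (nat_lit 78) (nat_lit 0) (nat_lit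 76) (XT.lf (nat_lit 76) (nat_lit 3342996078) (nat_lit 0) (nat_lit 1945491654) (nat_lit 1292) (nat_lit 2160021458) (nat_lit 667) (nat_lit 5) (nat_lit 666) (nat_lit 5) (nat_lit 683) (nat_lit 5) (nat_lit 405) (nat_lit 401) (nat_lit 334)) (XT.lf (nat_lit 0) (nat_lit 6917829122) (nat_lit 1216) (nat_lit 260042451) (nat_lit 1292) (nat_lit 316583907) (nat_lit 667) (nat_lit 5) (nat_lit 683) (nat_lit 5) (nat_lit 684) (nat_lit 5) (nat_lit 406) (nat_lit 401) (nat_lit 333)))))) (XT.nd (nat_lit 390) (nat_lit 1292) (nat_lit 0) (XT.nd (nat_lit 156) (nat_lit 0) (nat_lit 0) (XT.nd (nat_lit 78) (nat_lit 0) (nat_lit 0) (XT.lf (nat_lit 0) (nat_lit 1022486789) (nat_lit 1292) (nat_lit 3872693480) (nat_lit 1368) (nat_lit 2646052193) (nat_lit 650) (nat_lit 5) (nat_lit 667) (nat_lit 5) (nat_lit 668) (nat_lit 5) (nat_lit 407) (nat_lit 401) (nat_lit 332)) (XT.lf (nat_lit 76) (nat_lit 64700684) (nat_lit 0) (nat_lit 2544649746) (nat_lit 1368) (nat_lit 4980248539)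 (nat_lit 651) (nat_lit 5) (nat_lit 650) (nat_lit 5) (nat_lit 668) (nat_lit 5) (nat_lit 408) (nat_lit 401) (nat_lit 331))) (XT.nd (nat_lit 78) (nat_lit 0) (nat_lit 76) (XT.lf (nat_lit 76) (nat_lit 4110862449) (nat_lit 0) (nat_lit 104994879) (nat_lit 1368) (nat_lit 3423317359) (nat_lit 651) (nat_lit 5) (nat_lit 650) (nat_lit 5) (nat_lit 668) (nat_lit 5) (nat_lit 409) (nat_lit 401) (nat_lit 330)) (XT.nd (nat_lit 78) (nat_lit 0) (nat_lit 0) (XT.lf (nat_lit 76) (nat_lit 516625198) (nat_lit 0) (nat_lit 5319462611) (nat_lit 1368) (nat_lit 1854022241) (nat_lit 652) (nat_lit 5) (nat_lit 651) (nat_lit 5) (nat_lit 669) (nat_lit 5) (nat_lit 410) (nat_lit 401) (nat_lit 329)) (XT.lf (nat_lit 76) (nat_lit 4666853543) (nat_lit 0) (nat_lit 2809583690) (nat_lit 1368) (nat_lit 265872601) (nat_lit 652) (nat_lit 5) (nat_lit 651) (nat_lit 5) (nat_lit 669) (nat_lit 5) (nat_lit 411) (nat_lit 401) (nat_lit 328))))) (XT.nd (nat_lit 156) (nat_lit 0) (nat_lit 76)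 (XT.nd (nat_lit 78) (nat_lit 0) (nat_lit 76) (XT.lf (nat_lit 76) (nat_lit 1087235311) (nat_lit 0) (nat_lit 219932754) (nat_lit 1444) (nat_lit 6488791991) (nat_lit 634) (nat_lit 5) (nat_lit 633) (nat_lit 5) (nat_lit 652) (nat_lit 5) (nat_lit 412) (nat_lit 401) (nat_lit 327)) (XT.lf (nat_lit 0) (nat_lit 2909083759) (nat_lit 1368) (nat_lit 2516432924) (nat_lit 1444) (nat_lit 2425111966) (nat_lit 634) (nat_lit 5) (nat_lit 652) (nat_lit 5) (nat_lit 653) (nat_lit 5) (nat_lit 413) (nat_lit 401) (nat_lit 326))) (XT.nd (nat_lit 78) (nat_lit 0) (nat_lit 0) (XT.lf (nat_lit 76) (nat_lit 1758356158) (nat_lit 0) (nat_lit 2762725371) (nat_lit 1444) (nat_lit 3385748211) (nat_lit 635) (nat_lit 5) (nat_lit 634) (nat_lit 5) (nat_lit 653) (nat_lit 5) (nat_lit 414) (nat_lit 401) (nat_lit 325)) (XT.nd (nat_lit 78) (nat_lit 0) (nat_lit 76) (XT.lf (nat_lit 76) (nat_lit 6129949719) (nat_lit 0) (nat_lit 17961843) (nat_lit 1444) (nat_lit 1816591444) (nat_lit 635)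 (nat_lit 5) (nat_lit 634) (nat_lit 5) (nat_lit 653) (nat_lit 5) (nat_lit 415) (nat_lit 401) (nat_lit 324)) (XT.lf (nat_lit 76) (nat_lit 2558033155) (nat_lit 0) (nat_lit 5250365417) (nat_lit 1444) (nat_lit 214908758) (nat_lit 636) (nat_lit 5) (nat_lit 635) (nat_lit 5) (nat_lit 654) (nat_lit 5) (nat_lit 416) (nat_lit 401) (nat_lit 323))))))) (XT.nd (nat_lit 780) (nat_lit 10032) (nat_lit 0) (XT.nd (nat_lit 390) (nat_lit 2812) (nat_lit 0) (XT.nd (nat_lit 156) (nat_lit 0) (nat_lit 76) (XT.nd (nat_lit 78) (nat_lit 0) (nat_lit 76) (XT.lf (nat_lit 0) (nat_lit 1379452281) (nat_lit 1444) (nat_lit 1052505379) (nat_lit 1520) (nat_lit 5651560791) (nat_lit 616) (nat_lit 5) (nat_lit 635) (nat_lit 5) (nat_lit 636) (nat_lit 5) (nat_lit 417) (nat_lit 401) (nat_lit 322)) (XT.lf (nat_lit 0) (nat_lit 2995842940) (nat_lit 1444) (nat_lit 4678534594) (nat_lit 1520) (nat_lit 470667448) (nat_lit 617) (nat_lit 5) (nat_lit 636) (nat_lit 5) (nat_lit 637) (nat_lit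 5) (nat_lit 418) (nat_lit 401) (nat_lit 321))) (XT.nd (nat_lit 78) (nat_lit 0) (nat_lit 0) (XT.lf (nat_lit 0) (nat_lit 4635722216) (nat_lit 1444) (nat_lit 157123889) (nat_lit 1520) (nat_lit 3415132724) (nat_lit 617) (nat_lit 5) (nat_lit 636) (nat_lit 5) (nat_lit 637) (nat_lit 5) (nat_lit 419) (nat_lit 401) (nat_lit 320)) (XT.nd (nat_lit 78) (nat_lit 0) (nat_lit 76) (XT.lf (nat_lit 76) (nat_lit 4490586241) (nat_lit 0) (nat_lit 1815542704) (nat_lit 1520) (nat_lit 1966087810) (nat_lit 618) (nat_lit 5) (nat_lit 617) (nat_lit 5) (nat_lit 637) (nat_lit 5) (nat_lit 420) (nat_lit 401) (nat_lit 319)) (XT.lf (nat_lit 76) (nat_lit 875666252) (nat_lit 0) (nat_lit 7118048063) (nat_lit 1520) (nat_lit 344349714) (nat_lit 619) (nat_lit 5) (nat_lit 618) (nat_lit 5) (nat_lit 638) (nat_lit 5) (nat_lit 421) (nat_lit 401) (nat_lit 318))))) (XT.nd (nat_lit 156) (nat_lit 1444) (nat_lit 0) (XT.nd (nat_lit 78) (nat_lit 0) (nat_lit 0) (XT.lf (nat_lit 0) (nat_lit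 1299559500) (nat_lit 1520) (nat_lit 2771842826) (nat_lit 1596) (nat_lit 4333517540) (nat_lit 598) (nat_lit 5) (nat_lit 618) (nat_lit 5) (nat_lit 619) (nat_lit 5) (nat_lit 422) (nat_lit 401) (nat_lit 317)) (XT.lf (nat_lit 76) (nat_lit 2013318082) (nat_lit 0) (nat_lit 941441799) (nat_lit 1596) (nat_lit 5518646939) (nat_lit 599) (nat_lit 5) (nat_lit 598) (nat_lit 5) (nat_lit 619) (nat_lit 5) (nat_lit 423) (nat_lit 401) (nat_lit 316))) (XT.nd (nat_lit 78) (nat_lit 1520) (nat_lit 0) (XT.lf (nat_lit 0) (nat_lit 4646832026) (nat_lit 1520) (nat_lit 1649685456) (nat_lit 76) (nat_lit 2246670676) (nat_lit 599) (nat_lit 5) (nat_lit 619) (nat_lit 5) (nat_lit 600) (nat_lit 5) (nat_lit 424) (nat_lit 401) (nat_lit 315)) (XT.nd (nat_lit 78) (nat_lit 0) (nat_lit 0) (XT.lf (nat_lit 0) (nat_lit 3270237510) (nat_lit 1520) (nat_lit 3100983504) (nat_lit 1596) (nat_lit 2243174601) (nat_lit 579) (nat_lit 5) (nat_lit 599) (nat_lit 5) (nat_lit 600) (nat_lit 5)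 (nat_lit 425) (nat_lit 401) (nat_lit 314)) (XT.lf (nat_lit 0) (nat_lit 8113731184) (nat_lit 1596) (nat_lit 400783388) (nat_lit 76) (nat_lit 172839980) (nat_lit 579) (nat_lit 5) (nat_lit 600) (nat_lit 5) (nat_lit 580) (nat_lit 5) (nat_lit 426) (nat_lit 401) (nat_lit 313)))))) (XT.nd (nat_lit 390) (nat_lit 4940) (nat_lit 0) (XT.nd (nat_lit 156) (nat_lit 1748) (nat_lit 0) (XT.nd (nat_lit 78) (nat_lit 1672) (nat_lit 0) (XT.lf (nat_lit 0) (nat_lit 1137462910) (nat_lit 1672) (nat_lit 4110107484) (nat_lit 76) (nat_lit 3513596524) (nat_lit 557) (nat_lit 5) (nat_lit 579) (nat_lit 5) (nat_lit 558) (nat_lit 5) (nat_lit 427) (nat_lit 401) (nat_lit 312)) (XT.lf (nat_lit 0) (nat_lit 958174920) (nat_lit 1672) (nat_lit 1898086811) (nat_lit 1748) (nat_lit 5980494535) (nat_lit 535) (nat_lit 5) (nat_lit 557) (nat_lit 5) (nat_lit 558) (nat_lit 5) (nat_lit 428) (nat_lit 401) (nat_lit 311))) (XT.nd (nat_lit 78) (nat_lit 1748) (nat_lit 0) (XT.lf (nat_lit 0)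 (nat_lit 4619712984) (nat_lit 1748) (nat_lit 2763773792) (nat_lit 76) (nat_lit 1530165095) (nat_lit 535) (nat_lit 5) (nat_lit 558) (nat_lit 5) (nat_lit 536) (nat_lit 5) (nat_lit 429) (nat_lit 401) (nat_lit 310)) (XT.nd (nat_lit 78) (nat_lit 0) (nat_lit 0) (XT.lf (nat_lit 0) (nat_lit 2449390324) (nat_lit 1748) (nat_lit 3970706744) (nat_lit 1824) (nat_lit 2571955044) (nat_lit 512) (nat_lit 5) (nat_lit 535) (nat_lit 5) (nat_lit 536) (nat_lit 5) (nat_lit 430) (nat_lit 401) (nat_lit 309)) (XT.lf (nat_lit 0) (nat_lit 7780942298) (nat_lit 1748) (nat_lit 467657685) (nat_lit 1824) (nat_lit 823578153) (nat_lit 512) (nat_lit 5) (nat_lit 535) (nat_lit 5) (nat_lit 536) (nat_lit 5) (nat_lit 431) (nat_lit 401) (nat_lit 308))))) (XT.nd (nat_lit 234) (nat_lit 1900) (nat_lit 0) (XT.nd (nat_lit 78) (nat_lit 1140) (nat_lit 0) (XT.lf (nat_lit 0) (nat_lit 968039618) (nat_lit 1900) (nat_lit 5084779008) (nat_lit 76) (nat_lit 3100546208) (nat_lit 487) (nat_lit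 5) (nat_lit 512) (nat_lit 5) (nat_lit 488) (nat_lit 5) (nat_lit 432) (nat_lit 401) (nat_lit 307)) (XT.nd (nat_lit 78) (nat_lit 0) (nat_lit 0) (XT.lf (nat_lit 0) (nat_lit 288675296) (nat_lit 1140) (nat_lit 2483781050) (nat_lit 1216) (nat_lit 6463850156) (nat_lit 472) (nat_lit 5) (nat_lit 487) (nat_lit 5) (nat_lit 488) (nat_lit 5) (nat_lit 433) (nat_lit 401) (nat_lit 306)) (XT.lf (nat_lit 0) (nat_lit 4629473207) (nat_lit 1216) (nat_lit 3513407330) (nat_lit 76) (nat_lit 1177696231) (nat_lit 472) (nat_lit 5) (nat_lit 488) (nat_lit 5) (nat_lit 473) (nat_lit 5) (nat_lit 434) (nat_lit 401) (nat_lit 305)))) (XT.nd (nat_lit 78) (nat_lit 988) (nat_lit 0) (XT.lf (nat_lit 0) (nat_lit 2015990917) (nat_lit 912) (nat_lit 4512329114) (nat_lit 988) (nat_lit 2878118615) (nat_lit 460) (nat_lit 5) (nat_lit 472) (nat_lit 5) (nat_lit 473) (nat_lit 5) (nat_lit 435) (nat_lit 401) (nat_lit 304)) (XT.nd (nat_lit 78) (nat_lit 988) (nat_lit 0) (XT.lf (nat_lit 0)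 (nat_lit 7680255596) (nat_lit 912) (nat_lit 783952246) (nat_lit 988) (nat_lit 1029828640) (nat_lit 460) (nat_lit 5) (nat_lit 472) (nat_lit 5) (nat_lit 473) (nat_lit 5) (nat_lit 436) (nat_lit 401) (nat_lit 303)) (XT.lf (nat_lit 0) (nat_lit 865129142) (nat_lit 988) (nat_lit 5706303397) (nat_lit 76) (nat_lit 3011424234) (nat_lit 447) (nat_lit 5) (nat_lit 460) (nat_lit 5) (nat_lit 448) (nat_lit 5) (nat_lit 437) (nat_lit 401) (nat_lit 302))))))))
noncomputable def xc161 : XT := (XT.nd (nat_lit 1560) (nat_lit 7524) (nat_lit 0) (XT.nd (nat_lit 780) (nat_lit 4408) (nat_lit 0) (XT.nd (nat_lit 390) (nat_lit 2432) (nat_lit 0) (XT.nd (nat_lit 156) (nat_lit 1824) (nat_lit 0) (XT.nd (nat_lit 78) (nat_lit 836) (nat_lit 0) (XT.lf (nat_lit 0) (nat_lit 2777791941) (nat_lit 988) (nat_lit 3562129) (nat_lit 76) (nat_lit 6892091349) (nat_lit 447) (nat_lit 5) (nat_lit 460) (nat_lit 5) (nat_lit 448) (nat_lit 5) (nat_lit 438) (nat_lit 401) (nat_lit 301)) (XT.lf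 (nat_lit 0) (nat_lit 4750703383) (nat_lit 912) (nat_lit 3905744264) (nat_lit 76) (nat_lit 1108958285) (nat_lit 436) (nat_lit 5) (nat_lit 448) (nat_lit 5) (nat_lit 437) (nat_lit 5) (nat_lit 439) (nat_lit 401) (nat_lit 300))) (XT.nd (nat_lit 78) (nat_lit 912) (nat_lit 0) (XT.lf (nat_lit 0) (nat_lit 1964954487) (nat_lit 912) (nat_lit 4806237320) (nat_lit 988) (nat_lit 3087851473) (nat_lit 424) (nat_lit 5) (nat_lit 436) (nat_lit 5) (nat_lit 437) (nat_lit 5) (nat_lit 440) (nat_lit 401) (nat_lit 299)) (XT.nd (nat_lit 78) (nat_lit 912) (nat_lit 0) (XT.lf (nat_lit 0) (nat_lit 7982774909) (nat_lit 912) (nat_lit 852743767) (nat_lit 988) (nat_lit 1118966124) (nat_lit 424) (nat_lit 5) (nat_lit 436) (nat_lit 5) (nat_lit 437) (nat_lit 5) (nat_lit 441) (nat_lit 401) (nat_lit 298)) (XT.lf (nat_lit 0) (nat_lit 902588072) (nat_lit 912) (nat_lit 5978536806) (nat_lit 76) (nat_lit 3170095708) (nat_lit 412) (nat_lit 5) (nat_lit 424) (nat_lit 5) (nat_lit 413)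 (nat_lit 5) (nat_lit 442) (nat_lit 401) (nat_lit 297))))) (XT.nd (nat_lit 156) (nat_lit 1596) (nat_lit 0) (XT.nd (nat_lit 78) (nat_lit 0) (nat_lit 0) (XT.lf (nat_lit 0) (nat_lit 79598500) (nat_lit 836) (nat_lit 2867293894) (nat_lit 912) (nat_lit 7202904726) (nat_lit 401) (nat_lit 5) (nat_lit 412) (nat_lit 5) (nat_lit 413) (nat_lit 5) (nat_lit 443) (nat_lit 401) (nat_lit 296)) (XT.lf (nat_lit 0) (nat_lit 5058513980) (nat_lit 912) (nat_lit 3941478714) (nat_lit 76) (nat_lit 1249823865) (nat_lit 401) (nat_lit 5) (nat_lit 413) (nat_lit 5) (nat_lit 402) (nat_lit 5) (nat_lit 444) (nat_lit 401) (nat_lit 295))) (XT.nd (nat_lit 78) (nat_lit 836) (nat_lit 0) (XT.lf (nat_lit 0) (nat_lit 2297784224) (nat_lit 760) (nat_lit 4927002069) (nat_lit 836) (nat_lit 3126801729) (nat_lit 391) (nat_lit 5) (nat_lit 401) (nat_lit 5) (nat_lit 402) (nat_lit 5) (nat_lit 445) (nat_lit 401) (nat_lit 294)) (XT.nd (nat_lit 78) (nat_lit 836) (nat_lit 0) (XT.lf (nat_lit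 0) (nat_lit 8692234178) (nat_lit 760) (nat_lit 747381984) (nat_lit 836) (nat_lit 1015674112) (nat_lit 391) (nat_lit 5) (nat_lit 401) (nat_lit 5) (nat_lit 402) (nat_lit 5) (nat_lit 446) (nat_lit 401) (nat_lit 293)) (XT.lf (nat_lit 0) (nat_lit 1155297470) (nat_lit 836) (nat_lit 5899086326) (nat_lit 76) (nat_lit 3505884197) (nat_lit 380) (nat_lit 5) (nat_lit 391) (nat_lit 5) (nat_lit 381) (nat_lit 5) (nat_lit 447) (nat_lit 401) (nat_lit 292)))))) (XT.nd (nat_lit 390) (nat_lit 2128) (nat_lit 0) (XT.nd (nat_lit 156) (nat_lit 1520) (nat_lit 0) (XT.nd (nat_lit 78) (nat_lit 0) (nat_lit 0) (XT.lf (nat_lit 0) (nat_lit 542958188) (nat_lit 760) (nat_lit 2812838303) (nat_lit 836) (nat_lit 7311420347) (nat_lit 370) (nat_lit 5) (nat_lit 380) (nat_lit 5) (nat_lit 381) (nat_lit 5) (nat_lit 448) (nat_lit 401) (nat_lit 291)) (XT.lf (nat_lit 0) (nat_lit 5629531813) (nat_lit 836) (nat_lit 3615137850) (nat_lit 76) (nat_lit 1531050469) (nat_lit 370) (nat_lit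 5) (nat_lit 381) (nat_lit 5) (nat_lit 371) (nat_lit 5) (nat_lit 449) (nat_lit 401) (nat_lit 290))) (XT.nd (nat_lit 78) (nat_lit 760) (nat_lit 0) (XT.lf (nat_lit 0) (nat_lit 3022289760) (nat_lit 760) (nat_lit 4944655108) (nat_lit 836) (nat_lit 2919084564) (nat_lit 360) (nat_lit 5) (nat_lit 370) (nat_lit 5) (nat_lit 371) (nat_lit 5) (nat_lit 450) (nat_lit 401) (nat_lit 289)) (XT.nd (nat_lit 78) (nat_lit 760) (nat_lit 0) (XT.lf (nat_lit 0) (nat_lit 9818735219) (nat_lit 760) (nat_lit 536828177) (nat_lit 836) (nat_lit 642892379) (nat_lit 360) (nat_lit 5) (nat_lit 370) (nat_lit 5) (nat_lit 371) (nat_lit 5) (nat_lit 451) (nat_lit 401) (nat_lit 288)) (XT.lf (nat_lit 0) (nat_lit 1700137241) (nat_lit 760) (nat_lit 5459556987) (nat_lit 76) (nat_lit 3952351781) (nat_lit 350) (nat_lit 5) (nat_lit 360) (nat_lit 5) (nat_lit 351) (nat_lit 5) (nat_lit 452) (nat_lit 401) (nat_lit 287))))) (XT.nd (nat_lit 156) (nat_lit 1444) (nat_lit 0) (XT.nd (nat_lit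 78) (nat_lit 0) (nat_lit 0) (XT.lf (nat_lit 0) (nat_lit 1397278482) (nat_lit 684) (nat_lit 2685419968) (nat_lit 760) (nat_lit 7145099022) (nat_lit 341) (nat_lit 5) (nat_lit 350) (nat_lit 5) (nat_lit 351) (nat_lit 5) (nat_lit 453) (nat_lit 401) (nat_lit 286)) (XT.lf (nat_lit 0) (nat_lit 6542869730) (nat_lit 760) (nat_lit 2915288522) (nat_lit 76) (nat_lit 1887106534) (nat_lit 341) (nat_lit 5) (nat_lit 351) (nat_lit 5) (nat_lit 342) (nat_lit 5) (nat_lit 454) (nat_lit 401) (nat_lit 285))) (XT.nd (nat_lit 78) (nat_lit 760) (nat_lit 0) (XT.lf (nat_lit 0) (nat_lit 4152396622) (nat_lit 684) (nat_lit 4925851274) (nat_lit 760) (nat_lit 2386313482) (nat_lit 332) (nat_lit 5) (nat_lit 341) (nat_lit 5) (nat_lit 342) (nat_lit 5) (nat_lit 455) (nat_lit 401) (nat_lit 284)) (XT.nd (nat_lit 78) (nat_lit 684) (nat_lit 0) (XT.lf (nat_lit 0) (nat_lit 78116891) (nat_lit 760) (nat_lit 208160901) (nat_lit 76) (nat_lit 11299934943) (nat_lit 331) (nat_lit 5) (nat_lit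 341) (nat_lit 5) (nat_lit 332) (nat_lit 5) (nat_lit 456) (nat_lit 401) (nat_lit 283)) (XT.lf (nat_lit 0) (nat_lit 2616940630) (nat_lit 760) (nat_lit 4645712671) (nat_lit 76) (nat_lit 4446187198) (nat_lit 322) (nat_lit 5) (nat_lit 332) (nat_lit 5) (nat_lit 323) (nat_lit 5) (nat_lit 457) (nat_lit 401) (nat_lit 282))))))) (XT.nd (nat_lit 780) (nat_lit 3800) (nat_lit 0) (XT.nd (nat_lit 390) (nat_lit 1824) (nat_lit 0) (XT.nd (nat_lit 156) (nat_lit 1292) (nat_lit 0) (XT.nd (nat_lit 78) (nat_lit 0) (nat_lit 0) (XT.lf (nat_lit 0) (nat_lit 2659373638) (nat_lit 608) (nat_lit 2549649269) (nat_lit 684) (nat_lit 6624848270) (nat_lit 314) (nat_lit 5) (nat_lit 322) (nat_lit 5) (nat_lit 323) (nat_lit 5) (nat_lit 458) (nat_lit 401) (nat_lit 281)) (XT.lf (nat_lit 0) (nat_lit 7881082163) (nat_lit 684) (nat_lit 1824660467) (nat_lit 76) (nat_lit 2255097131) (nat_lit 314) (nat_lit 5) (nat_lit 323) (nat_lit 5) (nat_lit 315) (nat_lit 5) (nat_lit 459) (nat_lit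 401) (nat_lit 280))) (XT.nd (nat_lit 78) (nat_lit 684) (nat_lit 0) (XT.lf (nat_lit 0) (nat_lit 5708039786) (nat_lit 608) (nat_lit 4934935122) (nat_lit 684) (nat_lit 1446644963) (nat_lit 306) (nat_lit 5) (nat_lit 314) (nat_lit 5) (nat_lit 315) (nat_lit 5) (nat_lit 460) (nat_lit 401) (nat_lit 279)) (XT.nd (nat_lit 78) (nat_lit 0) (nat_lit 0) (XT.lf (nat_lit 0) (nat_lit 1180556884) (nat_lit 608) (nat_lit 44845593) (nat_lit 684) (nat_lit 10995361722) (nat_lit 297) (nat_lit 5) (nat_lit 305) (nat_lit 5) (nat_lit 306) (nat_lit 5) (nat_lit 461) (nat_lit 401) (nat_lit 278)) (XT.lf (nat_lit 0) (nat_lit 3989441030) (nat_lit 684) (nat_lit 3437557252) (nat_lit 76) (nat_lit 4926183470) (nat_lit 297) (nat_lit 5) (nat_lit 306) (nat_lit 5) (nat_lit 298) (nat_lit 5) (nat_lit 462) (nat_lit 401) (nat_lit 277))))) (XT.nd (nat_lit 156) (nat_lit 1216) (nat_lit 0) (XT.nd (nat_lit 78) (nat_lit 0) (nat_lit 0) (XT.lf (nat_lit 0) (nat_lit 4351999268) (nat_lit 608)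 (nat_lit 2468355060) (nat_lit 684) (nat_lit 5667661449) (nat_lit 289) (nat_lit 5) (nat_lit 297) (nat_lit 5) (nat_lit 298) (nat_lit 5) (nat_lit 463) (nat_lit 401) (nat_lit 276)) (XT.lf (nat_lit 0) (nat_lit 9731118442) (nat_lit 684) (nat_lit 320191831) (nat_lit 76) (nat_lit 2573771558) (nat_lit 289) (nat_lit 5) (nat_lit 298) (nat_lit 5) (nat_lit 290) (nat_lit 5) (nat_lit 464) (nat_lit 401) (nat_lit 275))) (XT.nd (nat_lit 78) (nat_lit 684) (nat_lit 0) (XT.lf (nat_lit 0) (nat_lit 7715135704) (nat_lit 532) (nat_lit 5034929521) (nat_lit 608) (nat_lit 13824635) (nat_lit 282) (nat_lit 5) (nat_lit 289) (nat_lit 5) (nat_lit 290) (nat_lit 5) (nat_lit 465) (nat_lit 401) (nat_lit 274)) (XT.nd (nat_lit 78) (nat_lit 0) (nat_lit 0) (XT.lf (nat_lit 0) (nat_lit 2891637390) (nat_lit 684) (nat_lit 9896939927) (nat_lit 76) (nat_lit 116395687) (nat_lit 273) (nat_lit 5) (nat_lit 282) (nat_lit 5) (nat_lit 274) (nat_lit 5) (nat_lit 466) (nat_lit 401) (nat_lit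 273)) (XT.lf (nat_lit 0) (nat_lit 5906222589) (nat_lit 684) (nat_lit 1809341013) (nat_lit 76) (nat_lit 5332288400) (nat_lit 273) (nat_lit 5) (nat_lit 282) (nat_lit 5) (nat_lit 274) (nat_lit 5) (nat_lit 467) (nat_lit 401) (nat_lit 272)))))) (XT.nd (nat_lit 390) (nat_lit 1596) (nat_lit 0) (XT.nd (nat_lit 156) (nat_lit 1140) (nat_lit 0) (XT.nd (nat_lit 78) (nat_lit 532) (nat_lit 0) (XT.lf (nat_lit 0) (nat_lit 6503863909) (nat_lit 532) (nat_lit 2503532392) (nat_lit 608) (nat_lit 4185666343) (nat_lit 266) (nat_lit 5) (nat_lit 273) (nat_lit 5) (nat_lit 274) (nat_lit 5) (nat_lit 468) (nat_lit 401) (nat_lit 271)) (XT.lf (nat_lit 0) (nat_lit 1648620394) (nat_lit 532) (nat_lit 10547368676) (nat_lit 608) (nat_lit 1144680518) (nat_lit 259) (nat_lit 5) (nat_lit 266) (nat_lit 5) (nat_lit 267) (nat_lit 5) (nat_lit 469) (nat_lit 401) (nat_lit 270))) (XT.nd (nat_lit 78) (nat_lit 1064) (nat_lit 0) (XT.lf (nat_lit 0) (nat_lit 1977496401) (nat_lit 608) (nat_lit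 3297695389) (nat_lit 76) (nat_lit 8214861953) (nat_lit 258) (nat_lit 5) (nat_lit 266) (nat_lit 5) (nat_lit 259) (nat_lit 5) (nat_lit 470) (nat_lit 401) (nat_lit 269)) (XT.nd (nat_lit 78) (nat_lit 532) (nat_lit 0) (XT.lf (nat_lit 0) (nat_lit 5166737978) (nat_lit 608) (nat_lit 8337479808) (nat_lit 76) (nat_lit 137657500) (nat_lit 251) (nat_lit 5) (nat_lit 259) (nat_lit 5) (nat_lit 252) (nat_lit 5) (nat_lit 471) (nat_lit 401) (nat_lit 268)) (XT.lf (nat_lit 0) (nat_lit 274098549) (nat_lit 532) (nat_lit 8189366616) (nat_lit 608) (nat_lit 5332394080) (nat_lit 244) (nat_lit 5) (nat_lit 251) (nat_lit 5) (nat_lit 252) (nat_lit 5) (nat_lit 472) (nat_lit 401) (nat_lit 267))))) (XT.nd (nat_lit 234) (nat_lit 1064) (nat_lit 0) (XT.nd (nat_lit 78) (nat_lit 532) (nat_lit 0) (XT.lf (nat_lit 0) (nat_lit 9149712368) (nat_lit 532) (nat_lit 2717235760) (nat_lit 608) (nat_lit 2085158331) (nat_lit 244) (nat_lit 5) (nat_lit 251) (nat_lit 5) (nat_lit 252) (nat_lit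 5) (nat_lit 473) (nat_lit 401) (nat_lit 266)) (XT.nd (nat_lit 78) (nat_lit 0) (nat_lit 0) (XT.lf (nat_lit 0) (nat_lit 1241514122) (nat_lit 532) (nat_lit 10013485863) (nat_lit 76) (nat_lit 2855707606) (nat_lit 237) (nat_lit 5) (nat_lit 244) (nat_lit 5) (nat_lit 238) (nat_lit 5) (nat_lit 474) (nat_lit 401) (nat_lit 265)) (XT.lf (nat_lit 0) (nat_lit 4642449364) (nat_lit 532) (nat_lit 1085039094) (nat_lit 76) (nat_lit 8544003638) (nat_lit 237) (nat_lit 5) (nat_lit 244) (nat_lit 5) (nat_lit 238) (nat_lit 5) (nat_lit 475) (nat_lit 401) (nat_lit 264)))) (XT.nd (nat_lit 78) (nat_lit 532) (nat_lit 0) (XT.lf (nat_lit 0) (nat_lit 8107610252) (nat_lit 532) (nat_lit 41912019) (nat_lit 608) (nat_lit 6285207642) (nat_lit 230) (nat_lit 5) (nat_lit 237) (nat_lit 5) (nat_lit 238) (nat_lit 5) (nat_lit 476) (nat_lit 401) (nat_lit 263)) (XT.nd (nat_lit 78) (nat_lit 76) (nat_lit 0) (XT.lf (nat_lit 0) (nat_lit 2877230049) (nat_lit 456) (nat_lit 8898487565)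 (nat_lit 532) (nat_lit 2824535252) (nat_lit 224) (nat_lit 5) (nat_lit 230) (nat_lit 5) (nat_lit 231) (nat_lit 5) (nat_lit 477) (nat_lit 401) (nat_lit 262)) (XT.lf (nat_lit 0) (nat_lit 724760694) (nat_lit 532) (nat_lit 2442806941) (nat_lit 76) (nat_lit 11600853831) (nat_lit 223) (nat_lit 5) (nat_lit 230) (nat_lit 5) (nat_lit 224) (nat_lit 5) (nat_lit 478) (nat_lit 401) (nat_lit 261))))))))
noncomputable def xc162 : XT := (XT.nd (nat_lit 1560) (nat_lit 988) (nat_lit 0) (XT.nd (nat_lit 780) (nat_lit 2356) (nat_lit 0) (XT.nd (nat_lit 390) (nat_lit 1292) (nat_lit 0) (XT.nd (nat_lit 156) (nat_lit 912) (nat_lit 0) (XT.nd (nat_lit 78) (nat_lit 456) (nat_lit 0) (XT.lf (nat_lit 0) (nat_lit 4356903036) (nat_lit 532) (nat_lit 7880051253) (nat_lit 76) (nat_lit 2701632127) (nat_lit 217) (nat_lit 5) (nat_lit 224) (nat_lit 5) (nat_lit 218) (nat_lit 5) (nat_lit 479) (nat_lit 401) (nat_lit 260)) (XT.lf (nat_lit 0) (nat_lit 1651202715) (nat_lit 456) (nat_lit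 6444712471) (nat_lit 532) (nat_lit 7015554940) (nat_lit 211) (nat_lit 5) (nat_lit 217) (nat_lit 5) (nat_lit 218) (nat_lit 5) (nat_lit 480) (nat_lit 401) (nat_lit 259))) (XT.nd (nat_lit 78) (nat_lit 912) (nat_lit 0) (XT.lf (nat_lit 0) (nat_lit 11459475715) (nat_lit 456) (nat_lit 489280432) (nat_lit 532) (nat_lit 3338274392) (nat_lit 211) (nat_lit 5) (nat_lit 217) (nat_lit 5) (nat_lit 218) (nat_lit 5) (nat_lit 481) (nat_lit 401) (nat_lit 258)) (XT.nd (nat_lit 78) (nat_lit 380) (nat_lit 0) (XT.lf (nat_lit 0) (nat_lit 469299221) (nat_lit 532) (nat_lit 9447700167) (nat_lit 76) (nat_lit 5547806038) (nat_lit 204) (nat_lit 5) (nat_lit 211) (nat_lit 5) (nat_lit 205) (nat_lit 5) (nat_lit 482) (nat_lit 401) (nat_lit 257)) (XT.lf (nat_lit 0) (nat_lit 424673554) (nat_lit 380) (nat_lit 3901990991) (nat_lit 456) (nat_lit 11318663150) (nat_lit 199) (nat_lit 5) (nat_lit 204) (nat_lit 5) (nat_lit 205) (nat_lit 5) (nat_lit 483) (nat_lit 401) (nat_lit 256)))))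 (XT.nd (nat_lit 156) (nat_lit 836) (nat_lit 0) (XT.nd (nat_lit 78) (nat_lit 456) (nat_lit 0) (XT.lf (nat_lit 0) (nat_lit 8326032736) (nat_lit 456) (nat_lit 5240940642) (nat_lit 76) (nat_lit 2261189922) (nat_lit 199) (nat_lit 5) (nat_lit 205) (nat_lit 5) (nat_lit 200) (nat_lit 5) (nat_lit 484) (nat_lit 401) (nat_lit 255)) (XT.lf (nat_lit 0) (nat_lit 4957556169) (nat_lit 456) (nat_lit 7492661332) (nat_lit 532) (nat_lit 3563541531) (nat_lit 193) (nat_lit 5) (nat_lit 199) (nat_lit 5) (nat_lit 200) (nat_lit 5) (nat_lit 485) (nat_lit 401) (nat_lit 254))) (XT.nd (nat_lit 78) (nat_lit 760) (nat_lit 0) (XT.lf (nat_lit 0) (nat_lit 470113541) (nat_lit 532) (nat_lit 794509979) (nat_lit 76) (nat_lit 14937939306) (nat_lit 192) (nat_lit 5) (nat_lit 199) (nat_lit 5) (nat_lit 193) (nat_lit 5) (nat_lit 486) (nat_lit 401) (nat_lit 253)) (XT.nd (nat_lit 78) (nat_lit 380) (nat_lit 0) (XT.lf (nat_lit 0) (nat_lit 4620788676) (nat_lit 456) (nat_lit 6670084119)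 (nat_lit 76) (nat_lit 5102117544) (nat_lit 187) (nat_lit 5) (nat_lit 193) (nat_lit 5) (nat_lit 188) (nat_lit 5) (nat_lit 487) (nat_lit 401) (nat_lit 252)) (XT.lf (nat_lit 0) (nat_lit 3897302068) (nat_lit 380) (nat_lit 4983405240) (nat_lit 456) (nat_lit 7705994495) (nat_lit 182) (nat_lit 5) (nat_lit 187) (nat_lit 5) (nat_lit 188) (nat_lit 5) (nat_lit 488) (nat_lit 401) (nat_lit 251)))))) (XT.nd (nat_lit 390) (nat_lit 1216) (nat_lit 0) (XT.nd (nat_lit 156) (nat_lit 684) (nat_lit 0) (XT.nd (nat_lit 78) (nat_lit 456) (nat_lit 0) (XT.lf (nat_lit 0) (nat_lit 13267559768) (nat_lit 456) (nat_lit 2046455228) (nat_lit 76) (nat_lit 1469437790) (nat_lit 182) (nat_lit 5) (nat_lit 188) (nat_lit 5) (nat_lit 183) (nat_lit 5) (nat_lit 489) (nat_lit 401) (nat_lit 250)) (XT.lf (nat_lit 0) (nat_lit 826713780) (nat_lit 456) (nat_lit 8114707872) (nat_lit 76) (nat_lit 8041045813) (nat_lit 176) (nat_lit 5) (nat_lit 182) (nat_lit 5) (nat_lit 177) (nat_lit 5)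 (nat_lit 490) (nat_lit 401) (nat_lit 249))) (XT.nd (nat_lit 78) (nat_lit 304) (nat_lit 0) (XT.lf (nat_lit 0) (nat_lit 2837195541) (nat_lit 380) (nat_lit 2391739044) (nat_lit 456) (nat_lit 11955666257) (nat_lit 171) (nat_lit 5) (nat_lit 176) (nat_lit 5) (nat_lit 177) (nat_lit 5) (nat_lit 491) (nat_lit 401) (nat_lit 248)) (XT.nd (nat_lit 78) (nat_lit 304) (nat_lit 0) (XT.lf (nat_lit 0) (nat_lit 9789485236) (nat_lit 456) (nat_lit 3319285223) (nat_lit 76) (nat_lit 4280600720) (nat_lit 171) (nat_lit 5) (nat_lit 177) (nat_lit 5) (nat_lit 172) (nat_lit 5) (nat_lit 492) (nat_lit 401) (nat_lit 247)) (XT.lf (nat_lit 0) (nat_lit 7999329202) (nat_lit 304) (nat_lit 6497560861) (nat_lit 380) (nat_lit 3100233995) (nat_lit 167) (nat_lit 5) (nat_lit 171) (nat_lit 5) (nat_lit 172) (nat_lit 5) (nat_lit 493) (nat_lit 401) (nat_lit 246))))) (XT.nd (nat_lit 156) (nat_lit 760) (nat_lit 0) (XT.nd (nat_lit 78) (nat_lit 0) (nat_lit 0) (XT.lf (nat_lit 0) (nat_lit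 1493564292) (nat_lit 456) (nat_lit 16035232121) (nat_lit 76) (nat_lit 279568435) (nat_lit 161) (nat_lit 5) (nat_lit 167) (nat_lit 5) (nat_lit 162) (nat_lit 5) (nat_lit 494) (nat_lit 401) (nat_lit 245)) (XT.lf (nat_lit 0) (nat_lit 6233597601) (nat_lit 456) (nat_lit 4604194792) (nat_lit 76) (nat_lit 7183710784) (nat_lit 161) (nat_lit 5) (nat_lit 167) (nat_lit 5) (nat_lit 162) (nat_lit 5) (nat_lit 495) (nat_lit 401) (nat_lit 244))) (XT.nd (nat_lit 78) (nat_lit 456) (nat_lit 0) (XT.lf (nat_lit 0) (nat_lit 7130109404) (nat_lit 304) (nat_lit 3972820860) (nat_lit 380) (nat_lit 7135284035) (nat_lit 157) (nat_lit 5) (nat_lit 161) (nat_lit 5) (nat_lit 162) (nat_lit 5) (nat_lit 496) (nat_lit 401) (nat_lit 243)) (XT.nd (nat_lit 78) (nat_lit 76) (nat_lit 0) (XT.lf (nat_lit 0) (nat_lit 672889998) (nat_lit 380) (nat_lit 15440167863) (nat_lit 456) (nat_lit 2345333618) (nat_lit 152) (nat_lit 5) (nat_lit 157) (nat_lit 5) (nat_lit 158) (nat_lit 5) (nat_lit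 497) (nat_lit 401) (nat_lit 242)) (XT.lf (nat_lit 0) (nat_lit 2596742742) (nat_lit 456) (nat_lit 5903662339) (nat_lit 76) (nat_lit 10180444340) (nat_lit 151) (nat_lit 5) (nat_lit 157) (nat_lit 5) (nat_lit 152) (nat_lit 5) (nat_lit 498) (nat_lit 401) (nat_lit 241))))))) (XT.nd (nat_lit 52260) (nat_lit 0) (nat_lit 36252) (XT.nd (nat_lit 51870) (nat_lit 0) (nat_lit 38836) (XT.nd (nat_lit 156) (nat_lit 684) (nat_lit 0) (XT.nd (nat_lit 78) (nat_lit 0) (nat_lit 0) (XT.lf (nat_lit 0) (nat_lit 6263843547) (nat_lit 304) (nat_lit 1371640855) (nat_lit 380) (nat_lit 11271377513) (nat_lit 147) (nat_lit 5) (nat_lit 151) (nat_lit 5) (nat_lit 152) (nat_lit 5) (nat_lit 499) (nat_lit 401) (nat_lit 240)) (XT.lf (nat_lit 0) (nat_lit 12841773007) (nat_lit 380) (nat_lit 439092560) (nat_lit 76) (nat_lit 5855193649) (nat_lit 147) (nat_lit 5) (nat_lit 152) (nat_lit 5) (nat_lit 148) (nat_lit 5) (nat_lit 500) (nat_lit 401) (nat_lit 239))) (XT.nd (nat_lit 78) (nat_lit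 380) (nat_lit 0) (XT.lf (nat_lit 0) (nat_lit 12140773769) (nat_lit 304) (nat_lit 6088135353) (nat_lit 380) (nat_lit 1139396906) (nat_lit 143) (nat_lit 5) (nat_lit 147) (nat_lit 5) (nat_lit 148) (nat_lit 5) (nat_lit 501) (nat_lit 401) (nat_lit 238)) (XT.nd (nat_lit 51558) (nat_lit 0) (nat_lit 40052) (XT.lf (nat_lit 0) (nat_lit 4099920986) (nat_lit 380) (nat_lit 14213828225) (nat_lit 76) (nat_lit 1290206815) (nat_lit 138) (nat_lit 5) (nat_lit 143) (nat_lit 5) (nat_lit 139) (nat_lit 5) (nat_lit 502) (nat_lit 401) (nat_lit 237)) (XT.lf (nat_lit 0) (nat_lit 1000516588) (nat_lit 1292) (nat_lit 1339824305) (nat_lit 1292) (nat_lit 1339824305) (nat_lit 665) (nat_lit 3) (nat_lit 682) (nat_lit 3) (nat_lit 682) (nat_lit 5) (nat_lit 402) (nat_lit 402) (nat_lit 336))))) (XT.nd (nat_lit 156) (nat_lit 1216) (nat_lit 0) (XT.nd (nat_lit 78) (nat_lit 0) (nat_lit 0) (XT.lf (nat_lit 76) (nat_lit 1013812927) (nat_lit 0) (nat_lit 2561969102) (nat_lit 1292)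 (nat_lit 3827056903) (nat_lit 666) (nat_lit 5) (nat_lit 665) (nat_lit 3) (nat_lit 682) (nat_lit 5) (nat_lit 403) (nat_lit 402) (nat_lit 335)) (XT.lf (nat_lit 76) (nat_lit 4796481374) (nat_lit 0) (nat_lit 362781391) (nat_lit 1292) (nat_lit 2287390133) (nat_lit 666) (nat_lit 5) (nat_lit 665) (nat_lit 3) (nat_lit 682) (nat_lit 5) (nat_lit 404) (nat_lit 402) (nat_lit 334))) (XT.nd (nat_lit 78) (nat_lit 1292) (nat_lit 0) (XT.lf (nat_lit 76) (nat_lit 1144766245) (nat_lit 0) (nat_lit 5609467943) (nat_lit 1292) (nat_lit 737512535) (nat_lit 667) (nat_lit 5) (nat_lit 666) (nat_lit 5) (nat_lit 683) (nat_lit 5) (nat_lit 405) (nat_lit 402) (nat_lit 333)) (XT.nd (nat_lit 78) (nat_lit 0) (nat_lit 0) (XT.lf (nat_lit 0) (nat_lit 813168522) (nat_lit 1292) (nat_lit 2515737711) (nat_lit 1368) (nat_lit 4209109342) (nat_lit 649) (nat_lit 5) (nat_lit 666) (nat_lit 5) (nat_lit 667) (nat_lit 5) (nat_lit 406) (nat_lit 402) (nat_lit 332)) (XT.lf (nat_lit 76) (nat_lit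 1383943904) (nat_lit 0) (nat_lit 971374416) (nat_lit 1368) (nat_lit 5230387375) (nat_lit 650) (nat_lit 5) (nat_lit 649) (nat_lit 5) (nat_lit 667) (nat_lit 5) (nat_lit 407) (nat_lit 402) (nat_lit 331)))))) (XT.nd (nat_lit 390) (nat_lit 1368) (nat_lit 0) (XT.nd (nat_lit 156) (nat_lit 1292) (nat_lit 0) (XT.nd (nat_lit 78) (nat_lit 0) (nat_lit 0) (XT.lf (nat_lit 0) (nat_lit 3916674927) (nat_lit 1292) (nat_lit 2269890020) (nat_lit 1368) (nat_lit 1448017397) (nat_lit 650) (nat_lit 5) (nat_lit 667) (nat_lit 5) (nat_lit 668) (nat_lit 5) (nat_lit 408) (nat_lit 402) (nat_lit 330)) (XT.lf (nat_lit 76) (nat_lit 1735197702) (nat_lit 0) (nat_lit 3754567899) (nat_lit 1368) (nat_lit 2195060784) (nat_lit 651) (nat_lit 5) (nat_lit 650) (nat_lit 5) (nat_lit 668) (nat_lit 5) (nat_lit 409) (nat_lit 402) (nat_lit 329))) (XT.nd (nat_lit 78) (nat_lit 1292) (nat_lit 0) (XT.lf (nat_lit 76) (nat_lit 5829553232) (nat_lit 0) (nat_lit 1243393951) (nat_lit 1368) (nat_lit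 663555543) (nat_lit 651) (nat_lit 5) (nat_lit 650) (nat_lit 5) (nat_lit 668) (nat_lit 5) (nat_lit 410) (nat_lit 402) (nat_lit 328)) (XT.nd (nat_lit 78) (nat_lit 0) (nat_lit 0) (XT.lf (nat_lit 0) (nat_lit 873858937) (nat_lit 1368) (nat_lit 5580134032) (nat_lit 1444) (nat_lit 1335361659) (nat_lit 633) (nat_lit 5) (nat_lit 651) (nat_lit 5) (nat_lit 652) (nat_lit 5) (nat_lit 411) (nat_lit 402) (nat_lit 327)) (XT.lf (nat_lit 0) (nat_lit 2418797508) (nat_lit 1368) (nat_lit 1444477000) (nat_lit 1444) (nat_lit 3980188121) (nat_lit 633) (nat_lit 5) (nat_lit 651) (nat_lit 5) (nat_lit 652) (nat_lit 5) (nat_lit 412) (nat_lit 402) (nat_lit 326))))) (XT.nd (nat_lit 234) (nat_lit 1368) (nat_lit 0) (XT.nd (nat_lit 78) (nat_lit 0) (nat_lit 76) (XT.lf (nat_lit 76) (nat_lit 2788584481) (nat_lit 0) (nat_lit 1189387792) (nat_lit 1444) (nat_lit 3921013767) (nat_lit 634) (nat_lit 5) (nat_lit 633) (nat_lit 5) (nat_lit 652) (nat_lit 5) (nat_lit 413) (nat_lit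 402) (nat_lit 325)) (XT.nd (nat_lit 78) (nat_lit 0) (nat_lit 0) (XT.lf (nat_lit 0) (nat_lit 5553927258) (nat_lit 1368) (nat_lit 862091518) (nat_lit 1444) (nat_lit 1539889210) (nat_lit 634) (nat_lit 5) (nat_lit 652) (nat_lit 5) (nat_lit 653) (nat_lit 5) (nat_lit 414) (nat_lit 402) (nat_lit 324)) (XT.lf (nat_lit 76) (nat_lit 3486978412) (nat_lit 0) (nat_lit 3671462746) (nat_lit 1444) (nat_lit 855586416) (nat_lit 635) (nat_lit 5) (nat_lit 634) (nat_lit 5) (nat_lit 653) (nat_lit 5) (nat_lit 415) (nat_lit 402) (nat_lit 323)))) (XT.nd (nat_lit 78) (nat_lit 0) (nat_lit 76) (XT.lf (nat_lit 0) (nat_lit 684912597) (nat_lit 1444) (nat_lit 165560268) (nat_lit 1520) (nat_lit 7223290119) (nat_lit 615) (nat_lit 5) (nat_lit 634) (nat_lit 5) (nat_lit 635) (nat_lit 5) (nat_lit 416) (nat_lit 402) (nat_lit 322)) (XT.nd (nat_lit 78) (nat_lit 0) (nat_lit 0) (XT.lf (nat_lit 0) (nat_lit 2253694954) (nat_lit 1444) (nat_lit 3835995245) (nat_lit 1520) (nat_lit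 2044711203) (nat_lit 616) (nat_lit 5) (nat_lit 635) (nat_lit 5) (nat_lit 636) (nat_lit 5) (nat_lit 417) (nat_lit 402) (nat_lit 321)) (XT.lf (nat_lit 76) (nat_lit 637910011) (nat_lit 0) (nat_lit 3194868099) (nat_lit 1520) (nat_lit 4363895974) (nat_lit 617) (nat_lit 5) (nat_lit 616) (nat_lit 5) (nat_lit 636) (nat_lit 5) (nat_lit 418) (nat_lit 402) (nat_lit 320))))))))
noncomputable def xc163 : XT := (XT.nd (nat_lit 1638) (nat_lit 9272) (nat_lit 0) (XT.nd (nat_lit 780) (nat_lit 9196) (nat_lit 0) (XT.nd (nat_lit 390) (nat_lit 3040) (nat_lit 0) (XT.nd (nat_lit 156) (nat_lit 1444) (nat_lit 0) (XT.nd (nat_lit 78) (nat_lit 0) (nat_lit 76) (XT.lf (nat_lit 76) (nat_lit 5230956785) (nat_lit 0) (nat_lit 206742282) (nat_lit 1520) (nat_lit 2822608030) (nat_lit 617) (nat_lit 5) (nat_lit 616) (nat_lit 5) (nat_lit 636) (nat_lit 5) (nat_lit 419) (nat_lit 402) (nat_lit 319)) (XT.lf (nat_lit 76) (nat_lit 1570226734) (nat_lit 0) (nat_lit 5502323468) (nat_lit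 1520) (nat_lit 1252705933) (nat_lit 618) (nat_lit 5) (nat_lit 617) (nat_lit 5) (nat_lit 637) (nat_lit 5) (nat_lit 420) (nat_lit 402) (nat_lit 318))) (XT.nd (nat_lit 78) (nat_lit 0) (nat_lit 76) (XT.lf (nat_lit 0) (nat_lit 335302367) (nat_lit 1520) (nat_lit 2114835418) (nat_lit 1596) (nat_lit 5941495501) (nat_lit 597) (nat_lit 5) (nat_lit 617) (nat_lit 5) (nat_lit 618) (nat_lit 5) (nat_lit 421) (nat_lit 402) (nat_lit 317)) (XT.nd (nat_lit 78) (nat_lit 0) (nat_lit 0) (XT.lf (nat_lit 0) (nat_lit 1929904554) (nat_lit 1520) (nat_lit 5842082118) (nat_lit 1596) (nat_lit 687353552) (nat_lit 598) (nat_lit 5) (nat_lit 618) (nat_lit 5) (nat_lit 619) (nat_lit 5) (nat_lit 422) (nat_lit 402) (nat_lit 316)) (XT.lf (nat_lit 0) (nat_lit 3557447485) (nat_lit 1520) (nat_lit 1094649140) (nat_lit 1596) (nat_lit 3876283702) (nat_lit 598) (nat_lit 5) (nat_lit 618) (nat_lit 5) (nat_lit 619) (nat_lit 5) (nat_lit 423) (nat_lit 402) (nat_lit 315))))) (XT.nd (nat_lit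 156) (nat_lit 1672) (nat_lit 0) (XT.nd (nat_lit 78) (nat_lit 1444) (nat_lit 0) (XT.lf (nat_lit 76) (nat_lit 3774816101) (nat_lit 0) (nat_lit 1438348468) (nat_lit 1596) (nat_lit 3385724198) (nat_lit 599) (nat_lit 5) (nat_lit 598) (nat_lit 5) (nat_lit 619) (nat_lit 5) (nat_lit 424) (nat_lit 402) (nat_lit 314)) (XT.lf (nat_lit 0) (nat_lit 51647063) (nat_lit 1520) (nat_lit 6841599569) (nat_lit 1596) (nat_lit 1777735730) (nat_lit 579) (nat_lit 5) (nat_lit 599) (nat_lit 5) (nat_lit 600) (nat_lit 5) (nat_lit 425) (nat_lit 402) (nat_lit 313))) (XT.nd (nat_lit 78) (nat_lit 1672) (nat_lit 0) (XT.lf (nat_lit 0) (nat_lit 5057885544) (nat_lit 1520) (nat_lit 3562865991) (nat_lit 1596) (nat_lit 123489869) (nat_lit 579) (nat_lit 5) (nat_lit 599) (nat_lit 5) (nat_lit 600) (nat_lit 5) (nat_lit 426) (nat_lit 402) (nat_lit 312)) (XT.nd (nat_lit 78) (nat_lit 0) (nat_lit 0) (XT.lf (nat_lit 0) (nat_lit 1329914987) (nat_lit 1596) (nat_lit 194404273) (nat_lit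 1672) (nat_lit 7294823531) (nat_lit 557) (nat_lit 5) (nat_lit 578) (nat_lit 5) (nat_lit 579) (nat_lit 5) (nat_lit 427) (nat_lit 402) (nat_lit 311)) (XT.lf (nat_lit 0) (nat_lit 3222159753) (nat_lit 1672) (nat_lit 2443677310) (nat_lit 76) (nat_lit 3229314241) (nat_lit 557) (nat_lit 5) (nat_lit 579) (nat_lit 5) (nat_lit 558) (nat_lit 5) (nat_lit 428) (nat_lit 402) (nat_lit 310)))))) (XT.nd (nat_lit 390) (nat_lit 3876) (nat_lit 0) (XT.nd (nat_lit 156) (nat_lit 3648) (nat_lit 0) (XT.nd (nat_lit 78) (nat_lit 0) (nat_lit 0) (XT.lf (nat_lit 0) (nat_lit 2714466582) (nat_lit 1672) (nat_lit 2231716213) (nat_lit 1748) (nat_lit 4026652680) (nat_lit 535) (nat_lit 5) (nat_lit 557) (nat_lit 5) (nat_lit 558) (nat_lit 5) (nat_lit 429) (nat_lit 402) (nat_lit 309)) (XT.lf (nat_lit 0) (nat_lit 6703162301) (nat_lit 1748) (nat_lit 1074241669) (nat_lit 76) (nat_lit 1274699837) (nat_lit 535) (nat_lit 5) (nat_lit 558) (nat_lit 5) (nat_lit 536) (nat_lit 5) (nat_lit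 430) (nat_lit 402) (nat_lit 308))) (XT.nd (nat_lit 78) (nat_lit 1900) (nat_lit 0) (XT.lf (nat_lit 0) (nat_lit 4231706732) (nat_lit 1748) (nat_lit 4280060958) (nat_lit 1824) (nat_lit 620860090) (nat_lit 512) (nat_lit 5) (nat_lit 535) (nat_lit 5) (nat_lit 536) (nat_lit 5) (nat_lit 431) (nat_lit 402) (nat_lit 307)) (XT.nd (nat_lit 78) (nat_lit 0) (nat_lit 0) (XT.lf (nat_lit 0) (nat_lit 418978976) (nat_lit 1824) (nat_lit 692229058) (nat_lit 1900) (nat_lit 8103717940) (nat_lit 487) (nat_lit 5) (nat_lit 511) (nat_lit 5) (nat_lit 512) (nat_lit 5) (nat_lit 432) (nat_lit 402) (nat_lit 306)) (XT.lf (nat_lit 0) (nat_lit 2896778120) (nat_lit 1900) (nat_lit 3433241851) (nat_lit 76) (nat_lit 2968224604) (nat_lit 487) (nat_lit 5) (nat_lit 512) (nat_lit 5) (nat_lit 488) (nat_lit 5) (nat_lit 433) (nat_lit 402) (nat_lit 305))))) (XT.nd (nat_lit 234) (nat_lit 1824) (nat_lit 0) (XT.nd (nat_lit 78) (nat_lit 912) (nat_lit 0) (XT.lf (nat_lit 0) (nat_lit 2036147113)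 (nat_lit 1140) (nat_lit 2675005552) (nat_lit 1216) (nat_lit 4672215023) (nat_lit 472) (nat_lit 5) (nat_lit 487) (nat_lit 5) (nat_lit 488) (nat_lit 5) (nat_lit 434) (nat_lit 402) (nat_lit 304)) (XT.nd (nat_lit 78) (nat_lit 912) (nat_lit 0) (XT.lf (nat_lit 0) (nat_lit 6567482439) (nat_lit 1216) (nat_lit 1838300688) (nat_lit 76) (nat_lit 1064296780) (nat_lit 472) (nat_lit 5) (nat_lit 488) (nat_lit 5) (nat_lit 473) (nat_lit 5) (nat_lit 435) (nat_lit 402) (nat_lit 303)) (XT.lf (nat_lit 0) (nat_lit 3790202795) (nat_lit 912) (nat_lit 4689176281) (nat_lit 988) (nat_lit 1078778491) (nat_lit 460) (nat_lit 5) (nat_lit 472) (nat_lit 5) (nat_lit 473) (nat_lit 5) (nat_lit 436) (nat_lit 402) (nat_lit 302)))) (XT.nd (nat_lit 78) (nat_lit 1748) (nat_lit 0) (XT.lf (nat_lit 0) (nat_lit 759967857) (nat_lit 988) (nat_lit 119466182) (nat_lit 76) (nat_lit 8768687242) (nat_lit 459) (nat_lit 5) (nat_lit 472) (nat_lit 5) (nat_lit 460) (nat_lit 5) (nat_lit 437)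 (nat_lit 402) (nat_lit 301)) (XT.nd (nat_lit 78) (nat_lit 836) (nat_lit 0) (XT.lf (nat_lit 0) (nat_lit 2654548671) (nat_lit 988) (nat_lit 4072159592) (nat_lit 76) (nat_lit 3012363305) (nat_lit 447) (nat_lit 5) (nat_lit 460) (nat_lit 5) (nat_lit 448) (nat_lit 5) (nat_lit 438) (nat_lit 402) (nat_lit 300)) (XT.lf (nat_lit 0) (nat_lit 1733086439) (nat_lit 836) (nat_lit 2848883244) (nat_lit 912) (nat_lit 5249972207) (nat_lit 436) (nat_lit 5) (nat_lit 447) (nat_lit 5) (nat_lit 448) (nat_lit 5) (nat_lit 439) (nat_lit 402) (nat_lit 299))))))) (XT.nd (nat_lit 780) (nat_lit 4256) (nat_lit 0) (XT.nd (nat_lit 390) (nat_lit 2356) (nat_lit 0) (XT.nd (nat_lit 156) (nat_lit 1748) (nat_lit 0) (XT.nd (nat_lit 78) (nat_lit 912) (nat_lit 0) (XT.lf (nat_lit 0) (nat_lit 6560000479) (nat_lit 912) (nat_lit 2246782550) (nat_lit 76) (nat_lit 1119645361) (nat_lit 436) (nat_lit 5) (nat_lit 448) (nat_lit 5) (nat_lit 437) (nat_lit 5) (nat_lit 440) (nat_lit 402) (nat_lit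 298)) (XT.lf (nat_lit 0) (nat_lit 3729902040) (nat_lit 912) (nat_lit 4868587292) (nat_lit 988) (nat_lit 1423897339) (nat_lit 424) (nat_lit 5) (nat_lit 436) (nat_lit 5) (nat_lit 437) (nat_lit 5) (nat_lit 441) (nat_lit 402) (nat_lit 297))) (XT.nd (nat_lit 78) (nat_lit 1672) (nat_lit 0) (XT.lf (nat_lit 0) (nat_lit 543307965) (nat_lit 988) (nat_lit 289732271) (nat_lit 76) (nat_lit 9287288779) (nat_lit 423) (nat_lit 5) (nat_lit 436) (nat_lit 5) (nat_lit 424) (nat_lit 5) (nat_lit 442) (nat_lit 402) (nat_lit 296)) (XT.nd (nat_lit 78) (nat_lit 836) (nat_lit 0) (XT.lf (nat_lit 0) (nat_lit 2568995912) (nat_lit 912) (nat_lit 4362777712) (nat_lit 76) (nat_lit 3287504252) (nat_lit 412) (nat_lit 5) (nat_lit 424) (nat_lit 5) (nat_lit 413) (nat_lit 5) (nat_lit 443) (nat_lit 402) (nat_lit 295)) (XT.lf (nat_lit 0) (nat_lit 1805103656) (nat_lit 836) (nat_lit 2827954744) (nat_lit 912) (nat_lit 5687190098) (nat_lit 401) (nat_lit 5) (nat_lit 412) (nat_lit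 5) (nat_lit 413) (nat_lit 5) (nat_lit 444) (nat_lit 402) (nat_lit 294))))) (XT.nd (nat_lit 156) (nat_lit 1596) (nat_lit 0) (XT.nd (nat_lit 78) (nat_lit 760) (nat_lit 0) (XT.lf (nat_lit 0) (nat_lit 6755621419) (nat_lit 912) (nat_lit 2298906321) (nat_lit 76) (nat_lit 1368366407) (nat_lit 401) (nat_lit 5) (nat_lit 413) (nat_lit 5) (nat_lit 402) (nat_lit 5) (nat_lit 445) (nat_lit 402) (nat_lit 293)) (XT.lf (nat_lit 0) (nat_lit 4053816863) (nat_lit 760) (nat_lit 4891212384) (nat_lit 836) (nat_lit 1582075592) (nat_lit 391) (nat_lit 5) (nat_lit 401) (nat_lit 5) (nat_lit 402) (nat_lit 5) (nat_lit 446) (nat_lit 402) (nat_lit 292))) (XT.nd (nat_lit 78) (nat_lit 1520) (nat_lit 0) (XT.lf (nat_lit 0) (nat_lit 532680588) (nat_lit 836) (nat_lit 94378658) (nat_lit 76) (nat_lit 10006369739) (nat_lit 390) (nat_lit 5) (nat_lit 401) (nat_lit 5) (nat_lit 391) (nat_lit 5) (nat_lit 447) (nat_lit 402) (nat_lit 291)) (XT.nd (nat_lit 78) (nat_lit 760) (nat_lit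 0) (XT.lf (nat_lit 0) (nat_lit 2714916797) (nat_lit 836) (nat_lit 4301288170) (nat_lit 76) (nat_lit 3724538119) (nat_lit 380) (nat_lit 5) (nat_lit 391) (nat_lit 5) (nat_lit 381) (nat_lit 5) (nat_lit 448) (nat_lit 402) (nat_lit 290)) (XT.lf (nat_lit 0) (nat_lit 2258309209) (nat_lit 760) (nat_lit 2682055567) (nat_lit 836) (nat_lit 5909847350) (nat_lit 370) (nat_lit 5) (nat_lit 380) (nat_lit 5) (nat_lit 381) (nat_lit 5) (nat_lit 449) (nat_lit 402) (nat_lit 289)))))) (XT.nd (nat_lit 390) (nat_lit 2052) (nat_lit 0) (XT.nd (nat_lit 156) (nat_lit 1444) (nat_lit 0) (XT.nd (nat_lit 78) (nat_lit 760) (nat_lit 0) (XT.lf (nat_lit 0) (nat_lit 7231011411) (nat_lit 836) (nat_lit 1987806764) (nat_lit 76) (nat_lit 1742638581) (nat_lit 370) (nat_lit 5) (nat_lit 381) (nat_lit 5) (nat_lit 371) (nat_lit 5) (nat_lit 450) (nat_lit 402) (nat_lit 288)) (XT.lf (nat_lit 0) (nat_lit 4771187597) (nat_lit 760) (nat_lit 4825753780) (nat_lit 836) (nat_lit 1477395492)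 (nat_lit 360) (nat_lit 5) (nat_lit 370) (nat_lit 5) (nat_lit 371) (nat_lit 5) (nat_lit 451) (nat_lit 402) (nat_lit 287))) (XT.nd (nat_lit 78) (nat_lit 684) (nat_lit 0) (XT.lf (nat_lit 0) (nat_lit 481895825) (nat_lit 684) (nat_lit 325452688) (nat_lit 760) (nat_lit 10382071559) (nat_lit 350) (nat_lit 5) (nat_lit 359) (nat_lit 5) (nat_lit 360) (nat_lit 5) (nat_lit 452) (nat_lit 402) (nat_lit 286)) (XT.nd (nat_lit 78) (nat_lit 684) (nat_lit 0) (XT.lf (nat_lit 0) (nat_lit 3169345408) (nat_lit 760) (nat_lit 3877950800) (nat_lit 76) (nat_lit 4258286613) (nat_lit 350) (nat_lit 5) (nat_lit 360) (nat_lit 5) (nat_lit 351) (nat_lit 5) (nat_lit 453) (nat_lit 402) (nat_lit 285)) (XT.lf (nat_lit 0) (nat_lit 3104897712) (nat_lit 684) (nat_lit 2477424403) (nat_lit 760) (nat_lit 5841671912) (nat_lit 341) (nat_lit 5) (nat_lit 350) (nat_lit 5) (nat_lit 351) (nat_lit 5) (nat_lit 454) (nat_lit 402) (nat_lit 284))))) (XT.nd (nat_lit 234) (nat_lit 608) (nat_lit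 0) (XT.nd (nat_lit 78) (nat_lit 1444) (nat_lit 0) (XT.lf (nat_lit 0) (nat_lit 8065559332) (nat_lit 760) (nat_lit 1300717921) (nat_lit 76) (nat_lit 2178056185) (nat_lit 341) (nat_lit 5) (nat_lit 351) (nat_lit 5) (nat_lit 342) (nat_lit 5) (nat_lit 455) (nat_lit 402) (nat_lit 283)) (XT.nd (nat_lit 78) (nat_lit 760) (nat_lit 0) (XT.lf (nat_lit 0) (nat_lit 5897315160) (nat_lit 684) (nat_lit 4737829040) (nat_lit 760) (nat_lit 1031201779) (nat_lit 332) (nat_lit 5) (nat_lit 341) (nat_lit 5) (nat_lit 342) (nat_lit 5) (nat_lit 456) (nat_lit 402) (nat_lit 282)) (XT.lf (nat_lit 0) (nat_lit 1446463339) (nat_lit 760) (nat_lit 10336583125) (nat_lit 76) (nat_lit 7554844) (nat_lit 322) (nat_lit 5) (nat_lit 332) (nat_lit 5) (nat_lit 323) (nat_lit 5) (nat_lit 457) (nat_lit 402) (nat_lit 281)))) (XT.nd (nat_lit 78) (nat_lit 608) (nat_lit 0) (XT.lf (nat_lit 0) (nat_lit 4012501119) (nat_lit 760) (nat_lit 3077232348) (nat_lit 76) (nat_lit 4826419408) (nat_lit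 322) (nat_lit 5) (nat_lit 332) (nat_lit 5) (nat_lit 323) (nat_lit 5) (nat_lit 458) (nat_lit 402) (nat_lit 280)) (XT.nd (nat_lit 78) (nat_lit 0) (nat_lit 0) (XT.lf (nat_lit 0) (nat_lit 4363025460) (nat_lit 608) (nat_lit 2277777811) (nat_lit 684) (nat_lit 5403193331) (nat_lit 314) (nat_lit 5) (nat_lit 322) (nat_lit 5) (nat_lit 323) (nat_lit 5) (nat_lit 459) (nat_lit 402) (nat_lit 279)) (XT.lf (nat_lit 0) (nat_lit 9342327489) (nat_lit 684) (nat_lit 219075149) (nat_lit 76) (nat_lit 2612581444) (nat_lit 314) (nat_lit 5) (nat_lit 323) (nat_lit 5) (nat_lit 315) (nat_lit 5) (nat_lit 460) (nat_lit 402) (nat_lit 278))))))))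
noncomputable def xc164 : XT := (XT.nd (nat_lit 1560) (nat_lit 5624) (nat_lit 0) (XT.nd (nat_lit 780) (nat_lit 3116) (nat_lit 0) (XT.nd (nat_lit 390) (nat_lit 1824) (nat_lit 0) (XT.nd (nat_lit 156) (nat_lit 1140) (nat_lit 0) (XT.nd (nat_lit 78) (nat_lit 684) (nat_lit 0) (XT.lf (nat_lit 0) (nat_lit 7453475961) (nat_lit 608) (nat_lit 4691012201) (nat_lit 684) (nat_lit 161151032) (nat_lit 306) (nat_lit 5) (nat_lit 314) (nat_lit 5) (nat_lit 315) (nat_lit 5) (nat_lit 461) (nat_lit 402) (nat_lit 277)) (XT.lf (nat_lit 0) (nat_lit 2534305933) (nat_lit 684) (nat_lit 9599704658) (nat_lit 76) (nat_lit 305480984) (nat_lit 297) (nat_lit 5) (nat_lit 306) (nat_lit 5) (nat_lit 298) (nat_lit 5) (nat_lit 462) (nat_lit 402) (nat_lit 276))) (XT.nd (nat_lit 78) (nat_lit 1140) (nat_lit 0) (XT.lf (nat_lit 0) (nat_lit 5328732200) (nat_lit 684) (nat_lit 1877867404) (nat_lit 76) (nat_lit 5368455737) (nat_lit 297) (nat_lit 5) (nat_lit 306) (nat_lit 5) (nat_lit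 298) (nat_lit 5) (nat_lit 463) (nat_lit 402) (nat_lit 275)) (XT.nd (nat_lit 78) (nat_lit 532) (nat_lit 0) (XT.lf (nat_lit 0) (nat_lit 6056766819) (nat_lit 608) (nat_lit 2145304180) (nat_lit 684) (nat_lit 4510798902) (nat_lit 289) (nat_lit 5) (nat_lit 297) (nat_lit 5) (nat_lit 298) (nat_lit 5) (nat_lit 464) (nat_lit 402) (nat_lit 274)) (XT.lf (nat_lit 0) (nat_lit 1298488926) (nat_lit 532) (nat_lit 9858944858) (nat_lit 608) (nat_lit 1695515824) (nat_lit 282) (nat_lit 5) (nat_lit 289) (nat_lit 5) (nat_lit 290) (nat_lit 5) (nat_lit 465) (nat_lit 402) (nat_lit 273))))) (XT.nd (nat_lit 156) (nat_lit 1140) (nat_lit 0) (XT.nd (nat_lit 78) (nat_lit 608) (nat_lit 0) (XT.lf (nat_lit 0) (nat_lit 1203743386) (nat_lit 608) (nat_lit 3535980258) (nat_lit 76) (nat_lit 8255092652) (nat_lit 281) (nat_lit 5) (nat_lit 289) (nat_lit 5) (nat_lit 282) (nat_lit 5) (nat_lit 466) (nat_lit 402) (nat_lit 272)) (XT.lf (nat_lit 0) (nat_lit 4156251637) (nat_lit 684)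 (nat_lit 8470343222) (nat_lit 76) (nat_lit 512341975) (nat_lit 273) (nat_lit 5) (nat_lit 282) (nat_lit 5) (nat_lit 274) (nat_lit 5) (nat_lit 467) (nat_lit 402) (nat_lit 271))) (XT.nd (nat_lit 78) (nat_lit 1140) (nat_lit 0) (XT.lf (nat_lit 0) (nat_lit 7207466157) (nat_lit 684) (nat_lit 252845968) (nat_lit 76) (nat_lit 5824834535) (nat_lit 273) (nat_lit 5) (nat_lit 282) (nat_lit 5) (nat_lit 274) (nat_lit 5) (nat_lit 468) (nat_lit 402) (nat_lit 270)) (XT.nd (nat_lit 78) (nat_lit 608) (nat_lit 0) (XT.lf (nat_lit 0) (nat_lit 8216144883) (nat_lit 532) (nat_lit 2141592763) (nat_lit 608) (nat_lit 3075782383) (nat_lit 266) (nat_lit 5) (nat_lit 273) (nat_lit 5) (nat_lit 274) (nat_lit 5) (nat_lit 469) (nat_lit 402) (nat_lit 269)) (XT.lf (nat_lit 0) (nat_lit 15632198) (nat_lit 608) (nat_lit 10310401912) (nat_lit 76) (nat_lit 3258242615) (nat_lit 258) (nat_lit 5) (nat_lit 266) (nat_lit 5) (nat_lit 259) (nat_lit 5) (nat_lit 470) (nat_lit 402) (nat_lit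 268)))))) (XT.nd (nat_lit 390) (nat_lit 1520) (nat_lit 0) (XT.nd (nat_lit 156) (nat_lit 1064) (nat_lit 0) (XT.nd (nat_lit 78) (nat_lit 532) (nat_lit 0) (XT.lf (nat_lit 0) (nat_lit 3162039842) (nat_lit 608) (nat_lit 1787269296) (nat_lit 76) (nat_lit 8787645809) (nat_lit 258) (nat_lit 5) (nat_lit 266) (nat_lit 5) (nat_lit 259) (nat_lit 5) (nat_lit 471) (nat_lit 402) (nat_lit 267)) (XT.lf (nat_lit 0) (nat_lit 6405596230) (nat_lit 608) (nat_lit 6918379385) (nat_lit 76) (nat_lit 568026708) (nat_lit 251) (nat_lit 5) (nat_lit 259) (nat_lit 5) (nat_lit 252) (nat_lit 5) (nat_lit 472) (nat_lit 402) (nat_lit 266))) (XT.nd (nat_lit 78) (nat_lit 532) (nat_lit 0) (XT.lf (nat_lit 0) (nat_lit 1854997316) (nat_lit 532) (nat_lit 7901224129) (nat_lit 608) (nat_lit 4293085245) (nat_lit 244) (nat_lit 5) (nat_lit 251) (nat_lit 5) (nat_lit 252) (nat_lit 5) (nat_lit 473) (nat_lit 402) (nat_lit 265)) (XT.nd (nat_lit 78) (nat_lit 532) (nat_lit 0) (XT.lf (nat_lit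 0) (nat_lit 10877232886) (nat_lit 532) (nat_lit 2328512024) (nat_lit 608) (nat_lit 1003374521) (nat_lit 244) (nat_lit 5) (nat_lit 251) (nat_lit 5) (nat_lit 252) (nat_lit 5) (nat_lit 474) (nat_lit 402) (nat_lit 264)) (XT.lf (nat_lit 0) (nat_lit 2366347813) (nat_lit 532) (nat_lit 8645745741) (nat_lit 76) (nat_lit 3358828121) (nat_lit 237) (nat_lit 5) (nat_lit 244) (nat_lit 5) (nat_lit 238) (nat_lit 5) (nat_lit 475) (nat_lit 402) (nat_lit 263))))) (XT.nd (nat_lit 156) (nat_lit 988) (nat_lit 0) (XT.nd (nat_lit 78) (nat_lit 0) (nat_lit 0) (XT.lf (nat_lit 0) (nat_lit 436246117) (nat_lit 532) (nat_lit 5380319347) (nat_lit 608) (nat_lit 8718731132) (nat_lit 230) (nat_lit 5) (nat_lit 237) (nat_lit 5) (nat_lit 238) (nat_lit 5) (nat_lit 476) (nat_lit 402) (nat_lit 262)) (XT.lf (nat_lit 0) (nat_lit 9382425645) (nat_lit 608) (nat_lit 4907875721) (nat_lit 76) (nat_lit 411724886) (nat_lit 230) (nat_lit 5) (nat_lit 238) (nat_lit 5) (nat_lit 231) (nat_lit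 5) (nat_lit 477) (nat_lit 402) (nat_lit 261))) (XT.nd (nat_lit 78) (nat_lit 532) (nat_lit 0) (XT.lf (nat_lit 0) (nat_lit 4470115599) (nat_lit 456) (nat_lit 8600291183) (nat_lit 532) (nat_lit 1800667644) (nat_lit 224) (nat_lit 5) (nat_lit 230) (nat_lit 5) (nat_lit 231) (nat_lit 5) (nat_lit 478) (nat_lit 402) (nat_lit 260)) (XT.nd (nat_lit 78) (nat_lit 456) (nat_lit 0) (XT.lf (nat_lit 0) (nat_lit 1784539456) (nat_lit 532) (nat_lit 972535587) (nat_lit 76) (nat_lit 12285809182) (nat_lit 223) (nat_lit 5) (nat_lit 230) (nat_lit 5) (nat_lit 224) (nat_lit 5) (nat_lit 479) (nat_lit 402) (nat_lit 259)) (XT.lf (nat_lit 0) (nat_lit 5481708258) (nat_lit 532) (nat_lit 6510908398) (nat_lit 76) (nat_lit 3223988146) (nat_lit 217) (nat_lit 5) (nat_lit 224) (nat_lit 5) (nat_lit 218) (nat_lit 5) (nat_lit 480) (nat_lit 402) (nat_lit 258))))))) (XT.nd (nat_lit 780) (nat_lit 2964) (nat_lit 0) (XT.nd (nat_lit 390) (nat_lit 1292) (nat_lit 0) (XT.nd (nat_lit 156)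 (nat_lit 912) (nat_lit 0) (XT.nd (nat_lit 78) (nat_lit 0) (nat_lit 0) (XT.lf (nat_lit 0) (nat_lit 3200926282) (nat_lit 456) (nat_lit 6084075373) (nat_lit 532) (nat_lit 6108154511) (nat_lit 211) (nat_lit 5) (nat_lit 217) (nat_lit 5) (nat_lit 218) (nat_lit 5) (nat_lit 481) (nat_lit 402) (nat_lit 257)) (XT.lf (nat_lit 0) (nat_lit 13175625536) (nat_lit 456) (nat_lit 19133348) (nat_lit 532) (nat_lit 2377871714) (nat_lit 211) (nat_lit 5) (nat_lit 217) (nat_lit 5) (nat_lit 218) (nat_lit 5) (nat_lit 482) (nat_lit 402) (nat_lit 256))) (XT.nd (nat_lit 78) (nat_lit 380) (nat_lit 0) (XT.lf (nat_lit 0) (nat_lit 1485345511) (nat_lit 532) (nat_lit 8129186004) (nat_lit 76) (nat_lit 6139436813) (nat_lit 204) (nat_lit 5) (nat_lit 211) (nat_lit 5) (nat_lit 205) (nat_lit 5) (nat_lit 483) (nat_lit 402) (nat_lit 255)) (XT.nd (nat_lit 78) (nat_lit 0) (nat_lit 0) (XT.lf (nat_lit 0) (nat_lit 1930717637) (nat_lit 380) (nat_lit 3479125159) (nat_lit 456) (nat_lit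 10528458554) (nat_lit 199) (nat_lit 5) (nat_lit 204) (nat_lit 5) (nat_lit 205) (nat_lit 5) (nat_lit 484) (nat_lit 402) (nat_lit 254)) (XT.lf (nat_lit 0) (nat_lit 9472844736) (nat_lit 456) (nat_lit 3861218965) (nat_lit 76) (nat_lit 2791057038) (nat_lit 199) (nat_lit 5) (nat_lit 205) (nat_lit 5) (nat_lit 200) (nat_lit 5) (nat_lit 485) (nat_lit 402) (nat_lit 253))))) (XT.nd (nat_lit 156) (nat_lit 380) (nat_lit 0) (XT.nd (nat_lit 78) (nat_lit 456) (nat_lit 0) (XT.lf (nat_lit 0) (nat_lit 6531481069) (nat_lit 456) (nat_lit 7138385938) (nat_lit 532) (nat_lit 2644754303) (nat_lit 193) (nat_lit 5) (nat_lit 199) (nat_lit 5) (nat_lit 200) (nat_lit 5) (nat_lit 486) (nat_lit 402) (nat_lit 252)) (XT.lf (nat_lit 0) (nat_lit 656800710) (nat_lit 380) (nat_lit 784894458) (nat_lit 456) (nat_lit 15065675327) (nat_lit 187) (nat_lit 5) (nat_lit 192) (nat_lit 5) (nat_lit 193) (nat_lit 5) (nat_lit 487) (nat_lit 402) (nat_lit 251))) (XT.nd (nat_lit 78) (nat_lit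 380) (nat_lit 0) (XT.lf (nat_lit 0) (nat_lit 5664993841) (nat_lit 456) (nat_lit 5338773393) (nat_lit 76) (nat_lit 5698047123) (nat_lit 187) (nat_lit 5) (nat_lit 193) (nat_lit 5) (nat_lit 188) (nat_lit 5) (nat_lit 488) (nat_lit 402) (nat_lit 250)) (XT.nd (nat_lit 78) (nat_lit 0) (nat_lit 0) (XT.lf (nat_lit 0) (nat_lit 5430324251) (nat_lit 380) (nat_lit 4570571377) (nat_lit 456) (nat_lit 6898688727) (nat_lit 182) (nat_lit 5) (nat_lit 187) (nat_lit 5) (nat_lit 188) (nat_lit 5) (nat_lit 489) (nat_lit 402) (nat_lit 249)) (XT.lf (nat_lit 0) (nat_lit 14460265548) (nat_lit 456) (nat_lit 645619506) (nat_lit 76) (nat_lit 1994689696) (nat_lit 182) (nat_lit 5) (nat_lit 188) (nat_lit 5) (nat_lit 183) (nat_lit 5) (nat_lit 490) (nat_lit 402) (nat_lit 248)))))) (XT.nd (nat_lit 390) (nat_lit 1368) (nat_lit 0) (XT.nd (nat_lit 156) (nat_lit 760) (nat_lit 0) (XT.nd (nat_lit 78) (nat_lit 380) (nat_lit 0) (XT.lf (nat_lit 0) (nat_lit 1767801111) (nat_lit 456)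 (nat_lit 6832435675) (nat_lit 76) (nat_lit 8703388967) (nat_lit 176) (nat_lit 5) (nat_lit 182) (nat_lit 5) (nat_lit 177) (nat_lit 5) (nat_lit 491) (nat_lit 402) (nat_lit 247)) (XT.lf (nat_lit 0) (nat_lit 4329002081) (nat_lit 380) (nat_lit 1920253140) (nat_lit 456) (nat_lit 11260722800) (nat_lit 171) (nat_lit 5) (nat_lit 176) (nat_lit 5) (nat_lit 177) (nat_lit 5) (nat_lit 492) (nat_lit 402) (nat_lit 246))) (XT.nd (nat_lit 78) (nat_lit 760) (nat_lit 0) (XT.lf (nat_lit 0) (nat_lit 10886366821) (nat_lit 456) (nat_lit 1964096718) (nat_lit 76) (nat_lit 4868673225) (nat_lit 171) (nat_lit 5) (nat_lit 177) (nat_lit 5) (nat_lit 172) (nat_lit 5) (nat_lit 493) (nat_lit 402) (nat_lit 245)) (XT.nd (nat_lit 78) (nat_lit 456) (nat_lit 0) (XT.lf (nat_lit 0) (nat_lit 9571537534) (nat_lit 304) (nat_lit 6107882823) (nat_lit 380) (nat_lit 2251794333) (nat_lit 167) (nat_lit 5) (nat_lit 171) (nat_lit 5) (nat_lit 172) (nat_lit 5) (nat_lit 494) (nat_lit 402)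 (nat_lit 244)) (XT.lf (nat_lit 0) (nat_lit 2416914170) (nat_lit 456) (nat_lit 14926749267) (nat_lit 76) (nat_lit 802999135) (nat_lit 161) (nat_lit 5) (nat_lit 167) (nat_lit 5) (nat_lit 162) (nat_lit 5) (nat_lit 495) (nat_lit 402) (nat_lit 243))))) (XT.nd (nat_lit 234) (nat_lit 684) (nat_lit 0) (XT.nd (nat_lit 78) (nat_lit 684) (nat_lit 0) (XT.lf (nat_lit 0) (nat_lit 7234228958) (nat_lit 456) (nat_lit 3295114476) (nat_lit 76) (nat_lit 7835070619) (nat_lit 161) (nat_lit 5) (nat_lit 167) (nat_lit 5) (nat_lit 162) (nat_lit 5) (nat_lit 496) (nat_lit 402) (nat_lit 242)) (XT.nd (nat_lit 78) (nat_lit 380) (nat_lit 0) (XT.lf (nat_lit 0) (nat_lit 8664657619) (nat_lit 304) (nat_lit 3528152418) (nat_lit 380) (nat_lit 6392812126) (nat_lit 157) (nat_lit 5) (nat_lit 161) (nat_lit 5) (nat_lit 162) (nat_lit 5) (nat_lit 497) (nat_lit 402) (nat_lit 241)) (XT.lf (nat_lit 0) (nat_lit 2082997943) (nat_lit 380) (nat_lit 15215530361) (nat_lit 456) (nat_lit 1511766819)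 (nat_lit 152) (nat_lit 5) (nat_lit 157) (nat_lit 5) (nat_lit 158) (nat_lit 5) (nat_lit 498) (nat_lit 402) (nat_lit 240)))) (XT.nd (nat_lit 78) (nat_lit 608) (nat_lit 0) (XT.lf (nat_lit 0) (nat_lit 3500565738) (nat_lit 456) (nat_lit 4641149593) (nat_lit 76) (nat_lit 10895713316) (nat_lit 151) (nat_lit 5) (nat_lit 157) (nat_lit 5) (nat_lit 152) (nat_lit 5) (nat_lit 499) (nat_lit 402) (nat_lit 239)) (XT.nd (nat_lit 78) (nat_lit 304) (nat_lit 0) (XT.lf (nat_lit 0) (nat_lit 7760623609) (nat_lit 304) (nat_lit 871659642) (nat_lit 380) (nat_lit 10635834119) (nat_lit 147) (nat_lit 5) (nat_lit 151) (nat_lit 5) (nat_lit 152) (nat_lit 5) (nat_lit 500) (nat_lit 402) (nat_lit 238)) (XT.lf (nat_lit 0) (nat_lit 922022641) (nat_lit 304) (nat_lit 13013467778) (nat_lit 380) (nat_lit 5566552341) (nat_lit 143) (nat_lit 5) (nat_lit 147) (nat_lit 5) (nat_lit 148) (nat_lit 5) (nat_lit 501) (nat_lit 402) (nat_lit 237))))))))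
noncomputable def xc165 : XT := (XT.nd (nat_lit 53118) (nat_lit 0) (nat_lit 21280) (XT.nd (nat_lit 52338) (nat_lit 0) (nat_lit 34504) (XT.nd (nat_lit 51948) (nat_lit 0) (nat_lit 37164) (XT.nd (nat_lit 51714) (nat_lit 0) (nat_lit 38380) (XT.nd (nat_lit 51636) (nat_lit 0) (nat_lit 39672) (XT.lf (nat_lit 0) (nat_lit 13732460880) (nat_lit 304) (nat_lit 5684387694) (nat_lit 380) (nat_lit 322356348) (nat_lit 143) (nat_lit 5) (nat_lit 147) (nat_lit 5) (nat_lit 148) (nat_lit 5) (nat_lit 502) (nat_lit 402) (nat_lit 236)) (XT.lf (nat_lit 0) (nat_lit 2558631438) (nat_lit 1292) (nat_lit 582187487) (nat_lit 1292) (nat_lit 582187487) (nat_lit 665) (nat_lit 3) (nat_lit 682) (nat_lit 3) (nat_lit 682) (nat_lit 5) (nat_lit 403) (nat_lit 403) (nat_lit 334))) (XT.nd (nat_lit 78) (nat_lit 1292) (nat_lit 0) (XT.lf (nat_lit 76) (nat_lit 2592634304) (nat_lit 0) (nat_lit 4080673688) (nat_lit 1292) (nat_lit 817067513) (nat_lit 666) (nat_lit 5) (nat_lit 665) (nat_lit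 3) (nat_lit 682) (nat_lit 5) (nat_lit 404) (nat_lit 403) (nat_lit 333)) (XT.nd (nat_lit 78) (nat_lit 0) (nat_lit 76) (XT.lf (nat_lit 0) (nat_lit 683785239) (nat_lit 1292) (nat_lit 1120354596) (nat_lit 1368) (nat_lit 5732022613) (nat_lit 648) (nat_lit 5) (nat_lit 665) (nat_lit 3) (nat_lit 666) (nat_lit 5) (nat_lit 405) (nat_lit 403) (nat_lit 332)) (XT.lf (nat_lit 0) (nat_lit 2186519706) (nat_lit 1292) (nat_lit 4843956598) (nat_lit 1368) (nat_lit 552624709) (nat_lit 649) (nat_lit 5) (nat_lit 666) (nat_lit 5) (nat_lit 667) (nat_lit 5) (nat_lit 406) (nat_lit 403) (nat_lit 331))))) (XT.nd (nat_lit 156) (nat_lit 1292) (nat_lit 0) (XT.nd (nat_lit 78) (nat_lit 0) (nat_lit 0) (XT.lf (nat_lit 0) (nat_lit 3700918589) (nat_lit 1292) (nat_lit 972837464) (nat_lit 1368) (nat_lit 2957590099) (nat_lit 649) (nat_lit 5) (nat_lit 666) (nat_lit 5) (nat_lit 667) (nat_lit 5) (nat_lit 407) (nat_lit 403) (nat_lit 330)) (XT.lf (nat_lit 76) (nat_lit 2994356106)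 (nat_lit 0) (nat_lit 2233527772) (nat_lit 1368) (nat_lit 2453026748) (nat_lit 650) (nat_lit 5) (nat_lit 649) (nat_lit 5) (nat_lit 667) (nat_lit 5) (nat_lit 408) (nat_lit 403) (nat_lit 329))) (XT.nd (nat_lit 78) (nat_lit 1368) (nat_lit 0) (XT.lf (nat_lit 0) (nat_lit 6757156063) (nat_lit 1292) (nat_lit 700276931) (nat_lit 1368) (nat_lit 274598045) (nat_lit 650) (nat_lit 5) (nat_lit 667) (nat_lit 5) (nat_lit 668) (nat_lit 5) (nat_lit 409) (nat_lit 403) (nat_lit 328)) (XT.nd (nat_lit 78) (nat_lit 0) (nat_lit 0) (XT.lf (nat_lit 0) (nat_lit 526809685) (nat_lit 1368) (nat_lit 4413333200) (nat_lit 1444) (nat_lit 2843942619) (nat_lit 632) (nat_lit 5) (nat_lit 650) (nat_lit 5) (nat_lit 651) (nat_lit 5) (nat_lit 410) (nat_lit 403) (nat_lit 327)) (XT.lf (nat_lit 0) (nat_lit 2014802299) (nat_lit 1368) (nat_lit 332114439) (nat_lit 1444) (nat_lit 5490748886) (nat_lit 632) (nat_lit 5) (nat_lit 650) (nat_lit 5) (nat_lit 651) (nat_lit 5) (nat_lit 411)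 (nat_lit 403) (nat_lit 326)))))) (XT.nd (nat_lit 390) (nat_lit 1368) (nat_lit 0) (XT.nd (nat_lit 156) (nat_lit 1368) (nat_lit 0) (XT.nd (nat_lit 78) (nat_lit 0) (nat_lit 0) (XT.lf (nat_lit 0) (nat_lit 3525091856) (nat_lit 1368) (nat_lit 4034160563) (nat_lit 1444) (nat_lit 333214185) (nat_lit 633) (nat_lit 5) (nat_lit 651) (nat_lit 5) (nat_lit 652) (nat_lit 5) (nat_lit 412) (nat_lit 403) (nat_lit 325)) (XT.lf (nat_lit 76) (nat_lit 153724236) (nat_lit 0) (nat_lit 4896560772) (nat_lit 1444) (nat_lit 2898384641) (nat_lit 634) (nat_lit 5) (nat_lit 633) (nat_lit 5) (nat_lit 652) (nat_lit 5) (nat_lit 413) (nat_lit 403) (nat_lit 324))) (XT.nd (nat_lit 78) (nat_lit 1368) (nat_lit 0) (XT.lf (nat_lit 76) (nat_lit 4458739545) (nat_lit 0) (nat_lit 2140757616) (nat_lit 1444) (nat_lit 1406629291) (nat_lit 634) (nat_lit 5) (nat_lit 633) (nat_lit 5) (nat_lit 652) (nat_lit 5) (nat_lit 414) (nat_lit 403) (nat_lit 323)) (XT.nd (nat_lit 78) (nat_lit 0) (nat_lit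 0) (XT.lf (nat_lit 0) (nat_lit 89823163) (nat_lit 1444) (nat_lit 7296561928) (nat_lit 1520) (nat_lit 678804978) (nat_lit 615) (nat_lit 5) (nat_lit 634) (nat_lit 5) (nat_lit 635) (nat_lit 5) (nat_lit 415) (nat_lit 403) (nat_lit 322)) (XT.lf (nat_lit 0) (nat_lit 1602996907) (nat_lit 1444) (nat_lit 2951479229) (nat_lit 1520) (nat_lit 3570660323) (nat_lit 615) (nat_lit 5) (nat_lit 634) (nat_lit 5) (nat_lit 635) (nat_lit 5) (nat_lit 416) (nat_lit 403) (nat_lit 321))))) (XT.nd (nat_lit 156) (nat_lit 1368) (nat_lit 0) (XT.nd (nat_lit 78) (nat_lit 0) (nat_lit 76) (XT.lf (nat_lit 76) (nat_lit 1478405116) (nat_lit 0) (nat_lit 1645735363) (nat_lit 1520) (nat_lit 5062587174) (nat_lit 616) (nat_lit 5) (nat_lit 615) (nat_lit 5) (nat_lit 635) (nat_lit 5) (nat_lit 417) (nat_lit 403) (nat_lit 320)) (XT.lf (nat_lit 0) (nat_lit 4672881646) (nat_lit 1444) (nat_lit 2243010058) (nat_lit 1520) (nat_lit 1333715470) (nat_lit 616) (nat_lit 5) (nat_lit 635) (nat_lit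 5) (nat_lit 636) (nat_lit 5) (nat_lit 418) (nat_lit 403) (nat_lit 319))) (XT.nd (nat_lit 78) (nat_lit 1444) (nat_lit 0) (XT.lf (nat_lit 76) (nat_lit 2309388400) (nat_lit 0) (nat_lit 3938376345) (nat_lit 1520) (nat_lit 2066076199) (nat_lit 617) (nat_lit 5) (nat_lit 616) (nat_lit 5) (nat_lit 636) (nat_lit 5) (nat_lit 419) (nat_lit 403) (nat_lit 318)) (XT.nd (nat_lit 78) (nat_lit 1444) (nat_lit 0) (XT.lf (nat_lit 76) (nat_lit 6961772185) (nat_lit 0) (nat_lit 877162308) (nat_lit 1520) (nat_lit 540729117) (nat_lit 617) (nat_lit 5) (nat_lit 616) (nat_lit 5) (nat_lit 636) (nat_lit 5) (nat_lit 420) (nat_lit 403) (nat_lit 317)) (XT.lf (nat_lit 0) (nat_lit 1008028027) (nat_lit 1520) (nat_lit 5186336612) (nat_lit 1596) (nat_lit 2252181939) (nat_lit 597) (nat_lit 5) (nat_lit 617) (nat_lit 5) (nat_lit 618) (nat_lit 5) (nat_lit 421) (nat_lit 403) (nat_lit 316))))))) (XT.nd (nat_lit 780) (nat_lit 6764) (nat_lit 0) (XT.nd (nat_lit 390) (nat_lit 5016)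 (nat_lit 0) (XT.nd (nat_lit 156) (nat_lit 1444) (nat_lit 0) (XT.nd (nat_lit 78) (nat_lit 0) (nat_lit 76) (XT.lf (nat_lit 0) (nat_lit 2566547656) (nat_lit 1520) (nat_lit 494879861) (nat_lit 1596) (nat_lit 5453547651) (nat_lit 597) (nat_lit 5) (nat_lit 617) (nat_lit 5) (nat_lit 618) (nat_lit 5) (nat_lit 422) (nat_lit 403) (nat_lit 315)) (XT.lf (nat_lit 0) (nat_lit 4156636758) (nat_lit 1520) (nat_lit 4260266365) (nat_lit 1596) (nat_lit 167861224) (nat_lit 598) (nat_lit 5) (nat_lit 618) (nat_lit 5) (nat_lit 619) (nat_lit 5) (nat_lit 423) (nat_lit 403) (nat_lit 314))) (XT.nd (nat_lit 78) (nat_lit 1520) (nat_lit 0) (XT.lf (nat_lit 76) (nat_lit 556101636) (nat_lit 0) (nat_lit 5221334901) (nat_lit 1596) (nat_lit 2878534595) (nat_lit 599) (nat_lit 5) (nat_lit 598) (nat_lit 5) (nat_lit 619) (nat_lit 5) (nat_lit 424) (nat_lit 403) (nat_lit 313)) (XT.nd (nat_lit 78) (nat_lit 1520) (nat_lit 0) (XT.lf (nat_lit 76) (nat_lit 5504706558) (nat_lit 0) (nat_lit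 1926628925) (nat_lit 1596) (nat_lit 1297252907) (nat_lit 599) (nat_lit 5) (nat_lit 598) (nat_lit 5) (nat_lit 619) (nat_lit 5) (nat_lit 425) (nat_lit 403) (nat_lit 312)) (XT.lf (nat_lit 0) (nat_lit 304765483) (nat_lit 1596) (nat_lit 7063643310) (nat_lit 76) (nat_lit 1434343191) (nat_lit 578) (nat_lit 5) (nat_lit 599) (nat_lit 5) (nat_lit 579) (nat_lit 5) (nat_lit 426) (nat_lit 403) (nat_lit 311))))) (XT.nd (nat_lit 156) (nat_lit 3420) (nat_lit 0) (XT.nd (nat_lit 78) (nat_lit 1596) (nat_lit 0) (XT.lf (nat_lit 0) (nat_lit 1928902412) (nat_lit 1596) (nat_lit 2076612605) (nat_lit 76) (nat_lit 4872563370) (nat_lit 578) (nat_lit 5) (nat_lit 599) (nat_lit 5) (nat_lit 579) (nat_lit 5) (nat_lit 427) (nat_lit 403) (nat_lit 310)) (XT.lf (nat_lit 0) (nat_lit 3028095764) (nat_lit 1596) (nat_lit 550513979) (nat_lit 1672) (nat_lit 5376439822) (nat_lit 557) (nat_lit 5) (nat_lit 578) (nat_lit 5) (nat_lit 579) (nat_lit 5) (nat_lit 428) (nat_lit 403) (nat_lit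 309))) (XT.nd (nat_lit 78) (nat_lit 3420) (nat_lit 0) (XT.lf (nat_lit 0) (nat_lit 5268482596) (nat_lit 1672) (nat_lit 811820057) (nat_lit 76) (nat_lit 2953114085) (nat_lit 557) (nat_lit 5) (nat_lit 579) (nat_lit 5) (nat_lit 558) (nat_lit 5) (nat_lit 429) (nat_lit 403) (nat_lit 308)) (XT.nd (nat_lit 78) (nat_lit 1748) (nat_lit 0) (XT.lf (nat_lit 0) (nat_lit 4438429273) (nat_lit 1672) (nat_lit 2560537067) (nat_lit 1748) (nat_lit 2114248646) (nat_lit 535) (nat_lit 5) (nat_lit 557) (nat_lit 5) (nat_lit 558) (nat_lit 5) (nat_lit 430) (nat_lit 403) (nat_lit 307)) (XT.lf (nat_lit 0) (nat_lit 589053634) (nat_lit 1748) (nat_lit 8165736402) (nat_lit 1824) (nat_lit 440004558) (nat_lit 512) (nat_lit 5) (nat_lit 535) (nat_lit 5) (nat_lit 536) (nat_lit 5) (nat_lit 431) (nat_lit 403) (nat_lit 306)))))) (XT.nd (nat_lit 390) (nat_lit 3724) (nat_lit 0) (XT.nd (nat_lit 156) (nat_lit 1140) (nat_lit 0) (XT.nd (nat_lit 78) (nat_lit 1824) (nat_lit 0) (XT.lf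 (nat_lit 0) (nat_lit 1274557722) (nat_lit 1824) (nat_lit 3303562728) (nat_lit 76) (nat_lit 4699251530) (nat_lit 511) (nat_lit 5) (nat_lit 535) (nat_lit 5) (nat_lit 512) (nat_lit 5) (nat_lit 432) (nat_lit 403) (nat_lit 305)) (XT.lf (nat_lit 0) (nat_lit 2107496898) (nat_lit 1824) (nat_lit 899127663) (nat_lit 1900) (nat_lit 6355136085) (nat_lit 487) (nat_lit 5) (nat_lit 511) (nat_lit 5) (nat_lit 512) (nat_lit 5) (nat_lit 433) (nat_lit 403) (nat_lit 304))) (XT.nd (nat_lit 78) (nat_lit 1140) (nat_lit 0) (XT.lf (nat_lit 0) (nat_lit 4789947929) (nat_lit 1900) (nat_lit 1816754115) (nat_lit 76) (nat_lit 2840802738) (nat_lit 487) (nat_lit 5) (nat_lit 512) (nat_lit 5) (nat_lit 488) (nat_lit 5) (nat_lit 434) (nat_lit 403) (nat_lit 303)) (XT.nd (nat_lit 78) (nat_lit 0) (nat_lit 0) (XT.lf (nat_lit 0) (nat_lit 3750936098) (nat_lit 1140) (nat_lit 2864558029) (nat_lit 1216) (nat_lit 2919338546) (nat_lit 472) (nat_lit 5) (nat_lit 487) (nat_lit 5) (nat_lit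 488) (nat_lit 5) (nat_lit 435) (nat_lit 403) (nat_lit 302)) (XT.lf (nat_lit 0) (nat_lit 8472591957) (nat_lit 1216) (nat_lit 197466944) (nat_lit 76) (nat_lit 953947408) (nat_lit 472) (nat_lit 5) (nat_lit 488) (nat_lit 5) (nat_lit 473) (nat_lit 5) (nat_lit 436) (nat_lit 403) (nat_lit 301))))) (XT.nd (nat_lit 234) (nat_lit 1824) (nat_lit 0) (XT.nd (nat_lit 78) (nat_lit 912) (nat_lit 0) (XT.lf (nat_lit 0) (nat_lit 675466060) (nat_lit 988) (nat_lit 4186198792) (nat_lit 76) (nat_lit 4852570975) (nat_lit 459) (nat_lit 5) (nat_lit 472) (nat_lit 5) (nat_lit 460) (nat_lit 5) (nat_lit 437) (nat_lit 403) (nat_lit 300)) (XT.nd (nat_lit 78) (nat_lit 0) (nat_lit 0) (XT.lf (nat_lit 0) (nat_lit 1555377716) (nat_lit 912) (nat_lit 956739787) (nat_lit 988) (nat_lit 7294227199) (nat_lit 447) (nat_lit 5) (nat_lit 459) (nat_lit 5) (nat_lit 460) (nat_lit 5) (nat_lit 438) (nat_lit 403) (nat_lit 299)) (XT.lf (nat_lit 0) (nat_lit 4410943131) (nat_lit 988) (nat_lit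 2473220362) (nat_lit 76) (nat_lit 3015623438) (nat_lit 447) (nat_lit 5) (nat_lit 460) (nat_lit 5) (nat_lit 448) (nat_lit 5) (nat_lit 439) (nat_lit 403) (nat_lit 298)))) (XT.nd (nat_lit 78) (nat_lit 988) (nat_lit 0) (XT.lf (nat_lit 0) (nat_lit 3437075443) (nat_lit 836) (nat_lit 2917277392) (nat_lit 912) (nat_lit 3640613018) (nat_lit 436) (nat_lit 5) (nat_lit 447) (nat_lit 5) (nat_lit 448) (nat_lit 5) (nat_lit 440) (nat_lit 403) (nat_lit 297)) (XT.nd (nat_lit 78) (nat_lit 988) (nat_lit 0) (XT.lf (nat_lit 0) (nat_lit 8338915817) (nat_lit 912) (nat_lit 622094403) (nat_lit 76) (nat_lit 1130992431) (nat_lit 436) (nat_lit 5) (nat_lit 448) (nat_lit 5) (nat_lit 437) (nat_lit 5) (nat_lit 441) (nat_lit 403) (nat_lit 296)) (XT.lf (nat_lit 0) (nat_lit 203618427) (nat_lit 988) (nat_lit 4728510965) (nat_lit 76) (nat_lit 5258154698) (nat_lit 423) (nat_lit 5) (nat_lit 436) (nat_lit 5) (nat_lit 424) (nat_lit 5) (nat_lit 442) (nat_lit 403) (nat_lit 295))))))))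
noncomputable def xc166 : XT := (XT.nd (nat_lit 1560) (nat_lit 7144) (nat_lit 0) (XT.nd (nat_lit 780) (nat_lit 4180) (nat_lit 0) (XT.nd (nat_lit 390) (nat_lit 2356) (nat_lit 0) (XT.nd (nat_lit 156) (nat_lit 1596) (nat_lit 0) (XT.nd (nat_lit 78) (nat_lit 0) (nat_lit 0) (XT.lf (nat_lit 0) (nat_lit 1369884040) (nat_lit 836) (nat_lit 798032859) (nat_lit 912) (nat_lit 8122543841) (nat_lit 412) (nat_lit 5) (nat_lit 423) (nat_lit 5) (nat_lit 424) (nat_lit 5) (nat_lit 443) (nat_lit 403) (nat_lit 294)) (XT.lf (nat_lit 0) (nat_lit 4204724234) (nat_lit 912) (nat_lit 2782088408) (nat_lit 76) (nat_lit 3405163824) (nat_lit 412) (nat_lit 5) (nat_lit 424) (nat_lit 5) (nat_lit 413) (nat_lit 5) (nat_lit 444) (nat_lit 403) (nat_lit 293))) (XT.nd (nat_lit 78) (nat_lit 760) (nat_lit 0) (XT.lf (nat_lit 0) (nat_lit 3498177266) (nat_lit 836) (nat_lit 2791583208) (nat_lit 912) (nat_lit 4205612176) (nat_lit 401) (nat_lit 5) (nat_lit 412) (nat_lit 5) (nat_lit 413)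 (nat_lit 5) (nat_lit 445) (nat_lit 403) (nat_lit 292)) (XT.nd (nat_lit 78) (nat_lit 760) (nat_lit 0) (XT.lf (nat_lit 0) (nat_lit 8424698821) (nat_lit 912) (nat_lit 690326617) (nat_lit 76) (nat_lit 1485647293) (nat_lit 401) (nat_lit 5) (nat_lit 413) (nat_lit 5) (nat_lit 402) (nat_lit 5) (nat_lit 446) (nat_lit 403) (nat_lit 291)) (XT.lf (nat_lit 0) (nat_lit 5778565782) (nat_lit 760) (nat_lit 4859923092) (nat_lit 836) (nat_lit 68866880) (nat_lit 391) (nat_lit 5) (nat_lit 401) (nat_lit 5) (nat_lit 402) (nat_lit 5) (nat_lit 447) (nat_lit 403) (nat_lit 290))))) (XT.nd (nat_lit 156) (nat_lit 1520) (nat_lit 0) (XT.nd (nat_lit 78) (nat_lit 0) (nat_lit 0) (XT.lf (nat_lit 0) (nat_lit 1555441080) (nat_lit 760) (nat_lit 492687403) (nat_lit 836) (nat_lit 8767873196) (nat_lit 380) (nat_lit 5) (nat_lit 390) (nat_lit 5) (nat_lit 391) (nat_lit 5) (nat_lit 448) (nat_lit 403) (nat_lit 289)) (XT.lf (nat_lit 0) (nat_lit 4246063824) (nat_lit 836) (nat_lit 2738159874)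 (nat_lit 76) (nat_lit 3941797275) (nat_lit 380) (nat_lit 5) (nat_lit 391) (nat_lit 5) (nat_lit 381) (nat_lit 5) (nat_lit 449) (nat_lit 403) (nat_lit 288))) (XT.nd (nat_lit 78) (nat_lit 760) (nat_lit 0) (XT.lf (nat_lit 0) (nat_lit 3941779755) (nat_lit 760) (nat_lit 2555920150) (nat_lit 836) (nat_lit 4540345909) (nat_lit 370) (nat_lit 5) (nat_lit 380) (nat_lit 5) (nat_lit 381) (nat_lit 5) (nat_lit 450) (nat_lit 403) (nat_lit 287)) (XT.nd (nat_lit 78) (nat_lit 760) (nat_lit 0) (XT.lf (nat_lit 0) (nat_lit 8806705228) (nat_lit 836) (nat_lit 393927909) (nat_lit 76) (nat_lit 1951431282) (nat_lit 370) (nat_lit 5) (nat_lit 381) (nat_lit 5) (nat_lit 371) (nat_lit 5) (nat_lit 451) (nat_lit 403) (nat_lit 286)) (XT.lf (nat_lit 0) (nat_lit 6489498740) (nat_lit 760) (nat_lit 4712931648) (nat_lit 836) (nat_lit 65122215) (nat_lit 360) (nat_lit 5) (nat_lit 370) (nat_lit 5) (nat_lit 371) (nat_lit 5) (nat_lit 452) (nat_lit 403) (nat_lit 285)))))) (XT.nd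 (nat_lit 390) (nat_lit 1976) (nat_lit 0) (XT.nd (nat_lit 156) (nat_lit 1444) (nat_lit 0) (XT.nd (nat_lit 78) (nat_lit 0) (nat_lit 0) (XT.lf (nat_lit 0) (nat_lit 2122529580) (nat_lit 684) (nat_lit 106566629) (nat_lit 760) (nat_lit 9156000250) (nat_lit 350) (nat_lit 5) (nat_lit 359) (nat_lit 5) (nat_lit 360) (nat_lit 5) (nat_lit 453) (nat_lit 403) (nat_lit 284)) (XT.lf (nat_lit 0) (nat_lit 4612206964) (nat_lit 760) (nat_lit 2330368210) (nat_lit 76) (nat_lit 4561529811) (nat_lit 350) (nat_lit 5) (nat_lit 360) (nat_lit 5) (nat_lit 351) (nat_lit 5) (nat_lit 454) (nat_lit 403) (nat_lit 283))) (XT.nd (nat_lit 78) (nat_lit 760) (nat_lit 0) (XT.lf (nat_lit 0) (nat_lit 4781445551) (nat_lit 684) (nat_lit 2275431210) (nat_lit 760) (nat_lit 4568338982) (nat_lit 341) (nat_lit 5) (nat_lit 350) (nat_lit 5) (nat_lit 351) (nat_lit 5) (nat_lit 455) (nat_lit 403) (nat_lit 282)) (XT.nd (nat_lit 78) (nat_lit 76) (nat_lit 0) (XT.lf (nat_lit 0) (nat_lit 284921053)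 (nat_lit 684) (nat_lit 9281585028) (nat_lit 760) (nat_lit 2181921314) (nat_lit 332) (nat_lit 5) (nat_lit 341) (nat_lit 5) (nat_lit 342) (nat_lit 5) (nat_lit 456) (nat_lit 403) (nat_lit 281)) (XT.lf (nat_lit 0) (nat_lit 292649096) (nat_lit 760) (nat_lit 4262560103) (nat_lit 76) (nat_lit 7317986681) (nat_lit 331) (nat_lit 5) (nat_lit 341) (nat_lit 5) (nat_lit 332) (nat_lit 5) (nat_lit 457) (nat_lit 403) (nat_lit 280))))) (XT.nd (nat_lit 156) (nat_lit 1292) (nat_lit 0) (XT.nd (nat_lit 78) (nat_lit 0) (nat_lit 0) (XT.lf (nat_lit 0) (nat_lit 2792276602) (nat_lit 760) (nat_lit 8914496575) (nat_lit 76) (nat_lit 293302477) (nat_lit 322) (nat_lit 5) (nat_lit 332) (nat_lit 5) (nat_lit 323) (nat_lit 5) (nat_lit 458) (nat_lit 403) (nat_lit 279)) (XT.lf (nat_lit 0) (nat_lit 5383813883) (nat_lit 760) (nat_lit 1541896394) (nat_lit 76) (nat_lit 5202944401) (nat_lit 322) (nat_lit 5) (nat_lit 332) (nat_lit 5) (nat_lit 323) (nat_lit 5) (nat_lit 459) (nat_lit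 403) (nat_lit 278))) (XT.nd (nat_lit 78) (nat_lit 684) (nat_lit 0) (XT.lf (nat_lit 0) (nat_lit 6036660776) (nat_lit 608) (nat_lit 2013006143) (nat_lit 684) (nat_lit 4209688663) (nat_lit 314) (nat_lit 5) (nat_lit 322) (nat_lit 5) (nat_lit 323) (nat_lit 5) (nat_lit 460) (nat_lit 403) (nat_lit 277)) (XT.nd (nat_lit 78) (nat_lit 76) (nat_lit 0) (XT.lf (nat_lit 0) (nat_lit 1372863312) (nat_lit 608) (nat_lit 9418226651) (nat_lit 684) (nat_lit 1601135482) (nat_lit 306) (nat_lit 5) (nat_lit 314) (nat_lit 5) (nat_lit 315) (nat_lit 5) (nat_lit 461) (nat_lit 403) (nat_lit 276)) (XT.lf (nat_lit 0) (nat_lit 1084598241) (nat_lit 684) (nat_lit 3363638770) (nat_lit 76) (nat_lit 8078599980) (nat_lit 305) (nat_lit 5) (nat_lit 314) (nat_lit 5) (nat_lit 306) (nat_lit 5) (nat_lit 462) (nat_lit 403) (nat_lit 275))))))) (XT.nd (nat_lit 780) (nat_lit 3572) (nat_lit 0) (XT.nd (nat_lit 390) (nat_lit 1748) (nat_lit 0) (XT.nd (nat_lit 156) (nat_lit 1216) (nat_lit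 0) (XT.nd (nat_lit 78) (nat_lit 0) (nat_lit 0) (XT.lf (nat_lit 0) (nat_lit 3819798276) (nat_lit 684) (nat_lit 8195187973) (nat_lit 76) (nat_lit 648599033) (nat_lit 297) (nat_lit 5) (nat_lit 306) (nat_lit 5) (nat_lit 298) (nat_lit 5) (nat_lit 463) (nat_lit 403) (nat_lit 274)) (XT.lf (nat_lit 0) (nat_lit 6645901181) (nat_lit 684) (nat_lit 350218107) (nat_lit 76) (nat_lit 5806225272) (nat_lit 297) (nat_lit 5) (nat_lit 306) (nat_lit 5) (nat_lit 298) (nat_lit 5) (nat_lit 464) (nat_lit 403) (nat_lit 273))) (XT.nd (nat_lit 78) (nat_lit 608) (nat_lit 0) (XT.lf (nat_lit 0) (nat_lit 7732811388) (nat_lit 608) (nat_lit 1830253727) (nat_lit 684) (nat_lit 3380123130) (nat_lit 289) (nat_lit 5) (nat_lit 297) (nat_lit 5) (nat_lit 298) (nat_lit 5) (nat_lit 465) (nat_lit 403) (nat_lit 272)) (XT.nd (nat_lit 78) (nat_lit 76) (nat_lit 0) (XT.lf (nat_lit 0) (nat_lit 2890611030) (nat_lit 532) (nat_lit 9675901486) (nat_lit 608) (nat_lit 519777484) (nat_lit 282)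 (nat_lit 5) (nat_lit 289) (nat_lit 5) (nat_lit 290) (nat_lit 5) (nat_lit 466) (nat_lit 403) (nat_lit 271)) (XT.lf (nat_lit 0) (nat_lit 2398194623) (nat_lit 608) (nat_lit 2055702721) (nat_lit 76) (nat_lit 8777407750) (nat_lit 281) (nat_lit 5) (nat_lit 289) (nat_lit 5) (nat_lit 282) (nat_lit 5) (nat_lit 467) (nat_lit 403) (nat_lit 270))))) (XT.nd (nat_lit 156) (nat_lit 608) (nat_lit 0) (XT.nd (nat_lit 78) (nat_lit 532) (nat_lit 0) (XT.lf (nat_lit 0) (nat_lit 5399297372) (nat_lit 684) (nat_lit 7078297276) (nat_lit 76) (nat_lit 900922508) (nat_lit 273) (nat_lit 5) (nat_lit 282) (nat_lit 5) (nat_lit 274) (nat_lit 5) (nat_lit 468) (nat_lit 403) (nat_lit 269)) (XT.lf (nat_lit 0) (nat_lit 1289849812) (nat_lit 532) (nat_lit 7207317388) (nat_lit 608) (nat_lit 5030771359) (nat_lit 266) (nat_lit 5) (nat_lit 273) (nat_lit 5) (nat_lit 274) (nat_lit 5) (nat_lit 469) (nat_lit 403) (nat_lit 268))) (XT.nd (nat_lit 78) (nat_lit 608) (nat_lit 0) (XT.lf (nat_lit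 0) (nat_lit 9901232579) (nat_lit 532) (nat_lit 1788413202) (nat_lit 608) (nat_lit 1990049581) (nat_lit 266) (nat_lit 5) (nat_lit 273) (nat_lit 5) (nat_lit 274) (nat_lit 5) (nat_lit 470) (nat_lit 403) (nat_lit 267)) (XT.nd (nat_lit 78) (nat_lit 0) (nat_lit 0) (XT.lf (nat_lit 0) (nat_lit 1138487501) (nat_lit 608) (nat_lit 8971139363) (nat_lit 76) (nat_lit 3723884543) (nat_lit 258) (nat_lit 5) (nat_lit 266) (nat_lit 5) (nat_lit 259) (nat_lit 5) (nat_lit 471) (nat_lit 403) (nat_lit 266)) (XT.lf (nat_lit 0) (nat_lit 4325812658) (nat_lit 608) (nat_lit 307847439) (nat_lit 76) (nat_lit 9356023309) (nat_lit 258) (nat_lit 5) (nat_lit 266) (nat_lit 5) (nat_lit 259) (nat_lit 5) (nat_lit 472) (nat_lit 403) (nat_lit 265)))))) (XT.nd (nat_lit 390) (nat_lit 1444) (nat_lit 0) (XT.nd (nat_lit 156) (nat_lit 1064) (nat_lit 0) (XT.nd (nat_lit 78) (nat_lit 532) (nat_lit 0) (XT.lf (nat_lit 0) (nat_lit 7625137886) (nat_lit 608) (nat_lit 5532477442) (nat_lit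 76) (nat_lit 990398447) (nat_lit 251) (nat_lit 5) (nat_lit 259) (nat_lit 5) (nat_lit 252) (nat_lit 5) (nat_lit 473) (nat_lit 403) (nat_lit 264)) (XT.lf (nat_lit 0) (nat_lit 3406338704) (nat_lit 532) (nat_lit 7624867778) (nat_lit 608) (nat_lit 3277489130) (nat_lit 244) (nat_lit 5) (nat_lit 251) (nat_lit 5) (nat_lit 252) (nat_lit 5) (nat_lit 474) (nat_lit 403) (nat_lit 263))) (XT.nd (nat_lit 78) (nat_lit 988) (nat_lit 0) (XT.lf (nat_lit 0) (nat_lit 55678656) (nat_lit 608) (nat_lit 1893166413) (nat_lit 76) (nat_lit 12523275687) (nat_lit 243) (nat_lit 5) (nat_lit 251) (nat_lit 5) (nat_lit 244) (nat_lit 5) (nat_lit 475) (nat_lit 403) (nat_lit 262)) (XT.nd (nat_lit 78) (nat_lit 532) (nat_lit 0) (XT.lf (nat_lit 0) (nat_lit 3470963705) (nat_lit 532) (nat_lit 7311538550) (nat_lit 76) (nat_lit 3854692075) (nat_lit 237) (nat_lit 5) (nat_lit 244) (nat_lit 5) (nat_lit 238) (nat_lit 5) (nat_lit 476) (nat_lit 403) (nat_lit 261)) (XT.lf (nat_lit 0) (nat_lit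 1942177869) (nat_lit 532) (nat_lit 5036997544) (nat_lit 608) (nat_lit 7825901542) (nat_lit 230) (nat_lit 5) (nat_lit 237) (nat_lit 5) (nat_lit 238) (nat_lit 5) (nat_lit 477) (nat_lit 403) (nat_lit 260))))) (XT.nd (nat_lit 234) (nat_lit 456) (nat_lit 0) (XT.nd (nat_lit 78) (nat_lit 988) (nat_lit 0) (XT.lf (nat_lit 0) (nat_lit 10598707849) (nat_lit 608) (nat_lit 3520538454) (nat_lit 76) (nat_lit 856247800) (nat_lit 230) (nat_lit 5) (nat_lit 238) (nat_lit 5) (nat_lit 231) (nat_lit 5) (nat_lit 478) (nat_lit 403) (nat_lit 259)) (XT.nd (nat_lit 78) (nat_lit 532) (nat_lit 0) (XT.lf (nat_lit 0) (nat_lit 6035239700) (nat_lit 456) (nat_lit 8314620984) (nat_lit 532) (nat_lit 798274314) (nat_lit 224) (nat_lit 5) (nat_lit 230) (nat_lit 5) (nat_lit 231) (nat_lit 5) (nat_lit 479) (nat_lit 403) (nat_lit 258)) (XT.lf (nat_lit 0) (nat_lit 474373110) (nat_lit 456) (nat_lit 2353630993) (nat_lit 532) (nat_lit 12495582329) (nat_lit 217) (nat_lit 5) (nat_lit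 223) (nat_lit 5) (nat_lit 224) (nat_lit 5) (nat_lit 480) (nat_lit 403) (nat_lit 257)))) (XT.nd (nat_lit 78) (nat_lit 456) (nat_lit 0) (XT.lf (nat_lit 0) (nat_lit 6588715704) (nat_lit 532) (nat_lit 5173668011) (nat_lit 76) (nat_lit 3738605718) (nat_lit 217) (nat_lit 5) (nat_lit 224) (nat_lit 5) (nat_lit 218) (nat_lit 5) (nat_lit 481) (nat_lit 403) (nat_lit 256)) (XT.nd (nat_lit 78) (nat_lit 0) (nat_lit 0) (XT.lf (nat_lit 0) (nat_lit 4722749030) (nat_lit 456) (nat_lit 5735234632) (nat_lit 532) (nat_lit 5223289988) (nat_lit 211) (nat_lit 5) (nat_lit 217) (nat_lit 5) (nat_lit 218) (nat_lit 5) (nat_lit 482) (nat_lit 403) (nat_lit 255)) (XT.lf (nat_lit 0) (nat_lit 14429445896) (nat_lit 532) (nat_lit 999235199) (nat_lit 76) (nat_lit 435986278) (nat_lit 211) (nat_lit 5) (nat_lit 218) (nat_lit 5) (nat_lit 212) (nat_lit 5) (nat_lit 483) (nat_lit 403) (nat_lit 254))))))))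
noncomputable def xc167 : XT := (XT.nd (nat_lit 53274) (nat_lit 0) (nat_lit 32984) (XT.nd (nat_lit 780) (nat_lit 2128) (nat_lit 0) (XT.nd (nat_lit 390) (nat_lit 1216) (nat_lit 0) (XT.nd (nat_lit 156) (nat_lit 912) (nat_lit 0) (XT.nd (nat_lit 78) (nat_lit 380) (nat_lit 0) (XT.lf (nat_lit 0) (nat_lit 2482622881) (nat_lit 532) (nat_lit 6842838384) (nat_lit 76) (nat_lit 6724235021) (nat_lit 204) (nat_lit 5) (nat_lit 211) (nat_lit 5) (nat_lit 205) (nat_lit 5) (nat_lit 484) (nat_lit 403) (nat_lit 253)) (XT.lf (nat_lit 0) (nat_lit 3408730887) (nat_lit 380) (nat_lit 3067252787) (nat_lit 456) (nat_lit 9761924823) (nat_lit 199) (nat_lit 5) (nat_lit 204) (nat_lit 5) (nat_lit 205) (nat_lit 5) (nat_lit 485) (nat_lit 403) (nat_lit 252))) (XT.nd (nat_lit 78) (nat_lit 912) (nat_lit 0) (XT.lf (nat_lit 0) (nat_lit 10604527068) (nat_lit 456) (nat_lit 2511549371) (nat_lit 76) (nat_lit 3312702206) (nat_lit 199) (nat_lit 5) (nat_lit 205) (nat_lit 5) (nat_lit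 200) (nat_lit 5) (nat_lit 486) (nat_lit 403) (nat_lit 251)) (XT.nd (nat_lit 78) (nat_lit 456) (nat_lit 0) (XT.lf (nat_lit 0) (nat_lit 8079617204) (nat_lit 456) (nat_lit 6796600965) (nat_lit 532) (nat_lit 1746036491) (nat_lit 193) (nat_lit 5) (nat_lit 199) (nat_lit 5) (nat_lit 200) (nat_lit 5) (nat_lit 487) (nat_lit 403) (nat_lit 250)) (XT.lf (nat_lit 0) (nat_lit 2090516001) (nat_lit 380) (nat_lit 309954377) (nat_lit 456) (nat_lit 14418448701) (nat_lit 187) (nat_lit 5) (nat_lit 192) (nat_lit 5) (nat_lit 193) (nat_lit 5) (nat_lit 488) (nat_lit 403) (nat_lit 249))))) (XT.nd (nat_lit 156) (nat_lit 836) (nat_lit 0) (XT.nd (nat_lit 78) (nat_lit 380) (nat_lit 0) (XT.lf (nat_lit 0) (nat_lit 6693123968) (nat_lit 456) (nat_lit 4037713021) (nat_lit 76) (nat_lit 6286717051) (nat_lit 187) (nat_lit 5) (nat_lit 193) (nat_lit 5) (nat_lit 188) (nat_lit 5) (nat_lit 489) (nat_lit 403) (nat_lit 248)) (XT.lf (nat_lit 0) (nat_lit 6937504498) (nat_lit 380)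 (nat_lit 4169381912) (nat_lit 456) (nat_lit 6112570175) (nat_lit 182) (nat_lit 5) (nat_lit 187) (nat_lit 5) (nat_lit 188) (nat_lit 5) (nat_lit 490) (nat_lit 403) (nat_lit 247))) (XT.nd (nat_lit 78) (nat_lit 456) (nat_lit 0) (XT.lf (nat_lit 0) (nat_lit 736912180) (nat_lit 380) (nat_lit 14908687478) (nat_lit 456) (nat_lit 1779064012) (nat_lit 177) (nat_lit 5) (nat_lit 182) (nat_lit 5) (nat_lit 183) (nat_lit 5) (nat_lit 491) (nat_lit 403) (nat_lit 246)) (XT.nd (nat_lit 78) (nat_lit 380) (nat_lit 0) (XT.lf (nat_lit 0) (nat_lit 2691808668) (nat_lit 456) (nat_lit 5580612306) (nat_lit 76) (nat_lit 9359504264) (nat_lit 176) (nat_lit 5) (nat_lit 182) (nat_lit 5) (nat_lit 177) (nat_lit 5) (nat_lit 492) (nat_lit 403) (nat_lit 245)) (XT.lf (nat_lit 0) (nat_lit 5794919520) (nat_lit 380) (nat_lit 1459503372) (nat_lit 456) (nat_lit 10588151037) (nat_lit 171) (nat_lit 5) (nat_lit 176) (nat_lit 5) (nat_lit 177) (nat_lit 5) (nat_lit 493) (nat_lit 403)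 (nat_lit 244)))))) (XT.nd (nat_lit 390) (nat_lit 1064) (nat_lit 0) (XT.nd (nat_lit 156) (nat_lit 760) (nat_lit 0) (XT.nd (nat_lit 78) (nat_lit 304) (nat_lit 0) (XT.lf (nat_lit 0) (nat_lit 11970195541) (nat_lit 456) (nat_lit 637005902) (nat_lit 76) (nat_lit 5448996028) (nat_lit 171) (nat_lit 5) (nat_lit 177) (nat_lit 5) (nat_lit 172) (nat_lit 5) (nat_lit 494) (nat_lit 403) (nat_lit 243)) (XT.lf (nat_lit 0) (nat_lit 11120351740) (nat_lit 304) (nat_lit 5730589062) (nat_lit 380) (nat_lit 1421739541) (nat_lit 167) (nat_lit 5) (nat_lit 171) (nat_lit 5) (nat_lit 172) (nat_lit 5) (nat_lit 495) (nat_lit 403) (nat_lit 242))) (XT.nd (nat_lit 78) (nat_lit 304) (nat_lit 0) (XT.lf (nat_lit 0) (nat_lit 3324036184) (nat_lit 456) (nat_lit 13851593848) (nat_lit 76) (nat_lit 1316790118) (nat_lit 161) (nat_lit 5) (nat_lit 167) (nat_lit 5) (nat_lit 162) (nat_lit 5) (nat_lit 496) (nat_lit 403) (nat_lit 241)) (XT.nd (nat_lit 78) (nat_lit 304) (nat_lit 0) (XT.lf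 (nat_lit 0) (nat_lit 8220858370) (nat_lit 456) (nat_lit 2014261467) (nat_lit 76) (nat_lit 8479743600) (nat_lit 161) (nat_lit 5) (nat_lit 167) (nat_lit 5) (nat_lit 162) (nat_lit 5) (nat_lit 497) (nat_lit 403) (nat_lit 240)) (XT.lf (nat_lit 0) (nat_lit 10175845837) (nat_lit 304) (nat_lit 3094943013) (nat_lit 380) (nat_lit 5669863303) (nat_lit 157) (nat_lit 5) (nat_lit 161) (nat_lit 5) (nat_lit 162) (nat_lit 5) (nat_lit 498) (nat_lit 403) (nat_lit 239))))) (XT.nd (nat_lit 234) (nat_lit 304) (nat_lit 0) (XT.nd (nat_lit 78) (nat_lit 380) (nat_lit 0) (XT.lf (nat_lit 0) (nat_lit 3467074420) (nat_lit 380) (nat_lit 15007114268) (nat_lit 456) (nat_lit 695718541) (nat_lit 152) (nat_lit 5) (nat_lit 157) (nat_lit 5) (nat_lit 158) (nat_lit 5) (nat_lit 499) (nat_lit 403) (nat_lit 238)) (XT.nd (nat_lit 78) (nat_lit 304) (nat_lit 0) (XT.lf (nat_lit 0) (nat_lit 4389385339) (nat_lit 456) (nat_lit 3406996428) (nat_lit 76) (nat_lit 11605419287) (nat_lit 151)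 (nat_lit 5) (nat_lit 157) (nat_lit 5) (nat_lit 152) (nat_lit 5) (nat_lit 500) (nat_lit 403) (nat_lit 237)) (XT.lf (nat_lit 0) (nat_lit 9234082131) (nat_lit 304) (nat_lit 382158934) (nat_lit 380) (nat_lit 10021012409) (nat_lit 147) (nat_lit 5) (nat_lit 151) (nat_lit 5) (nat_lit 152) (nat_lit 5) (nat_lit 501) (nat_lit 403) (nat_lit 236)))) (XT.nd (nat_lit 51714) (nat_lit 0) (nat_lit 38380) (XT.lf (nat_lit 0) (nat_lit 2262886267) (nat_lit 304) (nat_lit 12758530893) (nat_lit 380) (nat_lit 4854522118) (nat_lit 143) (nat_lit 5) (nat_lit 147) (nat_lit 5) (nat_lit 148) (nat_lit 5) (nat_lit 502) (nat_lit 403) (nat_lit 235)) (XT.nd (nat_lit 78) (nat_lit 0) (nat_lit 0) (XT.lf (nat_lit 0) (nat_lit 159088003) (nat_lit 0) (nat_lit 159088003) (nat_lit 1292) (nat_lit 3449639516) (nat_lit 648) (nat_lit 5) (nat_lit 648) (nat_lit 3) (nat_lit 665) (nat_lit 3) (nat_lit 404) (nat_lit 404) (nat_lit 332)) (XT.lf (nat_lit 0) (nat_lit 2105289729) (nat_lit 1292)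 (nat_lit 3453351571) (nat_lit 1368) (nat_lit 2023094570) (nat_lit 648) (nat_lit 5) (nat_lit 665) (nat_lit 3) (nat_lit 666) (nat_lit 5) (nat_lit 405) (nat_lit 404) (nat_lit 331))))))) (XT.nd (nat_lit 780) (nat_lit 2812) (nat_lit 0) (XT.nd (nat_lit 390) (nat_lit 1292) (nat_lit 0) (XT.nd (nat_lit 156) (nat_lit 1292) (nat_lit 0) (XT.nd (nat_lit 78) (nat_lit 0) (nat_lit 0) (XT.lf (nat_lit 76) (nat_lit 368873616) (nat_lit 0) (nat_lit 3201343364) (nat_lit 1368) (nat_lit 4059213597) (nat_lit 649) (nat_lit 5) (nat_lit 648) (nat_lit 5) (nat_lit 666) (nat_lit 5) (nat_lit 406) (nat_lit 404) (nat_lit 330)) (XT.lf (nat_lit 76) (nat_lit 4294594195) (nat_lit 0) (nat_lit 755745743) (nat_lit 1368) (nat_lit 2628021298) (nat_lit 649) (nat_lit 5) (nat_lit 648) (nat_lit 5) (nat_lit 666) (nat_lit 5) (nat_lit 407) (nat_lit 404) (nat_lit 329))) (XT.nd (nat_lit 78) (nat_lit 1368) (nat_lit 0) (XT.lf (nat_lit 76) (nat_lit 546218054) (nat_lit 0) (nat_lit 5992248685)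 (nat_lit 1368) (nat_lit 1190235740) (nat_lit 650) (nat_lit 5) (nat_lit 649) (nat_lit 5) (nat_lit 667) (nat_lit 5) (nat_lit 408) (nat_lit 404) (nat_lit 328)) (XT.nd (nat_lit 78) (nat_lit 0) (nat_lit 0) (XT.lf (nat_lit 0) (nat_lit 264456261) (nat_lit 1368) (nat_lit 3206436733) (nat_lit 1444) (nat_lit 4309286185) (nat_lit 631) (nat_lit 5) (nat_lit 649) (nat_lit 5) (nat_lit 650) (nat_lit 5) (nat_lit 409) (nat_lit 404) (nat_lit 327)) (XT.lf (nat_lit 76) (nat_lit 832002843) (nat_lit 0) (nat_lit 870338774) (nat_lit 1444) (nat_lit 6130785710) (nat_lit 632) (nat_lit 5) (nat_lit 631) (nat_lit 5) (nat_lit 650) (nat_lit 5) (nat_lit 410) (nat_lit 404) (nat_lit 326))))) (XT.nd (nat_lit 156) (nat_lit 1368) (nat_lit 0) (XT.nd (nat_lit 78) (nat_lit 0) (nat_lit 0) (XT.lf (nat_lit 0) (nat_lit 3167495144) (nat_lit 1368) (nat_lit 2924561003) (nat_lit 1444) (nat_lit 1795108081) (nat_lit 632) (nat_lit 5) (nat_lit 650) (nat_lit 5) (nat_lit 651) (nat_lit 5) (nat_lit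 411) (nat_lit 404) (nat_lit 325)) (XT.lf (nat_lit 76) (nat_lit 1223404977) (nat_lit 0) (nat_lit 3418214235) (nat_lit 1444) (nat_lit 3301069307) (nat_lit 633) (nat_lit 5) (nat_lit 632) (nat_lit 5) (nat_lit 651) (nat_lit 5) (nat_lit 412) (nat_lit 404) (nat_lit 324))) (XT.nd (nat_lit 78) (nat_lit 1368) (nat_lit 0) (XT.lf (nat_lit 76) (nat_lit 5473697638) (nat_lit 0) (nat_lit 657649749) (nat_lit 1444) (nat_lit 1868253477) (nat_lit 633) (nat_lit 5) (nat_lit 632) (nat_lit 5) (nat_lit 651) (nat_lit 5) (nat_lit 413) (nat_lit 404) (nat_lit 323)) (XT.nd (nat_lit 78) (nat_lit 1444) (nat_lit 0) (XT.lf (nat_lit 76) (nat_lit 1739527520) (nat_lit 0) (nat_lit 5903886172) (nat_lit 1444) (nat_lit 414386891) (nat_lit 634) (nat_lit 5) (nat_lit 633) (nat_lit 5) (nat_lit 652) (nat_lit 5) (nat_lit 414) (nat_lit 404) (nat_lit 322)) (XT.lf (nat_lit 0) (nat_lit 1043493624) (nat_lit 1444) (nat_lit 2024639678) (nat_lit 1520) (nat_lit 5049113221) (nat_lit 614) (nat_lit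 5) (nat_lit 633) (nat_lit 5) (nat_lit 634) (nat_lit 5) (nat_lit 415) (nat_lit 404) (nat_lit 321)))))) (XT.nd (nat_lit 390) (nat_lit 1444) (nat_lit 0) (XT.nd (nat_lit 156) (nat_lit 1368) (nat_lit 0) (XT.nd (nat_lit 78) (nat_lit 0) (nat_lit 76) (XT.lf (nat_lit 76) (nat_lit 2362602938) (nat_lit 0) (nat_lit 145894776) (nat_lit 1520) (nat_lit 5669658594) (nat_lit 615) (nat_lit 5) (nat_lit 614) (nat_lit 5) (nat_lit 634) (nat_lit 5) (nat_lit 416) (nat_lit 404) (nat_lit 320)) (XT.lf (nat_lit 0) (nat_lit 4003616495) (nat_lit 1444) (nat_lit 1414541126) (nat_lit 1520) (nat_lit 2822110375) (nat_lit 615) (nat_lit 5) (nat_lit 634) (nat_lit 5) (nat_lit 635) (nat_lit 5) (nat_lit 417) (nat_lit 404) (nat_lit 319))) (XT.nd (nat_lit 78) (nat_lit 1444) (nat_lit 0) (XT.lf (nat_lit 76) (nat_lit 3093441118) (nat_lit 0) (nat_lit 2425593383) (nat_lit 1520) (nat_lit 2784779480) (nat_lit 616) (nat_lit 5) (nat_lit 615) (nat_lit 5) (nat_lit 635) (nat_lit 5) (nat_lit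 418) (nat_lit 404) (nat_lit 318)) (XT.nd (nat_lit 78) (nat_lit 1520) (nat_lit 0) (XT.lf (nat_lit 0) (nat_lit 7048262378) (nat_lit 1444) (nat_lit 683001852) (nat_lit 1520) (nat_lit 637696625) (nat_lit 616) (nat_lit 5) (nat_lit 635) (nat_lit 5) (nat_lit 636) (nat_lit 5) (nat_lit 419) (nat_lit 404) (nat_lit 317)) (XT.lf (nat_lit 0) (nat_lit 182656314) (nat_lit 1520) (nat_lit 4486482602) (nat_lit 1596) (nat_lit 3766004196) (nat_lit 596) (nat_lit 5) (nat_lit 616) (nat_lit 5) (nat_lit 617) (nat_lit 5) (nat_lit 420) (nat_lit 404) (nat_lit 316))))) (XT.nd (nat_lit 234) (nat_lit 1444) (nat_lit 0) (XT.nd (nat_lit 78) (nat_lit 0) (nat_lit 76) (XT.lf (nat_lit 76) (nat_lit 151849113) (nat_lit 0) (nat_lit 1522880743) (nat_lit 1596) (nat_lit 6828217846) (nat_lit 597) (nat_lit 5) (nat_lit 596) (nat_lit 5) (nat_lit 617) (nat_lit 5) (nat_lit 421) (nat_lit 404) (nat_lit 315)) (XT.nd (nat_lit 78) (nat_lit 0) (nat_lit 0) (XT.lf (nat_lit 0) (nat_lit 3209109412)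 (nat_lit 1520) (nat_lit 3660404260) (nat_lit 1596) (nat_lit 1702345420) (nat_lit 597) (nat_lit 5) (nat_lit 617) (nat_lit 5) (nat_lit 618) (nat_lit 5) (nat_lit 422) (nat_lit 404) (nat_lit 314)) (XT.lf (nat_lit 76) (nat_lit 1107451957) (nat_lit 0) (nat_lit 3655774636) (nat_lit 1596) (nat_lit 3879141118) (nat_lit 598) (nat_lit 5) (nat_lit 597) (nat_lit 5) (nat_lit 618) (nat_lit 5) (nat_lit 423) (nat_lit 404) (nat_lit 313)))) (XT.nd (nat_lit 78) (nat_lit 1520) (nat_lit 0) (XT.lf (nat_lit 76) (nat_lit 5999330675) (nat_lit 0) (nat_lit 345850507) (nat_lit 1596) (nat_lit 2369170219) (nat_lit 598) (nat_lit 5) (nat_lit 597) (nat_lit 5) (nat_lit 618) (nat_lit 5) (nat_lit 424) (nat_lit 404) (nat_lit 312)) (XT.nd (nat_lit 78) (nat_lit 1596) (nat_lit 0) (XT.lf (nat_lit 76) (nat_lit 2189178703) (nat_lit 0) (nat_lit 5776265018) (nat_lit 1596) (nat_lit 822197665) (nat_lit 599) (nat_lit 5) (nat_lit 598) (nat_lit 5) (nat_lit 619) (nat_lit 5) (nat_lit 425)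 (nat_lit 404) (nat_lit 311)) (XT.lf (nat_lit 0) (nat_lit 739433801) (nat_lit 1596) (nat_lit 1662435731) (nat_lit 1672) (nat_lit 6460556892) (nat_lit 577) (nat_lit 5) (nat_lit 598) (nat_lit 5) (nat_lit 599) (nat_lit 5) (nat_lit 426) (nat_lit 404) (nat_lit 310))))))))
noncomputable def xc168 : XT := (XT.nd (nat_lit 1560) (nat_lit 9120) (nat_lit 0) (XT.nd (nat_lit 780) (nat_lit 5396) (nat_lit 0) (XT.nd (nat_lit 390) (nat_lit 4788) (nat_lit 0) (XT.nd (nat_lit 156) (nat_lit 3268) (nat_lit 0) (XT.nd (nat_lit 78) (nat_lit 0) (nat_lit 0) (XT.lf (nat_lit 0) (nat_lit 2323811868) (nat_lit 1596) (nat_lit 5555256805) (nat_lit 76) (nat_lit 1059479330) (nat_lit 578) (nat_lit 5) (nat_lit 599) (nat_lit 5) (nat_lit 579) (nat_lit 5) (nat_lit 427) (nat_lit 404) (nat_lit 309)) (XT.lf (nat_lit 0) (nat_lit 3940961907) (nat_lit 1596) (nat_lit 500831747) (nat_lit 76) (nat_lit 4574376672) (nat_lit 578) (nat_lit 5) (nat_lit 599) (nat_lit 5) (nat_lit 579) (nat_lit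 5) (nat_lit 428) (nat_lit 404) (nat_lit 308))) (XT.nd (nat_lit 78) (nat_lit 1672) (nat_lit 0) (XT.lf (nat_lit 0) (nat_lit 4695330571) (nat_lit 1596) (nat_lit 900068684) (nat_lit 1672) (nat_lit 3499846955) (nat_lit 557) (nat_lit 5) (nat_lit 578) (nat_lit 5) (nat_lit 579) (nat_lit 5) (nat_lit 429) (nat_lit 404) (nat_lit 307)) (XT.nd (nat_lit 78) (nat_lit 0) (nat_lit 0) (XT.lf (nat_lit 0) (nat_lit 797873773) (nat_lit 1672) (nat_lit 6486079646) (nat_lit 1748) (nat_lit 1891929630) (nat_lit 535) (nat_lit 5) (nat_lit 557) (nat_lit 5) (nat_lit 558) (nat_lit 5) (nat_lit 430) (nat_lit 404) (nat_lit 306)) (XT.lf (nat_lit 0) (nat_lit 6132035767) (nat_lit 1672) (nat_lit 2884899029) (nat_lit 1748) (nat_lit 240984708) (nat_lit 535) (nat_lit 5) (nat_lit 557) (nat_lit 5) (nat_lit 558) (nat_lit 5) (nat_lit 431) (nat_lit 404) (nat_lit 305))))) (XT.nd (nat_lit 156) (nat_lit 2964) (nat_lit 0) (XT.nd (nat_lit 78) (nat_lit 0) (nat_lit 0) (XT.lf (nat_lit 0)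 (nat_lit 1419365298) (nat_lit 1824) (nat_lit 7116838816) (nat_lit 76) (nat_lit 805298975) (nat_lit 511) (nat_lit 5) (nat_lit 535) (nat_lit 5) (nat_lit 512) (nat_lit 5) (nat_lit 432) (nat_lit 404) (nat_lit 304)) (XT.lf (nat_lit 0) (nat_lit 3125817302) (nat_lit 1824) (nat_lit 1744042781) (nat_lit 76) (nat_lit 4556543969) (nat_lit 511) (nat_lit 5) (nat_lit 535) (nat_lit 5) (nat_lit 512) (nat_lit 5) (nat_lit 433) (nat_lit 404) (nat_lit 303))) (XT.nd (nat_lit 78) (nat_lit 1140) (nat_lit 0) (XT.lf (nat_lit 0) (nat_lit 3764543359) (nat_lit 1824) (nat_lit 1102667718) (nat_lit 1900) (nat_lit 4645775703) (nat_lit 487) (nat_lit 5) (nat_lit 511) (nat_lit 5) (nat_lit 512) (nat_lit 5) (nat_lit 434) (nat_lit 404) (nat_lit 302)) (XT.nd (nat_lit 78) (nat_lit 1140) (nat_lit 0) (XT.lf (nat_lit 0) (nat_lit 6649716752) (nat_lit 1900) (nat_lit 233373153) (nat_lit 76) (nat_lit 2718085576) (nat_lit 487) (nat_lit 5) (nat_lit 512) (nat_lit 5) (nat_lit 488) (nat_lit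 5) (nat_lit 435) (nat_lit 404) (nat_lit 301)) (XT.lf (nat_lit 0) (nat_lit 5435014838) (nat_lit 1140) (nat_lit 3052618476) (nat_lit 1216) (nat_lit 1203099427) (nat_lit 472) (nat_lit 5) (nat_lit 487) (nat_lit 5) (nat_lit 488) (nat_lit 5) (nat_lit 436) (nat_lit 404) (nat_lit 300)))))) (XT.nd (nat_lit 390) (nat_lit 2660) (nat_lit 0) (XT.nd (nat_lit 156) (nat_lit 1748) (nat_lit 0) (XT.nd (nat_lit 78) (nat_lit 0) (nat_lit 0) (XT.lf (nat_lit 0) (nat_lit 566478249) (nat_lit 988) (nat_lit 8356137737) (nat_lit 76) (nat_lit 859512597) (nat_lit 459) (nat_lit 5) (nat_lit 472) (nat_lit 5) (nat_lit 460) (nat_lit 5) (nat_lit 437) (nat_lit 404) (nat_lit 299)) (XT.lf (nat_lit 0) (nat_lit 2381967288) (nat_lit 988) (nat_lit 2645575548) (nat_lit 76) (nat_lit 4847117869) (nat_lit 459) (nat_lit 5) (nat_lit 472) (nat_lit 5) (nat_lit 460) (nat_lit 5) (nat_lit 438) (nat_lit 404) (nat_lit 298))) (XT.nd (nat_lit 78) (nat_lit 836) (nat_lit 0) (XT.lf (nat_lit 0) (nat_lit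 3200145995) (nat_lit 912) (nat_lit 1032486801) (nat_lit 988) (nat_lit 5736433341) (nat_lit 447) (nat_lit 5) (nat_lit 459) (nat_lit 5) (nat_lit 460) (nat_lit 5) (nat_lit 439) (nat_lit 404) (nat_lit 297)) (XT.nd (nat_lit 78) (nat_lit 836) (nat_lit 0) (XT.lf (nat_lit 0) (nat_lit 6136324130) (nat_lit 988) (nat_lit 907553644) (nat_lit 76) (nat_lit 3021161653) (nat_lit 447) (nat_lit 5) (nat_lit 460) (nat_lit 5) (nat_lit 448) (nat_lit 5) (nat_lit 440) (nat_lit 404) (nat_lit 296)) (XT.lf (nat_lit 0) (nat_lit 5110322214) (nat_lit 836) (nat_lit 2986596107) (nat_lit 912) (nat_lit 2065637280) (nat_lit 436) (nat_lit 5) (nat_lit 447) (nat_lit 5) (nat_lit 448) (nat_lit 5) (nat_lit 441) (nat_lit 404) (nat_lit 295))))) (XT.nd (nat_lit 156) (nat_lit 1672) (nat_lit 0) (XT.nd (nat_lit 78) (nat_lit 76) (nat_lit 0) (XT.lf (nat_lit 0) (nat_lit 983148143) (nat_lit 912) (nat_lit 9112661774) (nat_lit 988) (nat_lit 166230472) (nat_lit 424) (nat_lit 5) (nat_lit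 436) (nat_lit 5) (nat_lit 437) (nat_lit 5) (nat_lit 442) (nat_lit 404) (nat_lit 294)) (XT.lf (nat_lit 0) (nat_lit 1781071755) (nat_lit 988) (nat_lit 3207939340) (nat_lit 76) (nat_lit 5373611057) (nat_lit 423) (nat_lit 5) (nat_lit 436) (nat_lit 5) (nat_lit 424) (nat_lit 5) (nat_lit 443) (nat_lit 404) (nat_lit 293))) (XT.nd (nat_lit 78) (nat_lit 836) (nat_lit 0) (XT.lf (nat_lit 0) (nat_lit 3001797632) (nat_lit 836) (nat_lit 762425539) (nat_lit 912) (nat_lit 6700987825) (nat_lit 412) (nat_lit 5) (nat_lit 423) (nat_lit 5) (nat_lit 424) (nat_lit 5) (nat_lit 444) (nat_lit 404) (nat_lit 292)) (XT.nd (nat_lit 78) (nat_lit 836) (nat_lit 0) (XT.lf (nat_lit 0) (nat_lit 5811644942) (nat_lit 912) (nat_lit 1234553650) (nat_lit 76) (nat_lit 3523160879) (nat_lit 412) (nat_lit 5) (nat_lit 424) (nat_lit 5) (nat_lit 413) (nat_lit 5) (nat_lit 445) (nat_lit 404) (nat_lit 291)) (XT.lf (nat_lit 0) (nat_lit 5160770124) (nat_lit 836) (nat_lit 2758092852) (nat_lit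 912) (nat_lit 2756350982) (nat_lit 401) (nat_lit 5) (nat_lit 412) (nat_lit 5) (nat_lit 413) (nat_lit 5) (nat_lit 446) (nat_lit 404) (nat_lit 290))))))) (XT.nd (nat_lit 780) (nat_lit 4560) (nat_lit 0) (XT.nd (nat_lit 390) (nat_lit 2204) (nat_lit 0) (XT.nd (nat_lit 156) (nat_lit 1520) (nat_lit 0) (XT.nd (nat_lit 78) (nat_lit 76) (nat_lit 0) (XT.lf (nat_lit 0) (nat_lit 897952999) (nat_lit 760) (nat_lit 9175469150) (nat_lit 836) (nat_lit 709659450) (nat_lit 391) (nat_lit 5) (nat_lit 401) (nat_lit 5) (nat_lit 402) (nat_lit 5) (nat_lit 447) (nat_lit 404) (nat_lit 289)) (XT.lf (nat_lit 0) (nat_lit 1396064623) (nat_lit 836) (nat_lit 3427588698) (nat_lit 76) (nat_lit 6068550918) (nat_lit 390) (nat_lit 5) (nat_lit 401) (nat_lit 5) (nat_lit 391) (nat_lit 5) (nat_lit 448) (nat_lit 404) (nat_lit 288))) (XT.nd (nat_lit 78) (nat_lit 760) (nat_lit 0) (XT.lf (nat_lit 0) (nat_lit 3175349054) (nat_lit 760) (nat_lit 360712022) (nat_lit 836) (nat_lit 7467321235)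 (nat_lit 380) (nat_lit 5) (nat_lit 390) (nat_lit 5) (nat_lit 391) (nat_lit 5) (nat_lit 449) (nat_lit 404) (nat_lit 287)) (XT.nd (nat_lit 78) (nat_lit 760) (nat_lit 0) (XT.lf (nat_lit 0) (nat_lit 5750485957) (nat_lit 836) (nat_lit 1207807674) (nat_lit 76) (nat_lit 4157857744) (nat_lit 380) (nat_lit 5) (nat_lit 391) (nat_lit 5) (nat_lit 381) (nat_lit 5) (nat_lit 450) (nat_lit 404) (nat_lit 286)) (XT.lf (nat_lit 0) (nat_lit 5595302356) (nat_lit 760) (nat_lit 2434242965) (nat_lit 836) (nat_lit 3201223580) (nat_lit 370) (nat_lit 5) (nat_lit 380) (nat_lit 5) (nat_lit 381) (nat_lit 5) (nat_lit 451) (nat_lit 404) (nat_lit 285))))) (XT.nd (nat_lit 156) (nat_lit 1368) (nat_lit 0) (XT.nd (nat_lit 78) (nat_lit 76) (nat_lit 0) (XT.lf (nat_lit 0) (nat_lit 1183919805) (nat_lit 760) (nat_lit 9182109577) (nat_lit 836) (nat_lit 981412525) (nat_lit 360) (nat_lit 5) (nat_lit 370) (nat_lit 5) (nat_lit 371) (nat_lit 5) (nat_lit 452) (nat_lit 404) (nat_lit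 284)) (XT.lf (nat_lit 0) (nat_lit 1302104569) (nat_lit 836) (nat_lit 3295139516) (nat_lit 76) (nat_lit 6868315034) (nat_lit 359) (nat_lit 5) (nat_lit 370) (nat_lit 5) (nat_lit 360) (nat_lit 5) (nat_lit 453) (nat_lit 404) (nat_lit 283))) (XT.nd (nat_lit 78) (nat_lit 684) (nat_lit 0) (XT.lf (nat_lit 0) (nat_lit 3625398519) (nat_lit 760) (nat_lit 7853836393) (nat_lit 76) (nat_lit 106529068) (nat_lit 350) (nat_lit 5) (nat_lit 360) (nat_lit 5) (nat_lit 351) (nat_lit 5) (nat_lit 454) (nat_lit 404) (nat_lit 282)) (XT.nd (nat_lit 78) (nat_lit 684) (nat_lit 0) (XT.lf (nat_lit 0) (nat_lit 6030359069) (nat_lit 760) (nat_lit 814940197) (nat_lit 76) (nat_lit 4862369659) (nat_lit 350) (nat_lit 5) (nat_lit 360) (nat_lit 5) (nat_lit 351) (nat_lit 5) (nat_lit 455) (nat_lit 404) (nat_lit 281)) (XT.lf (nat_lit 0) (nat_lit 6428833290) (nat_lit 684) (nat_lit 2079165824) (nat_lit 760) (nat_lit 3323521248) (nat_lit 341) (nat_lit 5) (nat_lit 350) (nat_lit 5)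 (nat_lit 351) (nat_lit 5) (nat_lit 456) (nat_lit 404) (nat_lit 280)))))) (XT.nd (nat_lit 390) (nat_lit 2508) (nat_lit 0) (XT.nd (nat_lit 156) (nat_lit 1292) (nat_lit 0) (XT.nd (nat_lit 78) (nat_lit 76) (nat_lit 0) (XT.lf (nat_lit 0) (nat_lit 1856637263) (nat_lit 684) (nat_lit 9197204384) (nat_lit 760) (nat_lit 903634187) (nat_lit 332) (nat_lit 5) (nat_lit 341) (nat_lit 5) (nat_lit 342) (nat_lit 5) (nat_lit 457) (nat_lit 404) (nat_lit 279)) (XT.lf (nat_lit 0) (nat_lit 1577510179) (nat_lit 760) (nat_lit 2795502403) (nat_lit 76) (nat_lit 7712067055) (nat_lit 331) (nat_lit 5) (nat_lit 341) (nat_lit 5) (nat_lit 332) (nat_lit 5) (nat_lit 458) (nat_lit 404) (nat_lit 278))) (XT.nd (nat_lit 78) (nat_lit 608) (nat_lit 0) (XT.lf (nat_lit 0) (nat_lit 4113869920) (nat_lit 760) (nat_lit 7527217291) (nat_lit 76) (nat_lit 573675001) (nat_lit 322) (nat_lit 5) (nat_lit 332) (nat_lit 5) (nat_lit 323) (nat_lit 5) (nat_lit 459) (nat_lit 404) (nat_lit 277))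 (XT.nd (nat_lit 78) (nat_lit 608) (nat_lit 0) (XT.lf (nat_lit 0) (nat_lit 6732419363) (nat_lit 760) (nat_lit 37862541) (nat_lit 76) (nat_lit 5576127284) (nat_lit 322) (nat_lit 5) (nat_lit 332) (nat_lit 5) (nat_lit 323) (nat_lit 5) (nat_lit 460) (nat_lit 404) (nat_lit 276)) (XT.lf (nat_lit 0) (nat_lit 7682167932) (nat_lit 608) (nat_lit 1754989427) (nat_lit 684) (nat_lit 3042855394) (nat_lit 314) (nat_lit 5) (nat_lit 322) (nat_lit 5) (nat_lit 323) (nat_lit 5) (nat_lit 461) (nat_lit 404) (nat_lit 275))))) (XT.nd (nat_lit 234) (nat_lit 1216) (nat_lit 0) (XT.nd (nat_lit 78) (nat_lit 684) (nat_lit 0) (XT.lf (nat_lit 0) (nat_lit 2937507802) (nat_lit 608) (nat_lit 9283731176) (nat_lit 684) (nat_lit 394544433) (nat_lit 306) (nat_lit 5) (nat_lit 314) (nat_lit 5) (nat_lit 315) (nat_lit 5) (nat_lit 462) (nat_lit 404) (nat_lit 274)) (XT.nd (nat_lit 78) (nat_lit 608) (nat_lit 0) (XT.lf (nat_lit 0) (nat_lit 2304691302) (nat_lit 684) (nat_lit 1907939128)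 (nat_lit 76) (nat_lit 8540775280) (nat_lit 305) (nat_lit 5) (nat_lit 314) (nat_lit 5) (nat_lit 306) (nat_lit 5) (nat_lit 463) (nat_lit 404) (nat_lit 273)) (XT.lf (nat_lit 0) (nat_lit 5083051435) (nat_lit 684) (nat_lit 6824575414) (nat_lit 76) (nat_lit 985492994) (nat_lit 297) (nat_lit 5) (nat_lit 306) (nat_lit 5) (nat_lit 298) (nat_lit 5) (nat_lit 464) (nat_lit 404) (nat_lit 272)))) (XT.nd (nat_lit 78) (nat_lit 608) (nat_lit 0) (XT.lf (nat_lit 0) (nat_lit 1162451048) (nat_lit 608) (nat_lit 6787501044) (nat_lit 684) (nat_lit 5085016702) (nat_lit 289) (nat_lit 5) (nat_lit 297) (nat_lit 5) (nat_lit 298) (nat_lit 5) (nat_lit 465) (nat_lit 404) (nat_lit 271)) (XT.nd (nat_lit 78) (nat_lit 608) (nat_lit 0) (XT.lf (nat_lit 0) (nat_lit 9381997828) (nat_lit 608) (nat_lit 1522802153) (nat_lit 684) (nat_lit 2274242557) (nat_lit 289) (nat_lit 5) (nat_lit 297) (nat_lit 5) (nat_lit 298) (nat_lit 5) (nat_lit 466) (nat_lit 404) (nat_lit 270)) (XT.lf (nat_lit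 0) (nat_lit 624208094) (nat_lit 608) (nat_lit 8875564880) (nat_lit 76) (nat_lit 3825363114) (nat_lit 281) (nat_lit 5) (nat_lit 289) (nat_lit 5) (nat_lit 282) (nat_lit 5) (nat_lit 467) (nat_lit 404) (nat_lit 269))))))))
noncomputable def xc169 : XT := (XT.nd (nat_lit 1560) (nat_lit 3648) (nat_lit 0) (XT.nd (nat_lit 780) (nat_lit 2888) (nat_lit 0) (XT.nd (nat_lit 390) (nat_lit 1596) (nat_lit 0) (XT.nd (nat_lit 156) (nat_lit 1140) (nat_lit 0) (XT.nd (nat_lit 78) (nat_lit 608) (nat_lit 0) (XT.lf (nat_lit 0) (nat_lit 3571087745) (nat_lit 608) (nat_lit 606046742) (nat_lit 76) (nat_lit 9296298125) (nat_lit 281) (nat_lit 5) (nat_lit 289) (nat_lit 5) (nat_lit 282) (nat_lit 5) (nat_lit 468) (nat_lit 404) (nat_lit 268)) (XT.lf (nat_lit 0) (nat_lit 6622162888) (nat_lit 684) (nat_lit 5719043528) (nat_lit 76) (nat_lit 1282583493) (nat_lit 273) (nat_lit 5) (nat_lit 282) (nat_lit 5) (nat_lit 274) (nat_lit 5) (nat_lit 469) (nat_lit 404) (nat_lit 267)))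 (XT.nd (nat_lit 78) (nat_lit 608) (nat_lit 0) (XT.lf (nat_lit 0) (nat_lit 2806592689) (nat_lit 532) (nat_lit 6963217249) (nat_lit 608) (nat_lit 4006633404) (nat_lit 266) (nat_lit 5) (nat_lit 273) (nat_lit 5) (nat_lit 274) (nat_lit 5) (nat_lit 470) (nat_lit 404) (nat_lit 266)) (XT.nd (nat_lit 78) (nat_lit 608) (nat_lit 0) (XT.lf (nat_lit 0) (nat_lit 11560968878) (nat_lit 532) (nat_lit 1443547655) (nat_lit 608) (nat_lit 927151179) (nat_lit 266) (nat_lit 5) (nat_lit 273) (nat_lit 5) (nat_lit 274) (nat_lit 5) (nat_lit 471) (nat_lit 404) (nat_lit 265)) (XT.lf (nat_lit 0) (nat_lit 2240210211) (nat_lit 608) (nat_lit 7665104068) (nat_lit 76) (nat_lit 4183288297) (nat_lit 258) (nat_lit 5) (nat_lit 266) (nat_lit 5) (nat_lit 259) (nat_lit 5) (nat_lit 472) (nat_lit 404) (nat_lit 264))))) (XT.nd (nat_lit 156) (nat_lit 1064) (nat_lit 0) (XT.nd (nat_lit 78) (nat_lit 0) (nat_lit 0) (XT.lf (nat_lit 0) (nat_lit 1157507989) (nat_lit 532) (nat_lit 4320133250)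 (nat_lit 608) (nat_lit 8770529589) (nat_lit 251) (nat_lit 5) (nat_lit 258) (nat_lit 5) (nat_lit 259) (nat_lit 5) (nat_lit 473) (nat_lit 404) (nat_lit 263)) (XT.lf (nat_lit 0) (nat_lit 8826688828) (nat_lit 608) (nat_lit 4178046703) (nat_lit 76) (nat_lit 1405257555) (nat_lit 251) (nat_lit 5) (nat_lit 259) (nat_lit 5) (nat_lit 252) (nat_lit 5) (nat_lit 474) (nat_lit 404) (nat_lit 262))) (XT.nd (nat_lit 78) (nat_lit 532) (nat_lit 0) (XT.lf (nat_lit 0) (nat_lit 4929907080) (nat_lit 532) (nat_lit 7359851837) (nat_lit 608) (nat_lit 2284352042) (nat_lit 244) (nat_lit 5) (nat_lit 251) (nat_lit 5) (nat_lit 252) (nat_lit 5) (nat_lit 475) (nat_lit 404) (nat_lit 261)) (XT.nd (nat_lit 78) (nat_lit 456) (nat_lit 0) (XT.lf (nat_lit 0) (nat_lit 1081107917) (nat_lit 608) (nat_lit 490513595) (nat_lit 76) (nat_lit 13169455346) (nat_lit 243) (nat_lit 5) (nat_lit 251) (nat_lit 5) (nat_lit 244) (nat_lit 5) (nat_lit 476) (nat_lit 404) (nat_lit 260)) (XT.lf (nat_lit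 0) (nat_lit 4556616096) (nat_lit 532) (nat_lit 6009170603) (nat_lit 76) (nat_lit 4343826855) (nat_lit 237) (nat_lit 5) (nat_lit 244) (nat_lit 5) (nat_lit 238) (nat_lit 5) (nat_lit 477) (nat_lit 404) (nat_lit 259)))))) (XT.nd (nat_lit 390) (nat_lit 1368) (nat_lit 0) (XT.nd (nat_lit 156) (nat_lit 988) (nat_lit 0) (XT.nd (nat_lit 78) (nat_lit 0) (nat_lit 0) (XT.lf (nat_lit 0) (nat_lit 3420089889) (nat_lit 532) (nat_lit 4704319397) (nat_lit 608) (nat_lit 6956656201) (nat_lit 230) (nat_lit 5) (nat_lit 237) (nat_lit 5) (nat_lit 238) (nat_lit 5) (nat_lit 478) (nat_lit 404) (nat_lit 258)) (XT.lf (nat_lit 0) (nat_lit 11799372596) (nat_lit 608) (nat_lit 2163138015) (nat_lit 76) (nat_lit 1292719562) (nat_lit 230) (nat_lit 5) (nat_lit 238) (nat_lit 5) (nat_lit 231) (nat_lit 5) (nat_lit 479) (nat_lit 404) (nat_lit 257))) (XT.nd (nat_lit 78) (nat_lit 456) (nat_lit 0) (XT.lf (nat_lit 0) (nat_lit 181433133) (nat_lit 532) (nat_lit 7858358855) (nat_lit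 76) (nat_lit 7391711563) (nat_lit 223) (nat_lit 5) (nat_lit 230) (nat_lit 5) (nat_lit 224) (nat_lit 5) (nat_lit 480) (nat_lit 404) (nat_lit 256)) (XT.nd (nat_lit 78) (nat_lit 0) (nat_lit 0) (XT.lf (nat_lit 0) (nat_lit 1905950524) (nat_lit 456) (nat_lit 1953527237) (nat_lit 532) (nat_lit 11751082128) (nat_lit 217) (nat_lit 5) (nat_lit 223) (nat_lit 5) (nat_lit 224) (nat_lit 5) (nat_lit 481) (nat_lit 404) (nat_lit 255)) (XT.lf (nat_lit 0) (nat_lit 7679134078) (nat_lit 532) (nat_lit 3866666021) (nat_lit 76) (nat_lit 4246036241) (nat_lit 217) (nat_lit 5) (nat_lit 224) (nat_lit 5) (nat_lit 218) (nat_lit 5) (nat_lit 482) (nat_lit 404) (nat_lit 254))))) (XT.nd (nat_lit 156) (nat_lit 456) (nat_lit 0) (XT.nd (nat_lit 78) (nat_lit 456) (nat_lit 0) (XT.lf (nat_lit 0) (nat_lit 6218399918) (nat_lit 456) (nat_lit 5397688029) (nat_lit 532) (nat_lit 4359832284) (nat_lit 211) (nat_lit 5) (nat_lit 217) (nat_lit 5) (nat_lit 218) (nat_lit 5) (nat_lit 483)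 (nat_lit 404) (nat_lit 253)) (XT.lf (nat_lit 0) (nat_lit 375149747) (nat_lit 456) (nat_lit 15278537382) (nat_lit 532) (nat_lit 509560545) (nat_lit 205) (nat_lit 5) (nat_lit 211) (nat_lit 5) (nat_lit 212) (nat_lit 5) (nat_lit 484) (nat_lit 404) (nat_lit 252))) (XT.nd (nat_lit 78) (nat_lit 380) (nat_lit 0) (XT.lf (nat_lit 0) (nat_lit 3462273857) (nat_lit 532) (nat_lit 5587027582) (nat_lit 76) (nat_lit 7302788802) (nat_lit 204) (nat_lit 5) (nat_lit 211) (nat_lit 5) (nat_lit 205) (nat_lit 5) (nat_lit 485) (nat_lit 404) (nat_lit 251)) (XT.nd (nat_lit 78) (nat_lit 0) (nat_lit 0) (XT.lf (nat_lit 0) (nat_lit 4860410788) (nat_lit 380) (nat_lit 2665838447) (nat_lit 456) (nat_lit 9018002514) (nat_lit 199) (nat_lit 5) (nat_lit 204) (nat_lit 5) (nat_lit 205) (nat_lit 5) (nat_lit 486) (nat_lit 404) (nat_lit 250)) (XT.lf (nat_lit 0) (nat_lit 11722255285) (nat_lit 456) (nat_lit 1190294416) (nat_lit 76) (nat_lit 3826691763) (nat_lit 199) (nat_lit 5) (nat_lit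 205) (nat_lit 5) (nat_lit 200) (nat_lit 5) (nat_lit 487) (nat_lit 404) (nat_lit 249))))))) (XT.nd (nat_lit 780) (nat_lit 760) (nat_lit 0) (XT.nd (nat_lit 390) (nat_lit 1216) (nat_lit 0) (XT.nd (nat_lit 156) (nat_lit 760) (nat_lit 0) (XT.nd (nat_lit 78) (nat_lit 456) (nat_lit 0) (XT.lf (nat_lit 0) (nat_lit 9603672555) (nat_lit 456) (nat_lit 6466796064) (nat_lit 532) (nat_lit 866296611) (nat_lit 193) (nat_lit 5) (nat_lit 199) (nat_lit 5) (nat_lit 200) (nat_lit 5) (nat_lit 488) (nat_lit 404) (nat_lit 248)) (XT.lf (nat_lit 0) (nat_lit 3343319509) (nat_lit 456) (nat_lit 13640687246) (nat_lit 76) (nat_lit 153393911) (nat_lit 187) (nat_lit 5) (nat_lit 193) (nat_lit 5) (nat_lit 188) (nat_lit 5) (nat_lit 489) (nat_lit 404) (nat_lit 247))) (XT.nd (nat_lit 78) (nat_lit 760) (nat_lit 0) (XT.lf (nat_lit 0) (nat_lit 7706292723) (nat_lit 456) (nat_lit 2765299423) (nat_lit 76) (nat_lit 6868726849) (nat_lit 187) (nat_lit 5) (nat_lit 193) (nat_lit 5) (nat_lit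 188) (nat_lit 5) (nat_lit 490) (nat_lit 404) (nat_lit 246)) (XT.nd (nat_lit 78) (nat_lit 380) (nat_lit 0) (XT.lf (nat_lit 0) (nat_lit 8420520026) (nat_lit 380) (nat_lit 3779296951) (nat_lit 456) (nat_lit 5346612882) (nat_lit 182) (nat_lit 5) (nat_lit 187) (nat_lit 5) (nat_lit 188) (nat_lit 5) (nat_lit 491) (nat_lit 404) (nat_lit 245)) (XT.lf (nat_lit 0) (nat_lit 2101319415) (nat_lit 380) (nat_lit 14722687473) (nat_lit 456) (nat_lit 931840149) (nat_lit 177) (nat_lit 5) (nat_lit 182) (nat_lit 5) (nat_lit 183) (nat_lit 5) (nat_lit 492) (nat_lit 404) (nat_lit 244))))) (XT.nd (nat_lit 156) (nat_lit 760) (nat_lit 0) (XT.nd (nat_lit 78) (nat_lit 380) (nat_lit 0) (XT.lf (nat_lit 0) (nat_lit 3599788953) (nat_lit 456) (nat_lit 4357668532) (nat_lit 76) (nat_lit 10010023374) (nat_lit 176) (nat_lit 5) (nat_lit 182) (nat_lit 5) (nat_lit 177) (nat_lit 5) (nat_lit 493) (nat_lit 404) (nat_lit 243)) (XT.lf (nat_lit 0) (nat_lit 7236593956) (nat_lit 380)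 (nat_lit 1008921400) (nat_lit 456) (nat_lit 9936989971) (nat_lit 171) (nat_lit 5) (nat_lit 176) (nat_lit 5) (nat_lit 177) (nat_lit 5) (nat_lit 494) (nat_lit 404) (nat_lit 242))) (XT.nd (nat_lit 78) (nat_lit 456) (nat_lit 0) (XT.lf (nat_lit 0) (nat_lit 672387290) (nat_lit 304) (nat_lit 12374047358) (nat_lit 380) (nat_lit 5354150070) (nat_lit 167) (nat_lit 5) (nat_lit 171) (nat_lit 5) (nat_lit 172) (nat_lit 5) (nat_lit 495) (nat_lit 404) (nat_lit 241)) (XT.nd (nat_lit 78) (nat_lit 456) (nat_lit 0) (XT.lf (nat_lit 0) (nat_lit 12647433376) (nat_lit 304) (nat_lit 5365143733) (nat_lit 380) (nat_lit 609064491) (nat_lit 167) (nat_lit 5) (nat_lit 171) (nat_lit 5) (nat_lit 172) (nat_lit 5) (nat_lit 496) (nat_lit 404) (nat_lit 240)) (XT.lf (nat_lit 0) (nat_lit 4215953018) (nat_lit 456) (nat_lit 12808277393) (nat_lit 76) (nat_lit 1821529418) (nat_lit 161) (nat_lit 5) (nat_lit 167) (nat_lit 5) (nat_lit 162) (nat_lit 5) (nat_lit 497) (nat_lit 404)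 (nat_lit 239)))))) (XT.nd (nat_lit 52182) (nat_lit 0) (nat_lit 36404) (XT.nd (nat_lit 156) (nat_lit 456) (nat_lit 0) (XT.nd (nat_lit 78) (nat_lit 304) (nat_lit 0) (XT.lf (nat_lit 0) (nat_lit 9194526627) (nat_lit 456) (nat_lit 760087548) (nat_lit 76) (nat_lit 9118361509) (nat_lit 161) (nat_lit 5) (nat_lit 167) (nat_lit 5) (nat_lit 162) (nat_lit 5) (nat_lit 498) (nat_lit 404) (nat_lit 238)) (XT.lf (nat_lit 0) (nat_lit 11665305724) (nat_lit 304) (nat_lit 2672631519) (nat_lit 380) (nat_lit 4965493301) (nat_lit 157) (nat_lit 5) (nat_lit 161) (nat_lit 5) (nat_lit 162) (nat_lit 5) (nat_lit 499) (nat_lit 404) (nat_lit 237))) (XT.nd (nat_lit 78) (nat_lit 0) (nat_lit 0) (XT.lf (nat_lit 0) (nat_lit 102427272) (nat_lit 456) (nat_lit 14711325042) (nat_lit 76) (nat_lit 4723590143) (nat_lit 151) (nat_lit 5) (nat_lit 157) (nat_lit 5) (nat_lit 152) (nat_lit 5) (nat_lit 500) (nat_lit 404) (nat_lit 236)) (XT.nd (nat_lit 51870) (nat_lit 0) (nat_lit 37772)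 (XT.lf (nat_lit 0) (nat_lit 5264186009) (nat_lit 456) (nat_lit 2199688302) (nat_lit 76) (nat_lit 12310222506) (nat_lit 151) (nat_lit 5) (nat_lit 157) (nat_lit 5) (nat_lit 152) (nat_lit 5) (nat_lit 501) (nat_lit 404) (nat_lit 235)) (XT.lf (nat_lit 0) (nat_lit 882197152) (nat_lit 0) (nat_lit 882197152) (nat_lit 1292) (nat_lit 2049980432) (nat_lit 648) (nat_lit 5) (nat_lit 648) (nat_lit 3) (nat_lit 665) (nat_lit 3) (nat_lit 405) (nat_lit 405) (nat_lit 330))))) (XT.nd (nat_lit 234) (nat_lit 0) (nat_lit 76) (XT.nd (nat_lit 78) (nat_lit 1368) (nat_lit 0) (XT.lf (nat_lit 0) (nat_lit 4961474999) (nat_lit 1292) (nat_lit 2045166189) (nat_lit 1368) (nat_lit 670447810) (nat_lit 648) (nat_lit 5) (nat_lit 665) (nat_lit 3) (nat_lit 666) (nat_lit 5) (nat_lit 406) (nat_lit 405) (nat_lit 329)) (XT.nd (nat_lit 78) (nat_lit 1368) (nat_lit 0) (XT.lf (nat_lit 76) (nat_lit 1843784737) (nat_lit 0) (nat_lit 4566266232) (nat_lit 1368) (nat_lit 1316599627) (nat_lit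 649) (nat_lit 5) (nat_lit 648) (nat_lit 5) (nat_lit 666) (nat_lit 5) (nat_lit 407) (nat_lit 405) (nat_lit 328)) (XT.lf (nat_lit 0) (nat_lit 86695783) (nat_lit 1368) (nat_lit 1958971337) (nat_lit 1444) (nat_lit 5731967000) (nat_lit 630) (nat_lit 5) (nat_lit 648) (nat_lit 5) (nat_lit 649) (nat_lit 5) (nat_lit 408) (nat_lit 405) (nat_lit 327)))) (XT.nd (nat_lit 78) (nat_lit 0) (nat_lit 0) (XT.lf (nat_lit 0) (nat_lit 1482007609) (nat_lit 1368) (nat_lit 5791189338) (nat_lit 1444) (nat_lit 556634714) (nat_lit 631) (nat_lit 5) (nat_lit 649) (nat_lit 5) (nat_lit 650) (nat_lit 5) (nat_lit 409) (nat_lit 405) (nat_lit 326)) (XT.nd (nat_lit 78) (nat_lit 0) (nat_lit 0) (XT.lf (nat_lit 0) (nat_lit 2897319609) (nat_lit 1368) (nat_lit 1773445448) (nat_lit 1444) (nat_lit 3212466221) (nat_lit 631) (nat_lit 5) (nat_lit 649) (nat_lit 5) (nat_lit 650) (nat_lit 5) (nat_lit 410) (nat_lit 405) (nat_lit 325)) (XT.lf (nat_lit 76) (nat_lit 2335913446) (nat_lit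 0) (nat_lit 1986184510) (nat_lit 1444) (nat_lit 3615977728) (nat_lit 632) (nat_lit 5) (nat_lit 631) (nat_lit 5) (nat_lit 650) (nat_lit 5) (nat_lit 411) (nat_lit 405) (nat_lit 324))))))))
noncomputable def xc170 : XT := (XT.nd (nat_lit 1560) (nat_lit 12540) (nat_lit 0) (XT.nd (nat_lit 780) (nat_lit 4560) (nat_lit 0) (XT.nd (nat_lit 390) (nat_lit 1368) (nat_lit 0) (XT.nd (nat_lit 156) (nat_lit 1444) (nat_lit 0) (XT.nd (nat_lit 78) (nat_lit 0) (nat_lit 0) (XT.lf (nat_lit 0) (nat_lit 5758862411) (nat_lit 1368) (nat_lit 1467251703) (nat_lit 1444) (nat_lit 768233051) (nat_lit 632) (nat_lit 5) (nat_lit 650) (nat_lit 5) (nat_lit 651) (nat_lit 5) (nat_lit 412) (nat_lit 405) (nat_lit 323)) (XT.lf (nat_lit 76) (nat_lit 2753701225) (nat_lit 0) (nat_lit 4468975604) (nat_lit 1444) (nat_lit 829100957) (nat_lit 633) (nat_lit 5) (nat_lit 632) (nat_lit 5) (nat_lit 651) (nat_lit 5) (nat_lit 413) (nat_lit 405) (nat_lit 322))) (XT.nd (nat_lit 78) (nat_lit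 0) (nat_lit 76) (XT.lf (nat_lit 0) (nat_lit 574965693) (nat_lit 1444) (nat_lit 1055113124) (nat_lit 1520) (nat_lit 6480649681) (nat_lit 613) (nat_lit 5) (nat_lit 632) (nat_lit 5) (nat_lit 633) (nat_lit 5) (nat_lit 414) (nat_lit 405) (nat_lit 321)) (XT.nd (nat_lit 78) (nat_lit 0) (nat_lit 0) (XT.lf (nat_lit 0) (nat_lit 1994082885) (nat_lit 1444) (nat_lit 4888580964) (nat_lit 1520) (nat_lit 1288123350) (nat_lit 614) (nat_lit 5) (nat_lit 633) (nat_lit 5) (nat_lit 634) (nat_lit 5) (nat_lit 415) (nat_lit 405) (nat_lit 320)) (XT.lf (nat_lit 0) (nat_lit 3428298851) (nat_lit 1444) (nat_lit 542276318) (nat_lit 1520) (nat_lit 4261737578) (nat_lit 614) (nat_lit 5) (nat_lit 633) (nat_lit 5) (nat_lit 634) (nat_lit 5) (nat_lit 416) (nat_lit 405) (nat_lit 319))))) (XT.nd (nat_lit 156) (nat_lit 1444) (nat_lit 0) (XT.nd (nat_lit 78) (nat_lit 0) (nat_lit 76) (XT.lf (nat_lit 76) (nat_lit 3922692360) (nat_lit 0) (nat_lit 963381333) (nat_lit 1520) (nat_lit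 3409097621) (nat_lit 615) (nat_lit 5) (nat_lit 614) (nat_lit 5) (nat_lit 634) (nat_lit 5) (nat_lit 417) (nat_lit 405) (nat_lit 318)) (XT.lf (nat_lit 76) (nat_lit 92373868) (nat_lit 0) (nat_lit 6268500301) (nat_lit 1520) (nat_lit 1998655480) (nat_lit 616) (nat_lit 5) (nat_lit 615) (nat_lit 5) (nat_lit 635) (nat_lit 5) (nat_lit 418) (nat_lit 405) (nat_lit 317))) (XT.nd (nat_lit 78) (nat_lit 1520) (nat_lit 0) (XT.lf (nat_lit 76) (nat_lit 4679212190) (nat_lit 0) (nat_lit 3192043844) (nat_lit 1520) (nat_lit 553797410) (nat_lit 616) (nat_lit 5) (nat_lit 615) (nat_lit 5) (nat_lit 635) (nat_lit 5) (nat_lit 419) (nat_lit 405) (nat_lit 316)) (XT.nd (nat_lit 78) (nat_lit 0) (nat_lit 76) (XT.lf (nat_lit 76) (nat_lit 850976749) (nat_lit 0) (nat_lit 33234607) (nat_lit 1596) (nat_lit 7608030520) (nat_lit 596) (nat_lit 5) (nat_lit 595) (nat_lit 5) (nat_lit 616) (nat_lit 5) (nat_lit 420) (nat_lit 405) (nat_lit 315)) (XT.lf (nat_lit 0) (nat_lit 2360872241)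 (nat_lit 1520) (nat_lit 3014912399) (nat_lit 1596) (nat_lit 3184570079) (nat_lit 596) (nat_lit 5) (nat_lit 616) (nat_lit 5) (nat_lit 617) (nat_lit 5) (nat_lit 421) (nat_lit 405) (nat_lit 314)))))) (XT.nd (nat_lit 390) (nat_lit 3192) (nat_lit 0) (XT.nd (nat_lit 156) (nat_lit 1444) (nat_lit 0) (XT.nd (nat_lit 78) (nat_lit 0) (nat_lit 76) (XT.lf (nat_lit 76) (nat_lit 1705914241) (nat_lit 0) (nat_lit 2144304830) (nat_lit 1596) (nat_lit 4779947693) (nat_lit 597) (nat_lit 5) (nat_lit 596) (nat_lit 5) (nat_lit 617) (nat_lit 5) (nat_lit 422) (nat_lit 405) (nat_lit 313)) (XT.lf (nat_lit 0) (nat_lit 5369524612) (nat_lit 1520) (nat_lit 2167234910) (nat_lit 1596) (nat_lit 1164612093) (nat_lit 597) (nat_lit 5) (nat_lit 617) (nat_lit 5) (nat_lit 618) (nat_lit 5) (nat_lit 423) (nat_lit 405) (nat_lit 312))) (XT.nd (nat_lit 78) (nat_lit 1520) (nat_lit 0) (XT.lf (nat_lit 76) (nat_lit 2685673317) (nat_lit 0) (nat_lit 4238051265) (nat_lit 1596) (nat_lit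 1850185814) (nat_lit 598) (nat_lit 5) (nat_lit 597) (nat_lit 5) (nat_lit 618) (nat_lit 5) (nat_lit 424) (nat_lit 405) (nat_lit 311)) (XT.nd (nat_lit 78) (nat_lit 1520) (nat_lit 0) (XT.lf (nat_lit 76) (nat_lit 7644878387) (nat_lit 0) (nat_lit 851945101) (nat_lit 1596) (nat_lit 351320166) (nat_lit 598) (nat_lit 5) (nat_lit 597) (nat_lit 5) (nat_lit 618) (nat_lit 5) (nat_lit 425) (nat_lit 405) (nat_lit 310)) (XT.lf (nat_lit 0) (nat_lit 1177531618) (nat_lit 1596) (nat_lit 5139366665) (nat_lit 1672) (nat_lit 2606501344) (nat_lit 577) (nat_lit 5) (nat_lit 598) (nat_lit 5) (nat_lit 599) (nat_lit 5) (nat_lit 426) (nat_lit 405) (nat_lit 309))))) (XT.nd (nat_lit 156) (nat_lit 3192) (nat_lit 0) (XT.nd (nat_lit 78) (nat_lit 0) (nat_lit 76) (XT.lf (nat_lit 0) (nat_lit 2720079635) (nat_lit 1596) (nat_lit 141154784) (nat_lit 1672) (nat_lit 6139123389) (nat_lit 577) (nat_lit 5) (nat_lit 598) (nat_lit 5) (nat_lit 599) (nat_lit 5) (nat_lit 427) (nat_lit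 405) (nat_lit 308)) (XT.lf (nat_lit 0) (nat_lit 4305073837) (nat_lit 1596) (nat_lit 4080760853) (nat_lit 76) (nat_lit 692788559) (nat_lit 578) (nat_lit 5) (nat_lit 599) (nat_lit 5) (nat_lit 579) (nat_lit 5) (nat_lit 428) (nat_lit 405) (nat_lit 307))) (XT.nd (nat_lit 78) (nat_lit 1672) (nat_lit 0) (XT.lf (nat_lit 0) (nat_lit 1057532213) (nat_lit 1596) (nat_lit 4865963889) (nat_lit 1672) (nat_lit 3234923332) (nat_lit 557) (nat_lit 5) (nat_lit 578) (nat_lit 5) (nat_lit 579) (nat_lit 5) (nat_lit 429) (nat_lit 405) (nat_lit 306)) (XT.nd (nat_lit 78) (nat_lit 1672) (nat_lit 0) (XT.lf (nat_lit 0) (nat_lit 6333521008) (nat_lit 1596) (nat_lit 1243468390) (nat_lit 1672) (nat_lit 1662768092) (nat_lit 557) (nat_lit 5) (nat_lit 578) (nat_lit 5) (nat_lit 579) (nat_lit 5) (nat_lit 430) (nat_lit 405) (nat_lit 305)) (XT.lf (nat_lit 0) (nat_lit 2387201747) (nat_lit 1672) (nat_lit 6883596553) (nat_lit 1748) (nat_lit 51779094) (nat_lit 535) (nat_lit 5) (nat_lit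 557) (nat_lit 5) (nat_lit 558) (nat_lit 5) (nat_lit 431) (nat_lit 405) (nat_lit 304))))))) (XT.nd (nat_lit 780) (nat_lit 5016) (nat_lit 0) (XT.nd (nat_lit 390) (nat_lit 2736) (nat_lit 0) (XT.nd (nat_lit 156) (nat_lit 2964) (nat_lit 0) (XT.nd (nat_lit 78) (nat_lit 1748) (nat_lit 0) (XT.lf (nat_lit 0) (nat_lit 1574437958) (nat_lit 1748) (nat_lit 1620138169) (nat_lit 76) (nat_lit 6212193313) (nat_lit 534) (nat_lit 5) (nat_lit 557) (nat_lit 5) (nat_lit 535) (nat_lit 5) (nat_lit 432) (nat_lit 405) (nat_lit 303)) (XT.lf (nat_lit 0) (nat_lit 3237721648) (nat_lit 1824) (nat_lit 5665458728) (nat_lit 76) (nat_lit 589353393) (nat_lit 511) (nat_lit 5) (nat_lit 535) (nat_lit 5) (nat_lit 512) (nat_lit 5) (nat_lit 433) (nat_lit 405) (nat_lit 302))) (XT.nd (nat_lit 78) (nat_lit 2964) (nat_lit 0) (XT.lf (nat_lit 0) (nat_lit 4943205260) (nat_lit 1824) (nat_lit 216456122) (nat_lit 76) (nat_lit 4420173318) (nat_lit 511) (nat_lit 5) (nat_lit 535) (nat_lit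 5) (nat_lit 512) (nat_lit 5) (nat_lit 434) (nat_lit 405) (nat_lit 301)) (XT.nd (nat_lit 78) (nat_lit 1140) (nat_lit 0) (XT.lf (nat_lit 0) (nat_lit 5392022349) (nat_lit 1824) (nat_lit 1303073149) (nat_lit 1900) (nat_lit 2973540213) (nat_lit 487) (nat_lit 5) (nat_lit 511) (nat_lit 5) (nat_lit 512) (nat_lit 5) (nat_lit 435) (nat_lit 405) (nat_lit 300)) (XT.lf (nat_lit 0) (nat_lit 1336305770) (nat_lit 1140) (nat_lit 7150554265) (nat_lit 1216) (nat_lit 1272255977) (nat_lit 472) (nat_lit 5) (nat_lit 487) (nat_lit 5) (nat_lit 488) (nat_lit 5) (nat_lit 436) (nat_lit 405) (nat_lit 299))))) (XT.nd (nat_lit 156) (nat_lit 1748) (nat_lit 0) (XT.nd (nat_lit 78) (nat_lit 912) (nat_lit 0) (XT.lf (nat_lit 0) (nat_lit 472277272) (nat_lit 1216) (nat_lit 2763915700) (nat_lit 76) (nat_lit 6614846890) (nat_lit 471) (nat_lit 5) (nat_lit 487) (nat_lit 5) (nat_lit 472) (nat_lit 5) (nat_lit 437) (nat_lit 405) (nat_lit 298)) (XT.lf (nat_lit 0) (nat_lit 2237603800)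 (nat_lit 988) (nat_lit 6930763218) (nat_lit 76) (nat_lit 776208216) (nat_lit 459) (nat_lit 5) (nat_lit 472) (nat_lit 5) (nat_lit 460) (nat_lit 5) (nat_lit 438) (nat_lit 405) (nat_lit 297))) (XT.nd (nat_lit 78) (nat_lit 1748) (nat_lit 0) (XT.lf (nat_lit 0) (nat_lit 4056857601) (nat_lit 988) (nat_lit 1137215222) (nat_lit 76) (nat_lit 4845536077) (nat_lit 459) (nat_lit 5) (nat_lit 472) (nat_lit 5) (nat_lit 460) (nat_lit 5) (nat_lit 439) (nat_lit 405) (nat_lit 296)) (XT.nd (nat_lit 78) (nat_lit 836) (nat_lit 0) (XT.lf (nat_lit 0) (nat_lit 4815149227) (nat_lit 912) (nat_lit 1107550433) (nat_lit 988) (nat_lit 4213639515) (nat_lit 447) (nat_lit 5) (nat_lit 459) (nat_lit 5) (nat_lit 460) (nat_lit 5) (nat_lit 440) (nat_lit 405) (nat_lit 295)) (XT.lf (nat_lit 0) (nat_lit 635037529) (nat_lit 836) (nat_lit 7201725302) (nat_lit 912) (nat_lit 2398023139) (nat_lit 436) (nat_lit 5) (nat_lit 447) (nat_lit 5) (nat_lit 448) (nat_lit 5) (nat_lit 441) (nat_lit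 405) (nat_lit 294)))))) (XT.nd (nat_lit 390) (nat_lit 2356) (nat_lit 0) (XT.nd (nat_lit 156) (nat_lit 1672) (nat_lit 0) (XT.nd (nat_lit 78) (nat_lit 988) (nat_lit 0) (XT.lf (nat_lit 0) (nat_lit 6754729026) (nat_lit 836) (nat_lit 3056875095) (nat_lit 912) (nat_lit 523147643) (nat_lit 436) (nat_lit 5) (nat_lit 447) (nat_lit 5) (nat_lit 448) (nat_lit 5) (nat_lit 442) (nat_lit 405) (nat_lit 293)) (XT.lf (nat_lit 0) (nat_lit 1375199016) (nat_lit 988) (nat_lit 7879896830) (nat_lit 76) (nat_lit 1181356761) (nat_lit 423) (nat_lit 5) (nat_lit 436) (nat_lit 5) (nat_lit 424) (nat_lit 5) (nat_lit 443) (nat_lit 405) (nat_lit 292))) (XT.nd (nat_lit 78) (nat_lit 1672) (nat_lit 0) (XT.lf (nat_lit 0) (nat_lit 3328977850) (nat_lit 988) (nat_lit 1719674208) (nat_lit 76) (nat_lit 5490976844) (nat_lit 423) (nat_lit 5) (nat_lit 436) (nat_lit 5) (nat_lit 424) (nat_lit 5) (nat_lit 444) (nat_lit 405) (nat_lit 291)) (XT.nd (nat_lit 78) (nat_lit 836) (nat_lit 0)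 (XT.lf (nat_lit 0) (nat_lit 4604044188) (nat_lit 836) (nat_lit 728108520) (nat_lit 912) (nat_lit 5312509606) (nat_lit 412) (nat_lit 5) (nat_lit 423) (nat_lit 5) (nat_lit 424) (nat_lit 5) (nat_lit 445) (nat_lit 405) (nat_lit 290)) (XT.lf (nat_lit 0) (nat_lit 285421863) (nat_lit 836) (nat_lit 7108002150) (nat_lit 912) (nat_lit 3358011723) (nat_lit 401) (nat_lit 5) (nat_lit 412) (nat_lit 5) (nat_lit 413) (nat_lit 5) (nat_lit 446) (nat_lit 405) (nat_lit 289))))) (XT.nd (nat_lit 234) (nat_lit 1520) (nat_lit 0) (XT.nd (nat_lit 78) (nat_lit 836) (nat_lit 0) (XT.lf (nat_lit 0) (nat_lit 6794771101) (nat_lit 836) (nat_lit 2727401171) (nat_lit 912) (nat_lit 1337647323) (nat_lit 401) (nat_lit 5) (nat_lit 412) (nat_lit 5) (nat_lit 413) (nat_lit 5) (nat_lit 447) (nat_lit 405) (nat_lit 288)) (XT.nd (nat_lit 78) (nat_lit 0) (nat_lit 0) (XT.lf (nat_lit 0) (nat_lit 722295304) (nat_lit 836) (nat_lit 8510169675) (nat_lit 76) (nat_lit 1737639157) (nat_lit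 390) (nat_lit 5) (nat_lit 401) (nat_lit 5) (nat_lit 391) (nat_lit 5) (nat_lit 448) (nat_lit 405) (nat_lit 287)) (XT.lf (nat_lit 0) (nat_lit 2832470706) (nat_lit 836) (nat_lit 1958923054) (nat_lit 76) (nat_lit 6290484868) (nat_lit 390) (nat_lit 5) (nat_lit 401) (nat_lit 5) (nat_lit 391) (nat_lit 5) (nat_lit 449) (nat_lit 405) (nat_lit 286)))) (XT.nd (nat_lit 78) (nat_lit 760) (nat_lit 0) (XT.lf (nat_lit 0) (nat_lit 4765960181) (nat_lit 760) (nat_lit 231604532) (nat_lit 836) (nat_lit 6198069597) (nat_lit 380) (nat_lit 5) (nat_lit 390) (nat_lit 5) (nat_lit 391) (nat_lit 5) (nat_lit 450) (nat_lit 405) (nat_lit 285)) (XT.nd (nat_lit 78) (nat_lit 0) (nat_lit 0) (XT.lf (nat_lit 0) (nat_lit 295474811) (nat_lit 760) (nat_lit 6936319191) (nat_lit 836) (nat_lit 4079354435) (nat_lit 370) (nat_lit 5) (nat_lit 380) (nat_lit 5) (nat_lit 381) (nat_lit 5) (nat_lit 451) (nat_lit 405) (nat_lit 284)) (XT.lf (nat_lit 0) (nat_lit 7220748394) (nat_lit 760)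 (nat_lit 2316842100) (nat_lit 836) (nat_lit 1890844700) (nat_lit 370) (nat_lit 5) (nat_lit 380) (nat_lit 5) (nat_lit 381) (nat_lit 5) (nat_lit 452) (nat_lit 405) (nat_lit 283))))))))
noncomputable def xc171 : XT := (XT.nd (nat_lit 1638) (nat_lit 6232) (nat_lit 0) (XT.nd (nat_lit 780) (nat_lit 4256) (nat_lit 0) (XT.nd (nat_lit 390) (nat_lit 2052) (nat_lit 0) (XT.nd (nat_lit 156) (nat_lit 1368) (nat_lit 0) (XT.nd (nat_lit 78) (nat_lit 0) (nat_lit 0) (XT.lf (nat_lit 0) (nat_lit 352929286) (nat_lit 836) (nat_lit 8813191014) (nat_lit 76) (nat_lit 2381583608) (nat_lit 359) (nat_lit 5) (nat_lit 370) (nat_lit 5) (nat_lit 360) (nat_lit 5) (nat_lit 453) (nat_lit 405) (nat_lit 282)) (XT.lf (nat_lit 0) (nat_lit 2642696889) (nat_lit 836) (nat_lit 1844275533) (nat_lit 76) (nat_lit 7181606876) (nat_lit 359) (nat_lit 5) (nat_lit 370) (nat_lit 5) (nat_lit 360) (nat_lit 5) (nat_lit 454) (nat_lit 405) (nat_lit 281))) (XT.nd (nat_lit 78) (nat_lit 684) (nat_lit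 0) (XT.lf (nat_lit 0) (nat_lit 4997816260) (nat_lit 760) (nat_lit 6479505889) (nat_lit 76) (nat_lit 314158916) (nat_lit 350) (nat_lit 5) (nat_lit 360) (nat_lit 5) (nat_lit 351) (nat_lit 5) (nat_lit 455) (nat_lit 405) (nat_lit 280)) (XT.nd (nat_lit 78) (nat_lit 0) (nat_lit 0) (XT.lf (nat_lit 0) (nat_lit 679046454) (nat_lit 684) (nat_lit 6750749959) (nat_lit 760) (nat_lit 4486449287) (nat_lit 341) (nat_lit 5) (nat_lit 350) (nat_lit 5) (nat_lit 351) (nat_lit 5) (nat_lit 456) (nat_lit 405) (nat_lit 279)) (XT.lf (nat_lit 0) (nat_lit 8048912098) (nat_lit 684) (nat_lit 1888363509) (nat_lit 760) (nat_lit 2105692832) (nat_lit 341) (nat_lit 5) (nat_lit 350) (nat_lit 5) (nat_lit 351) (nat_lit 5) (nat_lit 457) (nat_lit 405) (nat_lit 278))))) (XT.nd (nat_lit 156) (nat_lit 1292) (nat_lit 0) (XT.nd (nat_lit 78) (nat_lit 0) (nat_lit 0) (XT.lf (nat_lit 0) (nat_lit 344310989) (nat_lit 760) (nat_lit 8774999538) (nat_lit 76) (nat_lit 3052355920) (nat_lit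 331) (nat_lit 5) (nat_lit 341) (nat_lit 5) (nat_lit 332) (nat_lit 5) (nat_lit 458) (nat_lit 405) (nat_lit 277)) (XT.lf (nat_lit 0) (nat_lit 2838403039) (nat_lit 760) (nat_lit 1359381596) (nat_lit 76) (nat_lit 8104409741) (nat_lit 331) (nat_lit 5) (nat_lit 341) (nat_lit 5) (nat_lit 332) (nat_lit 5) (nat_lit 459) (nat_lit 405) (nat_lit 276))) (XT.nd (nat_lit 78) (nat_lit 608) (nat_lit 0) (XT.lf (nat_lit 0) (nat_lit 5412744575) (nat_lit 760) (nat_lit 6172985381) (nat_lit 76) (nat_lit 848995555) (nat_lit 322) (nat_lit 5) (nat_lit 332) (nat_lit 5) (nat_lit 323) (nat_lit 5) (nat_lit 460) (nat_lit 405) (nat_lit 275)) (XT.nd (nat_lit 78) (nat_lit 0) (nat_lit 0) (XT.lf (nat_lit 0) (nat_lit 1455743382) (nat_lit 608) (nat_lit 6613518428) (nat_lit 684) (nat_lit 4500031681) (nat_lit 314) (nat_lit 5) (nat_lit 322) (nat_lit 5) (nat_lit 323) (nat_lit 5) (nat_lit 461) (nat_lit 405) (nat_lit 274)) (XT.lf (nat_lit 0) (nat_lit 9301376400) (nat_lit 608) (nat_lit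 1503394829) (nat_lit 684) (nat_lit 1901264364) (nat_lit 314) (nat_lit 5) (nat_lit 322) (nat_lit 5) (nat_lit 323) (nat_lit 5) (nat_lit 462) (nat_lit 405) (nat_lit 273)))))) (XT.nd (nat_lit 390) (nat_lit 2356) (nat_lit 0) (XT.nd (nat_lit 156) (nat_lit 1216) (nat_lit 0) (XT.nd (nat_lit 78) (nat_lit 0) (nat_lit 0) (XT.lf (nat_lit 0) (nat_lit 777745724) (nat_lit 684) (nat_lit 8376118032) (nat_lit 76) (nat_lit 3690789520) (nat_lit 305) (nat_lit 5) (nat_lit 314) (nat_lit 5) (nat_lit 306) (nat_lit 5) (nat_lit 463) (nat_lit 405) (nat_lit 272)) (XT.lf (nat_lit 0) (nat_lit 3502650848) (nat_lit 684) (nat_lit 482264369) (nat_lit 76) (nat_lit 9000521293) (nat_lit 305) (nat_lit 5) (nat_lit 314) (nat_lit 5) (nat_lit 306) (nat_lit 5) (nat_lit 464) (nat_lit 405) (nat_lit 271))) (XT.nd (nat_lit 78) (nat_lit 608) (nat_lit 0) (XT.lf (nat_lit 0) (nat_lit 6325482546) (nat_lit 684) (nat_lit 5486137743) (nat_lit 76) (nat_lit 1316546550) (nat_lit 297) (nat_lit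 5) (nat_lit 306) (nat_lit 5) (nat_lit 298) (nat_lit 5) (nat_lit 465) (nat_lit 405) (nat_lit 270)) (XT.nd (nat_lit 78) (nat_lit 0) (nat_lit 0) (XT.lf (nat_lit 0) (nat_lit 2650925767) (nat_lit 608) (nat_lit 6585940626) (nat_lit 684) (nat_lit 4036243472) (nat_lit 289) (nat_lit 5) (nat_lit 297) (nat_lit 5) (nat_lit 298) (nat_lit 5) (nat_lit 466) (nat_lit 405) (nat_lit 269)) (XT.lf (nat_lit 0) (nat_lit 11006133568) (nat_lit 608) (nat_lit 1222561687) (nat_lit 684) (nat_lit 1191812150) (nat_lit 289) (nat_lit 5) (nat_lit 297) (nat_lit 5) (nat_lit 298) (nat_lit 5) (nat_lit 467) (nat_lit 405) (nat_lit 268))))) (XT.nd (nat_lit 234) (nat_lit 1140) (nat_lit 0) (XT.nd (nat_lit 78) (nat_lit 608) (nat_lit 0) (XT.lf (nat_lit 0) (nat_lit 1739564049) (nat_lit 608) (nat_lit 7591536930) (nat_lit 76) (nat_lit 4238480396) (nat_lit 281) (nat_lit 5) (nat_lit 289) (nat_lit 5) (nat_lit 282) (nat_lit 5) (nat_lit 468) (nat_lit 405) (nat_lit 267)) (XT.nd (nat_lit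 78) (nat_lit 0) (nat_lit 0) (XT.lf (nat_lit 0) (nat_lit 825541057) (nat_lit 608) (nat_lit 3903575258) (nat_lit 684) (nat_lit 8992052813) (nat_lit 273) (nat_lit 5) (nat_lit 281) (nat_lit 5) (nat_lit 282) (nat_lit 5) (nat_lit 469) (nat_lit 405) (nat_lit 266)) (XT.lf (nat_lit 0) (nat_lit 7826193581) (nat_lit 684) (nat_lit 4390883362) (nat_lit 76) (nat_lit 1657757014) (nat_lit 273) (nat_lit 5) (nat_lit 282) (nat_lit 5) (nat_lit 274) (nat_lit 5) (nat_lit 470) (nat_lit 405) (nat_lit 265)))) (XT.nd (nat_lit 78) (nat_lit 608) (nat_lit 0) (XT.lf (nat_lit 0) (nat_lit 4295775177) (nat_lit 532) (nat_lit 6729311192) (nat_lit 608) (nat_lit 3005688235) (nat_lit 266) (nat_lit 5) (nat_lit 273) (nat_lit 5) (nat_lit 274) (nat_lit 5) (nat_lit 471) (nat_lit 405) (nat_lit 264)) (XT.nd (nat_lit 78) (nat_lit 532) (nat_lit 0) (XT.lf (nat_lit 0) (nat_lit 112688458) (nat_lit 608) (nat_lit 993120615) (nat_lit 76) (nat_lit 13083695201) (nat_lit 265) (nat_lit 5) (nat_lit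 273) (nat_lit 5) (nat_lit 266) (nat_lit 5) (nat_lit 472) (nat_lit 405) (nat_lit 263)) (XT.lf (nat_lit 0) (nat_lit 3322070317) (nat_lit 608) (nat_lit 6390630216) (nat_lit 76) (nat_lit 4636932977) (nat_lit 258) (nat_lit 5) (nat_lit 266) (nat_lit 5) (nat_lit 259) (nat_lit 5) (nat_lit 473) (nat_lit 405) (nat_lit 262))))))) (XT.nd (nat_lit 780) (nat_lit 3116) (nat_lit 0) (XT.nd (nat_lit 390) (nat_lit 1520) (nat_lit 0) (XT.nd (nat_lit 156) (nat_lit 1064) (nat_lit 0) (XT.nd (nat_lit 78) (nat_lit 0) (nat_lit 0) (XT.lf (nat_lit 0) (nat_lit 2599040820) (nat_lit 532) (nat_lit 4014083797) (nat_lit 608) (nat_lit 7899491016) (nat_lit 251) (nat_lit 5) (nat_lit 258) (nat_lit 5) (nat_lit 259) (nat_lit 5) (nat_lit 474) (nat_lit 405) (nat_lit 261)) (XT.lf (nat_lit 0) (nat_lit 10011534970) (nat_lit 608) (nat_lit 2853418203) (nat_lit 76) (nat_lit 1813073528) (nat_lit 251) (nat_lit 5) (nat_lit 259) (nat_lit 5) (nat_lit 252) (nat_lit 5) (nat_lit 475) (nat_lit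 405) (nat_lit 260))) (XT.nd (nat_lit 78) (nat_lit 532) (nat_lit 0) (XT.lf (nat_lit 0) (nat_lit 6427430251) (nat_lit 532) (nat_lit 7105748127) (nat_lit 608) (nat_lit 1312462313) (nat_lit 244) (nat_lit 5) (nat_lit 251) (nat_lit 5) (nat_lit 252) (nat_lit 5) (nat_lit 476) (nat_lit 405) (nat_lit 259)) (XT.nd (nat_lit 78) (nat_lit 0) (nat_lit 0) (XT.lf (nat_lit 0) (nat_lit 896006569) (nat_lit 456) (nat_lit 1197081237) (nat_lit 532) (nat_lit 12923003435) (nat_lit 237) (nat_lit 5) (nat_lit 243) (nat_lit 5) (nat_lit 244) (nat_lit 5) (nat_lit 477) (nat_lit 405) (nat_lit 258)) (XT.lf (nat_lit 0) (nat_lit 5624519965) (nat_lit 532) (nat_lit 4737006151) (nat_lit 76) (nat_lit 4826744278) (nat_lit 237) (nat_lit 5) (nat_lit 244) (nat_lit 5) (nat_lit 238) (nat_lit 5) (nat_lit 478) (nat_lit 405) (nat_lit 257))))) (XT.nd (nat_lit 156) (nat_lit 988) (nat_lit 0) (XT.nd (nat_lit 78) (nat_lit 0) (nat_lit 0) (XT.lf (nat_lit 0) (nat_lit 4871679368) (nat_lit 532)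 (nat_lit 4381817840) (nat_lit 608) (nat_lit 6109857595) (nat_lit 230) (nat_lit 5) (nat_lit 237) (nat_lit 5) (nat_lit 238) (nat_lit 5) (nat_lit 479) (nat_lit 405) (nat_lit 256)) (XT.lf (nat_lit 0) (nat_lit 12985658579) (nat_lit 608) (nat_lit 834033216) (nat_lit 76) (nat_lit 1721637012) (nat_lit 230) (nat_lit 5) (nat_lit 238) (nat_lit 5) (nat_lit 231) (nat_lit 5) (nat_lit 480) (nat_lit 405) (nat_lit 255))) (XT.nd (nat_lit 78) (nat_lit 456) (nat_lit 0) (XT.lf (nat_lit 0) (nat_lit 1131807310) (nat_lit 532) (nat_lit 6639605457) (nat_lit 76) (nat_lit 7949785944) (nat_lit 223) (nat_lit 5) (nat_lit 230) (nat_lit 5) (nat_lit 224) (nat_lit 5) (nat_lit 481) (nat_lit 405) (nat_lit 254)) (XT.nd (nat_lit 78) (nat_lit 0) (nat_lit 0) (XT.lf (nat_lit 0) (nat_lit 3310938000) (nat_lit 456) (nat_lit 1562785810) (nat_lit 532) (nat_lit 11030306147) (nat_lit 217) (nat_lit 5) (nat_lit 223) (nat_lit 5) (nat_lit 224) (nat_lit 5) (nat_lit 482) (nat_lit 405) (nat_lit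 253)) (XT.lf (nat_lit 0) (nat_lit 8754135503) (nat_lit 532) (nat_lit 2588294468) (nat_lit 76) (nat_lit 4746814721) (nat_lit 217) (nat_lit 5) (nat_lit 224) (nat_lit 5) (nat_lit 218) (nat_lit 5) (nat_lit 483) (nat_lit 405) (nat_lit 252)))))) (XT.nd (nat_lit 390) (nat_lit 1292) (nat_lit 0) (XT.nd (nat_lit 156) (nat_lit 836) (nat_lit 0) (XT.nd (nat_lit 78) (nat_lit 532) (nat_lit 0) (XT.lf (nat_lit 0) (nat_lit 7689553679) (nat_lit 456) (nat_lit 5070951962) (nat_lit 532) (nat_lit 3516691075) (nat_lit 211) (nat_lit 5) (nat_lit 217) (nat_lit 5) (nat_lit 218) (nat_lit 5) (nat_lit 484) (nat_lit 405) (nat_lit 251)) (XT.lf (nat_lit 0) (nat_lit 398828135) (nat_lit 532) (nat_lit 14735124950) (nat_lit 76) (nat_lit 1334391769) (nat_lit 204) (nat_lit 5) (nat_lit 211) (nat_lit 5) (nat_lit 205) (nat_lit 5) (nat_lit 485) (nat_lit 405) (nat_lit 250))) (XT.nd (nat_lit 78) (nat_lit 836) (nat_lit 0) (XT.lf (nat_lit 0) (nat_lit 4425404878) (nat_lit 532) (nat_lit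 4360179542) (nat_lit 76) (nat_lit 7875669915) (nat_lit 204) (nat_lit 5) (nat_lit 211) (nat_lit 5) (nat_lit 205) (nat_lit 5) (nat_lit 486) (nat_lit 405) (nat_lit 249)) (XT.nd (nat_lit 78) (nat_lit 456) (nat_lit 0) (XT.lf (nat_lit 0) (nat_lit 6287401091) (nat_lit 380) (nat_lit 2274365332) (nat_lit 456) (nat_lit 8295670517) (nat_lit 199) (nat_lit 5) (nat_lit 204) (nat_lit 5) (nat_lit 205) (nat_lit 5) (nat_lit 487) (nat_lit 405) (nat_lit 248)) (XT.lf (nat_lit 0) (nat_lit 105512987) (nat_lit 456) (nat_lit 12722343124) (nat_lit 532) (nat_lit 4228747068) (nat_lit 193) (nat_lit 5) (nat_lit 199) (nat_lit 5) (nat_lit 200) (nat_lit 5) (nat_lit 488) (nat_lit 405) (nat_lit 247))))) (XT.nd (nat_lit 234) (nat_lit 836) (nat_lit 0) (XT.nd (nat_lit 78) (nat_lit 456) (nat_lit 0) (XT.lf (nat_lit 0) (nat_lit 11105302915) (nat_lit 456) (nat_lit 6148480197) (nat_lit 532) (nat_lit 4479321) (nat_lit 193) (nat_lit 5) (nat_lit 199) (nat_lit 5) (nat_lit 200) (nat_lit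 5) (nat_lit 489) (nat_lit 405) (nat_lit 246)) (XT.nd (nat_lit 78) (nat_lit 0) (nat_lit 0) (XT.lf (nat_lit 0) (nat_lit 4272250876) (nat_lit 456) (nat_lit 12586865835) (nat_lit 76) (nat_lit 603790669) (nat_lit 187) (nat_lit 5) (nat_lit 193) (nat_lit 5) (nat_lit 188) (nat_lit 5) (nat_lit 490) (nat_lit 405) (nat_lit 245)) (XT.lf (nat_lit 0) (nat_lit 8705580319) (nat_lit 456) (nat_lit 1519982710) (nat_lit 76) (nat_lit 7444659111) (nat_lit 187) (nat_lit 5) (nat_lit 193) (nat_lit 5) (nat_lit 188) (nat_lit 5) (nat_lit 491) (nat_lit 405) (nat_lit 244)))) (XT.nd (nat_lit 78) (nat_lit 456) (nat_lit 0) (XT.lf (nat_lit 0) (nat_lit 9880996400) (nat_lit 380) (nat_lit 3399795809) (nat_lit 456) (nat_lit 4599826670) (nat_lit 182) (nat_lit 5) (nat_lit 187) (nat_lit 5) (nat_lit 188) (nat_lit 5) (nat_lit 492) (nat_lit 405) (nat_lit 243)) (XT.nd (nat_lit 78) (nat_lit 76) (nat_lit 0) (XT.lf (nat_lit 0) (nat_lit 3440605503) (nat_lit 380) (nat_lit 14551768526)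 (nat_lit 456) (nat_lit 101952209) (nat_lit 177) (nat_lit 5) (nat_lit 182) (nat_lit 5) (nat_lit 183) (nat_lit 5) (nat_lit 493) (nat_lit 405) (nat_lit 242)) (XT.lf (nat_lit 0) (nat_lit 4492761387) (nat_lit 456) (nat_lit 3162088320) (nat_lit 76) (nat_lit 10655561236) (nat_lit 176) (nat_lit 5) (nat_lit 182) (nat_lit 5) (nat_lit 177) (nat_lit 5) (nat_lit 494) (nat_lit 405) (nat_lit 241))))))))
noncomputable def xc172 : XT := (XT.nd (nat_lit 53430) (nat_lit 0) (nat_lit 23408) (XT.nd (nat_lit 52650) (nat_lit 0) (nat_lit 35036) (XT.nd (nat_lit 390) (nat_lit 456) (nat_lit 0) (XT.nd (nat_lit 156) (nat_lit 760) (nat_lit 0) (XT.nd (nat_lit 78) (nat_lit 304) (nat_lit 0) (XT.lf (nat_lit 0) (nat_lit 8655620381) (nat_lit 380) (nat_lit 567957921) (nat_lit 456) (nat_lit 9306314079) (nat_lit 171) (nat_lit 5) (nat_lit 176) (nat_lit 5) (nat_lit 177) (nat_lit 5) (nat_lit 495) (nat_lit 405) (nat_lit 240)) (XT.lf (nat_lit 0) (nat_lit 1964927782) (nat_lit 304)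 (nat_lit 12150884079) (nat_lit 380) (nat_lit 4636615580) (nat_lit 167) (nat_lit 5) (nat_lit 171) (nat_lit 5) (nat_lit 172) (nat_lit 5) (nat_lit 496) (nat_lit 405) (nat_lit 239))) (XT.nd (nat_lit 78) (nat_lit 684) (nat_lit 0) (XT.lf (nat_lit 0) (nat_lit 184747542) (nat_lit 380) (nat_lit 4825043404) (nat_lit 76) (nat_lit 13968407246) (nat_lit 166) (nat_lit 5) (nat_lit 171) (nat_lit 5) (nat_lit 167) (nat_lit 5) (nat_lit 497) (nat_lit 405) (nat_lit 238)) (XT.nd (nat_lit 78) (nat_lit 304) (nat_lit 0) (XT.lf (nat_lit 0) (nat_lit 5093655500) (nat_lit 456) (nat_lit 11795365344) (nat_lit 76) (nat_lit 2317786514) (nat_lit 161) (nat_lit 5) (nat_lit 167) (nat_lit 5) (nat_lit 162) (nat_lit 5) (nat_lit 498) (nat_lit 405) (nat_lit 237)) (XT.lf (nat_lit 0) (nat_lit 475135916) (nat_lit 304) (nat_lit 9684193024) (nat_lit 380) (nat_lit 9279488022) (nat_lit 157) (nat_lit 5) (nat_lit 161) (nat_lit 5) (nat_lit 162) (nat_lit 5) (nat_lit 499) (nat_lit 405) (nat_lit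 236))))) (XT.nd (nat_lit 52026) (nat_lit 0) (nat_lit 36404) (XT.nd (nat_lit 78) (nat_lit 456) (nat_lit 0) (XT.lf (nat_lit 0) (nat_lit 13134620076) (nat_lit 304) (nat_lit 2260676273) (nat_lit 380) (nat_lit 4278790799) (nat_lit 157) (nat_lit 5) (nat_lit 161) (nat_lit 5) (nat_lit 162) (nat_lit 5) (nat_lit 500) (nat_lit 405) (nat_lit 235)) (XT.lf (nat_lit 0) (nat_lit 876057153) (nat_lit 456) (nat_lit 13755112274) (nat_lit 76) (nat_lit 5281488253) (nat_lit 151) (nat_lit 5) (nat_lit 157) (nat_lit 5) (nat_lit 152) (nat_lit 5) (nat_lit 501) (nat_lit 405) (nat_lit 234))) (XT.nd (nat_lit 78) (nat_lit 1368) (nat_lit 0) (XT.lf (nat_lit 0) (nat_lit 1591812826) (nat_lit 0) (nat_lit 1591812826) (nat_lit 1292) (nat_lit 679357708) (nat_lit 648) (nat_lit 5) (nat_lit 648) (nat_lit 3) (nat_lit 665) (nat_lit 3) (nat_lit 406) (nat_lit 406) (nat_lit 328)) (XT.nd (nat_lit 78) (nat_lit 1368) (nat_lit 0) (XT.lf (nat_lit 0) (nat_lit 7105957621) (nat_lit 0) (nat_lit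 663862453) (nat_lit 1292) (nat_lit 6628393) (nat_lit 648) (nat_lit 5) (nat_lit 648) (nat_lit 3) (nat_lit 665) (nat_lit 3) (nat_lit 407) (nat_lit 406) (nat_lit 327)) (XT.lf (nat_lit 0) (nat_lit 1353231361) (nat_lit 1368) (nat_lit 4545659924) (nat_lit 1444) (nat_lit 1928895703) (nat_lit 630) (nat_lit 5) (nat_lit 648) (nat_lit 5) (nat_lit 649) (nat_lit 5) (nat_lit 408) (nat_lit 406) (nat_lit 326)))))) (XT.nd (nat_lit 390) (nat_lit 0) (nat_lit 76) (XT.nd (nat_lit 156) (nat_lit 1368) (nat_lit 0) (XT.nd (nat_lit 78) (nat_lit 0) (nat_lit 0) (XT.lf (nat_lit 0) (nat_lit 2714459298) (nat_lit 1368) (nat_lit 580362479) (nat_lit 1444) (nat_lit 4585844432) (nat_lit 630) (nat_lit 5) (nat_lit 648) (nat_lit 5) (nat_lit 649) (nat_lit 5) (nat_lit 409) (nat_lit 406) (nat_lit 325)) (XT.lf (nat_lit 76) (nat_lit 3491685919) (nat_lit 0) (nat_lit 599910015) (nat_lit 1444) (nat_lit 3843233398) (nat_lit 631) (nat_lit 5) (nat_lit 630) (nat_lit 5) (nat_lit 649) (nat_lit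 5) (nat_lit 410) (nat_lit 406) (nat_lit 324))) (XT.nd (nat_lit 78) (nat_lit 1444) (nat_lit 0) (XT.lf (nat_lit 0) (nat_lit 5480808313) (nat_lit 1368) (nat_lit 369929332) (nat_lit 1444) (nat_lit 2139647411) (nat_lit 631) (nat_lit 5) (nat_lit 649) (nat_lit 5) (nat_lit 650) (nat_lit 5) (nat_lit 411) (nat_lit 406) (nat_lit 323)) (XT.nd (nat_lit 78) (nat_lit 1444) (nat_lit 0) (XT.lf (nat_lit 76) (nat_lit 3812149733) (nat_lit 0) (nat_lit 3081693436) (nat_lit 1444) (nat_lit 1153287963) (nat_lit 632) (nat_lit 5) (nat_lit 631) (nat_lit 5) (nat_lit 650) (nat_lit 5) (nat_lit 412) (nat_lit 406) (nat_lit 322)) (XT.lf (nat_lit 0) (nat_lit 197229375) (nat_lit 1444) (nat_lit 42519362) (nat_lit 1520) (nat_lit 7865831090) (nat_lit 612) (nat_lit 5) (nat_lit 631) (nat_lit 5) (nat_lit 632) (nat_lit 5) (nat_lit 413) (nat_lit 406) (nat_lit 321))))) (XT.nd (nat_lit 156) (nat_lit 0) (nat_lit 76) (XT.nd (nat_lit 78) (nat_lit 0) (nat_lit 0) (XT.lf (nat_lit 0) (nat_lit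 1572851161) (nat_lit 1444) (nat_lit 3919198703) (nat_lit 1520) (nat_lit 2672724435) (nat_lit 613) (nat_lit 5) (nat_lit 632) (nat_lit 5) (nat_lit 633) (nat_lit 5) (nat_lit 414) (nat_lit 406) (nat_lit 320)) (XT.lf (nat_lit 76) (nat_lit 379098374) (nat_lit 0) (nat_lit 2570066082) (nat_lit 1520) (nat_lit 5276524623) (nat_lit 614) (nat_lit 5) (nat_lit 613) (nat_lit 5) (nat_lit 633) (nat_lit 5) (nat_lit 415) (nat_lit 406) (nat_lit 319))) (XT.nd (nat_lit 78) (nat_lit 0) (nat_lit 0) (XT.lf (nat_lit 0) (nat_lit 4351548222) (nat_lit 1444) (nat_lit 3493356355) (nat_lit 1520) (nat_lit 442946692) (nat_lit 614) (nat_lit 5) (nat_lit 633) (nat_lit 5) (nat_lit 634) (nat_lit 5) (nat_lit 416) (nat_lit 406) (nat_lit 318)) (XT.nd (nat_lit 78) (nat_lit 0) (nat_lit 0) (XT.lf (nat_lit 76) (nat_lit 922701342) (nat_lit 0) (nat_lit 4852295137) (nat_lit 1520) (nat_lit 2576399889) (nat_lit 615) (nat_lit 5) (nat_lit 614) (nat_lit 5) (nat_lit 634) (nat_lit 5) (nat_lit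 417) (nat_lit 406) (nat_lit 317)) (XT.lf (nat_lit 76) (nat_lit 5455238251) (nat_lit 0) (nat_lit 1765586926) (nat_lit 1520) (nat_lit 1195508962) (nat_lit 615) (nat_lit 5) (nat_lit 614) (nat_lit 5) (nat_lit 634) (nat_lit 5) (nat_lit 418) (nat_lit 406) (nat_lit 316))))))) (XT.nd (nat_lit 780) (nat_lit 8892) (nat_lit 0) (XT.nd (nat_lit 390) (nat_lit 1444) (nat_lit 0) (XT.nd (nat_lit 156) (nat_lit 0) (nat_lit 0) (XT.nd (nat_lit 78) (nat_lit 0) (nat_lit 0) (XT.lf (nat_lit 0) (nat_lit 200547087) (nat_lit 1520) (nat_lit 6895838810) (nat_lit 1596) (nat_lit 1386350294) (nat_lit 595) (nat_lit 5) (nat_lit 615) (nat_lit 5) (nat_lit 616) (nat_lit 5) (nat_lit 419) (nat_lit 406) (nat_lit 315)) (XT.lf (nat_lit 0) (nat_lit 1611592603) (nat_lit 1520) (nat_lit 2323537646) (nat_lit 1596) (nat_lit 4615116464) (nat_lit 595) (nat_lit 5) (nat_lit 615) (nat_lit 5) (nat_lit 616) (nat_lit 5) (nat_lit 420) (nat_lit 406) (nat_lit 314))) (XT.nd (nat_lit 78) (nat_lit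 0) (nat_lit 76) (XT.lf (nat_lit 76) (nat_lit 2351723179) (nat_lit 0) (nat_lit 686332749) (nat_lit 1596) (nat_lit 5581307578) (nat_lit 596) (nat_lit 5) (nat_lit 595) (nat_lit 5) (nat_lit 616) (nat_lit 5) (nat_lit 421) (nat_lit 406) (nat_lit 313)) (XT.nd (nat_lit 78) (nat_lit 0) (nat_lit 0) (XT.lf (nat_lit 0) (nat_lit 4498211563) (nat_lit 1520) (nat_lit 1574537968) (nat_lit 1596) (nat_lit 2617009845) (nat_lit 596) (nat_lit 5) (nat_lit 616) (nat_lit 5) (nat_lit 617) (nat_lit 5) (nat_lit 422) (nat_lit 406) (nat_lit 312)) (XT.lf (nat_lit 76) (nat_lit 3230832358) (nat_lit 0) (nat_lit 2755209450) (nat_lit 1596) (nat_lit 2775551923) (nat_lit 597) (nat_lit 5) (nat_lit 596) (nat_lit 5) (nat_lit 617) (nat_lit 5) (nat_lit 423) (nat_lit 406) (nat_lit 311))))) (XT.nd (nat_lit 156) (nat_lit 0) (nat_lit 0) (XT.nd (nat_lit 78) (nat_lit 1596) (nat_lit 0) (XT.lf (nat_lit 0) (nat_lit 7491748833) (nat_lit 1520) (nat_lit 705026517) (nat_lit 1596) (nat_lit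 638327022) (nat_lit 597) (nat_lit 5) (nat_lit 617) (nat_lit 5) (nat_lit 618) (nat_lit 5) (nat_lit 424) (nat_lit 406) (nat_lit 310)) (XT.lf (nat_lit 0) (nat_lit 135745170) (nat_lit 1596) (nat_lit 4675545987) (nat_lit 1672) (nat_lit 4098378828) (nat_lit 576) (nat_lit 5) (nat_lit 597) (nat_lit 5) (nat_lit 598) (nat_lit 5) (nat_lit 425) (nat_lit 406) (nat_lit 309))) (XT.nd (nat_lit 78) (nat_lit 0) (nat_lit 76) (XT.lf (nat_lit 76) (nat_lit 270904847) (nat_lit 0) (nat_lit 1336211051) (nat_lit 1672) (nat_lit 7378821908) (nat_lit 577) (nat_lit 5) (nat_lit 576) (nat_lit 5) (nat_lit 598) (nat_lit 5) (nat_lit 426) (nat_lit 406) (nat_lit 308)) (XT.nd (nat_lit 78) (nat_lit 0) (nat_lit 0) (XT.lf (nat_lit 0) (nat_lit 3128393190) (nat_lit 1596) (nat_lit 3718105311) (nat_lit 1672) (nat_lit 2216822900) (nat_lit 577) (nat_lit 5) (nat_lit 598) (nat_lit 5) (nat_lit 599) (nat_lit 5) (nat_lit 427) (nat_lit 406) (nat_lit 307)) (XT.lf (nat_lit 76) (nat_lit 1368130780)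 (nat_lit 0) (nat_lit 3304753789) (nat_lit 1672) (nat_lit 4469512329) (nat_lit 578) (nat_lit 5) (nat_lit 577) (nat_lit 5) (nat_lit 599) (nat_lit 5) (nat_lit 428) (nat_lit 406) (nat_lit 306)))))) (XT.nd (nat_lit 390) (nat_lit 5700) (nat_lit 0) (XT.nd (nat_lit 156) (nat_lit 1748) (nat_lit 0) (XT.nd (nat_lit 78) (nat_lit 1596) (nat_lit 0) (XT.lf (nat_lit 0) (nat_lit 6250830957) (nat_lit 1596) (nat_lit 2638345804) (nat_lit 76) (nat_lit 333825839) (nat_lit 578) (nat_lit 5) (nat_lit 599) (nat_lit 5) (nat_lit 579) (nat_lit 5) (nat_lit 429) (nat_lit 406) (nat_lit 305)) (XT.lf (nat_lit 0) (nat_lit 2592686607) (nat_lit 1596) (nat_lit 5282301140) (nat_lit 1672) (nat_lit 1429939641) (nat_lit 557) (nat_lit 5) (nat_lit 578) (nat_lit 5) (nat_lit 579) (nat_lit 5) (nat_lit 430) (nat_lit 406) (nat_lit 304))) (XT.nd (nat_lit 78) (nat_lit 1672) (nat_lit 0) (XT.lf (nat_lit 0) (nat_lit 135201512) (nat_lit 1672) (nat_lit 1444991691) (nat_lit 76) (nat_lit 7808400045)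 (nat_lit 556) (nat_lit 5) (nat_lit 578) (nat_lit 5) (nat_lit 557) (nat_lit 5) (nat_lit 431) (nat_lit 406) (nat_lit 303)) (XT.nd (nat_lit 78) (nat_lit 0) (nat_lit 0) (XT.lf (nat_lit 0) (nat_lit 1729268773) (nat_lit 1748) (nat_lit 5537791903) (nat_lit 76) (nat_lit 2206347309) (nat_lit 534) (nat_lit 5) (nat_lit 557) (nat_lit 5) (nat_lit 535) (nat_lit 5) (nat_lit 432) (nat_lit 406) (nat_lit 302)) (XT.lf (nat_lit 0) (nat_lit 3352388262) (nat_lit 1748) (nat_lit 146709217) (nat_lit 76) (nat_lit 6060878119) (nat_lit 534) (nat_lit 5) (nat_lit 557) (nat_lit 5) (nat_lit 535) (nat_lit 5) (nat_lit 433) (nat_lit 406) (nat_lit 301))))) (XT.nd (nat_lit 234) (nat_lit 2128) (nat_lit 0) (XT.nd (nat_lit 78) (nat_lit 1824) (nat_lit 0) (XT.lf (nat_lit 0) (nat_lit 5022938446) (nat_lit 1824) (nat_lit 4246937007) (nat_lit 76) (nat_lit 378099745) (nat_lit 511) (nat_lit 5) (nat_lit 535) (nat_lit 5) (nat_lit 512) (nat_lit 5) (nat_lit 434) (nat_lit 406) (nat_lit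 300)) (XT.nd (nat_lit 78) (nat_lit 0) (nat_lit 0) (XT.lf (nat_lit 0) (nat_lit 1298033696) (nat_lit 1824) (nat_lit 5439191174) (nat_lit 1900) (nat_lit 3000303414) (nat_lit 487) (nat_lit 5) (nat_lit 511) (nat_lit 5) (nat_lit 512) (nat_lit 5) (nat_lit 435) (nat_lit 406) (nat_lit 299)) (XT.lf (nat_lit 0) (nat_lit 6991777562) (nat_lit 1824) (nat_lit 1500561061) (nat_lit 1900) (nat_lit 1336402978) (nat_lit 487) (nat_lit 5) (nat_lit 511) (nat_lit 5) (nat_lit 512) (nat_lit 5) (nat_lit 436) (nat_lit 406) (nat_lit 298)))) (XT.nd (nat_lit 78) (nat_lit 912) (nat_lit 0) (XT.lf (nat_lit 0) (nat_lit 369655981) (nat_lit 1216) (nat_lit 7044655601) (nat_lit 76) (nat_lit 2507148510) (nat_lit 471) (nat_lit 5) (nat_lit 487) (nat_lit 5) (nat_lit 472) (nat_lit 5) (nat_lit 437) (nat_lit 406) (nat_lit 297)) (XT.nd (nat_lit 78) (nat_lit 912) (nat_lit 0) (XT.lf (nat_lit 0) (nat_lit 2099700754) (nat_lit 1216) (nat_lit 1311169201) (nat_lit 76) (nat_lit 6604831145)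 (nat_lit 471) (nat_lit 5) (nat_lit 487) (nat_lit 5) (nat_lit 472) (nat_lit 5) (nat_lit 438) (nat_lit 406) (nat_lit 296)) (XT.lf (nat_lit 0) (nat_lit 3877699962) (nat_lit 988) (nat_lit 5538719818) (nat_lit 76) (nat_lit 695140077) (nat_lit 459) (nat_lit 5) (nat_lit 472) (nat_lit 5) (nat_lit 460) (nat_lit 5) (nat_lit 439) (nat_lit 406) (nat_lit 295))))))))
noncomputable def xc173 : XT := (XT.nd (nat_lit 1560) (nat_lit 7676) (nat_lit 0) (XT.nd (nat_lit 780) (nat_lit 4484) (nat_lit 0) (XT.nd (nat_lit 390) (nat_lit 2508) (nat_lit 0) (XT.nd (nat_lit 156) (nat_lit 1824) (nat_lit 0) (XT.nd (nat_lit 78) (nat_lit 0) (nat_lit 0) (XT.lf (nat_lit 0) (nat_lit 345213762) (nat_lit 912) (nat_lit 5359085176) (nat_lit 988) (nat_lit 4504776056) (nat_lit 447) (nat_lit 5) (nat_lit 459) (nat_lit 5) (nat_lit 460) (nat_lit 5) (nat_lit 440) (nat_lit 406) (nat_lit 294)) (XT.lf (nat_lit 0) (nat_lit 6402225291) (nat_lit 912) (nat_lit 1182002380) (nat_lit 988) (nat_lit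 2723976807) (nat_lit 447) (nat_lit 5) (nat_lit 459) (nat_lit 5) (nat_lit 460) (nat_lit 5) (nat_lit 441) (nat_lit 406) (nat_lit 293))) (XT.nd (nat_lit 78) (nat_lit 988) (nat_lit 0) (XT.lf (nat_lit 0) (nat_lit 2159699424) (nat_lit 836) (nat_lit 7356100069) (nat_lit 912) (nat_lit 893236168) (nat_lit 436) (nat_lit 5) (nat_lit 447) (nat_lit 5) (nat_lit 448) (nat_lit 5) (nat_lit 442) (nat_lit 406) (nat_lit 292)) (XT.nd (nat_lit 78) (nat_lit 912) (nat_lit 0) (XT.lf (nat_lit 0) (nat_lit 975723951) (nat_lit 912) (nat_lit 2145878535) (nat_lit 76) (nat_lit 7389866881) (nat_lit 435) (nat_lit 5) (nat_lit 447) (nat_lit 5) (nat_lit 436) (nat_lit 5) (nat_lit 443) (nat_lit 406) (nat_lit 291)) (XT.lf (nat_lit 0) (nat_lit 2885335016) (nat_lit 988) (nat_lit 6515510533) (nat_lit 76) (nat_lit 1214683470) (nat_lit 423) (nat_lit 5) (nat_lit 436) (nat_lit 5) (nat_lit 424) (nat_lit 5) (nat_lit 444) (nat_lit 406) (nat_lit 290))))) (XT.nd (nat_lit 156) (nat_lit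 1672) (nat_lit 0) (XT.nd (nat_lit 78) (nat_lit 836) (nat_lit 0) (XT.lf (nat_lit 0) (nat_lit 4849118211) (nat_lit 988) (nat_lit 261926286) (nat_lit 76) (nat_lit 5610305767) (nat_lit 423) (nat_lit 5) (nat_lit 436) (nat_lit 5) (nat_lit 424) (nat_lit 5) (nat_lit 445) (nat_lit 406) (nat_lit 289)) (XT.lf (nat_lit 0) (nat_lit 6178449758) (nat_lit 836) (nat_lit 695029851) (nat_lit 912) (nat_lit 3955382275) (nat_lit 412) (nat_lit 5) (nat_lit 423) (nat_lit 5) (nat_lit 424) (nat_lit 5) (nat_lit 446) (nat_lit 406) (nat_lit 288))) (XT.nd (nat_lit 78) (nat_lit 836) (nat_lit 0) (XT.lf (nat_lit 0) (nat_lit 1791900472) (nat_lit 836) (nat_lit 7165992058) (nat_lit 912) (nat_lit 1980239920) (nat_lit 401) (nat_lit 5) (nat_lit 412) (nat_lit 5) (nat_lit 413) (nat_lit 5) (nat_lit 447) (nat_lit 406) (nat_lit 287)) (XT.nd (nat_lit 78) (nat_lit 760) (nat_lit 0) (XT.lf (nat_lit 0) (nat_lit 51515157) (nat_lit 912) (nat_lit 2647568604) (nat_lit 76) (nat_lit 8350148978)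 (nat_lit 400) (nat_lit 5) (nat_lit 412) (nat_lit 5) (nat_lit 401) (nat_lit 5) (nat_lit 448) (nat_lit 406) (nat_lit 286)) (XT.lf (nat_lit 0) (nat_lit 2117608652) (nat_lit 836) (nat_lit 7173297168) (nat_lit 76) (nat_lit 1870983050) (nat_lit 390) (nat_lit 5) (nat_lit 401) (nat_lit 5) (nat_lit 391) (nat_lit 5) (nat_lit 449) (nat_lit 406) (nat_lit 285)))))) (XT.nd (nat_lit 390) (nat_lit 2128) (nat_lit 0) (XT.nd (nat_lit 156) (nat_lit 1596) (nat_lit 0) (XT.nd (nat_lit 78) (nat_lit 760) (nat_lit 0) (XT.lf (nat_lit 0) (nat_lit 4242911730) (nat_lit 836) (nat_lit 520576123) (nat_lit 76) (nat_lit 6512952516) (nat_lit 390) (nat_lit 5) (nat_lit 401) (nat_lit 5) (nat_lit 391) (nat_lit 5) (nat_lit 450) (nat_lit 406) (nat_lit 284)) (XT.lf (nat_lit 0) (nat_lit 6329084216) (nat_lit 760) (nat_lit 105208431) (nat_lit 836) (nat_lit 4958518817) (nat_lit 380) (nat_lit 5) (nat_lit 390) (nat_lit 5) (nat_lit 391) (nat_lit 5) (nat_lit 451) (nat_lit 406) (nat_lit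 283))) (XT.nd (nat_lit 78) (nat_lit 836) (nat_lit 0) (XT.lf (nat_lit 0) (nat_lit 1785247043) (nat_lit 760) (nat_lit 6912216434) (nat_lit 836) (nat_lit 2813487257) (nat_lit 370) (nat_lit 5) (nat_lit 380) (nat_lit 5) (nat_lit 381) (nat_lit 5) (nat_lit 452) (nat_lit 406) (nat_lit 282)) (XT.nd (nat_lit 78) (nat_lit 836) (nat_lit 0) (XT.lf (nat_lit 0) (nat_lit 8819930750) (nat_lit 760) (nat_lit 2203542529) (nat_lit 836) (nat_lit 607627999) (nat_lit 370) (nat_lit 5) (nat_lit 380) (nat_lit 5) (nat_lit 381) (nat_lit 5) (nat_lit 453) (nat_lit 406) (nat_lit 281)) (XT.lf (nat_lit 0) (nat_lit 1648762606) (nat_lit 836) (nat_lit 7502428586) (nat_lit 76) (nat_lit 2601691300) (nat_lit 359) (nat_lit 5) (nat_lit 370) (nat_lit 5) (nat_lit 360) (nat_lit 5) (nat_lit 454) (nat_lit 406) (nat_lit 280))))) (XT.nd (nat_lit 156) (nat_lit 1444) (nat_lit 0) (XT.nd (nat_lit 78) (nat_lit 684) (nat_lit 0) (XT.lf (nat_lit 0) (nat_lit 3959055467) (nat_lit 836) (nat_lit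 423292172) (nat_lit 76) (nat_lit 7494333151) (nat_lit 359) (nat_lit 5) (nat_lit 370) (nat_lit 5) (nat_lit 360) (nat_lit 5) (nat_lit 455) (nat_lit 406) (nat_lit 279)) (XT.lf (nat_lit 0) (nat_lit 6347205274) (nat_lit 760) (nat_lit 5137155183) (nat_lit 76) (nat_lit 517961575) (nat_lit 350) (nat_lit 5) (nat_lit 360) (nat_lit 5) (nat_lit 351) (nat_lit 5) (nat_lit 456) (nat_lit 406) (nat_lit 278))) (XT.nd (nat_lit 78) (nat_lit 760) (nat_lit 0) (XT.lf (nat_lit 0) (nat_lit 2154884385) (nat_lit 684) (nat_lit 6657935907) (nat_lit 760) (nat_lit 3317061763) (nat_lit 341) (nat_lit 5) (nat_lit 350) (nat_lit 5) (nat_lit 351) (nat_lit 5) (nat_lit 457) (nat_lit 406) (nat_lit 277)) (XT.nd (nat_lit 78) (nat_lit 760) (nat_lit 0) (XT.lf (nat_lit 0) (nat_lit 9643475636) (nat_lit 684) (nat_lit 1702768965) (nat_lit 760) (nat_lit 913378738) (nat_lit 341) (nat_lit 5) (nat_lit 350) (nat_lit 5) (nat_lit 351) (nat_lit 5) (nat_lit 458) (nat_lit 406) (nat_lit 276))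 (XT.lf (nat_lit 0) (nat_lit 1556435108) (nat_lit 760) (nat_lit 7487724181) (nat_lit 76) (nat_lit 3346835730) (nat_lit 331) (nat_lit 5) (nat_lit 341) (nat_lit 5) (nat_lit 332) (nat_lit 5) (nat_lit 459) (nat_lit 406) (nat_lit 275))))))) (XT.nd (nat_lit 780) (nat_lit 3876) (nat_lit 0) (XT.nd (nat_lit 390) (nat_lit 1824) (nat_lit 0) (XT.nd (nat_lit 156) (nat_lit 1292) (nat_lit 0) (XT.nd (nat_lit 78) (nat_lit 0) (nat_lit 0) (XT.lf (nat_lit 0) (nat_lit 48155822) (nat_lit 684) (nat_lit 4028933720) (nat_lit 760) (nat_lit 8447510353) (nat_lit 322) (nat_lit 5) (nat_lit 331) (nat_lit 5) (nat_lit 332) (nat_lit 5) (nat_lit 460) (nat_lit 406) (nat_lit 274)) (XT.lf (nat_lit 0) (nat_lit 6690354769) (nat_lit 760) (nat_lit 4850101129) (nat_lit 76) (nat_lit 1119577017) (nat_lit 322) (nat_lit 5) (nat_lit 332) (nat_lit 5) (nat_lit 323) (nat_lit 5) (nat_lit 461) (nat_lit 406) (nat_lit 273))) (XT.nd (nat_lit 78) (nat_lit 684) (nat_lit 0) (XT.lf (nat_lit 0)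 (nat_lit 2921686788) (nat_lit 608) (nat_lit 6464715869) (nat_lit 684) (nat_lit 3411161591) (nat_lit 314) (nat_lit 5) (nat_lit 322) (nat_lit 5) (nat_lit 323) (nat_lit 5) (nat_lit 462) (nat_lit 406) (nat_lit 272)) (XT.nd (nat_lit 78) (nat_lit 684) (nat_lit 0) (XT.lf (nat_lit 0) (nat_lit 10896059358) (nat_lit 608) (nat_lit 1257901032) (nat_lit 684) (nat_lit 783534040) (nat_lit 314) (nat_lit 5) (nat_lit 322) (nat_lit 5) (nat_lit 323) (nat_lit 5) (nat_lit 463) (nat_lit 406) (nat_lit 271)) (XT.lf (nat_lit 0) (nat_lit 1922580756) (nat_lit 684) (nat_lit 7108509469) (nat_lit 76) (nat_lit 4047870514) (nat_lit 305) (nat_lit 5) (nat_lit 314) (nat_lit 5) (nat_lit 306) (nat_lit 5) (nat_lit 464) (nat_lit 406) (nat_lit 270))))) (XT.nd (nat_lit 156) (nat_lit 1216) (nat_lit 0) (XT.nd (nat_lit 78) (nat_lit 0) (nat_lit 0) (XT.lf (nat_lit 0) (nat_lit 927242395) (nat_lit 608) (nat_lit 3758619113) (nat_lit 684) (nat_lit 8537020579) (nat_lit 297) (nat_lit 5)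 (nat_lit 305) (nat_lit 5) (nat_lit 306) (nat_lit 5) (nat_lit 465) (nat_lit 406) (nat_lit 269)) (XT.lf (nat_lit 0) (nat_lit 7548464787) (nat_lit 684) (nat_lit 4178204616) (nat_lit 76) (nat_lit 1642131321) (nat_lit 297) (nat_lit 5) (nat_lit 306) (nat_lit 5) (nat_lit 298) (nat_lit 5) (nat_lit 466) (nat_lit 406) (nat_lit 268))) (XT.nd (nat_lit 78) (nat_lit 608) (nat_lit 0) (XT.lf (nat_lit 0) (nat_lit 4112273481) (nat_lit 608) (nat_lit 6393447174) (nat_lit 684) (nat_lit 3011169068) (nat_lit 289) (nat_lit 5) (nat_lit 297) (nat_lit 5) (nat_lit 298) (nat_lit 5) (nat_lit 467) (nat_lit 406) (nat_lit 267)) (XT.nd (nat_lit 78) (nat_lit 608) (nat_lit 0) (XT.lf (nat_lit 0) (nat_lit 12606971139) (nat_lit 608) (nat_lit 929157760) (nat_lit 684) (nat_lit 131531458) (nat_lit 289) (nat_lit 5) (nat_lit 297) (nat_lit 5) (nat_lit 298) (nat_lit 5) (nat_lit 468) (nat_lit 406) (nat_lit 266)) (XT.lf (nat_lit 0) (nat_lit 2834401267) (nat_lit 608) (nat_lit 6338581770)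 (nat_lit 76) (nat_lit 4646789046) (nat_lit 281) (nat_lit 5) (nat_lit 289) (nat_lit 5) (nat_lit 282) (nat_lit 5) (nat_lit 469) (nat_lit 406) (nat_lit 265)))))) (XT.nd (nat_lit 390) (nat_lit 2128) (nat_lit 0) (XT.nd (nat_lit 156) (nat_lit 1140) (nat_lit 0) (XT.nd (nat_lit 78) (nat_lit 0) (nat_lit 0) (XT.lf (nat_lit 0) (nat_lit 2237595764) (nat_lit 608) (nat_lit 3634424397) (nat_lit 684) (nat_lit 8102605919) (nat_lit 273) (nat_lit 5) (nat_lit 281) (nat_lit 5) (nat_lit 282) (nat_lit 5) (nat_lit 470) (nat_lit 406) (nat_lit 264)) (XT.lf (nat_lit 0) (nat_lit 9012693842) (nat_lit 684) (nat_lit 3092175619) (nat_lit 76) (nat_lit 2026861647) (nat_lit 273) (nat_lit 5) (nat_lit 282) (nat_lit 5) (nat_lit 274) (nat_lit 5) (nat_lit 471) (nat_lit 406) (nat_lit 263))) (XT.nd (nat_lit 78) (nat_lit 608) (nat_lit 0) (XT.lf (nat_lit 0) (nat_lit 5759094213) (nat_lit 532) (nat_lit 6505217675) (nat_lit 608) (nat_lit 2026703733) (nat_lit 266) (nat_lit 5) (nat_lit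 273) (nat_lit 5) (nat_lit 274) (nat_lit 5) (nat_lit 472) (nat_lit 406) (nat_lit 262)) (XT.nd (nat_lit 78) (nat_lit 0) (nat_lit 0) (XT.lf (nat_lit 0) (nat_lit 355434930) (nat_lit 532) (nat_lit 767178062) (nat_lit 608) (nat_lit 13330527952) (nat_lit 258) (nat_lit 5) (nat_lit 265) (nat_lit 5) (nat_lit 266) (nat_lit 5) (nat_lit 473) (nat_lit 406) (nat_lit 261)) (XT.lf (nat_lit 0) (nat_lit 4385297480) (nat_lit 608) (nat_lit 5146109166) (nat_lit 76) (nat_lit 5085283819) (nat_lit 258) (nat_lit 5) (nat_lit 266) (nat_lit 5) (nat_lit 259) (nat_lit 5) (nat_lit 474) (nat_lit 406) (nat_lit 260))))) (XT.nd (nat_lit 234) (nat_lit 1064) (nat_lit 0) (XT.nd (nat_lit 78) (nat_lit 532) (nat_lit 0) (XT.lf (nat_lit 0) (nat_lit 4014326780) (nat_lit 532) (nat_lit 3717152749) (nat_lit 608) (nat_lit 7051666569) (nat_lit 251) (nat_lit 5) (nat_lit 258) (nat_lit 5) (nat_lit 259) (nat_lit 5) (nat_lit 475) (nat_lit 406) (nat_lit 259)) (XT.nd (nat_lit 78) (nat_lit 532)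 (nat_lit 0) (XT.lf (nat_lit 0) (nat_lit 11180924036) (nat_lit 608) (nat_lit 1556978845) (nat_lit 76) (nat_lit 2214301186) (nat_lit 251) (nat_lit 5) (nat_lit 259) (nat_lit 5) (nat_lit 252) (nat_lit 5) (nat_lit 476) (nat_lit 406) (nat_lit 258)) (XT.lf (nat_lit 0) (nat_lit 7900581922) (nat_lit 532) (nat_lit 6862145341) (nat_lit 608) (nat_lit 360648536) (nat_lit 244) (nat_lit 5) (nat_lit 251) (nat_lit 5) (nat_lit 252) (nat_lit 5) (nat_lit 477) (nat_lit 406) (nat_lit 257)))) (XT.nd (nat_lit 78) (nat_lit 532) (nat_lit 0) (XT.lf (nat_lit 0) (nat_lit 2262426775) (nat_lit 456) (nat_lit 827587507) (nat_lit 532) (nat_lit 12207297489) (nat_lit 237) (nat_lit 5) (nat_lit 243) (nat_lit 5) (nat_lit 244) (nat_lit 5) (nat_lit 478) (nat_lit 406) (nat_lit 256)) (XT.nd (nat_lit 78) (nat_lit 532) (nat_lit 0) (XT.lf (nat_lit 0) (nat_lit 6675852682) (nat_lit 532) (nat_lit 3493464974) (nat_lit 76) (nat_lit 5303941299) (nat_lit 237) (nat_lit 5) (nat_lit 244) (nat_lit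 5) (nat_lit 238) (nat_lit 5) (nat_lit 479) (nat_lit 406) (nat_lit 255)) (XT.lf (nat_lit 0) (nat_lit 6298589772) (nat_lit 532) (nat_lit 4069042869) (nat_lit 608) (nat_lit 5284407947) (nat_lit 230) (nat_lit 5) (nat_lit 237) (nat_lit 5) (nat_lit 238) (nat_lit 5) (nat_lit 480) (nat_lit 406) (nat_lit 254))))))))
noncomputable def xc174 : XT := (XT.nd (nat_lit 1560) (nat_lit 0) (nat_lit 0) (XT.nd (nat_lit 780) (nat_lit 2660) (nat_lit 0) (XT.nd (nat_lit 390) (nat_lit 1444) (nat_lit 0) (XT.nd (nat_lit 156) (nat_lit 912) (nat_lit 0) (XT.nd (nat_lit 78) (nat_lit 76) (nat_lit 0) (XT.lf (nat_lit 0) (nat_lit 474587270) (nat_lit 456) (nat_lit 13687263095) (nat_lit 532) (nat_lit 1671975445) (nat_lit 224) (nat_lit 5) (nat_lit 230) (nat_lit 5) (nat_lit 231) (nat_lit 5) (nat_lit 481) (nat_lit 406) (nat_lit 253)) (XT.lf (nat_lit 0) (nat_lit 2064425689) (nat_lit 532) (nat_lit 5449905664) (nat_lit 76) (nat_lit 8503091688) (nat_lit 223) (nat_lit 5) (nat_lit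 230) (nat_lit 5) (nat_lit 224) (nat_lit 5) (nat_lit 482) (nat_lit 406) (nat_lit 252))) (XT.nd (nat_lit 78) (nat_lit 456) (nat_lit 0) (XT.lf (nat_lit 0) (nat_lit 4690948057) (nat_lit 456) (nat_lit 1180919677) (nat_lit 532) (nat_lit 10332229433) (nat_lit 217) (nat_lit 5) (nat_lit 223) (nat_lit 5) (nat_lit 224) (nat_lit 5) (nat_lit 483) (nat_lit 406) (nat_lit 251)) (XT.nd (nat_lit 78) (nat_lit 456) (nat_lit 0) (XT.lf (nat_lit 0) (nat_lit 9814857144) (nat_lit 532) (nat_lit 1336999156) (nat_lit 76) (nat_lit 5241460508) (nat_lit 217) (nat_lit 5) (nat_lit 224) (nat_lit 5) (nat_lit 218) (nat_lit 5) (nat_lit 484) (nat_lit 406) (nat_lit 250)) (XT.lf (nat_lit 0) (nat_lit 9137833182) (nat_lit 456) (nat_lit 4754560710) (nat_lit 532) (nat_lit 2692813195) (nat_lit 211) (nat_lit 5) (nat_lit 217) (nat_lit 5) (nat_lit 218) (nat_lit 5) (nat_lit 485) (nat_lit 406) (nat_lit 249))))) (XT.nd (nat_lit 156) (nat_lit 912) (nat_lit 0) (XT.nd (nat_lit 78) (nat_lit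 0) (nat_lit 0) (XT.lf (nat_lit 0) (nat_lit 1283163073) (nat_lit 532) (nat_lit 13717485693) (nat_lit 76) (nat_lit 1779535817) (nat_lit 204) (nat_lit 5) (nat_lit 211) (nat_lit 5) (nat_lit 205) (nat_lit 5) (nat_lit 486) (nat_lit 406) (nat_lit 248)) (XT.lf (nat_lit 0) (nat_lit 5373087853) (nat_lit 532) (nat_lit 3160773569) (nat_lit 76) (nat_lit 8443434503) (nat_lit 204) (nat_lit 5) (nat_lit 211) (nat_lit 5) (nat_lit 205) (nat_lit 5) (nat_lit 487) (nat_lit 406) (nat_lit 247))) (XT.nd (nat_lit 78) (nat_lit 532) (nat_lit 0) (XT.lf (nat_lit 0) (nat_lit 7691294141) (nat_lit 380) (nat_lit 1892334488) (nat_lit 456) (nat_lit 7593944513) (nat_lit 199) (nat_lit 5) (nat_lit 204) (nat_lit 5) (nat_lit 205) (nat_lit 5) (nat_lit 488) (nat_lit 406) (nat_lit 246)) (XT.nd (nat_lit 78) (nat_lit 76) (nat_lit 0) (XT.lf (nat_lit 0) (nat_lit 1391502569) (nat_lit 456) (nat_lit 12537915685) (nat_lit 532) (nat_lit 3451416889) (nat_lit 193) (nat_lit 5) (nat_lit 199)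 (nat_lit 5) (nat_lit 200) (nat_lit 5) (nat_lit 489) (nat_lit 406) (nat_lit 245)) (XT.lf (nat_lit 0) (nat_lit 829413641) (nat_lit 532) (nat_lit 5006201434) (nat_lit 76) (nat_lit 11751134747) (nat_lit 192) (nat_lit 5) (nat_lit 199) (nat_lit 5) (nat_lit 193) (nat_lit 5) (nat_lit 490) (nat_lit 406) (nat_lit 244)))))) (XT.nd (nat_lit 390) (nat_lit 1444) (nat_lit 0) (XT.nd (nat_lit 156) (nat_lit 836) (nat_lit 0) (XT.nd (nat_lit 78) (nat_lit 0) (nat_lit 0) (XT.lf (nat_lit 0) (nat_lit 5186285836) (nat_lit 456) (nat_lit 11563482857) (nat_lit 76) (nat_lit 1045825036) (nat_lit 187) (nat_lit 5) (nat_lit 193) (nat_lit 5) (nat_lit 188) (nat_lit 5) (nat_lit 491) (nat_lit 406) (nat_lit 243)) (XT.lf (nat_lit 0) (nat_lit 9692035006) (nat_lit 456) (nat_lit 300264428) (nat_lit 76) (nat_lit 8015080287) (nat_lit 187) (nat_lit 5) (nat_lit 193) (nat_lit 5) (nat_lit 188) (nat_lit 5) (nat_lit 492) (nat_lit 406) (nat_lit 242))) (XT.nd (nat_lit 78) (nat_lit 456)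 (nat_lit 0) (XT.lf (nat_lit 0) (nat_lit 11320509804) (nat_lit 380) (nat_lit 3030376230) (nat_lit 456) (nat_lit 3871255662) (nat_lit 182) (nat_lit 5) (nat_lit 187) (nat_lit 5) (nat_lit 188) (nat_lit 5) (nat_lit 493) (nat_lit 406) (nat_lit 241)) (XT.nd (nat_lit 78) (nat_lit 0) (nat_lit 0) (XT.lf (nat_lit 0) (nat_lit 702251683) (nat_lit 456) (nat_lit 13688538027) (nat_lit 76) (nat_lit 4049338976) (nat_lit 176) (nat_lit 5) (nat_lit 182) (nat_lit 5) (nat_lit 177) (nat_lit 5) (nat_lit 494) (nat_lit 406) (nat_lit 240)) (XT.lf (nat_lit 0) (nat_lit 5371713746) (nat_lit 456) (nat_lit 1992406612) (nat_lit 76) (nat_lit 11296716861) (nat_lit 176) (nat_lit 5) (nat_lit 182) (nat_lit 5) (nat_lit 177) (nat_lit 5) (nat_lit 495) (nat_lit 406) (nat_lit 239))))) (XT.nd (nat_lit 156) (nat_lit 760) (nat_lit 0) (XT.nd (nat_lit 78) (nat_lit 304) (nat_lit 0) (XT.lf (nat_lit 0) (nat_lit 10053544925) (nat_lit 380) (nat_lit 136081875) (nat_lit 456) (nat_lit 8695231891)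 (nat_lit 171) (nat_lit 5) (nat_lit 176) (nat_lit 5) (nat_lit 177) (nat_lit 5) (nat_lit 496) (nat_lit 406) (nat_lit 238)) (XT.lf (nat_lit 0) (nat_lit 3233650354) (nat_lit 304) (nat_lit 11941533224) (nat_lit 380) (nat_lit 3936751303) (nat_lit 167) (nat_lit 5) (nat_lit 171) (nat_lit 5) (nat_lit 172) (nat_lit 5) (nat_lit 497) (nat_lit 406) (nat_lit 237))) (XT.nd (nat_lit 78) (nat_lit 684) (nat_lit 0) (XT.lf (nat_lit 0) (nat_lit 955306749) (nat_lit 380) (nat_lit 3706035387) (nat_lit 76) (nat_lit 14681082734) (nat_lit 166) (nat_lit 5) (nat_lit 171) (nat_lit 5) (nat_lit 167) (nat_lit 5) (nat_lit 498) (nat_lit 406) (nat_lit 236)) (XT.nd (nat_lit 78) (nat_lit 304) (nat_lit 0) (XT.lf (nat_lit 0) (nat_lit 5958103985) (nat_lit 456) (nat_lit 10811474884) (nat_lit 76) (nat_lit 2806113128) (nat_lit 161) (nat_lit 5) (nat_lit 167) (nat_lit 5) (nat_lit 162) (nat_lit 5) (nat_lit 499) (nat_lit 406) (nat_lit 235)) (XT.lf (nat_lit 0) (nat_lit 1696411415) (nat_lit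 304) (nat_lit 9421594653) (nat_lit 380) (nat_lit 8694477421) (nat_lit 157) (nat_lit 5) (nat_lit 161) (nat_lit 5) (nat_lit 162) (nat_lit 5) (nat_lit 500) (nat_lit 406) (nat_lit 234))))))) (XT.nd (nat_lit 52728) (nat_lit 0) (nat_lit 31844) (XT.nd (nat_lit 52338) (nat_lit 0) (nat_lit 34580) (XT.nd (nat_lit 52104) (nat_lit 0) (nat_lit 35872) (XT.nd (nat_lit 52026) (nat_lit 0) (nat_lit 35872) (XT.lf (nat_lit 0) (nat_lit 14585325008) (nat_lit 304) (nat_lit 1858554278) (nat_lit 380) (nat_lit 3608876064) (nat_lit 157) (nat_lit 5) (nat_lit 161) (nat_lit 5) (nat_lit 162) (nat_lit 5) (nat_lit 501) (nat_lit 406) (nat_lit 233)) (XT.lf (nat_lit 0) (nat_lit 655155777) (nat_lit 1444) (nat_lit 1629198491) (nat_lit 1444) (nat_lit 1629198491) (nat_lit 629) (nat_lit 3) (nat_lit 648) (nat_lit 3) (nat_lit 648) (nat_lit 5) (nat_lit 407) (nat_lit 407) (nat_lit 326))) (XT.nd (nat_lit 78) (nat_lit 0) (nat_lit 76) (XT.lf (nat_lit 76) (nat_lit 663862453) (nat_lit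 0) (nat_lit 1959290285) (nat_lit 1444) (nat_lit 5256229075) (nat_lit 630) (nat_lit 5) (nat_lit 629) (nat_lit 3) (nat_lit 648) (nat_lit 5) (nat_lit 408) (nat_lit 407) (nat_lit 325)) (XT.nd (nat_lit 78) (nat_lit 0) (nat_lit 0) (XT.lf (nat_lit 0) (nat_lit 3954834811) (nat_lit 1368) (nat_lit 3246584608) (nat_lit 1444) (nat_lit 731432532) (nat_lit 630) (nat_lit 5) (nat_lit 648) (nat_lit 5) (nat_lit 649) (nat_lit 5) (nat_lit 409) (nat_lit 407) (nat_lit 324)) (XT.lf (nat_lit 76) (nat_lit 781007157) (nat_lit 0) (nat_lit 4516869813) (nat_lit 1444) (nat_lit 2689819994) (nat_lit 631) (nat_lit 5) (nat_lit 630) (nat_lit 5) (nat_lit 649) (nat_lit 5) (nat_lit 410) (nat_lit 407) (nat_lit 323))))) (XT.nd (nat_lit 156) (nat_lit 1368) (nat_lit 0) (XT.nd (nat_lit 78) (nat_lit 0) (nat_lit 76) (XT.lf (nat_lit 76) (nat_lit 4915288120) (nat_lit 0) (nat_lit 1741495638) (nat_lit 1444) (nat_lit 1387075042) (nat_lit 631) (nat_lit 5) (nat_lit 630) (nat_lit 5) (nat_lit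 649) (nat_lit 5) (nat_lit 411) (nat_lit 407) (nat_lit 322)) (XT.lf (nat_lit 76) (nat_lit 1019145844) (nat_lit 0) (nat_lit 7005368033) (nat_lit 1444) (nat_lit 76997093) (nat_lit 632) (nat_lit 5) (nat_lit 631) (nat_lit 5) (nat_lit 650) (nat_lit 5) (nat_lit 412) (nat_lit 407) (nat_lit 321))) (XT.nd (nat_lit 78) (nat_lit 0) (nat_lit 0) (XT.lf (nat_lit 0) (nat_lit 1243690108) (nat_lit 1444) (nat_lit 2906079190) (nat_lit 1520) (nat_lit 4010364895) (nat_lit 612) (nat_lit 5) (nat_lit 631) (nat_lit 5) (nat_lit 632) (nat_lit 5) (nat_lit 413) (nat_lit 407) (nat_lit 320)) (XT.nd (nat_lit 78) (nat_lit 0) (nat_lit 76) (XT.lf (nat_lit 76) (nat_lit 1352768293) (nat_lit 0) (nat_lit 1214655150) (nat_lit 1520) (nat_lit 5652942990) (nat_lit 613) (nat_lit 5) (nat_lit 612) (nat_lit 5) (nat_lit 632) (nat_lit 5) (nat_lit 414) (nat_lit 407) (nat_lit 319)) (XT.lf (nat_lit 0) (nat_lit 3918267097) (nat_lit 1444) (nat_lit 2575678934) (nat_lit 1520) (nat_lit 1787844576)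 (nat_lit 613) (nat_lit 5) (nat_lit 632) (nat_lit 5) (nat_lit 633) (nat_lit 5) (nat_lit 415) (nat_lit 407) (nat_lit 318)))))) (XT.nd (nat_lit 390) (nat_lit 1368) (nat_lit 0) (XT.nd (nat_lit 156) (nat_lit 1444) (nat_lit 0) (XT.nd (nat_lit 78) (nat_lit 0) (nat_lit 0) (XT.lf (nat_lit 76) (nat_lit 1799229454) (nat_lit 0) (nat_lit 3486676665) (nat_lit 1520) (nat_lit 3058741573) (nat_lit 614) (nat_lit 5) (nat_lit 613) (nat_lit 5) (nat_lit 633) (nat_lit 5) (nat_lit 416) (nat_lit 407) (nat_lit 317)) (XT.lf (nat_lit 76) (nat_lit 6278268739) (nat_lit 0) (nat_lit 390434488) (nat_lit 1520) (nat_lit 1740302587) (nat_lit 614) (nat_lit 5) (nat_lit 613) (nat_lit 5) (nat_lit 633) (nat_lit 5) (nat_lit 417) (nat_lit 407) (nat_lit 316))) (XT.nd (nat_lit 78) (nat_lit 1520) (nat_lit 0) (XT.lf (nat_lit 76) (nat_lit 2366735805) (nat_lit 0) (nat_lit 5716927282) (nat_lit 1520) (nat_lit 390897875) (nat_lit 615) (nat_lit 5) (nat_lit 614) (nat_lit 5) (nat_lit 634)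 (nat_lit 5) (nat_lit 418) (nat_lit 407) (nat_lit 315)) (XT.nd (nat_lit 78) (nat_lit 0) (nat_lit 76) (XT.lf (nat_lit 0) (nat_lit 960976661) (nat_lit 1520) (nat_lit 1586008875) (nat_lit 1596) (nat_lit 5994545573) (nat_lit 594) (nat_lit 5) (nat_lit 614) (nat_lit 5) (nat_lit 615) (nat_lit 5) (nat_lit 419) (nat_lit 407) (nat_lit 314)) (XT.lf (nat_lit 0) (nat_lit 2331085035) (nat_lit 1520) (nat_lit 5569488036) (nat_lit 1596) (nat_lit 709287304) (nat_lit 595) (nat_lit 5) (nat_lit 615) (nat_lit 5) (nat_lit 616) (nat_lit 5) (nat_lit 420) (nat_lit 407) (nat_lit 313))))) (XT.nd (nat_lit 234) (nat_lit 1444) (nat_lit 0) (XT.nd (nat_lit 78) (nat_lit 0) (nat_lit 0) (XT.lf (nat_lit 0) (nat_lit 3728654853) (nat_lit 1520) (nat_lit 934451977) (nat_lit 1596) (nat_lit 4016448208) (nat_lit 595) (nat_lit 5) (nat_lit 615) (nat_lit 5) (nat_lit 616) (nat_lit 5) (nat_lit 421) (nat_lit 407) (nat_lit 312)) (XT.nd (nat_lit 78) (nat_lit 0) (nat_lit 76) (XT.lf (nat_lit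 76) (nat_lit 3824869614) (nat_lit 0) (nat_lit 1327158068) (nat_lit 1596) (nat_lit 3598658881) (nat_lit 596) (nat_lit 5) (nat_lit 595) (nat_lit 5) (nat_lit 616) (nat_lit 5) (nat_lit 422) (nat_lit 407) (nat_lit 311)) (XT.lf (nat_lit 0) (nat_lit 6597135691) (nat_lit 1520) (nat_lit 163628997) (nat_lit 1596) (nat_lit 2062610677) (nat_lit 596) (nat_lit 5) (nat_lit 616) (nat_lit 5) (nat_lit 617) (nat_lit 5) (nat_lit 423) (nat_lit 407) (nat_lit 310)))) (XT.nd (nat_lit 78) (nat_lit 1520) (nat_lit 0) (XT.lf (nat_lit 76) (nat_lit 4728359264) (nat_lit 0) (nat_lit 3356275312) (nat_lit 1596) (nat_lit 812613593) (nat_lit 597) (nat_lit 5) (nat_lit 596) (nat_lit 5) (nat_lit 617) (nat_lit 5) (nat_lit 424) (nat_lit 407) (nat_lit 309)) (XT.nd (nat_lit 78) (nat_lit 0) (nat_lit 0) (XT.lf (nat_lit 0) (nat_lit 601991443) (nat_lit 1596) (nat_lit 8239299367) (nat_lit 1672) (nat_lit 131606711) (nat_lit 576) (nat_lit 5) (nat_lit 597) (nat_lit 5) (nat_lit 598) (nat_lit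 5) (nat_lit 425) (nat_lit 407) (nat_lit 308)) (XT.lf (nat_lit 0) (nat_lit 2059052030) (nat_lit 1596) (nat_lit 3305962954) (nat_lit 1672) (nat_lit 3684436562) (nat_lit 576) (nat_lit 5) (nat_lit 597) (nat_lit 5) (nat_lit 598) (nat_lit 5) (nat_lit 426) (nat_lit 407) (nat_lit 307))))))))
noncomputable def xc175 : XT := (XT.nd (nat_lit 1638) (nat_lit 9348) (nat_lit 0) (XT.nd (nat_lit 780) (nat_lit 5700) (nat_lit 0) (XT.nd (nat_lit 390) (nat_lit 5244) (nat_lit 0) (XT.nd (nat_lit 156) (nat_lit 1520) (nat_lit 0) (XT.nd (nat_lit 78) (nat_lit 0) (nat_lit 76) (XT.lf (nat_lit 76) (nat_lit 1729791278) (nat_lit 0) (nat_lit 1801837109) (nat_lit 1672) (nat_lit 5596180772) (nat_lit 577) (nat_lit 5) (nat_lit 576) (nat_lit 5) (nat_lit 598) (nat_lit 5) (nat_lit 427) (nat_lit 407) (nat_lit 306)) (XT.lf (nat_lit 0) (nat_lit 5043432161) (nat_lit 1596) (nat_lit 2327599398) (nat_lit 1672) (nat_lit 1836506848) (nat_lit 577) (nat_lit 5) (nat_lit 598) (nat_lit 5)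 (nat_lit 599) (nat_lit 5) (nat_lit 428) (nat_lit 407) (nat_lit 305))) (XT.nd (nat_lit 78) (nat_lit 1596) (nat_lit 0) (XT.lf (nat_lit 76) (nat_lit 2850724125) (nat_lit 0) (nat_lit 3741214603) (nat_lit 1672) (nat_lit 2696794179) (nat_lit 578) (nat_lit 5) (nat_lit 577) (nat_lit 5) (nat_lit 599) (nat_lit 5) (nat_lit 429) (nat_lit 407) (nat_lit 304)) (XT.nd (nat_lit 78) (nat_lit 1596) (nat_lit 0) (XT.lf (nat_lit 76) (nat_lit 8145331677) (nat_lit 0) (nat_lit 18076210) (nat_lit 1672) (nat_lit 1208303560) (nat_lit 578) (nat_lit 5) (nat_lit 577) (nat_lit 5) (nat_lit 599) (nat_lit 5) (nat_lit 430) (nat_lit 407) (nat_lit 303)) (XT.lf (nat_lit 0) (nat_lit 334101652) (nat_lit 1672) (nat_lit 5358233629) (nat_lit 76) (nat_lit 3763409829) (nat_lit 556) (nat_lit 5) (nat_lit 578) (nat_lit 5) (nat_lit 557) (nat_lit 5) (nat_lit 431) (nat_lit 407) (nat_lit 302))))) (XT.nd (nat_lit 156) (nat_lit 3572) (nat_lit 0) (XT.nd (nat_lit 78) (nat_lit 1672) (nat_lit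 0) (XT.lf (nat_lit 0) (nat_lit 1876641907) (nat_lit 1672) (nat_lit 24105085) (nat_lit 76) (nat_lit 7640843394) (nat_lit 556) (nat_lit 5) (nat_lit 578) (nat_lit 5) (nat_lit 557) (nat_lit 5) (nat_lit 432) (nat_lit 407) (nat_lit 301)) (XT.lf (nat_lit 0) (nat_lit 3476071350) (nat_lit 1748) (nat_lit 4172242137) (nat_lit 76) (nat_lit 1980318313) (nat_lit 534) (nat_lit 5) (nat_lit 557) (nat_lit 5) (nat_lit 535) (nat_lit 5) (nat_lit 433) (nat_lit 407) (nat_lit 300))) (XT.nd (nat_lit 78) (nat_lit 1824) (nat_lit 0) (XT.lf (nat_lit 0) (nat_lit 1314960983) (nat_lit 1748) (nat_lit 3791656958) (nat_lit 1824) (nat_lit 4610813531) (nat_lit 511) (nat_lit 5) (nat_lit 534) (nat_lit 5) (nat_lit 535) (nat_lit 5) (nat_lit 434) (nat_lit 407) (nat_lit 299)) (XT.nd (nat_lit 78) (nat_lit 1824) (nat_lit 0) (XT.lf (nat_lit 0) (nat_lit 6777051929) (nat_lit 1824) (nat_lit 2859527711) (nat_lit 76) (nat_lit 171281966) (nat_lit 511) (nat_lit 5) (nat_lit 535) (nat_lit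 5) (nat_lit 512) (nat_lit 5) (nat_lit 435) (nat_lit 407) (nat_lit 298)) (XT.lf (nat_lit 0) (nat_lit 2786655905) (nat_lit 1824) (nat_lit 5716040143) (nat_lit 1900) (nat_lit 1396968268) (nat_lit 487) (nat_lit 5) (nat_lit 511) (nat_lit 5) (nat_lit 512) (nat_lit 5) (nat_lit 436) (nat_lit 407) (nat_lit 297)))))) (XT.nd (nat_lit 390) (nat_lit 2660) (nat_lit 0) (XT.nd (nat_lit 156) (nat_lit 1824) (nat_lit 0) (XT.nd (nat_lit 78) (nat_lit 1140) (nat_lit 0) (XT.lf (nat_lit 0) (nat_lit 264086077) (nat_lit 1900) (nat_lit 1429483798) (nat_lit 76) (nat_lit 8299736776) (nat_lit 486) (nat_lit 5) (nat_lit 511) (nat_lit 5) (nat_lit 487) (nat_lit 5) (nat_lit 437) (nat_lit 407) (nat_lit 296)) (XT.lf (nat_lit 0) (nat_lit 1963301980) (nat_lit 1216) (nat_lit 5707093014) (nat_lit 76) (nat_lit 2417769242) (nat_lit 471) (nat_lit 5) (nat_lit 487) (nat_lit 5) (nat_lit 472) (nat_lit 5) (nat_lit 438) (nat_lit 407) (nat_lit 295))) (XT.nd (nat_lit 78) (nat_lit 912)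 (nat_lit 0) (XT.lf (nat_lit 0) (nat_lit 113563187) (nat_lit 912) (nat_lit 3584018791) (nat_lit 988) (nat_lit 6487315400) (nat_lit 459) (nat_lit 5) (nat_lit 471) (nat_lit 5) (nat_lit 472) (nat_lit 5) (nat_lit 439) (nat_lit 407) (nat_lit 294)) (XT.nd (nat_lit 78) (nat_lit 912) (nat_lit 0) (XT.lf (nat_lit 0) (nat_lit 5488648892) (nat_lit 988) (nat_lit 4178272892) (nat_lit 76) (nat_lit 616201372) (nat_lit 459) (nat_lit 5) (nat_lit 472) (nat_lit 5) (nat_lit 460) (nat_lit 5) (nat_lit 440) (nat_lit 407) (nat_lit 293)) (XT.lf (nat_lit 0) (nat_lit 1813660273) (nat_lit 912) (nat_lit 5517542310) (nat_lit 988) (nat_lit 3051797559) (nat_lit 447) (nat_lit 5) (nat_lit 459) (nat_lit 5) (nat_lit 460) (nat_lit 5) (nat_lit 441) (nat_lit 407) (nat_lit 292))))) (XT.nd (nat_lit 234) (nat_lit 1748) (nat_lit 0) (XT.nd (nat_lit 78) (nat_lit 912) (nat_lit 0) (XT.lf (nat_lit 0) (nat_lit 7963154341) (nat_lit 912) (nat_lit 1255912457) (nat_lit 988) (nat_lit 1265638678)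 (nat_lit 447) (nat_lit 5) (nat_lit 459) (nat_lit 5) (nat_lit 460) (nat_lit 5) (nat_lit 442) (nat_lit 407) (nat_lit 291)) (XT.nd (nat_lit 78) (nat_lit 0) (nat_lit 0) (XT.lf (nat_lit 0) (nat_lit 573726937) (nat_lit 912) (nat_lit 6935583859) (nat_lit 76) (nat_lit 3078566317) (nat_lit 435) (nat_lit 5) (nat_lit 447) (nat_lit 5) (nat_lit 436) (nat_lit 5) (nat_lit 443) (nat_lit 407) (nat_lit 290)) (XT.lf (nat_lit 0) (nat_lit 2439237035) (nat_lit 912) (nat_lit 744851369) (nat_lit 76) (nat_lit 7508730379) (nat_lit 435) (nat_lit 5) (nat_lit 447) (nat_lit 5) (nat_lit 436) (nat_lit 5) (nat_lit 444) (nat_lit 407) (nat_lit 289)))) (XT.nd (nat_lit 78) (nat_lit 836) (nat_lit 0) (XT.lf (nat_lit 0) (nat_lit 4368101328) (nat_lit 988) (nat_lit 5182937012) (nat_lit 76) (nat_lit 1248300067) (nat_lit 423) (nat_lit 5) (nat_lit 436) (nat_lit 5) (nat_lit 424) (nat_lit 5) (nat_lit 445) (nat_lit 407) (nat_lit 288)) (XT.nd (nat_lit 78) (nat_lit 0) (nat_lit 0) (XT.lf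 (nat_lit 0) (nat_lit 1182544203) (nat_lit 836) (nat_lit 5168351498) (nat_lit 912) (nat_lit 4556785666) (nat_lit 412) (nat_lit 5) (nat_lit 423) (nat_lit 5) (nat_lit 424) (nat_lit 5) (nat_lit 446) (nat_lit 407) (nat_lit 287)) (XT.lf (nat_lit 0) (nat_lit 7726782965) (nat_lit 836) (nat_lit 663139560) (nat_lit 912) (nat_lit 2627937130) (nat_lit 412) (nat_lit 5) (nat_lit 423) (nat_lit 5) (nat_lit 424) (nat_lit 5) (nat_lit 447) (nat_lit 407) (nat_lit 286))))))) (XT.nd (nat_lit 780) (nat_lit 4636) (nat_lit 0) (XT.nd (nat_lit 390) (nat_lit 2280) (nat_lit 0) (XT.nd (nat_lit 156) (nat_lit 1520) (nat_lit 0) (XT.nd (nat_lit 78) (nat_lit 76) (nat_lit 0) (XT.lf (nat_lit 0) (nat_lit 3270231919) (nat_lit 836) (nat_lit 7228410194) (nat_lit 912) (nat_lit 631021153) (nat_lit 401) (nat_lit 5) (nat_lit 412) (nat_lit 5) (nat_lit 413) (nat_lit 5) (nat_lit 448) (nat_lit 407) (nat_lit 285)) (XT.lf (nat_lit 0) (nat_lit 1396279670) (nat_lit 912) (nat_lit 1268453203)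 (nat_lit 76) (nat_lit 8578609835) (nat_lit 400) (nat_lit 5) (nat_lit 412) (nat_lit 5) (nat_lit 401) (nat_lit 5) (nat_lit 449) (nat_lit 407) (nat_lit 284))) (XT.nd (nat_lit 78) (nat_lit 760) (nat_lit 0) (XT.lf (nat_lit 0) (nat_lit 3487207502) (nat_lit 836) (nat_lit 5868208805) (nat_lit 76) (nat_lit 2003165407) (nat_lit 390) (nat_lit 5) (nat_lit 401) (nat_lit 5) (nat_lit 391) (nat_lit 5) (nat_lit 450) (nat_lit 407) (nat_lit 283)) (XT.nd (nat_lit 78) (nat_lit 0) (nat_lit 0) (XT.lf (nat_lit 0) (nat_lit 900980151) (nat_lit 760) (nat_lit 4733861806) (nat_lit 836) (nat_lit 5840985780) (nat_lit 380) (nat_lit 5) (nat_lit 390) (nat_lit 5) (nat_lit 391) (nat_lit 5) (nat_lit 451) (nat_lit 407) (nat_lit 282)) (XT.lf (nat_lit 0) (nat_lit 7847967415) (nat_lit 836) (nat_lit 3728617196) (nat_lit 76) (nat_lit 18383302) (nat_lit 380) (nat_lit 5) (nat_lit 391) (nat_lit 5) (nat_lit 381) (nat_lit 5) (nat_lit 452) (nat_lit 407) (nat_lit 281))))) (XT.nd (nat_lit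 156) (nat_lit 1444) (nat_lit 0) (XT.nd (nat_lit 78) (nat_lit 76) (nat_lit 0) (XT.lf (nat_lit 0) (nat_lit 3247194521) (nat_lit 760) (nat_lit 6893954475) (nat_lit 836) (nat_lit 1574626027) (nat_lit 370) (nat_lit 5) (nat_lit 380) (nat_lit 5) (nat_lit 381) (nat_lit 5) (nat_lit 453) (nat_lit 407) (nat_lit 280)) (XT.lf (nat_lit 0) (nat_lit 641431404) (nat_lit 836) (nat_lit 1448440096) (nat_lit 76) (nat_lit 9748870616) (nat_lit 369) (nat_lit 5) (nat_lit 380) (nat_lit 5) (nat_lit 370) (nat_lit 5) (nat_lit 454) (nat_lit 407) (nat_lit 279))) (XT.nd (nat_lit 78) (nat_lit 684) (nat_lit 0) (XT.lf (nat_lit 0) (nat_lit 2920467898) (nat_lit 836) (nat_lit 6223193950) (nat_lit 76) (nat_lit 2819503693) (nat_lit 359) (nat_lit 5) (nat_lit 370) (nat_lit 5) (nat_lit 360) (nat_lit 5) (nat_lit 455) (nat_lit 407) (nat_lit 278)) (XT.nd (nat_lit 78) (nat_lit 0) (nat_lit 0) (XT.lf (nat_lit 0) (nat_lit 982384175) (nat_lit 684) (nat_lit 4276671906) (nat_lit 760) (nat_lit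 6830741934) (nat_lit 350) (nat_lit 5) (nat_lit 359) (nat_lit 5) (nat_lit 360) (nat_lit 5) (nat_lit 456) (nat_lit 407) (nat_lit 277)) (XT.lf (nat_lit 0) (nat_lit 7675065075) (nat_lit 760) (nat_lit 3825114720) (nat_lit 76) (nat_lit 718170364) (nat_lit 350) (nat_lit 5) (nat_lit 360) (nat_lit 5) (nat_lit 351) (nat_lit 5) (nat_lit 457) (nat_lit 407) (nat_lit 276)))))) (XT.nd (nat_lit 390) (nat_lit 2508) (nat_lit 0) (XT.nd (nat_lit 156) (nat_lit 1368) (nat_lit 0) (XT.nd (nat_lit 78) (nat_lit 76) (nat_lit 0) (XT.lf (nat_lit 0) (nat_lit 3603457853) (nat_lit 684) (nat_lit 6572112455) (nat_lit 760) (nat_lit 2173179516) (nat_lit 341) (nat_lit 5) (nat_lit 350) (nat_lit 5) (nat_lit 351) (nat_lit 5) (nat_lit 458) (nat_lit 407) (nat_lit 275)) (XT.lf (nat_lit 0) (nat_lit 251504928) (nat_lit 760) (nat_lit 1268943283) (nat_lit 76) (nat_lit 10961069921) (nat_lit 340) (nat_lit 5) (nat_lit 350) (nat_lit 5) (nat_lit 341) (nat_lit 5) (nat_lit 459) (nat_lit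 407) (nat_lit 274))) (XT.nd (nat_lit 78) (nat_lit 684) (nat_lit 0) (XT.lf (nat_lit 0) (nat_lit 2746000853) (nat_lit 760) (nat_lit 6231504665) (nat_lit 76) (nat_lit 3638140661) (nat_lit 331) (nat_lit 5) (nat_lit 341) (nat_lit 5) (nat_lit 332) (nat_lit 5) (nat_lit 460) (nat_lit 407) (nat_lit 273)) (XT.nd (nat_lit 78) (nat_lit 0) (nat_lit 0) (XT.lf (nat_lit 0) (nat_lit 1445843109) (nat_lit 684) (nat_lit 3857579274) (nat_lit 760) (nat_lit 7448773689) (nat_lit 322) (nat_lit 5) (nat_lit 331) (nat_lit 5) (nat_lit 332) (nat_lit 5) (nat_lit 461) (nat_lit 407) (nat_lit 272)) (XT.lf (nat_lit 0) (nat_lit 7948109676) (nat_lit 760) (nat_lit 3556922490) (nat_lit 76) (nat_lit 1385722451) (nat_lit 322) (nat_lit 5) (nat_lit 332) (nat_lit 5) (nat_lit 323) (nat_lit 5) (nat_lit 462) (nat_lit 407) (nat_lit 271))))) (XT.nd (nat_lit 234) (nat_lit 1216) (nat_lit 0) (XT.nd (nat_lit 78) (nat_lit 684) (nat_lit 0) (XT.lf (nat_lit 0) (nat_lit 4361155260) (nat_lit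 608) (nat_lit 6323851663) (nat_lit 684) (nat_lit 2346291086) (nat_lit 314) (nat_lit 5) (nat_lit 322) (nat_lit 5) (nat_lit 323) (nat_lit 5) (nat_lit 463) (nat_lit 407) (nat_lit 270)) (XT.nd (nat_lit 78) (nat_lit 608) (nat_lit 0) (XT.lf (nat_lit 0) (nat_lit 307583863) (nat_lit 684) (nat_lit 708549842) (nat_lit 76) (nat_lit 12158288256) (nat_lit 313) (nat_lit 5) (nat_lit 322) (nat_lit 5) (nat_lit 314) (nat_lit 5) (nat_lit 464) (nat_lit 407) (nat_lit 269)) (XT.lf (nat_lit 0) (nat_lit 3046461166) (nat_lit 684) (nat_lit 5871276618) (nat_lit 76) (nat_lit 4401093594) (nat_lit 305) (nat_lit 5) (nat_lit 314) (nat_lit 5) (nat_lit 306) (nat_lit 5) (nat_lit 465) (nat_lit 407) (nat_lit 268)))) (XT.nd (nat_lit 78) (nat_lit 608) (nat_lit 0) (XT.lf (nat_lit 0) (nat_lit 2316115263) (nat_lit 608) (nat_lit 3536506430) (nat_lit 684) (nat_lit 7613257176) (nat_lit 297) (nat_lit 5) (nat_lit 305) (nat_lit 5) (nat_lit 306) (nat_lit 5) (nat_lit 466) (nat_lit 407)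 (nat_lit 267)) (XT.nd (nat_lit 78) (nat_lit 608) (nat_lit 0) (XT.lf (nat_lit 0) (nat_lit 8753329306) (nat_lit 684) (nat_lit 2899162132) (nat_lit 76) (nat_lit 1962607397) (nat_lit 297) (nat_lit 5) (nat_lit 306) (nat_lit 5) (nat_lit 298) (nat_lit 5) (nat_lit 467) (nat_lit 407) (nat_lit 266)) (XT.lf (nat_lit 0) (nat_lit 5548161010) (nat_lit 608) (nat_lit 6209693411) (nat_lit 684) (nat_lit 2008532710) (nat_lit 289) (nat_lit 5) (nat_lit 297) (nat_lit 5) (nat_lit 298) (nat_lit 5) (nat_lit 468) (nat_lit 407) (nat_lit 265))))))))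
noncomputable def xc176 : XT := (XT.nd (nat_lit 1560) (nat_lit 3572) (nat_lit 0) (XT.nd (nat_lit 780) (nat_lit 2964) (nat_lit 0) (XT.nd (nat_lit 390) (nat_lit 1748) (nat_lit 0) (XT.nd (nat_lit 156) (nat_lit 1140) (nat_lit 0) (XT.nd (nat_lit 78) (nat_lit 0) (nat_lit 0) (XT.lf (nat_lit 0) (nat_lit 263186128) (nat_lit 532) (nat_lit 634473204) (nat_lit 608) (nat_lit 13022770417) (nat_lit 281) (nat_lit 5) (nat_lit 288) (nat_lit 5) (nat_lit 289) (nat_lit 5) (nat_lit 469) (nat_lit 407) (nat_lit 264)) (XT.lf (nat_lit 0) (nat_lit 3909972354) (nat_lit 608) (nat_lit 5115117056) (nat_lit 76) (nat_lit 5050700453) (nat_lit 281) (nat_lit 5) (nat_lit 289) (nat_lit 5) (nat_lit 282) (nat_lit 5) (nat_lit 470) (nat_lit 407) (nat_lit 263))) (XT.nd (nat_lit 78) (nat_lit 532) (nat_lit 0) (XT.lf (nat_lit 0) (nat_lit 3623700895) (nat_lit 608) (nat_lit 3373373586) (nat_lit 684) (nat_lit 7236891842) (nat_lit 273) (nat_lit 5) (nat_lit 281) (nat_lit 5) (nat_lit 282)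 (nat_lit 5) (nat_lit 471) (nat_lit 407) (nat_lit 262)) (XT.nd (nat_lit 78) (nat_lit 532) (nat_lit 0) (XT.lf (nat_lit 0) (nat_lit 10182928870) (nat_lit 684) (nat_lit 1821334194) (nat_lit 76) (nat_lit 2390303044) (nat_lit 273) (nat_lit 5) (nat_lit 282) (nat_lit 5) (nat_lit 274) (nat_lit 5) (nat_lit 472) (nat_lit 407) (nat_lit 261)) (XT.lf (nat_lit 0) (nat_lit 7198193371) (nat_lit 532) (nat_lit 6290570259) (nat_lit 608) (nat_lit 1068488992) (nat_lit 266) (nat_lit 5) (nat_lit 273) (nat_lit 5) (nat_lit 274) (nat_lit 5) (nat_lit 473) (nat_lit 407) (nat_lit 260))))) (XT.nd (nat_lit 156) (nat_lit 1140) (nat_lit 0) (XT.nd (nat_lit 78) (nat_lit 0) (nat_lit 0) (XT.lf (nat_lit 0) (nat_lit 1690763515) (nat_lit 532) (nat_lit 429248995) (nat_lit 608) (nat_lit 12602692308) (nat_lit 258) (nat_lit 5) (nat_lit 265) (nat_lit 5) (nat_lit 266) (nat_lit 5) (nat_lit 474) (nat_lit 407) (nat_lit 259)) (XT.lf (nat_lit 0) (nat_lit 5431082780) (nat_lit 608) (nat_lit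 3929987083) (nat_lit 76) (nat_lit 5528792824) (nat_lit 258) (nat_lit 5) (nat_lit 266) (nat_lit 5) (nat_lit 259) (nat_lit 5) (nat_lit 475) (nat_lit 407) (nat_lit 258))) (XT.nd (nat_lit 78) (nat_lit 608) (nat_lit 0) (XT.lf (nat_lit 0) (nat_lit 5404979659) (nat_lit 532) (nat_lit 3428930709) (nat_lit 608) (nat_lit 6225942627) (nat_lit 251) (nat_lit 5) (nat_lit 258) (nat_lit 5) (nat_lit 259) (nat_lit 5) (nat_lit 476) (nat_lit 407) (nat_lit 257)) (XT.nd (nat_lit 78) (nat_lit 608) (nat_lit 0) (XT.lf (nat_lit 0) (nat_lit 12336067284) (nat_lit 608) (nat_lit 287169054) (nat_lit 76) (nat_lit 2609381315) (nat_lit 251) (nat_lit 5) (nat_lit 259) (nat_lit 5) (nat_lit 252) (nat_lit 5) (nat_lit 477) (nat_lit 407) (nat_lit 256)) (XT.lf (nat_lit 0) (nat_lit 564717339) (nat_lit 608) (nat_lit 6060141498) (nat_lit 76) (nat_lit 8782477160) (nat_lit 243) (nat_lit 5) (nat_lit 251) (nat_lit 5) (nat_lit 244) (nat_lit 5) (nat_lit 478) (nat_lit 407) (nat_lit 255))))))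 (XT.nd (nat_lit 390) (nat_lit 1444) (nat_lit 0) (XT.nd (nat_lit 156) (nat_lit 1064) (nat_lit 0) (XT.nd (nat_lit 78) (nat_lit 0) (nat_lit 0) (XT.lf (nat_lit 0) (nat_lit 3603811483) (nat_lit 456) (nat_lit 465981478) (nat_lit 532) (nat_lit 11515105477) (nat_lit 237) (nat_lit 5) (nat_lit 243) (nat_lit 5) (nat_lit 244) (nat_lit 5) (nat_lit 479) (nat_lit 407) (nat_lit 254)) (XT.lf (nat_lit 0) (nat_lit 7711755661) (nat_lit 532) (nat_lit 2277020068) (nat_lit 76) (nat_lit 5775900687) (nat_lit 237) (nat_lit 5) (nat_lit 244) (nat_lit 5) (nat_lit 238) (nat_lit 5) (nat_lit 480) (nat_lit 407) (nat_lit 253))) (XT.nd (nat_lit 78) (nat_lit 532) (nat_lit 0) (XT.lf (nat_lit 0) (nat_lit 7702413180) (nat_lit 532) (nat_lit 3765560858) (nat_lit 608) (nat_lit 4479247587) (nat_lit 230) (nat_lit 5) (nat_lit 237) (nat_lit 5) (nat_lit 238) (nat_lit 5) (nat_lit 481) (nat_lit 407) (nat_lit 252)) (XT.nd (nat_lit 78) (nat_lit 76) (nat_lit 0) (XT.lf (nat_lit 0) (nat_lit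 1768783640) (nat_lit 456) (nat_lit 13562573837) (nat_lit 532) (nat_lit 801419447) (nat_lit 224) (nat_lit 5) (nat_lit 230) (nat_lit 5) (nat_lit 231) (nat_lit 5) (nat_lit 482) (nat_lit 407) (nat_lit 251)) (XT.lf (nat_lit 0) (nat_lit 2980360716) (nat_lit 532) (nat_lit 4287765848) (nat_lit 76) (nat_lit 9052152007) (nat_lit 223) (nat_lit 5) (nat_lit 230) (nat_lit 5) (nat_lit 224) (nat_lit 5) (nat_lit 483) (nat_lit 407) (nat_lit 250))))) (XT.nd (nat_lit 156) (nat_lit 988) (nat_lit 0) (XT.nd (nat_lit 78) (nat_lit 0) (nat_lit 0) (XT.lf (nat_lit 0) (nat_lit 6047542199) (nat_lit 456) (nat_lit 807458246) (nat_lit 532) (nat_lit 9655864759) (nat_lit 217) (nat_lit 5) (nat_lit 223) (nat_lit 5) (nat_lit 224) (nat_lit 5) (nat_lit 484) (nat_lit 407) (nat_lit 249)) (XT.lf (nat_lit 0) (nat_lit 10862402778) (nat_lit 532) (nat_lit 111277392) (nat_lit 76) (nat_lit 5730478003) (nat_lit 217) (nat_lit 5) (nat_lit 224) (nat_lit 5) (nat_lit 218) (nat_lit 5) (nat_lit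 485) (nat_lit 407) (nat_lit 248))) (XT.nd (nat_lit 78) (nat_lit 532) (nat_lit 0) (XT.lf (nat_lit 0) (nat_lit 10564811713) (nat_lit 456) (nat_lit 4448065716) (nat_lit 532) (nat_lit 1887181088) (nat_lit 211) (nat_lit 5) (nat_lit 217) (nat_lit 5) (nat_lit 218) (nat_lit 5) (nat_lit 486) (nat_lit 407) (nat_lit 247)) (XT.nd (nat_lit 78) (nat_lit 0) (nat_lit 0) (XT.lf (nat_lit 0) (nat_lit 2151154646) (nat_lit 532) (nat_lit 12730453481) (nat_lit 76) (nat_lit 2217333582) (nat_lit 204) (nat_lit 5) (nat_lit 211) (nat_lit 5) (nat_lit 205) (nat_lit 5) (nat_lit 487) (nat_lit 407) (nat_lit 246)) (XT.lf (nat_lit 0) (nat_lit 6306361681) (nat_lit 532) (nat_lit 1987340093) (nat_lit 76) (nat_lit 9006623828) (nat_lit 204) (nat_lit 5) (nat_lit 211) (nat_lit 5) (nat_lit 205) (nat_lit 5) (nat_lit 488) (nat_lit 407) (nat_lit 245))))))) (XT.nd (nat_lit 780) (nat_lit 760) (nat_lit 0) (XT.nd (nat_lit 390) (nat_lit 1140) (nat_lit 0) (XT.nd (nat_lit 156) (nat_lit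 836) (nat_lit 0) (XT.nd (nat_lit 78) (nat_lit 456) (nat_lit 0) (XT.lf (nat_lit 0) (nat_lit 9073633123) (nat_lit 380) (nat_lit 1519264078) (nat_lit 456) (nat_lit 6911875484) (nat_lit 199) (nat_lit 5) (nat_lit 204) (nat_lit 5) (nat_lit 205) (nat_lit 5) (nat_lit 489) (nat_lit 407) (nat_lit 244)) (XT.lf (nat_lit 0) (nat_lit 2653357343) (nat_lit 456) (nat_lit 12366841721) (nat_lit 532) (nat_lit 2692008933) (nat_lit 193) (nat_lit 5) (nat_lit 199) (nat_lit 5) (nat_lit 200) (nat_lit 5) (nat_lit 490) (nat_lit 407) (nat_lit 243))) (XT.nd (nat_lit 78) (nat_lit 760) (nat_lit 0) (XT.lf (nat_lit 0) (nat_lit 1647542310) (nat_lit 532) (nat_lit 3885845253) (nat_lit 76) (nat_lit 12389066449) (nat_lit 192) (nat_lit 5) (nat_lit 199) (nat_lit 5) (nat_lit 193) (nat_lit 5) (nat_lit 491) (nat_lit 407) (nat_lit 242)) (XT.nd (nat_lit 78) (nat_lit 380) (nat_lit 0) (XT.lf (nat_lit 0) (nat_lit 6086426338) (nat_lit 456) (nat_lit 10569146693) (nat_lit 76) (nat_lit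 1480004276) (nat_lit 187) (nat_lit 5) (nat_lit 193) (nat_lit 5) (nat_lit 188) (nat_lit 5) (nat_lit 492) (nat_lit 407) (nat_lit 241)) (XT.lf (nat_lit 0) (nat_lit 907202743) (nat_lit 380) (nat_lit 9765361933) (nat_lit 456) (nat_lit 7679228860) (nat_lit 182) (nat_lit 5) (nat_lit 187) (nat_lit 5) (nat_lit 188) (nat_lit 5) (nat_lit 493) (nat_lit 407) (nat_lit 240))))) (XT.nd (nat_lit 156) (nat_lit 684) (nat_lit 0) (XT.nd (nat_lit 78) (nat_lit 456) (nat_lit 0) (XT.lf (nat_lit 0) (nat_lit 12740589240) (nat_lit 380) (nat_lit 2670553636) (nat_lit 456) (nat_lit 3159976872) (nat_lit 182) (nat_lit 5) (nat_lit 187) (nat_lit 5) (nat_lit 188) (nat_lit 5) (nat_lit 494) (nat_lit 407) (nat_lit 239)) (XT.lf (nat_lit 0) (nat_lit 1489921355) (nat_lit 456) (nat_lit 12753560283) (nat_lit 76) (nat_lit 4549977128) (nat_lit 176) (nat_lit 5) (nat_lit 182) (nat_lit 5) (nat_lit 177) (nat_lit 5) (nat_lit 495) (nat_lit 407) (nat_lit 238))) (XT.nd (nat_lit 78) (nat_lit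 684) (nat_lit 0) (XT.lf (nat_lit 0) (nat_lit 6237603549) (nat_lit 456) (nat_lit 847207191) (nat_lit 76) (nat_lit 11934074114) (nat_lit 176) (nat_lit 5) (nat_lit 182) (nat_lit 5) (nat_lit 177) (nat_lit 5) (nat_lit 496) (nat_lit 407) (nat_lit 237)) (XT.nd (nat_lit 78) (nat_lit 304) (nat_lit 0) (XT.lf (nat_lit 0) (nat_lit 11146511507) (nat_lit 456) (nat_lit 7817529131) (nat_lit 76) (nat_lit 283453382) (nat_lit 171) (nat_lit 5) (nat_lit 177) (nat_lit 5) (nat_lit 172) (nat_lit 5) (nat_lit 497) (nat_lit 407) (nat_lit 236)) (XT.lf (nat_lit 0) (nat_lit 4480007345) (nat_lit 304) (nat_lit 11745561373) (nat_lit 380) (nat_lit 3253667231) (nat_lit 167) (nat_lit 5) (nat_lit 171) (nat_lit 5) (nat_lit 172) (nat_lit 5) (nat_lit 498) (nat_lit 407) (nat_lit 235)))))) (XT.nd (nat_lit 52416) (nat_lit 0) (nat_lit 34504) (XT.nd (nat_lit 156) (nat_lit 304) (nat_lit 0) (XT.nd (nat_lit 78) (nat_lit 380) (nat_lit 0) (XT.lf (nat_lit 0) (nat_lit 1711498868) (nat_lit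 380) (nat_lit 2611846900) (nat_lit 76) (nat_lit 15391185880) (nat_lit 166) (nat_lit 5) (nat_lit 171) (nat_lit 5) (nat_lit 167) (nat_lit 5) (nat_lit 499) (nat_lit 407) (nat_lit 234)) (XT.lf (nat_lit 0) (nat_lit 6810229710) (nat_lit 456) (nat_lit 9855272849) (nat_lit 76) (nat_lit 3287044006) (nat_lit 161) (nat_lit 5) (nat_lit 167) (nat_lit 5) (nat_lit 162) (nat_lit 5) (nat_lit 500) (nat_lit 407) (nat_lit 233))) (XT.nd (nat_lit 52104) (nat_lit 0) (nat_lit 35872) (XT.lf (nat_lit 0) (nat_lit 2895057811) (nat_lit 304) (nat_lit 9171462310) (nat_lit 380) (nat_lit 8127689960) (nat_lit 157) (nat_lit 5) (nat_lit 161) (nat_lit 5) (nat_lit 162) (nat_lit 5) (nat_lit 501) (nat_lit 407) (nat_lit 232)) (XT.nd (nat_lit 78) (nat_lit 0) (nat_lit 0) (XT.lf (nat_lit 0) (nat_lit 1955275948) (nat_lit 1444) (nat_lit 1005403762) (nat_lit 1444) (nat_lit 1005403762) (nat_lit 629) (nat_lit 3) (nat_lit 648) (nat_lit 3) (nat_lit 648) (nat_lit 5) (nat_lit 408) (nat_lit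 408) (nat_lit 324)) (XT.lf (nat_lit 76) (nat_lit 1981260537) (nat_lit 0) (nat_lit 3226385327) (nat_lit 1444) (nat_lit 2778682984) (nat_lit 630) (nat_lit 5) (nat_lit 629) (nat_lit 3) (nat_lit 648) (nat_lit 5) (nat_lit 409) (nat_lit 408) (nat_lit 323))))) (XT.nd (nat_lit 234) (nat_lit 0) (nat_lit 76) (XT.nd (nat_lit 78) (nat_lit 1368) (nat_lit 0) (XT.lf (nat_lit 76) (nat_lit 6063548991) (nat_lit 0) (nat_lit 447856641) (nat_lit 1444) (nat_lit 1530553875) (nat_lit 630) (nat_lit 5) (nat_lit 629) (nat_lit 3) (nat_lit 648) (nat_lit 5) (nat_lit 410) (nat_lit 408) (nat_lit 322)) (XT.nd (nat_lit 78) (nat_lit 1444) (nat_lit 0) (XT.lf (nat_lit 76) (nat_lit 2123851303) (nat_lit 0) (nat_lit 5714645859) (nat_lit 1444) (nat_lit 260260488) (nat_lit 631) (nat_lit 5) (nat_lit 630) (nat_lit 5) (nat_lit 649) (nat_lit 5) (nat_lit 411) (nat_lit 408) (nat_lit 321)) (XT.lf (nat_lit 0) (nat_lit 1006470644) (nat_lit 1444) (nat_lit 1848825125) (nat_lit 1520) (nat_lit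 5301569294) (nat_lit 611) (nat_lit 5) (nat_lit 630) (nat_lit 5) (nat_lit 631) (nat_lit 5) (nat_lit 412) (nat_lit 408) (nat_lit 320)))) (XT.nd (nat_lit 78) (nat_lit 0) (nat_lit 0) (XT.lf (nat_lit 0) (nat_lit 2279959403) (nat_lit 1444) (nat_lit 5845106271) (nat_lit 1520) (nat_lit 91336385) (nat_lit 612) (nat_lit 5) (nat_lit 631) (nat_lit 5) (nat_lit 632) (nat_lit 5) (nat_lit 413) (nat_lit 408) (nat_lit 319)) (XT.nd (nat_lit 78) (nat_lit 0) (nat_lit 0) (XT.lf (nat_lit 0) (nat_lit 3579805491) (nat_lit 1444) (nat_lit 1612831908) (nat_lit 1520) (nat_lit 3084474647) (nat_lit 612) (nat_lit 5) (nat_lit 631) (nat_lit 5) (nat_lit 632) (nat_lit 5) (nat_lit 414) (nat_lit 408) (nat_lit 318)) (XT.lf (nat_lit 76) (nat_lit 2722301941) (nat_lit 0) (nat_lit 2171109349) (nat_lit 1520) (nat_lit 3445869685) (nat_lit 613) (nat_lit 5) (nat_lit 612) (nat_lit 5) (nat_lit 632) (nat_lit 5) (nat_lit 415) (nat_lit 408) (nat_lit 317))))))))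
noncomputable def xc177 : XT := (XT.nd (nat_lit 1560) (nat_lit 11552) (nat_lit 0) (XT.nd (nat_lit 780) (nat_lit 4864) (nat_lit 0) (XT.nd (nat_lit 390) (nat_lit 1368) (nat_lit 0) (XT.nd (nat_lit 156) (nat_lit 1520) (nat_lit 0) (XT.nd (nat_lit 78) (nat_lit 0) (nat_lit 0) (XT.lf (nat_lit 0) (nat_lit 6220737507) (nat_lit 1444) (nat_lit 1260503025) (nat_lit 1520) (nat_lit 921703786) (nat_lit 613) (nat_lit 5) (nat_lit 632) (nat_lit 5) (nat_lit 633) (nat_lit 5) (nat_lit 416) (nat_lit 408) (nat_lit 316)) (XT.lf (nat_lit 76) (nat_lit 3192912153) (nat_lit 0) (nat_lit 4388022331) (nat_lit 1520) (nat_lit 886819958) (nat_lit 614) (nat_lit 5) (nat_lit 613) (nat_lit 5) (nat_lit 633) (nat_lit 5) (nat_lit 417) (nat_lit 408) (nat_lit 315))) (XT.nd (nat_lit 78) (nat_lit 0) (nat_lit 76) (XT.lf (nat_lit 0) (nat_lit 408769273) (nat_lit 1520) (nat_lit 802036859) (nat_lit 1596) (nat_lit 7323398361) (nat_lit 593) (nat_lit 5) (nat_lit 613) (nat_lit 5) (nat_lit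 614) (nat_lit 5) (nat_lit 418) (nat_lit 408) (nat_lit 314)) (XT.nd (nat_lit 78) (nat_lit 0) (nat_lit 0) (XT.lf (nat_lit 0) (nat_lit 1728477026) (nat_lit 1520) (nat_lit 4828969744) (nat_lit 1596) (nat_lit 2044217914) (nat_lit 594) (nat_lit 5) (nat_lit 614) (nat_lit 5) (nat_lit 615) (nat_lit 5) (nat_lit 419) (nat_lit 408) (nat_lit 313)) (XT.lf (nat_lit 0) (nat_lit 3060552694) (nat_lit 1520) (nat_lit 246725925) (nat_lit 1596) (nat_lit 5363475982) (nat_lit 594) (nat_lit 5) (nat_lit 614) (nat_lit 5) (nat_lit 615) (nat_lit 5) (nat_lit 420) (nat_lit 408) (nat_lit 312))))) (XT.nd (nat_lit 156) (nat_lit 1520) (nat_lit 0) (XT.nd (nat_lit 78) (nat_lit 0) (nat_lit 0) (XT.lf (nat_lit 0) (nat_lit 4421658106) (nat_lit 1520) (nat_lit 4273469540) (nat_lit 1596) (nat_lit 46050908) (nat_lit 595) (nat_lit 5) (nat_lit 615) (nat_lit 5) (nat_lit 616) (nat_lit 5) (nat_lit 421) (nat_lit 408) (nat_lit 311)) (XT.lf (nat_lit 76) (nat_lit 432341231) (nat_lit 0) (nat_lit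 5377567657) (nat_lit 1596) (nat_lit 3003103632) (nat_lit 596) (nat_lit 5) (nat_lit 595) (nat_lit 5) (nat_lit 616) (nat_lit 5) (nat_lit 422) (nat_lit 408) (nat_lit 310))) (XT.nd (nat_lit 78) (nat_lit 1520) (nat_lit 0) (XT.lf (nat_lit 76) (nat_lit 5272101312) (nat_lit 0) (nat_lit 1956448889) (nat_lit 1596) (nat_lit 1657680456) (nat_lit 596) (nat_lit 5) (nat_lit 595) (nat_lit 5) (nat_lit 616) (nat_lit 5) (nat_lit 423) (nat_lit 408) (nat_lit 309)) (XT.nd (nat_lit 78) (nat_lit 1596) (nat_lit 0) (XT.lf (nat_lit 76) (nat_lit 1235694366) (nat_lit 0) (nat_lit 7432356522) (nat_lit 1596) (nat_lit 293012535) (nat_lit 597) (nat_lit 5) (nat_lit 596) (nat_lit 5) (nat_lit 617) (nat_lit 5) (nat_lit 424) (nat_lit 408) (nat_lit 308)) (XT.lf (nat_lit 0) (nat_lit 1096631005) (nat_lit 1596) (nat_lit 2844172156) (nat_lit 1672) (nat_lit 5096205078) (nat_lit 575) (nat_lit 5) (nat_lit 596) (nat_lit 5) (nat_lit 597) (nat_lit 5) (nat_lit 425) (nat_lit 408) (nat_lit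 307)))))) (XT.nd (nat_lit 390) (nat_lit 4864) (nat_lit 0) (XT.nd (nat_lit 156) (nat_lit 0) (nat_lit 76) (XT.nd (nat_lit 78) (nat_lit 0) (nat_lit 76) (XT.lf (nat_lit 76) (nat_lit 2142655536) (nat_lit 0) (nat_lit 356624469) (nat_lit 1672) (nat_lit 6615370492) (nat_lit 576) (nat_lit 5) (nat_lit 575) (nat_lit 5) (nat_lit 597) (nat_lit 5) (nat_lit 426) (nat_lit 408) (nat_lit 306)) (XT.lf (nat_lit 0) (nat_lit 3946246100) (nat_lit 1596) (nat_lit 1965801982) (nat_lit 1672) (nat_lit 3281472233) (nat_lit 576) (nat_lit 5) (nat_lit 597) (nat_lit 5) (nat_lit 598) (nat_lit 5) (nat_lit 427) (nat_lit 408) (nat_lit 305))) (XT.nd (nat_lit 78) (nat_lit 0) (nat_lit 76) (XT.lf (nat_lit 76) (nat_lit 3161415492) (nat_lit 0) (nat_lit 2259732594) (nat_lit 1672) (nat_lit 3852839514) (nat_lit 577) (nat_lit 5) (nat_lit 576) (nat_lit 5) (nat_lit 598) (nat_lit 5) (nat_lit 428) (nat_lit 408) (nat_lit 304)) (XT.nd (nat_lit 78) (nat_lit 0) (nat_lit 0) (XT.lf (nat_lit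 0) (nat_lit 6924838201) (nat_lit 1596) (nat_lit 966165977) (nat_lit 1672) (nat_lit 1465074250) (nat_lit 577) (nat_lit 5) (nat_lit 598) (nat_lit 5) (nat_lit 599) (nat_lit 5) (nat_lit 429) (nat_lit 408) (nat_lit 303)) (XT.lf (nat_lit 76) (nat_lit 4306460955) (nat_lit 0) (nat_lit 4172022879) (nat_lit 1672) (nat_lit 960929604) (nat_lit 578) (nat_lit 5) (nat_lit 577) (nat_lit 5) (nat_lit 599) (nat_lit 5) (nat_lit 430) (nat_lit 408) (nat_lit 302))))) (XT.nd (nat_lit 156) (nat_lit 3344) (nat_lit 0) (XT.nd (nat_lit 78) (nat_lit 0) (nat_lit 76) (XT.lf (nat_lit 76) (nat_lit 153416435) (nat_lit 0) (nat_lit 362967117) (nat_lit 1748) (nat_lit 9008268381) (nat_lit 556) (nat_lit 5) (nat_lit 555) (nat_lit 5) (nat_lit 578) (nat_lit 5) (nat_lit 431) (nat_lit 408) (nat_lit 301)) (XT.lf (nat_lit 0) (nat_lit 2045427180) (nat_lit 1672) (nat_lit 4044039047) (nat_lit 76) (nat_lit 3521300915) (nat_lit 556) (nat_lit 5) (nat_lit 578) (nat_lit 5) (nat_lit 557) (nat_lit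 5) (nat_lit 432) (nat_lit 408) (nat_lit 300))) (XT.nd (nat_lit 78) (nat_lit 1748) (nat_lit 0) (XT.lf (nat_lit 0) (nat_lit 1387094268) (nat_lit 1672) (nat_lit 2207305525) (nat_lit 1748) (nat_lit 6104417899) (nat_lit 534) (nat_lit 5) (nat_lit 556) (nat_lit 5) (nat_lit 557) (nat_lit 5) (nat_lit 433) (nat_lit 408) (nat_lit 299)) (XT.nd (nat_lit 78) (nat_lit 1748) (nat_lit 0) (XT.lf (nat_lit 0) (nat_lit 5191322497) (nat_lit 1748) (nat_lit 2836708122) (nat_lit 76) (nat_lit 1760259223) (nat_lit 534) (nat_lit 5) (nat_lit 557) (nat_lit 5) (nat_lit 535) (nat_lit 5) (nat_lit 434) (nat_lit 408) (nat_lit 298)) (XT.lf (nat_lit 0) (nat_lit 2750903673) (nat_lit 1748) (nat_lit 4080459477) (nat_lit 1824) (nat_lit 3047964694) (nat_lit 511) (nat_lit 5) (nat_lit 534) (nat_lit 5) (nat_lit 535) (nat_lit 5) (nat_lit 435) (nat_lit 408) (nat_lit 297))))))) (XT.nd (nat_lit 780) (nat_lit 4864) (nat_lit 0) (XT.nd (nat_lit 390) (nat_lit 2736) (nat_lit 0) (XT.nd (nat_lit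 156) (nat_lit 2052) (nat_lit 0) (XT.nd (nat_lit 78) (nat_lit 1900) (nat_lit 0) (XT.lf (nat_lit 0) (nat_lit 8470476357) (nat_lit 1748) (nat_lit 31764131) (nat_lit 1824) (nat_lit 1469985401) (nat_lit 511) (nat_lit 5) (nat_lit 534) (nat_lit 5) (nat_lit 535) (nat_lit 5) (nat_lit 436) (nat_lit 408) (nat_lit 296)) (XT.lf (nat_lit 0) (nat_lit 171564018) (nat_lit 1900) (nat_lit 5819184614) (nat_lit 76) (nat_lit 4075538325) (nat_lit 486) (nat_lit 5) (nat_lit 511) (nat_lit 5) (nat_lit 487) (nat_lit 5) (nat_lit 437) (nat_lit 408) (nat_lit 295))) (XT.nd (nat_lit 78) (nat_lit 2052) (nat_lit 0) (XT.lf (nat_lit 0) (nat_lit 1816214596) (nat_lit 1900) (nat_lit 59218062) (nat_lit 76) (nat_lit 8286803191) (nat_lit 486) (nat_lit 5) (nat_lit 511) (nat_lit 5) (nat_lit 487) (nat_lit 5) (nat_lit 438) (nat_lit 408) (nat_lit 294)) (XT.nd (nat_lit 78) (nat_lit 912) (nat_lit 0) (XT.lf (nat_lit 0) (nat_lit 3527224767) (nat_lit 1216) (nat_lit 4400189412) (nat_lit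 76) (nat_lit 2332020208) (nat_lit 471) (nat_lit 5) (nat_lit 487) (nat_lit 5) (nat_lit 472) (nat_lit 5) (nat_lit 439) (nat_lit 408) (nat_lit 293)) (XT.lf (nat_lit 0) (nat_lit 1527530930) (nat_lit 912) (nat_lit 3747929874) (nat_lit 988) (nat_lit 5083055978) (nat_lit 459) (nat_lit 5) (nat_lit 471) (nat_lit 5) (nat_lit 472) (nat_lit 5) (nat_lit 440) (nat_lit 408) (nat_lit 292))))) (XT.nd (nat_lit 156) (nat_lit 1824) (nat_lit 0) (XT.nd (nat_lit 78) (nat_lit 912) (nat_lit 0) (XT.lf (nat_lit 0) (nat_lit 7072273207) (nat_lit 988) (nat_lit 2847746344) (nat_lit 76) (nat_lit 539289042) (nat_lit 459) (nat_lit 5) (nat_lit 472) (nat_lit 5) (nat_lit 460) (nat_lit 5) (nat_lit 441) (nat_lit 408) (nat_lit 291)) (XT.lf (nat_lit 0) (nat_lit 3254722247) (nat_lit 912) (nat_lit 5677177498) (nat_lit 988) (nat_lit 1629678936) (nat_lit 447) (nat_lit 5) (nat_lit 459) (nat_lit 5) (nat_lit 460) (nat_lit 5) (nat_lit 442) (nat_lit 408) (nat_lit 290))) (XT.nd (nat_lit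 78) (nat_lit 1748) (nat_lit 0) (XT.lf (nat_lit 0) (nat_lit 160982289) (nat_lit 988) (nat_lit 1167286124) (nat_lit 76) (nat_lit 9337598754) (nat_lit 446) (nat_lit 5) (nat_lit 459) (nat_lit 5) (nat_lit 447) (nat_lit 5) (nat_lit 443) (nat_lit 408) (nat_lit 289)) (XT.nd (nat_lit 78) (nat_lit 912) (nat_lit 0) (XT.lf (nat_lit 0) (nat_lit 2000886383) (nat_lit 912) (nat_lit 5658663441) (nat_lit 76) (nat_lit 3111771133) (nat_lit 435) (nat_lit 5) (nat_lit 447) (nat_lit 5) (nat_lit 436) (nat_lit 5) (nat_lit 444) (nat_lit 408) (nat_lit 288)) (XT.lf (nat_lit 0) (nat_lit 636473673) (nat_lit 912) (nat_lit 3243606891) (nat_lit 988) (nat_lit 6998753419) (nat_lit 423) (nat_lit 5) (nat_lit 435) (nat_lit 5) (nat_lit 436) (nat_lit 5) (nat_lit 445) (nat_lit 408) (nat_lit 287)))))) (XT.nd (nat_lit 390) (nat_lit 2356) (nat_lit 0) (XT.nd (nat_lit 156) (nat_lit 1672) (nat_lit 0) (XT.nd (nat_lit 78) (nat_lit 836) (nat_lit 0) (XT.lf (nat_lit 0) (nat_lit 5825186164)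 (nat_lit 988) (nat_lit 3880517579) (nat_lit 76) (nat_lit 1282226976) (nat_lit 423) (nat_lit 5) (nat_lit 436) (nat_lit 5) (nat_lit 424) (nat_lit 5) (nat_lit 446) (nat_lit 408) (nat_lit 286)) (XT.lf (nat_lit 0) (nat_lit 2603022746) (nat_lit 836) (nat_lit 5226825501) (nat_lit 912) (nat_lit 3268948055) (nat_lit 412) (nat_lit 5) (nat_lit 423) (nat_lit 5) (nat_lit 424) (nat_lit 5) (nat_lit 447) (nat_lit 408) (nat_lit 285))) (XT.nd (nat_lit 78) (nat_lit 1672) (nat_lit 0) (XT.lf (nat_lit 0) (nat_lit 9250757505) (nat_lit 836) (nat_lit 632389579) (nat_lit 912) (nat_lit 1328561242) (nat_lit 412) (nat_lit 5) (nat_lit 423) (nat_lit 5) (nat_lit 424) (nat_lit 5) (nat_lit 448) (nat_lit 408) (nat_lit 284)) (XT.nd (nat_lit 78) (nat_lit 760) (nat_lit 0) (XT.lf (nat_lit 0) (nat_lit 682186379) (nat_lit 912) (nat_lit 6608453994) (nat_lit 76) (nat_lit 4035352006) (nat_lit 400) (nat_lit 5) (nat_lit 412) (nat_lit 5) (nat_lit 401) (nat_lit 5) (nat_lit 449) (nat_lit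 408) (nat_lit 283)) (XT.lf (nat_lit 0) (nat_lit 83733789) (nat_lit 760) (nat_lit 2632570502) (nat_lit 836) (nat_lit 8726063291) (nat_lit 390) (nat_lit 5) (nat_lit 400) (nat_lit 5) (nat_lit 401) (nat_lit 5) (nat_lit 450) (nat_lit 408) (nat_lit 282))))) (XT.nd (nat_lit 234) (nat_lit 1596) (nat_lit 0) (XT.nd (nat_lit 78) (nat_lit 760) (nat_lit 0) (XT.lf (nat_lit 0) (nat_lit 4832659722) (nat_lit 836) (nat_lit 4593267804) (nat_lit 76) (nat_lit 2134311661) (nat_lit 390) (nat_lit 5) (nat_lit 401) (nat_lit 5) (nat_lit 391) (nat_lit 5) (nat_lit 451) (nat_lit 408) (nat_lit 281)) (XT.nd (nat_lit 78) (nat_lit 0) (nat_lit 0) (XT.lf (nat_lit 0) (nat_lit 2302145029) (nat_lit 760) (nat_lit 4705068250) (nat_lit 836) (nat_lit 4672937523) (nat_lit 380) (nat_lit 5) (nat_lit 390) (nat_lit 5) (nat_lit 391) (nat_lit 5) (nat_lit 452) (nat_lit 408) (nat_lit 280)) (XT.lf (nat_lit 0) (nat_lit 9240687683) (nat_lit 836) (nat_lit 2423251197) (nat_lit 76) (nat_lit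 138213174) (nat_lit 380) (nat_lit 5) (nat_lit 391) (nat_lit 5) (nat_lit 381) (nat_lit 5) (nat_lit 453) (nat_lit 408) (nat_lit 279)))) (XT.nd (nat_lit 78) (nat_lit 836) (nat_lit 0) (XT.lf (nat_lit 0) (nat_lit 4682998213) (nat_lit 760) (nat_lit 6881404607) (nat_lit 836) (nat_lit 361279087) (nat_lit 370) (nat_lit 5) (nat_lit 380) (nat_lit 5) (nat_lit 381) (nat_lit 5) (nat_lit 454) (nat_lit 408) (nat_lit 278)) (XT.nd (nat_lit 78) (nat_lit 760) (nat_lit 0) (XT.lf (nat_lit 0) (nat_lit 1858684706) (nat_lit 836) (nat_lit 117422530) (nat_lit 76) (nat_lit 10075321228) (nat_lit 369) (nat_lit 5) (nat_lit 380) (nat_lit 5) (nat_lit 370) (nat_lit 5) (nat_lit 455) (nat_lit 408) (nat_lit 277)) (XT.lf (nat_lit 0) (nat_lit 4169505899) (nat_lit 836) (nat_lit 4973875431) (nat_lit 76) (nat_lit 3035234949) (nat_lit 359) (nat_lit 5) (nat_lit 370) (nat_lit 5) (nat_lit 360) (nat_lit 5) (nat_lit 456) (nat_lit 408) (nat_lit 276))))))))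
noncomputable def xc178 : XT := (XT.nd (nat_lit 1560) (nat_lit 6612) (nat_lit 0) (XT.nd (nat_lit 780) (nat_lit 3572) (nat_lit 0) (XT.nd (nat_lit 390) (nat_lit 1976) (nat_lit 0) (XT.nd (nat_lit 156) (nat_lit 1444) (nat_lit 0) (XT.nd (nat_lit 78) (nat_lit 0) (nat_lit 0) (XT.lf (nat_lit 0) (nat_lit 2366776215) (nat_lit 684) (nat_lit 4173604797) (nat_lit 760) (nat_lit 5767690088) (nat_lit 350) (nat_lit 5) (nat_lit 359) (nat_lit 5) (nat_lit 360) (nat_lit 5) (nat_lit 457) (nat_lit 408) (nat_lit 275)) (XT.lf (nat_lit 0) (nat_lit 8982849052) (nat_lit 760) (nat_lit 2541771218) (nat_lit 76) (nat_lit 915011239) (nat_lit 350) (nat_lit 5) (nat_lit 360) (nat_lit 5) (nat_lit 351) (nat_lit 5) (nat_lit 458) (nat_lit 408) (nat_lit 274))) (XT.nd (nat_lit 78) (nat_lit 760) (nat_lit 0) (XT.lf (nat_lit 0) (nat_lit 5026426453) (nat_lit 684) (nat_lit 6493075878) (nat_lit 760) (nat_lit 1053414077) (nat_lit 341) (nat_lit 5) (nat_lit 350) (nat_lit 5) (nat_lit 351)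 (nat_lit 5) (nat_lit 459) (nat_lit 408) (nat_lit 273)) (XT.nd (nat_lit 78) (nat_lit 0) (nat_lit 0) (XT.lf (nat_lit 0) (nat_lit 45644527) (nat_lit 684) (nat_lit 1336650649) (nat_lit 760) (nat_lit 11326338115) (nat_lit 331) (nat_lit 5) (nat_lit 340) (nat_lit 5) (nat_lit 341) (nat_lit 5) (nat_lit 460) (nat_lit 408) (nat_lit 272)) (XT.lf (nat_lit 0) (nat_lit 3914374390) (nat_lit 760) (nat_lit 5004756443) (nat_lit 76) (nat_lit 3926559198) (nat_lit 331) (nat_lit 5) (nat_lit 341) (nat_lit 5) (nat_lit 332) (nat_lit 5) (nat_lit 461) (nat_lit 408) (nat_lit 271))))) (XT.nd (nat_lit 156) (nat_lit 1292) (nat_lit 0) (XT.nd (nat_lit 78) (nat_lit 0) (nat_lit 0) (XT.lf (nat_lit 0) (nat_lit 2817247639) (nat_lit 684) (nat_lit 3692580610) (nat_lit 760) (nat_lit 6475404996) (nat_lit 322) (nat_lit 5) (nat_lit 331) (nat_lit 5) (nat_lit 332) (nat_lit 5) (nat_lit 462) (nat_lit 408) (nat_lit 270)) (XT.lf (nat_lit 0) (nat_lit 9187375417) (nat_lit 760) (nat_lit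 2291862689) (nat_lit 76) (nat_lit 1647725533) (nat_lit 322) (nat_lit 5) (nat_lit 332) (nat_lit 5) (nat_lit 323) (nat_lit 5) (nat_lit 463) (nat_lit 408) (nat_lit 269))) (XT.nd (nat_lit 78) (nat_lit 684) (nat_lit 0) (XT.lf (nat_lit 0) (nat_lit 5775785838) (nat_lit 608) (nat_lit 6190660757) (nat_lit 684) (nat_lit 1304122582) (nat_lit 314) (nat_lit 5) (nat_lit 322) (nat_lit 5) (nat_lit 323) (nat_lit 5) (nat_lit 464) (nat_lit 408) (nat_lit 268)) (XT.nd (nat_lit 78) (nat_lit 0) (nat_lit 0) (XT.lf (nat_lit 0) (nat_lit 600538807) (nat_lit 608) (nat_lit 770831768) (nat_lit 684) (nat_lit 12045387124) (nat_lit 305) (nat_lit 5) (nat_lit 313) (nat_lit 5) (nat_lit 314) (nat_lit 5) (nat_lit 465) (nat_lit 408) (nat_lit 267)) (XT.lf (nat_lit 0) (nat_lit 4150670661) (nat_lit 684) (nat_lit 4662863011) (nat_lit 76) (nat_lit 4750808728) (nat_lit 305) (nat_lit 5) (nat_lit 314) (nat_lit 5) (nat_lit 306) (nat_lit 5) (nat_lit 466) (nat_lit 408) (nat_lit 266))))))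 (XT.nd (nat_lit 390) (nat_lit 1748) (nat_lit 0) (XT.nd (nat_lit 156) (nat_lit 1216) (nat_lit 0) (XT.nd (nat_lit 78) (nat_lit 0) (nat_lit 0) (XT.lf (nat_lit 0) (nat_lit 3679554082) (nat_lit 608) (nat_lit 3321495435) (nat_lit 684) (nat_lit 6713519422) (nat_lit 297) (nat_lit 5) (nat_lit 305) (nat_lit 5) (nat_lit 306) (nat_lit 5) (nat_lit 467) (nat_lit 408) (nat_lit 265)) (XT.lf (nat_lit 0) (nat_lit 9941367079) (nat_lit 684) (nat_lit 1647450472) (nat_lit 76) (nat_lit 2278323836) (nat_lit 297) (nat_lit 5) (nat_lit 306) (nat_lit 5) (nat_lit 298) (nat_lit 5) (nat_lit 468) (nat_lit 408) (nat_lit 264))) (XT.nd (nat_lit 78) (nat_lit 608) (nat_lit 0) (XT.lf (nat_lit 0) (nat_lit 6960202718) (nat_lit 608) (nat_lit 6034365262) (nat_lit 684) (nat_lit 1027115763) (nat_lit 289) (nat_lit 5) (nat_lit 297) (nat_lit 5) (nat_lit 298) (nat_lit 5) (nat_lit 469) (nat_lit 408) (nat_lit 263)) (XT.nd (nat_lit 78) (nat_lit 0) (nat_lit 0) (XT.lf (nat_lit 0) (nat_lit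 1574278771) (nat_lit 532) (nat_lit 338232933) (nat_lit 608) (nat_lit 12266388656) (nat_lit 281) (nat_lit 5) (nat_lit 288) (nat_lit 5) (nat_lit 289) (nat_lit 5) (nat_lit 470) (nat_lit 408) (nat_lit 262)) (XT.lf (nat_lit 0) (nat_lit 4967490391) (nat_lit 608) (nat_lit 3919614371) (nat_lit 76) (nat_lit 5450614526) (nat_lit 281) (nat_lit 5) (nat_lit 289) (nat_lit 5) (nat_lit 282) (nat_lit 5) (nat_lit 471) (nat_lit 408) (nat_lit 261))))) (XT.nd (nat_lit 156) (nat_lit 1140) (nat_lit 0) (XT.nd (nat_lit 78) (nat_lit 0) (nat_lit 0) (XT.lf (nat_lit 0) (nat_lit 4985441748) (nat_lit 608) (nat_lit 3120061263) (nat_lit 684) (nat_lit 6393772898) (nat_lit 273) (nat_lit 5) (nat_lit 281) (nat_lit 5) (nat_lit 282) (nat_lit 5) (nat_lit 472) (nat_lit 408) (nat_lit 260)) (XT.lf (nat_lit 0) (nat_lit 11338126424) (nat_lit 684) (nat_lit 576825720) (nat_lit 76) (nat_lit 2748474507) (nat_lit 273) (nat_lit 5) (nat_lit 282) (nat_lit 5) (nat_lit 274) (nat_lit 5) (nat_lit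 473) (nat_lit 408) (nat_lit 259))) (XT.nd (nat_lit 78) (nat_lit 608) (nat_lit 0) (XT.lf (nat_lit 0) (nat_lit 8614665192) (nat_lit 532) (nat_lit 6085017026) (nat_lit 608) (nat_lit 129892591) (nat_lit 266) (nat_lit 5) (nat_lit 273) (nat_lit 5) (nat_lit 274) (nat_lit 5) (nat_lit 474) (nat_lit 408) (nat_lit 258)) (XT.nd (nat_lit 78) (nat_lit 0) (nat_lit 0) (XT.lf (nat_lit 0) (nat_lit 3001222275) (nat_lit 532) (nat_lit 98279353) (nat_lit 608) (nat_lit 11898915510) (nat_lit 258) (nat_lit 5) (nat_lit 265) (nat_lit 5) (nat_lit 266) (nat_lit 5) (nat_lit 475) (nat_lit 408) (nat_lit 257)) (XT.lf (nat_lit 0) (nat_lit 6460580398) (nat_lit 608) (nat_lit 2740762655) (nat_lit 76) (nat_lit 5967899368) (nat_lit 258) (nat_lit 5) (nat_lit 266) (nat_lit 5) (nat_lit 259) (nat_lit 5) (nat_lit 476) (nat_lit 408) (nat_lit 256))))))) (XT.nd (nat_lit 780) (nat_lit 3040) (nat_lit 0) (XT.nd (nat_lit 390) (nat_lit 1976) (nat_lit 0) (XT.nd (nat_lit 156) (nat_lit 532)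 (nat_lit 0) (XT.nd (nat_lit 78) (nat_lit 532) (nat_lit 0) (XT.lf (nat_lit 0) (nat_lit 6772562473) (nat_lit 532) (nat_lit 3149023074) (nat_lit 608) (nat_lit 5421244569) (nat_lit 251) (nat_lit 5) (nat_lit 258) (nat_lit 5) (nat_lit 259) (nat_lit 5) (nat_lit 477) (nat_lit 408) (nat_lit 255)) (XT.lf (nat_lit 0) (nat_lit 970244412) (nat_lit 532) (nat_lit 12514196212) (nat_lit 608) (nat_lit 2034796343) (nat_lit 244) (nat_lit 5) (nat_lit 251) (nat_lit 5) (nat_lit 252) (nat_lit 5) (nat_lit 478) (nat_lit 408) (nat_lit 254))) (XT.nd (nat_lit 78) (nat_lit 456) (nat_lit 0) (XT.lf (nat_lit 0) (nat_lit 1467740135) (nat_lit 608) (nat_lit 4927288334) (nat_lit 76) (nat_lit 9302619680) (nat_lit 243) (nat_lit 5) (nat_lit 251) (nat_lit 5) (nat_lit 244) (nat_lit 5) (nat_lit 479) (nat_lit 408) (nat_lit 253)) (XT.nd (nat_lit 78) (nat_lit 0) (nat_lit 0) (XT.lf (nat_lit 0) (nat_lit 4921693339) (nat_lit 456) (nat_lit 111827655) (nat_lit 532) (nat_lit 10845428770)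 (nat_lit 237) (nat_lit 5) (nat_lit 243) (nat_lit 5) (nat_lit 244) (nat_lit 5) (nat_lit 480) (nat_lit 408) (nat_lit 252)) (XT.lf (nat_lit 0) (nat_lit 8733335955) (nat_lit 532) (nat_lit 1086195412) (nat_lit 76) (nat_lit 6243091674) (nat_lit 237) (nat_lit 5) (nat_lit 244) (nat_lit 5) (nat_lit 238) (nat_lit 5) (nat_lit 481) (nat_lit 408) (nat_lit 251))))) (XT.nd (nat_lit 156) (nat_lit 912) (nat_lit 0) (XT.nd (nat_lit 78) (nat_lit 532) (nat_lit 0) (XT.lf (nat_lit 0) (nat_lit 9084692520) (nat_lit 532) (nat_lit 3470953902) (nat_lit 608) (nat_lit 3693353377) (nat_lit 230) (nat_lit 5) (nat_lit 237) (nat_lit 5) (nat_lit 238) (nat_lit 5) (nat_lit 482) (nat_lit 408) (nat_lit 250)) (XT.lf (nat_lit 0) (nat_lit 50769720) (nat_lit 532) (nat_lit 13399752081) (nat_lit 76) (nat_lit 2987866879) (nat_lit 223) (nat_lit 5) (nat_lit 230) (nat_lit 5) (nat_lit 224) (nat_lit 5) (nat_lit 483) (nat_lit 408) (nat_lit 249))) (XT.nd (nat_lit 78) (nat_lit 912) (nat_lit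 0) (XT.lf (nat_lit 0) (nat_lit 3880650853) (nat_lit 532) (nat_lit 3151743071) (nat_lit 76) (nat_lit 9597476561) (nat_lit 223) (nat_lit 5) (nat_lit 230) (nat_lit 5) (nat_lit 224) (nat_lit 5) (nat_lit 484) (nat_lit 408) (nat_lit 248)) (XT.nd (nat_lit 78) (nat_lit 456) (nat_lit 0) (XT.lf (nat_lit 0) (nat_lit 7382233123) (nat_lit 456) (nat_lit 441946680) (nat_lit 532) (nat_lit 9000261117) (nat_lit 217) (nat_lit 5) (nat_lit 223) (nat_lit 5) (nat_lit 224) (nat_lit 5) (nat_lit 485) (nat_lit 408) (nat_lit 247)) (XT.lf (nat_lit 0) (nat_lit 1104814024) (nat_lit 456) (nat_lit 10800203469) (nat_lit 532) (nat_lit 5116716510) (nat_lit 211) (nat_lit 5) (nat_lit 217) (nat_lit 5) (nat_lit 218) (nat_lit 5) (nat_lit 486) (nat_lit 408) (nat_lit 246)))))) (XT.nd (nat_lit 390) (nat_lit 1672) (nat_lit 0) (XT.nd (nat_lit 156) (nat_lit 836) (nat_lit 0) (XT.nd (nat_lit 78) (nat_lit 532) (nat_lit 0) (XT.lf (nat_lit 0) (nat_lit 11972015162) (nat_lit 456) (nat_lit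 4151034903) (nat_lit 532) (nat_lit 1098811319) (nat_lit 211) (nat_lit 5) (nat_lit 217) (nat_lit 5) (nat_lit 218) (nat_lit 5) (nat_lit 487) (nat_lit 408) (nat_lit 245)) (XT.lf (nat_lit 0) (nat_lit 3003797416) (nat_lit 532) (nat_lit 11772661622) (nat_lit 76) (nat_lit 2648269111) (nat_lit 204) (nat_lit 5) (nat_lit 211) (nat_lit 5) (nat_lit 205) (nat_lit 5) (nat_lit 488) (nat_lit 408) (nat_lit 244))) (XT.nd (nat_lit 78) (nat_lit 836) (nat_lit 0) (XT.lf (nat_lit 0) (nat_lit 7226233696) (nat_lit 532) (nat_lit 838458533) (nat_lit 76) (nat_lit 9565764989) (nat_lit 204) (nat_lit 5) (nat_lit 211) (nat_lit 5) (nat_lit 205) (nat_lit 5) (nat_lit 489) (nat_lit 408) (nat_lit 243)) (XT.nd (nat_lit 78) (nat_lit 456) (nat_lit 0) (XT.lf (nat_lit 0) (nat_lit 10435914223) (nat_lit 380) (nat_lit 1154688671) (nat_lit 456) (nat_lit 6248548289) (nat_lit 199) (nat_lit 5) (nat_lit 204) (nat_lit 5) (nat_lit 205) (nat_lit 5) (nat_lit 490) (nat_lit 408) (nat_lit 242))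 (XT.lf (nat_lit 0) (nat_lit 3892530530) (nat_lit 456) (nat_lit 12208726539) (nat_lit 532) (nat_lit 1949582008) (nat_lit 193) (nat_lit 5) (nat_lit 199) (nat_lit 5) (nat_lit 200) (nat_lit 5) (nat_lit 491) (nat_lit 408) (nat_lit 241))))) (XT.nd (nat_lit 234) (nat_lit 836) (nat_lit 0) (XT.nd (nat_lit 78) (nat_lit 760) (nat_lit 0) (XT.lf (nat_lit 0) (nat_lit 2450908761) (nat_lit 532) (nat_lit 2790474682) (nat_lit 76) (nat_lit 13024111337) (nat_lit 192) (nat_lit 5) (nat_lit 199) (nat_lit 5) (nat_lit 193) (nat_lit 5) (nat_lit 492) (nat_lit 408) (nat_lit 240)) (XT.nd (nat_lit 78) (nat_lit 380) (nat_lit 0) (XT.lf (nat_lit 0) (nat_lit 6973643893) (nat_lit 456) (nat_lit 9602515575) (nat_lit 76) (nat_lit 1906819605) (nat_lit 187) (nat_lit 5) (nat_lit 193) (nat_lit 5) (nat_lit 188) (nat_lit 5) (nat_lit 493) (nat_lit 408) (nat_lit 239)) (XT.lf (nat_lit 0) (nat_lit 2095610758) (nat_lit 380) (nat_lit 9548482781) (nat_lit 456) (nat_lit 7059574316) (nat_lit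 182) (nat_lit 5) (nat_lit 187) (nat_lit 5) (nat_lit 188) (nat_lit 5) (nat_lit 494) (nat_lit 408) (nat_lit 238)))) (XT.nd (nat_lit 78) (nat_lit 836) (nat_lit 0) (XT.lf (nat_lit 0) (nat_lit 14142718632) (nat_lit 380) (nat_lit 2319860405) (nat_lit 456) (nat_lit 2465098840) (nat_lit 182) (nat_lit 5) (nat_lit 187) (nat_lit 5) (nat_lit 188) (nat_lit 5) (nat_lit 495) (nat_lit 408) (nat_lit 237)) (XT.nd (nat_lit 78) (nat_lit 380) (nat_lit 0) (XT.lf (nat_lit 0) (nat_lit 2263303633) (nat_lit 456) (nat_lit 11846820162) (nat_lit 76) (nat_lit 5044332470) (nat_lit 176) (nat_lit 5) (nat_lit 182) (nat_lit 5) (nat_lit 177) (nat_lit 5) (nat_lit 496) (nat_lit 408) (nat_lit 236)) (XT.lf (nat_lit 0) (nat_lit 278532379) (nat_lit 380) (nat_lit 6814635433) (nat_lit 456) (nat_lit 12291478495) (nat_lit 171) (nat_lit 5) (nat_lit 176) (nat_lit 5) (nat_lit 177) (nat_lit 5) (nat_lit 497) (nat_lit 408) (nat_lit 235))))))))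
noncomputable def xc179 : XT := (XT.nd (nat_lit 53742) (nat_lit 0) (nat_lit 19912) (XT.nd (nat_lit 52884) (nat_lit 0) (nat_lit 31388) (XT.nd (nat_lit 52494) (nat_lit 0) (nat_lit 34124) (XT.nd (nat_lit 156) (nat_lit 456) (nat_lit 0) (XT.nd (nat_lit 78) (nat_lit 304) (nat_lit 0) (XT.lf (nat_lit 0) (nat_lit 12094156631) (nat_lit 456) (nat_lit 6830560120) (nat_lit 76) (nat_lit 693232852) (nat_lit 171) (nat_lit 5) (nat_lit 177) (nat_lit 5) (nat_lit 172) (nat_lit 5) (nat_lit 498) (nat_lit 408) (nat_lit 234)) (XT.lf (nat_lit 0) (nat_lit 5705405246) (nat_lit 304) (nat_lit 11562553996) (nat_lit 380) (nat_lit 2586503842) (nat_lit 167) (nat_lit 5) (nat_lit 171) (nat_lit 5) (nat_lit 172) (nat_lit 5) (nat_lit 499) (nat_lit 408) (nat_lit 233))) (XT.nd (nat_lit 78) (nat_lit 380) (nat_lit 0) (XT.lf (nat_lit 0) (nat_lit 2454192881) (nat_lit 380) (nat_lit 1541141514) (nat_lit 76) (nat_lit 16099318605) (nat_lit 166) (nat_lit 5) (nat_lit 171) (nat_lit 5)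 (nat_lit 167) (nat_lit 5) (nat_lit 500) (nat_lit 408) (nat_lit 232)) (XT.nd (nat_lit 52182) (nat_lit 0) (nat_lit 35568) (XT.lf (nat_lit 0) (nat_lit 7650936077) (nat_lit 456) (nat_lit 8925473719) (nat_lit 76) (nat_lit 3761097665) (nat_lit 161) (nat_lit 5) (nat_lit 167) (nat_lit 5) (nat_lit 162) (nat_lit 5) (nat_lit 501) (nat_lit 408) (nat_lit 231)) (XT.lf (nat_lit 0) (nat_lit 3231422082) (nat_lit 1444) (nat_lit 394621124) (nat_lit 1444) (nat_lit 394621124) (nat_lit 629) (nat_lit 3) (nat_lit 648) (nat_lit 3) (nat_lit 648) (nat_lit 5) (nat_lit 409) (nat_lit 409) (nat_lit 322))))) (XT.nd (nat_lit 156) (nat_lit 0) (nat_lit 76) (XT.nd (nat_lit 78) (nat_lit 1444) (nat_lit 0) (XT.lf (nat_lit 76) (nat_lit 3274365980) (nat_lit 0) (nat_lit 4471141058) (nat_lit 1444) (nat_lit 351874221) (nat_lit 630) (nat_lit 5) (nat_lit 629) (nat_lit 3) (nat_lit 648) (nat_lit 5) (nat_lit 410) (nat_lit 409) (nat_lit 321)) (XT.lf (nat_lit 0) (nat_lit 861099741) (nat_lit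 1444) (nat_lit 747021898) (nat_lit 1520) (nat_lit 6546843986) (nat_lit 610) (nat_lit 5) (nat_lit 629) (nat_lit 3) (nat_lit 630) (nat_lit 5) (nat_lit 411) (nat_lit 409) (nat_lit 320))) (XT.nd (nat_lit 78) (nat_lit 0) (nat_lit 0) (XT.lf (nat_lit 0) (nat_lit 2093635162) (nat_lit 1444) (nat_lit 4785689678) (nat_lit 1520) (nat_lit 1334330051) (nat_lit 611) (nat_lit 5) (nat_lit 630) (nat_lit 5) (nat_lit 631) (nat_lit 5) (nat_lit 412) (nat_lit 409) (nat_lit 319)) (XT.nd (nat_lit 78) (nat_lit 0) (nat_lit 0) (XT.lf (nat_lit 0) (nat_lit 3336030674) (nat_lit 1444) (nat_lit 604437689) (nat_lit 1520) (nat_lit 4333345388) (nat_lit 611) (nat_lit 5) (nat_lit 630) (nat_lit 5) (nat_lit 631) (nat_lit 5) (nat_lit 413) (nat_lit 409) (nat_lit 318)) (XT.lf (nat_lit 76) (nat_lit 3692280791) (nat_lit 0) (nat_lit 905077280) (nat_lit 1520) (nat_lit 3737936040) (nat_lit 612) (nat_lit 5) (nat_lit 611) (nat_lit 5) (nat_lit 631) (nat_lit 5) (nat_lit 414) (nat_lit 409)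 (nat_lit 317)))))) (XT.nd (nat_lit 390) (nat_lit 1444) (nat_lit 0) (XT.nd (nat_lit 156) (nat_lit 1444) (nat_lit 0) (XT.nd (nat_lit 78) (nat_lit 0) (nat_lit 0) (XT.lf (nat_lit 0) (nat_lit 5872894854) (nat_lit 1444) (nat_lit 346194979) (nat_lit 1520) (nat_lit 2179134588) (nat_lit 612) (nat_lit 5) (nat_lit 631) (nat_lit 5) (nat_lit 632) (nat_lit 5) (nat_lit 415) (nat_lit 409) (nat_lit 316)) (XT.lf (nat_lit 76) (nat_lit 4067096194) (nat_lit 0) (nat_lit 3110495681) (nat_lit 1520) (nat_lit 1284748473) (nat_lit 613) (nat_lit 5) (nat_lit 612) (nat_lit 5) (nat_lit 632) (nat_lit 5) (nat_lit 416) (nat_lit 409) (nat_lit 315))) (XT.nd (nat_lit 78) (nat_lit 1520) (nat_lit 0) (XT.lf (nat_lit 76) (nat_lit 28277042) (nat_lit 0) (nat_lit 8454799166) (nat_lit 1520) (nat_lit 45168517) (nat_lit 614) (nat_lit 5) (nat_lit 613) (nat_lit 5) (nat_lit 633) (nat_lit 5) (nat_lit 417) (nat_lit 409) (nat_lit 314)) (XT.nd (nat_lit 78) (nat_lit 0) (nat_lit 0) (XT.lf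 (nat_lit 0) (nat_lit 1225539458) (nat_lit 1520) (nat_lit 4041338924) (nat_lit 1596) (nat_lit 3327983961) (nat_lit 593) (nat_lit 5) (nat_lit 613) (nat_lit 5) (nat_lit 614) (nat_lit 5) (nat_lit 418) (nat_lit 409) (nat_lit 313)) (XT.lf (nat_lit 76) (nat_lit 495407239) (nat_lit 0) (nat_lit 2001452359) (nat_lit 1596) (nat_lit 6166430686) (nat_lit 594) (nat_lit 5) (nat_lit 593) (nat_lit 5) (nat_lit 614) (nat_lit 5) (nat_lit 419) (nat_lit 409) (nat_lit 312))))) (XT.nd (nat_lit 234) (nat_lit 1520) (nat_lit 0) (XT.nd (nat_lit 78) (nat_lit 0) (nat_lit 0) (XT.lf (nat_lit 0) (nat_lit 3802611762) (nat_lit 1520) (nat_lit 3581428426) (nat_lit 1596) (nat_lit 1348866486) (nat_lit 594) (nat_lit 5) (nat_lit 614) (nat_lit 5) (nat_lit 615) (nat_lit 5) (nat_lit 420) (nat_lit 409) (nat_lit 311)) (XT.nd (nat_lit 78) (nat_lit 0) (nat_lit 0) (XT.lf (nat_lit 76) (nat_lit 1080272934) (nat_lit 0) (nat_lit 4048078384) (nat_lit 1596) (nat_lit 3675686625) (nat_lit 595)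 (nat_lit 5) (nat_lit 594) (nat_lit 5) (nat_lit 615) (nat_lit 5) (nat_lit 421) (nat_lit 409) (nat_lit 310)) (XT.lf (nat_lit 76) (nat_lit 5866474297) (nat_lit 0) (nat_lit 612173857) (nat_lit 1596) (nat_lit 2397982834) (nat_lit 595) (nat_lit 5) (nat_lit 594) (nat_lit 5) (nat_lit 615) (nat_lit 5) (nat_lit 422) (nat_lit 409) (nat_lit 309)))) (XT.nd (nat_lit 78) (nat_lit 1596) (nat_lit 0) (XT.lf (nat_lit 76) (nat_lit 1784845218) (nat_lit 0) (nat_lit 6076048088) (nat_lit 1596) (nat_lit 1089683741) (nat_lit 596) (nat_lit 5) (nat_lit 595) (nat_lit 5) (nat_lit 616) (nat_lit 5) (nat_lit 423) (nat_lit 409) (nat_lit 308)) (XT.nd (nat_lit 78) (nat_lit 0) (nat_lit 76) (XT.lf (nat_lit 0) (nat_lit 240752697) (nat_lit 1596) (nat_lit 2332551824) (nat_lit 1672) (nat_lit 6452682085) (nat_lit 574) (nat_lit 5) (nat_lit 595) (nat_lit 5) (nat_lit 596) (nat_lit 5) (nat_lit 424) (nat_lit 409) (nat_lit 307)) (XT.lf (nat_lit 0) (nat_lit 1582131441) (nat_lit 1596)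 (nat_lit 6502727154) (nat_lit 1672) (nat_lit 1017923217) (nat_lit 575) (nat_lit 5) (nat_lit 596) (nat_lit 5) (nat_lit 597) (nat_lit 5) (nat_lit 425) (nat_lit 409) (nat_lit 306))))))) (XT.nd (nat_lit 780) (nat_lit 8436) (nat_lit 0) (XT.nd (nat_lit 390) (nat_lit 3116) (nat_lit 0) (XT.nd (nat_lit 156) (nat_lit 0) (nat_lit 76) (XT.nd (nat_lit 78) (nat_lit 0) (nat_lit 0) (XT.lf (nat_lit 0) (nat_lit 2958842505) (nat_lit 1596) (nat_lit 1552811674) (nat_lit 1672) (nat_lit 4669288648) (nat_lit 575) (nat_lit 5) (nat_lit 596) (nat_lit 5) (nat_lit 597) (nat_lit 5) (nat_lit 426) (nat_lit 409) (nat_lit 305)) (XT.lf (nat_lit 76) (nat_lit 3524882546) (nat_lit 0) (nat_lit 837274142) (nat_lit 1672) (nat_lit 4898528997) (nat_lit 576) (nat_lit 5) (nat_lit 575) (nat_lit 5) (nat_lit 597) (nat_lit 5) (nat_lit 427) (nat_lit 409) (nat_lit 304))) (XT.nd (nat_lit 78) (nat_lit 0) (nat_lit 0) (XT.lf (nat_lit 0) (nat_lit 5799501116) (nat_lit 1596) (nat_lit 653445366)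 (nat_lit 1672) (nat_lit 2888957638) (nat_lit 576) (nat_lit 5) (nat_lit 597) (nat_lit 5) (nat_lit 598) (nat_lit 5) (nat_lit 428) (nat_lit 409) (nat_lit 303)) (XT.nd (nat_lit 78) (nat_lit 0) (nat_lit 76) (XT.lf (nat_lit 76) (nat_lit 4567423874) (nat_lit 0) (nat_lit 2710404701) (nat_lit 1672) (nat_lit 2146673627) (nat_lit 577) (nat_lit 5) (nat_lit 576) (nat_lit 5) (nat_lit 598) (nat_lit 5) (nat_lit 429) (nat_lit 409) (nat_lit 302)) (XT.lf (nat_lit 76) (nat_lit 372710487) (nat_lit 0) (nat_lit 8404441320) (nat_lit 1672) (nat_lit 731771853) (nat_lit 578) (nat_lit 5) (nat_lit 577) (nat_lit 5) (nat_lit 599) (nat_lit 5) (nat_lit 430) (nat_lit 409) (nat_lit 301))))) (XT.nd (nat_lit 156) (nat_lit 1596) (nat_lit 0) (XT.nd (nat_lit 78) (nat_lit 0) (nat_lit 0) (XT.lf (nat_lit 0) (nat_lit 730444899) (nat_lit 1672) (nat_lit 3862277460) (nat_lit 1748) (nat_lit 5001651857) (nat_lit 555) (nat_lit 5) (nat_lit 577) (nat_lit 5) (nat_lit 578) (nat_lit 5) (nat_lit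 431) (nat_lit 409) (nat_lit 300)) (XT.lf (nat_lit 76) (nat_lit 1514461840) (nat_lit 0) (nat_lit 685515562) (nat_lit 1748) (nat_lit 7481702246) (nat_lit 556) (nat_lit 5) (nat_lit 555) (nat_lit 5) (nat_lit 578) (nat_lit 5) (nat_lit 432) (nat_lit 409) (nat_lit 299))) (XT.nd (nat_lit 78) (nat_lit 1672) (nat_lit 0) (XT.lf (nat_lit 0) (nat_lit 3724785834) (nat_lit 1672) (nat_lit 2758753685) (nat_lit 76) (nat_lit 3286673963) (nat_lit 556) (nat_lit 5) (nat_lit 578) (nat_lit 5) (nat_lit 557) (nat_lit 5) (nat_lit 433) (nat_lit 409) (nat_lit 298)) (XT.nd (nat_lit 78) (nat_lit 0) (nat_lit 0) (XT.lf (nat_lit 0) (nat_lit 2772014361) (nat_lit 1672) (nat_lit 2509408767) (nat_lit 1748) (nat_lit 4579068211) (nat_lit 534) (nat_lit 5) (nat_lit 556) (nat_lit 5) (nat_lit 557) (nat_lit 5) (nat_lit 434) (nat_lit 409) (nat_lit 297)) (XT.lf (nat_lit 0) (nat_lit 6876972977) (nat_lit 1748) (nat_lit 1529564105) (nat_lit 76) (nat_lit 1545882076) (nat_lit 534) (nat_lit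 5) (nat_lit 557) (nat_lit 5) (nat_lit 535) (nat_lit 5) (nat_lit 435) (nat_lit 409) (nat_lit 296)))))) (XT.nd (nat_lit 390) (nat_lit 3648) (nat_lit 0) (XT.nd (nat_lit 156) (nat_lit 2964) (nat_lit 0) (XT.nd (nat_lit 78) (nat_lit 76) (nat_lit 0) (XT.lf (nat_lit 0) (nat_lit 4160827043) (nat_lit 1748) (nat_lit 4366768186) (nat_lit 1824) (nat_lit 1518127075) (nat_lit 511) (nat_lit 5) (nat_lit 534) (nat_lit 5) (nat_lit 535) (nat_lit 5) (nat_lit 436) (nat_lit 409) (nat_lit 295)) (XT.lf (nat_lit 0) (nat_lit 59429914) (nat_lit 1824) (nat_lit 173256497) (nat_lit 76) (nat_lit 9908395690) (nat_lit 510) (nat_lit 5) (nat_lit 534) (nat_lit 5) (nat_lit 511) (nat_lit 5) (nat_lit 437) (nat_lit 409) (nat_lit 294))) (XT.nd (nat_lit 78) (nat_lit 1140) (nat_lit 0) (XT.lf (nat_lit 0) (nat_lit 1691511766) (nat_lit 1900) (nat_lit 4564141431) (nat_lit 76) (nat_lit 3981629170) (nat_lit 486) (nat_lit 5) (nat_lit 511) (nat_lit 5) (nat_lit 487) (nat_lit 5) (nat_lit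 438) (nat_lit 409) (nat_lit 293)) (XT.nd (nat_lit 78) (nat_lit 0) (nat_lit 0) (XT.lf (nat_lit 0) (nat_lit 1301199189) (nat_lit 1140) (nat_lit 2046568797) (nat_lit 1216) (nat_lit 6987807998) (nat_lit 471) (nat_lit 5) (nat_lit 486) (nat_lit 5) (nat_lit 487) (nat_lit 5) (nat_lit 439) (nat_lit 409) (nat_lit 292)) (XT.lf (nat_lit 0) (nat_lit 5063221729) (nat_lit 1216) (nat_lit 3122328665) (nat_lit 76) (nat_lit 2249763631) (nat_lit 471) (nat_lit 5) (nat_lit 487) (nat_lit 5) (nat_lit 472) (nat_lit 5) (nat_lit 440) (nat_lit 409) (nat_lit 291))))) (XT.nd (nat_lit 234) (nat_lit 1824) (nat_lit 0) (XT.nd (nat_lit 78) (nat_lit 912) (nat_lit 0) (XT.lf (nat_lit 0) (nat_lit 2914960133) (nat_lit 912) (nat_lit 3911537748) (nat_lit 988) (nat_lit 3710278680) (nat_lit 459) (nat_lit 5) (nat_lit 471) (nat_lit 5) (nat_lit 472) (nat_lit 5) (nat_lit 441) (nat_lit 409) (nat_lit 290)) (XT.nd (nat_lit 78) (nat_lit 912) (nat_lit 0) (XT.lf (nat_lit 0) (nat_lit 8630338564)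 (nat_lit 988) (nat_lit 1545520181) (nat_lit 76) (nat_lit 464303621) (nat_lit 459) (nat_lit 5) (nat_lit 472) (nat_lit 5) (nat_lit 460) (nat_lit 5) (nat_lit 442) (nat_lit 409) (nat_lit 289)) (XT.lf (nat_lit 0) (nat_lit 4670055801) (nat_lit 912) (nat_lit 5838091620) (nat_lit 988) (nat_lit 236710641) (nat_lit 447) (nat_lit 5) (nat_lit 459) (nat_lit 5) (nat_lit 460) (nat_lit 5) (nat_lit 443) (nat_lit 409) (nat_lit 288)))) (XT.nd (nat_lit 78) (nat_lit 912) (nat_lit 0) (XT.lf (nat_lit 0) (nat_lit 153474735) (nat_lit 836) (nat_lit 1391003436) (nat_lit 912) (nat_lit 9307100814) (nat_lit 435) (nat_lit 5) (nat_lit 446) (nat_lit 5) (nat_lit 447) (nat_lit 5) (nat_lit 444) (nat_lit 409) (nat_lit 287)) (XT.nd (nat_lit 78) (nat_lit 912) (nat_lit 0) (XT.lf (nat_lit 0) (nat_lit 3401616247) (nat_lit 912) (nat_lit 4411175334) (nat_lit 76) (nat_lit 3146741552) (nat_lit 435) (nat_lit 5) (nat_lit 447) (nat_lit 5) (nat_lit 436) (nat_lit 5) (nat_lit 445) (nat_lit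 409) (nat_lit 286)) (XT.lf (nat_lit 0) (nat_lit 2000912802) (nat_lit 912) (nat_lit 3299577075) (nat_lit 988) (nat_lit 5769064631) (nat_lit 423) (nat_lit 5) (nat_lit 435) (nat_lit 5) (nat_lit 436) (nat_lit 5) (nat_lit 446) (nat_lit 409) (nat_lit 285))))))))
noncomputable def xc180 : XT := (XT.nd (nat_lit 1560) (nat_lit 7144) (nat_lit 0) (XT.nd (nat_lit 780) (nat_lit 4104) (nat_lit 0) (XT.nd (nat_lit 390) (nat_lit 2356) (nat_lit 0) (XT.nd (nat_lit 156) (nat_lit 1672) (nat_lit 0) (XT.nd (nat_lit 78) (nat_lit 836) (nat_lit 0) (XT.lf (nat_lit 0) (nat_lit 7258224691) (nat_lit 988) (nat_lit 2606649487) (nat_lit 76) (nat_lit 1316484459) (nat_lit 423) (nat_lit 5) (nat_lit 436) (nat_lit 5) (nat_lit 424) (nat_lit 5) (nat_lit 447) (nat_lit 409) (nat_lit 284)) (XT.lf (nat_lit 0) (nat_lit 3997670339) (nat_lit 836) (nat_lit 5288212234) (nat_lit 912) (nat_lit 2008900907) (nat_lit 412) (nat_lit 5) (nat_lit 423) (nat_lit 5) (nat_lit 424) (nat_lit 5) (nat_lit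 448) (nat_lit 409) (nat_lit 283))) (XT.nd (nat_lit 78) (nat_lit 1672) (nat_lit 0) (XT.lf (nat_lit 0) (nat_lit 10752034556) (nat_lit 836) (nat_lit 602733668) (nat_lit 912) (nat_lit 55695105) (nat_lit 412) (nat_lit 5) (nat_lit 423) (nat_lit 5) (nat_lit 424) (nat_lit 5) (nat_lit 449) (nat_lit 409) (nat_lit 282)) (XT.nd (nat_lit 78) (nat_lit 760) (nat_lit 0) (XT.lf (nat_lit 0) (nat_lit 1962060865) (nat_lit 912) (nat_lit 5391154570) (nat_lit 76) (nat_lit 4173972177) (nat_lit 400) (nat_lit 5) (nat_lit 412) (nat_lit 5) (nat_lit 401) (nat_lit 5) (nat_lit 450) (nat_lit 409) (nat_lit 281)) (XT.lf (nat_lit 0) (nat_lit 1425998887) (nat_lit 760) (nat_lit 2594738197) (nat_lit 836) (nat_lit 7625475716) (nat_lit 390) (nat_lit 5) (nat_lit 400) (nat_lit 5) (nat_lit 401) (nat_lit 5) (nat_lit 451) (nat_lit 409) (nat_lit 280))))) (XT.nd (nat_lit 156) (nat_lit 1596) (nat_lit 0) (XT.nd (nat_lit 78) (nat_lit 760) (nat_lit 0) (XT.lf (nat_lit 0) (nat_lit 6155483687)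 (nat_lit 836) (nat_lit 3346892890) (nat_lit 76) (nat_lit 2264543977) (nat_lit 390) (nat_lit 5) (nat_lit 401) (nat_lit 5) (nat_lit 391) (nat_lit 5) (nat_lit 452) (nat_lit 409) (nat_lit 279)) (XT.lf (nat_lit 0) (nat_lit 3677623987) (nat_lit 760) (nat_lit 4680493345) (nat_lit 836) (nat_lit 3531421290) (nat_lit 380) (nat_lit 5) (nat_lit 390) (nat_lit 5) (nat_lit 391) (nat_lit 5) (nat_lit 453) (nat_lit 409) (nat_lit 278))) (XT.nd (nat_lit 78) (nat_lit 1596) (nat_lit 0) (XT.lf (nat_lit 0) (nat_lit 10613276253) (nat_lit 836) (nat_lit 1145362566) (nat_lit 76) (nat_lit 255800780) (nat_lit 380) (nat_lit 5) (nat_lit 391) (nat_lit 5) (nat_lit 381) (nat_lit 5) (nat_lit 454) (nat_lit 409) (nat_lit 277)) (XT.nd (nat_lit 78) (nat_lit 760) (nat_lit 0) (XT.lf (nat_lit 0) (nat_lit 817136839) (nat_lit 836) (nat_lit 6051824823) (nat_lit 76) (nat_lit 5271665564) (nat_lit 369) (nat_lit 5) (nat_lit 380) (nat_lit 5) (nat_lit 370) (nat_lit 5) (nat_lit 455) (nat_lit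 409) (nat_lit 276)) (XT.lf (nat_lit 0) (nat_lit 1203185451) (nat_lit 760) (nat_lit 1858140222) (nat_lit 836) (nat_lit 9207822015) (nat_lit 359) (nat_lit 5) (nat_lit 369) (nat_lit 5) (nat_lit 370) (nat_lit 5) (nat_lit 456) (nat_lit 409) (nat_lit 275)))))) (XT.nd (nat_lit 390) (nat_lit 1976) (nat_lit 0) (XT.nd (nat_lit 156) (nat_lit 1444) (nat_lit 0) (XT.nd (nat_lit 78) (nat_lit 684) (nat_lit 0) (XT.lf (nat_lit 0) (nat_lit 5397291099) (nat_lit 836) (nat_lit 3752916186) (nat_lit 76) (nat_lit 3249093419) (nat_lit 359) (nat_lit 5) (nat_lit 370) (nat_lit 5) (nat_lit 360) (nat_lit 5) (nat_lit 457) (nat_lit 409) (nat_lit 274)) (XT.lf (nat_lit 0) (nat_lit 3725861409) (nat_lit 684) (nat_lit 4075799934) (nat_lit 760) (nat_lit 4729961724) (nat_lit 350) (nat_lit 5) (nat_lit 359) (nat_lit 5) (nat_lit 360) (nat_lit 5) (nat_lit 458) (nat_lit 409) (nat_lit 273))) (XT.nd (nat_lit 78) (nat_lit 1444) (nat_lit 0) (XT.lf (nat_lit 0) (nat_lit 10271966505) (nat_lit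 760) (nat_lit 1285565315) (nat_lit 76) (nat_lit 1108703110) (nat_lit 350) (nat_lit 5) (nat_lit 360) (nat_lit 5) (nat_lit 351) (nat_lit 5) (nat_lit 459) (nat_lit 409) (nat_lit 272)) (XT.nd (nat_lit 78) (nat_lit 684) (nat_lit 0) (XT.lf (nat_lit 0) (nat_lit 43005547) (nat_lit 760) (nat_lit 6377337581) (nat_lit 76) (nat_lit 6382103215) (nat_lit 340) (nat_lit 5) (nat_lit 350) (nat_lit 5) (nat_lit 341) (nat_lit 5) (nat_lit 460) (nat_lit 409) (nat_lit 271)) (XT.lf (nat_lit 0) (nat_lit 1351024484) (nat_lit 684) (nat_lit 1149146725) (nat_lit 760) (nat_lit 10440830145) (nat_lit 331) (nat_lit 5) (nat_lit 340) (nat_lit 5) (nat_lit 341) (nat_lit 5) (nat_lit 461) (nat_lit 409) (nat_lit 270))))) (XT.nd (nat_lit 156) (nat_lit 1292) (nat_lit 0) (XT.nd (nat_lit 78) (nat_lit 684) (nat_lit 0) (XT.lf (nat_lit 0) (nat_lit 5062878641) (nat_lit 760) (nat_lit 3805948924) (nat_lit 76) (nat_lit 4212371932) (nat_lit 331) (nat_lit 5) (nat_lit 341) (nat_lit 5) (nat_lit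 332) (nat_lit 5) (nat_lit 462) (nat_lit 409) (nat_lit 269)) (XT.lf (nat_lit 0) (nat_lit 4163949828) (nat_lit 684) (nat_lit 3533684962) (nat_lit 760) (nat_lit 5526150921) (nat_lit 322) (nat_lit 5) (nat_lit 331) (nat_lit 5) (nat_lit 332) (nat_lit 5) (nat_lit 463) (nat_lit 409) (nat_lit 268))) (XT.nd (nat_lit 78) (nat_lit 1292) (nat_lit 0) (XT.lf (nat_lit 0) (nat_lit 10409476970) (nat_lit 760) (nat_lit 1053387898) (nat_lit 76) (nat_lit 1905870963) (nat_lit 322) (nat_lit 5) (nat_lit 332) (nat_lit 5) (nat_lit 323) (nat_lit 5) (nat_lit 464) (nat_lit 409) (nat_lit 267)) (XT.nd (nat_lit 78) (nat_lit 684) (nat_lit 0) (XT.lf (nat_lit 0) (nat_lit 7167164179) (nat_lit 608) (nat_lit 6064889256) (nat_lit 684) (nat_lit 283401568) (nat_lit 314) (nat_lit 5) (nat_lit 322) (nat_lit 5) (nat_lit 323) (nat_lit 5) (nat_lit 465) (nat_lit 409) (nat_lit 266)) (XT.lf (nat_lit 0) (nat_lit 1893657067) (nat_lit 608) (nat_lit 526276807) (nat_lit 684) (nat_lit 11244736261)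 (nat_lit 305) (nat_lit 5) (nat_lit 313) (nat_lit 5) (nat_lit 314) (nat_lit 5) (nat_lit 466) (nat_lit 409) (nat_lit 265))))))) (XT.nd (nat_lit 780) (nat_lit 3572) (nat_lit 0) (XT.nd (nat_lit 390) (nat_lit 1748) (nat_lit 0) (XT.nd (nat_lit 156) (nat_lit 1216) (nat_lit 0) (XT.nd (nat_lit 78) (nat_lit 608) (nat_lit 0) (XT.lf (nat_lit 0) (nat_lit 5236452501) (nat_lit 684) (nat_lit 3481765081) (nat_lit 76) (nat_lit 5097356297) (nat_lit 305) (nat_lit 5) (nat_lit 314) (nat_lit 5) (nat_lit 306) (nat_lit 5) (nat_lit 467) (nat_lit 409) (nat_lit 264)) (XT.lf (nat_lit 0) (nat_lit 5019116438) (nat_lit 608) (nat_lit 3113279896) (nat_lit 684) (nat_lit 5836637468) (nat_lit 297) (nat_lit 5) (nat_lit 305) (nat_lit 5) (nat_lit 306) (nat_lit 5) (nat_lit 468) (nat_lit 409) (nat_lit 263))) (XT.nd (nat_lit 78) (nat_lit 1216) (nat_lit 0) (XT.lf (nat_lit 0) (nat_lit 11113830702) (nat_lit 684) (nat_lit 421561628) (nat_lit 76) (nat_lit 2589619159) (nat_lit 297)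 (nat_lit 5) (nat_lit 306) (nat_lit 5) (nat_lit 298) (nat_lit 5) (nat_lit 469) (nat_lit 409) (nat_lit 262)) (XT.nd (nat_lit 78) (nat_lit 608) (nat_lit 0) (XT.lf (nat_lit 0) (nat_lit 8349962798) (nat_lit 608) (nat_lit 5867161355) (nat_lit 684) (nat_lit 65739970) (nat_lit 289) (nat_lit 5) (nat_lit 297) (nat_lit 5) (nat_lit 298) (nat_lit 5) (nat_lit 470) (nat_lit 409) (nat_lit 261)) (XT.lf (nat_lit 0) (nat_lit 2860886338) (nat_lit 532) (nat_lit 48063976) (nat_lit 608) (nat_lit 11534364287) (nat_lit 281) (nat_lit 5) (nat_lit 288) (nat_lit 5) (nat_lit 289) (nat_lit 5) (nat_lit 471) (nat_lit 409) (nat_lit 260))))) (XT.nd (nat_lit 156) (nat_lit 1140) (nat_lit 0) (XT.nd (nat_lit 78) (nat_lit 608) (nat_lit 0) (XT.lf (nat_lit 0) (nat_lit 6008130655) (nat_lit 608) (nat_lit 2750596983) (nat_lit 76) (nat_lit 5846920227) (nat_lit 281) (nat_lit 5) (nat_lit 289) (nat_lit 5) (nat_lit 282) (nat_lit 5) (nat_lit 472) (nat_lit 409) (nat_lit 259)) (XT.lf (nat_lit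 0) (nat_lit 6324353616) (nat_lit 608) (nat_lit 2874138964) (nat_lit 684) (nat_lit 5572151257) (nat_lit 273) (nat_lit 5) (nat_lit 281) (nat_lit 5) (nat_lit 282) (nat_lit 5) (nat_lit 473) (nat_lit 409) (nat_lit 258))) (XT.nd (nat_lit 78) (nat_lit 608) (nat_lit 0) (XT.lf (nat_lit 0) (nat_lit 651375557) (nat_lit 532) (nat_lit 11832332115) (nat_lit 608) (nat_lit 2454611137) (nat_lit 266) (nat_lit 5) (nat_lit 273) (nat_lit 5) (nat_lit 274) (nat_lit 5) (nat_lit 474) (nat_lit 409) (nat_lit 257)) (XT.nd (nat_lit 78) (nat_lit 532) (nat_lit 0) (XT.lf (nat_lit 0) (nat_lit 779835478) (nat_lit 608) (nat_lit 5103151437) (nat_lit 76) (nat_lit 9224984829) (nat_lit 265) (nat_lit 5) (nat_lit 273) (nat_lit 5) (nat_lit 266) (nat_lit 5) (nat_lit 475) (nat_lit 409) (nat_lit 256)) (XT.lf (nat_lit 0) (nat_lit 4063660374) (nat_lit 608) (nat_lit 10993523032) (nat_lit 76) (nat_lit 223158700) (nat_lit 258) (nat_lit 5) (nat_lit 266) (nat_lit 5) (nat_lit 259) (nat_lit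 5) (nat_lit 476) (nat_lit 409) (nat_lit 255)))))) (XT.nd (nat_lit 390) (nat_lit 1976) (nat_lit 0) (XT.nd (nat_lit 156) (nat_lit 1064) (nat_lit 0) (XT.nd (nat_lit 78) (nat_lit 532) (nat_lit 0) (XT.lf (nat_lit 0) (nat_lit 7474909232) (nat_lit 608) (nat_lit 1576984897) (nat_lit 76) (nat_lit 6403030797) (nat_lit 258) (nat_lit 5) (nat_lit 266) (nat_lit 5) (nat_lit 259) (nat_lit 5) (nat_lit 477) (nat_lit 409) (nat_lit 254)) (XT.lf (nat_lit 0) (nat_lit 8118589675) (nat_lit 532) (nat_lit 2877049431) (nat_lit 608) (nat_lit 4636535175) (nat_lit 251) (nat_lit 5) (nat_lit 258) (nat_lit 5) (nat_lit 259) (nat_lit 5) (nat_lit 478) (nat_lit 409) (nat_lit 253))) (XT.nd (nat_lit 78) (nat_lit 532) (nat_lit 0) (XT.lf (nat_lit 0) (nat_lit 2207497724) (nat_lit 532) (nat_lit 12415123687) (nat_lit 608) (nat_lit 1189630456) (nat_lit 244) (nat_lit 5) (nat_lit 251) (nat_lit 5) (nat_lit 252) (nat_lit 5) (nat_lit 479) (nat_lit 409) (nat_lit 252)) (XT.nd (nat_lit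 78) (nat_lit 456) (nat_lit 0) (XT.lf (nat_lit 0) (nat_lit 2354196484) (nat_lit 608) (nat_lit 3820474629) (nat_lit 76) (nat_lit 9819787968) (nat_lit 243) (nat_lit 5) (nat_lit 251) (nat_lit 5) (nat_lit 244) (nat_lit 5) (nat_lit 480) (nat_lit 409) (nat_lit 251)) (XT.lf (nat_lit 0) (nat_lit 5983789246) (nat_lit 532) (nat_lit 9963538368) (nat_lit 76) (nat_lit 232209188) (nat_lit 237) (nat_lit 5) (nat_lit 244) (nat_lit 5) (nat_lit 238) (nat_lit 5) (nat_lit 481) (nat_lit 409) (nat_lit 250))))) (XT.nd (nat_lit 234) (nat_lit 912) (nat_lit 0) (XT.nd (nat_lit 78) (nat_lit 532) (nat_lit 0) (XT.lf (nat_lit 0) (nat_lit 81505128) (nat_lit 532) (nat_lit 9660691841) (nat_lit 608) (nat_lit 6624994647) (nat_lit 230) (nat_lit 5) (nat_lit 237) (nat_lit 5) (nat_lit 238) (nat_lit 5) (nat_lit 482) (nat_lit 409) (nat_lit 249)) (XT.nd (nat_lit 78) (nat_lit 532) (nat_lit 0) (XT.lf (nat_lit 0) (nat_lit 10446923738) (nat_lit 532) (nat_lit 3184819180) (nat_lit 608)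 (nat_lit 2925737206) (nat_lit 230) (nat_lit 5) (nat_lit 237) (nat_lit 5) (nat_lit 238) (nat_lit 5) (nat_lit 483) (nat_lit 409) (nat_lit 248)) (XT.lf (nat_lit 0) (nat_lit 875984059) (nat_lit 532) (nat_lit 12469925461) (nat_lit 76) (nat_lit 3404762955) (nat_lit 223) (nat_lit 5) (nat_lit 230) (nat_lit 5) (nat_lit 224) (nat_lit 5) (nat_lit 484) (nat_lit 409) (nat_lit 247)))) (XT.nd (nat_lit 78) (nat_lit 912) (nat_lit 0) (XT.lf (nat_lit 0) (nat_lit 4766302051) (nat_lit 532) (nat_lit 2040442970) (nat_lit 76) (nat_lit 10139562110) (nat_lit 223) (nat_lit 5) (nat_lit 230) (nat_lit 5) (nat_lit 224) (nat_lit 5) (nat_lit 485) (nat_lit 409) (nat_lit 246)) (XT.nd (nat_lit 78) (nat_lit 456) (nat_lit 0) (XT.lf (nat_lit 0) (nat_lit 8696486860) (nat_lit 456) (nat_lit 83945235) (nat_lit 532) (nat_lit 8364502271) (nat_lit 217) (nat_lit 5) (nat_lit 223) (nat_lit 5) (nat_lit 224) (nat_lit 5) (nat_lit 486) (nat_lit 409) (nat_lit 245)) (XT.lf (nat_lit 0) (nat_lit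 2299368358) (nat_lit 456) (nat_lit 10637783885) (nat_lit 532) (nat_lit 4409135752) (nat_lit 211) (nat_lit 5) (nat_lit 217) (nat_lit 5) (nat_lit 218) (nat_lit 5) (nat_lit 487) (nat_lit 409) (nat_lit 244))))))))
noncomputable def xc181 : XT := (XT.nd (nat_lit 53820) (nat_lit 0) (nat_lit 26144) (XT.nd (nat_lit 780) (nat_lit 684) (nat_lit 0) (XT.nd (nat_lit 390) (nat_lit 1292) (nat_lit 0) (XT.nd (nat_lit 156) (nat_lit 836) (nat_lit 0) (XT.nd (nat_lit 78) (nat_lit 532) (nat_lit 0) (XT.lf (nat_lit 0) (nat_lit 13360924146) (nat_lit 456) (nat_lit 3863052020) (nat_lit 532) (nat_lit 326753145) (nat_lit 211) (nat_lit 5) (nat_lit 217) (nat_lit 5) (nat_lit 218) (nat_lit 5) (nat_lit 488) (nat_lit 409) (nat_lit 243)) (XT.lf (nat_lit 0) (nat_lit 3842054523) (nat_lit 532) (nat_lit 10842792932) (nat_lit 76) (nat_lit 3072811635) (nat_lit 204) (nat_lit 5) (nat_lit 211) (nat_lit 5) (nat_lit 205) (nat_lit 5) (nat_lit 489) (nat_lit 409) (nat_lit 242))) (XT.nd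 (nat_lit 78) (nat_lit 456) (nat_lit 0) (XT.lf (nat_lit 0) (nat_lit 291062100) (nat_lit 380) (nat_lit 7844508741) (nat_lit 456) (nat_lit 9832199272) (nat_lit 199) (nat_lit 5) (nat_lit 204) (nat_lit 5) (nat_lit 205) (nat_lit 5) (nat_lit 490) (nat_lit 409) (nat_lit 241)) (XT.nd (nat_lit 78) (nat_lit 456) (nat_lit 0) (XT.lf (nat_lit 0) (nat_lit 11779588715) (nat_lit 380) (nat_lit 798158561) (nat_lit 456) (nat_lit 5603080285) (nat_lit 199) (nat_lit 5) (nat_lit 204) (nat_lit 5) (nat_lit 205) (nat_lit 5) (nat_lit 491) (nat_lit 409) (nat_lit 240)) (XT.lf (nat_lit 0) (nat_lit 5110429236) (nat_lit 456) (nat_lit 12063193249) (nat_lit 532) (nat_lit 1223226567) (nat_lit 193) (nat_lit 5) (nat_lit 199) (nat_lit 5) (nat_lit 200) (nat_lit 5) (nat_lit 492) (nat_lit 409) (nat_lit 239))))) (XT.nd (nat_lit 156) (nat_lit 836) (nat_lit 0) (XT.nd (nat_lit 78) (nat_lit 380) (nat_lit 0) (XT.lf (nat_lit 0) (nat_lit 3240426364) (nat_lit 532) (nat_lit 1718749116)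 (nat_lit 76) (nat_lit 13656819207) (nat_lit 192) (nat_lit 5) (nat_lit 199) (nat_lit 5) (nat_lit 193) (nat_lit 5) (nat_lit 493) (nat_lit 409) (nat_lit 238)) (XT.lf (nat_lit 0) (nat_lit 7848880928) (nat_lit 456) (nat_lit 8662295555) (nat_lit 76) (nat_lit 2326746888) (nat_lit 187) (nat_lit 5) (nat_lit 193) (nat_lit 5) (nat_lit 188) (nat_lit 5) (nat_lit 494) (nat_lit 409) (nat_lit 237))) (XT.nd (nat_lit 78) (nat_lit 456) (nat_lit 0) (XT.lf (nat_lit 0) (nat_lit 3262344158) (nat_lit 380) (nat_lit 9343271747) (nat_lit 456) (nat_lit 6457552499) (nat_lit 182) (nat_lit 5) (nat_lit 187) (nat_lit 5) (nat_lit 188) (nat_lit 5) (nat_lit 495) (nat_lit 409) (nat_lit 236)) (XT.nd (nat_lit 78) (nat_lit 456) (nat_lit 0) (XT.lf (nat_lit 0) (nat_lit 15528338872) (nat_lit 380) (nat_lit 1977845171) (nat_lit 456) (nat_lit 1785760323) (nat_lit 182) (nat_lit 5) (nat_lit 187) (nat_lit 5) (nat_lit 188) (nat_lit 5) (nat_lit 496) (nat_lit 409) (nat_lit 235)) (XT.lf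 (nat_lit 0) (nat_lit 3023279289) (nat_lit 456) (nat_lit 10967059788) (nat_lit 76) (nat_lit 5532912121) (nat_lit 176) (nat_lit 5) (nat_lit 182) (nat_lit 5) (nat_lit 177) (nat_lit 5) (nat_lit 497) (nat_lit 409) (nat_lit 234)))))) (XT.nd (nat_lit 52650) (nat_lit 0) (nat_lit 33668) (XT.nd (nat_lit 156) (nat_lit 304) (nat_lit 0) (XT.nd (nat_lit 78) (nat_lit 0) (nat_lit 0) (XT.lf (nat_lit 0) (nat_lit 1393453114) (nat_lit 380) (nat_lit 6549476361) (nat_lit 456) (nat_lit 11815251792) (nat_lit 171) (nat_lit 5) (nat_lit 176) (nat_lit 5) (nat_lit 177) (nat_lit 5) (nat_lit 498) (nat_lit 409) (nat_lit 233)) (XT.lf (nat_lit 0) (nat_lit 13032613095) (nat_lit 456) (nat_lit 5868248222) (nat_lit 76) (nat_lit 1095515811) (nat_lit 171) (nat_lit 5) (nat_lit 177) (nat_lit 5) (nat_lit 172) (nat_lit 5) (nat_lit 499) (nat_lit 409) (nat_lit 232))) (XT.nd (nat_lit 52338) (nat_lit 0) (nat_lit 33668) (XT.lf (nat_lit 0) (nat_lit 6911206694) (nat_lit 304) (nat_lit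 11392114761) (nat_lit 380) (nat_lit 1934430831) (nat_lit 167) (nat_lit 5) (nat_lit 171) (nat_lit 5) (nat_lit 172) (nat_lit 5) (nat_lit 500) (nat_lit 409) (nat_lit 231)) (XT.nd (nat_lit 78) (nat_lit 0) (nat_lit 0) (XT.lf (nat_lit 0) (nat_lit 202537602) (nat_lit 0) (nat_lit 202537602) (nat_lit 1444) (nat_lit 3672116064) (nat_lit 610) (nat_lit 5) (nat_lit 610) (nat_lit 3) (nat_lit 629) (nat_lit 3) (nat_lit 410) (nat_lit 410) (nat_lit 320)) (XT.lf (nat_lit 0) (nat_lit 2000491305) (nat_lit 1444) (nat_lit 3681046556) (nat_lit 1520) (nat_lit 2530743714) (nat_lit 610) (nat_lit 5) (nat_lit 629) (nat_lit 3) (nat_lit 630) (nat_lit 5) (nat_lit 411) (nat_lit 410) (nat_lit 319))))) (XT.nd (nat_lit 156) (nat_lit 0) (nat_lit 76) (XT.nd (nat_lit 78) (nat_lit 0) (nat_lit 76) (XT.lf (nat_lit 76) (nat_lit 455878092) (nat_lit 0) (nat_lit 2733928820) (nat_lit 1520) (nat_lit 5082028323) (nat_lit 611) (nat_lit 5) (nat_lit 610) (nat_lit 5) (nat_lit 630) (nat_lit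 5) (nat_lit 412) (nat_lit 410) (nat_lit 318)) (XT.lf (nat_lit 0) (nat_lit 4399655529) (nat_lit 1444) (nat_lit 3625164316) (nat_lit 1520) (nat_lit 307825189) (nat_lit 611) (nat_lit 5) (nat_lit 630) (nat_lit 5) (nat_lit 631) (nat_lit 5) (nat_lit 413) (nat_lit 410) (nat_lit 317))) (XT.nd (nat_lit 78) (nat_lit 0) (nat_lit 0) (XT.lf (nat_lit 76) (nat_lit 623254668) (nat_lit 0) (nat_lit 5003295814) (nat_lit 1520) (nat_lit 2768263561) (nat_lit 612) (nat_lit 5) (nat_lit 611) (nat_lit 5) (nat_lit 631) (nat_lit 5) (nat_lit 414) (nat_lit 410) (nat_lit 316)) (XT.nd (nat_lit 78) (nat_lit 0) (nat_lit 76) (XT.lf (nat_lit 76) (nat_lit 4989630744) (nat_lit 0) (nat_lit 1883846341) (nat_lit 1520) (nat_lit 1584839471) (nat_lit 612) (nat_lit 5) (nat_lit 611) (nat_lit 5) (nat_lit 631) (nat_lit 5) (nat_lit 415) (nat_lit 410) (nat_lit 315)) (XT.lf (nat_lit 76) (nat_lit 907235624) (nat_lit 0) (nat_lit 7224237464) (nat_lit 1520) (nat_lit 391893415) (nat_lit 613)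 (nat_lit 5) (nat_lit 612) (nat_lit 5) (nat_lit 632) (nat_lit 5) (nat_lit 416) (nat_lit 410) (nat_lit 314))))))) (XT.nd (nat_lit 780) (nat_lit 4788) (nat_lit 0) (XT.nd (nat_lit 390) (nat_lit 1368) (nat_lit 0) (XT.nd (nat_lit 156) (nat_lit 0) (nat_lit 76) (XT.nd (nat_lit 78) (nat_lit 0) (nat_lit 0) (XT.lf (nat_lit 0) (nat_lit 822075100) (nat_lit 1520) (nat_lit 3206286702) (nat_lit 1596) (nat_lit 4561088881) (nat_lit 592) (nat_lit 5) (nat_lit 612) (nat_lit 5) (nat_lit 613) (nat_lit 5) (nat_lit 417) (nat_lit 410) (nat_lit 313)) (XT.lf (nat_lit 76) (nat_lit 1289658035) (nat_lit 0) (nat_lit 746418992) (nat_lit 1596) (nat_lit 6621107681) (nat_lit 593) (nat_lit 5) (nat_lit 592) (nat_lit 5) (nat_lit 613) (nat_lit 5) (nat_lit 418) (nat_lit 410) (nat_lit 312))) (XT.nd (nat_lit 78) (nat_lit 0) (nat_lit 0) (XT.lf (nat_lit 0) (nat_lit 3286029097) (nat_lit 1520) (nat_lit 2840805427) (nat_lit 1596) (nat_lit 2599205488) (nat_lit 593) (nat_lit 5) (nat_lit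 613) (nat_lit 5) (nat_lit 614) (nat_lit 5) (nat_lit 419) (nat_lit 410) (nat_lit 311)) (XT.nd (nat_lit 78) (nat_lit 0) (nat_lit 76) (XT.lf (nat_lit 76) (nat_lit 1778245658) (nat_lit 0) (nat_lit 2772873537) (nat_lit 1596) (nat_lit 4245350447) (nat_lit 594) (nat_lit 5) (nat_lit 593) (nat_lit 5) (nat_lit 614) (nat_lit 5) (nat_lit 420) (nat_lit 410) (nat_lit 310)) (XT.lf (nat_lit 0) (nat_lit 5839030391) (nat_lit 1520) (nat_lit 2361130127) (nat_lit 1596) (nat_lit 668196961) (nat_lit 594) (nat_lit 5) (nat_lit 614) (nat_lit 5) (nat_lit 615) (nat_lit 5) (nat_lit 421) (nat_lit 410) (nat_lit 309))))) (XT.nd (nat_lit 156) (nat_lit 1520) (nat_lit 0) (XT.nd (nat_lit 78) (nat_lit 0) (nat_lit 0) (XT.lf (nat_lit 76) (nat_lit 2385305741) (nat_lit 0) (nat_lit 4775873301) (nat_lit 1596) (nat_lit 1780334445) (nat_lit 595) (nat_lit 5) (nat_lit 594) (nat_lit 5) (nat_lit 615) (nat_lit 5) (nat_lit 422) (nat_lit 410) (nat_lit 308)) (XT.lf (nat_lit 76) (nat_lit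 7242065889) (nat_lit 0) (nat_lit 1258567677) (nat_lit 1596) (nat_lit 515681792) (nat_lit 595) (nat_lit 5) (nat_lit 594) (nat_lit 5) (nat_lit 615) (nat_lit 5) (nat_lit 423) (nat_lit 410) (nat_lit 307))) (XT.nd (nat_lit 78) (nat_lit 0) (nat_lit 0) (XT.lf (nat_lit 0) (nat_lit 775071545) (nat_lit 1596) (nat_lit 5985278947) (nat_lit 1672) (nat_lit 2331942990) (nat_lit 574) (nat_lit 5) (nat_lit 595) (nat_lit 5) (nat_lit 596) (nat_lit 5) (nat_lit 424) (nat_lit 410) (nat_lit 306)) (XT.nd (nat_lit 78) (nat_lit 0) (nat_lit 76) (XT.lf (nat_lit 0) (nat_lit 2080834158) (nat_lit 1596) (nat_lit 1088466517) (nat_lit 1672) (nat_lit 6000500334) (nat_lit 574) (nat_lit 5) (nat_lit 595) (nat_lit 5) (nat_lit 596) (nat_lit 5) (nat_lit 425) (nat_lit 410) (nat_lit 305)) (XT.lf (nat_lit 0) (nat_lit 3417969050) (nat_lit 1596) (nat_lit 5310973927) (nat_lit 1672) (nat_lit 519810572) (nat_lit 575) (nat_lit 5) (nat_lit 596) (nat_lit 5) (nat_lit 597) (nat_lit 5) (nat_lit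 426) (nat_lit 410) (nat_lit 304)))))) (XT.nd (nat_lit 390) (nat_lit 3344) (nat_lit 0) (XT.nd (nat_lit 156) (nat_lit 1520) (nat_lit 0) (XT.nd (nat_lit 78) (nat_lit 0) (nat_lit 0) (XT.lf (nat_lit 0) (nat_lit 4786837963) (nat_lit 1596) (nat_lit 287977937) (nat_lit 1672) (nat_lit 4254369412) (nat_lit 575) (nat_lit 5) (nat_lit 596) (nat_lit 5) (nat_lit 597) (nat_lit 5) (nat_lit 427) (nat_lit 410) (nat_lit 303)) (XT.lf (nat_lit 76) (nat_lit 4882744576) (nat_lit 0) (nat_lit 1309149559) (nat_lit 1672) (nat_lit 3219155377) (nat_lit 576) (nat_lit 5) (nat_lit 575) (nat_lit 5) (nat_lit 597) (nat_lit 5) (nat_lit 428) (nat_lit 410) (nat_lit 302))) (XT.nd (nat_lit 78) (nat_lit 1596) (nat_lit 0) (XT.lf (nat_lit 76) (nat_lit 641079154) (nat_lit 0) (nat_lit 6984004989) (nat_lit 1672) (nat_lit 1869466199) (nat_lit 577) (nat_lit 5) (nat_lit 576) (nat_lit 5) (nat_lit 598) (nat_lit 5) (nat_lit 429) (nat_lit 410) (nat_lit 301)) (XT.nd (nat_lit 78) (nat_lit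 1596) (nat_lit 0) (XT.lf (nat_lit 76) (nat_lit 5949410637) (nat_lit 0) (nat_lit 3154345065) (nat_lit 1672) (nat_lit 475629132) (nat_lit 577) (nat_lit 5) (nat_lit 576) (nat_lit 5) (nat_lit 598) (nat_lit 5) (nat_lit 430) (nat_lit 410) (nat_lit 300)) (XT.lf (nat_lit 0) (nat_lit 927831266) (nat_lit 1672) (nat_lit 7973924303) (nat_lit 1748) (nat_lit 764154501) (nat_lit 555) (nat_lit 5) (nat_lit 577) (nat_lit 5) (nat_lit 578) (nat_lit 5) (nat_lit 431) (nat_lit 410) (nat_lit 299))))) (XT.nd (nat_lit 234) (nat_lit 3344) (nat_lit 0) (XT.nd (nat_lit 78) (nat_lit 0) (nat_lit 0) (XT.lf (nat_lit 0) (nat_lit 2376866828) (nat_lit 1672) (nat_lit 2625633830) (nat_lit 1748) (nat_lit 4751124782) (nat_lit 555) (nat_lit 5) (nat_lit 577) (nat_lit 5) (nat_lit 578) (nat_lit 5) (nat_lit 432) (nat_lit 410) (nat_lit 298)) (XT.nd (nat_lit 78) (nat_lit 0) (nat_lit 76) (XT.lf (nat_lit 76) (nat_lit 2849996248) (nat_lit 0) (nat_lit 1002271916) (nat_lit 1748) (nat_lit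 5990879253) (nat_lit 556) (nat_lit 5) (nat_lit 555) (nat_lit 5) (nat_lit 578) (nat_lit 5) (nat_lit 433) (nat_lit 410) (nat_lit 297)) (XT.lf (nat_lit 0) (nat_lit 5374108647) (nat_lit 1672) (nat_lit 1500812512) (nat_lit 76) (nat_lit 3059200051) (nat_lit 556) (nat_lit 5) (nat_lit 578) (nat_lit 5) (nat_lit 557) (nat_lit 5) (nat_lit 434) (nat_lit 410) (nat_lit 296)))) (XT.nd (nat_lit 78) (nat_lit 1748) (nat_lit 0) (XT.lf (nat_lit 0) (nat_lit 4131931972) (nat_lit 1672) (nat_lit 2807537285) (nat_lit 1748) (nat_lit 3087183557) (nat_lit 534) (nat_lit 5) (nat_lit 556) (nat_lit 5) (nat_lit 557) (nat_lit 5) (nat_lit 435) (nat_lit 410) (nat_lit 295)) (XT.nd (nat_lit 78) (nat_lit 1748) (nat_lit 0) (XT.lf (nat_lit 0) (nat_lit 8534912311) (nat_lit 1748) (nat_lit 249238259) (nat_lit 76) (nat_lit 1336908973) (nat_lit 534) (nat_lit 5) (nat_lit 557) (nat_lit 5) (nat_lit 535) (nat_lit 5) (nat_lit 436) (nat_lit 410) (nat_lit 294)) (XT.lf (nat_lit 0) (nat_lit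 5546336257) (nat_lit 1748) (nat_lit 4650854337) (nat_lit 1824) (nat_lit 19465287) (nat_lit 511) (nat_lit 5) (nat_lit 534) (nat_lit 5) (nat_lit 535) (nat_lit 5) (nat_lit 437) (nat_lit 410) (nat_lit 293))))))))
noncomputable def xc182 : XT := (XT.nd (nat_lit 1560) (nat_lit 7676) (nat_lit 0) (XT.nd (nat_lit 780) (nat_lit 4864) (nat_lit 0) (XT.nd (nat_lit 390) (nat_lit 2736) (nat_lit 0) (XT.nd (nat_lit 156) (nat_lit 2052) (nat_lit 0) (XT.nd (nat_lit 78) (nat_lit 0) (nat_lit 0) (XT.lf (nat_lit 0) (nat_lit 1134576291) (nat_lit 1824) (nat_lit 412791878) (nat_lit 1900) (nat_lit 8766800580) (nat_lit 486) (nat_lit 5) (nat_lit 510) (nat_lit 5) (nat_lit 511) (nat_lit 5) (nat_lit 438) (nat_lit 410) (nat_lit 292)) (XT.lf (nat_lit 0) (nat_lit 3182970286) (nat_lit 1900) (nat_lit 3337251562) (nat_lit 76) (nat_lit 3892653600) (nat_lit 486) (nat_lit 5) (nat_lit 511) (nat_lit 5) (nat_lit 487) (nat_lit 5) (nat_lit 439) (nat_lit 410) (nat_lit 291))) (XT.nd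 (nat_lit 78) (nat_lit 912) (nat_lit 0) (XT.lf (nat_lit 0) (nat_lit 2636723682) (nat_lit 1140) (nat_lit 2215549148) (nat_lit 1216) (nat_lit 5661263684) (nat_lit 471) (nat_lit 5) (nat_lit 486) (nat_lit 5) (nat_lit 487) (nat_lit 5) (nat_lit 440) (nat_lit 410) (nat_lit 290)) (XT.nd (nat_lit 78) (nat_lit 912) (nat_lit 0) (XT.lf (nat_lit 0) (nat_lit 6573033326) (nat_lit 1216) (nat_lit 1871948888) (nat_lit 76) (nat_lit 2170867149) (nat_lit 471) (nat_lit 5) (nat_lit 487) (nat_lit 5) (nat_lit 472) (nat_lit 5) (nat_lit 441) (nat_lit 410) (nat_lit 289)) (XT.lf (nat_lit 0) (nat_lit 4277448671) (nat_lit 912) (nat_lit 4074975420) (nat_lit 988) (nat_lit 2367300076) (nat_lit 459) (nat_lit 5) (nat_lit 471) (nat_lit 5) (nat_lit 472) (nat_lit 5) (nat_lit 442) (nat_lit 410) (nat_lit 288))))) (XT.nd (nat_lit 156) (nat_lit 1748) (nat_lit 0) (XT.nd (nat_lit 78) (nat_lit 988) (nat_lit 0) (XT.lf (nat_lit 0) (nat_lit 10164556151) (nat_lit 988) (nat_lit 270028154)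 (nat_lit 76) (nat_lit 391149093) (nat_lit 459) (nat_lit 5) (nat_lit 472) (nat_lit 5) (nat_lit 460) (nat_lit 5) (nat_lit 443) (nat_lit 410) (nat_lit 287)) (XT.lf (nat_lit 0) (nat_lit 1113956814) (nat_lit 988) (nat_lit 4878952516) (nat_lit 76) (nat_lit 4939832544) (nat_lit 446) (nat_lit 5) (nat_lit 459) (nat_lit 5) (nat_lit 447) (nat_lit 5) (nat_lit 444) (nat_lit 410) (nat_lit 286))) (XT.nd (nat_lit 78) (nat_lit 912) (nat_lit 0) (XT.lf (nat_lit 0) (nat_lit 1463665966) (nat_lit 836) (nat_lit 1445909134) (nat_lit 912) (nat_lit 8132351318) (nat_lit 435) (nat_lit 5) (nat_lit 446) (nat_lit 5) (nat_lit 447) (nat_lit 5) (nat_lit 445) (nat_lit 410) (nat_lit 285)) (XT.nd (nat_lit 78) (nat_lit 912) (nat_lit 0) (XT.lf (nat_lit 0) (nat_lit 4777522598) (nat_lit 912) (nat_lit 3191573605) (nat_lit 76) (nat_lit 3183470112) (nat_lit 435) (nat_lit 5) (nat_lit 447) (nat_lit 5) (nat_lit 436) (nat_lit 5) (nat_lit 446) (nat_lit 410) (nat_lit 284)) (XT.lf (nat_lit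 0) (nat_lit 3340152181) (nat_lit 912) (nat_lit 3357012337) (nat_lit 988) (nat_lit 4567967784) (nat_lit 423) (nat_lit 5) (nat_lit 435) (nat_lit 5) (nat_lit 436) (nat_lit 5) (nat_lit 447) (nat_lit 410) (nat_lit 283)))))) (XT.nd (nat_lit 390) (nat_lit 2356) (nat_lit 0) (XT.nd (nat_lit 156) (nat_lit 1672) (nat_lit 0) (XT.nd (nat_lit 78) (nat_lit 836) (nat_lit 0) (XT.lf (nat_lit 0) (nat_lit 8668801337) (nat_lit 988) (nat_lit 1359783588) (nat_lit 76) (nat_lit 1351092642) (nat_lit 423) (nat_lit 5) (nat_lit 436) (nat_lit 5) (nat_lit 424) (nat_lit 5) (nat_lit 448) (nat_lit 410) (nat_lit 282)) (XT.lf (nat_lit 0) (nat_lit 5368076589) (nat_lit 836) (nat_lit 5352502261) (nat_lit 912) (nat_lit 775120727) (nat_lit 412) (nat_lit 5) (nat_lit 423) (nat_lit 5) (nat_lit 424) (nat_lit 5) (nat_lit 449) (nat_lit 410) (nat_lit 281))) (XT.nd (nat_lit 78) (nat_lit 760) (nat_lit 0) (XT.lf (nat_lit 0) (nat_lit 618412509) (nat_lit 836) (nat_lit 562136734) (nat_lit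 912) (nat_lit 10433398466) (nat_lit 400) (nat_lit 5) (nat_lit 411) (nat_lit 5) (nat_lit 412) (nat_lit 5) (nat_lit 450) (nat_lit 410) (nat_lit 280)) (XT.nd (nat_lit 78) (nat_lit 760) (nat_lit 0) (XT.lf (nat_lit 0) (nat_lit 3218363557) (nat_lit 912) (nat_lit 4201910664) (nat_lit 76) (nat_lit 4313115914) (nat_lit 400) (nat_lit 5) (nat_lit 412) (nat_lit 5) (nat_lit 401) (nat_lit 5) (nat_lit 451) (nat_lit 410) (nat_lit 279)) (XT.lf (nat_lit 0) (nat_lit 2743052527) (nat_lit 760) (nat_lit 2559662838) (nat_lit 836) (nat_lit 6552390421) (nat_lit 390) (nat_lit 5) (nat_lit 400) (nat_lit 5) (nat_lit 401) (nat_lit 5) (nat_lit 452) (nat_lit 410) (nat_lit 278))))) (XT.nd (nat_lit 156) (nat_lit 1596) (nat_lit 0) (XT.nd (nat_lit 78) (nat_lit 760) (nat_lit 0) (XT.lf (nat_lit 0) (nat_lit 7457150427) (nat_lit 836) (nat_lit 2127555978) (nat_lit 76) (nat_lit 2393981420) (nat_lit 390) (nat_lit 5) (nat_lit 401) (nat_lit 5) (nat_lit 391) (nat_lit 5) (nat_lit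 453) (nat_lit 410) (nat_lit 277)) (XT.lf (nat_lit 0) (nat_lit 5028988903) (nat_lit 760) (nat_lit 4660035286) (nat_lit 836) (nat_lit 2415030316) (nat_lit 380) (nat_lit 5) (nat_lit 390) (nat_lit 5) (nat_lit 391) (nat_lit 5) (nat_lit 454) (nat_lit 410) (nat_lit 276))) (XT.nd (nat_lit 78) (nat_lit 836) (nat_lit 0) (XT.lf (nat_lit 0) (nat_lit 107996299) (nat_lit 760) (nat_lit 11859898734) (nat_lit 836) (nat_lit 263986292) (nat_lit 370) (nat_lit 5) (nat_lit 380) (nat_lit 5) (nat_lit 381) (nat_lit 5) (nat_lit 455) (nat_lit 410) (nat_lit 275)) (XT.nd (nat_lit 78) (nat_lit 760) (nat_lit 0) (XT.lf (nat_lit 0) (nat_lit 1968435846) (nat_lit 836) (nat_lit 4891315791) (nat_lit 76) (nat_lit 5500989008) (nat_lit 369) (nat_lit 5) (nat_lit 380) (nat_lit 5) (nat_lit 370) (nat_lit 5) (nat_lit 456) (nat_lit 410) (nat_lit 274)) (XT.lf (nat_lit 0) (nat_lit 2500363468) (nat_lit 760) (nat_lit 1743156847) (nat_lit 836) (nat_lit 8248590964) (nat_lit 359) (nat_lit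 5) (nat_lit 369) (nat_lit 5) (nat_lit 370) (nat_lit 5) (nat_lit 457) (nat_lit 410) (nat_lit 273))))))) (XT.nd (nat_lit 780) (nat_lit 3572) (nat_lit 0) (XT.nd (nat_lit 390) (nat_lit 1976) (nat_lit 0) (XT.nd (nat_lit 156) (nat_lit 1444) (nat_lit 0) (XT.nd (nat_lit 78) (nat_lit 684) (nat_lit 0) (XT.lf (nat_lit 0) (nat_lit 6605193746) (nat_lit 836) (nat_lit 2558811924) (nat_lit 76) (nat_lit 3461281910) (nat_lit 359) (nat_lit 5) (nat_lit 370) (nat_lit 5) (nat_lit 360) (nat_lit 5) (nat_lit 458) (nat_lit 410) (nat_lit 272)) (XT.lf (nat_lit 0) (nat_lit 5061191469) (nat_lit 684) (nat_lit 3983078180) (nat_lit 760) (nat_lit 3716254379) (nat_lit 350) (nat_lit 5) (nat_lit 359) (nat_lit 5) (nat_lit 360) (nat_lit 5) (nat_lit 459) (nat_lit 410) (nat_lit 271))) (XT.nd (nat_lit 78) (nat_lit 1444) (nat_lit 0) (XT.lf (nat_lit 0) (nat_lit 11543784605) (nat_lit 760) (nat_lit 54989302) (nat_lit 76) (nat_lit 1299458146) (nat_lit 350) (nat_lit 5) (nat_lit 360)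 (nat_lit 5) (nat_lit 351) (nat_lit 5) (nat_lit 460) (nat_lit 410) (nat_lit 270)) (XT.nd (nat_lit 78) (nat_lit 684) (nat_lit 0) (XT.lf (nat_lit 0) (nat_lit 1104415329) (nat_lit 760) (nat_lit 5242767915) (nat_lit 76) (nat_lit 6690101033) (nat_lit 340) (nat_lit 5) (nat_lit 350) (nat_lit 5) (nat_lit 341) (nat_lit 5) (nat_lit 461) (nat_lit 410) (nat_lit 269)) (XT.lf (nat_lit 0) (nat_lit 2631857995) (nat_lit 684) (nat_lit 966211804) (nat_lit 760) (nat_lit 9580793679) (nat_lit 331) (nat_lit 5) (nat_lit 340) (nat_lit 5) (nat_lit 341) (nat_lit 5) (nat_lit 462) (nat_lit 410) (nat_lit 268))))) (XT.nd (nat_lit 156) (nat_lit 1292) (nat_lit 0) (XT.nd (nat_lit 78) (nat_lit 684) (nat_lit 0) (XT.lf (nat_lit 0) (nat_lit 6192795155) (nat_lit 760) (nat_lit 2633603228) (nat_lit 76) (nat_lit 4495851925) (nat_lit 331) (nat_lit 5) (nat_lit 341) (nat_lit 5) (nat_lit 332) (nat_lit 5) (nat_lit 463) (nat_lit 410) (nat_lit 267)) (XT.lf (nat_lit 0) (nat_lit 5487479916)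 (nat_lit 684) (nat_lit 3380649261) (nat_lit 760) (nat_lit 4599801414) (nat_lit 322) (nat_lit 5) (nat_lit 331) (nat_lit 5) (nat_lit 332) (nat_lit 5) (nat_lit 464) (nat_lit 410) (nat_lit 266))) (XT.nd (nat_lit 78) (nat_lit 684) (nat_lit 0) (XT.lf (nat_lit 0) (nat_lit 162111103) (nat_lit 608) (nat_lit 11454641430) (nat_lit 684) (nat_lit 1999376294) (nat_lit 314) (nat_lit 5) (nat_lit 322) (nat_lit 5) (nat_lit 323) (nat_lit 5) (nat_lit 465) (nat_lit 410) (nat_lit 265)) (XT.nd (nat_lit 78) (nat_lit 608) (nat_lit 0) (XT.lf (nat_lit 0) (nat_lit 707680509) (nat_lit 684) (nat_lit 5233864586) (nat_lit 76) (nat_lit 7824397367) (nat_lit 313) (nat_lit 5) (nat_lit 322) (nat_lit 5) (nat_lit 314) (nat_lit 5) (nat_lit 466) (nat_lit 410) (nat_lit 264)) (XT.lf (nat_lit 0) (nat_lit 3162890727) (nat_lit 608) (nat_lit 286925761) (nat_lit 684) (nat_lit 10468517371) (nat_lit 305) (nat_lit 5) (nat_lit 313) (nat_lit 5) (nat_lit 314) (nat_lit 5) (nat_lit 467) (nat_lit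 410) (nat_lit 263)))))) (XT.nd (nat_lit 390) (nat_lit 1748) (nat_lit 0) (XT.nd (nat_lit 156) (nat_lit 1216) (nat_lit 0) (XT.nd (nat_lit 78) (nat_lit 608) (nat_lit 0) (XT.lf (nat_lit 0) (nat_lit 6305011259) (nat_lit 684) (nat_lit 2326529958) (nat_lit 76) (nat_lit 5441067546) (nat_lit 305) (nat_lit 5) (nat_lit 314) (nat_lit 5) (nat_lit 306) (nat_lit 5) (nat_lit 468) (nat_lit 410) (nat_lit 262)) (XT.lf (nat_lit 0) (nat_lit 6336310833) (nat_lit 608) (nat_lit 2911564864) (nat_lit 684) (nat_lit 4981482152) (nat_lit 297) (nat_lit 5) (nat_lit 305) (nat_lit 5) (nat_lit 306) (nat_lit 5) (nat_lit 469) (nat_lit 410) (nat_lit 261))) (XT.nd (nat_lit 78) (nat_lit 608) (nat_lit 0) (XT.lf (nat_lit 0) (nat_lit 790328078) (nat_lit 608) (nat_lit 11486739369) (nat_lit 684) (nat_lit 2111625069) (nat_lit 289) (nat_lit 5) (nat_lit 297) (nat_lit 5) (nat_lit 298) (nat_lit 5) (nat_lit 470) (nat_lit 410) (nat_lit 260)) (XT.nd (nat_lit 78) (nat_lit 532) (nat_lit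 0) (XT.lf (nat_lit 0) (nat_lit 865235735) (nat_lit 684) (nat_lit 4836750614) (nat_lit 76) (nat_lit 8847915542) (nat_lit 288) (nat_lit 5) (nat_lit 297) (nat_lit 5) (nat_lit 289) (nat_lit 5) (nat_lit 471) (nat_lit 410) (nat_lit 259)) (XT.lf (nat_lit 0) (nat_lit 3889644796) (nat_lit 608) (nat_lit 10590807861) (nat_lit 76) (nat_lit 233277925) (nat_lit 281) (nat_lit 5) (nat_lit 289) (nat_lit 5) (nat_lit 282) (nat_lit 5) (nat_lit 472) (nat_lit 410) (nat_lit 258))))) (XT.nd (nat_lit 234) (nat_lit 608) (nat_lit 0) (XT.nd (nat_lit 78) (nat_lit 1140) (nat_lit 0) (XT.lf (nat_lit 0) (nat_lit 7033032269) (nat_lit 608) (nat_lit 1606637685) (nat_lit 76) (nat_lit 6239996089) (nat_lit 281) (nat_lit 5) (nat_lit 289) (nat_lit 5) (nat_lit 282) (nat_lit 5) (nat_lit 473) (nat_lit 410) (nat_lit 257)) (XT.nd (nat_lit 78) (nat_lit 532) (nat_lit 0) (XT.lf (nat_lit 0) (nat_lit 7641923957) (nat_lit 608) (nat_lit 2635270797) (nat_lit 684) (nat_lit 4770967313) (nat_lit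 273) (nat_lit 5) (nat_lit 281) (nat_lit 5) (nat_lit 282) (nat_lit 5) (nat_lit 474) (nat_lit 410) (nat_lit 256)) (XT.lf (nat_lit 0) (nat_lit 1863515733) (nat_lit 532) (nat_lit 11756726458) (nat_lit 608) (nat_lit 1599105787) (nat_lit 266) (nat_lit 5) (nat_lit 273) (nat_lit 5) (nat_lit 274) (nat_lit 5) (nat_lit 475) (nat_lit 410) (nat_lit 255)))) (XT.nd (nat_lit 78) (nat_lit 532) (nat_lit 0) (XT.lf (nat_lit 0) (nat_lit 1670661220) (nat_lit 608) (nat_lit 4017982481) (nat_lit 76) (nat_lit 9703982897) (nat_lit 265) (nat_lit 5) (nat_lit 273) (nat_lit 5) (nat_lit 266) (nat_lit 5) (nat_lit 476) (nat_lit 410) (nat_lit 254)) (XT.nd (nat_lit 78) (nat_lit 0) (nat_lit 0) (XT.lf (nat_lit 0) (nat_lit 5012695568) (nat_lit 608) (nat_lit 10018694461) (nat_lit 76) (nat_lit 537203679) (nat_lit 258) (nat_lit 5) (nat_lit 266) (nat_lit 5) (nat_lit 259) (nat_lit 5) (nat_lit 477) (nat_lit 410) (nat_lit 253)) (XT.lf (nat_lit 0) (nat_lit 8475154462) (nat_lit 608)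 (nat_lit 437251035) (nat_lit 76) (nat_lit 6834602986) (nat_lit 258) (nat_lit 5) (nat_lit 266) (nat_lit 5) (nat_lit 259) (nat_lit 5) (nat_lit 478) (nat_lit 410) (nat_lit 252))))))))
noncomputable def xc183 : XT := (XT.nd (nat_lit 1638) (nat_lit 0) (nat_lit 0) (XT.nd (nat_lit 780) (nat_lit 3040) (nat_lit 0) (XT.nd (nat_lit 390) (nat_lit 1444) (nat_lit 0) (XT.nd (nat_lit 156) (nat_lit 1064) (nat_lit 0) (XT.nd (nat_lit 78) (nat_lit 532) (nat_lit 0) (XT.lf (nat_lit 0) (nat_lit 9444529281) (nat_lit 532) (nat_lit 2612642992) (nat_lit 608) (nat_lit 3870813086) (nat_lit 251) (nat_lit 5) (nat_lit 258) (nat_lit 5) (nat_lit 259) (nat_lit 5) (nat_lit 479) (nat_lit 410) (nat_lit 251)) (XT.lf (nat_lit 0) (nat_lit 3422205564) (nat_lit 532) (nat_lit 12327635648) (nat_lit 608) (nat_lit 361960345) (nat_lit 244) (nat_lit 5) (nat_lit 251) (nat_lit 5) (nat_lit 252) (nat_lit 5) (nat_lit 480) (nat_lit 410) (nat_lit 250))) (XT.nd (nat_lit 78) (nat_lit 988) (nat_lit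 0) (XT.lf (nat_lit 0) (nat_lit 3225099662) (nat_lit 608) (nat_lit 2738330228) (nat_lit 76) (nat_lit 10334441988) (nat_lit 243) (nat_lit 5) (nat_lit 251) (nat_lit 5) (nat_lit 244) (nat_lit 5) (nat_lit 481) (nat_lit 410) (nat_lit 249)) (XT.nd (nat_lit 78) (nat_lit 532) (nat_lit 0) (XT.lf (nat_lit 0) (nat_lit 6920783766) (nat_lit 532) (nat_lit 8997754728) (nat_lit 76) (nat_lit 568242669) (nat_lit 237) (nat_lit 5) (nat_lit 244) (nat_lit 5) (nat_lit 238) (nat_lit 5) (nat_lit 482) (nat_lit 410) (nat_lit 248)) (XT.lf (nat_lit 0) (nat_lit 1240524806) (nat_lit 532) (nat_lit 9505323521) (nat_lit 608) (nat_lit 5932510972) (nat_lit 230) (nat_lit 5) (nat_lit 237) (nat_lit 5) (nat_lit 238) (nat_lit 5) (nat_lit 483) (nat_lit 410) (nat_lit 247))))) (XT.nd (nat_lit 156) (nat_lit 912) (nat_lit 0) (XT.nd (nat_lit 78) (nat_lit 532) (nat_lit 0) (XT.lf (nat_lit 0) (nat_lit 11790557875) (nat_lit 532) (nat_lit 2906768351) (nat_lit 608) (nat_lit 2175444532) (nat_lit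 230) (nat_lit 5) (nat_lit 237) (nat_lit 5) (nat_lit 238) (nat_lit 5) (nat_lit 484) (nat_lit 410) (nat_lit 246)) (XT.lf (nat_lit 0) (nat_lit 1685698035) (nat_lit 532) (nat_lit 11568015184) (nat_lit 76) (nat_lit 3816128819) (nat_lit 223) (nat_lit 5) (nat_lit 230) (nat_lit 5) (nat_lit 224) (nat_lit 5) (nat_lit 485) (nat_lit 410) (nat_lit 245))) (XT.nd (nat_lit 78) (nat_lit 912) (nat_lit 0) (XT.lf (nat_lit 0) (nat_lit 5638289165) (nat_lit 532) (nat_lit 952517725) (nat_lit 76) (nat_lit 10678893161) (nat_lit 223) (nat_lit 5) (nat_lit 230) (nat_lit 5) (nat_lit 224) (nat_lit 5) (nat_lit 486) (nat_lit 410) (nat_lit 244)) (XT.nd (nat_lit 78) (nat_lit 456) (nat_lit 0) (XT.lf (nat_lit 0) (nat_lit 9726486794) (nat_lit 532) (nat_lit 7482467336) (nat_lit 76) (nat_lit 263470003) (nat_lit 217) (nat_lit 5) (nat_lit 224) (nat_lit 5) (nat_lit 218) (nat_lit 5) (nat_lit 487) (nat_lit 410) (nat_lit 243)) (XT.lf (nat_lit 0) (nat_lit 3472285805) (nat_lit 456)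 (nat_lit 10486810561) (nat_lit 532) (nat_lit 3718853368) (nat_lit 211) (nat_lit 5) (nat_lit 217) (nat_lit 5) (nat_lit 218) (nat_lit 5) (nat_lit 488) (nat_lit 410) (nat_lit 242)))))) (XT.nd (nat_lit 390) (nat_lit 1672) (nat_lit 0) (XT.nd (nat_lit 156) (nat_lit 836) (nat_lit 0) (XT.nd (nat_lit 78) (nat_lit 456) (nat_lit 0) (XT.lf (nat_lit 0) (nat_lit 424274483) (nat_lit 532) (nat_lit 3156594411) (nat_lit 76) (nat_lit 14305854451) (nat_lit 210) (nat_lit 5) (nat_lit 217) (nat_lit 5) (nat_lit 211) (nat_lit 5) (nat_lit 489) (nat_lit 410) (nat_lit 241)) (XT.lf (nat_lit 0) (nat_lit 4666859048) (nat_lit 532) (nat_lit 9939577738) (nat_lit 76) (nat_lit 3491416216) (nat_lit 204) (nat_lit 5) (nat_lit 211) (nat_lit 5) (nat_lit 205) (nat_lit 5) (nat_lit 490) (nat_lit 410) (nat_lit 240))) (XT.nd (nat_lit 78) (nat_lit 456) (nat_lit 0) (XT.lf (nat_lit 0) (nat_lit 1409585506) (nat_lit 380) (nat_lit 7629218638) (nat_lit 456) (nat_lit 9273510933) (nat_lit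 199) (nat_lit 5) (nat_lit 204) (nat_lit 5) (nat_lit 205) (nat_lit 5) (nat_lit 491) (nat_lit 410) (nat_lit 239)) (XT.nd (nat_lit 78) (nat_lit 456) (nat_lit 0) (XT.lf (nat_lit 0) (nat_lit 13106064964) (nat_lit 380) (nat_lit 449239107) (nat_lit 456) (nat_lit 4974620004) (nat_lit 199) (nat_lit 5) (nat_lit 204) (nat_lit 5) (nat_lit 205) (nat_lit 5) (nat_lit 492) (nat_lit 410) (nat_lit 238)) (XT.lf (nat_lit 0) (nat_lit 6308416460) (nat_lit 456) (nat_lit 11929882123) (nat_lit 532) (nat_lit 512063377) (nat_lit 193) (nat_lit 5) (nat_lit 199) (nat_lit 5) (nat_lit 200) (nat_lit 5) (nat_lit 493) (nat_lit 410) (nat_lit 237))))) (XT.nd (nat_lit 234) (nat_lit 836) (nat_lit 0) (XT.nd (nat_lit 78) (nat_lit 760) (nat_lit 0) (XT.lf (nat_lit 0) (nat_lit 4016979824) (nat_lit 532) (nat_lit 669372599) (nat_lit 76) (nat_lit 14287727258) (nat_lit 192) (nat_lit 5) (nat_lit 199) (nat_lit 5) (nat_lit 193) (nat_lit 5) (nat_lit 494) (nat_lit 410) (nat_lit 236)) (XT.nd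 (nat_lit 78) (nat_lit 380) (nat_lit 0) (XT.lf (nat_lit 0) (nat_lit 8713052084) (nat_lit 456) (nat_lit 7747238572) (nat_lit 76) (nat_lit 2740247312) (nat_lit 187) (nat_lit 5) (nat_lit 193) (nat_lit 5) (nat_lit 188) (nat_lit 5) (nat_lit 495) (nat_lit 410) (nat_lit 235)) (XT.lf (nat_lit 0) (nat_lit 4408734047) (nat_lit 380) (nat_lit 9149340670) (nat_lit 456) (nat_lit 5872350124) (nat_lit 182) (nat_lit 5) (nat_lit 187) (nat_lit 5) (nat_lit 188) (nat_lit 5) (nat_lit 496) (nat_lit 410) (nat_lit 234)))) (XT.nd (nat_lit 78) (nat_lit 836) (nat_lit 0) (XT.lf (nat_lit 0) (nat_lit 16898849774) (nat_lit 380) (nat_lit 1644072161) (nat_lit 456) (nat_lit 1121129035) (nat_lit 182) (nat_lit 5) (nat_lit 187) (nat_lit 5) (nat_lit 188) (nat_lit 5) (nat_lit 497) (nat_lit 410) (nat_lit 233)) (XT.nd (nat_lit 78) (nat_lit 380) (nat_lit 0) (XT.lf (nat_lit 0) (nat_lit 3770701415) (nat_lit 456) (nat_lit 10113066904) (nat_lit 76) (nat_lit 6016208773) (nat_lit 176)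 (nat_lit 5) (nat_lit 182) (nat_lit 5) (nat_lit 177) (nat_lit 5) (nat_lit 498) (nat_lit 410) (nat_lit 232)) (XT.lf (nat_lit 0) (nat_lit 2487594848) (nat_lit 380) (nat_lit 6294602969) (nat_lit 456) (nat_lit 11357538880) (nat_lit 171) (nat_lit 5) (nat_lit 176) (nat_lit 5) (nat_lit 177) (nat_lit 5) (nat_lit 499) (nat_lit 410) (nat_lit 231))))))) (XT.nd (nat_lit 53118) (nat_lit 0) (nat_lit 30552) (XT.nd (nat_lit 52728) (nat_lit 0) (nat_lit 31920) (XT.nd (nat_lit 52494) (nat_lit 0) (nat_lit 33364) (XT.nd (nat_lit 52416) (nat_lit 0) (nat_lit 33364) (XT.lf (nat_lit 0) (nat_lit 13962789897) (nat_lit 456) (nat_lit 4929362610) (nat_lit 76) (nat_lit 1490761674) (nat_lit 171) (nat_lit 5) (nat_lit 177) (nat_lit 5) (nat_lit 172) (nat_lit 5) (nat_lit 500) (nat_lit 410) (nat_lit 230)) (XT.lf (nat_lit 0) (nat_lit 785599344) (nat_lit 0) (nat_lit 785599344) (nat_lit 1444) (nat_lit 2564375966) (nat_lit 610) (nat_lit 5) (nat_lit 610) (nat_lit 3) (nat_lit 629)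 (nat_lit 3) (nat_lit 411) (nat_lit 411) (nat_lit 318))) (XT.nd (nat_lit 78) (nat_lit 0) (nat_lit 0) (XT.lf (nat_lit 0) (nat_lit 4303761242) (nat_lit 1444) (nat_lit 2566567972) (nat_lit 1520) (nat_lit 1460932790) (nat_lit 610) (nat_lit 5) (nat_lit 629) (nat_lit 3) (nat_lit 630) (nat_lit 5) (nat_lit 412) (nat_lit 411) (nat_lit 317)) (XT.nd (nat_lit 78) (nat_lit 0) (nat_lit 0) (XT.lf (nat_lit 76) (nat_lit 1645278726) (nat_lit 0) (nat_lit 3834869967) (nat_lit 1520) (nat_lit 2912592334) (nat_lit 611) (nat_lit 5) (nat_lit 610) (nat_lit 5) (nat_lit 630) (nat_lit 5) (nat_lit 413) (nat_lit 411) (nat_lit 316)) (XT.lf (nat_lit 76) (nat_lit 5960877582) (nat_lit 0) (nat_lit 707593273) (nat_lit 1520) (nat_lit 1787210636) (nat_lit 611) (nat_lit 5) (nat_lit 610) (nat_lit 5) (nat_lit 630) (nat_lit 5) (nat_lit 414) (nat_lit 411) (nat_lit 315))))) (XT.nd (nat_lit 156) (nat_lit 0) (nat_lit 76) (XT.nd (nat_lit 78) (nat_lit 1520) (nat_lit 0) (XT.lf (nat_lit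 76) (nat_lit 1835233818) (nat_lit 0) (nat_lit 6045192628) (nat_lit 1520) (nat_lit 639456980) (nat_lit 612) (nat_lit 5) (nat_lit 611) (nat_lit 5) (nat_lit 631) (nat_lit 5) (nat_lit 415) (nat_lit 411) (nat_lit 314)) (XT.lf (nat_lit 0) (nat_lit 517925731) (nat_lit 1520) (nat_lit 2323485607) (nat_lit 1596) (nat_lit 5744016246) (nat_lit 591) (nat_lit 5) (nat_lit 611) (nat_lit 5) (nat_lit 612) (nat_lit 5) (nat_lit 416) (nat_lit 411) (nat_lit 313))) (XT.nd (nat_lit 78) (nat_lit 0) (nat_lit 0) (XT.lf (nat_lit 0) (nat_lit 1679366011) (nat_lit 1520) (nat_lit 6522373796) (nat_lit 1596) (nat_lit 450668837) (nat_lit 592) (nat_lit 5) (nat_lit 612) (nat_lit 5) (nat_lit 613) (nat_lit 5) (nat_lit 417) (nat_lit 411) (nat_lit 312)) (XT.nd (nat_lit 78) (nat_lit 0) (nat_lit 0) (XT.lf (nat_lit 0) (nat_lit 2871707530) (nat_lit 1520) (nat_lit 2051310103) (nat_lit 1596) (nat_lit 3797558244) (nat_lit 592) (nat_lit 5) (nat_lit 612) (nat_lit 5) (nat_lit 613) (nat_lit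 5) (nat_lit 418) (nat_lit 411) (nat_lit 311)) (XT.lf (nat_lit 76) (nat_lit 2526533118) (nat_lit 0) (nat_lit 1551453036) (nat_lit 1596) (nat_lit 4712318496) (nat_lit 593) (nat_lit 5) (nat_lit 592) (nat_lit 5) (nat_lit 613) (nat_lit 5) (nat_lit 419) (nat_lit 411) (nat_lit 310)))))) (XT.nd (nat_lit 390) (nat_lit 0) (nat_lit 76) (XT.nd (nat_lit 156) (nat_lit 1520) (nat_lit 0) (XT.nd (nat_lit 78) (nat_lit 0) (nat_lit 0) (XT.lf (nat_lit 0) (nat_lit 5308668990) (nat_lit 1520) (nat_lit 1666018041) (nat_lit 1596) (nat_lit 1886735396) (nat_lit 593) (nat_lit 5) (nat_lit 613) (nat_lit 5) (nat_lit 614) (nat_lit 5) (nat_lit 420) (nat_lit 411) (nat_lit 309)) (XT.lf (nat_lit 76) (nat_lit 3037311411) (nat_lit 0) (nat_lit 3531322290) (nat_lit 1596) (nat_lit 2365235491) (nat_lit 594) (nat_lit 5) (nat_lit 593) (nat_lit 5) (nat_lit 614) (nat_lit 5) (nat_lit 421) (nat_lit 411) (nat_lit 308))) (XT.nd (nat_lit 78) (nat_lit 1596) (nat_lit 0) (XT.lf (nat_lit 0)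 (nat_lit 7840053976) (nat_lit 1520) (nat_lit 1166592956) (nat_lit 1596) (nat_lit 1392837) (nat_lit 594) (nat_lit 5) (nat_lit 614) (nat_lit 5) (nat_lit 615) (nat_lit 5) (nat_lit 422) (nat_lit 411) (nat_lit 307)) (XT.nd (nat_lit 78) (nat_lit 0) (nat_lit 0) (XT.lf (nat_lit 0) (nat_lit 75468379) (nat_lit 1596) (nat_lit 5417131977) (nat_lit 1672) (nat_lit 3590627344) (nat_lit 573) (nat_lit 5) (nat_lit 594) (nat_lit 5) (nat_lit 595) (nat_lit 5) (nat_lit 423) (nat_lit 411) (nat_lit 306)) (XT.lf (nat_lit 0) (nat_lit 1311876743) (nat_lit 1596) (nat_lit 572584416) (nat_lit 1672) (nat_lit 7275629336) (nat_lit 573) (nat_lit 5) (nat_lit 594) (nat_lit 5) (nat_lit 595) (nat_lit 5) (nat_lit 424) (nat_lit 411) (nat_lit 305))))) (XT.nd (nat_lit 234) (nat_lit 0) (nat_lit 76) (XT.nd (nat_lit 78) (nat_lit 0) (nat_lit 0) (XT.lf (nat_lit 0) (nat_lit 2589853767) (nat_lit 1596) (nat_lit 4839556739) (nat_lit 1672) (nat_lit 1808743230) (nat_lit 574) (nat_lit 5)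 (nat_lit 595) (nat_lit 5) (nat_lit 596) (nat_lit 5) (nat_lit 425) (nat_lit 411) (nat_lit 304)) (XT.nd (nat_lit 78) (nat_lit 0) (nat_lit 76) (XT.lf (nat_lit 76) (nat_lit 132112305) (nat_lit 0) (nat_lit 3755197072) (nat_lit 1672) (nat_lit 5430590482) (nat_lit 575) (nat_lit 5) (nat_lit 574) (nat_lit 5) (nat_lit 596) (nat_lit 5) (nat_lit 426) (nat_lit 411) (nat_lit 303)) (XT.lf (nat_lit 0) (nat_lit 5220464320) (nat_lit 1596) (nat_lit 4146713042) (nat_lit 1672) (nat_lit 31868539) (nat_lit 575) (nat_lit 5) (nat_lit 596) (nat_lit 5) (nat_lit 597) (nat_lit 5) (nat_lit 427) (nat_lit 411) (nat_lit 302)))) (XT.nd (nat_lit 78) (nat_lit 0) (nat_lit 0) (XT.lf (nat_lit 76) (nat_lit 964480827) (nat_lit 0) (nat_lit 5624489169) (nat_lit 1672) (nat_lit 2892671116) (nat_lit 576) (nat_lit 5) (nat_lit 575) (nat_lit 5) (nat_lit 597) (nat_lit 5) (nat_lit 428) (nat_lit 411) (nat_lit 301)) (XT.nd (nat_lit 78) (nat_lit 0) (nat_lit 76) (XT.lf (nat_lit 76) (nat_lit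 6217773918) (nat_lit 0) (nat_lit 1772789235) (nat_lit 1672) (nat_lit 1575210726) (nat_lit 576) (nat_lit 5) (nat_lit 575) (nat_lit 5) (nat_lit 597) (nat_lit 5) (nat_lit 429) (nat_lit 411) (nat_lit 300)) (XT.lf (nat_lit 76) (nat_lit 1919232390) (nat_lit 0) (nat_lit 7505775550) (nat_lit 1672) (nat_lit 226484967) (nat_lit 577) (nat_lit 5) (nat_lit 576) (nat_lit 5) (nat_lit 598) (nat_lit 5) (nat_lit 430) (nat_lit 411) (nat_lit 299))))))))
noncomputable def xc184 : XT := (XT.nd (nat_lit 1560) (nat_lit 9272) (nat_lit 0) (XT.nd (nat_lit 780) (nat_lit 5700) (nat_lit 0) (XT.nd (nat_lit 390) (nat_lit 5168) (nat_lit 0) (XT.nd (nat_lit 156) (nat_lit 0) (nat_lit 76) (XT.nd (nat_lit 78) (nat_lit 0) (nat_lit 76) (XT.lf (nat_lit 0) (nat_lit 1147036882) (nat_lit 1672) (nat_lit 2437296354) (nat_lit 1748) (nat_lit 6154185974) (nat_lit 554) (nat_lit 5) (nat_lit 576) (nat_lit 5) (nat_lit 577) (nat_lit 5) (nat_lit 431) (nat_lit 411) (nat_lit 298)) (XT.lf (nat_lit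 0) (nat_lit 2546204588) (nat_lit 1672) (nat_lit 6845276143) (nat_lit 1748) (nat_lit 435751206) (nat_lit 555) (nat_lit 5) (nat_lit 577) (nat_lit 5) (nat_lit 578) (nat_lit 5) (nat_lit 432) (nat_lit 411) (nat_lit 297))) (XT.nd (nat_lit 78) (nat_lit 0) (nat_lit 0) (XT.lf (nat_lit 0) (nat_lit 3992851906) (nat_lit 1672) (nat_lit 1415277246) (nat_lit 1748) (nat_lit 4509199842) (nat_lit 555) (nat_lit 5) (nat_lit 577) (nat_lit 5) (nat_lit 578) (nat_lit 5) (nat_lit 433) (nat_lit 411) (nat_lit 296)) (XT.nd (nat_lit 78) (nat_lit 0) (nat_lit 76) (XT.lf (nat_lit 76) (nat_lit 4161557083) (nat_lit 0) (nat_lit 1313595750) (nat_lit 1748) (nat_lit 4533940746) (nat_lit 556) (nat_lit 5) (nat_lit 555) (nat_lit 5) (nat_lit 578) (nat_lit 5) (nat_lit 434) (nat_lit 411) (nat_lit 295)) (XT.lf (nat_lit 0) (nat_lit 6995265460) (nat_lit 1672) (nat_lit 268702421) (nat_lit 76) (nat_lit 2838562261) (nat_lit 556) (nat_lit 5) (nat_lit 578) (nat_lit 5) (nat_lit 557) (nat_lit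 5) (nat_lit 435) (nat_lit 411) (nat_lit 294))))) (XT.nd (nat_lit 156) (nat_lit 1900) (nat_lit 0) (XT.nd (nat_lit 78) (nat_lit 1748) (nat_lit 0) (XT.lf (nat_lit 0) (nat_lit 5468393491) (nat_lit 1672) (nat_lit 3102000546) (nat_lit 1748) (nat_lit 1626949125) (nat_lit 534) (nat_lit 5) (nat_lit 556) (nat_lit 5) (nat_lit 557) (nat_lit 5) (nat_lit 436) (nat_lit 411) (nat_lit 293)) (XT.lf (nat_lit 0) (nat_lit 1019156006) (nat_lit 1748) (nat_lit 9154432482) (nat_lit 1824) (nat_lit 120532688) (nat_lit 511) (nat_lit 5) (nat_lit 534) (nat_lit 5) (nat_lit 535) (nat_lit 5) (nat_lit 437) (nat_lit 411) (nat_lit 292))) (XT.nd (nat_lit 78) (nat_lit 1824) (nat_lit 0) (XT.lf (nat_lit 0) (nat_lit 1430781524) (nat_lit 1824) (nat_lit 3492599317) (nat_lit 76) (nat_lit 5468603222) (nat_lit 510) (nat_lit 5) (nat_lit 534) (nat_lit 5) (nat_lit 511) (nat_lit 5) (nat_lit 438) (nat_lit 411) (nat_lit 291)) (XT.nd (nat_lit 78) (nat_lit 0) (nat_lit 0) (XT.lf (nat_lit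 0) (nat_lit 2419903781) (nat_lit 1824) (nat_lit 588546604) (nat_lit 1900) (nat_lit 7483399043) (nat_lit 486) (nat_lit 5) (nat_lit 510) (nat_lit 5) (nat_lit 511) (nat_lit 5) (nat_lit 439) (nat_lit 411) (nat_lit 290)) (XT.lf (nat_lit 0) (nat_lit 4647656494) (nat_lit 1900) (nat_lit 2137010148) (nat_lit 76) (nat_lit 3808445780) (nat_lit 486) (nat_lit 5) (nat_lit 511) (nat_lit 5) (nat_lit 487) (nat_lit 5) (nat_lit 440) (nat_lit 411) (nat_lit 289)))))) (XT.nd (nat_lit 390) (nat_lit 2660) (nat_lit 0) (XT.nd (nat_lit 156) (nat_lit 1900) (nat_lit 0) (XT.nd (nat_lit 78) (nat_lit 0) (nat_lit 0) (XT.lf (nat_lit 0) (nat_lit 3948109164) (nat_lit 1140) (nat_lit 2382936808) (nat_lit 1216) (nat_lit 4365126719) (nat_lit 471) (nat_lit 5) (nat_lit 486) (nat_lit 5) (nat_lit 487) (nat_lit 5) (nat_lit 441) (nat_lit 411) (nat_lit 288)) (XT.lf (nat_lit 0) (nat_lit 8058345551) (nat_lit 1216) (nat_lit 647540162) (nat_lit 76) (nat_lit 2095203605) (nat_lit 471) (nat_lit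 5) (nat_lit 487) (nat_lit 5) (nat_lit 472) (nat_lit 5) (nat_lit 442) (nat_lit 411) (nat_lit 287))) (XT.nd (nat_lit 78) (nat_lit 988) (nat_lit 0) (XT.lf (nat_lit 0) (nat_lit 5616543718) (nat_lit 912) (nat_lit 4238373157) (nat_lit 988) (nat_lit 1052492889) (nat_lit 459) (nat_lit 5) (nat_lit 471) (nat_lit 5) (nat_lit 472) (nat_lit 5) (nat_lit 443) (nat_lit 411) (nat_lit 286)) (XT.nd (nat_lit 78) (nat_lit 0) (nat_lit 0) (XT.lf (nat_lit 0) (nat_lit 658340727) (nat_lit 988) (nat_lit 10027004071) (nat_lit 76) (nat_lit 330512909) (nat_lit 446) (nat_lit 5) (nat_lit 459) (nat_lit 5) (nat_lit 447) (nat_lit 5) (nat_lit 444) (nat_lit 411) (nat_lit 285)) (XT.lf (nat_lit 0) (nat_lit 2435962091) (nat_lit 988) (nat_lit 3711846665) (nat_lit 76) (nat_lit 4977593433) (nat_lit 446) (nat_lit 5) (nat_lit 459) (nat_lit 5) (nat_lit 447) (nat_lit 5) (nat_lit 445) (nat_lit 411) (nat_lit 284))))) (XT.nd (nat_lit 156) (nat_lit 1824) (nat_lit 0) (XT.nd (nat_lit 78)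 (nat_lit 0) (nat_lit 0) (XT.lf (nat_lit 0) (nat_lit 2749303891) (nat_lit 836) (nat_lit 1500861177) (nat_lit 912) (nat_lit 6986951909) (nat_lit 435) (nat_lit 5) (nat_lit 446) (nat_lit 5) (nat_lit 447) (nat_lit 5) (nat_lit 446) (nat_lit 411) (nat_lit 283)) (XT.lf (nat_lit 0) (nat_lit 6130160734) (nat_lit 912) (nat_lit 1998364289) (nat_lit 76) (nat_lit 3221950866) (nat_lit 435) (nat_lit 5) (nat_lit 447) (nat_lit 5) (nat_lit 436) (nat_lit 5) (nat_lit 447) (nat_lit 411) (nat_lit 282))) (XT.nd (nat_lit 78) (nat_lit 912) (nat_lit 0) (XT.lf (nat_lit 0) (nat_lit 4655726008) (nat_lit 912) (nat_lit 3415928554) (nat_lit 988) (nat_lit 3393969451) (nat_lit 423) (nat_lit 5) (nat_lit 435) (nat_lit 5) (nat_lit 436) (nat_lit 5) (nat_lit 448) (nat_lit 411) (nat_lit 281)) (XT.nd (nat_lit 78) (nat_lit 912) (nat_lit 0) (XT.lf (nat_lit 0) (nat_lit 10058452020) (nat_lit 988) (nat_lit 138422081) (nat_lit 76) (nat_lit 1386071524) (nat_lit 423) (nat_lit 5) (nat_lit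 436) (nat_lit 5) (nat_lit 424) (nat_lit 5) (nat_lit 449) (nat_lit 411) (nat_lit 280)) (XT.lf (nat_lit 0) (nat_lit 428175479) (nat_lit 912) (nat_lit 4988639820) (nat_lit 76) (nat_lit 6284732346) (nat_lit 411) (nat_lit 5) (nat_lit 423) (nat_lit 5) (nat_lit 412) (nat_lit 5) (nat_lit 450) (nat_lit 411) (nat_lit 279))))))) (XT.nd (nat_lit 780) (nat_lit 4636) (nat_lit 0) (XT.nd (nat_lit 390) (nat_lit 2280) (nat_lit 0) (XT.nd (nat_lit 156) (nat_lit 1520) (nat_lit 0) (XT.nd (nat_lit 78) (nat_lit 0) (nat_lit 0) (XT.lf (nat_lit 0) (nat_lit 1878917332) (nat_lit 836) (nat_lit 518081387) (nat_lit 912) (nat_lit 9425371173) (nat_lit 400) (nat_lit 5) (nat_lit 411) (nat_lit 5) (nat_lit 412) (nat_lit 5) (nat_lit 451) (nat_lit 411) (nat_lit 278)) (XT.lf (nat_lit 0) (nat_lit 4452532322) (nat_lit 912) (nat_lit 3039248572) (nat_lit 76) (nat_lit 4452881013) (nat_lit 400) (nat_lit 5) (nat_lit 412) (nat_lit 5) (nat_lit 401) (nat_lit 5) (nat_lit 452) (nat_lit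 411) (nat_lit 277))) (XT.nd (nat_lit 78) (nat_lit 760) (nat_lit 0) (XT.lf (nat_lit 0) (nat_lit 4036411906) (nat_lit 760) (nat_lit 2527263128) (nat_lit 836) (nat_lit 5505434759) (nat_lit 390) (nat_lit 5) (nat_lit 400) (nat_lit 5) (nat_lit 401) (nat_lit 5) (nat_lit 453) (nat_lit 411) (nat_lit 276)) (XT.nd (nat_lit 78) (nat_lit 760) (nat_lit 0) (XT.lf (nat_lit 0) (nat_lit 8739085694) (nat_lit 836) (nat_lit 933779945) (nat_lit 76) (nat_lit 2522740097) (nat_lit 390) (nat_lit 5) (nat_lit 401) (nat_lit 5) (nat_lit 391) (nat_lit 5) (nat_lit 454) (nat_lit 411) (nat_lit 275)) (XT.lf (nat_lit 0) (nat_lit 6357762102) (nat_lit 760) (nat_lit 4643597462) (nat_lit 836) (nat_lit 1322404933) (nat_lit 380) (nat_lit 5) (nat_lit 390) (nat_lit 5) (nat_lit 391) (nat_lit 5) (nat_lit 455) (nat_lit 411) (nat_lit 274))))) (XT.nd (nat_lit 156) (nat_lit 1444) (nat_lit 0) (XT.nd (nat_lit 78) (nat_lit 0) (nat_lit 0) (XT.lf (nat_lit 0) (nat_lit 846967679) (nat_lit 836)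 (nat_lit 11108197289) (nat_lit 76) (nat_lit 499134905) (nat_lit 369) (nat_lit 5) (nat_lit 380) (nat_lit 5) (nat_lit 370) (nat_lit 5) (nat_lit 456) (nat_lit 411) (nat_lit 273)) (XT.lf (nat_lit 0) (nat_lit 3098689098) (nat_lit 836) (nat_lit 3757360553) (nat_lit 76) (nat_lit 5730088117) (nat_lit 369) (nat_lit 5) (nat_lit 380) (nat_lit 5) (nat_lit 370) (nat_lit 5) (nat_lit 457) (nat_lit 411) (nat_lit 272))) (XT.nd (nat_lit 78) (nat_lit 684) (nat_lit 0) (XT.lf (nat_lit 0) (nat_lit 3774048465) (nat_lit 760) (nat_lit 1631781826) (nat_lit 836) (nat_lit 7314574422) (nat_lit 359) (nat_lit 5) (nat_lit 369) (nat_lit 5) (nat_lit 370) (nat_lit 5) (nat_lit 458) (nat_lit 411) (nat_lit 271)) (XT.nd (nat_lit 78) (nat_lit 684) (nat_lit 0) (XT.lf (nat_lit 0) (nat_lit 7794541783) (nat_lit 836) (nat_lit 1390108708) (nat_lit 76) (nat_lit 3671997958) (nat_lit 359) (nat_lit 5) (nat_lit 370) (nat_lit 5) (nat_lit 360) (nat_lit 5) (nat_lit 459) (nat_lit 411) (nat_lit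 270)) (XT.lf (nat_lit 0) (nat_lit 6374269230) (nat_lit 684) (nat_lit 3895267855) (nat_lit 760) (nat_lit 2725309782) (nat_lit 350) (nat_lit 5) (nat_lit 359) (nat_lit 5) (nat_lit 360) (nat_lit 5) (nat_lit 460) (nat_lit 411) (nat_lit 269)))))) (XT.nd (nat_lit 390) (nat_lit 2508) (nat_lit 0) (XT.nd (nat_lit 156) (nat_lit 1368) (nat_lit 0) (XT.nd (nat_lit 78) (nat_lit 76) (nat_lit 0) (XT.lf (nat_lit 0) (nat_lit 1166716763) (nat_lit 684) (nat_lit 11640488615) (nat_lit 760) (nat_lit 328340414) (nat_lit 341) (nat_lit 5) (nat_lit 350) (nat_lit 5) (nat_lit 351) (nat_lit 5) (nat_lit 461) (nat_lit 411) (nat_lit 268)) (XT.lf (nat_lit 0) (nat_lit 2145870871) (nat_lit 760) (nat_lit 4134516374) (nat_lit 76) (nat_lit 6997255374) (nat_lit 340) (nat_lit 5) (nat_lit 350) (nat_lit 5) (nat_lit 341) (nat_lit 5) (nat_lit 462) (nat_lit 411) (nat_lit 267))) (XT.nd (nat_lit 78) (nat_lit 684) (nat_lit 0) (XT.lf (nat_lit 0) (nat_lit 3889621087) (nat_lit 684) (nat_lit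 787614226) (nat_lit 760) (nat_lit 8745061352) (nat_lit 331) (nat_lit 5) (nat_lit 340) (nat_lit 5) (nat_lit 341) (nat_lit 5) (nat_lit 463) (nat_lit 411) (nat_lit 266)) (XT.nd (nat_lit 78) (nat_lit 684) (nat_lit 0) (XT.lf (nat_lit 0) (nat_lit 7305365919) (nat_lit 760) (nat_lit 1486290022) (nat_lit 76) (nat_lit 4777265076) (nat_lit 331) (nat_lit 5) (nat_lit 341) (nat_lit 5) (nat_lit 332) (nat_lit 5) (nat_lit 464) (nat_lit 411) (nat_lit 265)) (XT.lf (nat_lit 0) (nat_lit 6789320145) (nat_lit 684) (nat_lit 3233239754) (nat_lit 760) (nat_lit 3695187941) (nat_lit 322) (nat_lit 5) (nat_lit 331) (nat_lit 5) (nat_lit 332) (nat_lit 5) (nat_lit 465) (nat_lit 411) (nat_lit 264))))) (XT.nd (nat_lit 234) (nat_lit 1216) (nat_lit 0) (XT.nd (nat_lit 78) (nat_lit 684) (nat_lit 0) (XT.lf (nat_lit 0) (nat_lit 1367627171) (nat_lit 608) (nat_lit 11448545006) (nat_lit 684) (nat_lit 1052937534) (nat_lit 314) (nat_lit 5) (nat_lit 322) (nat_lit 5) (nat_lit 323)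 (nat_lit 5) (nat_lit 466) (nat_lit 411) (nat_lit 263)) (XT.nd (nat_lit 78) (nat_lit 608) (nat_lit 0) (XT.lf (nat_lit 0) (nat_lit 1676235224) (nat_lit 684) (nat_lit 4147158540) (nat_lit 76) (nat_lit 8198779525) (nat_lit 313) (nat_lit 5) (nat_lit 322) (nat_lit 5) (nat_lit 314) (nat_lit 5) (nat_lit 467) (nat_lit 411) (nat_lit 262)) (XT.lf (nat_lit 0) (nat_lit 4409693831) (nat_lit 608) (nat_lit 52490706) (nat_lit 684) (nat_lit 9715648565) (nat_lit 305) (nat_lit 5) (nat_lit 313) (nat_lit 5) (nat_lit 314) (nat_lit 5) (nat_lit 468) (nat_lit 411) (nat_lit 261)))) (XT.nd (nat_lit 78) (nat_lit 1216) (nat_lit 0) (XT.lf (nat_lit 0) (nat_lit 7357514508) (nat_lit 684) (nat_lit 1195753344) (nat_lit 76) (nat_lit 5782265025) (nat_lit 305) (nat_lit 5) (nat_lit 314) (nat_lit 5) (nat_lit 306) (nat_lit 5) (nat_lit 469) (nat_lit 411) (nat_lit 260)) (XT.nd (nat_lit 78) (nat_lit 608) (nat_lit 0) (XT.lf (nat_lit 0) (nat_lit 7632598820) (nat_lit 608) (nat_lit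 2716066221) (nat_lit 684) (nat_lit 4146963328) (nat_lit 297) (nat_lit 5) (nat_lit 305) (nat_lit 5) (nat_lit 306) (nat_lit 5) (nat_lit 470) (nat_lit 411) (nat_lit 259)) (XT.lf (nat_lit 0) (nat_lit 1984561512) (nat_lit 608) (nat_lit 11445187837) (nat_lit 684) (nat_lit 1228574206) (nat_lit 289) (nat_lit 5) (nat_lit 297) (nat_lit 5) (nat_lit 298) (nat_lit 5) (nat_lit 471) (nat_lit 411) (nat_lit 258))))))))
noncomputable def xc185 : XT := (XT.nd (nat_lit 1560) (nat_lit 2508) (nat_lit 0) (XT.nd (nat_lit 780) (nat_lit 2964) (nat_lit 0) (XT.nd (nat_lit 390) (nat_lit 1748) (nat_lit 0) (XT.nd (nat_lit 156) (nat_lit 1140) (nat_lit 0) (XT.nd (nat_lit 78) (nat_lit 532) (nat_lit 0) (XT.lf (nat_lit 0) (nat_lit 1777783692) (nat_lit 684) (nat_lit 3766267851) (nat_lit 76) (nat_lit 9278943521) (nat_lit 288) (nat_lit 5) (nat_lit 297) (nat_lit 5) (nat_lit 289) (nat_lit 5) (nat_lit 472) (nat_lit 411) (nat_lit 257)) (XT.lf (nat_lit 0) (nat_lit 4854436712) (nat_lit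 608) (nat_lit 9627162021) (nat_lit 76) (nat_lit 508666481) (nat_lit 281) (nat_lit 5) (nat_lit 289) (nat_lit 5) (nat_lit 282) (nat_lit 5) (nat_lit 473) (nat_lit 411) (nat_lit 256))) (XT.nd (nat_lit 78) (nat_lit 1140) (nat_lit 0) (XT.lf (nat_lit 0) (nat_lit 8043299797) (nat_lit 608) (nat_lit 486356716) (nat_lit 76) (nat_lit 6630210713) (nat_lit 281) (nat_lit 5) (nat_lit 289) (nat_lit 5) (nat_lit 282) (nat_lit 5) (nat_lit 474) (nat_lit 411) (nat_lit 255)) (XT.nd (nat_lit 78) (nat_lit 532) (nat_lit 0) (XT.lf (nat_lit 0) (nat_lit 8939594490) (nat_lit 608) (nat_lit 2403132936) (nat_lit 684) (nat_lit 3989198108) (nat_lit 273) (nat_lit 5) (nat_lit 281) (nat_lit 5) (nat_lit 282) (nat_lit 5) (nat_lit 475) (nat_lit 411) (nat_lit 254)) (XT.lf (nat_lit 0) (nat_lit 3053335706) (nat_lit 532) (nat_lit 11691733825) (nat_lit 608) (nat_lit 761616956) (nat_lit 266) (nat_lit 5) (nat_lit 273) (nat_lit 5) (nat_lit 274) (nat_lit 5) (nat_lit 476) (nat_lit 411)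 (nat_lit 253))))) (XT.nd (nat_lit 156) (nat_lit 1140) (nat_lit 0) (XT.nd (nat_lit 78) (nat_lit 532) (nat_lit 0) (XT.lf (nat_lit 0) (nat_lit 2545317267) (nat_lit 608) (nat_lit 2957211810) (nat_lit 76) (nat_lit 10181125197) (nat_lit 265) (nat_lit 5) (nat_lit 273) (nat_lit 5) (nat_lit 266) (nat_lit 5) (nat_lit 477) (nat_lit 411) (nat_lit 252)) (XT.lf (nat_lit 0) (nat_lit 5947015210) (nat_lit 608) (nat_lit 9070760939) (nat_lit 76) (nat_lit 845508119) (nat_lit 258) (nat_lit 5) (nat_lit 266) (nat_lit 5) (nat_lit 259) (nat_lit 5) (nat_lit 478) (nat_lit 411) (nat_lit 251))) (XT.nd (nat_lit 78) (nat_lit 608) (nat_lit 0) (XT.lf (nat_lit 0) (nat_lit 688829649) (nat_lit 532) (nat_lit 8778011742) (nat_lit 608) (nat_lit 6578663585) (nat_lit 251) (nat_lit 5) (nat_lit 258) (nat_lit 5) (nat_lit 259) (nat_lit 5) (nat_lit 479) (nat_lit 411) (nat_lit 250)) (XT.nd (nat_lit 78) (nat_lit 608) (nat_lit 0) (XT.lf (nat_lit 0) (nat_lit 10751804923) (nat_lit 532)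 (nat_lit 2355450035) (nat_lit 608) (nat_lit 3123111323) (nat_lit 251) (nat_lit 5) (nat_lit 258) (nat_lit 5) (nat_lit 259) (nat_lit 5) (nat_lit 480) (nat_lit 411) (nat_lit 249)) (XT.lf (nat_lit 0) (nat_lit 443308496) (nat_lit 608) (nat_lit 11805153673) (nat_lit 76) (nat_lit 4169470042) (nat_lit 243) (nat_lit 5) (nat_lit 251) (nat_lit 5) (nat_lit 244) (nat_lit 5) (nat_lit 481) (nat_lit 411) (nat_lit 248)))))) (XT.nd (nat_lit 390) (nat_lit 1444) (nat_lit 0) (XT.nd (nat_lit 156) (nat_lit 1064) (nat_lit 0) (XT.nd (nat_lit 78) (nat_lit 456) (nat_lit 0) (XT.lf (nat_lit 0) (nat_lit 4081430998) (nat_lit 608) (nat_lit 1679530998) (nat_lit 76) (nat_lit 10847030733) (nat_lit 243) (nat_lit 5) (nat_lit 251) (nat_lit 5) (nat_lit 244) (nat_lit 5) (nat_lit 482) (nat_lit 411) (nat_lit 247)) (XT.lf (nat_lit 0) (nat_lit 7844780694) (nat_lit 532) (nat_lit 8057895898) (nat_lit 76) (nat_lit 898128569) (nat_lit 237) (nat_lit 5) (nat_lit 244) (nat_lit 5) (nat_lit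 238) (nat_lit 5) (nat_lit 483) (nat_lit 411) (nat_lit 246))) (XT.nd (nat_lit 78) (nat_lit 532) (nat_lit 0) (XT.lf (nat_lit 0) (nat_lit 2377782030) (nat_lit 532) (nat_lit 9360383704) (nat_lit 608) (nat_lit 5258212742) (nat_lit 230) (nat_lit 5) (nat_lit 237) (nat_lit 5) (nat_lit 238) (nat_lit 5) (nat_lit 484) (nat_lit 411) (nat_lit 245)) (XT.nd (nat_lit 78) (nat_lit 532) (nat_lit 0) (XT.lf (nat_lit 0) (nat_lit 13117003079) (nat_lit 532) (nat_lit 2636426966) (nat_lit 608) (nat_lit 1441552982) (nat_lit 230) (nat_lit 5) (nat_lit 237) (nat_lit 5) (nat_lit 238) (nat_lit 5) (nat_lit 485) (nat_lit 411) (nat_lit 244)) (XT.lf (nat_lit 0) (nat_lit 2480844420) (nat_lit 532) (nat_lit 10692773425) (nat_lit 76) (nat_lit 4222392386) (nat_lit 223) (nat_lit 5) (nat_lit 230) (nat_lit 5) (nat_lit 224) (nat_lit 5) (nat_lit 486) (nat_lit 411) (nat_lit 243))))) (XT.nd (nat_lit 156) (nat_lit 988) (nat_lit 0) (XT.nd (nat_lit 78) (nat_lit 0) (nat_lit 0) (XT.lf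 (nat_lit 0) (nat_lit 114842077) (nat_lit 456) (nat_lit 6383460879) (nat_lit 532) (nat_lit 11101846136) (nat_lit 217) (nat_lit 5) (nat_lit 223) (nat_lit 5) (nat_lit 224) (nat_lit 5) (nat_lit 487) (nat_lit 411) (nat_lit 242)) (XT.lf (nat_lit 0) (nat_lit 10662079568) (nat_lit 532) (nat_lit 6541773361) (nat_lit 76) (nat_lit 603198425) (nat_lit 217) (nat_lit 5) (nat_lit 224) (nat_lit 5) (nat_lit 218) (nat_lit 5) (nat_lit 488) (nat_lit 411) (nat_lit 241))) (XT.nd (nat_lit 78) (nat_lit 532) (nat_lit 0) (XT.lf (nat_lit 0) (nat_lit 4624901531) (nat_lit 456) (nat_lit 10346941811) (nat_lit 532) (nat_lit 3044994086) (nat_lit 211) (nat_lit 5) (nat_lit 217) (nat_lit 5) (nat_lit 218) (nat_lit 5) (nat_lit 489) (nat_lit 411) (nat_lit 240)) (XT.nd (nat_lit 78) (nat_lit 456) (nat_lit 0) (XT.lf (nat_lit 0) (nat_lit 1156704184) (nat_lit 532) (nat_lit 2148174078) (nat_lit 76) (nat_lit 14925100664) (nat_lit 210) (nat_lit 5) (nat_lit 217) (nat_lit 5) (nat_lit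 211) (nat_lit 5) (nat_lit 490) (nat_lit 411) (nat_lit 239)) (XT.lf (nat_lit 0) (nat_lit 5479115333) (nat_lit 532) (nat_lit 9061791964) (nat_lit 76) (nat_lit 3904524384) (nat_lit 204) (nat_lit 5) (nat_lit 211) (nat_lit 5) (nat_lit 205) (nat_lit 5) (nat_lit 491) (nat_lit 411) (nat_lit 238))))))) (XT.nd (nat_lit 53196) (nat_lit 0) (nat_lit 30476) (XT.nd (nat_lit 390) (nat_lit 1216) (nat_lit 0) (XT.nd (nat_lit 156) (nat_lit 912) (nat_lit 0) (XT.nd (nat_lit 78) (nat_lit 0) (nat_lit 0) (XT.lf (nat_lit 0) (nat_lit 2507271799) (nat_lit 380) (nat_lit 7424074947) (nat_lit 456) (nat_lit 8732979303) (nat_lit 199) (nat_lit 5) (nat_lit 204) (nat_lit 5) (nat_lit 205) (nat_lit 5) (nat_lit 492) (nat_lit 411) (nat_lit 237)) (XT.lf (nat_lit 0) (nat_lit 14416710364) (nat_lit 380) (nat_lit 107510101) (nat_lit 456) (nat_lit 4362345886) (nat_lit 199) (nat_lit 5) (nat_lit 204) (nat_lit 5) (nat_lit 205) (nat_lit 5) (nat_lit 493) (nat_lit 411) (nat_lit 236)))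 (XT.nd (nat_lit 78) (nat_lit 380) (nat_lit 0) (XT.lf (nat_lit 0) (nat_lit 182334624) (nat_lit 532) (nat_lit 11624891793) (nat_lit 76) (nat_lit 7304254823) (nat_lit 192) (nat_lit 5) (nat_lit 199) (nat_lit 5) (nat_lit 193) (nat_lit 5) (nat_lit 494) (nat_lit 411) (nat_lit 235)) (XT.nd (nat_lit 78) (nat_lit 0) (nat_lit 0) (XT.lf (nat_lit 0) (nat_lit 363677755) (nat_lit 380) (nat_lit 4420109912) (nat_lit 456) (nat_lit 14556044243) (nat_lit 187) (nat_lit 5) (nat_lit 192) (nat_lit 5) (nat_lit 193) (nat_lit 5) (nat_lit 495) (nat_lit 411) (nat_lit 234)) (XT.lf (nat_lit 0) (nat_lit 9567045476) (nat_lit 456) (nat_lit 6856140577) (nat_lit 76) (nat_lit 3147768027) (nat_lit 187) (nat_lit 5) (nat_lit 193) (nat_lit 5) (nat_lit 188) (nat_lit 5) (nat_lit 496) (nat_lit 411) (nat_lit 233))))) (XT.nd (nat_lit 156) (nat_lit 836) (nat_lit 0) (XT.nd (nat_lit 78) (nat_lit 0) (nat_lit 0) (XT.lf (nat_lit 0) (nat_lit 5536069635) (nat_lit 380) (nat_lit 8966317764)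 (nat_lit 456) (nat_lit 5303182915) (nat_lit 182) (nat_lit 5) (nat_lit 187) (nat_lit 5) (nat_lit 188) (nat_lit 5) (nat_lit 497) (nat_lit 411) (nat_lit 232)) (XT.lf (nat_lit 0) (nat_lit 18255611971) (nat_lit 380) (nat_lit 1318120547) (nat_lit 456) (nat_lit 470400428) (nat_lit 182) (nat_lit 5) (nat_lit 187) (nat_lit 5) (nat_lit 188) (nat_lit 5) (nat_lit 498) (nat_lit 411) (nat_lit 231))) (XT.nd (nat_lit 78) (nat_lit 380) (nat_lit 0) (XT.lf (nat_lit 0) (nat_lit 4506396623) (nat_lit 456) (nat_lit 9283673032) (nat_lit 76) (nat_lit 6494701355) (nat_lit 176) (nat_lit 5) (nat_lit 182) (nat_lit 5) (nat_lit 177) (nat_lit 5) (nat_lit 499) (nat_lit 411) (nat_lit 230)) (XT.nd (nat_lit 52494) (nat_lit 0) (nat_lit 33364) (XT.lf (nat_lit 0) (nat_lit 3562214749) (nat_lit 380) (nat_lit 6049615637) (nat_lit 456) (nat_lit 10917621273) (nat_lit 171) (nat_lit 5) (nat_lit 176) (nat_lit 5) (nat_lit 177) (nat_lit 5) (nat_lit 500) (nat_lit 411) (nat_lit 229)) (XT.lf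 (nat_lit 0) (nat_lit 1357838618) (nat_lit 0) (nat_lit 1357838618) (nat_lit 1444) (nat_lit 1480347818) (nat_lit 610) (nat_lit 5) (nat_lit 610) (nat_lit 3) (nat_lit 629) (nat_lit 3) (nat_lit 412) (nat_lit 412) (nat_lit 316)))))) (XT.nd (nat_lit 390) (nat_lit 1368) (nat_lit 0) (XT.nd (nat_lit 156) (nat_lit 1520) (nat_lit 0) (XT.nd (nat_lit 78) (nat_lit 0) (nat_lit 0) (XT.lf (nat_lit 0) (nat_lit 6565211429) (nat_lit 1444) (nat_lit 1475935167) (nat_lit 1520) (nat_lit 413233148) (nat_lit 610) (nat_lit 5) (nat_lit 629) (nat_lit 3) (nat_lit 630) (nat_lit 5) (nat_lit 413) (nat_lit 412) (nat_lit 315)) (XT.lf (nat_lit 76) (nat_lit 2812635542) (nat_lit 0) (nat_lit 4917202287) (nat_lit 1520) (nat_lit 787956296) (nat_lit 611) (nat_lit 5) (nat_lit 610) (nat_lit 5) (nat_lit 630) (nat_lit 5) (nat_lit 414) (nat_lit 412) (nat_lit 314))) (XT.nd (nat_lit 78) (nat_lit 0) (nat_lit 76) (XT.lf (nat_lit 0) (nat_lit 312972078) (nat_lit 1520) (nat_lit 1392589441)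 (nat_lit 1596) (nat_lit 6877229948) (nat_lit 590) (nat_lit 5) (nat_lit 610) (nat_lit 5) (nat_lit 611) (nat_lit 5) (nat_lit 415) (nat_lit 412) (nat_lit 313)) (XT.nd (nat_lit 78) (nat_lit 0) (nat_lit 0) (XT.lf (nat_lit 0) (nat_lit 1428132548) (nat_lit 1520) (nat_lit 5633638867) (nat_lit 1596) (nat_lit 1587157888) (nat_lit 591) (nat_lit 5) (nat_lit 611) (nat_lit 5) (nat_lit 612) (nat_lit 5) (nat_lit 416) (nat_lit 412) (nat_lit 312)) (XT.lf (nat_lit 0) (nat_lit 2559484582) (nat_lit 1520) (nat_lit 1212632850) (nat_lit 1596) (nat_lit 4944394697) (nat_lit 591) (nat_lit 5) (nat_lit 611) (nat_lit 5) (nat_lit 612) (nat_lit 5) (nat_lit 417) (nat_lit 412) (nat_lit 311))))) (XT.nd (nat_lit 234) (nat_lit 1444) (nat_lit 0) (XT.nd (nat_lit 78) (nat_lit 0) (nat_lit 76) (XT.lf (nat_lit 76) (nat_lit 3325428761) (nat_lit 0) (nat_lit 383337893) (nat_lit 1596) (nat_lit 5076773897) (nat_lit 592) (nat_lit 5) (nat_lit 591) (nat_lit 5) (nat_lit 612) (nat_lit 5)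 (nat_lit 418) (nat_lit 412) (nat_lit 310)) (XT.nd (nat_lit 78) (nat_lit 0) (nat_lit 0) (XT.lf (nat_lit 0) (nat_lit 4883381327) (nat_lit 1520) (nat_lit 920573202) (nat_lit 1596) (nat_lit 3051948073) (nat_lit 592) (nat_lit 5) (nat_lit 612) (nat_lit 5) (nat_lit 613) (nat_lit 5) (nat_lit 419) (nat_lit 412) (nat_lit 309)) (XT.lf (nat_lit 76) (nat_lit 3741117916) (nat_lit 0) (nat_lit 2341906995) (nat_lit 1596) (nat_lit 2844616252) (nat_lit 593) (nat_lit 5) (nat_lit 592) (nat_lit 5) (nat_lit 613) (nat_lit 5) (nat_lit 420) (nat_lit 412) (nat_lit 308)))) (XT.nd (nat_lit 78) (nat_lit 1596) (nat_lit 0) (XT.lf (nat_lit 0) (nat_lit 7295772118) (nat_lit 1520) (nat_lit 515559572) (nat_lit 1596) (nat_lit 1189700590) (nat_lit 593) (nat_lit 5) (nat_lit 613) (nat_lit 5) (nat_lit 614) (nat_lit 5) (nat_lit 421) (nat_lit 412) (nat_lit 307)) (XT.nd (nat_lit 78) (nat_lit 1596) (nat_lit 0) (XT.lf (nat_lit 76) (nat_lit 4274048451) (nat_lit 0) (nat_lit 4277642010)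 (nat_lit 1596) (nat_lit 523822434) (nat_lit 594) (nat_lit 5) (nat_lit 593) (nat_lit 5) (nat_lit 614) (nat_lit 5) (nat_lit 422) (nat_lit 412) (nat_lit 306)) (XT.lf (nat_lit 0) (nat_lit 651668707) (nat_lit 1596) (nat_lit 4963064) (nat_lit 1672) (nat_lit 8495175703) (nat_lit 572) (nat_lit 5) (nat_lit 593) (nat_lit 5) (nat_lit 594) (nat_lit 5) (nat_lit 423) (nat_lit 412) (nat_lit 305))))))))
noncomputable def xc186 : XT := (XT.nd (nat_lit 1560) (nat_lit 9728) (nat_lit 0) (XT.nd (nat_lit 780) (nat_lit 7144) (nat_lit 0) (XT.nd (nat_lit 390) (nat_lit 1520) (nat_lit 0) (XT.nd (nat_lit 156) (nat_lit 0) (nat_lit 76) (XT.nd (nat_lit 78) (nat_lit 0) (nat_lit 0) (XT.lf (nat_lit 0) (nat_lit 1872049950) (nat_lit 1596) (nat_lit 4315930566) (nat_lit 1672) (nat_lit 3041010295) (nat_lit 573) (nat_lit 5) (nat_lit 594) (nat_lit 5) (nat_lit 595) (nat_lit 5) (nat_lit 424) (nat_lit 412) (nat_lit 304)) (XT.lf (nat_lit 76) (nat_lit 609788886) (nat_lit 0) (nat_lit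 2492159254) (nat_lit 1672) (nat_lit 6206067488) (nat_lit 574) (nat_lit 5) (nat_lit 573) (nat_lit 5) (nat_lit 595) (nat_lit 5) (nat_lit 425) (nat_lit 412) (nat_lit 303))) (XT.nd (nat_lit 78) (nat_lit 0) (nat_lit 0) (XT.lf (nat_lit 0) (nat_lit 4371063367) (nat_lit 1596) (nat_lit 3720058190) (nat_lit 1672) (nat_lit 1297207003) (nat_lit 574) (nat_lit 5) (nat_lit 595) (nat_lit 5) (nat_lit 596) (nat_lit 5) (nat_lit 426) (nat_lit 412) (nat_lit 302)) (XT.nd (nat_lit 78) (nat_lit 0) (nat_lit 0) (XT.lf (nat_lit 76) (nat_lit 1343042330) (nat_lit 0) (nat_lit 4325360716) (nat_lit 1672) (nat_lit 3801787861) (nat_lit 575) (nat_lit 5) (nat_lit 574) (nat_lit 5) (nat_lit 596) (nat_lit 5) (nat_lit 427) (nat_lit 412) (nat_lit 301)) (XT.lf (nat_lit 76) (nat_lit 6542193510) (nat_lit 0) (nat_lit 452414753) (nat_lit 1672) (nat_lit 2559023864) (nat_lit 575) (nat_lit 5) (nat_lit 574) (nat_lit 5) (nat_lit 596) (nat_lit 5) (nat_lit 428) (nat_lit 412) (nat_lit 300)))))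 (XT.nd (nat_lit 156) (nat_lit 0) (nat_lit 76) (XT.nd (nat_lit 78) (nat_lit 1672) (nat_lit 0) (XT.lf (nat_lit 76) (nat_lit 2196882650) (nat_lit 0) (nat_lit 6165858055) (nat_lit 1672) (nat_lit 1275693403) (nat_lit 576) (nat_lit 5) (nat_lit 575) (nat_lit 5) (nat_lit 597) (nat_lit 5) (nat_lit 429) (nat_lit 412) (nat_lit 299)) (XT.lf (nat_lit 0) (nat_lit 34813712) (nat_lit 1672) (nat_lit 2193667398) (nat_lit 1748) (nat_lit 7496407759) (nat_lit 553) (nat_lit 5) (nat_lit 575) (nat_lit 5) (nat_lit 576) (nat_lit 5) (nat_lit 430) (nat_lit 412) (nat_lit 298))) (XT.nd (nat_lit 78) (nat_lit 0) (nat_lit 0) (XT.lf (nat_lit 0) (nat_lit 1365952266) (nat_lit 1672) (nat_lit 6648025959) (nat_lit 1748) (nat_lit 1798695795) (nat_lit 554) (nat_lit 5) (nat_lit 576) (nat_lit 5) (nat_lit 577) (nat_lit 5) (nat_lit 431) (nat_lit 412) (nat_lit 297)) (XT.nd (nat_lit 78) (nat_lit 0) (nat_lit 76) (XT.lf (nat_lit 0) (nat_lit 2732661085) (nat_lit 1672) (nat_lit 1272924763)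 (nat_lit 1748) (nat_lit 5896450078) (nat_lit 554) (nat_lit 5) (nat_lit 576) (nat_lit 5) (nat_lit 577) (nat_lit 5) (nat_lit 432) (nat_lit 412) (nat_lit 296)) (XT.lf (nat_lit 0) (nat_lit 4134822544) (nat_lit 1672) (nat_lit 5744074548) (nat_lit 1748) (nat_lit 114125607) (nat_lit 555) (nat_lit 5) (nat_lit 577) (nat_lit 5) (nat_lit 578) (nat_lit 5) (nat_lit 433) (nat_lit 412) (nat_lit 295)))))) (XT.nd (nat_lit 390) (nat_lit 3876) (nat_lit 0) (XT.nd (nat_lit 156) (nat_lit 3420) (nat_lit 0) (XT.nd (nat_lit 78) (nat_lit 0) (nat_lit 0) (XT.lf (nat_lit 0) (nat_lit 5580251948) (nat_lit 1672) (nat_lit 229752283) (nat_lit 1748) (nat_lit 4275520483) (nat_lit 555) (nat_lit 5) (nat_lit 577) (nat_lit 5) (nat_lit 578) (nat_lit 5) (nat_lit 434) (nat_lit 412) (nat_lit 294)) (XT.lf (nat_lit 76) (nat_lit 5450633006) (nat_lit 0) (nat_lit 1619835366) (nat_lit 1748) (nat_lit 3109090830) (nat_lit 556) (nat_lit 5) (nat_lit 555) (nat_lit 5) (nat_lit 578) (nat_lit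 5) (nat_lit 435) (nat_lit 412) (nat_lit 293))) (XT.nd (nat_lit 78) (nat_lit 1824) (nat_lit 0) (XT.lf (nat_lit 0) (nat_lit 951519315) (nat_lit 1672) (nat_lit 7644726158) (nat_lit 1748) (nat_lit 1679113777) (nat_lit 534) (nat_lit 5) (nat_lit 556) (nat_lit 5) (nat_lit 557) (nat_lit 5) (nat_lit 436) (nat_lit 412) (nat_lit 292)) (XT.nd (nat_lit 78) (nat_lit 1824) (nat_lit 0) (XT.lf (nat_lit 0) (nat_lit 6782896769) (nat_lit 1672) (nat_lit 3393099108) (nat_lit 1748) (nat_lit 196610269) (nat_lit 534) (nat_lit 5) (nat_lit 556) (nat_lit 5) (nat_lit 557) (nat_lit 5) (nat_lit 437) (nat_lit 412) (nat_lit 291)) (XT.lf (nat_lit 0) (nat_lit 1300606063) (nat_lit 1824) (nat_lit 8213589978) (nat_lit 76) (nat_lit 957384783) (nat_lit 510) (nat_lit 5) (nat_lit 534) (nat_lit 5) (nat_lit 511) (nat_lit 5) (nat_lit 438) (nat_lit 412) (nat_lit 290))))) (XT.nd (nat_lit 156) (nat_lit 2052) (nat_lit 0) (XT.nd (nat_lit 78) (nat_lit 1824) (nat_lit 0) (XT.lf (nat_lit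 0) (nat_lit 2853453019) (nat_lit 1824) (nat_lit 2340807906) (nat_lit 76) (nat_lit 5377681702) (nat_lit 510) (nat_lit 5) (nat_lit 534) (nat_lit 5) (nat_lit 511) (nat_lit 5) (nat_lit 439) (nat_lit 412) (nat_lit 289)) (XT.lf (nat_lit 0) (nat_lit 3681908127) (nat_lit 1824) (nat_lit 761312238) (nat_lit 1900) (nat_lit 6230974032) (nat_lit 486) (nat_lit 5) (nat_lit 510) (nat_lit 5) (nat_lit 511) (nat_lit 5) (nat_lit 440) (nat_lit 412) (nat_lit 288))) (XT.nd (nat_lit 78) (nat_lit 2052) (nat_lit 0) (XT.lf (nat_lit 0) (nat_lit 6087232847) (nat_lit 1900) (nat_lit 961962533) (nat_lit 76) (nat_lit 3728846825) (nat_lit 486) (nat_lit 5) (nat_lit 511) (nat_lit 5) (nat_lit 487) (nat_lit 5) (nat_lit 441) (nat_lit 412) (nat_lit 287)) (XT.nd (nat_lit 78) (nat_lit 912) (nat_lit 0) (XT.lf (nat_lit 0) (nat_lit 5236847403) (nat_lit 1140) (nat_lit 2548893003) (nat_lit 1216) (nat_lit 3097794268) (nat_lit 471) (nat_lit 5) (nat_lit 486) (nat_lit 5) (nat_lit 487)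 (nat_lit 5) (nat_lit 442) (nat_lit 412) (nat_lit 286)) (XT.lf (nat_lit 0) (nat_lit 559698195) (nat_lit 912) (nat_lit 8964728051) (nat_lit 988) (nat_lit 1466586583) (nat_lit 459) (nat_lit 5) (nat_lit 471) (nat_lit 5) (nat_lit 472) (nat_lit 5) (nat_lit 443) (nat_lit 412) (nat_lit 285))))))) (XT.nd (nat_lit 780) (nat_lit 5244) (nat_lit 0) (XT.nd (nat_lit 390) (nat_lit 2660) (nat_lit 0) (XT.nd (nat_lit 156) (nat_lit 836) (nat_lit 0) (XT.nd (nat_lit 78) (nat_lit 912) (nat_lit 0) (XT.lf (nat_lit 0) (nat_lit 232624909) (nat_lit 988) (nat_lit 4167672695) (nat_lit 76) (nat_lit 6699557999) (nat_lit 458) (nat_lit 5) (nat_lit 471) (nat_lit 5) (nat_lit 459) (nat_lit 5) (nat_lit 444) (nat_lit 412) (nat_lit 284)) (XT.lf (nat_lit 0) (nat_lit 1945748855) (nat_lit 988) (nat_lit 8987656994) (nat_lit 76) (nat_lit 277284185) (nat_lit 446) (nat_lit 5) (nat_lit 459) (nat_lit 5) (nat_lit 447) (nat_lit 5) (nat_lit 445) (nat_lit 412) (nat_lit 283))) (XT.nd (nat_lit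 78) (nat_lit 836) (nat_lit 0) (XT.lf (nat_lit 0) (nat_lit 3733937523) (nat_lit 988) (nat_lit 2570507953) (nat_lit 76) (nat_lit 5018479633) (nat_lit 446) (nat_lit 5) (nat_lit 459) (nat_lit 5) (nat_lit 447) (nat_lit 5) (nat_lit 446) (nat_lit 412) (nat_lit 282)) (XT.nd (nat_lit 78) (nat_lit 0) (nat_lit 0) (XT.lf (nat_lit 0) (nat_lit 4011868405) (nat_lit 836) (nat_lit 1555901335) (nat_lit 912) (nat_lit 5869437548) (nat_lit 435) (nat_lit 5) (nat_lit 446) (nat_lit 5) (nat_lit 447) (nat_lit 5) (nat_lit 447) (nat_lit 412) (nat_lit 281)) (XT.lf (nat_lit 0) (nat_lit 7461037385) (nat_lit 912) (nat_lit 830103212) (nat_lit 76) (nat_lit 3262179340) (nat_lit 435) (nat_lit 5) (nat_lit 447) (nat_lit 5) (nat_lit 436) (nat_lit 5) (nat_lit 448) (nat_lit 412) (nat_lit 280))))) (XT.nd (nat_lit 156) (nat_lit 912) (nat_lit 0) (XT.nd (nat_lit 78) (nat_lit 836) (nat_lit 0) (XT.lf (nat_lit 0) (nat_lit 5949120019) (nat_lit 912) (nat_lit 3476342445) (nat_lit 988)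 (nat_lit 2245626532) (nat_lit 423) (nat_lit 5) (nat_lit 435) (nat_lit 5) (nat_lit 436) (nat_lit 5) (nat_lit 449) (nat_lit 412) (nat_lit 279)) (XT.lf (nat_lit 0) (nat_lit 1072955665) (nat_lit 836) (nat_lit 10362676964) (nat_lit 912) (nat_lit 355451677) (nat_lit 412) (nat_lit 5) (nat_lit 423) (nat_lit 5) (nat_lit 424) (nat_lit 5) (nat_lit 450) (nat_lit 412) (nat_lit 278))) (XT.nd (nat_lit 78) (nat_lit 836) (nat_lit 0) (XT.lf (nat_lit 0) (nat_lit 1598243657) (nat_lit 912) (nat_lit 3880797874) (nat_lit 76) (nat_lit 6433306974) (nat_lit 411) (nat_lit 5) (nat_lit 423) (nat_lit 5) (nat_lit 412) (nat_lit 5) (nat_lit 451) (nat_lit 412) (nat_lit 277)) (XT.nd (nat_lit 78) (nat_lit 0) (nat_lit 0) (XT.lf (nat_lit 0) (nat_lit 3116165588) (nat_lit 836) (nat_lit 475292226) (nat_lit 912) (nat_lit 8444429094) (nat_lit 400) (nat_lit 5) (nat_lit 411) (nat_lit 5) (nat_lit 412) (nat_lit 5) (nat_lit 452) (nat_lit 412) (nat_lit 276)) (XT.lf (nat_lit 0) (nat_lit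 5665959645) (nat_lit 912) (nat_lit 1901744131) (nat_lit 76) (nat_lit 4593363836) (nat_lit 400) (nat_lit 5) (nat_lit 412) (nat_lit 5) (nat_lit 401) (nat_lit 5) (nat_lit 453) (nat_lit 412) (nat_lit 275)))))) (XT.nd (nat_lit 390) (nat_lit 2888) (nat_lit 0) (XT.nd (nat_lit 156) (nat_lit 836) (nat_lit 0) (XT.nd (nat_lit 78) (nat_lit 760) (nat_lit 0) (XT.lf (nat_lit 0) (nat_lit 5307546074) (nat_lit 760) (nat_lit 2497461441) (nat_lit 836) (nat_lit 4483283295) (nat_lit 390) (nat_lit 5) (nat_lit 400) (nat_lit 5) (nat_lit 401) (nat_lit 5) (nat_lit 454) (nat_lit 412) (nat_lit 274)) (XT.lf (nat_lit 0) (nat_lit 238998019) (nat_lit 760) (nat_lit 9765225676) (nat_lit 836) (nat_lit 2413487029) (nat_lit 380) (nat_lit 5) (nat_lit 390) (nat_lit 5) (nat_lit 391) (nat_lit 5) (nat_lit 455) (nat_lit 412) (nat_lit 273))) (XT.nd (nat_lit 78) (nat_lit 836) (nat_lit 0) (XT.lf (nat_lit 0) (nat_lit 7665418518) (nat_lit 760) (nat_lit 4631088280) (nat_lit 836) (nat_lit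 252230588) (nat_lit 380) (nat_lit 5) (nat_lit 390) (nat_lit 5) (nat_lit 391) (nat_lit 5) (nat_lit 456) (nat_lit 412) (nat_lit 272)) (XT.nd (nat_lit 78) (nat_lit 0) (nat_lit 0) (XT.lf (nat_lit 0) (nat_lit 1933401675) (nat_lit 836) (nat_lit 10122732260) (nat_lit 76) (nat_lit 625862042) (nat_lit 369) (nat_lit 5) (nat_lit 380) (nat_lit 5) (nat_lit 370) (nat_lit 5) (nat_lit 457) (nat_lit 412) (nat_lit 271)) (XT.lf (nat_lit 0) (nat_lit 4209187039) (nat_lit 836) (nat_lit 2648557789) (nat_lit 76) (nat_lit 5959145212) (nat_lit 369) (nat_lit 5) (nat_lit 380) (nat_lit 5) (nat_lit 370) (nat_lit 5) (nat_lit 458) (nat_lit 412) (nat_lit 270))))) (XT.nd (nat_lit 234) (nat_lit 1444) (nat_lit 0) (XT.nd (nat_lit 78) (nat_lit 684) (nat_lit 0) (XT.lf (nat_lit 0) (nat_lit 5025690265) (nat_lit 760) (nat_lit 1523857910) (nat_lit 836) (nat_lit 6404552607) (nat_lit 359) (nat_lit 5) (nat_lit 369) (nat_lit 5) (nat_lit 370) (nat_lit 5) (nat_lit 459) (nat_lit 412)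 (nat_lit 269)) (XT.nd (nat_lit 78) (nat_lit 684) (nat_lit 0) (XT.lf (nat_lit 0) (nat_lit 8966622701) (nat_lit 836) (nat_lit 245400833) (nat_lit 76) (nat_lit 3881434082) (nat_lit 359) (nat_lit 5) (nat_lit 370) (nat_lit 5) (nat_lit 360) (nat_lit 5) (nat_lit 460) (nat_lit 412) (nat_lit 268)) (XT.lf (nat_lit 0) (nat_lit 7666550782) (nat_lit 684) (nat_lit 3812204461) (nat_lit 760) (nat_lit 1755912013) (nat_lit 350) (nat_lit 5) (nat_lit 359) (nat_lit 5) (nat_lit 360) (nat_lit 5) (nat_lit 461) (nat_lit 412) (nat_lit 267)))) (XT.nd (nat_lit 78) (nat_lit 684) (nat_lit 0) (XT.lf (nat_lit 0) (nat_lit 668864787) (nat_lit 760) (nat_lit 11016710681) (nat_lit 76) (nat_lit 1692737136) (nat_lit 340) (nat_lit 5) (nat_lit 350) (nat_lit 5) (nat_lit 341) (nat_lit 5) (nat_lit 462) (nat_lit 412) (nat_lit 266)) (XT.nd (nat_lit 78) (nat_lit 684) (nat_lit 0) (XT.lf (nat_lit 0) (nat_lit 3168572251) (nat_lit 760) (nat_lit 3051206221) (nat_lit 76) (nat_lit 7303821319)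 (nat_lit 340) (nat_lit 5) (nat_lit 350) (nat_lit 5) (nat_lit 341) (nat_lit 5) (nat_lit 463) (nat_lit 412) (nat_lit 265)) (XT.lf (nat_lit 0) (nat_lit 5125742933) (nat_lit 684) (nat_lit 613130242) (nat_lit 760) (nat_lit 7932507561) (nat_lit 331) (nat_lit 5) (nat_lit 340) (nat_lit 5) (nat_lit 341) (nat_lit 5) (nat_lit 464) (nat_lit 412) (nat_lit 264))))))))
noncomputable def xc187 : XT := (XT.nd (nat_lit 1638) (nat_lit 4104) (nat_lit 0) (XT.nd (nat_lit 780) (nat_lit 3876) (nat_lit 0) (XT.nd (nat_lit 390) (nat_lit 1824) (nat_lit 0) (XT.nd (nat_lit 156) (nat_lit 1292) (nat_lit 0) (XT.nd (nat_lit 78) (nat_lit 684) (nat_lit 0) (XT.lf (nat_lit 0) (nat_lit 8401795096) (nat_lit 760) (nat_lit 362627443) (nat_lit 76) (nat_lit 5056870462) (nat_lit 331) (nat_lit 5) (nat_lit 341) (nat_lit 5) (nat_lit 332) (nat_lit 5) (nat_lit 465) (nat_lit 412) (nat_lit 263)) (XT.lf (nat_lit 0) (nat_lit 8070906846) (nat_lit 684) (nat_lit 3091231643) (nat_lit 760) (nat_lit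 2811181760) (nat_lit 322) (nat_lit 5) (nat_lit 331) (nat_lit 5) (nat_lit 332) (nat_lit 5) (nat_lit 466) (nat_lit 412) (nat_lit 262))) (XT.nd (nat_lit 78) (nat_lit 684) (nat_lit 0) (XT.lf (nat_lit 0) (nat_lit 2550567802) (nat_lit 608) (nat_lit 11451459339) (nat_lit 684) (nat_lit 125874134) (nat_lit 314) (nat_lit 5) (nat_lit 322) (nat_lit 5) (nat_lit 323) (nat_lit 5) (nat_lit 467) (nat_lit 412) (nat_lit 261)) (XT.nd (nat_lit 78) (nat_lit 608) (nat_lit 0) (XT.lf (nat_lit 0) (nat_lit 2627100476) (nat_lit 684) (nat_lit 3084981241) (nat_lit 76) (nat_lit 8572188227) (nat_lit 313) (nat_lit 5) (nat_lit 322) (nat_lit 5) (nat_lit 314) (nat_lit 5) (nat_lit 468) (nat_lit 412) (nat_lit 260)) (XT.lf (nat_lit 0) (nat_lit 5459318867) (nat_lit 684) (nat_lit 8808931679) (nat_lit 76) (nat_lit 174981405) (nat_lit 305) (nat_lit 5) (nat_lit 314) (nat_lit 5) (nat_lit 306) (nat_lit 5) (nat_lit 469) (nat_lit 412) (nat_lit 259))))) (XT.nd (nat_lit 156) (nat_lit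 1216) (nat_lit 0) (XT.nd (nat_lit 78) (nat_lit 608) (nat_lit 0) (XT.lf (nat_lit 0) (nat_lit 8395094465) (nat_lit 684) (nat_lit 88077472) (nat_lit 76) (nat_lit 6121263005) (nat_lit 305) (nat_lit 5) (nat_lit 314) (nat_lit 5) (nat_lit 306) (nat_lit 5) (nat_lit 470) (nat_lit 412) (nat_lit 258)) (XT.lf (nat_lit 0) (nat_lit 8909397059) (nat_lit 608) (nat_lit 2526510247) (nat_lit 684) (nat_lit 3332028251) (nat_lit 297) (nat_lit 5) (nat_lit 305) (nat_lit 5) (nat_lit 306) (nat_lit 5) (nat_lit 471) (nat_lit 412) (nat_lit 257))) (XT.nd (nat_lit 78) (nat_lit 608) (nat_lit 0) (XT.lf (nat_lit 0) (nat_lit 3156919864) (nat_lit 608) (nat_lit 11413339653) (nat_lit 684) (nat_lit 363792206) (nat_lit 289) (nat_lit 5) (nat_lit 297) (nat_lit 5) (nat_lit 298) (nat_lit 5) (nat_lit 472) (nat_lit 412) (nat_lit 256)) (XT.nd (nat_lit 78) (nat_lit 532) (nat_lit 0) (XT.lf (nat_lit 0) (nat_lit 2673819222) (nat_lit 684) (nat_lit 2719699922) (nat_lit 76) (nat_lit 9708726224)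 (nat_lit 288) (nat_lit 5) (nat_lit 297) (nat_lit 5) (nat_lit 289) (nat_lit 5) (nat_lit 473) (nat_lit 412) (nat_lit 255)) (XT.lf (nat_lit 0) (nat_lit 5804081213) (nat_lit 608) (nat_lit 8689887886) (nat_lit 76) (nat_lit 779050303) (nat_lit 281) (nat_lit 5) (nat_lit 289) (nat_lit 5) (nat_lit 282) (nat_lit 5) (nat_lit 474) (nat_lit 412) (nat_lit 254)))))) (XT.nd (nat_lit 390) (nat_lit 2128) (nat_lit 0) (XT.nd (nat_lit 156) (nat_lit 1140) (nat_lit 0) (XT.nd (nat_lit 78) (nat_lit 0) (nat_lit 0) (XT.lf (nat_lit 0) (nat_lit 619707822) (nat_lit 608) (nat_lit 8424320512) (nat_lit 684) (nat_lit 6402238986) (nat_lit 273) (nat_lit 5) (nat_lit 281) (nat_lit 5) (nat_lit 282) (nat_lit 5) (nat_lit 475) (nat_lit 412) (nat_lit 253)) (XT.lf (nat_lit 0) (nat_lit 10218763210) (nat_lit 608) (nat_lit 2177413128) (nat_lit 684) (nat_lit 3225855819) (nat_lit 273) (nat_lit 5) (nat_lit 281) (nat_lit 5) (nat_lit 282) (nat_lit 5) (nat_lit 476) (nat_lit 412) (nat_lit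 252))) (XT.nd (nat_lit 78) (nat_lit 532) (nat_lit 0) (XT.lf (nat_lit 0) (nat_lit 58087087) (nat_lit 608) (nat_lit 11578618761) (nat_lit 76) (nat_lit 4163720289) (nat_lit 265) (nat_lit 5) (nat_lit 273) (nat_lit 5) (nat_lit 266) (nat_lit 5) (nat_lit 477) (nat_lit 412) (nat_lit 251)) (XT.nd (nat_lit 78) (nat_lit 532) (nat_lit 0) (XT.lf (nat_lit 0) (nat_lit 3404799951) (nat_lit 608) (nat_lit 1919537207) (nat_lit 76) (nat_lit 10656818674) (nat_lit 265) (nat_lit 5) (nat_lit 273) (nat_lit 5) (nat_lit 266) (nat_lit 5) (nat_lit 478) (nat_lit 412) (nat_lit 250)) (XT.lf (nat_lit 0) (nat_lit 6867633457) (nat_lit 608) (nat_lit 8148458922) (nat_lit 76) (nat_lit 1148424015) (nat_lit 258) (nat_lit 5) (nat_lit 266) (nat_lit 5) (nat_lit 259) (nat_lit 5) (nat_lit 479) (nat_lit 412) (nat_lit 249))))) (XT.nd (nat_lit 234) (nat_lit 988) (nat_lit 0) (XT.nd (nat_lit 78) (nat_lit 608) (nat_lit 0) (XT.lf (nat_lit 0) (nat_lit 1799062179) (nat_lit 532) (nat_lit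 8650193725) (nat_lit 608) (nat_lit 5901297617) (nat_lit 251) (nat_lit 5) (nat_lit 258) (nat_lit 5) (nat_lit 259) (nat_lit 5) (nat_lit 480) (nat_lit 412) (nat_lit 248)) (XT.nd (nat_lit 78) (nat_lit 608) (nat_lit 0) (XT.lf (nat_lit 0) (nat_lit 12041797824) (nat_lit 532) (nat_lit 2105129377) (nat_lit 608) (nat_lit 2392495863) (nat_lit 251) (nat_lit 5) (nat_lit 258) (nat_lit 5) (nat_lit 259) (nat_lit 5) (nat_lit 481) (nat_lit 412) (nat_lit 247)) (XT.lf (nat_lit 0) (nat_lit 1228477943) (nat_lit 608) (nat_lit 10949525536) (nat_lit 76) (nat_lit 4552761310) (nat_lit 243) (nat_lit 5) (nat_lit 251) (nat_lit 5) (nat_lit 244) (nat_lit 5) (nat_lit 482) (nat_lit 412) (nat_lit 246)))) (XT.nd (nat_lit 78) (nat_lit 988) (nat_lit 0) (XT.lf (nat_lit 0) (nat_lit 4924141263) (nat_lit 608) (nat_lit 642796902) (nat_lit 76) (nat_lit 11357992786) (nat_lit 243) (nat_lit 5) (nat_lit 251) (nat_lit 5) (nat_lit 244) (nat_lit 5) (nat_lit 483) (nat_lit 412) (nat_lit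 245)) (XT.nd (nat_lit 78) (nat_lit 532) (nat_lit 0) (XT.lf (nat_lit 0) (nat_lit 8756752484) (nat_lit 532) (nat_lit 7142723631) (nat_lit 76) (nat_lit 1222243627) (nat_lit 237) (nat_lit 5) (nat_lit 244) (nat_lit 5) (nat_lit 238) (nat_lit 5) (nat_lit 484) (nat_lit 412) (nat_lit 244)) (XT.lf (nat_lit 0) (nat_lit 3494586737) (nat_lit 532) (nat_lit 9225555347) (nat_lit 608) (nat_lit 4601219702) (nat_lit 230) (nat_lit 5) (nat_lit 237) (nat_lit 5) (nat_lit 238) (nat_lit 5) (nat_lit 485) (nat_lit 412) (nat_lit 243))))))) (XT.nd (nat_lit 780) (nat_lit 1216) (nat_lit 0) (XT.nd (nat_lit 390) (nat_lit 1444) (nat_lit 0) (XT.nd (nat_lit 156) (nat_lit 912) (nat_lit 0) (XT.nd (nat_lit 78) (nat_lit 532) (nat_lit 0) (XT.lf (nat_lit 0) (nat_lit 14427626538) (nat_lit 532) (nat_lit 2373433906) (nat_lit 608) (nat_lit 723171007) (nat_lit 230) (nat_lit 5) (nat_lit 237) (nat_lit 5) (nat_lit 238) (nat_lit 5) (nat_lit 486) (nat_lit 412) (nat_lit 242)) (XT.lf (nat_lit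 0) (nat_lit 3262326384) (nat_lit 532) (nat_lit 9842997537) (nat_lit 76) (nat_lit 4623969212) (nat_lit 223) (nat_lit 5) (nat_lit 230) (nat_lit 5) (nat_lit 224) (nat_lit 5) (nat_lit 487) (nat_lit 412) (nat_lit 241))) (XT.nd (nat_lit 78) (nat_lit 456) (nat_lit 0) (XT.lf (nat_lit 0) (nat_lit 1173772700) (nat_lit 456) (nat_lit 6178871462) (nat_lit 532) (nat_lit 10585020409) (nat_lit 217) (nat_lit 5) (nat_lit 223) (nat_lit 5) (nat_lit 224) (nat_lit 5) (nat_lit 488) (nat_lit 412) (nat_lit 240)) (XT.nd (nat_lit 78) (nat_lit 456) (nat_lit 0) (XT.lf (nat_lit 0) (nat_lit 11587607817) (nat_lit 532) (nat_lit 5624604866) (nat_lit 76) (nat_lit 936733964) (nat_lit 217) (nat_lit 5) (nat_lit 224) (nat_lit 5) (nat_lit 218) (nat_lit 5) (nat_lit 489) (nat_lit 412) (nat_lit 239)) (XT.lf (nat_lit 0) (nat_lit 5758508761) (nat_lit 456) (nat_lit 10217851273) (nat_lit 532) (nat_lit 2386712547) (nat_lit 211) (nat_lit 5) (nat_lit 217) (nat_lit 5) (nat_lit 218) (nat_lit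 5) (nat_lit 490) (nat_lit 412) (nat_lit 238))))) (XT.nd (nat_lit 156) (nat_lit 912) (nat_lit 0) (XT.nd (nat_lit 78) (nat_lit 456) (nat_lit 0) (XT.lf (nat_lit 0) (nat_lit 1875670844) (nat_lit 532) (nat_lit 1161195018) (nat_lit 76) (nat_lit 15543795992) (nat_lit 210) (nat_lit 5) (nat_lit 217) (nat_lit 5) (nat_lit 211) (nat_lit 5) (nat_lit 491) (nat_lit 412) (nat_lit 237)) (XT.lf (nat_lit 0) (nat_lit 6279700238) (nat_lit 532) (nat_lit 8208255285) (nat_lit 76) (nat_lit 4312564739) (nat_lit 204) (nat_lit 5) (nat_lit 211) (nat_lit 5) (nat_lit 205) (nat_lit 5) (nat_lit 492) (nat_lit 412) (nat_lit 236))) (XT.nd (nat_lit 78) (nat_lit 532) (nat_lit 0) (XT.lf (nat_lit 0) (nat_lit 3585382040) (nat_lit 380) (nat_lit 7228719398) (nat_lit 456) (nat_lit 8209828576) (nat_lit 199) (nat_lit 5) (nat_lit 204) (nat_lit 5) (nat_lit 205) (nat_lit 5) (nat_lit 493) (nat_lit 412) (nat_lit 235)) (XT.nd (nat_lit 78) (nat_lit 532) (nat_lit 0) (XT.lf (nat_lit 0) (nat_lit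 15486895020) (nat_lit 456) (nat_lit 3539506863) (nat_lit 76) (nat_lit 224451992) (nat_lit 199) (nat_lit 5) (nat_lit 205) (nat_lit 5) (nat_lit 200) (nat_lit 5) (nat_lit 494) (nat_lit 412) (nat_lit 234)) (XT.lf (nat_lit 0) (nat_lit 856674463) (nat_lit 532) (nat_lit 10836146386) (nat_lit 76) (nat_lit 7787476153) (nat_lit 192) (nat_lit 5) (nat_lit 199) (nat_lit 5) (nat_lit 193) (nat_lit 5) (nat_lit 495) (nat_lit 412) (nat_lit 233)))))) (XT.nd (nat_lit 52884) (nat_lit 0) (nat_lit 31388) (XT.nd (nat_lit 156) (nat_lit 836) (nat_lit 0) (XT.nd (nat_lit 78) (nat_lit 0) (nat_lit 0) (XT.lf (nat_lit 0) (nat_lit 1385475847) (nat_lit 380) (nat_lit 4158116840) (nat_lit 456) (nat_lit 14169753276) (nat_lit 187) (nat_lit 5) (nat_lit 192) (nat_lit 5) (nat_lit 193) (nat_lit 5) (nat_lit 496) (nat_lit 412) (nat_lit 232)) (XT.lf (nat_lit 0) (nat_lit 10411723901) (nat_lit 456) (nat_lit 5987839738) (nat_lit 76) (nat_lit 3549742773) (nat_lit 187) (nat_lit 5) (nat_lit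 193) (nat_lit 5) (nat_lit 188) (nat_lit 5) (nat_lit 497) (nat_lit 412) (nat_lit 231))) (XT.nd (nat_lit 78) (nat_lit 456) (nat_lit 0) (XT.lf (nat_lit 0) (nat_lit 6645600049) (nat_lit 380) (nat_lit 8793847004) (nat_lit 456) (nat_lit 4749294429) (nat_lit 182) (nat_lit 5) (nat_lit 187) (nat_lit 5) (nat_lit 188) (nat_lit 5) (nat_lit 498) (nat_lit 412) (nat_lit 230)) (XT.nd (nat_lit 78) (nat_lit 380) (nat_lit 0) (XT.lf (nat_lit 0) (nat_lit 165010565) (nat_lit 456) (nat_lit 833465952) (nat_lit 76) (nat_lit 19433830868) (nat_lit 181) (nat_lit 5) (nat_lit 187) (nat_lit 5) (nat_lit 182) (nat_lit 5) (nat_lit 499) (nat_lit 412) (nat_lit 229)) (XT.lf (nat_lit 0) (nat_lit 5231166212) (nat_lit 456) (nat_lit 8477751712) (nat_lit 76) (nat_lit 6968855672) (nat_lit 176) (nat_lit 5) (nat_lit 182) (nat_lit 5) (nat_lit 177) (nat_lit 5) (nat_lit 500) (nat_lit 412) (nat_lit 228))))) (XT.nd (nat_lit 234) (nat_lit 0) (nat_lit 76) (XT.nd (nat_lit 78) (nat_lit 1596)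 (nat_lit 0) (XT.lf (nat_lit 0) (nat_lit 1919912046) (nat_lit 0) (nat_lit 1919912046) (nat_lit 1444) (nat_lit 418724799) (nat_lit 610) (nat_lit 5) (nat_lit 610) (nat_lit 3) (nat_lit 629) (nat_lit 3) (nat_lit 413) (nat_lit 413) (nat_lit 314)) (XT.nd (nat_lit 78) (nat_lit 0) (nat_lit 76) (XT.lf (nat_lit 0) (nat_lit 207133765) (nat_lit 1596) (nat_lit 413233148) (nat_lit 1596) (nat_lit 7961174385) (nat_lit 589) (nat_lit 3) (nat_lit 610) (nat_lit 3) (nat_lit 610) (nat_lit 5) (nat_lit 414) (nat_lit 413) (nat_lit 313)) (XT.lf (nat_lit 0) (nat_lit 1277431868) (nat_lit 1520) (nat_lit 4696127114) (nat_lit 1596) (nat_lit 2673283261) (nat_lit 590) (nat_lit 5) (nat_lit 610) (nat_lit 5) (nat_lit 611) (nat_lit 5) (nat_lit 415) (nat_lit 413) (nat_lit 312)))) (XT.nd (nat_lit 78) (nat_lit 0) (nat_lit 76) (XT.lf (nat_lit 0) (nat_lit 2349237812) (nat_lit 1520) (nat_lit 324444772) (nat_lit 1596) (nat_lit 6040164586) (nat_lit 590) (nat_lit 5) (nat_lit 610)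 (nat_lit 5) (nat_lit 611) (nat_lit 5) (nat_lit 416) (nat_lit 413) (nat_lit 311)) (XT.nd (nat_lit 78) (nat_lit 0) (nat_lit 0) (XT.lf (nat_lit 0) (nat_lit 3448068077) (nat_lit 1520) (nat_lit 4611681772) (nat_lit 1596) (nat_lit 722330582) (nat_lit 591) (nat_lit 5) (nat_lit 611) (nat_lit 5) (nat_lit 612) (nat_lit 5) (nat_lit 417) (nat_lit 413) (nat_lit 310)) (XT.lf (nat_lit 0) (nat_lit 4563000625) (nat_lit 1520) (nat_lit 124503279) (nat_lit 1596) (nat_lit 4164291940) (nat_lit 591) (nat_lit 5) (nat_lit 611) (nat_lit 5) (nat_lit 612) (nat_lit 5) (nat_lit 418) (nat_lit 413) (nat_lit 309))))))))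
noncomputable def xc188 : XT := (XT.nd (nat_lit 1560) (nat_lit 12464) (nat_lit 0) (XT.nd (nat_lit 780) (nat_lit 2964) (nat_lit 0) (XT.nd (nat_lit 390) (nat_lit 0) (nat_lit 0) (XT.nd (nat_lit 156) (nat_lit 1444) (nat_lit 0) (XT.nd (nat_lit 78) (nat_lit 0) (nat_lit 76) (XT.lf (nat_lit 76) (nat_lit 4497001259) (nat_lit 0) (nat_lit 1207160978) (nat_lit 1596) (nat_lit 3218664720) (nat_lit 592) (nat_lit 5) (nat_lit 591) (nat_lit 5) (nat_lit 612) (nat_lit 5) (nat_lit 419) (nat_lit 413) (nat_lit 308)) (XT.lf (nat_lit 76) (nat_lit 189766266) (nat_lit 0) (nat_lit 6670868915) (nat_lit 1596) (nat_lit 2134793749) (nat_lit 593) (nat_lit 5) (nat_lit 592) (nat_lit 5) (nat_lit 613) (nat_lit 5) (nat_lit 420) (nat_lit 413) (nat_lit 307))) (XT.nd (nat_lit 78) (nat_lit 1520) (nat_lit 0) (XT.lf (nat_lit 76) (nat_lit 4934792769) (nat_lit 0) (nat_lit 3118680638) (nat_lit 1596) (nat_lit 1015744819) (nat_lit 593) (nat_lit 5) (nat_lit 592) (nat_lit 5) (nat_lit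 613) (nat_lit 5) (nat_lit 421) (nat_lit 413) (nat_lit 306)) (XT.nd (nat_lit 78) (nat_lit 0) (nat_lit 0) (XT.lf (nat_lit 0) (nat_lit 107363051) (nat_lit 1596) (nat_lit 8525448066) (nat_lit 1672) (nat_lit 511989344) (nat_lit 572) (nat_lit 5) (nat_lit 593) (nat_lit 5) (nat_lit 594) (nat_lit 5) (nat_lit 422) (nat_lit 413) (nat_lit 305)) (XT.lf (nat_lit 0) (nat_lit 1264276107) (nat_lit 1596) (nat_lit 3739890066) (nat_lit 1672) (nat_lit 4217095009) (nat_lit 572) (nat_lit 5) (nat_lit 593) (nat_lit 5) (nat_lit 594) (nat_lit 5) (nat_lit 423) (nat_lit 413) (nat_lit 304))))) (XT.nd (nat_lit 156) (nat_lit 0) (nat_lit 76) (XT.nd (nat_lit 78) (nat_lit 0) (nat_lit 76) (XT.lf (nat_lit 76) (nat_lit 1141412052) (nat_lit 0) (nat_lit 1287139622) (nat_lit 1672) (nat_lit 6871014958) (nat_lit 573) (nat_lit 5) (nat_lit 572) (nat_lit 5) (nat_lit 594) (nat_lit 5) (nat_lit 424) (nat_lit 413) (nat_lit 303)) (XT.lf (nat_lit 0) (nat_lit 3634858310) (nat_lit 1596)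 (nat_lit 3239673197) (nat_lit 1672) (nat_lit 2504531773) (nat_lit 573) (nat_lit 5) (nat_lit 594) (nat_lit 5) (nat_lit 595) (nat_lit 5) (nat_lit 425) (nat_lit 413) (nat_lit 302))) (XT.nd (nat_lit 78) (nat_lit 0) (nat_lit 76) (XT.lf (nat_lit 76) (nat_lit 1776912118) (nat_lit 0) (nat_lit 3086110169) (nat_lit 1672) (nat_lit 4597172950) (nat_lit 574) (nat_lit 5) (nat_lit 573) (nat_lit 5) (nat_lit 595) (nat_lit 5) (nat_lit 426) (nat_lit 413) (nat_lit 301)) (XT.nd (nat_lit 78) (nat_lit 0) (nat_lit 0) (XT.lf (nat_lit 0) (nat_lit 6120741964) (nat_lit 1596) (nat_lit 2625399680) (nat_lit 1672) (nat_lit 796708340) (nat_lit 574) (nat_lit 5) (nat_lit 595) (nat_lit 5) (nat_lit 596) (nat_lit 5) (nat_lit 427) (nat_lit 413) (nat_lit 300)) (XT.lf (nat_lit 76) (nat_lit 2531271667) (nat_lit 0) (nat_lit 4887703862) (nat_lit 1672) (nat_lit 2207875107) (nat_lit 575) (nat_lit 5) (nat_lit 574) (nat_lit 5) (nat_lit 596) (nat_lit 5) (nat_lit 428) (nat_lit 413) (nat_lit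 299)))))) (XT.nd (nat_lit 390) (nat_lit 1520) (nat_lit 0) (XT.nd (nat_lit 156) (nat_lit 0) (nat_lit 0) (XT.nd (nat_lit 78) (nat_lit 1596) (nat_lit 0) (XT.lf (nat_lit 76) (nat_lit 7811633940) (nat_lit 0) (nat_lit 927968863) (nat_lit 1672) (nat_lit 972999919) (nat_lit 575) (nat_lit 5) (nat_lit 574) (nat_lit 5) (nat_lit 596) (nat_lit 5) (nat_lit 429) (nat_lit 413) (nat_lit 298)) (XT.lf (nat_lit 0) (nat_lit 304540940) (nat_lit 1672) (nat_lit 6394815850) (nat_lit 1748) (nat_lit 3100241314) (nat_lit 553) (nat_lit 5) (nat_lit 575) (nat_lit 5) (nat_lit 576) (nat_lit 5) (nat_lit 430) (nat_lit 413) (nat_lit 297))) (XT.nd (nat_lit 78) (nat_lit 0) (nat_lit 76) (XT.lf (nat_lit 0) (nat_lit 1593041991) (nat_lit 1672) (nat_lit 1073699238) (nat_lit 1748) (nat_lit 7221494777) (nat_lit 553) (nat_lit 5) (nat_lit 575) (nat_lit 5) (nat_lit 576) (nat_lit 5) (nat_lit 431) (nat_lit 413) (nat_lit 296)) (XT.nd (nat_lit 78) (nat_lit 0) (nat_lit 0) (XT.lf (nat_lit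 0) (nat_lit 2925313924) (nat_lit 1672) (nat_lit 5591655579) (nat_lit 1748) (nat_lit 1461317146) (nat_lit 554) (nat_lit 5) (nat_lit 576) (nat_lit 5) (nat_lit 577) (nat_lit 5) (nat_lit 432) (nat_lit 413) (nat_lit 295)) (XT.lf (nat_lit 0) (nat_lit 4289316868) (nat_lit 1672) (nat_lit 132372572) (nat_lit 1748) (nat_lit 5648347153) (nat_lit 554) (nat_lit 5) (nat_lit 576) (nat_lit 5) (nat_lit 577) (nat_lit 5) (nat_lit 433) (nat_lit 413) (nat_lit 294))))) (XT.nd (nat_lit 156) (nat_lit 1596) (nat_lit 0) (XT.nd (nat_lit 78) (nat_lit 0) (nat_lit 76) (XT.lf (nat_lit 76) (nat_lit 5493047838) (nat_lit 0) (nat_lit 203777553) (nat_lit 1748) (nat_lit 4466471634) (nat_lit 555) (nat_lit 5) (nat_lit 554) (nat_lit 5) (nat_lit 577) (nat_lit 5) (nat_lit 434) (nat_lit 413) (nat_lit 293)) (XT.lf (nat_lit 76) (nat_lit 944739083) (nat_lit 0) (nat_lit 6202255048) (nat_lit 1748) (nat_lit 3111138334) (nat_lit 556) (nat_lit 5) (nat_lit 555) (nat_lit 5) (nat_lit 578)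 (nat_lit 5) (nat_lit 435) (nat_lit 413) (nat_lit 292))) (XT.nd (nat_lit 78) (nat_lit 1672) (nat_lit 0) (XT.lf (nat_lit 76) (nat_lit 6718666025) (nat_lit 0) (nat_lit 1921328286) (nat_lit 1748) (nat_lit 1714593743) (nat_lit 556) (nat_lit 5) (nat_lit 555) (nat_lit 5) (nat_lit 578) (nat_lit 5) (nat_lit 436) (nat_lit 413) (nat_lit 291)) (XT.nd (nat_lit 78) (nat_lit 76) (nat_lit 0) (XT.lf (nat_lit 0) (nat_lit 2152055004) (nat_lit 1672) (nat_lit 8022187888) (nat_lit 1748) (nat_lit 278502093) (nat_lit 534) (nat_lit 5) (nat_lit 556) (nat_lit 5) (nat_lit 557) (nat_lit 5) (nat_lit 437) (nat_lit 413) (nat_lit 290)) (XT.lf (nat_lit 0) (nat_lit 1189719291) (nat_lit 1748) (nat_lit 2483422084) (nat_lit 76) (nat_lit 6879190302) (nat_lit 533) (nat_lit 5) (nat_lit 556) (nat_lit 5) (nat_lit 534) (nat_lit 5) (nat_lit 438) (nat_lit 413) (nat_lit 289))))))) (XT.nd (nat_lit 780) (nat_lit 5016) (nat_lit 0) (XT.nd (nat_lit 390) (nat_lit 2736) (nat_lit 0) (XT.nd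 (nat_lit 156) (nat_lit 2964) (nat_lit 0) (XT.nd (nat_lit 78) (nat_lit 0) (nat_lit 0) (XT.lf (nat_lit 0) (nat_lit 2693339620) (nat_lit 1824) (nat_lit 7180172172) (nat_lit 76) (nat_lit 780166220) (nat_lit 510) (nat_lit 5) (nat_lit 534) (nat_lit 5) (nat_lit 511) (nat_lit 5) (nat_lit 439) (nat_lit 413) (nat_lit 288)) (XT.lf (nat_lit 0) (nat_lit 4250445055) (nat_lit 1824) (nat_lit 1213418568) (nat_lit 76) (nat_lit 5292719396) (nat_lit 510) (nat_lit 5) (nat_lit 534) (nat_lit 5) (nat_lit 511) (nat_lit 5) (nat_lit 440) (nat_lit 413) (nat_lit 287))) (XT.nd (nat_lit 78) (nat_lit 1140) (nat_lit 0) (XT.lf (nat_lit 0) (nat_lit 4922026749) (nat_lit 1824) (nat_lit 931281565) (nat_lit 1900) (nat_lit 5007945500) (nat_lit 486) (nat_lit 5) (nat_lit 510) (nat_lit 5) (nat_lit 511) (nat_lit 5) (nat_lit 441) (nat_lit 413) (nat_lit 286)) (XT.nd (nat_lit 78) (nat_lit 0) (nat_lit 0) (XT.lf (nat_lit 0) (nat_lit 191813517) (nat_lit 1140) (nat_lit 7312741570) (nat_lit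 1216) (nat_lit 3463136411) (nat_lit 471) (nat_lit 5) (nat_lit 486) (nat_lit 5) (nat_lit 487) (nat_lit 5) (nat_lit 442) (nat_lit 413) (nat_lit 285)) (XT.lf (nat_lit 0) (nat_lit 6504383328) (nat_lit 1140) (nat_lit 2713574689) (nat_lit 1216) (nat_lit 1857717295) (nat_lit 471) (nat_lit 5) (nat_lit 486) (nat_lit 5) (nat_lit 487) (nat_lit 5) (nat_lit 443) (nat_lit 413) (nat_lit 284))))) (XT.nd (nat_lit 156) (nat_lit 1748) (nat_lit 0) (XT.nd (nat_lit 78) (nat_lit 76) (nat_lit 0) (XT.lf (nat_lit 0) (nat_lit 1752136622) (nat_lit 912) (nat_lit 9221197142) (nat_lit 988) (nat_lit 212330942) (nat_lit 459) (nat_lit 5) (nat_lit 471) (nat_lit 5) (nat_lit 472) (nat_lit 5) (nat_lit 444) (nat_lit 413) (nat_lit 283)) (XT.lf (nat_lit 0) (nat_lit 1479192009) (nat_lit 988) (nat_lit 3076438951) (nat_lit 76) (nat_lit 6741383464) (nat_lit 458) (nat_lit 5) (nat_lit 471) (nat_lit 5) (nat_lit 459) (nat_lit 5) (nat_lit 445) (nat_lit 413) (nat_lit 282))) (XT.nd (nat_lit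 78) (nat_lit 836) (nat_lit 0) (XT.lf (nat_lit 0) (nat_lit 3209424803) (nat_lit 988) (nat_lit 7975669306) (nat_lit 76) (nat_lit 225314506) (nat_lit 446) (nat_lit 5) (nat_lit 459) (nat_lit 5) (nat_lit 447) (nat_lit 5) (nat_lit 446) (nat_lit 413) (nat_lit 281)) (XT.nd (nat_lit 78) (nat_lit 836) (nat_lit 0) (XT.lf (nat_lit 0) (nat_lit 5009362323) (nat_lit 988) (nat_lit 1453544751) (nat_lit 76) (nat_lit 5062461616) (nat_lit 446) (nat_lit 5) (nat_lit 459) (nat_lit 5) (nat_lit 447) (nat_lit 5) (nat_lit 447) (nat_lit 413) (nat_lit 280)) (XT.lf (nat_lit 0) (nat_lit 5252792468) (nat_lit 836) (nat_lit 1611070625) (nat_lit 912) (nat_lit 4778393583) (nat_lit 435) (nat_lit 5) (nat_lit 446) (nat_lit 5) (nat_lit 447) (nat_lit 5) (nat_lit 448) (nat_lit 413) (nat_lit 279)))))) (XT.nd (nat_lit 390) (nat_lit 2356) (nat_lit 0) (XT.nd (nat_lit 156) (nat_lit 1748) (nat_lit 0) (XT.nd (nat_lit 78) (nat_lit 0) (nat_lit 0) (XT.lf (nat_lit 0) (nat_lit 318787055)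 (nat_lit 912) (nat_lit 8454895561) (nat_lit 988) (nat_lit 2987435230) (nat_lit 423) (nat_lit 5) (nat_lit 435) (nat_lit 5) (nat_lit 436) (nat_lit 5) (nat_lit 449) (nat_lit 413) (nat_lit 278)) (XT.lf (nat_lit 0) (nat_lit 7221773596) (nat_lit 912) (nat_lit 3538271562) (nat_lit 988) (nat_lit 1121544150) (nat_lit 423) (nat_lit 5) (nat_lit 435) (nat_lit 5) (nat_lit 436) (nat_lit 5) (nat_lit 450) (nat_lit 413) (nat_lit 277))) (XT.nd (nat_lit 78) (nat_lit 836) (nat_lit 0) (XT.lf (nat_lit 0) (nat_lit 780924404) (nat_lit 912) (nat_lit 9746201208) (nat_lit 76) (nat_lit 1477052858) (nat_lit 411) (nat_lit 5) (nat_lit 423) (nat_lit 5) (nat_lit 412) (nat_lit 5) (nat_lit 451) (nat_lit 413) (nat_lit 276)) (XT.nd (nat_lit 78) (nat_lit 836) (nat_lit 0) (XT.lf (nat_lit 0) (nat_lit 2746610556) (nat_lit 912) (nat_lit 2797692241) (nat_lit 76) (nat_lit 6583964636) (nat_lit 411) (nat_lit 5) (nat_lit 423) (nat_lit 5) (nat_lit 412) (nat_lit 5) (nat_lit 452) (nat_lit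 413) (nat_lit 275)) (XT.lf (nat_lit 0) (nat_lit 4331574163) (nat_lit 836) (nat_lit 433711192) (nat_lit 912) (nat_lit 7489279324) (nat_lit 400) (nat_lit 5) (nat_lit 411) (nat_lit 5) (nat_lit 412) (nat_lit 5) (nat_lit 453) (nat_lit 413) (nat_lit 274))))) (XT.nd (nat_lit 234) (nat_lit 836) (nat_lit 0) (XT.nd (nat_lit 78) (nat_lit 1520) (nat_lit 0) (XT.lf (nat_lit 0) (nat_lit 6859994598) (nat_lit 912) (nat_lit 788020639) (nat_lit 76) (nat_lit 4734659413) (nat_lit 400) (nat_lit 5) (nat_lit 412) (nat_lit 5) (nat_lit 401) (nat_lit 5) (nat_lit 454) (nat_lit 413) (nat_lit 273)) (XT.nd (nat_lit 78) (nat_lit 760) (nat_lit 0) (XT.lf (nat_lit 0) (nat_lit 6557878013) (nat_lit 760) (nat_lit 2470183690) (nat_lit 836) (nat_lit 3484655843) (nat_lit 390) (nat_lit 5) (nat_lit 400) (nat_lit 5) (nat_lit 401) (nat_lit 5) (nat_lit 455) (nat_lit 413) (nat_lit 272)) (XT.lf (nat_lit 0) (nat_lit 1401132072) (nat_lit 760) (nat_lit 9857215354) (nat_lit 836) (nat_lit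 1386636728) (nat_lit 380) (nat_lit 5) (nat_lit 390) (nat_lit 5) (nat_lit 391) (nat_lit 5) (nat_lit 456) (nat_lit 413) (nat_lit 271)))) (XT.nd (nat_lit 78) (nat_lit 760) (nat_lit 0) (XT.lf (nat_lit 0) (nat_lit 786314352) (nat_lit 836) (nat_lit 3830830056) (nat_lit 76) (nat_lit 8161796827) (nat_lit 379) (nat_lit 5) (nat_lit 390) (nat_lit 5) (nat_lit 380) (nat_lit 5) (nat_lit 457) (nat_lit 413) (nat_lit 270)) (XT.nd (nat_lit 78) (nat_lit 0) (nat_lit 0) (XT.lf (nat_lit 0) (nat_lit 3000034571) (nat_lit 836) (nat_lit 9164451636) (nat_lit 76) (nat_lit 750590394) (nat_lit 369) (nat_lit 5) (nat_lit 380) (nat_lit 5) (nat_lit 370) (nat_lit 5) (nat_lit 458) (nat_lit 413) (nat_lit 269)) (XT.lf (nat_lit 0) (nat_lit 5301179468) (nat_lit 836) (nat_lit 1563553190) (nat_lit 76) (nat_lit 6188339009) (nat_lit 369) (nat_lit 5) (nat_lit 380) (nat_lit 5) (nat_lit 370) (nat_lit 5) (nat_lit 459) (nat_lit 413) (nat_lit 268))))))))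
noncomputable def xc189 : XT := (XT.nd (nat_lit 1638) (nat_lit 5776) (nat_lit 0) (XT.nd (nat_lit 780) (nat_lit 4180) (nat_lit 0) (XT.nd (nat_lit 390) (nat_lit 2052) (nat_lit 0) (XT.nd (nat_lit 156) (nat_lit 760) (nat_lit 0) (XT.nd (nat_lit 78) (nat_lit 684) (nat_lit 0) (XT.lf (nat_lit 0) (nat_lit 6256693142) (nat_lit 760) (nat_lit 1419233615) (nat_lit 836) (nat_lit 5517348288) (nat_lit 359) (nat_lit 5) (nat_lit 369) (nat_lit 5) (nat_lit 370) (nat_lit 5) (nat_lit 460) (nat_lit 413) (nat_lit 267)) (XT.lf (nat_lit 0) (nat_lit 888321704) (nat_lit 684) (nat_lit 9240131208) (nat_lit 760) (nat_lit 3207223902) (nat_lit 350) (nat_lit 5) (nat_lit 359) (nat_lit 5) (nat_lit 360) (nat_lit 5) (nat_lit 461) (nat_lit 413) (nat_lit 266))) (XT.nd (nat_lit 78) (nat_lit 760) (nat_lit 0) (XT.lf (nat_lit 0) (nat_lit 8939447510) (nat_lit 684) (nat_lit 3733730411) (nat_lit 760) (nat_lit 806885728) (nat_lit 350) (nat_lit 5) (nat_lit 359) (nat_lit 5) (nat_lit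 360) (nat_lit 5) (nat_lit 462) (nat_lit 413) (nat_lit 265)) (XT.nd (nat_lit 78) (nat_lit 0) (nat_lit 0) (XT.lf (nat_lit 0) (nat_lit 1642814595) (nat_lit 760) (nat_lit 10093907169) (nat_lit 76) (nat_lit 1889945642) (nat_lit 340) (nat_lit 5) (nat_lit 350) (nat_lit 5) (nat_lit 341) (nat_lit 5) (nat_lit 463) (nat_lit 413) (nat_lit 264)) (XT.lf (nat_lit 0) (nat_lit 4173681453) (nat_lit 760) (nat_lit 1991507085) (nat_lit 76) (nat_lit 7610048494) (nat_lit 340) (nat_lit 5) (nat_lit 350) (nat_lit 5) (nat_lit 341) (nat_lit 5) (nat_lit 464) (nat_lit 413) (nat_lit 263))))) (XT.nd (nat_lit 156) (nat_lit 684) (nat_lit 0) (XT.nd (nat_lit 78) (nat_lit 684) (nat_lit 0) (XT.lf (nat_lit 0) (nat_lit 6341607873) (nat_lit 684) (nat_lit 442543684) (nat_lit 760) (nat_lit 7142046775) (nat_lit 331) (nat_lit 5) (nat_lit 340) (nat_lit 5) (nat_lit 341) (nat_lit 5) (nat_lit 465) (nat_lit 413) (nat_lit 262)) (XT.lf (nat_lit 0) (nat_lit 748538123) (nat_lit 684) (nat_lit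 8739572583) (nat_lit 760) (nat_lit 4591242560) (nat_lit 322) (nat_lit 5) (nat_lit 331) (nat_lit 5) (nat_lit 332) (nat_lit 5) (nat_lit 466) (nat_lit 413) (nat_lit 261))) (XT.nd (nat_lit 78) (nat_lit 684) (nat_lit 0) (XT.lf (nat_lit 0) (nat_lit 9333632459) (nat_lit 684) (nat_lit 2954408730) (nat_lit 760) (nat_lit 1946692266) (nat_lit 322) (nat_lit 5) (nat_lit 331) (nat_lit 5) (nat_lit 332) (nat_lit 5) (nat_lit 467) (nat_lit 413) (nat_lit 260)) (XT.nd (nat_lit 78) (nat_lit 0) (nat_lit 0) (XT.lf (nat_lit 0) (nat_lit 772645739) (nat_lit 684) (nat_lit 10685379412) (nat_lit 76) (nat_lit 2934463752) (nat_lit 313) (nat_lit 5) (nat_lit 322) (nat_lit 5) (nat_lit 314) (nat_lit 5) (nat_lit 468) (nat_lit 413) (nat_lit 259)) (XT.lf (nat_lit 0) (nat_lit 3561361581) (nat_lit 684) (nat_lit 2046026819) (nat_lit 76) (nat_lit 8944932561) (nat_lit 313) (nat_lit 5) (nat_lit 322) (nat_lit 5) (nat_lit 314) (nat_lit 5) (nat_lit 469) (nat_lit 413) (nat_lit 258))))))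 (XT.nd (nat_lit 390) (nat_lit 2280) (nat_lit 0) (XT.nd (nat_lit 156) (nat_lit 684) (nat_lit 0) (XT.nd (nat_lit 78) (nat_lit 608) (nat_lit 0) (XT.lf (nat_lit 0) (nat_lit 6441475506) (nat_lit 684) (nat_lit 7875707431) (nat_lit 76) (nat_lit 397454249) (nat_lit 305) (nat_lit 5) (nat_lit 314) (nat_lit 5) (nat_lit 306) (nat_lit 5) (nat_lit 470) (nat_lit 413) (nat_lit 257)) (XT.lf (nat_lit 0) (nat_lit 1011071243) (nat_lit 608) (nat_lit 8414342853) (nat_lit 684) (nat_lit 5453861190) (nat_lit 297) (nat_lit 5) (nat_lit 305) (nat_lit 5) (nat_lit 306) (nat_lit 5) (nat_lit 471) (nat_lit 413) (nat_lit 256))) (XT.nd (nat_lit 78) (nat_lit 684) (nat_lit 0) (XT.lf (nat_lit 0) (nat_lit 10168079293) (nat_lit 608) (nat_lit 2342633207) (nat_lit 684) (nat_lit 2535660028) (nat_lit 297) (nat_lit 5) (nat_lit 305) (nat_lit 5) (nat_lit 306) (nat_lit 5) (nat_lit 472) (nat_lit 413) (nat_lit 255)) (XT.nd (nat_lit 78) (nat_lit 0) (nat_lit 0) (XT.lf (nat_lit 0) (nat_lit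 477406275) (nat_lit 684) (nat_lit 10910369898) (nat_lit 76) (nat_lit 3828132615) (nat_lit 288) (nat_lit 5) (nat_lit 297) (nat_lit 5) (nat_lit 289) (nat_lit 5) (nat_lit 473) (nat_lit 413) (nat_lit 254)) (XT.lf (nat_lit 0) (nat_lit 3554361981) (nat_lit 684) (nat_lit 1695765118) (nat_lit 76) (nat_lit 10137621850) (nat_lit 288) (nat_lit 5) (nat_lit 297) (nat_lit 5) (nat_lit 289) (nat_lit 5) (nat_lit 474) (nat_lit 413) (nat_lit 253))))) (XT.nd (nat_lit 234) (nat_lit 1140) (nat_lit 0) (XT.nd (nat_lit 78) (nat_lit 608) (nat_lit 0) (XT.lf (nat_lit 0) (nat_lit 6739612825) (nat_lit 608) (nat_lit 7777740454) (nat_lit 76) (nat_lit 1044737512) (nat_lit 281) (nat_lit 5) (nat_lit 289) (nat_lit 5) (nat_lit 282) (nat_lit 5) (nat_lit 475) (nat_lit 413) (nat_lit 252)) (XT.nd (nat_lit 78) (nat_lit 0) (nat_lit 0) (XT.lf (nat_lit 0) (nat_lit 1710902792) (nat_lit 608) (nat_lit 8324392740) (nat_lit 684) (nat_lit 5703689402) (nat_lit 273) (nat_lit 5) (nat_lit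 281) (nat_lit 5) (nat_lit 282) (nat_lit 5) (nat_lit 476) (nat_lit 413) (nat_lit 251)) (XT.lf (nat_lit 0) (nat_lit 11480786331) (nat_lit 608) (nat_lit 1957810231) (nat_lit 684) (nat_lit 2479986304) (nat_lit 273) (nat_lit 5) (nat_lit 281) (nat_lit 5) (nat_lit 282) (nat_lit 5) (nat_lit 477) (nat_lit 413) (nat_lit 250)))) (XT.nd (nat_lit 78) (nat_lit 532) (nat_lit 0) (XT.lf (nat_lit 0) (nat_lit 851970730) (nat_lit 608) (nat_lit 10734878549) (nat_lit 76) (nat_lit 4513730943) (nat_lit 265) (nat_lit 5) (nat_lit 273) (nat_lit 5) (nat_lit 266) (nat_lit 5) (nat_lit 478) (nat_lit 413) (nat_lit 249)) (XT.nd (nat_lit 78) (nat_lit 532) (nat_lit 0) (XT.lf (nat_lit 0) (nat_lit 4250074283) (nat_lit 608) (nat_lit 903699925) (nat_lit 76) (nat_lit 11131461174) (nat_lit 265) (nat_lit 5) (nat_lit 273) (nat_lit 5) (nat_lit 266) (nat_lit 5) (nat_lit 479) (nat_lit 413) (nat_lit 248)) (XT.lf (nat_lit 0) (nat_lit 7775533936) (nat_lit 608) (nat_lit 7250569550) (nat_lit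 76) (nat_lit 1446292279) (nat_lit 258) (nat_lit 5) (nat_lit 266) (nat_lit 5) (nat_lit 259) (nat_lit 5) (nat_lit 480) (nat_lit 413) (nat_lit 247))))))) (XT.nd (nat_lit 780) (nat_lit 2660) (nat_lit 0) (XT.nd (nat_lit 390) (nat_lit 1520) (nat_lit 0) (XT.nd (nat_lit 156) (nat_lit 1064) (nat_lit 0) (XT.nd (nat_lit 78) (nat_lit 0) (nat_lit 0) (XT.lf (nat_lit 0) (nat_lit 2888922641) (nat_lit 532) (nat_lit 8531599895) (nat_lit 608) (nat_lit 5241796427) (nat_lit 251) (nat_lit 5) (nat_lit 258) (nat_lit 5) (nat_lit 259) (nat_lit 5) (nat_lit 481) (nat_lit 413) (nat_lit 246)) (XT.lf (nat_lit 0) (nat_lit 13315848699) (nat_lit 532) (nat_lit 1861351861) (nat_lit 608) (nat_lit 1678064268) (nat_lit 251) (nat_lit 5) (nat_lit 258) (nat_lit 5) (nat_lit 259) (nat_lit 5) (nat_lit 482) (nat_lit 413) (nat_lit 245))) (XT.nd (nat_lit 78) (nat_lit 456) (nat_lit 0) (XT.lf (nat_lit 0) (nat_lit 1999205977) (nat_lit 608) (nat_lit 10119178090) (nat_lit 76) (nat_lit 4932072848)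 (nat_lit 243) (nat_lit 5) (nat_lit 251) (nat_lit 5) (nat_lit 244) (nat_lit 5) (nat_lit 483) (nat_lit 413) (nat_lit 244)) (XT.nd (nat_lit 78) (nat_lit 0) (nat_lit 0) (XT.lf (nat_lit 0) (nat_lit 378068296) (nat_lit 456) (nat_lit 5378538378) (nat_lit 532) (nat_lit 11492143243) (nat_lit 237) (nat_lit 5) (nat_lit 243) (nat_lit 5) (nat_lit 244) (nat_lit 5) (nat_lit 484) (nat_lit 413) (nat_lit 243)) (XT.lf (nat_lit 0) (nat_lit 9657643181) (nat_lit 532) (nat_lit 6251043131) (nat_lit 76) (nat_lit 1540952712) (nat_lit 237) (nat_lit 5) (nat_lit 244) (nat_lit 5) (nat_lit 238) (nat_lit 5) (nat_lit 485) (nat_lit 413) (nat_lit 242))))) (XT.nd (nat_lit 156) (nat_lit 988) (nat_lit 0) (XT.nd (nat_lit 78) (nat_lit 0) (nat_lit 0) (XT.lf (nat_lit 0) (nat_lit 4592207292) (nat_lit 532) (nat_lit 9100535475) (nat_lit 608) (nat_lit 3960682298) (nat_lit 230) (nat_lit 5) (nat_lit 237) (nat_lit 5) (nat_lit 238) (nat_lit 5) (nat_lit 486) (nat_lit 413) (nat_lit 241))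 (XT.lf (nat_lit 0) (nat_lit 15723756345) (nat_lit 532) (nat_lit 2117440840) (nat_lit 608) (nat_lit 19436586) (nat_lit 230) (nat_lit 5) (nat_lit 237) (nat_lit 5) (nat_lit 238) (nat_lit 5) (nat_lit 487) (nat_lit 413) (nat_lit 240))) (XT.nd (nat_lit 78) (nat_lit 456) (nat_lit 0) (XT.lf (nat_lit 0) (nat_lit 4031018775) (nat_lit 532) (nat_lit 9017528233) (nat_lit 76) (nat_lit 5021263071) (nat_lit 223) (nat_lit 5) (nat_lit 230) (nat_lit 5) (nat_lit 224) (nat_lit 5) (nat_lit 488) (nat_lit 413) (nat_lit 239)) (XT.nd (nat_lit 78) (nat_lit 0) (nat_lit 0) (XT.lf (nat_lit 0) (nat_lit 2212851558) (nat_lit 456) (nat_lit 5983092265) (nat_lit 532) (nat_lit 10086549104) (nat_lit 217) (nat_lit 5) (nat_lit 223) (nat_lit 5) (nat_lit 224) (nat_lit 5) (nat_lit 489) (nat_lit 413) (nat_lit 238)) (XT.lf (nat_lit 0) (nat_lit 12503987672) (nat_lit 532) (nat_lit 4729788273) (nat_lit 76) (nat_lit 1264457081) (nat_lit 217) (nat_lit 5) (nat_lit 224) (nat_lit 5) (nat_lit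 218) (nat_lit 5) (nat_lit 490) (nat_lit 413) (nat_lit 237)))))) (XT.nd (nat_lit 390) (nat_lit 1292) (nat_lit 0) (XT.nd (nat_lit 156) (nat_lit 836) (nat_lit 0) (XT.nd (nat_lit 78) (nat_lit 76) (nat_lit 0) (XT.lf (nat_lit 0) (nat_lit 6874360596) (nat_lit 456) (nat_lit 10099227354) (nat_lit 532) (nat_lit 1743192068) (nat_lit 211) (nat_lit 5) (nat_lit 217) (nat_lit 5) (nat_lit 218) (nat_lit 5) (nat_lit 491) (nat_lit 413) (nat_lit 236)) (XT.lf (nat_lit 0) (nat_lit 2581996809) (nat_lit 532) (nat_lit 194470301) (nat_lit 76) (nat_lit 16162431730) (nat_lit 210) (nat_lit 5) (nat_lit 217) (nat_lit 5) (nat_lit 211) (nat_lit 5) (nat_lit 492) (nat_lit 413) (nat_lit 235))) (XT.nd (nat_lit 78) (nat_lit 380) (nat_lit 0) (XT.lf (nat_lit 0) (nat_lit 7069464368) (nat_lit 532) (nat_lit 7377829350) (nat_lit 76) (nat_lit 4715953547) (nat_lit 204) (nat_lit 5) (nat_lit 211) (nat_lit 5) (nat_lit 205) (nat_lit 5) (nat_lit 493) (nat_lit 413) (nat_lit 234)) (XT.nd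 (nat_lit 78) (nat_lit 0) (nat_lit 0) (XT.lf (nat_lit 0) (nat_lit 4645137359) (nat_lit 380) (nat_lit 7042808350) (nat_lit 456) (nat_lit 7703311660) (nat_lit 199) (nat_lit 5) (nat_lit 204) (nat_lit 5) (nat_lit 205) (nat_lit 5) (nat_lit 494) (nat_lit 413) (nat_lit 233)) (XT.lf (nat_lit 0) (nat_lit 16443405443) (nat_lit 456) (nat_lit 2630833086) (nat_lit 76) (nat_lit 548696973) (nat_lit 199) (nat_lit 5) (nat_lit 205) (nat_lit 5) (nat_lit 200) (nat_lit 5) (nat_lit 495) (nat_lit 413) (nat_lit 232))))) (XT.nd (nat_lit 234) (nat_lit 380) (nat_lit 0) (XT.nd (nat_lit 78) (nat_lit 380) (nat_lit 0) (XT.lf (nat_lit 0) (nat_lit 1518457266) (nat_lit 532) (nat_lit 10071282191) (nat_lit 76) (nat_lit 8267270498) (nat_lit 192) (nat_lit 5) (nat_lit 199) (nat_lit 5) (nat_lit 193) (nat_lit 5) (nat_lit 496) (nat_lit 413) (nat_lit 231)) (XT.nd (nat_lit 78) (nat_lit 0) (nat_lit 0) (XT.lf (nat_lit 0) (nat_lit 2388314677) (nat_lit 380) (nat_lit 3904490182) (nat_lit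 456) (nat_lit 13802041217) (nat_lit 187) (nat_lit 5) (nat_lit 192) (nat_lit 5) (nat_lit 193) (nat_lit 5) (nat_lit 497) (nat_lit 413) (nat_lit 230)) (XT.lf (nat_lit 0) (nat_lit 11247926002) (nat_lit 456) (nat_lit 5141214707) (nat_lit 76) (nat_lit 3946592478) (nat_lit 187) (nat_lit 5) (nat_lit 193) (nat_lit 5) (nat_lit 188) (nat_lit 5) (nat_lit 498) (nat_lit 413) (nat_lit 229)))) (XT.nd (nat_lit 52728) (nat_lit 0) (nat_lit 30932) (XT.lf (nat_lit 0) (nat_lit 7738536100) (nat_lit 380) (nat_lit 8631587540) (nat_lit 456) (nat_lit 4209954919) (nat_lit 182) (nat_lit 5) (nat_lit 187) (nat_lit 5) (nat_lit 188) (nat_lit 5) (nat_lit 499) (nat_lit 413) (nat_lit 228)) (XT.nd (nat_lit 78) (nat_lit 0) (nat_lit 0) (XT.lf (nat_lit 0) (nat_lit 613602437) (nat_lit 1596) (nat_lit 1854735443) (nat_lit 1596) (nat_lit 1854735443) (nat_lit 589) (nat_lit 3) (nat_lit 610) (nat_lit 3) (nat_lit 610) (nat_lit 5) (nat_lit 414) (nat_lit 414) (nat_lit 312)) (XT.lf (nat_lit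 76) (nat_lit 621756890) (nat_lit 0) (nat_lit 1623164738) (nat_lit 1596) (nat_lit 6467577592) (nat_lit 590) (nat_lit 5) (nat_lit 589) (nat_lit 3) (nat_lit 610) (nat_lit 5) (nat_lit 415) (nat_lit 414) (nat_lit 311))))))))
noncomputable def xc190 : XT := (XT.nd (nat_lit 1560) (nat_lit 12312) (nat_lit 0) (XT.nd (nat_lit 780) (nat_lit 1444) (nat_lit 0) (XT.nd (nat_lit 390) (nat_lit 1444) (nat_lit 0) (XT.nd (nat_lit 156) (nat_lit 0) (nat_lit 0) (XT.nd (nat_lit 78) (nat_lit 0) (nat_lit 0) (XT.lf (nat_lit 0) (nat_lit 3293182753) (nat_lit 1520) (nat_lit 3715543326) (nat_lit 1596) (nat_lit 1771248965) (nat_lit 590) (nat_lit 5) (nat_lit 610) (nat_lit 5) (nat_lit 611) (nat_lit 5) (nat_lit 416) (nat_lit 414) (nat_lit 310)) (XT.lf (nat_lit 76) (nat_lit 732105607) (nat_lit 0) (nat_lit 3620048950) (nat_lit 1596) (nat_lit 4496850917) (nat_lit 591) (nat_lit 5) (nat_lit 590) (nat_lit 5) (nat_lit 611) (nat_lit 5) (nat_lit 417) (nat_lit 414) (nat_lit 309)))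 (XT.nd (nat_lit 78) (nat_lit 0) (nat_lit 76) (XT.lf (nat_lit 76) (nat_lit 5305257864) (nat_lit 0) (nat_lit 126639242) (nat_lit 1596) (nat_lit 3487527580) (nat_lit 591) (nat_lit 5) (nat_lit 590) (nat_lit 5) (nat_lit 611) (nat_lit 5) (nat_lit 418) (nat_lit 414) (nat_lit 308)) (XT.nd (nat_lit 78) (nat_lit 0) (nat_lit 0) (XT.lf (nat_lit 76) (nat_lit 954714982) (nat_lit 0) (nat_lit 5582259437) (nat_lit 1596) (nat_lit 2454203066) (nat_lit 592) (nat_lit 5) (nat_lit 591) (nat_lit 5) (nat_lit 612) (nat_lit 5) (nat_lit 419) (nat_lit 414) (nat_lit 307)) (XT.lf (nat_lit 76) (nat_lit 5649094228) (nat_lit 0) (nat_lit 2015768180) (nat_lit 1596) (nat_lit 1399488749) (nat_lit 592) (nat_lit 5) (nat_lit 591) (nat_lit 5) (nat_lit 612) (nat_lit 5) (nat_lit 420) (nat_lit 414) (nat_lit 306))))) (XT.nd (nat_lit 156) (nat_lit 0) (nat_lit 0) (XT.nd (nat_lit 78) (nat_lit 1596) (nat_lit 0) (XT.lf (nat_lit 76) (nat_lit 1290475802) (nat_lit 0) (nat_lit 7519909337)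 (nat_lit 1596) (nat_lit 328701625) (nat_lit 593) (nat_lit 5) (nat_lit 592) (nat_lit 5) (nat_lit 613) (nat_lit 5) (nat_lit 421) (nat_lit 414) (nat_lit 305)) (XT.lf (nat_lit 0) (nat_lit 766293895) (nat_lit 1596) (nat_lit 3111209339) (nat_lit 1672) (nat_lit 5337458583) (nat_lit 571) (nat_lit 5) (nat_lit 592) (nat_lit 5) (nat_lit 593) (nat_lit 5) (nat_lit 422) (nat_lit 414) (nat_lit 304))) (XT.nd (nat_lit 78) (nat_lit 0) (nat_lit 76) (XT.lf (nat_lit 76) (nat_lit 1727190284) (nat_lit 0) (nat_lit 139665618) (nat_lit 1672) (nat_lit 7425693656) (nat_lit 572) (nat_lit 5) (nat_lit 571) (nat_lit 5) (nat_lit 593) (nat_lit 5) (nat_lit 423) (nat_lit 414) (nat_lit 303)) (XT.nd (nat_lit 78) (nat_lit 0) (nat_lit 0) (XT.lf (nat_lit 0) (nat_lit 3011560441) (nat_lit 1596) (nat_lit 2705369677) (nat_lit 1672) (nat_lit 3654316311) (nat_lit 572) (nat_lit 5) (nat_lit 593) (nat_lit 5) (nat_lit 594) (nat_lit 5) (nat_lit 424) (nat_lit 414) (nat_lit 302)) (XT.lf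 (nat_lit 76) (nat_lit 2266260337) (nat_lit 0) (nat_lit 1906251545) (nat_lit 1672) (nat_lit 5279138299) (nat_lit 573) (nat_lit 5) (nat_lit 572) (nat_lit 5) (nat_lit 594) (nat_lit 5) (nat_lit 425) (nat_lit 414) (nat_lit 301)))))) (XT.nd (nat_lit 390) (nat_lit 0) (nat_lit 76) (XT.nd (nat_lit 156) (nat_lit 1596) (nat_lit 0) (XT.nd (nat_lit 78) (nat_lit 0) (nat_lit 0) (XT.lf (nat_lit 0) (nat_lit 5365924720) (nat_lit 1596) (nat_lit 2187034922) (nat_lit 1672) (nat_lit 1980517518) (nat_lit 573) (nat_lit 5) (nat_lit 594) (nat_lit 5) (nat_lit 595) (nat_lit 5) (nat_lit 426) (nat_lit 414) (nat_lit 300)) (XT.lf (nat_lit 76) (nat_lit 2922530574) (nat_lit 0) (nat_lit 3670811735) (nat_lit 1672) (nat_lit 3023395641) (nat_lit 574) (nat_lit 5) (nat_lit 573) (nat_lit 5) (nat_lit 595) (nat_lit 5) (nat_lit 427) (nat_lit 414) (nat_lit 299))) (XT.nd (nat_lit 78) (nat_lit 1672) (nat_lit 0) (XT.lf (nat_lit 0) (nat_lit 7840866654) (nat_lit 1596) (nat_lit 1554244013)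 (nat_lit 1672) (nat_lit 306642120) (nat_lit 574) (nat_lit 5) (nat_lit 595) (nat_lit 5) (nat_lit 596) (nat_lit 5) (nat_lit 428) (nat_lit 414) (nat_lit 298)) (XT.nd (nat_lit 78) (nat_lit 1672) (nat_lit 0) (XT.lf (nat_lit 76) (nat_lit 3698168238) (nat_lit 0) (nat_lit 5442816582) (nat_lit 1672) (nat_lit 646930234) (nat_lit 575) (nat_lit 5) (nat_lit 574) (nat_lit 5) (nat_lit 596) (nat_lit 5) (nat_lit 429) (nat_lit 414) (nat_lit 297)) (XT.lf (nat_lit 0) (nat_lit 573547714) (nat_lit 1672) (nat_lit 817522544) (nat_lit 1748) (nat_lit 8484853565) (nat_lit 552) (nat_lit 5) (nat_lit 574) (nat_lit 5) (nat_lit 575) (nat_lit 5) (nat_lit 430) (nat_lit 414) (nat_lit 296))))) (XT.nd (nat_lit 156) (nat_lit 0) (nat_lit 76) (XT.nd (nat_lit 78) (nat_lit 0) (nat_lit 0) (XT.lf (nat_lit 0) (nat_lit 1837623921) (nat_lit 1672) (nat_lit 5381691081) (nat_lit 1748) (nat_lit 2745735221) (nat_lit 553) (nat_lit 5) (nat_lit 575) (nat_lit 5) (nat_lit 576) (nat_lit 5) (nat_lit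 431) (nat_lit 414) (nat_lit 295)) (XT.lf (nat_lit 76) (nat_lit 23786868) (nat_lit 0) (nat_lit 3098321541) (nat_lit 1748) (nat_lit 6933948205) (nat_lit 554) (nat_lit 5) (nat_lit 553) (nat_lit 5) (nat_lit 576) (nat_lit 5) (nat_lit 432) (nat_lit 414) (nat_lit 294))) (XT.nd (nat_lit 78) (nat_lit 0) (nat_lit 0) (XT.lf (nat_lit 0) (nat_lit 4456371733) (nat_lit 1672) (nat_lit 4560340959) (nat_lit 1748) (nat_lit 1131688659) (nat_lit 554) (nat_lit 5) (nat_lit 576) (nat_lit 5) (nat_lit 577) (nat_lit 5) (nat_lit 433) (nat_lit 414) (nat_lit 293)) (XT.nd (nat_lit 78) (nat_lit 0) (nat_lit 0) (XT.lf (nat_lit 76) (nat_lit 998812653) (nat_lit 0) (nat_lit 4826453477) (nat_lit 1748) (nat_lit 4417167936) (nat_lit 555) (nat_lit 5) (nat_lit 554) (nat_lit 5) (nat_lit 577) (nat_lit 5) (nat_lit 434) (nat_lit 414) (nat_lit 292)) (XT.lf (nat_lit 76) (nat_lit 6716268621) (nat_lit 0) (nat_lit 517092509) (nat_lit 1748) (nat_lit 3104749852) (nat_lit 555) (nat_lit 5)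 (nat_lit 554) (nat_lit 5) (nat_lit 577) (nat_lit 5) (nat_lit 435) (nat_lit 414) (nat_lit 291))))))) (XT.nd (nat_lit 780) (nat_lit 5168) (nat_lit 0) (XT.nd (nat_lit 390) (nat_lit 3952) (nat_lit 0) (XT.nd (nat_lit 156) (nat_lit 3420) (nat_lit 0) (XT.nd (nat_lit 78) (nat_lit 0) (nat_lit 0) (XT.lf (nat_lit 76) (nat_lit 2099928334) (nat_lit 0) (nat_lit 6590119967) (nat_lit 1748) (nat_lit 1745244529) (nat_lit 556) (nat_lit 5) (nat_lit 555) (nat_lit 5) (nat_lit 578) (nat_lit 5) (nat_lit 436) (nat_lit 414) (nat_lit 290)) (XT.lf (nat_lit 76) (nat_lit 7967053531) (nat_lit 0) (nat_lit 2218401732) (nat_lit 1748) (nat_lit 348771331) (nat_lit 556) (nat_lit 5) (nat_lit 555) (nat_lit 5) (nat_lit 578) (nat_lit 5) (nat_lit 437) (nat_lit 414) (nat_lit 289))) (XT.nd (nat_lit 78) (nat_lit 1748) (nat_lit 0) (XT.lf (nat_lit 0) (nat_lit 1080076673) (nat_lit 1748) (nat_lit 7311154078) (nat_lit 76) (nat_lit 2243397559) (nat_lit 533) (nat_lit 5) (nat_lit 556) (nat_lit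 5) (nat_lit 534) (nat_lit 5) (nat_lit 438) (nat_lit 414) (nat_lit 288)) (XT.nd (nat_lit 78) (nat_lit 1748) (nat_lit 0) (XT.lf (nat_lit 0) (nat_lit 2547261866) (nat_lit 1748) (nat_lit 1402006879) (nat_lit 76) (nat_lit 6787434603) (nat_lit 533) (nat_lit 5) (nat_lit 556) (nat_lit 5) (nat_lit 534) (nat_lit 5) (nat_lit 439) (nat_lit 414) (nat_lit 287)) (XT.lf (nat_lit 0) (nat_lit 4060856389) (nat_lit 1824) (nat_lit 6172593757) (nat_lit 76) (nat_lit 607028427) (nat_lit 510) (nat_lit 5) (nat_lit 534) (nat_lit 5) (nat_lit 511) (nat_lit 5) (nat_lit 440) (nat_lit 414) (nat_lit 286))))) (XT.nd (nat_lit 156) (nat_lit 2128) (nat_lit 0) (XT.nd (nat_lit 78) (nat_lit 1824) (nat_lit 0) (XT.lf (nat_lit 0) (nat_lit 5623346090) (nat_lit 1824) (nat_lit 109077275) (nat_lit 76) (nat_lit 5213533473) (nat_lit 510) (nat_lit 5) (nat_lit 534) (nat_lit 5) (nat_lit 511) (nat_lit 5) (nat_lit 441) (nat_lit 414) (nat_lit 285)) (XT.lf (nat_lit 0) (nat_lit 6141651885)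 (nat_lit 1824) (nat_lit 1098641416) (nat_lit 1900) (nat_lit 3812787212) (nat_lit 486) (nat_lit 5) (nat_lit 510) (nat_lit 5) (nat_lit 511) (nat_lit 5) (nat_lit 442) (nat_lit 414) (nat_lit 284))) (XT.nd (nat_lit 78) (nat_lit 988) (nat_lit 0) (XT.lf (nat_lit 0) (nat_lit 1335648784) (nat_lit 1140) (nat_lit 7570470740) (nat_lit 1216) (nat_lit 2255896337) (nat_lit 471) (nat_lit 5) (nat_lit 486) (nat_lit 5) (nat_lit 487) (nat_lit 5) (nat_lit 443) (nat_lit 414) (nat_lit 283)) (XT.nd (nat_lit 78) (nat_lit 988) (nat_lit 0) (XT.lf (nat_lit 0) (nat_lit 7752117070) (nat_lit 1140) (nat_lit 2877134749) (nat_lit 1216) (nat_lit 643398305) (nat_lit 471) (nat_lit 5) (nat_lit 486) (nat_lit 5) (nat_lit 487) (nat_lit 5) (nat_lit 444) (nat_lit 414) (nat_lit 282)) (XT.lf (nat_lit 0) (nat_lit 1003826226) (nat_lit 988) (nat_lit 8469236405) (nat_lit 76) (nat_lit 1911992226) (nat_lit 458) (nat_lit 5) (nat_lit 471) (nat_lit 5) (nat_lit 459) (nat_lit 5) (nat_lit 445)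 (nat_lit 414) (nat_lit 281)))))) (XT.nd (nat_lit 390) (nat_lit 2508) (nat_lit 0) (XT.nd (nat_lit 156) (nat_lit 1748) (nat_lit 0) (XT.nd (nat_lit 78) (nat_lit 912) (nat_lit 0) (XT.lf (nat_lit 0) (nat_lit 2702465393) (nat_lit 988) (nat_lit 2008991185) (nat_lit 76) (nat_lit 6787624344) (nat_lit 458) (nat_lit 5) (nat_lit 471) (nat_lit 5) (nat_lit 459) (nat_lit 5) (nat_lit 446) (nat_lit 414) (nat_lit 280)) (XT.lf (nat_lit 0) (nat_lit 4450815309) (nat_lit 988) (nat_lit 6989718612) (nat_lit 76) (nat_lit 174538826) (nat_lit 446) (nat_lit 5) (nat_lit 459) (nat_lit 5) (nat_lit 447) (nat_lit 5) (nat_lit 447) (nat_lit 414) (nat_lit 279))) (XT.nd (nat_lit 78) (nat_lit 1748) (nat_lit 0) (XT.lf (nat_lit 0) (nat_lit 6263669187) (nat_lit 988) (nat_lit 359611647) (nat_lit 76) (nat_lit 5109512838) (nat_lit 446) (nat_lit 5) (nat_lit 459) (nat_lit 5) (nat_lit 447) (nat_lit 5) (nat_lit 448) (nat_lit 414) (nat_lit 278)) (XT.nd (nat_lit 78) (nat_lit 912) (nat_lit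 0) (XT.lf (nat_lit 0) (nat_lit 6473464132) (nat_lit 836) (nat_lit 1666409361) (nat_lit 912) (nat_lit 3712453653) (nat_lit 435) (nat_lit 5) (nat_lit 446) (nat_lit 5) (nat_lit 447) (nat_lit 5) (nat_lit 449) (nat_lit 414) (nat_lit 277)) (XT.lf (nat_lit 0) (nat_lit 1456212968) (nat_lit 912) (nat_lit 8616544716) (nat_lit 988) (nat_lit 1901110491) (nat_lit 423) (nat_lit 5) (nat_lit 435) (nat_lit 5) (nat_lit 436) (nat_lit 5) (nat_lit 450) (nat_lit 414) (nat_lit 276))))) (XT.nd (nat_lit 234) (nat_lit 1596) (nat_lit 0) (XT.nd (nat_lit 78) (nat_lit 912) (nat_lit 0) (XT.lf (nat_lit 0) (nat_lit 8475081786) (nat_lit 912) (nat_lit 3601734291) (nat_lit 988) (nat_lit 20373617) (nat_lit 423) (nat_lit 5) (nat_lit 435) (nat_lit 5) (nat_lit 436) (nat_lit 5) (nat_lit 451) (nat_lit 414) (nat_lit 275)) (XT.nd (nat_lit 78) (nat_lit 0) (nat_lit 0) (XT.lf (nat_lit 0) (nat_lit 1891054683) (nat_lit 912) (nat_lit 8803162889) (nat_lit 76) (nat_lit 1528154232) (nat_lit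 411) (nat_lit 5) (nat_lit 423) (nat_lit 5) (nat_lit 412) (nat_lit 5) (nat_lit 452) (nat_lit 414) (nat_lit 274)) (XT.lf (nat_lit 0) (nat_lit 3874593543) (nat_lit 912) (nat_lit 1737996730) (nat_lit 76) (nat_lit 6736781495) (nat_lit 411) (nat_lit 5) (nat_lit 423) (nat_lit 5) (nat_lit 412) (nat_lit 5) (nat_lit 453) (nat_lit 414) (nat_lit 273)))) (XT.nd (nat_lit 78) (nat_lit 760) (nat_lit 0) (XT.lf (nat_lit 0) (nat_lit 5526515205) (nat_lit 836) (nat_lit 393282302) (nat_lit 912) (nat_lit 6558674337) (nat_lit 400) (nat_lit 5) (nat_lit 411) (nat_lit 5) (nat_lit 412) (nat_lit 5) (nat_lit 454) (nat_lit 414) (nat_lit 272)) (XT.nd (nat_lit 78) (nat_lit 0) (nat_lit 0) (XT.lf (nat_lit 0) (nat_lit 307283215) (nat_lit 760) (nat_lit 7730656610) (nat_lit 836) (nat_lit 4571573410) (nat_lit 390) (nat_lit 5) (nat_lit 400) (nat_lit 5) (nat_lit 401) (nat_lit 5) (nat_lit 455) (nat_lit 414) (nat_lit 271)) (XT.lf (nat_lit 0) (nat_lit 7788786646) (nat_lit 760)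 (nat_lit 2445359201) (nat_lit 836) (nat_lit 2508315591) (nat_lit 390) (nat_lit 5) (nat_lit 400) (nat_lit 5) (nat_lit 401) (nat_lit 5) (nat_lit 456) (nat_lit 414) (nat_lit 270))))))))
noncomputable def xc191 : XT := (XT.nd (nat_lit 1638) (nat_lit 6536) (nat_lit 0) (XT.nd (nat_lit 780) (nat_lit 4408) (nat_lit 0) (XT.nd (nat_lit 390) (nat_lit 2128) (nat_lit 0) (XT.nd (nat_lit 156) (nat_lit 1520) (nat_lit 0) (XT.nd (nat_lit 78) (nat_lit 76) (nat_lit 0) (XT.lf (nat_lit 0) (nat_lit 2541567335) (nat_lit 760) (nat_lit 9955056667) (nat_lit 836) (nat_lit 380997642) (nat_lit 380) (nat_lit 5) (nat_lit 390) (nat_lit 5) (nat_lit 391) (nat_lit 5) (nat_lit 457) (nat_lit 414) (nat_lit 269)) (XT.lf (nat_lit 0) (nat_lit 1801863152) (nat_lit 836) (nat_lit 2803558932) (nat_lit 76) (nat_lit 8409101525) (nat_lit 379) (nat_lit 5) (nat_lit 390) (nat_lit 5) (nat_lit 380) (nat_lit 5) (nat_lit 458) (nat_lit 414) (nat_lit 268))) (XT.nd (nat_lit 78) (nat_lit 760)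 (nat_lit 0) (XT.lf (nat_lit 0) (nat_lit 4048082995) (nat_lit 836) (nat_lit 8232078164) (nat_lit 76) (nat_lit 873456018) (nat_lit 369) (nat_lit 5) (nat_lit 380) (nat_lit 5) (nat_lit 370) (nat_lit 5) (nat_lit 459) (nat_lit 414) (nat_lit 267)) (XT.nd (nat_lit 78) (nat_lit 760) (nat_lit 0) (XT.lf (nat_lit 0) (nat_lit 6375877306) (nat_lit 836) (nat_lit 501037485) (nat_lit 76) (nat_lit 6417844824) (nat_lit 369) (nat_lit 5) (nat_lit 380) (nat_lit 5) (nat_lit 370) (nat_lit 5) (nat_lit 460) (nat_lit 414) (nat_lit 266)) (XT.lf (nat_lit 0) (nat_lit 7468417809) (nat_lit 760) (nat_lit 1317762988) (nat_lit 836) (nat_lit 4651825040) (nat_lit 359) (nat_lit 5) (nat_lit 369) (nat_lit 5) (nat_lit 370) (nat_lit 5) (nat_lit 461) (nat_lit 414) (nat_lit 265))))) (XT.nd (nat_lit 156) (nat_lit 1368) (nat_lit 0) (XT.nd (nat_lit 78) (nat_lit 76) (nat_lit 0) (XT.lf (nat_lit 0) (nat_lit 2003701581) (nat_lit 684) (nat_lit 9273249382) (nat_lit 760) (nat_lit 2306520806)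 (nat_lit 350) (nat_lit 5) (nat_lit 359) (nat_lit 5) (nat_lit 360) (nat_lit 5) (nat_lit 462) (nat_lit 414) (nat_lit 264)) (XT.lf (nat_lit 0) (nat_lit 121293622) (nat_lit 760) (nat_lit 3537587208) (nat_lit 76) (nat_lit 10072220505) (nat_lit 349) (nat_lit 5) (nat_lit 359) (nat_lit 5) (nat_lit 350) (nat_lit 5) (nat_lit 463) (nat_lit 414) (nat_lit 263))) (XT.nd (nat_lit 78) (nat_lit 684) (nat_lit 0) (XT.lf (nat_lit 0) (nat_lit 2598943198) (nat_lit 760) (nat_lit 9197037018) (nat_lit 76) (nat_lit 2084755092) (nat_lit 340) (nat_lit 5) (nat_lit 350) (nat_lit 5) (nat_lit 341) (nat_lit 5) (nat_lit 464) (nat_lit 414) (nat_lit 262)) (XT.nd (nat_lit 78) (nat_lit 684) (nat_lit 0) (XT.lf (nat_lit 0) (nat_lit 5162324015) (nat_lit 760) (nat_lit 954133017) (nat_lit 76) (nat_lit 7916181363) (nat_lit 340) (nat_lit 5) (nat_lit 350) (nat_lit 5) (nat_lit 341) (nat_lit 5) (nat_lit 465) (nat_lit 414) (nat_lit 261)) (XT.lf (nat_lit 0) (nat_lit 7538557371) (nat_lit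 684) (nat_lit 275645651) (nat_lit 760) (nat_lit 6372631908) (nat_lit 331) (nat_lit 5) (nat_lit 340) (nat_lit 5) (nat_lit 341) (nat_lit 5) (nat_lit 466) (nat_lit 414) (nat_lit 260)))))) (XT.nd (nat_lit 390) (nat_lit 2432) (nat_lit 0) (XT.nd (nat_lit 156) (nat_lit 1292) (nat_lit 0) (XT.nd (nat_lit 78) (nat_lit 0) (nat_lit 0) (XT.lf (nat_lit 0) (nat_lit 1843222097) (nat_lit 684) (nat_lit 8719611539) (nat_lit 760) (nat_lit 3780407481) (nat_lit 322) (nat_lit 5) (nat_lit 331) (nat_lit 5) (nat_lit 332) (nat_lit 5) (nat_lit 467) (nat_lit 414) (nat_lit 259)) (XT.lf (nat_lit 0) (nat_lit 10578847473) (nat_lit 684) (nat_lit 2822563085) (nat_lit 760) (nat_lit 1100665395) (nat_lit 322) (nat_lit 5) (nat_lit 331) (nat_lit 5) (nat_lit 332) (nat_lit 5) (nat_lit 468) (nat_lit 414) (nat_lit 258))) (XT.nd (nat_lit 78) (nat_lit 608) (nat_lit 0) (XT.lf (nat_lit 0) (nat_lit 1652529140) (nat_lit 684) (nat_lit 9820014405) (nat_lit 76) (nat_lit 3190506527) (nat_lit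 313) (nat_lit 5) (nat_lit 322) (nat_lit 5) (nat_lit 314) (nat_lit 5) (nat_lit 469) (nat_lit 414) (nat_lit 257)) (XT.nd (nat_lit 78) (nat_lit 608) (nat_lit 0) (XT.lf (nat_lit 0) (nat_lit 4480069682) (nat_lit 684) (nat_lit 1029033046) (nat_lit 76) (nat_lit 9317315035) (nat_lit 313) (nat_lit 5) (nat_lit 322) (nat_lit 5) (nat_lit 314) (nat_lit 5) (nat_lit 470) (nat_lit 414) (nat_lit 256)) (XT.lf (nat_lit 0) (nat_lit 7409376778) (nat_lit 684) (nat_lit 6966898164) (nat_lit 76) (nat_lit 615873552) (nat_lit 305) (nat_lit 5) (nat_lit 314) (nat_lit 5) (nat_lit 306) (nat_lit 5) (nat_lit 471) (nat_lit 414) (nat_lit 255))))) (XT.nd (nat_lit 234) (nat_lit 1140) (nat_lit 0) (XT.nd (nat_lit 78) (nat_lit 684) (nat_lit 0) (XT.lf (nat_lit 0) (nat_lit 2090600798) (nat_lit 608) (nat_lit 8352818686) (nat_lit 684) (nat_lit 4716851366) (nat_lit 297) (nat_lit 5) (nat_lit 305) (nat_lit 5) (nat_lit 306) (nat_lit 5) (nat_lit 472) (nat_lit 414) (nat_lit 254)) (XT.nd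 (nat_lit 78) (nat_lit 684) (nat_lit 0) (XT.lf (nat_lit 0) (nat_lit 11409978261) (nat_lit 608) (nat_lit 2164180945) (nat_lit 684) (nat_lit 1756876123) (nat_lit 297) (nat_lit 5) (nat_lit 305) (nat_lit 5) (nat_lit 306) (nat_lit 5) (nat_lit 473) (nat_lit 414) (nat_lit 253)) (XT.lf (nat_lit 0) (nat_lit 1297803788) (nat_lit 684) (nat_lit 10071392195) (nat_lit 76) (nat_lit 4134813993) (nat_lit 288) (nat_lit 5) (nat_lit 297) (nat_lit 5) (nat_lit 289) (nat_lit 5) (nat_lit 474) (nat_lit 414) (nat_lit 252)))) (XT.nd (nat_lit 78) (nat_lit 1140) (nat_lit 0) (XT.lf (nat_lit 0) (nat_lit 4420399600) (nat_lit 684) (nat_lit 693224439) (nat_lit 76) (nat_lit 10565980881) (nat_lit 288) (nat_lit 5) (nat_lit 297) (nat_lit 5) (nat_lit 289) (nat_lit 5) (nat_lit 475) (nat_lit 414) (nat_lit 251)) (XT.nd (nat_lit 78) (nat_lit 608) (nat_lit 0) (XT.lf (nat_lit 0) (nat_lit 7662034828) (nat_lit 608) (nat_lit 6889518648) (nat_lit 76) (nat_lit 1306026536) (nat_lit 281)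 (nat_lit 5) (nat_lit 289) (nat_lit 5) (nat_lit 282) (nat_lit 5) (nat_lit 476) (nat_lit 414) (nat_lit 250)) (XT.lf (nat_lit 0) (nat_lit 2782030511) (nat_lit 608) (nat_lit 8232889262) (nat_lit 684) (nat_lit 5023266493) (nat_lit 273) (nat_lit 5) (nat_lit 281) (nat_lit 5) (nat_lit 282) (nat_lit 5) (nat_lit 477) (nat_lit 414) (nat_lit 249))))))) (XT.nd (nat_lit 780) (nat_lit 3268) (nat_lit 0) (XT.nd (nat_lit 390) (nat_lit 1596) (nat_lit 0) (XT.nd (nat_lit 156) (nat_lit 1064) (nat_lit 0) (XT.nd (nat_lit 78) (nat_lit 608) (nat_lit 0) (XT.lf (nat_lit 0) (nat_lit 12726980158) (nat_lit 608) (nat_lit 1744033757) (nat_lit 684) (nat_lit 1750667699) (nat_lit 273) (nat_lit 5) (nat_lit 281) (nat_lit 5) (nat_lit 282) (nat_lit 5) (nat_lit 478) (nat_lit 414) (nat_lit 248)) (XT.lf (nat_lit 0) (nat_lit 1630949687) (nat_lit 608) (nat_lit 9916019231) (nat_lit 76) (nat_lit 4860384117) (nat_lit 265) (nat_lit 5) (nat_lit 273) (nat_lit 5) (nat_lit 266) (nat_lit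 5) (nat_lit 479) (nat_lit 414) (nat_lit 247))) (XT.nd (nat_lit 78) (nat_lit 532) (nat_lit 0) (XT.lf (nat_lit 0) (nat_lit 92733358) (nat_lit 532) (nat_lit 4989944049) (nat_lit 608) (nat_lit 11513310650) (nat_lit 258) (nat_lit 5) (nat_lit 265) (nat_lit 5) (nat_lit 266) (nat_lit 5) (nat_lit 480) (nat_lit 414) (nat_lit 246)) (XT.nd (nat_lit 78) (nat_lit 532) (nat_lit 0) (XT.lf (nat_lit 0) (nat_lit 8671671115) (nat_lit 608) (nat_lit 6375916822) (nat_lit 76) (nat_lit 1739443214) (nat_lit 258) (nat_lit 5) (nat_lit 266) (nat_lit 5) (nat_lit 259) (nat_lit 5) (nat_lit 481) (nat_lit 414) (nat_lit 245)) (XT.lf (nat_lit 0) (nat_lit 3959656896) (nat_lit 532) (nat_lit 8421957282) (nat_lit 608) (nat_lit 4599297539) (nat_lit 251) (nat_lit 5) (nat_lit 258) (nat_lit 5) (nat_lit 259) (nat_lit 5) (nat_lit 482) (nat_lit 414) (nat_lit 244))))) (XT.nd (nat_lit 156) (nat_lit 988) (nat_lit 0) (XT.nd (nat_lit 78) (nat_lit 608) (nat_lit 0) (XT.lf (nat_lit 0) (nat_lit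 14575259598) (nat_lit 532) (nat_lit 1623799869) (nat_lit 608) (nat_lit 978944361) (nat_lit 251) (nat_lit 5) (nat_lit 258) (nat_lit 5) (nat_lit 259) (nat_lit 5) (nat_lit 483) (nat_lit 414) (nat_lit 243)) (XT.lf (nat_lit 0) (nat_lit 2756374329) (nat_lit 608) (nat_lit 9312970767) (nat_lit 76) (nat_lit 5307777273) (nat_lit 243) (nat_lit 5) (nat_lit 251) (nat_lit 5) (nat_lit 244) (nat_lit 5) (nat_lit 484) (nat_lit 414) (nat_lit 242))) (XT.nd (nat_lit 78) (nat_lit 532) (nat_lit 0) (XT.lf (nat_lit 0) (nat_lit 1387585080) (nat_lit 456) (nat_lit 5193780883) (nat_lit 532) (nat_lit 10998166410) (nat_lit 237) (nat_lit 5) (nat_lit 243) (nat_lit 5) (nat_lit 244) (nat_lit 5) (nat_lit 485) (nat_lit 414) (nat_lit 241)) (XT.nd (nat_lit 78) (nat_lit 532) (nat_lit 0) (XT.lf (nat_lit 0) (nat_lit 10548369715) (nat_lit 532) (nat_lit 5381701276) (nat_lit 76) (nat_lit 1854609340) (nat_lit 237) (nat_lit 5) (nat_lit 244) (nat_lit 5) (nat_lit 238) (nat_lit 5) (nat_lit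 486) (nat_lit 414) (nat_lit 240)) (XT.lf (nat_lit 0) (nat_lit 5671872297) (nat_lit 532) (nat_lit 8985034670) (nat_lit 608) (nat_lit 3335780413) (nat_lit 230) (nat_lit 5) (nat_lit 237) (nat_lit 5) (nat_lit 238) (nat_lit 5) (nat_lit 487) (nat_lit 414) (nat_lit 239)))))) (XT.nd (nat_lit 390) (nat_lit 1824) (nat_lit 0) (XT.nd (nat_lit 156) (nat_lit 912) (nat_lit 0) (XT.nd (nat_lit 78) (nat_lit 456) (nat_lit 0) (XT.lf (nat_lit 0) (nat_lit 661690507) (nat_lit 608) (nat_lit 1201980902) (nat_lit 76) (nat_lit 16340552495) (nat_lit 229) (nat_lit 5) (nat_lit 237) (nat_lit 5) (nat_lit 230) (nat_lit 5) (nat_lit 488) (nat_lit 414) (nat_lit 238)) (XT.lf (nat_lit 0) (nat_lit 4787769353) (nat_lit 532) (nat_lit 8215247835) (nat_lit 76) (nat_lit 5414666489) (nat_lit 223) (nat_lit 5) (nat_lit 230) (nat_lit 5) (nat_lit 224) (nat_lit 5) (nat_lit 489) (nat_lit 414) (nat_lit 237))) (XT.nd (nat_lit 78) (nat_lit 456) (nat_lit 0) (XT.lf (nat_lit 0) (nat_lit 3233274875)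 (nat_lit 456) (nat_lit 5795798491) (nat_lit 532) (nat_lit 9605685206) (nat_lit 217) (nat_lit 5) (nat_lit 223) (nat_lit 5) (nat_lit 224) (nat_lit 5) (nat_lit 490) (nat_lit 414) (nat_lit 236)) (XT.nd (nat_lit 78) (nat_lit 456) (nat_lit 0) (XT.lf (nat_lit 0) (nat_lit 13412110197) (nat_lit 532) (nat_lit 3856190372) (nat_lit 76) (nat_lit 1586736263) (nat_lit 217) (nat_lit 5) (nat_lit 224) (nat_lit 5) (nat_lit 218) (nat_lit 5) (nat_lit 491) (nat_lit 414) (nat_lit 235)) (XT.lf (nat_lit 0) (nat_lit 7973671779) (nat_lit 456) (nat_lit 9990772700) (nat_lit 532) (nat_lit 1113643444) (nat_lit 211) (nat_lit 5) (nat_lit 217) (nat_lit 5) (nat_lit 218) (nat_lit 5) (nat_lit 492) (nat_lit 414) (nat_lit 234))))) (XT.nd (nat_lit 234) (nat_lit 912) (nat_lit 0) (XT.nd (nat_lit 78) (nat_lit 380) (nat_lit 0) (XT.lf (nat_lit 0) (nat_lit 763156938) (nat_lit 456) (nat_lit 2518276469) (nat_lit 532) (nat_lit 16023287476) (nat_lit 204) (nat_lit 5) (nat_lit 210) (nat_lit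 5) (nat_lit 211) (nat_lit 5) (nat_lit 493) (nat_lit 414) (nat_lit 233)) (XT.nd (nat_lit 78) (nat_lit 380) (nat_lit 0) (XT.lf (nat_lit 0) (nat_lit 7849233246) (nat_lit 532) (nat_lit 6569416079) (nat_lit 76) (nat_lit 5115095294) (nat_lit 204) (nat_lit 5) (nat_lit 211) (nat_lit 5) (nat_lit 205) (nat_lit 5) (nat_lit 494) (nat_lit 414) (nat_lit 232)) (XT.lf (nat_lit 0) (nat_lit 5687720689) (nat_lit 380) (nat_lit 6866012234) (nat_lit 456) (nat_lit 7212709028) (nat_lit 199) (nat_lit 5) (nat_lit 204) (nat_lit 5) (nat_lit 205) (nat_lit 5) (nat_lit 495) (nat_lit 414) (nat_lit 231)))) (XT.nd (nat_lit 78) (nat_lit 912) (nat_lit 0) (XT.lf (nat_lit 0) (nat_lit 17393931109) (nat_lit 456) (nat_lit 1742019610) (nat_lit 76) (nat_lit 867010340) (nat_lit 199) (nat_lit 5) (nat_lit 205) (nat_lit 5) (nat_lit 200) (nat_lit 5) (nat_lit 496) (nat_lit 414) (nat_lit 230)) (XT.nd (nat_lit 78) (nat_lit 380) (nat_lit 0) (XT.lf (nat_lit 0) (nat_lit 2168443208) (nat_lit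 532) (nat_lit 9329236936) (nat_lit 76) (nat_lit 8744077675) (nat_lit 192) (nat_lit 5) (nat_lit 199) (nat_lit 5) (nat_lit 193) (nat_lit 5) (nat_lit 497) (nat_lit 414) (nat_lit 229)) (XT.lf (nat_lit 0) (nat_lit 3373344824) (nat_lit 380) (nat_lit 3658868918) (nat_lit 456) (nat_lit 13452258200) (nat_lit 187) (nat_lit 5) (nat_lit 192) (nat_lit 5) (nat_lit 193) (nat_lit 5) (nat_lit 498) (nat_lit 414) (nat_lit 228))))))))
noncomputable def xc192 : XT := (XT.nd (nat_lit 54288) (nat_lit 0) (nat_lit 17024) (XT.nd (nat_lit 53508) (nat_lit 0) (nat_lit 27740) (XT.nd (nat_lit 53118) (nat_lit 0) (nat_lit 29108) (XT.nd (nat_lit 52884) (nat_lit 0) (nat_lit 30552) (XT.nd (nat_lit 52806) (nat_lit 0) (nat_lit 30552) (XT.lf (nat_lit 0) (nat_lit 12076467397) (nat_lit 456) (nat_lit 4315182960) (nat_lit 76) (nat_lit 4338725836) (nat_lit 187) (nat_lit 5) (nat_lit 193) (nat_lit 5) (nat_lit 188) (nat_lit 5) (nat_lit 499) (nat_lit 414) (nat_lit 227)) (XT.lf (nat_lit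 0) (nat_lit 1620780530) (nat_lit 1596) (nat_lit 1384428070) (nat_lit 1596) (nat_lit 1384428070) (nat_lit 589) (nat_lit 3) (nat_lit 610) (nat_lit 3) (nat_lit 610) (nat_lit 5) (nat_lit 415) (nat_lit 415) (nat_lit 310))) (XT.nd (nat_lit 78) (nat_lit 0) (nat_lit 76) (XT.lf (nat_lit 76) (nat_lit 1642319850) (nat_lit 0) (nat_lit 2604841811) (nat_lit 1596) (nat_lit 4600440712) (nat_lit 590) (nat_lit 5) (nat_lit 589) (nat_lit 3) (nat_lit 610) (nat_lit 5) (nat_lit 416) (nat_lit 415) (nat_lit 309)) (XT.nd (nat_lit 78) (nat_lit 0) (nat_lit 0) (XT.lf (nat_lit 0) (nat_lit 5271966677) (nat_lit 1520) (nat_lit 2757072252) (nat_lit 1596) (nat_lit 888277210) (nat_lit 590) (nat_lit 5) (nat_lit 610) (nat_lit 5) (nat_lit 611) (nat_lit 5) (nat_lit 417) (nat_lit 415) (nat_lit 308)) (XT.lf (nat_lit 76) (nat_lit 1772735042) (nat_lit 0) (nat_lit 4548536025) (nat_lit 1596) (nat_lit 2667073048) (nat_lit 591) (nat_lit 5) (nat_lit 590) (nat_lit 5) (nat_lit 611) (nat_lit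 5) (nat_lit 418) (nat_lit 415) (nat_lit 307))))) (XT.nd (nat_lit 156) (nat_lit 1520) (nat_lit 0) (XT.nd (nat_lit 78) (nat_lit 0) (nat_lit 76) (XT.lf (nat_lit 76) (nat_lit 6417232945) (nat_lit 0) (nat_lit 968472121) (nat_lit 1596) (nat_lit 1675204714) (nat_lit 591) (nat_lit 5) (nat_lit 590) (nat_lit 5) (nat_lit 611) (nat_lit 5) (nat_lit 419) (nat_lit 415) (nat_lit 306)) (XT.lf (nat_lit 76) (nat_lit 2015135698) (nat_lit 0) (nat_lit 6462986961) (nat_lit 1596) (nat_lit 656670201) (nat_lit 592) (nat_lit 5) (nat_lit 591) (nat_lit 5) (nat_lit 612) (nat_lit 5) (nat_lit 420) (nat_lit 415) (nat_lit 305))) (XT.nd (nat_lit 78) (nat_lit 0) (nat_lit 76) (XT.lf (nat_lit 0) (nat_lit 377908027) (nat_lit 1596) (nat_lit 2429641844) (nat_lit 1672) (nat_lit 6402540374) (nat_lit 570) (nat_lit 5) (nat_lit 591) (nat_lit 5) (nat_lit 592) (nat_lit 5) (nat_lit 421) (nat_lit 415) (nat_lit 304)) (XT.nd (nat_lit 78) (nat_lit 0) (nat_lit 0) (XT.lf (nat_lit 0) (nat_lit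 1422813210) (nat_lit 1596) (nat_lit 6925781016) (nat_lit 1672) (nat_lit 938243977) (nat_lit 571) (nat_lit 5) (nat_lit 592) (nat_lit 5) (nat_lit 593) (nat_lit 5) (nat_lit 422) (nat_lit 415) (nat_lit 303)) (XT.lf (nat_lit 0) (nat_lit 2500925330) (nat_lit 1596) (nat_lit 2116938100) (nat_lit 1672) (nat_lit 4747011512) (nat_lit 571) (nat_lit 5) (nat_lit 592) (nat_lit 5) (nat_lit 593) (nat_lit 5) (nat_lit 423) (nat_lit 415) (nat_lit 302)))))) (XT.nd (nat_lit 390) (nat_lit 1444) (nat_lit 0) (XT.nd (nat_lit 156) (nat_lit 0) (nat_lit 76) (XT.nd (nat_lit 78) (nat_lit 0) (nat_lit 76) (XT.lf (nat_lit 76) (nat_lit 2811278887) (nat_lit 0) (nat_lit 785322157) (nat_lit 1672) (nat_lit 5847951345) (nat_lit 572) (nat_lit 5) (nat_lit 571) (nat_lit 5) (nat_lit 593) (nat_lit 5) (nat_lit 424) (nat_lit 415) (nat_lit 301)) (XT.lf (nat_lit 0) (nat_lit 4726923150) (nat_lit 1596) (nat_lit 1693235058) (nat_lit 1672) (nat_lit 3105410520) (nat_lit 572) (nat_lit 5)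 (nat_lit 593) (nat_lit 5) (nat_lit 594) (nat_lit 5) (nat_lit 425) (nat_lit 415) (nat_lit 300))) (XT.nd (nat_lit 78) (nat_lit 0) (nat_lit 76) (XT.lf (nat_lit 76) (nat_lit 3370812806) (nat_lit 0) (nat_lit 2514704461) (nat_lit 1672) (nat_lit 3722574815) (nat_lit 573) (nat_lit 5) (nat_lit 572) (nat_lit 5) (nat_lit 594) (nat_lit 5) (nat_lit 426) (nat_lit 415) (nat_lit 299)) (XT.nd (nat_lit 78) (nat_lit 0) (nat_lit 0) (XT.lf (nat_lit 0) (nat_lit 7067215960) (nat_lit 1596) (nat_lit 1156735118) (nat_lit 1672) (nat_lit 1468316171) (nat_lit 573) (nat_lit 5) (nat_lit 594) (nat_lit 5) (nat_lit 595) (nat_lit 5) (nat_lit 427) (nat_lit 415) (nat_lit 298)) (XT.lf (nat_lit 76) (nat_lit 4047955632) (nat_lit 0) (nat_lit 4246899407) (nat_lit 1672) (nat_lit 1482824752) (nat_lit 574) (nat_lit 5) (nat_lit 573) (nat_lit 5) (nat_lit 595) (nat_lit 5) (nat_lit 428) (nat_lit 415) (nat_lit 297))))) (XT.nd (nat_lit 156) (nat_lit 0) (nat_lit 0) (XT.nd (nat_lit 78)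 (nat_lit 1596) (nat_lit 0) (XT.lf (nat_lit 76) (nat_lit 9358611214) (nat_lit 0) (nat_lit 175883556) (nat_lit 1672) (nat_lit 330556857) (nat_lit 574) (nat_lit 5) (nat_lit 573) (nat_lit 5) (nat_lit 595) (nat_lit 5) (nat_lit 429) (nat_lit 415) (nat_lit 296)) (XT.lf (nat_lit 0) (nat_lit 871325990) (nat_lit 1672) (nat_lit 5114098716) (nat_lit 1748) (nat_lit 3967883525) (nat_lit 552) (nat_lit 5) (nat_lit 574) (nat_lit 5) (nat_lit 575) (nat_lit 5) (nat_lit 430) (nat_lit 415) (nat_lit 295))) (XT.nd (nat_lit 78) (nat_lit 0) (nat_lit 76) (XT.lf (nat_lit 76) (nat_lit 241012168) (nat_lit 0) (nat_lit 1838258107) (nat_lit 1748) (nat_lit 7964286993) (nat_lit 553) (nat_lit 5) (nat_lit 552) (nat_lit 5) (nat_lit 575) (nat_lit 5) (nat_lit 431) (nat_lit 415) (nat_lit 294)) (XT.nd (nat_lit 78) (nat_lit 0) (nat_lit 0) (XT.lf (nat_lit 0) (nat_lit 3342073594) (nat_lit 1672) (nat_lit 4392611056) (nat_lit 1748) (nat_lit 2400312632) (nat_lit 553) (nat_lit 5) (nat_lit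 575) (nat_lit 5) (nat_lit 576) (nat_lit 5) (nat_lit 432) (nat_lit 415) (nat_lit 293)) (XT.lf (nat_lit 76) (nat_lit 1113761229) (nat_lit 0) (nat_lit 3516781914) (nat_lit 1748) (nat_lit 5597714751) (nat_lit 554) (nat_lit 5) (nat_lit 553) (nat_lit 5) (nat_lit 576) (nat_lit 5) (nat_lit 433) (nat_lit 415) (nat_lit 292))))))) (XT.nd (nat_lit 780) (nat_lit 5700) (nat_lit 0) (XT.nd (nat_lit 390) (nat_lit 3496) (nat_lit 0) (XT.nd (nat_lit 156) (nat_lit 1672) (nat_lit 0) (XT.nd (nat_lit 78) (nat_lit 0) (nat_lit 0) (XT.lf (nat_lit 0) (nat_lit 5960869728) (nat_lit 1672) (nat_lit 3552789866) (nat_lit 1748) (nat_lit 809402373) (nat_lit 554) (nat_lit 5) (nat_lit 576) (nat_lit 5) (nat_lit 577) (nat_lit 5) (nat_lit 434) (nat_lit 415) (nat_lit 291)) (XT.lf (nat_lit 76) (nat_lit 2110318147) (nat_lit 0) (nat_lit 5226158433) (nat_lit 1748) (nat_lit 3082912064) (nat_lit 555) (nat_lit 5) (nat_lit 554) (nat_lit 5) (nat_lit 577) (nat_lit 5) (nat_lit 435) (nat_lit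 415) (nat_lit 290))) (XT.nd (nat_lit 78) (nat_lit 1672) (nat_lit 0) (XT.lf (nat_lit 76) (nat_lit 7920720700) (nat_lit 0) (nat_lit 824665620) (nat_lit 1748) (nat_lit 1772139721) (nat_lit 555) (nat_lit 5) (nat_lit 554) (nat_lit 5) (nat_lit 577) (nat_lit 5) (nat_lit 436) (nat_lit 415) (nat_lit 289)) (XT.nd (nat_lit 78) (nat_lit 1748) (nat_lit 0) (XT.lf (nat_lit 76) (nat_lit 3234097671) (nat_lit 0) (nat_lit 6975497738) (nat_lit 1748) (nat_lit 407488354) (nat_lit 556) (nat_lit 5) (nat_lit 555) (nat_lit 5) (nat_lit 578) (nat_lit 5) (nat_lit 437) (nat_lit 415) (nat_lit 288)) (XT.lf (nat_lit 0) (nat_lit 977015364) (nat_lit 1748) (nat_lit 1527801421) (nat_lit 1824) (nat_lit 8213578607) (nat_lit 532) (nat_lit 5) (nat_lit 555) (nat_lit 5) (nat_lit 556) (nat_lit 5) (nat_lit 438) (nat_lit 415) (nat_lit 287))))) (XT.nd (nat_lit 156) (nat_lit 3572) (nat_lit 0) (XT.nd (nat_lit 78) (nat_lit 0) (nat_lit 0) (XT.lf (nat_lit 0) (nat_lit 2409274470) (nat_lit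 1748) (nat_lit 6348471623) (nat_lit 76) (nat_lit 2063422858) (nat_lit 533) (nat_lit 5) (nat_lit 556) (nat_lit 5) (nat_lit 534) (nat_lit 5) (nat_lit 439) (nat_lit 415) (nat_lit 286)) (XT.lf (nat_lit 0) (nat_lit 3880164224) (nat_lit 1748) (nat_lit 342884727) (nat_lit 76) (nat_lit 6702749321) (nat_lit 533) (nat_lit 5) (nat_lit 556) (nat_lit 5) (nat_lit 534) (nat_lit 5) (nat_lit 440) (nat_lit 415) (nat_lit 285))) (XT.nd (nat_lit 78) (nat_lit 1824) (nat_lit 0) (XT.lf (nat_lit 0) (nat_lit 5404712864) (nat_lit 1824) (nat_lit 5189565568) (nat_lit 76) (nat_lit 437756926) (nat_lit 510) (nat_lit 5) (nat_lit 534) (nat_lit 5) (nat_lit 511) (nat_lit 5) (nat_lit 441) (nat_lit 415) (nat_lit 284)) (XT.nd (nat_lit 78) (nat_lit 0) (nat_lit 0) (XT.lf (nat_lit 0) (nat_lit 986463198) (nat_lit 1824) (nat_lit 5993636300) (nat_lit 1900) (nat_lit 4159890747) (nat_lit 486) (nat_lit 5) (nat_lit 510) (nat_lit 5) (nat_lit 511) (nat_lit 5) (nat_lit 442) (nat_lit 415)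 (nat_lit 283)) (XT.lf (nat_lit 0) (nat_lit 7342132560) (nat_lit 1824) (nat_lit 1263572932) (nat_lit 1900) (nat_lit 2644024505) (nat_lit 486) (nat_lit 5) (nat_lit 510) (nat_lit 5) (nat_lit 511) (nat_lit 5) (nat_lit 443) (nat_lit 415) (nat_lit 282)))))) (XT.nd (nat_lit 390) (nat_lit 2660) (nat_lit 0) (XT.nd (nat_lit 156) (nat_lit 1824) (nat_lit 0) (XT.nd (nat_lit 78) (nat_lit 76) (nat_lit 0) (XT.lf (nat_lit 0) (nat_lit 2458093206) (nat_lit 1140) (nat_lit 7829025809) (nat_lit 1216) (nat_lit 1074079621) (nat_lit 471) (nat_lit 5) (nat_lit 486) (nat_lit 5) (nat_lit 487) (nat_lit 5) (nat_lit 444) (nat_lit 415) (nat_lit 281)) (XT.lf (nat_lit 0) (nat_lit 539441929) (nat_lit 1216) (nat_lit 2496660335) (nat_lit 76) (nat_lit 8438344059) (nat_lit 470) (nat_lit 5) (nat_lit 486) (nat_lit 5) (nat_lit 471) (nat_lit 5) (nat_lit 445) (nat_lit 415) (nat_lit 280))) (XT.nd (nat_lit 78) (nat_lit 912) (nat_lit 0) (XT.lf (nat_lit 0) (nat_lit 2194186617) (nat_lit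 988) (nat_lit 7531781382) (nat_lit 76) (nat_lit 1863382277) (nat_lit 458) (nat_lit 5) (nat_lit 471) (nat_lit 5) (nat_lit 459) (nat_lit 5) (nat_lit 446) (nat_lit 415) (nat_lit 279)) (XT.nd (nat_lit 78) (nat_lit 912) (nat_lit 0) (XT.lf (nat_lit 0) (nat_lit 3903851824) (nat_lit 988) (nat_lit 964033998) (nat_lit 76) (nat_lit 6838229975) (nat_lit 458) (nat_lit 5) (nat_lit 471) (nat_lit 5) (nat_lit 459) (nat_lit 5) (nat_lit 447) (nat_lit 415) (nat_lit 278)) (XT.lf (nat_lit 0) (nat_lit 5671321436) (nat_lit 988) (nat_lit 6028528671) (nat_lit 76) (nat_lit 124894299) (nat_lit 446) (nat_lit 5) (nat_lit 459) (nat_lit 5) (nat_lit 447) (nat_lit 5) (nat_lit 448) (nat_lit 415) (nat_lit 277))))) (XT.nd (nat_lit 234) (nat_lit 912) (nat_lit 0) (XT.nd (nat_lit 78) (nat_lit 912) (nat_lit 0) (XT.lf (nat_lit 0) (nat_lit 722062484) (nat_lit 836) (nat_lit 6780871940) (nat_lit 912) (nat_lit 4442235283) (nat_lit 435) (nat_lit 5) (nat_lit 446) (nat_lit 5) (nat_lit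 447) (nat_lit 5) (nat_lit 449) (nat_lit 415) (nat_lit 276)) (XT.nd (nat_lit 78) (nat_lit 912) (nat_lit 0) (XT.lf (nat_lit 0) (nat_lit 7675228509) (nat_lit 836) (nat_lit 1721957198) (nat_lit 912) (nat_lit 2670297688) (nat_lit 435) (nat_lit 5) (nat_lit 446) (nat_lit 5) (nat_lit 447) (nat_lit 5) (nat_lit 450) (nat_lit 415) (nat_lit 275)) (XT.lf (nat_lit 0) (nat_lit 2572467344) (nat_lit 912) (nat_lit 8781716098) (nat_lit 988) (nat_lit 837562685) (nat_lit 423) (nat_lit 5) (nat_lit 435) (nat_lit 5) (nat_lit 436) (nat_lit 5) (nat_lit 451) (nat_lit 415) (nat_lit 274)))) (XT.nd (nat_lit 78) (nat_lit 836) (nat_lit 0) (XT.lf (nat_lit 0) (nat_lit 1045298052) (nat_lit 988) (nat_lit 2614437294) (nat_lit 76) (nat_lit 8658084708) (nat_lit 422) (nat_lit 5) (nat_lit 435) (nat_lit 5) (nat_lit 423) (nat_lit 5) (nat_lit 452) (nat_lit 415) (nat_lit 273)) (XT.nd (nat_lit 78) (nat_lit 0) (nat_lit 0) (XT.lf (nat_lit 0) (nat_lit 2980886341) (nat_lit 912) (nat_lit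 7885452268) (nat_lit 76) (nat_lit 1579440421) (nat_lit 411) (nat_lit 5) (nat_lit 423) (nat_lit 5) (nat_lit 412) (nat_lit 5) (nat_lit 453) (nat_lit 415) (nat_lit 272)) (XT.lf (nat_lit 0) (nat_lit 4983468319) (nat_lit 912) (nat_lit 700429332) (nat_lit 76) (nat_lit 6891833893) (nat_lit 411) (nat_lit 5) (nat_lit 423) (nat_lit 5) (nat_lit 412) (nat_lit 5) (nat_lit 454) (nat_lit 415) (nat_lit 271))))))))
noncomputable def xc193 : XT := (XT.nd (nat_lit 1560) (nat_lit 7068) (nat_lit 0) (XT.nd (nat_lit 780) (nat_lit 3952) (nat_lit 0) (XT.nd (nat_lit 390) (nat_lit 2280) (nat_lit 0) (XT.nd (nat_lit 156) (nat_lit 836) (nat_lit 0) (XT.nd (nat_lit 78) (nat_lit 760) (nat_lit 0) (XT.lf (nat_lit 0) (nat_lit 6702318056) (nat_lit 836) (nat_lit 353951569) (nat_lit 912) (nat_lit 5651410132) (nat_lit 400) (nat_lit 5) (nat_lit 411) (nat_lit 5) (nat_lit 412) (nat_lit 5) (nat_lit 455) (nat_lit 415) (nat_lit 270)) (XT.lf (nat_lit 0) (nat_lit 1391616206) (nat_lit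 760) (nat_lit 7812497034) (nat_lit 836) (nat_lit 3637481967) (nat_lit 390) (nat_lit 5) (nat_lit 400) (nat_lit 5) (nat_lit 401) (nat_lit 5) (nat_lit 456) (nat_lit 415) (nat_lit 269))) (XT.nd (nat_lit 78) (nat_lit 836) (nat_lit 0) (XT.lf (nat_lit 0) (nat_lit 9001608778) (nat_lit 760) (nat_lit 2422920593) (nat_lit 836) (nat_lit 1553067284) (nat_lit 390) (nat_lit 5) (nat_lit 400) (nat_lit 5) (nat_lit 401) (nat_lit 5) (nat_lit 457) (nat_lit 415) (nat_lit 268)) (XT.nd (nat_lit 78) (nat_lit 0) (nat_lit 0) (XT.lf (nat_lit 0) (nat_lit 596697344) (nat_lit 836) (nat_lit 9458009365) (nat_lit 76) (nat_lit 3060913469) (nat_lit 379) (nat_lit 5) (nat_lit 390) (nat_lit 5) (nat_lit 380) (nat_lit 5) (nat_lit 458) (nat_lit 415) (nat_lit 267)) (XT.lf (nat_lit 0) (nat_lit 2798898602) (nat_lit 836) (nat_lit 1798607692) (nat_lit 76) (nat_lit 8658087825) (nat_lit 379) (nat_lit 5) (nat_lit 390) (nat_lit 5) (nat_lit 380) (nat_lit 5) (nat_lit 459) (nat_lit 415)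 (nat_lit 266))))) (XT.nd (nat_lit 156) (nat_lit 760) (nat_lit 0) (XT.nd (nat_lit 78) (nat_lit 760) (nat_lit 0) (XT.lf (nat_lit 0) (nat_lit 5078725291) (nat_lit 836) (nat_lit 7324379758) (nat_lit 76) (nat_lit 994590859) (nat_lit 369) (nat_lit 5) (nat_lit 380) (nat_lit 5) (nat_lit 370) (nat_lit 5) (nat_lit 460) (nat_lit 415) (nat_lit 265)) (XT.lf (nat_lit 0) (nat_lit 547435171) (nat_lit 760) (nat_lit 6890573440) (nat_lit 836) (nat_lit 6103953922) (nat_lit 359) (nat_lit 5) (nat_lit 369) (nat_lit 5) (nat_lit 370) (nat_lit 5) (nat_lit 461) (nat_lit 415) (nat_lit 264))) (XT.nd (nat_lit 78) (nat_lit 760) (nat_lit 0) (XT.lf (nat_lit 0) (nat_lit 8662183323) (nat_lit 760) (nat_lit 1219305388) (nat_lit 836) (nat_lit 3806885556) (nat_lit 359) (nat_lit 5) (nat_lit 369) (nat_lit 5) (nat_lit 370) (nat_lit 5) (nat_lit 462) (nat_lit 415) (nat_lit 263)) (XT.nd (nat_lit 78) (nat_lit 76) (nat_lit 0) (XT.lf (nat_lit 0) (nat_lit 3098767389) (nat_lit 684) (nat_lit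 9312920013) (nat_lit 760) (nat_lit 1425269855) (nat_lit 350) (nat_lit 5) (nat_lit 359) (nat_lit 5) (nat_lit 360) (nat_lit 5) (nat_lit 463) (nat_lit 415) (nat_lit 262)) (XT.lf (nat_lit 0) (nat_lit 1020992625) (nat_lit 760) (nat_lit 2562109002) (nat_lit 76) (nat_lit 10404676272) (nat_lit 349) (nat_lit 5) (nat_lit 359) (nat_lit 5) (nat_lit 350) (nat_lit 5) (nat_lit 464) (nat_lit 415) (nat_lit 261)))))) (XT.nd (nat_lit 390) (nat_lit 1900) (nat_lit 0) (XT.nd (nat_lit 156) (nat_lit 684) (nat_lit 0) (XT.nd (nat_lit 78) (nat_lit 684) (nat_lit 0) (XT.lf (nat_lit 0) (nat_lit 3538342584) (nat_lit 760) (nat_lit 8324895199) (nat_lit 76) (nat_lit 2277363820) (nat_lit 340) (nat_lit 5) (nat_lit 350) (nat_lit 5) (nat_lit 341) (nat_lit 5) (nat_lit 465) (nat_lit 415) (nat_lit 260)) (XT.lf (nat_lit 0) (nat_lit 62985446) (nat_lit 684) (nat_lit 6073014112) (nat_lit 760) (nat_lit 8159883023) (nat_lit 331) (nat_lit 5) (nat_lit 340) (nat_lit 5) (nat_lit 341)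 (nat_lit 5) (nat_lit 466) (nat_lit 415) (nat_lit 259))) (XT.nd (nat_lit 78) (nat_lit 684) (nat_lit 0) (XT.lf (nat_lit 0) (nat_lit 8717891898) (nat_lit 684) (nat_lit 112234201) (nat_lit 760) (nat_lit 5623252749) (nat_lit 331) (nat_lit 5) (nat_lit 340) (nat_lit 5) (nat_lit 341) (nat_lit 5) (nat_lit 467) (nat_lit 415) (nat_lit 258)) (XT.nd (nat_lit 78) (nat_lit 0) (nat_lit 0) (XT.lf (nat_lit 0) (nat_lit 2917873172) (nat_lit 684) (nat_lit 8706813750) (nat_lit 760) (nat_lit 2988407085) (nat_lit 322) (nat_lit 5) (nat_lit 331) (nat_lit 5) (nat_lit 332) (nat_lit 5) (nat_lit 468) (nat_lit 415) (nat_lit 257)) (XT.lf (nat_lit 0) (nat_lit 11807862297) (nat_lit 684) (nat_lit 2695494720) (nat_lit 760) (nat_lit 272082090) (nat_lit 322) (nat_lit 5) (nat_lit 331) (nat_lit 5) (nat_lit 332) (nat_lit 5) (nat_lit 469) (nat_lit 415) (nat_lit 256))))) (XT.nd (nat_lit 156) (nat_lit 1216) (nat_lit 0) (XT.nd (nat_lit 78) (nat_lit 0) (nat_lit 0) (XT.lf (nat_lit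 0) (nat_lit 2516443319) (nat_lit 684) (nat_lit 8979243802) (nat_lit 76) (nat_lit 3444006679) (nat_lit 313) (nat_lit 5) (nat_lit 322) (nat_lit 5) (nat_lit 314) (nat_lit 5) (nat_lit 470) (nat_lit 415) (nat_lit 255)) (XT.lf (nat_lit 0) (nat_lit 5384243229) (nat_lit 684) (nat_lit 32779500) (nat_lit 76) (nat_lit 9689631946) (nat_lit 313) (nat_lit 5) (nat_lit 322) (nat_lit 5) (nat_lit 314) (nat_lit 5) (nat_lit 471) (nat_lit 415) (nat_lit 254))) (XT.nd (nat_lit 78) (nat_lit 608) (nat_lit 0) (XT.lf (nat_lit 0) (nat_lit 8364053896) (nat_lit 684) (nat_lit 6081319349) (nat_lit 76) (nat_lit 830488427) (nat_lit 305) (nat_lit 5) (nat_lit 314) (nat_lit 5) (nat_lit 306) (nat_lit 5) (nat_lit 472) (nat_lit 415) (nat_lit 253)) (XT.nd (nat_lit 78) (nat_lit 0) (nat_lit 0) (XT.lf (nat_lit 0) (nat_lit 3150586718) (nat_lit 608) (nat_lit 8298987877) (nat_lit 684) (nat_lit 3997955937) (nat_lit 297) (nat_lit 5) (nat_lit 305) (nat_lit 5) (nat_lit 306) (nat_lit 5)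 (nat_lit 473) (nat_lit 415) (nat_lit 252)) (XT.lf (nat_lit 0) (nat_lit 12636387536) (nat_lit 608) (nat_lit 1990908503) (nat_lit 684) (nat_lit 994726924) (nat_lit 297) (nat_lit 5) (nat_lit 305) (nat_lit 5) (nat_lit 306) (nat_lit 5) (nat_lit 474) (nat_lit 415) (nat_lit 251))))))) (XT.nd (nat_lit 780) (nat_lit 3572) (nat_lit 0) (XT.nd (nat_lit 390) (nat_lit 1672) (nat_lit 0) (XT.nd (nat_lit 156) (nat_lit 608) (nat_lit 0) (XT.nd (nat_lit 78) (nat_lit 532) (nat_lit 0) (XT.lf (nat_lit 0) (nat_lit 2103122980) (nat_lit 684) (nat_lit 9256686724) (nat_lit 76) (nat_lit 4438693209) (nat_lit 288) (nat_lit 5) (nat_lit 297) (nat_lit 5) (nat_lit 289) (nat_lit 5) (nat_lit 475) (nat_lit 415) (nat_lit 250)) (XT.lf (nat_lit 0) (nat_lit 292962459) (nat_lit 532) (nat_lit 4981828726) (nat_lit 608) (nat_lit 10703086161) (nat_lit 281) (nat_lit 5) (nat_lit 288) (nat_lit 5) (nat_lit 289) (nat_lit 5) (nat_lit 476) (nat_lit 415) (nat_lit 249))) (XT.nd (nat_lit 78)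 (nat_lit 608) (nat_lit 0) (XT.lf (nat_lit 0) (nat_lit 8572320647) (nat_lit 608) (nat_lit 6024063524) (nat_lit 76) (nat_lit 1563206538) (nat_lit 281) (nat_lit 5) (nat_lit 289) (nat_lit 5) (nat_lit 282) (nat_lit 5) (nat_lit 477) (nat_lit 415) (nat_lit 248)) (XT.nd (nat_lit 78) (nat_lit 0) (nat_lit 0) (XT.lf (nat_lit 0) (nat_lit 3834316319) (nat_lit 608) (nat_lit 8149573832) (nat_lit 684) (nat_lit 4360086401) (nat_lit 273) (nat_lit 5) (nat_lit 281) (nat_lit 5) (nat_lit 282) (nat_lit 5) (nat_lit 478) (nat_lit 415) (nat_lit 247)) (XT.lf (nat_lit 0) (nat_lit 13958622896) (nat_lit 608) (nat_lit 1535803437) (nat_lit 684) (nat_lit 1037009071) (nat_lit 273) (nat_lit 5) (nat_lit 281) (nat_lit 5) (nat_lit 282) (nat_lit 5) (nat_lit 479) (nat_lit 415) (nat_lit 246))))) (XT.nd (nat_lit 156) (nat_lit 532) (nat_lit 0) (XT.nd (nat_lit 78) (nat_lit 532) (nat_lit 0) (XT.lf (nat_lit 0) (nat_lit 2395921183) (nat_lit 608) (nat_lit 9120917000) (nat_lit 76) (nat_lit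 5204014863) (nat_lit 265) (nat_lit 5) (nat_lit 273) (nat_lit 5) (nat_lit 266) (nat_lit 5) (nat_lit 480) (nat_lit 415) (nat_lit 245)) (XT.lf (nat_lit 0) (nat_lit 1081474965) (nat_lit 532) (nat_lit 4827256163) (nat_lit 608) (nat_lit 11004688686) (nat_lit 258) (nat_lit 5) (nat_lit 265) (nat_lit 5) (nat_lit 266) (nat_lit 5) (nat_lit 481) (nat_lit 415) (nat_lit 244))) (XT.nd (nat_lit 78) (nat_lit 532) (nat_lit 0) (XT.lf (nat_lit 0) (nat_lit 9556971608) (nat_lit 608) (nat_lit 5523365839) (nat_lit 76) (nat_lit 2028196986) (nat_lit 258) (nat_lit 5) (nat_lit 266) (nat_lit 5) (nat_lit 259) (nat_lit 5) (nat_lit 482) (nat_lit 415) (nat_lit 243)) (XT.nd (nat_lit 78) (nat_lit 0) (nat_lit 0) (XT.lf (nat_lit 0) (nat_lit 5012471529) (nat_lit 532) (nat_lit 8321005222) (nat_lit 608) (nat_lit 3972968595) (nat_lit 251) (nat_lit 5) (nat_lit 258) (nat_lit 5) (nat_lit 259) (nat_lit 5) (nat_lit 483) (nat_lit 415) (nat_lit 242)) (XT.lf (nat_lit 0) (nat_lit 15821295667)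 (nat_lit 532) (nat_lit 1392166841) (nat_lit 608) (nat_lit 294292959) (nat_lit 251) (nat_lit 5) (nat_lit 258) (nat_lit 5) (nat_lit 259) (nat_lit 5) (nat_lit 484) (nat_lit 415) (nat_lit 241)))))) (XT.nd (nat_lit 390) (nat_lit 1900) (nat_lit 0) (XT.nd (nat_lit 156) (nat_lit 608) (nat_lit 0) (XT.nd (nat_lit 78) (nat_lit 456) (nat_lit 0) (XT.lf (nat_lit 0) (nat_lit 3500836909) (nat_lit 608) (nat_lit 8529804111) (nat_lit 76) (nat_lit 5680237095) (nat_lit 243) (nat_lit 5) (nat_lit 251) (nat_lit 5) (nat_lit 244) (nat_lit 5) (nat_lit 485) (nat_lit 415) (nat_lit 240)) (XT.lf (nat_lit 0) (nat_lit 2378385051) (nat_lit 456) (nat_lit 5016679700) (nat_lit 532) (nat_lit 10522416841) (nat_lit 237) (nat_lit 5) (nat_lit 243) (nat_lit 5) (nat_lit 244) (nat_lit 5) (nat_lit 486) (nat_lit 415) (nat_lit 239))) (XT.nd (nat_lit 78) (nat_lit 608) (nat_lit 0) (XT.lf (nat_lit 0) (nat_lit 11429823144) (nat_lit 532) (nat_lit 4533584899) (nat_lit 76) (nat_lit 2163556173)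 (nat_lit 237) (nat_lit 5) (nat_lit 244) (nat_lit 5) (nat_lit 238) (nat_lit 5) (nat_lit 487) (nat_lit 415) (nat_lit 238)) (XT.nd (nat_lit 78) (nat_lit 76) (nat_lit 0) (XT.lf (nat_lit 0) (nat_lit 6734772313) (nat_lit 532) (nat_lit 8878776583) (nat_lit 608) (nat_lit 2725722154) (nat_lit 230) (nat_lit 5) (nat_lit 237) (nat_lit 5) (nat_lit 238) (nat_lit 5) (nat_lit 488) (nat_lit 415) (nat_lit 237)) (XT.lf (nat_lit 0) (nat_lit 1329726136) (nat_lit 608) (nat_lit 286472891) (nat_lit 76) (nat_lit 16939013318) (nat_lit 229) (nat_lit 5) (nat_lit 237) (nat_lit 5) (nat_lit 230) (nat_lit 5) (nat_lit 489) (nat_lit 415) (nat_lit 236))))) (XT.nd (nat_lit 234) (nat_lit 988) (nat_lit 0) (XT.nd (nat_lit 78) (nat_lit 456) (nat_lit 0) (XT.lf (nat_lit 0) (nat_lit 5533399983) (nat_lit 532) (nat_lit 7435078586) (nat_lit 76) (nat_lit 5804561276) (nat_lit 223) (nat_lit 5) (nat_lit 230) (nat_lit 5) (nat_lit 224) (nat_lit 5) (nat_lit 490) (nat_lit 415) (nat_lit 235))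 (XT.nd (nat_lit 78) (nat_lit 0) (nat_lit 0) (XT.lf (nat_lit 0) (nat_lit 4236200932) (nat_lit 456) (nat_lit 5616678303) (nat_lit 532) (nat_lit 9141710021) (nat_lit 217) (nat_lit 5) (nat_lit 223) (nat_lit 5) (nat_lit 224) (nat_lit 5) (nat_lit 491) (nat_lit 415) (nat_lit 234)) (XT.lf (nat_lit 0) (nat_lit 14312842569) (nat_lit 532) (nat_lit 3002716653) (nat_lit 76) (nat_lit 1903928544) (nat_lit 217) (nat_lit 5) (nat_lit 224) (nat_lit 5) (nat_lit 218) (nat_lit 5) (nat_lit 492) (nat_lit 415) (nat_lit 233)))) (XT.nd (nat_lit 78) (nat_lit 532) (nat_lit 0) (XT.lf (nat_lit 0) (nat_lit 9057620389) (nat_lit 456) (nat_lit 9892203686) (nat_lit 532) (nat_lit 497303792) (nat_lit 211) (nat_lit 5) (nat_lit 217) (nat_lit 5) (nat_lit 218) (nat_lit 5) (nat_lit 493) (nat_lit 415) (nat_lit 232)) (XT.nd (nat_lit 78) (nat_lit 0) (nat_lit 0) (XT.lf (nat_lit 0) (nat_lit 1705133594) (nat_lit 456) (nat_lit 2265824735) (nat_lit 532) (nat_lit 15707379048) (nat_lit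 204) (nat_lit 5) (nat_lit 210) (nat_lit 5) (nat_lit 211) (nat_lit 5) (nat_lit 494) (nat_lit 415) (nat_lit 231)) (XT.lf (nat_lit 0) (nat_lit 8619808443) (nat_lit 532) (nat_lit 5781956017) (nat_lit 76) (nat_lit 5510383240) (nat_lit 204) (nat_lit 5) (nat_lit 211) (nat_lit 5) (nat_lit 205) (nat_lit 5) (nat_lit 495) (nat_lit 415) (nat_lit 230))))))))
noncomputable def xc194 : XT := (XT.nd (nat_lit 54366) (nat_lit 0) (nat_lit 17860) (XT.nd (nat_lit 53586) (nat_lit 0) (nat_lit 27664) (XT.nd (nat_lit 53196) (nat_lit 0) (nat_lit 29032) (XT.nd (nat_lit 156) (nat_lit 912) (nat_lit 0) (XT.nd (nat_lit 78) (nat_lit 0) (nat_lit 0) (XT.lf (nat_lit 0) (nat_lit 6714278431) (nat_lit 380) (nat_lit 6698015020) (nat_lit 456) (nat_lit 6737327621) (nat_lit 199) (nat_lit 5) (nat_lit 204) (nat_lit 5) (nat_lit 205) (nat_lit 5) (nat_lit 496) (nat_lit 415) (nat_lit 229)) (XT.lf (nat_lit 0) (nat_lit 18339327569) (nat_lit 456) (nat_lit 871986745) (nat_lit 76) (nat_lit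 1179755610) (nat_lit 199) (nat_lit 5) (nat_lit 205) (nat_lit 5) (nat_lit 200) (nat_lit 5) (nat_lit 497) (nat_lit 415) (nat_lit 228))) (XT.nd (nat_lit 78) (nat_lit 380) (nat_lit 0) (XT.lf (nat_lit 0) (nat_lit 2807368392) (nat_lit 532) (nat_lit 8608986901) (nat_lit 76) (nat_lit 9218326555) (nat_lit 192) (nat_lit 5) (nat_lit 199) (nat_lit 5) (nat_lit 193) (nat_lit 5) (nat_lit 498) (nat_lit 415) (nat_lit 227)) (XT.nd (nat_lit 52884) (nat_lit 0) (nat_lit 30552) (XT.lf (nat_lit 0) (nat_lit 4341680476) (nat_lit 380) (nat_lit 3420905324) (nat_lit 456) (nat_lit 13119781025) (nat_lit 187) (nat_lit 5) (nat_lit 192) (nat_lit 5) (nat_lit 193) (nat_lit 5) (nat_lit 499) (nat_lit 415) (nat_lit 226)) (XT.lf (nat_lit 0) (nat_lit 2609468770) (nat_lit 1596) (nat_lit 924417590) (nat_lit 1596) (nat_lit 924417590) (nat_lit 589) (nat_lit 3) (nat_lit 610) (nat_lit 3) (nat_lit 610) (nat_lit 5) (nat_lit 416) (nat_lit 416) (nat_lit 308))))) (XT.nd (nat_lit 156)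 (nat_lit 1520) (nat_lit 0) (XT.nd (nat_lit 78) (nat_lit 0) (nat_lit 76) (XT.lf (nat_lit 76) (nat_lit 2644147237) (nat_lit 0) (nat_lit 3569293297) (nat_lit 1596) (nat_lit 2773487174) (nat_lit 590) (nat_lit 5) (nat_lit 589) (nat_lit 3) (nat_lit 610) (nat_lit 5) (nat_lit 417) (nat_lit 416) (nat_lit 307)) (XT.lf (nat_lit 0) (nat_lit 7216045253) (nat_lit 1520) (nat_lit 1819535938) (nat_lit 1596) (nat_lit 23308485) (nat_lit 590) (nat_lit 5) (nat_lit 610) (nat_lit 5) (nat_lit 611) (nat_lit 5) (nat_lit 418) (nat_lit 416) (nat_lit 306))) (XT.nd (nat_lit 78) (nat_lit 1596) (nat_lit 0) (XT.lf (nat_lit 76) (nat_lit 2794336727) (nat_lit 0) (nat_lit 5462349974) (nat_lit 1596) (nat_lit 875244491) (nat_lit 591) (nat_lit 5) (nat_lit 590) (nat_lit 5) (nat_lit 611) (nat_lit 5) (nat_lit 419) (nat_lit 416) (nat_lit 305)) (XT.nd (nat_lit 78) (nat_lit 0) (nat_lit 76) (XT.lf (nat_lit 0) (nat_lit 98966196) (nat_lit 1596) (nat_lit 1694920300) (nat_lit 1672) (nat_lit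 7412758061) (nat_lit 569) (nat_lit 5) (nat_lit 590) (nat_lit 5) (nat_lit 591) (nat_lit 5) (nat_lit 420) (nat_lit 416) (nat_lit 304)) (XT.lf (nat_lit 0) (nat_lit 1090613258) (nat_lit 1596) (nat_lit 6233532784) (nat_lit 1672) (nat_lit 1958397006) (nat_lit 570) (nat_lit 5) (nat_lit 591) (nat_lit 5) (nat_lit 592) (nat_lit 5) (nat_lit 421) (nat_lit 416) (nat_lit 303)))))) (XT.nd (nat_lit 390) (nat_lit 1444) (nat_lit 0) (XT.nd (nat_lit 156) (nat_lit 0) (nat_lit 76) (XT.nd (nat_lit 78) (nat_lit 0) (nat_lit 76) (XT.lf (nat_lit 0) (nat_lit 2102752727) (nat_lit 1596) (nat_lit 1474147707) (nat_lit 1672) (nat_lit 5783045885) (nat_lit 570) (nat_lit 5) (nat_lit 591) (nat_lit 5) (nat_lit 592) (nat_lit 5) (nat_lit 422) (nat_lit 416) (nat_lit 302)) (XT.lf (nat_lit 0) (nat_lit 3136863157) (nat_lit 1596) (nat_lit 6028516807) (nat_lit 1672) (nat_lit 273483129) (nat_lit 571) (nat_lit 5) (nat_lit 592) (nat_lit 5) (nat_lit 593) (nat_lit 5) (nat_lit 423) (nat_lit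 416) (nat_lit 301))) (XT.nd (nat_lit 78) (nat_lit 0) (nat_lit 0) (XT.lf (nat_lit 0) (nat_lit 4203486663) (nat_lit 1596) (nat_lit 1143806441) (nat_lit 1672) (nat_lit 4171828480) (nat_lit 571) (nat_lit 5) (nat_lit 592) (nat_lit 5) (nat_lit 593) (nat_lit 5) (nat_lit 424) (nat_lit 416) (nat_lit 300)) (XT.nd (nat_lit 78) (nat_lit 0) (nat_lit 76) (XT.lf (nat_lit 76) (nat_lit 3876294159) (nat_lit 0) (nat_lit 1418928664) (nat_lit 1672) (nat_lit 4305686819) (nat_lit 572) (nat_lit 5) (nat_lit 571) (nat_lit 5) (nat_lit 593) (nat_lit 5) (nat_lit 425) (nat_lit 416) (nat_lit 299)) (XT.lf (nat_lit 0) (nat_lit 6412322339) (nat_lit 1596) (nat_lit 702261223) (nat_lit 1672) (nat_lit 2569679325) (nat_lit 572) (nat_lit 5) (nat_lit 593) (nat_lit 5) (nat_lit 594) (nat_lit 5) (nat_lit 426) (nat_lit 416) (nat_lit 298))))) (XT.nd (nat_lit 156) (nat_lit 1596) (nat_lit 0) (XT.nd (nat_lit 78) (nat_lit 0) (nat_lit 76) (XT.lf (nat_lit 76) (nat_lit 4456325239) (nat_lit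 0) (nat_lit 3113179907) (nat_lit 1672) (nat_lit 2199423226) (nat_lit 573) (nat_lit 5) (nat_lit 572) (nat_lit 5) (nat_lit 594) (nat_lit 5) (nat_lit 427) (nat_lit 416) (nat_lit 297)) (XT.lf (nat_lit 0) (nat_lit 8740637120) (nat_lit 1596) (nat_lit 147535620) (nat_lit 1672) (nat_lit 967298317) (nat_lit 573) (nat_lit 5) (nat_lit 594) (nat_lit 5) (nat_lit 595) (nat_lit 5) (nat_lit 428) (nat_lit 416) (nat_lit 296))) (XT.nd (nat_lit 78) (nat_lit 0) (nat_lit 0) (XT.lf (nat_lit 0) (nat_lit 26041191) (nat_lit 1672) (nat_lit 4788773546) (nat_lit 1748) (nat_lit 5128241332) (nat_lit 551) (nat_lit 5) (nat_lit 573) (nat_lit 5) (nat_lit 574) (nat_lit 5) (nat_lit 429) (nat_lit 416) (nat_lit 295)) (XT.nd (nat_lit 78) (nat_lit 0) (nat_lit 76) (XT.lf (nat_lit 76) (nat_lit 517629350) (nat_lit 0) (nat_lit 641893286) (nat_lit 1748) (nat_lit 8873028434) (nat_lit 552) (nat_lit 5) (nat_lit 551) (nat_lit 5) (nat_lit 574) (nat_lit 5) (nat_lit 430) (nat_lit 416) (nat_lit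 294)) (XT.lf (nat_lit 0) (nat_lit 2352170937) (nat_lit 1672) (nat_lit 4165670645) (nat_lit 1748) (nat_lit 3605264445) (nat_lit 552) (nat_lit 5) (nat_lit 574) (nat_lit 5) (nat_lit 575) (nat_lit 5) (nat_lit 431) (nat_lit 416) (nat_lit 293))))))) (XT.nd (nat_lit 780) (nat_lit 6688) (nat_lit 0) (XT.nd (nat_lit 390) (nat_lit 3192) (nat_lit 0) (XT.nd (nat_lit 156) (nat_lit 0) (nat_lit 76) (XT.nd (nat_lit 78) (nat_lit 0) (nat_lit 76) (XT.lf (nat_lit 76) (nat_lit 1289629890) (nat_lit 0) (nat_lit 2272726764) (nat_lit 1748) (nat_lit 6653241740) (nat_lit 553) (nat_lit 5) (nat_lit 552) (nat_lit 5) (nat_lit 575) (nat_lit 5) (nat_lit 432) (nat_lit 416) (nat_lit 292)) (XT.lf (nat_lit 0) (nat_lit 4819619790) (nat_lit 1672) (nat_lit 3426336166) (nat_lit 1748) (nat_lit 2063527177) (nat_lit 553) (nat_lit 5) (nat_lit 575) (nat_lit 5) (nat_lit 576) (nat_lit 5) (nat_lit 433) (nat_lit 416) (nat_lit 291))) (XT.nd (nat_lit 78) (nat_lit 0) (nat_lit 76) (XT.lf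 (nat_lit 76) (nat_lit 2183228518) (nat_lit 0) (nat_lit 3929768401) (nat_lit 1748) (nat_lit 4292029275) (nat_lit 554) (nat_lit 5) (nat_lit 553) (nat_lit 5) (nat_lit 576) (nat_lit 5) (nat_lit 434) (nat_lit 416) (nat_lit 290)) (XT.nd (nat_lit 78) (nat_lit 0) (nat_lit 0) (XT.lf (nat_lit 0) (nat_lit 7440497119) (nat_lit 1672) (nat_lit 2567753860) (nat_lit 1748) (nat_lit 494064027) (nat_lit 554) (nat_lit 5) (nat_lit 576) (nat_lit 5) (nat_lit 577) (nat_lit 5) (nat_lit 435) (nat_lit 416) (nat_lit 289)) (XT.lf (nat_lit 76) (nat_lit 3201668341) (nat_lit 0) (nat_lit 5622084799) (nat_lit 1748) (nat_lit 1777212337) (nat_lit 555) (nat_lit 5) (nat_lit 554) (nat_lit 5) (nat_lit 577) (nat_lit 5) (nat_lit 436) (nat_lit 416) (nat_lit 288))))) (XT.nd (nat_lit 156) (nat_lit 1672) (nat_lit 0) (XT.nd (nat_lit 78) (nat_lit 1672) (nat_lit 0) (XT.lf (nat_lit 76) (nat_lit 9107707497) (nat_lit 0) (nat_lit 1126848342) (nat_lit 1748) (nat_lit 467035487) (nat_lit 555)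 (nat_lit 5) (nat_lit 554) (nat_lit 5) (nat_lit 577) (nat_lit 5) (nat_lit 437) (nat_lit 416) (nat_lit 287)) (XT.lf (nat_lit 0) (nat_lit 891868380) (nat_lit 1748) (nat_lit 6460883138) (nat_lit 1824) (nat_lit 3450686786) (nat_lit 532) (nat_lit 5) (nat_lit 555) (nat_lit 5) (nat_lit 556) (nat_lit 5) (nat_lit 438) (nat_lit 416) (nat_lit 286))) (XT.nd (nat_lit 78) (nat_lit 1672) (nat_lit 0) (XT.lf (nat_lit 0) (nat_lit 2273080507) (nat_lit 1748) (nat_lit 512216197) (nat_lit 1824) (nat_lit 8121936099) (nat_lit 532) (nat_lit 5) (nat_lit 555) (nat_lit 5) (nat_lit 556) (nat_lit 5) (nat_lit 439) (nat_lit 416) (nat_lit 285)) (XT.nd (nat_lit 78) (nat_lit 1748) (nat_lit 0) (XT.lf (nat_lit 0) (nat_lit 3714280666) (nat_lit 1748) (nat_lit 5409595673) (nat_lit 76) (nat_lit 1888579576) (nat_lit 533) (nat_lit 5) (nat_lit 556) (nat_lit 5) (nat_lit 534) (nat_lit 5) (nat_lit 440) (nat_lit 416) (nat_lit 284)) (XT.lf (nat_lit 0) (nat_lit 704442927) (nat_lit 1748)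 (nat_lit 4490075455) (nat_lit 1824) (nat_lit 5925060838) (nat_lit 510) (nat_lit 5) (nat_lit 533) (nat_lit 5) (nat_lit 534) (nat_lit 5) (nat_lit 441) (nat_lit 416) (nat_lit 283)))))) (XT.nd (nat_lit 390) (nat_lit 3648) (nat_lit 0) (XT.nd (nat_lit 156) (nat_lit 1216) (nat_lit 0) (XT.nd (nat_lit 78) (nat_lit 1824) (nat_lit 0) (XT.lf (nat_lit 0) (nat_lit 6726416644) (nat_lit 1824) (nat_lit 4229842785) (nat_lit 76) (nat_lit 272144446) (nat_lit 510) (nat_lit 5) (nat_lit 534) (nat_lit 5) (nat_lit 511) (nat_lit 5) (nat_lit 442) (nat_lit 416) (nat_lit 282)) (XT.lf (nat_lit 0) (nat_lit 2062709753) (nat_lit 1824) (nat_lit 6253664603) (nat_lit 1900) (nat_lit 3022482237) (nat_lit 486) (nat_lit 5) (nat_lit 510) (nat_lit 5) (nat_lit 511) (nat_lit 5) (nat_lit 443) (nat_lit 416) (nat_lit 281))) (XT.nd (nat_lit 78) (nat_lit 1216) (nat_lit 0) (XT.lf (nat_lit 0) (nat_lit 8524776477) (nat_lit 1824) (nat_lit 1426251819) (nat_lit 1900) (nat_lit 1500232126)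 (nat_lit 486) (nat_lit 5) (nat_lit 510) (nat_lit 5) (nat_lit 511) (nat_lit 5) (nat_lit 444) (nat_lit 416) (nat_lit 280)) (XT.nd (nat_lit 78) (nat_lit 0) (nat_lit 0) (XT.lf (nat_lit 0) (nat_lit 82631926) (nat_lit 1216) (nat_lit 8005404952) (nat_lit 76) (nat_lit 3477251500) (nat_lit 470) (nat_lit 5) (nat_lit 486) (nat_lit 5) (nat_lit 471) (nat_lit 5) (nat_lit 445) (nat_lit 416) (nat_lit 279)) (XT.lf (nat_lit 0) (nat_lit 1691235334) (nat_lit 1216) (nat_lit 1498897976) (nat_lit 76) (nat_lit 8490981847) (nat_lit 470) (nat_lit 5) (nat_lit 486) (nat_lit 5) (nat_lit 471) (nat_lit 5) (nat_lit 446) (nat_lit 416) (nat_lit 278))))) (XT.nd (nat_lit 234) (nat_lit 1824) (nat_lit 0) (XT.nd (nat_lit 78) (nat_lit 912) (nat_lit 0) (XT.lf (nat_lit 0) (nat_lit 3362910667) (nat_lit 988) (nat_lit 6618557196) (nat_lit 76) (nat_lit 1817172613) (nat_lit 458) (nat_lit 5) (nat_lit 471) (nat_lit 5) (nat_lit 459) (nat_lit 5) (nat_lit 447) (nat_lit 416) (nat_lit 277))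 (XT.nd (nat_lit 78) (nat_lit 0) (nat_lit 0) (XT.lf (nat_lit 0) (nat_lit 60478323) (nat_lit 912) (nat_lit 5024627828) (nat_lit 988) (nat_lit 6833068416) (nat_lit 446) (nat_lit 5) (nat_lit 458) (nat_lit 5) (nat_lit 459) (nat_lit 5) (nat_lit 448) (nat_lit 416) (nat_lit 276)) (XT.lf (nat_lit 0) (nat_lit 6872300557) (nat_lit 988) (nat_lit 5090867494) (nat_lit 76) (nat_lit 76320189) (nat_lit 446) (nat_lit 5) (nat_lit 459) (nat_lit 5) (nat_lit 447) (nat_lit 5) (nat_lit 449) (nat_lit 416) (nat_lit 275)))) (XT.nd (nat_lit 78) (nat_lit 988) (nat_lit 0) (XT.lf (nat_lit 0) (nat_lit 1787773434) (nat_lit 836) (nat_lit 6938273349) (nat_lit 912) (nat_lit 3436565246) (nat_lit 435) (nat_lit 5) (nat_lit 446) (nat_lit 5) (nat_lit 447) (nat_lit 5) (nat_lit 450) (nat_lit 416) (nat_lit 274)) (XT.nd (nat_lit 78) (nat_lit 988) (nat_lit 0) (XT.lf (nat_lit 0) (nat_lit 8859389647) (nat_lit 836) (nat_lit 1777753175) (nat_lit 912) (nat_lit 1650649972) (nat_lit 435)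 (nat_lit 5) (nat_lit 446) (nat_lit 5) (nat_lit 447) (nat_lit 5) (nat_lit 451) (nat_lit 416) (nat_lit 273)) (XT.lf (nat_lit 0) (nat_lit 201798968) (nat_lit 988) (nat_lit 8747315774) (nat_lit 76) (nat_lit 3465679074) (nat_lit 422) (nat_lit 5) (nat_lit 435) (nat_lit 5) (nat_lit 423) (nat_lit 5) (nat_lit 452) (nat_lit 416) (nat_lit 272))))))))
noncomputable def xc195 : XT := (XT.nd (nat_lit 1638) (nat_lit 7220) (nat_lit 0) (XT.nd (nat_lit 780) (nat_lit 4104) (nat_lit 0) (XT.nd (nat_lit 390) (nat_lit 2356) (nat_lit 0) (XT.nd (nat_lit 156) (nat_lit 1596) (nat_lit 0) (XT.nd (nat_lit 78) (nat_lit 836) (nat_lit 0) (XT.lf (nat_lit 0) (nat_lit 2090624039) (nat_lit 988) (nat_lit 1628685048) (nat_lit 76) (nat_lit 8824378968) (nat_lit 422) (nat_lit 5) (nat_lit 435) (nat_lit 5) (nat_lit 423) (nat_lit 5) (nat_lit 453) (nat_lit 416) (nat_lit 271)) (XT.lf (nat_lit 0) (nat_lit 4051663779) (nat_lit 912) (nat_lit 6991860007) (nat_lit 76) (nat_lit 1630947629)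 (nat_lit 411) (nat_lit 5) (nat_lit 423) (nat_lit 5) (nat_lit 412) (nat_lit 5) (nat_lit 454) (nat_lit 416) (nat_lit 270))) (XT.nd (nat_lit 78) (nat_lit 760) (nat_lit 0) (XT.lf (nat_lit 0) (nat_lit 320452426) (nat_lit 836) (nat_lit 5756098899) (nat_lit 912) (nat_lit 6730826577) (nat_lit 400) (nat_lit 5) (nat_lit 411) (nat_lit 5) (nat_lit 412) (nat_lit 5) (nat_lit 455) (nat_lit 416) (nat_lit 269)) (XT.nd (nat_lit 78) (nat_lit 760) (nat_lit 0) (XT.lf (nat_lit 0) (nat_lit 7860271133) (nat_lit 836) (nat_lit 315666913) (nat_lit 912) (nat_lit 4766324445) (nat_lit 400) (nat_lit 5) (nat_lit 411) (nat_lit 5) (nat_lit 412) (nat_lit 5) (nat_lit 456) (nat_lit 416) (nat_lit 268)) (XT.lf (nat_lit 0) (nat_lit 2455768529) (nat_lit 760) (nat_lit 7898800120) (nat_lit 836) (nat_lit 2724531000) (nat_lit 390) (nat_lit 5) (nat_lit 400) (nat_lit 5) (nat_lit 401) (nat_lit 5) (nat_lit 457) (nat_lit 416) (nat_lit 267))))) (XT.nd (nat_lit 156) (nat_lit 1520) (nat_lit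 0) (XT.nd (nat_lit 78) (nat_lit 836) (nat_lit 0) (XT.lf (nat_lit 0) (nat_lit 10197640952) (nat_lit 760) (nat_lit 2402803657) (nat_lit 836) (nat_lit 617755486) (nat_lit 390) (nat_lit 5) (nat_lit 400) (nat_lit 5) (nat_lit 401) (nat_lit 5) (nat_lit 458) (nat_lit 416) (nat_lit 266)) (XT.lf (nat_lit 0) (nat_lit 1550786376) (nat_lit 836) (nat_lit 8606951495) (nat_lit 76) (nat_lit 3201351610) (nat_lit 379) (nat_lit 5) (nat_lit 390) (nat_lit 5) (nat_lit 380) (nat_lit 5) (nat_lit 459) (nat_lit 416) (nat_lit 265))) (XT.nd (nat_lit 78) (nat_lit 1520) (nat_lit 0) (XT.lf (nat_lit 0) (nat_lit 3778558029) (nat_lit 836) (nat_lit 814758220) (nat_lit 76) (nat_lit 8908916122) (nat_lit 379) (nat_lit 5) (nat_lit 390) (nat_lit 5) (nat_lit 380) (nat_lit 5) (nat_lit 460) (nat_lit 416) (nat_lit 264)) (XT.nd (nat_lit 78) (nat_lit 760) (nat_lit 0) (XT.lf (nat_lit 0) (nat_lit 6093103176) (nat_lit 836) (nat_lit 6440167651) (nat_lit 76) (nat_lit 1114122931) (nat_lit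 369) (nat_lit 5) (nat_lit 380) (nat_lit 5) (nat_lit 370) (nat_lit 5) (nat_lit 461) (nat_lit 416) (nat_lit 263)) (XT.lf (nat_lit 0) (nat_lit 1582302657) (nat_lit 760) (nat_lit 6906019360) (nat_lit 836) (nat_lit 5306448702) (nat_lit 359) (nat_lit 5) (nat_lit 369) (nat_lit 5) (nat_lit 370) (nat_lit 5) (nat_lit 462) (nat_lit 416) (nat_lit 262)))))) (XT.nd (nat_lit 390) (nat_lit 1976) (nat_lit 0) (XT.nd (nat_lit 156) (nat_lit 1444) (nat_lit 0) (XT.nd (nat_lit 78) (nat_lit 684) (nat_lit 0) (XT.lf (nat_lit 0) (nat_lit 9839268933) (nat_lit 760) (nat_lit 1123725271) (nat_lit 836) (nat_lit 2981470034) (nat_lit 359) (nat_lit 5) (nat_lit 369) (nat_lit 5) (nat_lit 370) (nat_lit 5) (nat_lit 463) (nat_lit 416) (nat_lit 261)) (XT.lf (nat_lit 0) (nat_lit 4174767896) (nat_lit 684) (nat_lit 9359045428) (nat_lit 760) (nat_lit 562405234) (nat_lit 350) (nat_lit 5) (nat_lit 359) (nat_lit 5) (nat_lit 360) (nat_lit 5) (nat_lit 464) (nat_lit 416) (nat_lit 260)))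 (XT.nd (nat_lit 78) (nat_lit 1368) (nat_lit 0) (XT.lf (nat_lit 0) (nat_lit 1903843399) (nat_lit 760) (nat_lit 1607747616) (nat_lit 76) (nat_lit 10738693824) (nat_lit 349) (nat_lit 5) (nat_lit 359) (nat_lit 5) (nat_lit 350) (nat_lit 5) (nat_lit 465) (nat_lit 416) (nat_lit 259)) (XT.nd (nat_lit 78) (nat_lit 684) (nat_lit 0) (XT.lf (nat_lit 0) (nat_lit 4462070337) (nat_lit 760) (nat_lit 7476319517) (nat_lit 76) (nat_lit 2467964563) (nat_lit 340) (nat_lit 5) (nat_lit 350) (nat_lit 5) (nat_lit 341) (nat_lit 5) (nat_lit 466) (nat_lit 416) (nat_lit 258)) (XT.lf (nat_lit 0) (nat_lit 1072640625) (nat_lit 684) (nat_lit 6028862274) (nat_lit 760) (nat_lit 7463441667) (nat_lit 331) (nat_lit 5) (nat_lit 340) (nat_lit 5) (nat_lit 341) (nat_lit 5) (nat_lit 467) (nat_lit 416) (nat_lit 257))))) (XT.nd (nat_lit 234) (nat_lit 1216) (nat_lit 0) (XT.nd (nat_lit 78) (nat_lit 760) (nat_lit 0) (XT.lf (nat_lit 0) (nat_lit 9833297716) (nat_lit 760) (nat_lit 4845359423)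 (nat_lit 76) (nat_lit 47257905) (nat_lit 331) (nat_lit 5) (nat_lit 341) (nat_lit 5) (nat_lit 332) (nat_lit 5) (nat_lit 468) (nat_lit 416) (nat_lit 256)) (XT.nd (nat_lit 78) (nat_lit 76) (nat_lit 0) (XT.lf (nat_lit 0) (nat_lit 3973718747) (nat_lit 684) (nat_lit 8701028823) (nat_lit 760) (nat_lit 2214256979) (nat_lit 322) (nat_lit 5) (nat_lit 331) (nat_lit 5) (nat_lit 332) (nat_lit 5) (nat_lit 469) (nat_lit 416) (nat_lit 255)) (XT.lf (nat_lit 0) (nat_lit 532960414) (nat_lit 760) (nat_lit 2036474420) (nat_lit 76) (nat_lit 12485412206) (nat_lit 321) (nat_lit 5) (nat_lit 331) (nat_lit 5) (nat_lit 322) (nat_lit 5) (nat_lit 470) (nat_lit 416) (nat_lit 254)))) (XT.nd (nat_lit 78) (nat_lit 608) (nat_lit 0) (XT.lf (nat_lit 0) (nat_lit 3365372336) (nat_lit 684) (nat_lit 8161932397) (nat_lit 76) (nat_lit 3695210941) (nat_lit 313) (nat_lit 5) (nat_lit 322) (nat_lit 5) (nat_lit 314) (nat_lit 5) (nat_lit 471) (nat_lit 416) (nat_lit 253)) (XT.nd (nat_lit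 78) (nat_lit 0) (nat_lit 0) (XT.lf (nat_lit 0) (nat_lit 956458327) (nat_lit 608) (nat_lit 5324621052) (nat_lit 684) (nat_lit 9111925364) (nat_lit 305) (nat_lit 5) (nat_lit 313) (nat_lit 5) (nat_lit 314) (nat_lit 5) (nat_lit 472) (nat_lit 416) (nat_lit 252)) (XT.lf (nat_lit 0) (nat_lit 9306507583) (nat_lit 684) (nat_lit 5217827726) (nat_lit 76) (nat_lit 1041540144) (nat_lit 305) (nat_lit 5) (nat_lit 314) (nat_lit 5) (nat_lit 306) (nat_lit 5) (nat_lit 473) (nat_lit 416) (nat_lit 251))))))) (XT.nd (nat_lit 780) (nat_lit 3648) (nat_lit 0) (XT.nd (nat_lit 390) (nat_lit 1748) (nat_lit 0) (XT.nd (nat_lit 156) (nat_lit 1216) (nat_lit 0) (XT.nd (nat_lit 78) (nat_lit 0) (nat_lit 0) (XT.lf (nat_lit 0) (nat_lit 4192235423) (nat_lit 608) (nat_lit 8252657771) (nat_lit 684) (nat_lit 3296261407) (nat_lit 297) (nat_lit 5) (nat_lit 305) (nat_lit 5) (nat_lit 306) (nat_lit 5) (nat_lit 474) (nat_lit 416) (nat_lit 250)) (XT.lf (nat_lit 0) (nat_lit 13848563297)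 (nat_lit 608) (nat_lit 1822579748) (nat_lit 684) (nat_lit 248294356) (nat_lit 297) (nat_lit 5) (nat_lit 305) (nat_lit 5) (nat_lit 306) (nat_lit 5) (nat_lit 475) (nat_lit 416) (nat_lit 249))) (XT.nd (nat_lit 78) (nat_lit 532) (nat_lit 0) (XT.lf (nat_lit 0) (nat_lit 2894284937) (nat_lit 684) (nat_lit 8465144839) (nat_lit 76) (nat_lit 4740061205) (nat_lit 288) (nat_lit 5) (nat_lit 297) (nat_lit 5) (nat_lit 289) (nat_lit 5) (nat_lit 476) (nat_lit 416) (nat_lit 248)) (XT.nd (nat_lit 78) (nat_lit 0) (nat_lit 0) (XT.lf (nat_lit 0) (nat_lit 1269071831) (nat_lit 532) (nat_lit 4851925957) (nat_lit 608) (nat_lit 10161622889) (nat_lit 281) (nat_lit 5) (nat_lit 288) (nat_lit 5) (nat_lit 289) (nat_lit 5) (nat_lit 477) (nat_lit 416) (nat_lit 247)) (XT.lf (nat_lit 0) (nat_lit 9471415198) (nat_lit 608) (nat_lit 5180256544) (nat_lit 76) (nat_lit 1816557819) (nat_lit 281) (nat_lit 5) (nat_lit 289) (nat_lit 5) (nat_lit 282) (nat_lit 5) (nat_lit 478) (nat_lit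 416) (nat_lit 246))))) (XT.nd (nat_lit 156) (nat_lit 1140) (nat_lit 0) (XT.nd (nat_lit 78) (nat_lit 0) (nat_lit 0) (XT.lf (nat_lit 0) (nat_lit 4868946895) (nat_lit 608) (nat_lit 8074221196) (nat_lit 684) (nat_lit 3713295989) (nat_lit 273) (nat_lit 5) (nat_lit 281) (nat_lit 5) (nat_lit 282) (nat_lit 5) (nat_lit 479) (nat_lit 416) (nat_lit 245)) (XT.lf (nat_lit 0) (nat_lit 15176956383) (nat_lit 608) (nat_lit 1332848808) (nat_lit 684) (nat_lit 338149115) (nat_lit 273) (nat_lit 5) (nat_lit 281) (nat_lit 5) (nat_lit 282) (nat_lit 5) (nat_lit 480) (nat_lit 416) (nat_lit 244))) (XT.nd (nat_lit 78) (nat_lit 532) (nat_lit 0) (XT.lf (nat_lit 0) (nat_lit 3147753968) (nat_lit 608) (nat_lit 8348488536) (nat_lit 76) (nat_lit 5544949316) (nat_lit 265) (nat_lit 5) (nat_lit 273) (nat_lit 5) (nat_lit 266) (nat_lit 5) (nat_lit 481) (nat_lit 416) (nat_lit 243)) (XT.nd (nat_lit 78) (nat_lit 0) (nat_lit 0) (XT.lf (nat_lit 0) (nat_lit 2051669382) (nat_lit 532)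 (nat_lit 4671507201) (nat_lit 608) (nat_lit 10514586212) (nat_lit 258) (nat_lit 5) (nat_lit 265) (nat_lit 5) (nat_lit 266) (nat_lit 5) (nat_lit 482) (nat_lit 416) (nat_lit 242)) (XT.lf (nat_lit 0) (nat_lit 10432335444) (nat_lit 608) (nat_lit 4691821123) (nat_lit 76) (nat_lit 2312864066) (nat_lit 258) (nat_lit 5) (nat_lit 266) (nat_lit 5) (nat_lit 259) (nat_lit 5) (nat_lit 483) (nat_lit 416) (nat_lit 241)))))) (XT.nd (nat_lit 390) (nat_lit 2052) (nat_lit 0) (XT.nd (nat_lit 156) (nat_lit 988) (nat_lit 0) (XT.nd (nat_lit 78) (nat_lit 76) (nat_lit 0) (XT.lf (nat_lit 0) (nat_lit 6048535545) (nat_lit 532) (nat_lit 8228494910) (nat_lit 608) (nat_lit 3362006115) (nat_lit 251) (nat_lit 5) (nat_lit 258) (nat_lit 5) (nat_lit 259) (nat_lit 5) (nat_lit 484) (nat_lit 416) (nat_lit 240)) (XT.lf (nat_lit 0) (nat_lit 371764791) (nat_lit 608) (nat_lit 791897299) (nat_lit 76) (nat_lit 16680927331) (nat_lit 250) (nat_lit 5) (nat_lit 258) (nat_lit 5) (nat_lit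 251) (nat_lit 5) (nat_lit 485) (nat_lit 416) (nat_lit 239))) (XT.nd (nat_lit 78) (nat_lit 456) (nat_lit 0) (XT.lf (nat_lit 0) (nat_lit 4233421020) (nat_lit 608) (nat_lit 7768618117) (nat_lit 76) (nat_lit 6049805192) (nat_lit 243) (nat_lit 5) (nat_lit 251) (nat_lit 5) (nat_lit 244) (nat_lit 5) (nat_lit 486) (nat_lit 416) (nat_lit 238)) (XT.nd (nat_lit 78) (nat_lit 0) (nat_lit 0) (XT.lf (nat_lit 0) (nat_lit 3351604682) (nat_lit 456) (nat_lit 4846947165) (nat_lit 532) (nat_lit 10064167660) (nat_lit 237) (nat_lit 5) (nat_lit 243) (nat_lit 5) (nat_lit 244) (nat_lit 5) (nat_lit 487) (nat_lit 416) (nat_lit 237)) (XT.lf (nat_lit 0) (nat_lit 12302869853) (nat_lit 532) (nat_lit 3705619148) (nat_lit 76) (nat_lit 2468125496) (nat_lit 237) (nat_lit 5) (nat_lit 244) (nat_lit 5) (nat_lit 238) (nat_lit 5) (nat_lit 488) (nat_lit 416) (nat_lit 236))))) (XT.nd (nat_lit 234) (nat_lit 988) (nat_lit 0) (XT.nd (nat_lit 78) (nat_lit 532) (nat_lit 0) (XT.lf (nat_lit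 0) (nat_lit 7782061541) (nat_lit 532) (nat_lit 8781497463) (nat_lit 608) (nat_lit 2129742685) (nat_lit 230) (nat_lit 5) (nat_lit 237) (nat_lit 5) (nat_lit 238) (nat_lit 5) (nat_lit 489) (nat_lit 416) (nat_lit 235)) (XT.nd (nat_lit 78) (nat_lit 0) (nat_lit 0) (XT.lf (nat_lit 0) (nat_lit 618979527) (nat_lit 456) (nat_lit 1370735024) (nat_lit 532) (nat_lit 16923934164) (nat_lit 223) (nat_lit 5) (nat_lit 229) (nat_lit 5) (nat_lit 230) (nat_lit 5) (nat_lit 490) (nat_lit 416) (nat_lit 234)) (XT.lf (nat_lit 0) (nat_lit 6268707777) (nat_lit 532) (nat_lit 6675981037) (nat_lit 76) (nat_lit 6191319032) (nat_lit 223) (nat_lit 5) (nat_lit 230) (nat_lit 5) (nat_lit 224) (nat_lit 5) (nat_lit 491) (nat_lit 416) (nat_lit 233)))) (XT.nd (nat_lit 78) (nat_lit 532) (nat_lit 0) (XT.lf (nat_lit 0) (nat_lit 5222751709) (nat_lit 456) (nat_lit 5445432324) (nat_lit 532) (nat_lit 8693932064) (nat_lit 217) (nat_lit 5) (nat_lit 223) (nat_lit 5) (nat_lit 224) (nat_lit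 5) (nat_lit 492) (nat_lit 416) (nat_lit 232)) (XT.nd (nat_lit 78) (nat_lit 532) (nat_lit 0) (XT.lf (nat_lit 0) (nat_lit 15207029224) (nat_lit 532) (nat_lit 2168309696) (nat_lit 76) (nat_lit 2216380005) (nat_lit 217) (nat_lit 5) (nat_lit 224) (nat_lit 5) (nat_lit 218) (nat_lit 5) (nat_lit 493) (nat_lit 416) (nat_lit 231)) (XT.lf (nat_lit 0) (nat_lit 105166935) (nat_lit 532) (nat_lit 9697377262) (nat_lit 76) (nat_lit 10021476812) (nat_lit 210) (nat_lit 5) (nat_lit 217) (nat_lit 5) (nat_lit 211) (nat_lit 5) (nat_lit 494) (nat_lit 416) (nat_lit 230))))))))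
noncomputable def xc196 : XT := (XT.nd (nat_lit 54444) (nat_lit 0) (nat_lit 18468) (XT.nd (nat_lit 53664) (nat_lit 0) (nat_lit 27284) (XT.nd (nat_lit 53274) (nat_lit 0) (nat_lit 28652) (XT.nd (nat_lit 156) (nat_lit 912) (nat_lit 0) (XT.nd (nat_lit 78) (nat_lit 0) (nat_lit 0) (XT.lf (nat_lit 0) (nat_lit 2629964367) (nat_lit 456) (nat_lit 2020082729) (nat_lit 532) (nat_lit 15409863636) (nat_lit 204) (nat_lit 5) (nat_lit 210) (nat_lit 5) (nat_lit 211) (nat_lit 5) (nat_lit 495) (nat_lit 416) (nat_lit 229)) (XT.lf (nat_lit 0) (nat_lit 9381968676) (nat_lit 532) (nat_lit 5014426756) (nat_lit 76) (nat_lit 5902199941) (nat_lit 204) (nat_lit 5) (nat_lit 211) (nat_lit 5) (nat_lit 205) (nat_lit 5) (nat_lit 496) (nat_lit 416) (nat_lit 228))) (XT.nd (nat_lit 78) (nat_lit 532) (nat_lit 0) (XT.lf (nat_lit 0) (nat_lit 7725922063) (nat_lit 380) (nat_lit 6538513712) (nat_lit 456) (nat_lit 6276499791) (nat_lit 199) (nat_lit 5) (nat_lit 204) (nat_lit 5) (nat_lit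 205) (nat_lit 5) (nat_lit 497) (nat_lit 416) (nat_lit 227)) (XT.nd (nat_lit 78) (nat_lit 532) (nat_lit 0) (XT.lf (nat_lit 0) (nat_lit 19280429611) (nat_lit 456) (nat_lit 19690554) (nat_lit 76) (nat_lit 1487284848) (nat_lit 199) (nat_lit 5) (nat_lit 205) (nat_lit 5) (nat_lit 200) (nat_lit 5) (nat_lit 498) (nat_lit 416) (nat_lit 226)) (XT.lf (nat_lit 0) (nat_lit 3435945903) (nat_lit 532) (nat_lit 7909545365) (nat_lit 76) (nat_lit 9690435615) (nat_lit 192) (nat_lit 5) (nat_lit 199) (nat_lit 5) (nat_lit 193) (nat_lit 5) (nat_lit 499) (nat_lit 416) (nat_lit 225))))) (XT.nd (nat_lit 156) (nat_lit 1520) (nat_lit 0) (XT.nd (nat_lit 78) (nat_lit 0) (nat_lit 0) (XT.lf (nat_lit 0) (nat_lit 3580797544) (nat_lit 1596) (nat_lit 474144848) (nat_lit 1596) (nat_lit 474144848) (nat_lit 589) (nat_lit 3) (nat_lit 610) (nat_lit 3) (nat_lit 610) (nat_lit 5) (nat_lit 417) (nat_lit 417) (nat_lit 306)) (XT.lf (nat_lit 76) (nat_lit 3628384458) (nat_lit 0) (nat_lit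 4517605969) (nat_lit 1596) (nat_lit 984510212) (nat_lit 590) (nat_lit 5) (nat_lit 589) (nat_lit 3) (nat_lit 610) (nat_lit 5) (nat_lit 418) (nat_lit 417) (nat_lit 305))) (XT.nd (nat_lit 78) (nat_lit 1520) (nat_lit 0) (XT.lf (nat_lit 76) (nat_lit 8297392783) (nat_lit 0) (nat_lit 835641555) (nat_lit 1596) (nat_lit 71579769) (nat_lit 590) (nat_lit 5) (nat_lit 589) (nat_lit 3) (nat_lit 610) (nat_lit 5) (nat_lit 419) (nat_lit 417) (nat_lit 304)) (XT.nd (nat_lit 78) (nat_lit 0) (nat_lit 0) (XT.lf (nat_lit 0) (nat_lit 869218973) (nat_lit 1596) (nat_lit 5487436308) (nat_lit 1672) (nat_lit 2923025267) (nat_lit 569) (nat_lit 5) (nat_lit 590) (nat_lit 5) (nat_lit 591) (nat_lit 5) (nat_lit 420) (nat_lit 417) (nat_lit 303)) (XT.lf (nat_lit 0) (nat_lit 1816886487) (nat_lit 1596) (nat_lit 776746425) (nat_lit 1672) (nat_lit 6762825717) (nat_lit 569) (nat_lit 5) (nat_lit 590) (nat_lit 5) (nat_lit 591) (nat_lit 5) (nat_lit 421) (nat_lit 417) (nat_lit 302))))))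 (XT.nd (nat_lit 390) (nat_lit 1444) (nat_lit 0) (XT.nd (nat_lit 156) (nat_lit 0) (nat_lit 0) (XT.nd (nat_lit 78) (nat_lit 0) (nat_lit 0) (XT.lf (nat_lit 0) (nat_lit 2796039777) (nat_lit 1596) (nat_lit 5373804446) (nat_lit 1672) (nat_lit 1264677401) (nat_lit 570) (nat_lit 5) (nat_lit 591) (nat_lit 5) (nat_lit 592) (nat_lit 5) (nat_lit 422) (nat_lit 417) (nat_lit 301)) (XT.lf (nat_lit 0) (nat_lit 3795409991) (nat_lit 1596) (nat_lit 538533609) (nat_lit 1672) (nat_lit 5180189601) (nat_lit 570) (nat_lit 5) (nat_lit 591) (nat_lit 5) (nat_lit 592) (nat_lit 5) (nat_lit 423) (nat_lit 417) (nat_lit 300))) (XT.nd (nat_lit 78) (nat_lit 0) (nat_lit 76) (XT.lf (nat_lit 76) (nat_lit 4439172862) (nat_lit 0) (nat_lit 383054629) (nat_lit 1672) (nat_lit 4772960323) (nat_lit 571) (nat_lit 5) (nat_lit 570) (nat_lit 5) (nat_lit 592) (nat_lit 5) (nat_lit 424) (nat_lit 417) (nat_lit 299)) (XT.nd (nat_lit 78) (nat_lit 0) (nat_lit 0) (XT.lf (nat_lit 0) (nat_lit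 5875928971) (nat_lit 1596) (nat_lit 190644103) (nat_lit 1672) (nat_lit 3611163490) (nat_lit 571) (nat_lit 5) (nat_lit 592) (nat_lit 5) (nat_lit 593) (nat_lit 5) (nat_lit 425) (nat_lit 417) (nat_lit 298)) (XT.lf (nat_lit 76) (nat_lit 4923437203) (nat_lit 0) (nat_lit 2041213488) (nat_lit 1672) (nat_lit 2797006675) (nat_lit 572) (nat_lit 5) (nat_lit 571) (nat_lit 5) (nat_lit 593) (nat_lit 5) (nat_lit 426) (nat_lit 417) (nat_lit 297))))) (XT.nd (nat_lit 156) (nat_lit 1596) (nat_lit 0) (XT.nd (nat_lit 78) (nat_lit 0) (nat_lit 0) (XT.lf (nat_lit 76) (nat_lit 272307722) (nat_lit 0) (nat_lit 7799114731) (nat_lit 1672) (nat_lit 1775908619) (nat_lit 573) (nat_lit 5) (nat_lit 572) (nat_lit 5) (nat_lit 594) (nat_lit 5) (nat_lit 427) (nat_lit 417) (nat_lit 296)) (XT.lf (nat_lit 76) (nat_lit 5524014006) (nat_lit 0) (nat_lit 3702338313) (nat_lit 1672) (nat_lit 707845480) (nat_lit 573) (nat_lit 5) (nat_lit 572) (nat_lit 5) (nat_lit 594) (nat_lit 5) (nat_lit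 428) (nat_lit 417) (nat_lit 295))) (XT.nd (nat_lit 78) (nat_lit 0) (nat_lit 0) (XT.lf (nat_lit 0) (nat_lit 365694276) (nat_lit 1672) (nat_lit 9172476282) (nat_lit 1748) (nat_lit 484799356) (nat_lit 551) (nat_lit 5) (nat_lit 573) (nat_lit 5) (nat_lit 574) (nat_lit 5) (nat_lit 429) (nat_lit 417) (nat_lit 294)) (XT.nd (nat_lit 78) (nat_lit 0) (nat_lit 0) (XT.lf (nat_lit 0) (nat_lit 1486275563) (nat_lit 1672) (nat_lit 3879430730) (nat_lit 1748) (nat_lit 4747016626) (nat_lit 551) (nat_lit 5) (nat_lit 573) (nat_lit 5) (nat_lit 574) (nat_lit 5) (nat_lit 430) (nat_lit 417) (nat_lit 293)) (XT.lf (nat_lit 76) (nat_lit 1526487603) (nat_lit 0) (nat_lit 1093800160) (nat_lit 1748) (nat_lit 7584162834) (nat_lit 552) (nat_lit 5) (nat_lit 551) (nat_lit 5) (nat_lit 574) (nat_lit 5) (nat_lit 431) (nat_lit 417) (nat_lit 292))))))) (XT.nd (nat_lit 780) (nat_lit 7296) (nat_lit 0) (XT.nd (nat_lit 390) (nat_lit 1596) (nat_lit 0) (XT.nd (nat_lit 156) (nat_lit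 0) (nat_lit 76) (XT.nd (nat_lit 78) (nat_lit 0) (nat_lit 0) (XT.lf (nat_lit 0) (nat_lit 3805806461) (nat_lit 1672) (nat_lit 3239074365) (nat_lit 1748) (nat_lit 3252555479) (nat_lit 552) (nat_lit 5) (nat_lit 574) (nat_lit 5) (nat_lit 575) (nat_lit 5) (nat_lit 432) (nat_lit 417) (nat_lit 291)) (XT.lf (nat_lit 76) (nat_lit 2318688038) (nat_lit 0) (nat_lit 2700441482) (nat_lit 1748) (nat_lit 5373070326) (nat_lit 553) (nat_lit 5) (nat_lit 552) (nat_lit 5) (nat_lit 575) (nat_lit 5) (nat_lit 433) (nat_lit 417) (nat_lit 290))) (XT.nd (nat_lit 78) (nat_lit 0) (nat_lit 0) (XT.lf (nat_lit 0) (nat_lit 6271937527) (nat_lit 1672) (nat_lit 2481668819) (nat_lit 1748) (nat_lit 1734947944) (nat_lit 553) (nat_lit 5) (nat_lit 575) (nat_lit 5) (nat_lit 576) (nat_lit 5) (nat_lit 434) (nat_lit 417) (nat_lit 289)) (XT.nd (nat_lit 78) (nat_lit 0) (nat_lit 76) (XT.lf (nat_lit 76) (nat_lit 3233421409) (nat_lit 0) (nat_lit 4337709068) (nat_lit 1748) (nat_lit 3015278770)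 (nat_lit 554) (nat_lit 5) (nat_lit 553) (nat_lit 5) (nat_lit 576) (nat_lit 5) (nat_lit 435) (nat_lit 417) (nat_lit 288)) (XT.lf (nat_lit 0) (nat_lit 8896890679) (nat_lit 1672) (nat_lit 1604026466) (nat_lit 1748) (nat_lit 185292488) (nat_lit 554) (nat_lit 5) (nat_lit 576) (nat_lit 5) (nat_lit 577) (nat_lit 5) (nat_lit 436) (nat_lit 417) (nat_lit 287))))) (XT.nd (nat_lit 156) (nat_lit 0) (nat_lit 76) (XT.nd (nat_lit 78) (nat_lit 1748) (nat_lit 0) (XT.lf (nat_lit 76) (nat_lit 4274106005) (nat_lit 0) (nat_lit 6014614151) (nat_lit 1748) (nat_lit 498494791) (nat_lit 555) (nat_lit 5) (nat_lit 554) (nat_lit 5) (nat_lit 577) (nat_lit 5) (nat_lit 437) (nat_lit 417) (nat_lit 286)) (XT.lf (nat_lit 0) (nat_lit 801464711) (nat_lit 1748) (nat_lit 617138089) (nat_lit 1824) (nat_lit 9471650349) (nat_lit 531) (nat_lit 5) (nat_lit 554) (nat_lit 5) (nat_lit 555) (nat_lit 5) (nat_lit 438) (nat_lit 417) (nat_lit 285))) (XT.nd (nat_lit 78) (nat_lit 0) (nat_lit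 0) (XT.lf (nat_lit 0) (nat_lit 2161200685) (nat_lit 1748) (nat_lit 5564472121) (nat_lit 1824) (nat_lit 3268804365) (nat_lit 532) (nat_lit 5) (nat_lit 555) (nat_lit 5) (nat_lit 556) (nat_lit 5) (nat_lit 439) (nat_lit 417) (nat_lit 284)) (XT.nd (nat_lit 78) (nat_lit 0) (nat_lit 76) (XT.lf (nat_lit 76) (nat_lit 489477376) (nat_lit 0) (nat_lit 3059198574) (nat_lit 1824) (nat_lit 7552098833) (nat_lit 533) (nat_lit 5) (nat_lit 532) (nat_lit 5) (nat_lit 556) (nat_lit 5) (nat_lit 440) (nat_lit 417) (nat_lit 283)) (XT.lf (nat_lit 0) (nat_lit 4996583107) (nat_lit 1748) (nat_lit 4493330280) (nat_lit 76) (nat_lit 1718631311) (nat_lit 533) (nat_lit 5) (nat_lit 556) (nat_lit 5) (nat_lit 534) (nat_lit 5) (nat_lit 441) (nat_lit 417) (nat_lit 282)))))) (XT.nd (nat_lit 390) (nat_lit 2660) (nat_lit 0) (XT.nd (nat_lit 156) (nat_lit 3040) (nat_lit 0) (XT.nd (nat_lit 78) (nat_lit 0) (nat_lit 0) (XT.lf (nat_lit 0) (nat_lit 1736249242) (nat_lit 1748) (nat_lit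 4753097427) (nat_lit 1824) (nat_lit 4828805377) (nat_lit 510) (nat_lit 5) (nat_lit 533) (nat_lit 5) (nat_lit 534) (nat_lit 5) (nat_lit 442) (nat_lit 417) (nat_lit 281)) (XT.lf (nat_lit 0) (nat_lit 8027428562) (nat_lit 1824) (nat_lit 3292223095) (nat_lit 76) (nat_lit 109990624) (nat_lit 510) (nat_lit 5) (nat_lit 534) (nat_lit 5) (nat_lit 511) (nat_lit 5) (nat_lit 443) (nat_lit 417) (nat_lit 280))) (XT.nd (nat_lit 78) (nat_lit 1216) (nat_lit 0) (XT.lf (nat_lit 0) (nat_lit 3119455385) (nat_lit 1824) (nat_lit 6513451060) (nat_lit 1900) (nat_lit 1909723187) (nat_lit 486) (nat_lit 5) (nat_lit 510) (nat_lit 5) (nat_lit 511) (nat_lit 5) (nat_lit 444) (nat_lit 417) (nat_lit 279)) (XT.nd (nat_lit 78) (nat_lit 1216) (nat_lit 0) (XT.lf (nat_lit 0) (nat_lit 9690851847) (nat_lit 1824) (nat_lit 1586848586) (nat_lit 1900) (nat_lit 380032167) (nat_lit 486) (nat_lit 5) (nat_lit 510) (nat_lit 5) (nat_lit 511) (nat_lit 5) (nat_lit 445) (nat_lit 417) (nat_lit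 278)) (XT.lf (nat_lit 0) (nat_lit 1202916492) (nat_lit 1216) (nat_lit 7138360537) (nat_lit 76) (nat_lit 3432944478) (nat_lit 470) (nat_lit 5) (nat_lit 486) (nat_lit 5) (nat_lit 471) (nat_lit 5) (nat_lit 446) (nat_lit 417) (nat_lit 277))))) (XT.nd (nat_lit 234) (nat_lit 836) (nat_lit 0) (XT.nd (nat_lit 78) (nat_lit 1824) (nat_lit 0) (XT.lf (nat_lit 0) (nat_lit 2821758009) (nat_lit 1216) (nat_lit 521863667) (nat_lit 76) (nat_lit 8549181826) (nat_lit 470) (nat_lit 5) (nat_lit 486) (nat_lit 5) (nat_lit 471) (nat_lit 5) (nat_lit 447) (nat_lit 417) (nat_lit 276)) (XT.nd (nat_lit 78) (nat_lit 912) (nat_lit 0) (XT.lf (nat_lit 0) (nat_lit 4511330277) (nat_lit 988) (nat_lit 5728379499) (nat_lit 76) (nat_lit 1773280281) (nat_lit 458) (nat_lit 5) (nat_lit 471) (nat_lit 5) (nat_lit 459) (nat_lit 5) (nat_lit 448) (nat_lit 417) (nat_lit 275)) (XT.lf (nat_lit 0) (nat_lit 1077509435) (nat_lit 912) (nat_lit 5175856380) (nat_lit 988) (nat_lit 5881841093)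 (nat_lit 446) (nat_lit 5) (nat_lit 458) (nat_lit 5) (nat_lit 459) (nat_lit 5) (nat_lit 449) (nat_lit 417) (nat_lit 274)))) (XT.nd (nat_lit 78) (nat_lit 836) (nat_lit 0) (XT.lf (nat_lit 0) (nat_lit 8055068264) (nat_lit 988) (nat_lit 4175545522) (nat_lit 76) (nat_lit 28757786) (nat_lit 446) (nat_lit 5) (nat_lit 459) (nat_lit 5) (nat_lit 447) (nat_lit 5) (nat_lit 450) (nat_lit 417) (nat_lit 273)) (XT.nd (nat_lit 78) (nat_lit 0) (nat_lit 0) (XT.lf (nat_lit 0) (nat_lit 2833976518) (nat_lit 836) (nat_lit 7097976888) (nat_lit 912) (nat_lit 2453283149) (nat_lit 435) (nat_lit 5) (nat_lit 446) (nat_lit 5) (nat_lit 447) (nat_lit 5) (nat_lit 451) (nat_lit 417) (nat_lit 272)) (XT.lf (nat_lit 0) (nat_lit 10027212358) (nat_lit 836) (nat_lit 1833835760) (nat_lit 912) (nat_lit 652277284) (nat_lit 435) (nat_lit 5) (nat_lit 446) (nat_lit 5) (nat_lit 447) (nat_lit 5) (nat_lit 452) (nat_lit 417) (nat_lit 271))))))))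
noncomputable def xc197 : XT := (XT.nd (nat_lit 1560) (nat_lit 7296) (nat_lit 0) (XT.nd (nat_lit 780) (nat_lit 4256) (nat_lit 0) (XT.nd (nat_lit 390) (nat_lit 2356) (nat_lit 0) (XT.nd (nat_lit 156) (nat_lit 1672) (nat_lit 0) (XT.nd (nat_lit 78) (nat_lit 0) (nat_lit 0) (XT.lf (nat_lit 0) (nat_lit 1210168305) (nat_lit 988) (nat_lit 7904574843) (nat_lit 76) (nat_lit 3528259877) (nat_lit 422) (nat_lit 5) (nat_lit 435) (nat_lit 5) (nat_lit 423) (nat_lit 5) (nat_lit 453) (nat_lit 417) (nat_lit 270)) (XT.lf (nat_lit 0) (nat_lit 3117077067) (nat_lit 988) (nat_lit 663526154) (nat_lit 76) (nat_lit 8994265784) (nat_lit 422) (nat_lit 5) (nat_lit 435) (nat_lit 5) (nat_lit 423) (nat_lit 5) (nat_lit 454) (nat_lit 417) (nat_lit 269))) (XT.nd (nat_lit 78) (nat_lit 836) (nat_lit 0) (XT.lf (nat_lit 0) (nat_lit 5104592202) (nat_lit 912) (nat_lit 6121219212) (nat_lit 76) (nat_lit 1682711526) (nat_lit 411) (nat_lit 5) (nat_lit 423) (nat_lit 5) (nat_lit 412)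 (nat_lit 5) (nat_lit 455) (nat_lit 417) (nat_lit 268)) (XT.nd (nat_lit 78) (nat_lit 0) (nat_lit 0) (XT.lf (nat_lit 0) (nat_lit 1330691588) (nat_lit 836) (nat_lit 5826746675) (nat_lit 912) (nat_lit 5886900080) (nat_lit 400) (nat_lit 5) (nat_lit 411) (nat_lit 5) (nat_lit 412) (nat_lit 5) (nat_lit 456) (nat_lit 417) (nat_lit 267)) (XT.lf (nat_lit 0) (nat_lit 9001623726) (nat_lit 836) (nat_lit 278378092) (nat_lit 912) (nat_lit 3902295023) (nat_lit 400) (nat_lit 5) (nat_lit 411) (nat_lit 5) (nat_lit 412) (nat_lit 5) (nat_lit 457) (nat_lit 417) (nat_lit 266))))) (XT.nd (nat_lit 156) (nat_lit 1520) (nat_lit 0) (XT.nd (nat_lit 78) (nat_lit 76) (nat_lit 0) (XT.lf (nat_lit 0) (nat_lit 3500962330) (nat_lit 760) (nat_lit 7989545389) (nat_lit 836) (nat_lit 1831596969) (nat_lit 390) (nat_lit 5) (nat_lit 400) (nat_lit 5) (nat_lit 401) (nat_lit 5) (nat_lit 458) (nat_lit 417) (nat_lit 265)) (XT.lf (nat_lit 0) (nat_lit 294819109) (nat_lit 836) (nat_lit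 2088149745) (nat_lit 76) (nat_lit 11081343751) (nat_lit 389) (nat_lit 5) (nat_lit 400) (nat_lit 5) (nat_lit 390) (nat_lit 5) (nat_lit 459) (nat_lit 417) (nat_lit 264))) (XT.nd (nat_lit 78) (nat_lit 760) (nat_lit 0) (XT.lf (nat_lit 0) (nat_lit 2487372158) (nat_lit 836) (nat_lit 7779265401) (nat_lit 76) (nat_lit 3341522309) (nat_lit 379) (nat_lit 5) (nat_lit 390) (nat_lit 5) (nat_lit 380) (nat_lit 5) (nat_lit 460) (nat_lit 417) (nat_lit 263)) (XT.nd (nat_lit 78) (nat_lit 0) (nat_lit 0) (XT.lf (nat_lit 0) (nat_lit 151149679) (nat_lit 760) (nat_lit 4591774653) (nat_lit 836) (nat_lit 9011576784) (nat_lit 369) (nat_lit 5) (nat_lit 379) (nat_lit 5) (nat_lit 380) (nat_lit 5) (nat_lit 461) (nat_lit 417) (nat_lit 262)) (XT.lf (nat_lit 0) (nat_lit 7092323351) (nat_lit 836) (nat_lit 5578294628) (nat_lit 76) (nat_lit 1232176492) (nat_lit 369) (nat_lit 5) (nat_lit 380) (nat_lit 5) (nat_lit 370) (nat_lit 5) (nat_lit 462) (nat_lit 417) (nat_lit 261))))))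 (XT.nd (nat_lit 390) (nat_lit 2052) (nat_lit 0) (XT.nd (nat_lit 156) (nat_lit 1444) (nat_lit 0) (XT.nd (nat_lit 78) (nat_lit 0) (nat_lit 0) (XT.lf (nat_lit 0) (nat_lit 2598107478) (nat_lit 760) (nat_lit 6926525802) (nat_lit 836) (nat_lit 4528701956) (nat_lit 359) (nat_lit 5) (nat_lit 369) (nat_lit 5) (nat_lit 370) (nat_lit 5) (nat_lit 463) (nat_lit 417) (nat_lit 260)) (XT.lf (nat_lit 0) (nat_lit 11000915850) (nat_lit 760) (nat_lit 1030891987) (nat_lit 836) (nat_lit 2174554612) (nat_lit 359) (nat_lit 5) (nat_lit 369) (nat_lit 5) (nat_lit 370) (nat_lit 5) (nat_lit 464) (nat_lit 417) (nat_lit 259))) (XT.nd (nat_lit 78) (nat_lit 684) (nat_lit 0) (XT.lf (nat_lit 0) (nat_lit 279390738) (nat_lit 760) (nat_lit 9130269289) (nat_lit 76) (nat_lit 4951646983) (nat_lit 349) (nat_lit 5) (nat_lit 359) (nat_lit 5) (nat_lit 350) (nat_lit 5) (nat_lit 465) (nat_lit 417) (nat_lit 258)) (XT.nd (nat_lit 78) (nat_lit 684) (nat_lit 0) (XT.lf (nat_lit 0) (nat_lit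 2770861945) (nat_lit 760) (nat_lit 673347814) (nat_lit 76) (nat_lit 11074501943) (nat_lit 349) (nat_lit 5) (nat_lit 359) (nat_lit 5) (nat_lit 350) (nat_lit 5) (nat_lit 466) (nat_lit 417) (nat_lit 257)) (XT.lf (nat_lit 0) (nat_lit 5371151134) (nat_lit 760) (nat_lit 6650188865) (nat_lit 76) (nat_lit 2656744718) (nat_lit 340) (nat_lit 5) (nat_lit 350) (nat_lit 5) (nat_lit 341) (nat_lit 5) (nat_lit 467) (nat_lit 417) (nat_lit 256))))) (XT.nd (nat_lit 156) (nat_lit 1368) (nat_lit 0) (XT.nd (nat_lit 78) (nat_lit 0) (nat_lit 0) (XT.lf (nat_lit 0) (nat_lit 2063331683) (nat_lit 684) (nat_lit 5990258319) (nat_lit 760) (nat_lit 6786452313) (nat_lit 331) (nat_lit 5) (nat_lit 340) (nat_lit 5) (nat_lit 341) (nat_lit 5) (nat_lit 468) (nat_lit 417) (nat_lit 255)) (XT.lf (nat_lit 0) (nat_lit 10825150489) (nat_lit 760) (nat_lit 3977162811) (nat_lit 76) (nat_lit 202216308) (nat_lit 331) (nat_lit 5) (nat_lit 341) (nat_lit 5) (nat_lit 332) (nat_lit 5) (nat_lit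 469) (nat_lit 417) (nat_lit 254))) (XT.nd (nat_lit 78) (nat_lit 684) (nat_lit 0) (XT.lf (nat_lit 0) (nat_lit 5011947555) (nat_lit 684) (nat_lit 8702114757) (nat_lit 760) (nat_lit 1457005932) (nat_lit 322) (nat_lit 5) (nat_lit 331) (nat_lit 5) (nat_lit 332) (nat_lit 5) (nat_lit 470) (nat_lit 417) (nat_lit 253)) (XT.nd (nat_lit 78) (nat_lit 608) (nat_lit 0) (XT.lf (nat_lit 0) (nat_lit 1319133245) (nat_lit 760) (nat_lit 1126942414) (nat_lit 76) (nat_lit 12894358050) (nat_lit 321) (nat_lit 5) (nat_lit 331) (nat_lit 5) (nat_lit 322) (nat_lit 5) (nat_lit 471) (nat_lit 417) (nat_lit 252)) (XT.lf (nat_lit 0) (nat_lit 4200269316) (nat_lit 684) (nat_lit 7366985461) (nat_lit 76) (nat_lit 3944359419) (nat_lit 313) (nat_lit 5) (nat_lit 322) (nat_lit 5) (nat_lit 314) (nat_lit 5) (nat_lit 472) (nat_lit 417) (nat_lit 251))))))) (XT.nd (nat_lit 780) (nat_lit 3648) (nat_lit 0) (XT.nd (nat_lit 390) (nat_lit 1748) (nat_lit 0) (XT.nd (nat_lit 156) (nat_lit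 1292) (nat_lit 0) (XT.nd (nat_lit 78) (nat_lit 0) (nat_lit 0) (XT.lf (nat_lit 0) (nat_lit 1927469225) (nat_lit 608) (nat_lit 5237950748) (nat_lit 684) (nat_lit 8520270485) (nat_lit 305) (nat_lit 5) (nat_lit 313) (nat_lit 5) (nat_lit 314) (nat_lit 5) (nat_lit 473) (nat_lit 417) (nat_lit 250)) (XT.lf (nat_lit 0) (nat_lit 10237709447) (nat_lit 684) (nat_lit 4375319604) (nat_lit 76) (nat_lit 1249262477) (nat_lit 305) (nat_lit 5) (nat_lit 314) (nat_lit 5) (nat_lit 306) (nat_lit 5) (nat_lit 474) (nat_lit 417) (nat_lit 249))) (XT.nd (nat_lit 78) (nat_lit 684) (nat_lit 0) (XT.lf (nat_lit 0) (nat_lit 5216715435) (nat_lit 608) (nat_lit 8213645313) (nat_lit 684) (nat_lit 2610885550) (nat_lit 297) (nat_lit 5) (nat_lit 305) (nat_lit 5) (nat_lit 306) (nat_lit 5) (nat_lit 475) (nat_lit 417) (nat_lit 248)) (XT.nd (nat_lit 78) (nat_lit 608) (nat_lit 0) (XT.lf (nat_lit 0) (nat_lit 476970757) (nat_lit 684) (nat_lit 1178795534) (nat_lit 76) (nat_lit 14567554555)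 (nat_lit 296) (nat_lit 5) (nat_lit 305) (nat_lit 5) (nat_lit 297) (nat_lit 5) (nat_lit 476) (nat_lit 417) (nat_lit 247)) (XT.lf (nat_lit 0) (nat_lit 3672181687) (nat_lit 684) (nat_lit 7695697620) (nat_lit 76) (nat_lit 5039201273) (nat_lit 288) (nat_lit 5) (nat_lit 297) (nat_lit 5) (nat_lit 289) (nat_lit 5) (nat_lit 477) (nat_lit 417) (nat_lit 246))))) (XT.nd (nat_lit 156) (nat_lit 1216) (nat_lit 0) (XT.nd (nat_lit 78) (nat_lit 0) (nat_lit 0) (XT.lf (nat_lit 0) (nat_lit 2227027395) (nat_lit 532) (nat_lit 4728338426) (nat_lit 608) (nat_lit 9638668309) (nat_lit 281) (nat_lit 5) (nat_lit 288) (nat_lit 5) (nat_lit 289) (nat_lit 5) (nat_lit 478) (nat_lit 417) (nat_lit 245)) (XT.lf (nat_lit 0) (nat_lit 10360236176) (nat_lit 608) (nat_lit 4357017911) (nat_lit 76) (nat_lit 2066352212) (nat_lit 281) (nat_lit 5) (nat_lit 289) (nat_lit 5) (nat_lit 282) (nat_lit 5) (nat_lit 479) (nat_lit 417) (nat_lit 244))) (XT.nd (nat_lit 78) (nat_lit 608) (nat_lit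 0) (XT.lf (nat_lit 0) (nat_lit 5887071939) (nat_lit 608) (nat_lit 8006616700) (nat_lit 684) (nat_lit 3082071578) (nat_lit 273) (nat_lit 5) (nat_lit 281) (nat_lit 5) (nat_lit 282) (nat_lit 5) (nat_lit 480) (nat_lit 417) (nat_lit 243)) (XT.nd (nat_lit 78) (nat_lit 532) (nat_lit 0) (XT.lf (nat_lit 0) (nat_lit 342197464) (nat_lit 684) (nat_lit 790415013) (nat_lit 76) (nat_lit 16038693983) (nat_lit 272) (nat_lit 5) (nat_lit 281) (nat_lit 5) (nat_lit 273) (nat_lit 5) (nat_lit 481) (nat_lit 417) (nat_lit 242)) (XT.lf (nat_lit 0) (nat_lit 3887289556) (nat_lit 608) (nat_lit 7597689367) (nat_lit 76) (nat_lit 5883505122) (nat_lit 265) (nat_lit 5) (nat_lit 273) (nat_lit 5) (nat_lit 266) (nat_lit 5) (nat_lit 482) (nat_lit 417) (nat_lit 241)))))) (XT.nd (nat_lit 390) (nat_lit 1976) (nat_lit 0) (XT.nd (nat_lit 156) (nat_lit 1140) (nat_lit 0) (XT.nd (nat_lit 78) (nat_lit 0) (nat_lit 0) (XT.lf (nat_lit 0) (nat_lit 3004433756) (nat_lit 532) (nat_lit 4522440146)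 (nat_lit 608) (nat_lit 10042259473) (nat_lit 258) (nat_lit 5) (nat_lit 265) (nat_lit 5) (nat_lit 266) (nat_lit 5) (nat_lit 483) (nat_lit 417) (nat_lit 240)) (XT.lf (nat_lit 0) (nat_lit 11298637290) (nat_lit 608) (nat_lit 3880224988) (nat_lit 76) (nat_lit 2593745666) (nat_lit 258) (nat_lit 5) (nat_lit 266) (nat_lit 5) (nat_lit 259) (nat_lit 5) (nat_lit 484) (nat_lit 417) (nat_lit 239))) (XT.nd (nat_lit 78) (nat_lit 608) (nat_lit 0) (XT.lf (nat_lit 0) (nat_lit 7068982020) (nat_lit 532) (nat_lit 8144188975) (nat_lit 608) (nat_lit 2765634307) (nat_lit 251) (nat_lit 5) (nat_lit 258) (nat_lit 5) (nat_lit 259) (nat_lit 5) (nat_lit 485) (nat_lit 417) (nat_lit 238)) (XT.nd (nat_lit 78) (nat_lit 0) (nat_lit 0) (XT.lf (nat_lit 0) (nat_lit 83734669) (nat_lit 532) (nat_lit 938076275) (nat_lit 608) (nat_lit 17166818049) (nat_lit 243) (nat_lit 5) (nat_lit 250) (nat_lit 5) (nat_lit 251) (nat_lit 5) (nat_lit 486) (nat_lit 417) (nat_lit 237)) (XT.lf (nat_lit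 0) (nat_lit 4954928514) (nat_lit 608) (nat_lit 7028390637) (nat_lit 76) (nat_lit 6416825283) (nat_lit 243) (nat_lit 5) (nat_lit 251) (nat_lit 5) (nat_lit 244) (nat_lit 5) (nat_lit 487) (nat_lit 417) (nat_lit 236))))) (XT.nd (nat_lit 234) (nat_lit 988) (nat_lit 0) (XT.nd (nat_lit 78) (nat_lit 532) (nat_lit 0) (XT.lf (nat_lit 0) (nat_lit 4308344514) (nat_lit 456) (nat_lit 4684306976) (nat_lit 532) (nat_lit 9622719835) (nat_lit 237) (nat_lit 5) (nat_lit 243) (nat_lit 5) (nat_lit 244) (nat_lit 5) (nat_lit 488) (nat_lit 417) (nat_lit 235)) (XT.nd (nat_lit 78) (nat_lit 532) (nat_lit 0) (XT.lf (nat_lit 0) (nat_lit 13168352706) (nat_lit 532) (nat_lit 2896765893) (nat_lit 76) (nat_lit 2768639678) (nat_lit 237) (nat_lit 5) (nat_lit 244) (nat_lit 5) (nat_lit 238) (nat_lit 5) (nat_lit 489) (nat_lit 417) (nat_lit 234)) (XT.lf (nat_lit 0) (nat_lit 8814859425) (nat_lit 532) (nat_lit 8692945702) (nat_lit 608) (nat_lit 1547103098) (nat_lit 230) (nat_lit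 5) (nat_lit 237) (nat_lit 5) (nat_lit 238) (nat_lit 5) (nat_lit 490) (nat_lit 417) (nat_lit 233)))) (XT.nd (nat_lit 78) (nat_lit 456) (nat_lit 0) (XT.lf (nat_lit 0) (nat_lit 1510891118) (nat_lit 456) (nat_lit 1129263895) (nat_lit 532) (nat_lit 16639553753) (nat_lit 223) (nat_lit 5) (nat_lit 229) (nat_lit 5) (nat_lit 230) (nat_lit 5) (nat_lit 491) (nat_lit 417) (nat_lit 232)) (XT.nd (nat_lit 78) (nat_lit 456) (nat_lit 0) (XT.lf (nat_lit 0) (nat_lit 6994466204) (nat_lit 532) (nat_lit 5936952483) (nat_lit 76) (nat_lit 6575301631) (nat_lit 223) (nat_lit 5) (nat_lit 230) (nat_lit 5) (nat_lit 224) (nat_lit 5) (nat_lit 492) (nat_lit 417) (nat_lit 231)) (XT.lf (nat_lit 0) (nat_lit 6194014470) (nat_lit 456) (nat_lit 5281773165) (nat_lit 532) (nat_lit 8261685986) (nat_lit 217) (nat_lit 5) (nat_lit 223) (nat_lit 5) (nat_lit 224) (nat_lit 5) (nat_lit 493) (nat_lit 417) (nat_lit 230))))))))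
noncomputable def xc198 : XT := (XT.nd (nat_lit 54600) (nat_lit 0) (nat_lit 17860) (XT.nd (nat_lit 53820) (nat_lit 0) (nat_lit 26676) (XT.nd (nat_lit 53430) (nat_lit 0) (nat_lit 28044) (XT.nd (nat_lit 156) (nat_lit 836) (nat_lit 0) (XT.nd (nat_lit 78) (nat_lit 532) (nat_lit 0) (XT.lf (nat_lit 0) (nat_lit 16095492957) (nat_lit 532) (nat_lit 1351947621) (nat_lit 76) (nat_lit 2524426262) (nat_lit 217) (nat_lit 5) (nat_lit 224) (nat_lit 5) (nat_lit 218) (nat_lit 5) (nat_lit 494) (nat_lit 417) (nat_lit 229)) (XT.lf (nat_lit 0) (nat_lit 689511846) (nat_lit 532) (nat_lit 9029514962) (nat_lit 76) (nat_lit 10489829790) (nat_lit 210) (nat_lit 5) (nat_lit 217) (nat_lit 5) (nat_lit 211) (nat_lit 5) (nat_lit 495) (nat_lit 417) (nat_lit 228))) (XT.nd (nat_lit 78) (nat_lit 380) (nat_lit 0) (XT.lf (nat_lit 0) (nat_lit 3538703698) (nat_lit 456) (nat_lit 1780728039) (nat_lit 532) (nat_lit 15130149536) (nat_lit 204) (nat_lit 5) (nat_lit 210) (nat_lit 5)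 (nat_lit 211) (nat_lit 5) (nat_lit 496) (nat_lit 417) (nat_lit 227)) (XT.nd (nat_lit 78) (nat_lit 380) (nat_lit 0) (XT.lf (nat_lit 0) (nat_lit 10136470857) (nat_lit 532) (nat_lit 4265841415) (nat_lit 76) (nat_lit 6290917753) (nat_lit 204) (nat_lit 5) (nat_lit 211) (nat_lit 5) (nat_lit 205) (nat_lit 5) (nat_lit 497) (nat_lit 417) (nat_lit 226)) (XT.lf (nat_lit 0) (nat_lit 8723729684) (nat_lit 380) (nat_lit 6387217849) (nat_lit 456) (nat_lit 5829582283) (nat_lit 199) (nat_lit 5) (nat_lit 204) (nat_lit 5) (nat_lit 205) (nat_lit 5) (nat_lit 498) (nat_lit 417) (nat_lit 225))))) (XT.nd (nat_lit 156) (nat_lit 0) (nat_lit 0) (XT.nd (nat_lit 78) (nat_lit 1596) (nat_lit 0) (XT.lf (nat_lit 0) (nat_lit 4535861590) (nat_lit 1596) (nat_lit 33069217) (nat_lit 1596) (nat_lit 33069217) (nat_lit 589) (nat_lit 3) (nat_lit 610) (nat_lit 3) (nat_lit 610) (nat_lit 5) (nat_lit 418) (nat_lit 418) (nat_lit 304)) (XT.lf (nat_lit 0) (nat_lit 758543531) (nat_lit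 1596) (nat_lit 4687199001) (nat_lit 1672) (nat_lit 3832507045) (nat_lit 568) (nat_lit 5) (nat_lit 589) (nat_lit 3) (nat_lit 590) (nat_lit 5) (nat_lit 419) (nat_lit 418) (nat_lit 303))) (XT.nd (nat_lit 78) (nat_lit 0) (nat_lit 76) (XT.lf (nat_lit 0) (nat_lit 1643214505) (nat_lit 1596) (nat_lit 24460762) (nat_lit 1672) (nat_lit 7686735236) (nat_lit 568) (nat_lit 5) (nat_lit 589) (nat_lit 3) (nat_lit 590) (nat_lit 5) (nat_lit 420) (nat_lit 418) (nat_lit 302)) (XT.nd (nat_lit 78) (nat_lit 0) (nat_lit 0) (XT.lf (nat_lit 0) (nat_lit 2568898417) (nat_lit 1596) (nat_lit 4663780837) (nat_lit 1672) (nat_lit 2198949002) (nat_lit 569) (nat_lit 5) (nat_lit 590) (nat_lit 5) (nat_lit 591) (nat_lit 5) (nat_lit 421) (nat_lit 418) (nat_lit 301)) (XT.lf (nat_lit 76) (nat_lit 124453023) (nat_lit 0) (nat_lit 3378888112) (nat_lit 1672) (nat_lit 6007244328) (nat_lit 570) (nat_lit 5) (nat_lit 569) (nat_lit 5) (nat_lit 591) (nat_lit 5) (nat_lit 422) (nat_lit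 418) (nat_lit 300)))))) (XT.nd (nat_lit 390) (nat_lit 1520) (nat_lit 0) (XT.nd (nat_lit 156) (nat_lit 0) (nat_lit 0) (XT.nd (nat_lit 78) (nat_lit 0) (nat_lit 0) (XT.lf (nat_lit 0) (nat_lit 4470198033) (nat_lit 1596) (nat_lit 4535106954) (nat_lit 1672) (nat_lit 585542320) (nat_lit 570) (nat_lit 5) (nat_lit 591) (nat_lit 5) (nat_lit 592) (nat_lit 5) (nat_lit 423) (nat_lit 418) (nat_lit 299)) (XT.lf (nat_lit 76) (nat_lit 383344508) (nat_lit 0) (nat_lit 5076969924) (nat_lit 1672) (nat_lit 4212321509) (nat_lit 571) (nat_lit 5) (nat_lit 570) (nat_lit 5) (nat_lit 592) (nat_lit 5) (nat_lit 424) (nat_lit 418) (nat_lit 298))) (XT.nd (nat_lit 78) (nat_lit 0) (nat_lit 76) (XT.lf (nat_lit 76) (nat_lit 5449474706) (nat_lit 0) (nat_lit 1030579771) (nat_lit 1672) (nat_lit 3275809444) (nat_lit 571) (nat_lit 5) (nat_lit 570) (nat_lit 5) (nat_lit 592) (nat_lit 5) (nat_lit 425) (nat_lit 418) (nat_lit 297)) (XT.nd (nat_lit 78) (nat_lit 0) (nat_lit 0) (XT.lf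 (nat_lit 76) (nat_lit 753563842) (nat_lit 0) (nat_lit 6771470476) (nat_lit 1672) (nat_lit 2315625242) (nat_lit 572) (nat_lit 5) (nat_lit 571) (nat_lit 5) (nat_lit 593) (nat_lit 5) (nat_lit 426) (nat_lit 418) (nat_lit 296)) (XT.lf (nat_lit 76) (nat_lit 5953871692) (nat_lit 0) (nat_lit 2652881906) (nat_lit 1672) (nat_lit 1320080718) (nat_lit 572) (nat_lit 5) (nat_lit 571) (nat_lit 5) (nat_lit 593) (nat_lit 5) (nat_lit 427) (nat_lit 418) (nat_lit 295))))) (XT.nd (nat_lit 156) (nat_lit 0) (nat_lit 76) (XT.nd (nat_lit 78) (nat_lit 1672) (nat_lit 0) (XT.lf (nat_lit 76) (nat_lit 1237128643) (nat_lit 0) (nat_lit 8471660562) (nat_lit 1672) (nat_lit 305969722) (nat_lit 573) (nat_lit 5) (nat_lit 572) (nat_lit 5) (nat_lit 594) (nat_lit 5) (nat_lit 428) (nat_lit 418) (nat_lit 294)) (XT.lf (nat_lit 0) (nat_lit 744047907) (nat_lit 1672) (nat_lit 3533779058) (nat_lit 1748) (nat_lit 5826016922) (nat_lit 550) (nat_lit 5) (nat_lit 572) (nat_lit 5) (nat_lit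 573) (nat_lit 5) (nat_lit 429) (nat_lit 418) (nat_lit 293))) (XT.nd (nat_lit 78) (nat_lit 0) (nat_lit 0) (XT.lf (nat_lit 0) (nat_lit 1804099876) (nat_lit 1672) (nat_lit 8370515722) (nat_lit 1748) (nat_lit 20191880) (nat_lit 551) (nat_lit 5) (nat_lit 573) (nat_lit 5) (nat_lit 574) (nat_lit 5) (nat_lit 430) (nat_lit 418) (nat_lit 292)) (XT.nd (nat_lit 78) (nat_lit 0) (nat_lit 0) (XT.lf (nat_lit 0) (nat_lit 2919032167) (nat_lit 1672) (nat_lit 2990931026) (nat_lit 1748) (nat_lit 4376953563) (nat_lit 551) (nat_lit 5) (nat_lit 573) (nat_lit 5) (nat_lit 574) (nat_lit 5) (nat_lit 431) (nat_lit 418) (nat_lit 291)) (XT.lf (nat_lit 76) (nat_lit 2516749830) (nat_lit 0) (nat_lit 1537695587) (nat_lit 1748) (nat_lit 6326459155) (nat_lit 552) (nat_lit 5) (nat_lit 551) (nat_lit 5) (nat_lit 574) (nat_lit 5) (nat_lit 432) (nat_lit 418) (nat_lit 290))))))) (XT.nd (nat_lit 780) (nat_lit 7372) (nat_lit 0) (XT.nd (nat_lit 390) (nat_lit 1596) (nat_lit 0) (XT.nd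 (nat_lit 156) (nat_lit 0) (nat_lit 76) (XT.nd (nat_lit 78) (nat_lit 0) (nat_lit 0) (XT.lf (nat_lit 0) (nat_lit 5233895011) (nat_lit 1672) (nat_lit 2333162183) (nat_lit 1748) (nat_lit 2909288389) (nat_lit 552) (nat_lit 5) (nat_lit 574) (nat_lit 5) (nat_lit 575) (nat_lit 5) (nat_lit 433) (nat_lit 418) (nat_lit 289)) (XT.lf (nat_lit 76) (nat_lit 3329369326) (nat_lit 0) (nat_lit 3121866866) (nat_lit 1748) (nat_lit 4122173170) (nat_lit 553) (nat_lit 5) (nat_lit 552) (nat_lit 5) (nat_lit 575) (nat_lit 5) (nat_lit 434) (nat_lit 418) (nat_lit 288))) (XT.nd (nat_lit 78) (nat_lit 0) (nat_lit 0) (XT.lf (nat_lit 0) (nat_lit 7700649384) (nat_lit 1672) (nat_lit 1557451686) (nat_lit 1748) (nat_lit 1414158844) (nat_lit 553) (nat_lit 5) (nat_lit 575) (nat_lit 5) (nat_lit 576) (nat_lit 5) (nat_lit 435) (nat_lit 418) (nat_lit 287)) (XT.nd (nat_lit 78) (nat_lit 0) (nat_lit 0) (XT.lf (nat_lit 76) (nat_lit 4265533435) (nat_lit 0) (nat_lit 4741019668) (nat_lit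 1748) (nat_lit 1765904327) (nat_lit 554) (nat_lit 5) (nat_lit 553) (nat_lit 5) (nat_lit 576) (nat_lit 5) (nat_lit 436) (nat_lit 418) (nat_lit 286)) (XT.lf (nat_lit 76) (nat_lit 10213569226) (nat_lit 0) (nat_lit 118839403) (nat_lit 1748) (nat_lit 542373595) (nat_lit 554) (nat_lit 5) (nat_lit 553) (nat_lit 5) (nat_lit 576) (nat_lit 5) (nat_lit 437) (nat_lit 418) (nat_lit 285))))) (XT.nd (nat_lit 156) (nat_lit 0) (nat_lit 76) (XT.nd (nat_lit 78) (nat_lit 0) (nat_lit 0) (XT.lf (nat_lit 0) (nat_lit 744863868) (nat_lit 1748) (nat_lit 5654255648) (nat_lit 1824) (nat_lit 4578972557) (nat_lit 531) (nat_lit 5) (nat_lit 554) (nat_lit 5) (nat_lit 555) (nat_lit 5) (nat_lit 438) (nat_lit 418) (nat_lit 284)) (XT.lf (nat_lit 76) (nat_lit 341482243) (nat_lit 0) (nat_lit 1700444528) (nat_lit 1824) (nat_lit 9041642785) (nat_lit 532) (nat_lit 5) (nat_lit 531) (nat_lit 5) (nat_lit 555) (nat_lit 5) (nat_lit 439) (nat_lit 418) (nat_lit 283))) (XT.nd (nat_lit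 78) (nat_lit 0) (nat_lit 0) (XT.lf (nat_lit 0) (nat_lit 3407322562) (nat_lit 1748) (nat_lit 4689959296) (nat_lit 1824) (nat_lit 3093026899) (nat_lit 532) (nat_lit 5) (nat_lit 555) (nat_lit 5) (nat_lit 556) (nat_lit 5) (nat_lit 440) (nat_lit 418) (nat_lit 282)) (XT.nd (nat_lit 78) (nat_lit 0) (nat_lit 76) (XT.lf (nat_lit 76) (nat_lit 1478583650) (nat_lit 0) (nat_lit 3326735824) (nat_lit 1824) (nat_lit 6493757404) (nat_lit 533) (nat_lit 5) (nat_lit 532) (nat_lit 5) (nat_lit 556) (nat_lit 5) (nat_lit 441) (nat_lit 418) (nat_lit 281)) (XT.lf (nat_lit 0) (nat_lit 6257622830) (nat_lit 1748) (nat_lit 3598520504) (nat_lit 76) (nat_lit 1553350097) (nat_lit 533) (nat_lit 5) (nat_lit 556) (nat_lit 5) (nat_lit 534) (nat_lit 5) (nat_lit 442) (nat_lit 418) (nat_lit 280)))))) (XT.nd (nat_lit 390) (nat_lit 2736) (nat_lit 0) (XT.nd (nat_lit 156) (nat_lit 3040) (nat_lit 0) (XT.nd (nat_lit 78) (nat_lit 0) (nat_lit 0) (XT.lf (nat_lit 0) (nat_lit 2749172474)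 (nat_lit 1748) (nat_lit 5014653477) (nat_lit 1824) (nat_lit 3757795289) (nat_lit 510) (nat_lit 5) (nat_lit 533) (nat_lit 5) (nat_lit 534) (nat_lit 5) (nat_lit 443) (nat_lit 418) (nat_lit 279)) (XT.lf (nat_lit 0) (nat_lit 9259938316) (nat_lit 1748) (nat_lit 49548122) (nat_lit 1824) (nat_lit 2326318502) (nat_lit 510) (nat_lit 5) (nat_lit 533) (nat_lit 5) (nat_lit 534) (nat_lit 5) (nat_lit 444) (nat_lit 418) (nat_lit 278))) (XT.nd (nat_lit 78) (nat_lit 1216) (nat_lit 0) (XT.lf (nat_lit 0) (nat_lit 4157903160) (nat_lit 1824) (nat_lit 6773202170) (nat_lit 1900) (nat_lit 820266080) (nat_lit 486) (nat_lit 5) (nat_lit 510) (nat_lit 5) (nat_lit 511) (nat_lit 5) (nat_lit 445) (nat_lit 418) (nat_lit 277)) (XT.nd (nat_lit 78) (nat_lit 1140) (nat_lit 0) (XT.lf (nat_lit 0) (nat_lit 708492453) (nat_lit 1900) (nat_lit 1032281971) (nat_lit 76) (nat_lit 10128342336) (nat_lit 485) (nat_lit 5) (nat_lit 510) (nat_lit 5) (nat_lit 486) (nat_lit 5) (nat_lit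 446) (nat_lit 418) (nat_lit 276)) (XT.lf (nat_lit 0) (nat_lit 2302168909) (nat_lit 1216) (nat_lit 6293860817) (nat_lit 76) (nat_lit 3392172329) (nat_lit 470) (nat_lit 5) (nat_lit 486) (nat_lit 5) (nat_lit 471) (nat_lit 5) (nat_lit 447) (nat_lit 418) (nat_lit 275))))) (XT.nd (nat_lit 234) (nat_lit 912) (nat_lit 0) (XT.nd (nat_lit 78) (nat_lit 912) (nat_lit 0) (XT.lf (nat_lit 0) (nat_lit 441396813) (nat_lit 912) (nat_lit 3493774046) (nat_lit 988) (nat_lit 8174349158) (nat_lit 458) (nat_lit 5) (nat_lit 470) (nat_lit 5) (nat_lit 471) (nat_lit 5) (nat_lit 448) (nat_lit 418) (nat_lit 274)) (XT.nd (nat_lit 78) (nat_lit 912) (nat_lit 0) (XT.lf (nat_lit 0) (nat_lit 5640735465) (nat_lit 988) (nat_lit 4860105066) (nat_lit 76) (nat_lit 1731625756) (nat_lit 458) (nat_lit 5) (nat_lit 471) (nat_lit 5) (nat_lit 459) (nat_lit 5) (nat_lit 449) (nat_lit 418) (nat_lit 273)) (XT.lf (nat_lit 0) (nat_lit 2075435581) (nat_lit 912) (nat_lit 5328139362) (nat_lit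 988) (nat_lit 4953833266) (nat_lit 446) (nat_lit 5) (nat_lit 458) (nat_lit 5) (nat_lit 459) (nat_lit 5) (nat_lit 450) (nat_lit 418) (nat_lit 272)))) (XT.nd (nat_lit 78) (nat_lit 912) (nat_lit 0) (XT.lf (nat_lit 0) (nat_lit 9202930741) (nat_lit 912) (nat_lit 18086900) (nat_lit 988) (nat_lit 3263444402) (nat_lit 446) (nat_lit 5) (nat_lit 458) (nat_lit 5) (nat_lit 459) (nat_lit 5) (nat_lit 451) (nat_lit 418) (nat_lit 271)) (XT.nd (nat_lit 78) (nat_lit 76) (nat_lit 0) (XT.lf (nat_lit 0) (nat_lit 3861866752) (nat_lit 836) (nat_lit 7260061447) (nat_lit 912) (nat_lit 1491186373) (nat_lit 435) (nat_lit 5) (nat_lit 446) (nat_lit 5) (nat_lit 447) (nat_lit 5) (nat_lit 452) (nat_lit 418) (nat_lit 270)) (XT.lf (nat_lit 0) (nat_lit 321737177) (nat_lit 912) (nat_lit 1566346685) (nat_lit 76) (nat_lit 10856027758) (nat_lit 434) (nat_lit 5) (nat_lit 446) (nat_lit 5) (nat_lit 435) (nat_lit 5) (nat_lit 453) (nat_lit 418) (nat_lit 269))))))))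
noncomputable def xc199 : XT := (XT.nd (nat_lit 1638) (nat_lit 6688) (nat_lit 0) (XT.nd (nat_lit 780) (nat_lit 4864) (nat_lit 0) (XT.nd (nat_lit 390) (nat_lit 2356) (nat_lit 0) (XT.nd (nat_lit 156) (nat_lit 836) (nat_lit 0) (XT.nd (nat_lit 78) (nat_lit 836) (nat_lit 0) (XT.lf (nat_lit 0) (nat_lit 2199705542) (nat_lit 988) (nat_lit 7084497129) (nat_lit 76) (nat_lit 3592353737) (nat_lit 422) (nat_lit 5) (nat_lit 435) (nat_lit 5) (nat_lit 423) (nat_lit 5) (nat_lit 454) (nat_lit 418) (nat_lit 268)) (XT.lf (nat_lit 0) (nat_lit 285942937) (nat_lit 836) (nat_lit 3841737957) (nat_lit 912) (nat_lit 8883720245) (nat_lit 411) (nat_lit 5) (nat_lit 422) (nat_lit 5) (nat_lit 423) (nat_lit 5) (nat_lit 455) (nat_lit 418) (nat_lit 267))) (XT.nd (nat_lit 78) (nat_lit 836) (nat_lit 0) (XT.lf (nat_lit 0) (nat_lit 6140839321) (nat_lit 912) (nat_lit 5272403693) (nat_lit 76) (nat_lit 1734767280) (nat_lit 411) (nat_lit 5) (nat_lit 423) (nat_lit 5) (nat_lit 412)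 (nat_lit 5) (nat_lit 456) (nat_lit 418) (nat_lit 266)) (XT.nd (nat_lit 78) (nat_lit 0) (nat_lit 0) (XT.lf (nat_lit 0) (nat_lit 2322155587) (nat_lit 836) (nat_lit 5900534393) (nat_lit 912) (nat_lit 5064093071) (nat_lit 400) (nat_lit 5) (nat_lit 411) (nat_lit 5) (nat_lit 412) (nat_lit 5) (nat_lit 457) (nat_lit 418) (nat_lit 265)) (XT.lf (nat_lit 0) (nat_lit 10127587736) (nat_lit 836) (nat_lit 242036620) (nat_lit 912) (nat_lit 3058237972) (nat_lit 400) (nat_lit 5) (nat_lit 411) (nat_lit 5) (nat_lit 412) (nat_lit 5) (nat_lit 458) (nat_lit 418) (nat_lit 264))))) (XT.nd (nat_lit 156) (nat_lit 1520) (nat_lit 0) (XT.nd (nat_lit 78) (nat_lit 76) (nat_lit 0) (XT.lf (nat_lit 0) (nat_lit 4528381067) (nat_lit 760) (nat_lit 8084716215) (nat_lit 836) (nat_lit 957593912) (nat_lit 390) (nat_lit 5) (nat_lit 400) (nat_lit 5) (nat_lit 401) (nat_lit 5) (nat_lit 459) (nat_lit 418) (nat_lit 263)) (XT.lf (nat_lit 0) (nat_lit 1181785938) (nat_lit 836) (nat_lit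 1179576825) (nat_lit 76) (nat_lit 11354614685) (nat_lit 389) (nat_lit 5) (nat_lit 400) (nat_lit 5) (nat_lit 390) (nat_lit 5) (nat_lit 460) (nat_lit 418) (nat_lit 262))) (XT.nd (nat_lit 78) (nat_lit 760) (nat_lit 0) (XT.lf (nat_lit 0) (nat_lit 3407525266) (nat_lit 836) (nat_lit 6973850015) (nat_lit 76) (nat_lit 3481539672) (nat_lit 379) (nat_lit 5) (nat_lit 390) (nat_lit 5) (nat_lit 380) (nat_lit 5) (nat_lit 461) (nat_lit 418) (nat_lit 261)) (XT.nd (nat_lit 78) (nat_lit 0) (nat_lit 0) (XT.lf (nat_lit 0) (nat_lit 1108850994) (nat_lit 760) (nat_lit 4588469117) (nat_lit 836) (nat_lit 8315080281) (nat_lit 369) (nat_lit 5) (nat_lit 379) (nat_lit 5) (nat_lit 380) (nat_lit 5) (nat_lit 462) (nat_lit 418) (nat_lit 260)) (XT.lf (nat_lit 0) (nat_lit 8077459045) (nat_lit 836) (nat_lit 4737653316) (nat_lit 76) (nat_lit 1348872216) (nat_lit 369) (nat_lit 5) (nat_lit 380) (nat_lit 5) (nat_lit 370) (nat_lit 5) (nat_lit 463) (nat_lit 418) (nat_lit 259))))))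 (XT.nd (nat_lit 390) (nat_lit 2660) (nat_lit 0) (XT.nd (nat_lit 156) (nat_lit 1444) (nat_lit 0) (XT.nd (nat_lit 78) (nat_lit 0) (nat_lit 0) (XT.lf (nat_lit 0) (nat_lit 3596012312) (nat_lit 760) (nat_lit 6952009465) (nat_lit 836) (nat_lit 3769722248) (nat_lit 359) (nat_lit 5) (nat_lit 369) (nat_lit 5) (nat_lit 370) (nat_lit 5) (nat_lit 464) (nat_lit 418) (nat_lit 258)) (XT.lf (nat_lit 0) (nat_lit 12148328955) (nat_lit 760) (nat_lit 940679579) (nat_lit 836) (nat_lit 1385149873) (nat_lit 359) (nat_lit 5) (nat_lit 369) (nat_lit 5) (nat_lit 370) (nat_lit 5) (nat_lit 465) (nat_lit 418) (nat_lit 257))) (XT.nd (nat_lit 78) (nat_lit 684) (nat_lit 0) (XT.lf (nat_lit 0) (nat_lit 1097666472) (nat_lit 760) (nat_lit 8365271975) (nat_lit 76) (nat_lit 5169340945) (nat_lit 349) (nat_lit 5) (nat_lit 359) (nat_lit 5) (nat_lit 350) (nat_lit 5) (nat_lit 466) (nat_lit 418) (nat_lit 256)) (XT.nd (nat_lit 78) (nat_lit 0) (nat_lit 0) (XT.lf (nat_lit 0) (nat_lit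 245426293) (nat_lit 684) (nat_lit 3379199222) (nat_lit 760) (nat_lit 11168493494) (nat_lit 340) (nat_lit 5) (nat_lit 349) (nat_lit 5) (nat_lit 350) (nat_lit 5) (nat_lit 467) (nat_lit 418) (nat_lit 255)) (XT.lf (nat_lit 0) (nat_lit 6266578184) (nat_lit 760) (nat_lit 5845421553) (nat_lit 76) (nat_lit 2843886594) (nat_lit 340) (nat_lit 5) (nat_lit 350) (nat_lit 5) (nat_lit 341) (nat_lit 5) (nat_lit 468) (nat_lit 418) (nat_lit 254))))) (XT.nd (nat_lit 234) (nat_lit 1292) (nat_lit 0) (XT.nd (nat_lit 78) (nat_lit 684) (nat_lit 0) (XT.lf (nat_lit 0) (nat_lit 3036199859) (nat_lit 684) (nat_lit 5957063486) (nat_lit 760) (nat_lit 6128007786) (nat_lit 331) (nat_lit 5) (nat_lit 340) (nat_lit 5) (nat_lit 341) (nat_lit 5) (nat_lit 469) (nat_lit 418) (nat_lit 253)) (XT.nd (nat_lit 78) (nat_lit 684) (nat_lit 0) (XT.lf (nat_lit 0) (nat_lit 11805962245) (nat_lit 760) (nat_lit 3129078424) (nat_lit 76) (nat_lit 354293357) (nat_lit 331) (nat_lit 5) (nat_lit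 341) (nat_lit 5) (nat_lit 332) (nat_lit 5) (nat_lit 470) (nat_lit 418) (nat_lit 252)) (XT.lf (nat_lit 0) (nat_lit 6033711337) (nat_lit 684) (nat_lit 8709937672) (nat_lit 760) (nat_lit 715734492) (nat_lit 322) (nat_lit 5) (nat_lit 331) (nat_lit 5) (nat_lit 332) (nat_lit 5) (nat_lit 471) (nat_lit 418) (nat_lit 251)))) (XT.nd (nat_lit 78) (nat_lit 1216) (nat_lit 0) (XT.lf (nat_lit 0) (nat_lit 2090915393) (nat_lit 760) (nat_lit 236119579) (nat_lit 76) (nat_lit 13305299420) (nat_lit 321) (nat_lit 5) (nat_lit 331) (nat_lit 5) (nat_lit 322) (nat_lit 5) (nat_lit 472) (nat_lit 418) (nat_lit 250)) (XT.nd (nat_lit 78) (nat_lit 608) (nat_lit 0) (XT.lf (nat_lit 0) (nat_lit 5022057799) (nat_lit 684) (nat_lit 6593347101) (nat_lit 76) (nat_lit 4191685919) (nat_lit 313) (nat_lit 5) (nat_lit 322) (nat_lit 5) (nat_lit 314) (nat_lit 5) (nat_lit 473) (nat_lit 418) (nat_lit 249)) (XT.lf (nat_lit 0) (nat_lit 2880937613) (nat_lit 608) (nat_lit 5157047781) (nat_lit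 684) (nat_lit 7946833732) (nat_lit 305) (nat_lit 5) (nat_lit 313) (nat_lit 5) (nat_lit 314) (nat_lit 5) (nat_lit 474) (nat_lit 418) (nat_lit 248))))))) (XT.nd (nat_lit 780) (nat_lit 3116) (nat_lit 0) (XT.nd (nat_lit 390) (nat_lit 1748) (nat_lit 0) (XT.nd (nat_lit 156) (nat_lit 1216) (nat_lit 0) (XT.nd (nat_lit 78) (nat_lit 608) (nat_lit 0) (XT.lf (nat_lit 0) (nat_lit 11158603305) (nat_lit 684) (nat_lit 3552729228) (nat_lit 76) (nat_lit 1453882032) (nat_lit 305) (nat_lit 5) (nat_lit 314) (nat_lit 5) (nat_lit 306) (nat_lit 5) (nat_lit 475) (nat_lit 418) (nat_lit 247)) (XT.lf (nat_lit 0) (nat_lit 6225159033) (nat_lit 608) (nat_lit 8181776723) (nat_lit 684) (nat_lit 1940976113) (nat_lit 297) (nat_lit 5) (nat_lit 305) (nat_lit 5) (nat_lit 306) (nat_lit 5) (nat_lit 476) (nat_lit 418) (nat_lit 246))) (XT.nd (nat_lit 78) (nat_lit 1140) (nat_lit 0) (XT.lf (nat_lit 0) (nat_lit 1185192840) (nat_lit 684) (nat_lit 306704663) (nat_lit 76) (nat_lit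 15041916107) (nat_lit 296) (nat_lit 5) (nat_lit 305) (nat_lit 5) (nat_lit 297) (nat_lit 5) (nat_lit 477) (nat_lit 418) (nat_lit 245)) (XT.nd (nat_lit 78) (nat_lit 532) (nat_lit 0) (XT.lf (nat_lit 0) (nat_lit 4437677465) (nat_lit 684) (nat_lit 6947314269) (nat_lit 76) (nat_lit 5336389415) (nat_lit 288) (nat_lit 5) (nat_lit 297) (nat_lit 5) (nat_lit 289) (nat_lit 5) (nat_lit 478) (nat_lit 418) (nat_lit 244)) (XT.lf (nat_lit 0) (nat_lit 3167929080) (nat_lit 532) (nat_lit 4610846322) (nat_lit 608) (nat_lit 9133453364) (nat_lit 281) (nat_lit 5) (nat_lit 288) (nat_lit 5) (nat_lit 289) (nat_lit 5) (nat_lit 479) (nat_lit 418) (nat_lit 243))))) (XT.nd (nat_lit 156) (nat_lit 1140) (nat_lit 0) (XT.nd (nat_lit 78) (nat_lit 608) (nat_lit 0) (XT.lf (nat_lit 0) (nat_lit 11239675304) (nat_lit 608) (nat_lit 3553304979) (nat_lit 76) (nat_lit 2312853454) (nat_lit 281) (nat_lit 5) (nat_lit 289) (nat_lit 5) (nat_lit 282) (nat_lit 5) (nat_lit 480) (nat_lit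 418) (nat_lit 242)) (XT.lf (nat_lit 0) (nat_lit 6889805792) (nat_lit 608) (nat_lit 7946555916) (nat_lit 684) (nat_lit 2465617729) (nat_lit 273) (nat_lit 5) (nat_lit 281) (nat_lit 5) (nat_lit 282) (nat_lit 5) (nat_lit 481) (nat_lit 418) (nat_lit 241))) (XT.nd (nat_lit 78) (nat_lit 532) (nat_lit 0) (XT.lf (nat_lit 0) (nat_lit 71067329) (nat_lit 532) (nat_lit 934515833) (nat_lit 608) (nat_lit 16496018593) (nat_lit 265) (nat_lit 5) (nat_lit 272) (nat_lit 5) (nat_lit 273) (nat_lit 5) (nat_lit 482) (nat_lit 418) (nat_lit 240)) (XT.nd (nat_lit 78) (nat_lit 532) (nat_lit 0) (XT.lf (nat_lit 0) (nat_lit 4615343411) (nat_lit 608) (nat_lit 6867512302) (nat_lit 76) (nat_lit 6219991853) (nat_lit 265) (nat_lit 5) (nat_lit 273) (nat_lit 5) (nat_lit 266) (nat_lit 5) (nat_lit 483) (nat_lit 418) (nat_lit 239)) (XT.lf (nat_lit 0) (nat_lit 3940849791) (nat_lit 532) (nat_lit 4379808212) (nat_lit 608) (nat_lit 9586993107) (nat_lit 258) (nat_lit 5) (nat_lit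 265) (nat_lit 5) (nat_lit 266) (nat_lit 5) (nat_lit 484) (nat_lit 418) (nat_lit 238)))))) (XT.nd (nat_lit 390) (nat_lit 1520) (nat_lit 0) (XT.nd (nat_lit 156) (nat_lit 1064) (nat_lit 0) (XT.nd (nat_lit 78) (nat_lit 532) (nat_lit 0) (XT.lf (nat_lit 0) (nat_lit 12156727622) (nat_lit 608) (nat_lit 3087555980) (nat_lit 76) (nat_lit 2871134149) (nat_lit 258) (nat_lit 5) (nat_lit 266) (nat_lit 5) (nat_lit 259) (nat_lit 5) (nat_lit 485) (nat_lit 418) (nat_lit 237)) (XT.lf (nat_lit 0) (nat_lit 8074909685) (nat_lit 532) (nat_lit 8067861073) (nat_lit 608) (nat_lit 2183103923) (nat_lit 251) (nat_lit 5) (nat_lit 258) (nat_lit 5) (nat_lit 259) (nat_lit 5) (nat_lit 486) (nat_lit 418) (nat_lit 236))) (XT.nd (nat_lit 78) (nat_lit 456) (nat_lit 0) (XT.lf (nat_lit 0) (nat_lit 952579962) (nat_lit 532) (nat_lit 712432392) (nat_lit 608) (nat_lit 16874933915) (nat_lit 243) (nat_lit 5) (nat_lit 250) (nat_lit 5) (nat_lit 251) (nat_lit 5) (nat_lit 487) (nat_lit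 418) (nat_lit 235)) (XT.nd (nat_lit 78) (nat_lit 456) (nat_lit 0) (XT.lf (nat_lit 0) (nat_lit 5666136921) (nat_lit 608) (nat_lit 6308135841) (nat_lit 76) (nat_lit 6781632365) (nat_lit 243) (nat_lit 5) (nat_lit 251) (nat_lit 5) (nat_lit 244) (nat_lit 5) (nat_lit 488) (nat_lit 418) (nat_lit 234)) (XT.lf (nat_lit 0) (nat_lit 5249670707) (nat_lit 456) (nat_lit 4528493757) (nat_lit 532) (nat_lit 9197401089) (nat_lit 237) (nat_lit 5) (nat_lit 243) (nat_lit 5) (nat_lit 244) (nat_lit 5) (nat_lit 489) (nat_lit 418) (nat_lit 233))))) (XT.nd (nat_lit 234) (nat_lit 456) (nat_lit 0) (XT.nd (nat_lit 78) (nat_lit 1064) (nat_lit 0) (XT.lf (nat_lit 0) (nat_lit 14027092172) (nat_lit 532) (nat_lit 2106022205) (nat_lit 76) (nat_lit 3065411617) (nat_lit 237) (nat_lit 5) (nat_lit 244) (nat_lit 5) (nat_lit 238) (nat_lit 5) (nat_lit 490) (nat_lit 418) (nat_lit 232)) (XT.nd (nat_lit 78) (nat_lit 532) (nat_lit 0) (XT.lf (nat_lit 0) (nat_lit 9834252205) (nat_lit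 532) (nat_lit 8612881403) (nat_lit 608) (nat_lit 977089334) (nat_lit 230) (nat_lit 5) (nat_lit 237) (nat_lit 5) (nat_lit 238) (nat_lit 5) (nat_lit 491) (nat_lit 418) (nat_lit 231)) (XT.lf (nat_lit 0) (nat_lit 2386487641) (nat_lit 456) (nat_lit 893404508) (nat_lit 532) (nat_lit 16373672111) (nat_lit 223) (nat_lit 5) (nat_lit 229) (nat_lit 5) (nat_lit 230) (nat_lit 5) (nat_lit 492) (nat_lit 418) (nat_lit 230)))) (XT.nd (nat_lit 78) (nat_lit 456) (nat_lit 0) (XT.lf (nat_lit 0) (nat_lit 7711426145) (nat_lit 532) (nat_lit 5217025467) (nat_lit 76) (nat_lit 6956861699) (nat_lit 223) (nat_lit 5) (nat_lit 230) (nat_lit 5) (nat_lit 224) (nat_lit 5) (nat_lit 493) (nat_lit 418) (nat_lit 229)) (XT.nd (nat_lit 78) (nat_lit 0) (nat_lit 0) (XT.lf (nat_lit 0) (nat_lit 7151043285) (nat_lit 456) (nat_lit 5125424963) (nat_lit 532) (nat_lit 7844331548) (nat_lit 217) (nat_lit 5) (nat_lit 223) (nat_lit 5) (nat_lit 224) (nat_lit 5) (nat_lit 494) (nat_lit 418)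 (nat_lit 228)) (XT.lf (nat_lit 0) (nat_lit 16979035985) (nat_lit 532) (nat_lit 552642602) (nat_lit 76) (nat_lit 2828392927) (nat_lit 217) (nat_lit 5) (nat_lit 224) (nat_lit 5) (nat_lit 218) (nat_lit 5) (nat_lit 495) (nat_lit 418) (nat_lit 227))))))))
noncomputable def xc200 : XT := (XT.nd (nat_lit 54678) (nat_lit 0) (nat_lit 15732) (XT.nd (nat_lit 53898) (nat_lit 0) (nat_lit 26220) (XT.nd (nat_lit 53508) (nat_lit 0) (nat_lit 27664) (XT.nd (nat_lit 156) (nat_lit 0) (nat_lit 0) (XT.nd (nat_lit 78) (nat_lit 456) (nat_lit 0) (XT.lf (nat_lit 0) (nat_lit 1262934504) (nat_lit 532) (nat_lit 8381760543) (nat_lit 76) (nat_lit 10957146034) (nat_lit 210) (nat_lit 5) (nat_lit 217) (nat_lit 5) (nat_lit 211) (nat_lit 5) (nat_lit 496) (nat_lit 418) (nat_lit 226)) (XT.lf (nat_lit 0) (nat_lit 4432372855) (nat_lit 456) (nat_lit 1547449535) (nat_lit 532) (nat_lit 14867670468) (nat_lit 204) (nat_lit 5) (nat_lit 210) (nat_lit 5) (nat_lit 211) (nat_lit 5) (nat_lit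 497) (nat_lit 418) (nat_lit 225))) (XT.nd (nat_lit 53196) (nat_lit 0) (nat_lit 27664) (XT.lf (nat_lit 0) (nat_lit 10884051107) (nat_lit 532) (nat_lit 3535247174) (nat_lit 76) (nat_lit 6676899327) (nat_lit 204) (nat_lit 5) (nat_lit 211) (nat_lit 5) (nat_lit 205) (nat_lit 5) (nat_lit 498) (nat_lit 418) (nat_lit 224)) (XT.nd (nat_lit 78) (nat_lit 0) (nat_lit 0) (XT.lf (nat_lit 0) (nat_lit 396705004) (nat_lit 0) (nat_lit 396705004) (nat_lit 1596) (nat_lit 3883439047) (nat_lit 568) (nat_lit 5) (nat_lit 568) (nat_lit 3) (nat_lit 589) (nat_lit 3) (nat_lit 419) (nat_lit 419) (nat_lit 302)) (XT.lf (nat_lit 0) (nat_lit 2455350002) (nat_lit 1596) (nat_lit 3898167541) (nat_lit 1672) (nat_lit 3076664315) (nat_lit 568) (nat_lit 5) (nat_lit 589) (nat_lit 3) (nat_lit 590) (nat_lit 5) (nat_lit 420) (nat_lit 419) (nat_lit 301))))) (XT.nd (nat_lit 156) (nat_lit 0) (nat_lit 76) (XT.nd (nat_lit 78) (nat_lit 0) (nat_lit 76) (XT.lf (nat_lit 76) (nat_lit 851686157)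 (nat_lit 0) (nat_lit 2478584702) (nat_lit 1672) (nat_lit 6178144013) (nat_lit 569) (nat_lit 5) (nat_lit 568) (nat_lit 5) (nat_lit 590) (nat_lit 5) (nat_lit 421) (nat_lit 419) (nat_lit 300)) (XT.lf (nat_lit 0) (nat_lit 4237245883) (nat_lit 1596) (nat_lit 3859897480) (nat_lit 1672) (nat_lit 1490778069) (nat_lit 569) (nat_lit 5) (nat_lit 590) (nat_lit 5) (nat_lit 591) (nat_lit 5) (nat_lit 422) (nat_lit 419) (nat_lit 299))) (XT.nd (nat_lit 78) (nat_lit 0) (nat_lit 0) (XT.lf (nat_lit 76) (nat_lit 1018198696) (nat_lit 0) (nat_lit 4146260104) (nat_lit 1672) (nat_lit 4504517355) (nat_lit 570) (nat_lit 5) (nat_lit 569) (nat_lit 5) (nat_lit 591) (nat_lit 5) (nat_lit 423) (nat_lit 419) (nat_lit 298)) (XT.nd (nat_lit 78) (nat_lit 0) (nat_lit 76) (XT.lf (nat_lit 76) (nat_lit 6034644037) (nat_lit 0) (nat_lit 80882427) (nat_lit 1672) (nat_lit 3636019300) (nat_lit 570) (nat_lit 5) (nat_lit 569) (nat_lit 5) (nat_lit 591) (nat_lit 5) (nat_lit 424) (nat_lit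 419) (nat_lit 297)) (XT.lf (nat_lit 76) (nat_lit 1294460797) (nat_lit 0) (nat_lit 5805827018) (nat_lit 1672) (nat_lit 2735185503) (nat_lit 571) (nat_lit 5) (nat_lit 570) (nat_lit 5) (nat_lit 592) (nat_lit 5) (nat_lit 425) (nat_lit 419) (nat_lit 296)))))) (XT.nd (nat_lit 390) (nat_lit 0) (nat_lit 76) (XT.nd (nat_lit 156) (nat_lit 1596) (nat_lit 0) (XT.nd (nat_lit 78) (nat_lit 0) (nat_lit 76) (XT.lf (nat_lit 76) (nat_lit 6444198905) (nat_lit 0) (nat_lit 1666208714) (nat_lit 1672) (nat_lit 1810558539) (nat_lit 571) (nat_lit 5) (nat_lit 570) (nat_lit 5) (nat_lit 592) (nat_lit 5) (nat_lit 426) (nat_lit 419) (nat_lit 295)) (XT.lf (nat_lit 76) (nat_lit 1682327026) (nat_lit 0) (nat_lit 7466551010) (nat_lit 1672) (nat_lit 859127855) (nat_lit 572) (nat_lit 5) (nat_lit 571) (nat_lit 5) (nat_lit 593) (nat_lit 5) (nat_lit 427) (nat_lit 419) (nat_lit 294))) (XT.nd (nat_lit 78) (nat_lit 0) (nat_lit 76) (XT.lf (nat_lit 0) (nat_lit 125196898) (nat_lit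 1672) (nat_lit 3128580082) (nat_lit 1748) (nat_lit 6842688470) (nat_lit 549) (nat_lit 5) (nat_lit 571) (nat_lit 5) (nat_lit 572) (nat_lit 5) (nat_lit 428) (nat_lit 419) (nat_lit 293)) (XT.nd (nat_lit 78) (nat_lit 0) (nat_lit 0) (XT.lf (nat_lit 0) (nat_lit 1120024680) (nat_lit 1672) (nat_lit 8010057883) (nat_lit 1748) (nat_lit 1056451655) (nat_lit 550) (nat_lit 5) (nat_lit 572) (nat_lit 5) (nat_lit 573) (nat_lit 5) (nat_lit 429) (nat_lit 419) (nat_lit 292)) (XT.lf (nat_lit 0) (nat_lit 2158949152) (nat_lit 1672) (nat_lit 2681808837) (nat_lit 1748) (nat_lit 5437162370) (nat_lit 550) (nat_lit 5) (nat_lit 572) (nat_lit 5) (nat_lit 573) (nat_lit 5) (nat_lit 430) (nat_lit 419) (nat_lit 291))))) (XT.nd (nat_lit 156) (nat_lit 0) (nat_lit 76) (XT.nd (nat_lit 78) (nat_lit 0) (nat_lit 76) (XT.lf (nat_lit 76) (nat_lit 2777491563) (nat_lit 0) (nat_lit 441074738) (nat_lit 1748) (nat_lit 7152569638) (nat_lit 551) (nat_lit 5) (nat_lit 550) (nat_lit 5)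 (nat_lit 573) (nat_lit 5) (nat_lit 431) (nat_lit 419) (nat_lit 290)) (XT.lf (nat_lit 0) (nat_lit 4325962495) (nat_lit 1672) (nat_lit 2122175714) (nat_lit 1748) (nat_lit 4017545887) (nat_lit 551) (nat_lit 5) (nat_lit 573) (nat_lit 5) (nat_lit 574) (nat_lit 5) (nat_lit 432) (nat_lit 419) (nat_lit 289))) (XT.nd (nat_lit 78) (nat_lit 0) (nat_lit 76) (XT.lf (nat_lit 76) (nat_lit 3489549719) (nat_lit 0) (nat_lit 1974081395) (nat_lit 1748) (nat_lit 5098329614) (nat_lit 552) (nat_lit 5) (nat_lit 551) (nat_lit 5) (nat_lit 574) (nat_lit 5) (nat_lit 433) (nat_lit 419) (nat_lit 288)) (XT.nd (nat_lit 78) (nat_lit 0) (nat_lit 0) (XT.lf (nat_lit 0) (nat_lit 6638046594) (nat_lit 1672) (nat_lit 1446824976) (nat_lit 1748) (nat_lit 2575011451) (nat_lit 552) (nat_lit 5) (nat_lit 574) (nat_lit 5) (nat_lit 575) (nat_lit 5) (nat_lit 434) (nat_lit 419) (nat_lit 287)) (XT.lf (nat_lit 76) (nat_lit 4322819002) (nat_lit 0) (nat_lit 3537453526) (nat_lit 1748) (nat_lit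 2899004790) (nat_lit 553) (nat_lit 5) (nat_lit 552) (nat_lit 5) (nat_lit 575) (nat_lit 5) (nat_lit 435) (nat_lit 419) (nat_lit 286))))))) (XT.nd (nat_lit 780) (nat_lit 7524) (nat_lit 0) (XT.nd (nat_lit 390) (nat_lit 1520) (nat_lit 0) (XT.nd (nat_lit 156) (nat_lit 1748) (nat_lit 0) (XT.nd (nat_lit 78) (nat_lit 0) (nat_lit 0) (XT.lf (nat_lit 0) (nat_lit 9107327796) (nat_lit 1672) (nat_lit 652566011) (nat_lit 1748) (nat_lit 1100757997) (nat_lit 553) (nat_lit 5) (nat_lit 575) (nat_lit 5) (nat_lit 576) (nat_lit 5) (nat_lit 436) (nat_lit 419) (nat_lit 285)) (XT.lf (nat_lit 76) (nat_lit 5280720689) (nat_lit 0) (nat_lit 5140104209) (nat_lit 1748) (nat_lit 542398867) (nat_lit 554) (nat_lit 5) (nat_lit 553) (nat_lit 5) (nat_lit 576) (nat_lit 5) (nat_lit 437) (nat_lit 419) (nat_lit 284))) (XT.nd (nat_lit 78) (nat_lit 0) (nat_lit 76) (XT.lf (nat_lit 76) (nat_lit 260399493) (nat_lit 0) (nat_lit 413280473) (nat_lit 1824) (nat_lit 10394276831) (nat_lit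 531) (nat_lit 5) (nat_lit 530) (nat_lit 5) (nat_lit 554) (nat_lit 5) (nat_lit 438) (nat_lit 419) (nat_lit 283)) (XT.nd (nat_lit 78) (nat_lit 0) (nat_lit 0) (XT.lf (nat_lit 0) (nat_lit 1958011771) (nat_lit 1748) (nat_lit 4819806944) (nat_lit 1824) (nat_lit 4395870188) (nat_lit 531) (nat_lit 5) (nat_lit 554) (nat_lit 5) (nat_lit 555) (nat_lit 5) (nat_lit 439) (nat_lit 419) (nat_lit 282)) (XT.lf (nat_lit 76) (nat_lit 1289611931) (nat_lit 0) (nat_lit 1974020435) (nat_lit 1824) (nat_lit 8017991241) (nat_lit 532) (nat_lit 5) (nat_lit 531) (nat_lit 5) (nat_lit 555) (nat_lit 5) (nat_lit 440) (nat_lit 419) (nat_lit 281))))) (XT.nd (nat_lit 156) (nat_lit 1672) (nat_lit 0) (XT.nd (nat_lit 78) (nat_lit 0) (nat_lit 0) (XT.lf (nat_lit 0) (nat_lit 4631656887) (nat_lit 1748) (nat_lit 3836236118) (nat_lit 1824) (nat_lit 2923098170) (nat_lit 532) (nat_lit 5) (nat_lit 555) (nat_lit 5) (nat_lit 556) (nat_lit 5) (nat_lit 441) (nat_lit 419) (nat_lit 280))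 (XT.lf (nat_lit 76) (nat_lit 2449443987) (nat_lit 0) (nat_lit 3591610869) (nat_lit 1824) (nat_lit 5461210979) (nat_lit 533) (nat_lit 5) (nat_lit 532) (nat_lit 5) (nat_lit 556) (nat_lit 5) (nat_lit 442) (nat_lit 419) (nat_lit 279))) (XT.nd (nat_lit 78) (nat_lit 1748) (nat_lit 0) (XT.lf (nat_lit 0) (nat_lit 7498796107) (nat_lit 1748) (nat_lit 2724050716) (nat_lit 76) (nat_lit 1392516059) (nat_lit 533) (nat_lit 5) (nat_lit 556) (nat_lit 5) (nat_lit 534) (nat_lit 5) (nat_lit 443) (nat_lit 419) (nat_lit 278)) (XT.nd (nat_lit 78) (nat_lit 0) (nat_lit 0) (XT.lf (nat_lit 0) (nat_lit 3744369541) (nat_lit 1748) (nat_lit 5274975479) (nat_lit 1824) (nat_lit 2710703794) (nat_lit 510) (nat_lit 5) (nat_lit 533) (nat_lit 5) (nat_lit 534) (nat_lit 5) (nat_lit 444) (nat_lit 419) (nat_lit 277)) (XT.lf (nat_lit 0) (nat_lit 10366915139) (nat_lit 1748) (nat_lit 207430194) (nat_lit 1824) (nat_lit 1272602322) (nat_lit 510) (nat_lit 5) (nat_lit 533) (nat_lit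 5) (nat_lit 534) (nat_lit 5) (nat_lit 445) (nat_lit 419) (nat_lit 276)))))) (XT.nd (nat_lit 390) (nat_lit 3572) (nat_lit 0) (XT.nd (nat_lit 156) (nat_lit 2052) (nat_lit 0) (XT.nd (nat_lit 78) (nat_lit 0) (nat_lit 0) (XT.lf (nat_lit 0) (nat_lit 243950115) (nat_lit 1900) (nat_lit 6787533205) (nat_lit 76) (nat_lit 4933631194) (nat_lit 485) (nat_lit 5) (nat_lit 510) (nat_lit 5) (nat_lit 486) (nat_lit 5) (nat_lit 446) (nat_lit 419) (nat_lit 275)) (XT.lf (nat_lit 0) (nat_lit 1771337225) (nat_lit 1900) (nat_lit 119229391) (nat_lit 76) (nat_lit 10194958981) (nat_lit 485) (nat_lit 5) (nat_lit 510) (nat_lit 5) (nat_lit 486) (nat_lit 5) (nat_lit 447) (nat_lit 419) (nat_lit 274))) (XT.nd (nat_lit 78) (nat_lit 912) (nat_lit 0) (XT.lf (nat_lit 0) (nat_lit 3381655277) (nat_lit 1216) (nat_lit 5470807881) (nat_lit 76) (nat_lit 3354834079) (nat_lit 470) (nat_lit 5) (nat_lit 486) (nat_lit 5) (nat_lit 471) (nat_lit 5) (nat_lit 448) (nat_lit 419) (nat_lit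 273)) (XT.nd (nat_lit 78) (nat_lit 0) (nat_lit 0) (XT.lf (nat_lit 0) (nat_lit 1392911941) (nat_lit 912) (nat_lit 3640262289) (nat_lit 988) (nat_lit 7298150189) (nat_lit 458) (nat_lit 5) (nat_lit 470) (nat_lit 5) (nat_lit 471) (nat_lit 5) (nat_lit 449) (nat_lit 419) (nat_lit 272)) (XT.lf (nat_lit 0) (nat_lit 6752376186) (nat_lit 988) (nat_lit 4012630098) (nat_lit 76) (nat_lit 1692132809) (nat_lit 458) (nat_lit 5) (nat_lit 471) (nat_lit 5) (nat_lit 459) (nat_lit 5) (nat_lit 450) (nat_lit 419) (nat_lit 271))))) (XT.nd (nat_lit 234) (nat_lit 1824) (nat_lit 0) (XT.nd (nat_lit 78) (nat_lit 836) (nat_lit 0) (XT.lf (nat_lit 0) (nat_lit 3055406382) (nat_lit 912) (nat_lit 5481574367) (nat_lit 988) (nat_lit 4047868939) (nat_lit 446) (nat_lit 5) (nat_lit 458) (nat_lit 5) (nat_lit 459) (nat_lit 5) (nat_lit 451) (nat_lit 419) (nat_lit 270)) (XT.nd (nat_lit 78) (nat_lit 836) (nat_lit 0) (XT.lf (nat_lit 0) (nat_lit 10307050227) (nat_lit 912) (nat_lit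 64401792) (nat_lit 988) (nat_lit 2343378984) (nat_lit 446) (nat_lit 5) (nat_lit 458) (nat_lit 5) (nat_lit 459) (nat_lit 5) (nat_lit 452) (nat_lit 419) (nat_lit 269)) (XT.lf (nat_lit 0) (nat_lit 4872601495) (nat_lit 836) (nat_lit 7424606218) (nat_lit 912) (nat_lit 549112331) (nat_lit 435) (nat_lit 5) (nat_lit 446) (nat_lit 5) (nat_lit 447) (nat_lit 5) (nat_lit 453) (nat_lit 419) (nat_lit 268)))) (XT.nd (nat_lit 78) (nat_lit 1748) (nat_lit 0) (XT.lf (nat_lit 0) (nat_lit 1268516190) (nat_lit 912) (nat_lit 669983401) (nat_lit 76) (nat_lit 11041687376) (nat_lit 434) (nat_lit 5) (nat_lit 446) (nat_lit 5) (nat_lit 435) (nat_lit 5) (nat_lit 454) (nat_lit 419) (nat_lit 267)) (XT.nd (nat_lit 78) (nat_lit 836) (nat_lit 0) (XT.lf (nat_lit 0) (nat_lit 3171548432) (nat_lit 988) (nat_lit 6286001364) (nat_lit 76) (nat_lit 3657980765) (nat_lit 422) (nat_lit 5) (nat_lit 435) (nat_lit 5) (nat_lit 423) (nat_lit 5) (nat_lit 455) (nat_lit 419) (nat_lit 266))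 (XT.lf (nat_lit 0) (nat_lit 1225662072) (nat_lit 836) (nat_lit 3900292256) (nat_lit 912) (nat_lit 8127360438) (nat_lit 411) (nat_lit 5) (nat_lit 422) (nat_lit 5) (nat_lit 423) (nat_lit 5) (nat_lit 456) (nat_lit 419) (nat_lit 265))))))))
noncomputable def xc201 : XT := (XT.nd (nat_lit 1560) (nat_lit 7220) (nat_lit 0) (XT.nd (nat_lit 780) (nat_lit 4104) (nat_lit 0) (XT.nd (nat_lit 390) (nat_lit 2280) (nat_lit 0) (XT.nd (nat_lit 156) (nat_lit 836) (nat_lit 0) (XT.nd (nat_lit 78) (nat_lit 836) (nat_lit 0) (XT.lf (nat_lit 0) (nat_lit 7161536994) (nat_lit 912) (nat_lit 4444326293) (nat_lit 76) (nat_lit 1787149595) (nat_lit 411) (nat_lit 5) (nat_lit 423) (nat_lit 5) (nat_lit 412) (nat_lit 5) (nat_lit 457) (nat_lit 419) (nat_lit 264)) (XT.lf (nat_lit 0) (nat_lit 3295982557) (nat_lit 836) (nat_lit 5977457792) (nat_lit 912) (nat_lit 4261352430) (nat_lit 400) (nat_lit 5) (nat_lit 411) (nat_lit 5) (nat_lit 412) (nat_lit 5) (nat_lit 458) (nat_lit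 419) (nat_lit 263))) (XT.nd (nat_lit 78) (nat_lit 836) (nat_lit 0) (XT.lf (nat_lit 0) (nat_lit 11239339353) (nat_lit 836) (nat_lit 206595697) (nat_lit 912) (nat_lit 2233106161) (nat_lit 400) (nat_lit 5) (nat_lit 411) (nat_lit 5) (nat_lit 412) (nat_lit 5) (nat_lit 459) (nat_lit 419) (nat_lit 262)) (XT.nd (nat_lit 78) (nat_lit 76) (nat_lit 0) (XT.lf (nat_lit 0) (nat_lit 5539171191) (nat_lit 760) (nat_lit 8184299733) (nat_lit 836) (nat_lit 101471860) (nat_lit 390) (nat_lit 5) (nat_lit 400) (nat_lit 5) (nat_lit 401) (nat_lit 5) (nat_lit 460) (nat_lit 419) (nat_lit 261)) (XT.lf (nat_lit 0) (nat_lit 2052279064) (nat_lit 836) (nat_lit 289735149) (nat_lit 76) (nat_lit 11631345636) (nat_lit 389) (nat_lit 5) (nat_lit 400) (nat_lit 5) (nat_lit 390) (nat_lit 5) (nat_lit 461) (nat_lit 419) (nat_lit 260))))) (XT.nd (nat_lit 156) (nat_lit 760) (nat_lit 0) (XT.nd (nat_lit 78) (nat_lit 760) (nat_lit 0) (XT.lf (nat_lit 0) (nat_lit 4312282524) (nat_lit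 836) (nat_lit 6189643148) (nat_lit 76) (nat_lit 3621515444) (nat_lit 379) (nat_lit 5) (nat_lit 390) (nat_lit 5) (nat_lit 380) (nat_lit 5) (nat_lit 462) (nat_lit 419) (nat_lit 259)) (XT.lf (nat_lit 0) (nat_lit 2048635013) (nat_lit 760) (nat_lit 4588791912) (nat_lit 836) (nat_lit 7638698266) (nat_lit 369) (nat_lit 5) (nat_lit 379) (nat_lit 5) (nat_lit 380) (nat_lit 5) (nat_lit 463) (nat_lit 419) (nat_lit 258))) (XT.nd (nat_lit 78) (nat_lit 760) (nat_lit 0) (XT.lf (nat_lit 0) (nat_lit 9049551505) (nat_lit 836) (nat_lit 3917174543) (nat_lit 76) (nat_lit 1464327355) (nat_lit 369) (nat_lit 5) (nat_lit 380) (nat_lit 5) (nat_lit 370) (nat_lit 5) (nat_lit 464) (nat_lit 419) (nat_lit 257)) (XT.nd (nat_lit 78) (nat_lit 0) (nat_lit 0) (XT.lf (nat_lit 0) (nat_lit 4577143135) (nat_lit 760) (nat_lit 6982392549) (nat_lit 836) (nat_lit 3028552152) (nat_lit 359) (nat_lit 5) (nat_lit 369) (nat_lit 5) (nat_lit 370) (nat_lit 5) (nat_lit 465) (nat_lit 419)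 (nat_lit 256)) (XT.lf (nat_lit 0) (nat_lit 13282678452) (nat_lit 760) (nat_lit 852966596) (nat_lit 836) (nat_lit 612299399) (nat_lit 359) (nat_lit 5) (nat_lit 369) (nat_lit 5) (nat_lit 370) (nat_lit 5) (nat_lit 466) (nat_lit 419) (nat_lit 255)))))) (XT.nd (nat_lit 390) (nat_lit 1976) (nat_lit 0) (XT.nd (nat_lit 156) (nat_lit 684) (nat_lit 0) (XT.nd (nat_lit 78) (nat_lit 684) (nat_lit 0) (XT.lf (nat_lit 0) (nat_lit 1900750058) (nat_lit 760) (nat_lit 7621771282) (nat_lit 76) (nat_lit 5386781035) (nat_lit 349) (nat_lit 5) (nat_lit 359) (nat_lit 5) (nat_lit 350) (nat_lit 5) (nat_lit 467) (nat_lit 419) (nat_lit 254)) (XT.lf (nat_lit 0) (nat_lit 1155148806) (nat_lit 684) (nat_lit 3313657850) (nat_lit 760) (nat_lit 10604740962) (nat_lit 340) (nat_lit 5) (nat_lit 349) (nat_lit 5) (nat_lit 350) (nat_lit 5) (nat_lit 468) (nat_lit 419) (nat_lit 253))) (XT.nd (nat_lit 78) (nat_lit 684) (nat_lit 0) (XT.lf (nat_lit 0) (nat_lit 7149314619) (nat_lit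 760) (nat_lit 5060973689) (nat_lit 76) (nat_lit 3029567654) (nat_lit 340) (nat_lit 5) (nat_lit 350) (nat_lit 5) (nat_lit 341) (nat_lit 5) (nat_lit 469) (nat_lit 419) (nat_lit 252)) (XT.nd (nat_lit 78) (nat_lit 0) (nat_lit 0) (XT.lf (nat_lit 0) (nat_lit 3992350176) (nat_lit 684) (nat_lit 5929145932) (nat_lit 760) (nat_lit 5487233095) (nat_lit 331) (nat_lit 5) (nat_lit 340) (nat_lit 5) (nat_lit 341) (nat_lit 5) (nat_lit 470) (nat_lit 419) (nat_lit 251)) (XT.lf (nat_lit 0) (nat_lit 12776711196) (nat_lit 760) (nat_lit 2300053261) (nat_lit 76) (nat_lit 503663656) (nat_lit 331) (nat_lit 5) (nat_lit 341) (nat_lit 5) (nat_lit 332) (nat_lit 5) (nat_lit 471) (nat_lit 419) (nat_lit 250))))) (XT.nd (nat_lit 156) (nat_lit 608) (nat_lit 0) (XT.nd (nat_lit 78) (nat_lit 608) (nat_lit 0) (XT.lf (nat_lit 0) (nat_lit 10309351) (nat_lit 760) (nat_lit 8713993014) (nat_lit 76) (nat_lit 7029747928) (nat_lit 321) (nat_lit 5) (nat_lit 331) (nat_lit 5) (nat_lit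 322) (nat_lit 5) (nat_lit 472) (nat_lit 419) (nat_lit 249)) (XT.lf (nat_lit 0) (nat_lit 645518859) (nat_lit 608) (nat_lit 2207860691) (nat_lit 684) (nat_lit 13077188614) (nat_lit 313) (nat_lit 5) (nat_lit 321) (nat_lit 5) (nat_lit 322) (nat_lit 5) (nat_lit 473) (nat_lit 419) (nat_lit 248))) (XT.nd (nat_lit 78) (nat_lit 608) (nat_lit 0) (XT.lf (nat_lit 0) (nat_lit 5831633035) (nat_lit 684) (nat_lit 5839998674) (nat_lit 76) (nat_lit 4437418245) (nat_lit 313) (nat_lit 5) (nat_lit 322) (nat_lit 5) (nat_lit 314) (nat_lit 5) (nat_lit 474) (nat_lit 419) (nat_lit 247)) (XT.nd (nat_lit 78) (nat_lit 0) (nat_lit 0) (XT.lf (nat_lit 0) (nat_lit 3817947948) (nat_lit 608) (nat_lit 5081736237) (nat_lit 684) (nat_lit 7390812542) (nat_lit 305) (nat_lit 5) (nat_lit 313) (nat_lit 5) (nat_lit 314) (nat_lit 5) (nat_lit 475) (nat_lit 419) (nat_lit 246)) (XT.lf (nat_lit 0) (nat_lit 12070106465) (nat_lit 684) (nat_lit 2749027211) (nat_lit 76) (nat_lit 1655618558)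 (nat_lit 305) (nat_lit 5) (nat_lit 314) (nat_lit 5) (nat_lit 306) (nat_lit 5) (nat_lit 476) (nat_lit 419) (nat_lit 245))))))) (XT.nd (nat_lit 780) (nat_lit 3648) (nat_lit 0) (XT.nd (nat_lit 390) (nat_lit 1748) (nat_lit 0) (XT.nd (nat_lit 156) (nat_lit 532) (nat_lit 0) (XT.nd (nat_lit 78) (nat_lit 684) (nat_lit 0) (XT.lf (nat_lit 0) (nat_lit 7218663837) (nat_lit 608) (nat_lit 8156887174) (nat_lit 684) (nat_lit 1285709564) (nat_lit 297) (nat_lit 5) (nat_lit 305) (nat_lit 5) (nat_lit 306) (nat_lit 5) (nat_lit 477) (nat_lit 419) (nat_lit 244)) (XT.lf (nat_lit 0) (nat_lit 555331462) (nat_lit 608) (nat_lit 1328722782) (nat_lit 684) (nat_lit 14966932487) (nat_lit 288) (nat_lit 5) (nat_lit 296) (nat_lit 5) (nat_lit 297) (nat_lit 5) (nat_lit 478) (nat_lit 419) (nat_lit 243))) (XT.nd (nat_lit 78) (nat_lit 532) (nat_lit 0) (XT.lf (nat_lit 0) (nat_lit 5191609930) (nat_lit 684) (nat_lit 6219000554) (nat_lit 76) (nat_lit 5631894710) (nat_lit 288) (nat_lit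 5) (nat_lit 297) (nat_lit 5) (nat_lit 289) (nat_lit 5) (nat_lit 479) (nat_lit 419) (nat_lit 242)) (XT.nd (nat_lit 78) (nat_lit 0) (nat_lit 0) (XT.lf (nat_lit 0) (nat_lit 4092842004) (nat_lit 532) (nat_lit 4499238881) (nat_lit 608) (nat_lit 8645237858) (nat_lit 281) (nat_lit 5) (nat_lit 288) (nat_lit 5) (nat_lit 289) (nat_lit 5) (nat_lit 480) (nat_lit 419) (nat_lit 241)) (XT.lf (nat_lit 0) (nat_lit 12110599533) (nat_lit 608) (nat_lit 2768110708) (nat_lit 76) (nat_lit 2556317557) (nat_lit 281) (nat_lit 5) (nat_lit 289) (nat_lit 5) (nat_lit 282) (nat_lit 5) (nat_lit 481) (nat_lit 419) (nat_lit 240))))) (XT.nd (nat_lit 156) (nat_lit 532) (nat_lit 0) (XT.nd (nat_lit 78) (nat_lit 608) (nat_lit 0) (XT.lf (nat_lit 0) (nat_lit 7878228987) (nat_lit 608) (nat_lit 7893844283) (nat_lit 684) (nat_lit 1863166068) (nat_lit 273) (nat_lit 5) (nat_lit 281) (nat_lit 5) (nat_lit 282) (nat_lit 5) (nat_lit 482) (nat_lit 419) (nat_lit 239)) (XT.lf (nat_lit 0)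 (nat_lit 926011290) (nat_lit 532) (nat_lit 735829104) (nat_lit 608) (nat_lit 16177070484) (nat_lit 265) (nat_lit 5) (nat_lit 272) (nat_lit 5) (nat_lit 273) (nat_lit 5) (nat_lit 483) (nat_lit 419) (nat_lit 238))) (XT.nd (nat_lit 78) (nat_lit 532) (nat_lit 0) (XT.lf (nat_lit 0) (nat_lit 5332706088) (nat_lit 608) (nat_lit 6156985911) (nat_lit 76) (nat_lit 6554711402) (nat_lit 265) (nat_lit 5) (nat_lit 273) (nat_lit 5) (nat_lit 266) (nat_lit 5) (nat_lit 484) (nat_lit 419) (nat_lit 237)) (XT.nd (nat_lit 78) (nat_lit 0) (nat_lit 0) (XT.lf (nat_lit 0) (nat_lit 4861965288) (nat_lit 532) (nat_lit 4243374448) (nat_lit 608) (nat_lit 9148099025) (nat_lit 258) (nat_lit 5) (nat_lit 265) (nat_lit 5) (nat_lit 266) (nat_lit 5) (nat_lit 485) (nat_lit 419) (nat_lit 236)) (XT.lf (nat_lit 0) (nat_lit 13007433864) (nat_lit 608) (nat_lit 2312827372) (nat_lit 76) (nat_lit 3145313435) (nat_lit 258) (nat_lit 5) (nat_lit 266) (nat_lit 5) (nat_lit 259) (nat_lit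 5) (nat_lit 486) (nat_lit 419) (nat_lit 235)))))) (XT.nd (nat_lit 390) (nat_lit 2052) (nat_lit 0) (XT.nd (nat_lit 156) (nat_lit 456) (nat_lit 0) (XT.nd (nat_lit 78) (nat_lit 608) (nat_lit 0) (XT.lf (nat_lit 0) (nat_lit 9067384450) (nat_lit 532) (nat_lit 7999295494) (nat_lit 608) (nat_lit 1613691156) (nat_lit 251) (nat_lit 5) (nat_lit 258) (nat_lit 5) (nat_lit 259) (nat_lit 5) (nat_lit 487) (nat_lit 419) (nat_lit 234)) (XT.lf (nat_lit 0) (nat_lit 1805128869) (nat_lit 532) (nat_lit 491766192) (nat_lit 608) (nat_lit 16601878484) (nat_lit 243) (nat_lit 5) (nat_lit 250) (nat_lit 5) (nat_lit 251) (nat_lit 5) (nat_lit 488) (nat_lit 419) (nat_lit 233))) (XT.nd (nat_lit 78) (nat_lit 456) (nat_lit 0) (XT.lf (nat_lit 0) (nat_lit 6367800525) (nat_lit 608) (nat_lit 5606902740) (nat_lit 76) (nat_lit 7144553147) (nat_lit 243) (nat_lit 5) (nat_lit 251) (nat_lit 5) (nat_lit 244) (nat_lit 5) (nat_lit 489) (nat_lit 419) (nat_lit 232)) (XT.nd (nat_lit 78)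 (nat_lit 0) (nat_lit 0) (XT.lf (nat_lit 0) (nat_lit 6176616545) (nat_lit 456) (nat_lit 4379252639) (nat_lit 532) (nat_lit 8787564851) (nat_lit 237) (nat_lit 5) (nat_lit 243) (nat_lit 5) (nat_lit 244) (nat_lit 5) (nat_lit 490) (nat_lit 419) (nat_lit 231)) (XT.lf (nat_lit 0) (nat_lit 14879887390) (nat_lit 532) (nat_lit 1332418884) (nat_lit 76) (nat_lit 3358745173) (nat_lit 237) (nat_lit 5) (nat_lit 244) (nat_lit 5) (nat_lit 238) (nat_lit 5) (nat_lit 491) (nat_lit 419) (nat_lit 230))))) (XT.nd (nat_lit 234) (nat_lit 988) (nat_lit 0) (XT.nd (nat_lit 78) (nat_lit 532) (nat_lit 0) (XT.lf (nat_lit 0) (nat_lit 10841294411) (nat_lit 532) (nat_lit 8541075966) (nat_lit 608) (nat_lit 419011142) (nat_lit 230) (nat_lit 5) (nat_lit 237) (nat_lit 5) (nat_lit 238) (nat_lit 5) (nat_lit 492) (nat_lit 419) (nat_lit 229)) (XT.nd (nat_lit 78) (nat_lit 0) (nat_lit 0) (XT.lf (nat_lit 0) (nat_lit 3246769009) (nat_lit 456) (nat_lit 662863655) (nat_lit 532) (nat_lit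 16125720028) (nat_lit 223) (nat_lit 5) (nat_lit 229) (nat_lit 5) (nat_lit 230) (nat_lit 5) (nat_lit 493) (nat_lit 419) (nat_lit 228)) (XT.lf (nat_lit 0) (nat_lit 8420316931) (nat_lit 532) (nat_lit 4515266336) (nat_lit 76) (nat_lit 7336343066) (nat_lit 223) (nat_lit 5) (nat_lit 230) (nat_lit 5) (nat_lit 224) (nat_lit 5) (nat_lit 494) (nat_lit 419) (nat_lit 227)))) (XT.nd (nat_lit 78) (nat_lit 532) (nat_lit 0) (XT.lf (nat_lit 0) (nat_lit 8094860504) (nat_lit 456) (nat_lit 4976122942) (nat_lit 532) (nat_lit 7441252630) (nat_lit 217) (nat_lit 5) (nat_lit 223) (nat_lit 5) (nat_lit 224) (nat_lit 5) (nat_lit 495) (nat_lit 419) (nat_lit 226)) (XT.nd (nat_lit 78) (nat_lit 76) (nat_lit 0) (XT.lf (nat_lit 0) (nat_lit 233624602) (nat_lit 456) (nat_lit 17626333216) (nat_lit 532) (nat_lit 2896488303) (nat_lit 211) (nat_lit 5) (nat_lit 217) (nat_lit 5) (nat_lit 218) (nat_lit 5) (nat_lit 496) (nat_lit 419) (nat_lit 225)) (XT.lf (nat_lit 0) (nat_lit 1826094407)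 (nat_lit 532) (nat_lit 7753216670) (nat_lit 76) (nat_lit 11423808802) (nat_lit 210) (nat_lit 5) (nat_lit 217) (nat_lit 5) (nat_lit 211) (nat_lit 5) (nat_lit 497) (nat_lit 419) (nat_lit 224))))))))
noncomputable def xc202 : XT := (XT.nd (nat_lit 54756) (nat_lit 0) (nat_lit 14896) (XT.nd (nat_lit 53976) (nat_lit 0) (nat_lit 24776) (XT.nd (nat_lit 53586) (nat_lit 0) (nat_lit 26220) (XT.nd (nat_lit 53352) (nat_lit 0) (nat_lit 27664) (XT.nd (nat_lit 53274) (nat_lit 0) (nat_lit 27664) (XT.lf (nat_lit 0) (nat_lit 5311961375) (nat_lit 456) (nat_lit 1319946907) (nat_lit 532) (nat_lit 14621884644) (nat_lit 204) (nat_lit 5) (nat_lit 210) (nat_lit 5) (nat_lit 211) (nat_lit 5) (nat_lit 498) (nat_lit 419) (nat_lit 223)) (XT.lf (nat_lit 0) (nat_lit 818147077) (nat_lit 0) (nat_lit 818147077) (nat_lit 1596) (nat_lit 3117551564) (nat_lit 568) (nat_lit 5) (nat_lit 568) (nat_lit 3) (nat_lit 589) (nat_lit 3) (nat_lit 420) (nat_lit 420) (nat_lit 300))) (XT.nd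 (nat_lit 78) (nat_lit 0) (nat_lit 0) (XT.lf (nat_lit 0) (nat_lit 4120792642) (nat_lit 1596) (nat_lit 3127634697) (nat_lit 1672) (nat_lit 2338031442) (nat_lit 568) (nat_lit 5) (nat_lit 589) (nat_lit 3) (nat_lit 590) (nat_lit 5) (nat_lit 421) (nat_lit 420) (nat_lit 299)) (XT.nd (nat_lit 78) (nat_lit 0) (nat_lit 76) (XT.lf (nat_lit 76) (nat_lit 1711633863) (nat_lit 0) (nat_lit 3275357955) (nat_lit 1672) (nat_lit 4679789041) (nat_lit 569) (nat_lit 5) (nat_lit 568) (nat_lit 5) (nat_lit 590) (nat_lit 5) (nat_lit 422) (nat_lit 420) (nat_lit 298)) (XT.lf (nat_lit 0) (nat_lit 5876171402) (nat_lit 1596) (nat_lit 3074774232) (nat_lit 1672) (nat_lit 797650615) (nat_lit 569) (nat_lit 5) (nat_lit 590) (nat_lit 5) (nat_lit 591) (nat_lit 5) (nat_lit 423) (nat_lit 420) (nat_lit 297))))) (XT.nd (nat_lit 156) (nat_lit 1520) (nat_lit 0) (XT.nd (nat_lit 78) (nat_lit 0) (nat_lit 0) (XT.lf (nat_lit 76) (nat_lit 1895210702) (nat_lit 0) (nat_lit 4901805674) (nat_lit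 1672) (nat_lit 3034753935) (nat_lit 570) (nat_lit 5) (nat_lit 569) (nat_lit 5) (nat_lit 591) (nat_lit 5) (nat_lit 424) (nat_lit 420) (nat_lit 296)) (XT.lf (nat_lit 76) (nat_lit 6995187929) (nat_lit 0) (nat_lit 741931808) (nat_lit 1672) (nat_lit 2179471287) (nat_lit 570) (nat_lit 5) (nat_lit 569) (nat_lit 5) (nat_lit 591) (nat_lit 5) (nat_lit 425) (nat_lit 420) (nat_lit 295))) (XT.nd (nat_lit 78) (nat_lit 1596) (nat_lit 0) (XT.lf (nat_lit 76) (nat_lit 2188717371) (nat_lit 0) (nat_lit 6524901743) (nat_lit 1672) (nat_lit 1289137160) (nat_lit 571) (nat_lit 5) (nat_lit 570) (nat_lit 5) (nat_lit 592) (nat_lit 5) (nat_lit 426) (nat_lit 420) (nat_lit 294)) (XT.nd (nat_lit 78) (nat_lit 1596) (nat_lit 0) (XT.lf (nat_lit 76) (nat_lit 7424423430) (nat_lit 0) (nat_lit 2290668364) (nat_lit 1672) (nat_lit 375444167) (nat_lit 571) (nat_lit 5) (nat_lit 570) (nat_lit 5) (nat_lit 592) (nat_lit 5) (nat_lit 427) (nat_lit 420) (nat_lit 293)) (XT.lf (nat_lit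 0) (nat_lit 560692235) (nat_lit 1672) (nat_lit 7589346444) (nat_lit 1748) (nat_lit 2029730927) (nat_lit 549) (nat_lit 5) (nat_lit 571) (nat_lit 5) (nat_lit 572) (nat_lit 5) (nat_lit 428) (nat_lit 420) (nat_lit 292)))))) (XT.nd (nat_lit 390) (nat_lit 1444) (nat_lit 0) (XT.nd (nat_lit 156) (nat_lit 0) (nat_lit 76) (XT.nd (nat_lit 78) (nat_lit 0) (nat_lit 76) (XT.lf (nat_lit 0) (nat_lit 1525259345) (nat_lit 1672) (nat_lit 2311586576) (nat_lit 1748) (nat_lit 6433597668) (nat_lit 549) (nat_lit 5) (nat_lit 571) (nat_lit 5) (nat_lit 572) (nat_lit 5) (nat_lit 429) (nat_lit 420) (nat_lit 291)) (XT.lf (nat_lit 0) (nat_lit 2514994082) (nat_lit 1672) (nat_lit 7265704333) (nat_lit 1748) (nat_lit 582115110) (nat_lit 550) (nat_lit 5) (nat_lit 572) (nat_lit 5) (nat_lit 573) (nat_lit 5) (nat_lit 430) (nat_lit 420) (nat_lit 290))) (XT.nd (nat_lit 78) (nat_lit 0) (nat_lit 0) (XT.lf (nat_lit 0) (nat_lit 3547783928) (nat_lit 1672) (nat_lit 1848626673) (nat_lit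 1748) (nat_lit 5060155050) (nat_lit 550) (nat_lit 5) (nat_lit 572) (nat_lit 5) (nat_lit 573) (nat_lit 5) (nat_lit 431) (nat_lit 420) (nat_lit 289)) (XT.nd (nat_lit 78) (nat_lit 0) (nat_lit 76) (XT.lf (nat_lit 76) (nat_lit 3714025405) (nat_lit 0) (nat_lit 893902540) (nat_lit 1748) (nat_lit 5944130907) (nat_lit 551) (nat_lit 5) (nat_lit 550) (nat_lit 5) (nat_lit 573) (nat_lit 5) (nat_lit 432) (nat_lit 420) (nat_lit 288)) (XT.lf (nat_lit 0) (nat_lit 5708665602) (nat_lit 1672) (nat_lit 1272102954) (nat_lit 1748) (nat_lit 3668305545) (nat_lit 551) (nat_lit 5) (nat_lit 573) (nat_lit 5) (nat_lit 574) (nat_lit 5) (nat_lit 433) (nat_lit 420) (nat_lit 287))))) (XT.nd (nat_lit 156) (nat_lit 1596) (nat_lit 0) (XT.nd (nat_lit 78) (nat_lit 0) (nat_lit 76) (XT.lf (nat_lit 76) (nat_lit 4445985170) (nat_lit 0) (nat_lit 2403443737) (nat_lit 1748) (nat_lit 3898240531) (nat_lit 552) (nat_lit 5) (nat_lit 551) (nat_lit 5) (nat_lit 574) (nat_lit 5) (nat_lit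 434) (nat_lit 420) (nat_lit 286)) (XT.lf (nat_lit 0) (nat_lit 8019821063) (nat_lit 1672) (nat_lit 578990569) (nat_lit 1748) (nat_lit 2249288779) (nat_lit 552) (nat_lit 5) (nat_lit 574) (nat_lit 5) (nat_lit 575) (nat_lit 5) (nat_lit 435) (nat_lit 420) (nat_lit 285))) (XT.nd (nat_lit 78) (nat_lit 1672) (nat_lit 0) (XT.lf (nat_lit 76) (nat_lit 5300146480) (nat_lit 0) (nat_lit 3947638699) (nat_lit 1748) (nat_lit 1702071540) (nat_lit 553) (nat_lit 5) (nat_lit 552) (nat_lit 5) (nat_lit 575) (nat_lit 5) (nat_lit 436) (nat_lit 420) (nat_lit 284)) (XT.nd (nat_lit 78) (nat_lit 1748) (nat_lit 0) (XT.lf (nat_lit 76) (nat_lit 237180674) (nat_lit 0) (nat_lit 10257856510) (nat_lit 1748) (nat_lit 558716399) (nat_lit 554) (nat_lit 5) (nat_lit 553) (nat_lit 5) (nat_lit 576) (nat_lit 5) (nat_lit 437) (nat_lit 420) (nat_lit 283)) (XT.lf (nat_lit 0) (nat_lit 648082375) (nat_lit 1748) (nat_lit 4882924144) (nat_lit 1824) (nat_lit 5627672097) (nat_lit 530) (nat_lit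 5) (nat_lit 553) (nat_lit 5) (nat_lit 554) (nat_lit 5) (nat_lit 438) (nat_lit 420) (nat_lit 282))))))) (XT.nd (nat_lit 780) (nat_lit 5320) (nat_lit 0) (XT.nd (nat_lit 390) (nat_lit 4560) (nat_lit 0) (XT.nd (nat_lit 156) (nat_lit 0) (nat_lit 76) (XT.nd (nat_lit 78) (nat_lit 0) (nat_lit 76) (XT.lf (nat_lit 76) (nat_lit 1169259979) (nat_lit 0) (nat_lit 694420785) (nat_lit 1824) (nat_lit 9402104625) (nat_lit 531) (nat_lit 5) (nat_lit 530) (nat_lit 5) (nat_lit 554) (nat_lit 5) (nat_lit 439) (nat_lit 420) (nat_lit 281)) (XT.lf (nat_lit 0) (nat_lit 3148893099) (nat_lit 1748) (nat_lit 4005463158) (nat_lit 1824) (nat_lit 4219772001) (nat_lit 531) (nat_lit 5) (nat_lit 554) (nat_lit 5) (nat_lit 555) (nat_lit 5) (nat_lit 440) (nat_lit 420) (nat_lit 280))) (XT.nd (nat_lit 78) (nat_lit 0) (nat_lit 76) (XT.lf (nat_lit 76) (nat_lit 2220152384) (nat_lit 0) (nat_lit 2243765182) (nat_lit 1824) (nat_lit 7020638262) (nat_lit 532) (nat_lit 5) (nat_lit 531)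 (nat_lit 5) (nat_lit 555) (nat_lit 5) (nat_lit 441) (nat_lit 420) (nat_lit 279)) (XT.nd (nat_lit 78) (nat_lit 0) (nat_lit 0) (XT.lf (nat_lit 0) (nat_lit 5835581714) (nat_lit 1748) (nat_lit 3002231924) (nat_lit 1824) (nat_lit 2758771527) (nat_lit 532) (nat_lit 5) (nat_lit 555) (nat_lit 5) (nat_lit 556) (nat_lit 5) (nat_lit 442) (nat_lit 420) (nat_lit 278)) (XT.lf (nat_lit 76) (nat_lit 3403170145) (nat_lit 0) (nat_lit 3854081619) (nat_lit 1824) (nat_lit 4453151871) (nat_lit 533) (nat_lit 5) (nat_lit 532) (nat_lit 5) (nat_lit 556) (nat_lit 5) (nat_lit 443) (nat_lit 420) (nat_lit 277))))) (XT.nd (nat_lit 156) (nat_lit 3040) (nat_lit 0) (XT.nd (nat_lit 78) (nat_lit 1748) (nat_lit 0) (XT.lf (nat_lit 0) (nat_lit 8721456400) (nat_lit 1748) (nat_lit 1868842960) (nat_lit 76) (nat_lit 1235917093) (nat_lit 533) (nat_lit 5) (nat_lit 556) (nat_lit 5) (nat_lit 534) (nat_lit 5) (nat_lit 444) (nat_lit 420) (nat_lit 276)) (XT.lf (nat_lit 0) (nat_lit 4722960908)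 (nat_lit 1748) (nat_lit 5534289802) (nat_lit 1824) (nat_lit 1686248704) (nat_lit 510) (nat_lit 5) (nat_lit 533) (nat_lit 5) (nat_lit 534) (nat_lit 5) (nat_lit 445) (nat_lit 420) (nat_lit 275))) (XT.nd (nat_lit 78) (nat_lit 3040) (nat_lit 0) (XT.lf (nat_lit 0) (nat_lit 11460237732) (nat_lit 1748) (nat_lit 362377635) (nat_lit 1824) (nat_lit 240535578) (nat_lit 510) (nat_lit 5) (nat_lit 533) (nat_lit 5) (nat_lit 534) (nat_lit 5) (nat_lit 446) (nat_lit 420) (nat_lit 274)) (XT.nd (nat_lit 78) (nat_lit 1140) (nat_lit 0) (XT.lf (nat_lit 0) (nat_lit 1276941787) (nat_lit 1900) (nat_lit 6007893458) (nat_lit 76) (nat_lit 4899019306) (nat_lit 485) (nat_lit 5) (nat_lit 510) (nat_lit 5) (nat_lit 486) (nat_lit 5) (nat_lit 447) (nat_lit 420) (nat_lit 273)) (XT.lf (nat_lit 0) (nat_lit 786137940) (nat_lit 1140) (nat_lit 2033683755) (nat_lit 1216) (nat_lit 9487153259) (nat_lit 470) (nat_lit 5) (nat_lit 485) (nat_lit 5) (nat_lit 486) (nat_lit 5) (nat_lit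 448) (nat_lit 420) (nat_lit 272)))))) (XT.nd (nat_lit 390) (nat_lit 3496) (nat_lit 0) (XT.nd (nat_lit 156) (nat_lit 912) (nat_lit 0) (XT.nd (nat_lit 78) (nat_lit 912) (nat_lit 0) (XT.lf (nat_lit 0) (nat_lit 4442601522) (nat_lit 1216) (nat_lit 4668142000) (nat_lit 76) (nat_lit 3320833396) (nat_lit 470) (nat_lit 5) (nat_lit 486) (nat_lit 5) (nat_lit 471) (nat_lit 5) (nat_lit 449) (nat_lit 420) (nat_lit 271)) (XT.lf (nat_lit 0) (nat_lit 2326851678) (nat_lit 912) (nat_lit 3786705329) (nat_lit 988) (nat_lit 6444799514) (nat_lit 458) (nat_lit 5) (nat_lit 470) (nat_lit 5) (nat_lit 471) (nat_lit 5) (nat_lit 450) (nat_lit 420) (nat_lit 270))) (XT.nd (nat_lit 78) (nat_lit 912) (nat_lit 0) (XT.lf (nat_lit 0) (nat_lit 7847464090) (nat_lit 988) (nat_lit 3184888592) (nat_lit 76) (nat_lit 1654728385) (nat_lit 458) (nat_lit 5) (nat_lit 471) (nat_lit 5) (nat_lit 459) (nat_lit 5) (nat_lit 451) (nat_lit 420) (nat_lit 269)) (XT.nd (nat_lit 78) (nat_lit 0)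 (nat_lit 0) (XT.lf (nat_lit 0) (nat_lit 4018534971) (nat_lit 912) (nat_lit 5636257966) (nat_lit 988) (nat_lit 3162812293) (nat_lit 446) (nat_lit 5) (nat_lit 458) (nat_lit 5) (nat_lit 459) (nat_lit 5) (nat_lit 452) (nat_lit 420) (nat_lit 268)) (XT.lf (nat_lit 0) (nat_lit 11397525018) (nat_lit 912) (nat_lit 109858565) (nat_lit 988) (nat_lit 1443173989) (nat_lit 446) (nat_lit 5) (nat_lit 458) (nat_lit 5) (nat_lit 459) (nat_lit 5) (nat_lit 453) (nat_lit 420) (nat_lit 267))))) (XT.nd (nat_lit 234) (nat_lit 1672) (nat_lit 0) (XT.nd (nat_lit 78) (nat_lit 912) (nat_lit 0) (XT.lf (nat_lit 0) (nat_lit 369157309) (nat_lit 912) (nat_lit 7220056201) (nat_lit 76) (nat_lit 5495667542) (nat_lit 434) (nat_lit 5) (nat_lit 446) (nat_lit 5) (nat_lit 435) (nat_lit 5) (nat_lit 454) (nat_lit 420) (nat_lit 266)) (XT.nd (nat_lit 78) (nat_lit 0) (nat_lit 0) (XT.lf (nat_lit 0) (nat_lit 211051788) (nat_lit 912) (nat_lit 1988034569) (nat_lit 988) (nat_lit 11022600353)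 (nat_lit 422) (nat_lit 5) (nat_lit 434) (nat_lit 5) (nat_lit 435) (nat_lit 5) (nat_lit 455) (nat_lit 420) (nat_lit 265)) (XT.lf (nat_lit 0) (nat_lit 4126798682) (nat_lit 988) (nat_lit 5508044240) (nat_lit 76) (nat_lit 3725161865) (nat_lit 422) (nat_lit 5) (nat_lit 435) (nat_lit 5) (nat_lit 423) (nat_lit 5) (nat_lit 456) (nat_lit 420) (nat_lit 264)))) (XT.nd (nat_lit 78) (nat_lit 836) (nat_lit 0) (XT.lf (nat_lit 0) (nat_lit 2147907220) (nat_lit 836) (nat_lit 3960727494) (nat_lit 912) (nat_lit 7392143122) (nat_lit 411) (nat_lit 5) (nat_lit 422) (nat_lit 5) (nat_lit 423) (nat_lit 5) (nat_lit 457) (nat_lit 420) (nat_lit 263)) (XT.nd (nat_lit 78) (nat_lit 836) (nat_lit 0) (XT.lf (nat_lit 0) (nat_lit 8167782811) (nat_lit 912) (nat_lit 3635937277) (nat_lit 76) (nat_lit 1839892750) (nat_lit 411) (nat_lit 5) (nat_lit 423) (nat_lit 5) (nat_lit 412) (nat_lit 5) (nat_lit 458) (nat_lit 420) (nat_lit 262)) (XT.lf (nat_lit 0) (nat_lit 4253274622) (nat_lit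 836) (nat_lit 6057515129) (nat_lit 912) (nat_lit 3477661273) (nat_lit 400) (nat_lit 5) (nat_lit 411) (nat_lit 5) (nat_lit 412) (nat_lit 5) (nat_lit 459) (nat_lit 420) (nat_lit 261))))))))
noncomputable def xc203 : XT := (XT.nd (nat_lit 1638) (nat_lit 5928) (nat_lit 0) (XT.nd (nat_lit 780) (nat_lit 3952) (nat_lit 0) (XT.nd (nat_lit 390) (nat_lit 2204) (nat_lit 0) (XT.nd (nat_lit 156) (nat_lit 1520) (nat_lit 0) (XT.nd (nat_lit 78) (nat_lit 836) (nat_lit 0) (XT.lf (nat_lit 0) (nat_lit 12338020662) (nat_lit 836) (nat_lit 172010141) (nat_lit 912) (nat_lit 1425887690) (nat_lit 400) (nat_lit 5) (nat_lit 411) (nat_lit 5) (nat_lit 412) (nat_lit 5) (nat_lit 460) (nat_lit 420) (nat_lit 260)) (XT.lf (nat_lit 0) (nat_lit 728108500) (nat_lit 836) (nat_lit 7555292269) (nat_lit 76) (nat_lit 5801449264) (nat_lit 389) (nat_lit 5) (nat_lit 400) (nat_lit 5) (nat_lit 390) (nat_lit 5) (nat_lit 461) (nat_lit 420) (nat_lit 259))) (XT.nd (nat_lit 78) (nat_lit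 760) (nat_lit 0) (XT.lf (nat_lit 0) (nat_lit 590173871) (nat_lit 760) (nat_lit 2320955476) (nat_lit 836) (nat_lit 11325341606) (nat_lit 379) (nat_lit 5) (nat_lit 389) (nat_lit 5) (nat_lit 390) (nat_lit 5) (nat_lit 462) (nat_lit 420) (nat_lit 258)) (XT.nd (nat_lit 78) (nat_lit 760) (nat_lit 0) (XT.lf (nat_lit 0) (nat_lit 5202648468) (nat_lit 836) (nat_lit 5425619915) (nat_lit 76) (nat_lit 3761559151) (nat_lit 379) (nat_lit 5) (nat_lit 390) (nat_lit 5) (nat_lit 380) (nat_lit 5) (nat_lit 463) (nat_lit 420) (nat_lit 257)) (XT.lf (nat_lit 0) (nat_lit 2971582915) (nat_lit 760) (nat_lit 4592672146) (nat_lit 836) (nat_lit 6981511043) (nat_lit 369) (nat_lit 5) (nat_lit 379) (nat_lit 5) (nat_lit 380) (nat_lit 5) (nat_lit 464) (nat_lit 420) (nat_lit 256))))) (XT.nd (nat_lit 156) (nat_lit 1444) (nat_lit 0) (XT.nd (nat_lit 78) (nat_lit 760) (nat_lit 0) (XT.lf (nat_lit 0) (nat_lit 10009611430) (nat_lit 836) (nat_lit 3115825763) (nat_lit 76) (nat_lit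 1578655900) (nat_lit 369) (nat_lit 5) (nat_lit 380) (nat_lit 5) (nat_lit 370) (nat_lit 5) (nat_lit 465) (nat_lit 420) (nat_lit 255)) (XT.lf (nat_lit 0) (nat_lit 5542590819) (nat_lit 760) (nat_lit 7017602582) (nat_lit 836) (nat_lit 2304266851) (nat_lit 359) (nat_lit 5) (nat_lit 369) (nat_lit 5) (nat_lit 370) (nat_lit 5) (nat_lit 466) (nat_lit 420) (nat_lit 254))) (XT.nd (nat_lit 78) (nat_lit 1368) (nat_lit 0) (XT.lf (nat_lit 0) (nat_lit 143020943) (nat_lit 836) (nat_lit 623655221) (nat_lit 76) (nat_lit 14261120765) (nat_lit 358) (nat_lit 5) (nat_lit 369) (nat_lit 5) (nat_lit 359) (nat_lit 5) (nat_lit 467) (nat_lit 420) (nat_lit 253)) (XT.nd (nat_lit 78) (nat_lit 684) (nat_lit 0) (XT.lf (nat_lit 0) (nat_lit 2689563077) (nat_lit 760) (nat_lit 6898768287) (nat_lit 76) (nat_lit 5604141098) (nat_lit 349) (nat_lit 5) (nat_lit 359) (nat_lit 5) (nat_lit 350) (nat_lit 5) (nat_lit 468) (nat_lit 420) (nat_lit 252)) (XT.lf (nat_lit 0) (nat_lit 2047930739)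 (nat_lit 684) (nat_lit 3251975070) (nat_lit 760) (nat_lit 10060278301) (nat_lit 340) (nat_lit 5) (nat_lit 349) (nat_lit 5) (nat_lit 350) (nat_lit 5) (nat_lit 469) (nat_lit 420) (nat_lit 251)))))) (XT.nd (nat_lit 390) (nat_lit 1900) (nat_lit 0) (XT.nd (nat_lit 156) (nat_lit 1368) (nat_lit 0) (XT.nd (nat_lit 78) (nat_lit 684) (nat_lit 0) (XT.lf (nat_lit 0) (nat_lit 8020294827) (nat_lit 760) (nat_lit 4295837631) (nat_lit 76) (nat_lit 3213960744) (nat_lit 340) (nat_lit 5) (nat_lit 350) (nat_lit 5) (nat_lit 341) (nat_lit 5) (nat_lit 470) (nat_lit 420) (nat_lit 250)) (XT.lf (nat_lit 0) (nat_lit 4932853004) (nat_lit 684) (nat_lit 5906380501) (nat_lit 760) (nat_lit 4863284133) (nat_lit 331) (nat_lit 5) (nat_lit 340) (nat_lit 5) (nat_lit 341) (nat_lit 5) (nat_lit 471) (nat_lit 420) (nat_lit 249))) (XT.nd (nat_lit 78) (nat_lit 1368) (nat_lit 0) (XT.lf (nat_lit 0) (nat_lit 13738348558) (nat_lit 760) (nat_lit 1489069770) (nat_lit 76) (nat_lit 650496283)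 (nat_lit 331) (nat_lit 5) (nat_lit 341) (nat_lit 5) (nat_lit 332) (nat_lit 5) (nat_lit 472) (nat_lit 420) (nat_lit 248)) (XT.nd (nat_lit 78) (nat_lit 608) (nat_lit 0) (XT.lf (nat_lit 0) (nat_lit 712922120) (nat_lit 760) (nat_lit 8027591761) (nat_lit 76) (nat_lit 7314569287) (nat_lit 321) (nat_lit 5) (nat_lit 331) (nat_lit 5) (nat_lit 322) (nat_lit 5) (nat_lit 473) (nat_lit 420) (nat_lit 247)) (XT.lf (nat_lit 0) (nat_lit 1513447974) (nat_lit 608) (nat_lit 2091184419) (nat_lit 684) (nat_lit 12630663429) (nat_lit 313) (nat_lit 5) (nat_lit 321) (nat_lit 5) (nat_lit 322) (nat_lit 5) (nat_lit 474) (nat_lit 420) (nat_lit 246))))) (XT.nd (nat_lit 234) (nat_lit 1292) (nat_lit 0) (XT.nd (nat_lit 78) (nat_lit 608) (nat_lit 0) (XT.lf (nat_lit 0) (nat_lit 6629863234) (nat_lit 684) (nat_lit 5105957271) (nat_lit 76) (nat_lit 4681778497) (nat_lit 313) (nat_lit 5) (nat_lit 322) (nat_lit 5) (nat_lit 314) (nat_lit 5) (nat_lit 475) (nat_lit 420) (nat_lit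 245)) (XT.nd (nat_lit 78) (nat_lit 0) (nat_lit 0) (XT.lf (nat_lit 0) (nat_lit 4739550644) (nat_lit 608) (nat_lit 5011847989) (nat_lit 684) (nat_lit 6851433613) (nat_lit 305) (nat_lit 5) (nat_lit 313) (nat_lit 5) (nat_lit 314) (nat_lit 5) (nat_lit 476) (nat_lit 420) (nat_lit 244)) (XT.lf (nat_lit 0) (nat_lit 12973110952) (nat_lit 684) (nat_lit 1963219020) (nat_lit 76) (nat_lit 1854685260) (nat_lit 305) (nat_lit 5) (nat_lit 314) (nat_lit 5) (nat_lit 306) (nat_lit 5) (nat_lit 477) (nat_lit 420) (nat_lit 243)))) (XT.nd (nat_lit 78) (nat_lit 684) (nat_lit 0) (XT.lf (nat_lit 0) (nat_lit 8198294345) (nat_lit 608) (nat_lit 8138820493) (nat_lit 684) (nat_lit 644289893) (nat_lit 297) (nat_lit 5) (nat_lit 305) (nat_lit 5) (nat_lit 306) (nat_lit 5) (nat_lit 478) (nat_lit 420) (nat_lit 242)) (XT.nd (nat_lit 78) (nat_lit 0) (nat_lit 0) (XT.lf (nat_lit 0) (nat_lit 1404892227) (nat_lit 608) (nat_lit 1167761689) (nat_lit 684) (nat_lit 14602334178) (nat_lit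 288) (nat_lit 5) (nat_lit 296) (nat_lit 5) (nat_lit 297) (nat_lit 5) (nat_lit 479) (nat_lit 420) (nat_lit 241)) (XT.lf (nat_lit 0) (nat_lit 5934791337) (nat_lit 684) (nat_lit 5509797328) (nat_lit 76) (nat_lit 5925979649) (nat_lit 288) (nat_lit 5) (nat_lit 297) (nat_lit 5) (nat_lit 289) (nat_lit 5) (nat_lit 480) (nat_lit 420) (nat_lit 240))))))) (XT.nd (nat_lit 780) (nat_lit 2508) (nat_lit 0) (XT.nd (nat_lit 390) (nat_lit 1672) (nat_lit 0) (XT.nd (nat_lit 156) (nat_lit 1216) (nat_lit 0) (XT.nd (nat_lit 78) (nat_lit 0) (nat_lit 0) (XT.lf (nat_lit 0) (nat_lit 5002797981) (nat_lit 532) (nat_lit 4393314039) (nat_lit 608) (nat_lit 8173309307) (nat_lit 281) (nat_lit 5) (nat_lit 288) (nat_lit 5) (nat_lit 289) (nat_lit 5) (nat_lit 481) (nat_lit 420) (nat_lit 239)) (XT.lf (nat_lit 0) (nat_lit 12973852203) (nat_lit 608) (nat_lit 2000462184) (nat_lit 76) (nat_lit 2796993152) (nat_lit 281) (nat_lit 5) (nat_lit 289) (nat_lit 5) (nat_lit 282) (nat_lit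 5) (nat_lit 482) (nat_lit 420) (nat_lit 238))) (XT.nd (nat_lit 78) (nat_lit 608) (nat_lit 0) (XT.lf (nat_lit 0) (nat_lit 8853389760) (nat_lit 608) (nat_lit 7848296764) (nat_lit 684) (nat_lit 1273974166) (nat_lit 273) (nat_lit 5) (nat_lit 281) (nat_lit 5) (nat_lit 282) (nat_lit 5) (nat_lit 483) (nat_lit 420) (nat_lit 237)) (XT.nd (nat_lit 78) (nat_lit 0) (nat_lit 0) (XT.lf (nat_lit 0) (nat_lit 1764910806) (nat_lit 532) (nat_lit 541609657) (nat_lit 608) (nat_lit 15876939768) (nat_lit 265) (nat_lit 5) (nat_lit 272) (nat_lit 5) (nat_lit 273) (nat_lit 5) (nat_lit 484) (nat_lit 420) (nat_lit 236)) (XT.lf (nat_lit 0) (nat_lit 6040144339) (nat_lit 608) (nat_lit 5465173076) (nat_lit 76) (nat_lit 6887958371) (nat_lit 265) (nat_lit 5) (nat_lit 273) (nat_lit 5) (nat_lit 266) (nat_lit 5) (nat_lit 485) (nat_lit 420) (nat_lit 235))))) (XT.nd (nat_lit 156) (nat_lit 1140) (nat_lit 0) (XT.nd (nat_lit 78) (nat_lit 0) (nat_lit 0) (XT.lf (nat_lit 0) (nat_lit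 5768795617) (nat_lit 532) (nat_lit 4112911364) (nat_lit 608) (nat_lit 8724915346) (nat_lit 258) (nat_lit 5) (nat_lit 265) (nat_lit 5) (nat_lit 266) (nat_lit 5) (nat_lit 486) (nat_lit 420) (nat_lit 234)) (XT.lf (nat_lit 0) (nat_lit 13851561482) (nat_lit 608) (nat_lit 1555085720) (nat_lit 76) (nat_lit 3416559384) (nat_lit 258) (nat_lit 5) (nat_lit 266) (nat_lit 5) (nat_lit 259) (nat_lit 5) (nat_lit 487) (nat_lit 420) (nat_lit 233))) (XT.nd (nat_lit 78) (nat_lit 608) (nat_lit 0) (XT.lf (nat_lit 0) (nat_lit 10047440876) (nat_lit 532) (nat_lit 7938286787) (nat_lit 608) (nat_lit 1056696576) (nat_lit 251) (nat_lit 5) (nat_lit 258) (nat_lit 5) (nat_lit 259) (nat_lit 5) (nat_lit 488) (nat_lit 420) (nat_lit 232)) (XT.nd (nat_lit 78) (nat_lit 0) (nat_lit 0) (XT.lf (nat_lit 0) (nat_lit 2642363038) (nat_lit 532) (nat_lit 275808697) (nat_lit 608) (nat_lit 16347070505) (nat_lit 243) (nat_lit 5) (nat_lit 250) (nat_lit 5) (nat_lit 251) (nat_lit 5) (nat_lit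 489) (nat_lit 420) (nat_lit 231)) (XT.lf (nat_lit 0) (nat_lit 7060651408) (nat_lit 608) (nat_lit 4923773765) (nat_lit 76) (nat_lit 7505906470) (nat_lit 243) (nat_lit 5) (nat_lit 251) (nat_lit 5) (nat_lit 244) (nat_lit 5) (nat_lit 490) (nat_lit 420) (nat_lit 230)))))) (XT.nd (nat_lit 390) (nat_lit 988) (nat_lit 0) (XT.nd (nat_lit 156) (nat_lit 1064) (nat_lit 0) (XT.nd (nat_lit 78) (nat_lit 0) (nat_lit 0) (XT.lf (nat_lit 0) (nat_lit 7090183886) (nat_lit 456) (nat_lit 4236338851) (nat_lit 532) (nat_lit 8392589256) (nat_lit 237) (nat_lit 5) (nat_lit 243) (nat_lit 5) (nat_lit 244) (nat_lit 5) (nat_lit 491) (nat_lit 420) (nat_lit 229)) (XT.lf (nat_lit 0) (nat_lit 15727517217) (nat_lit 532) (nat_lit 575019044) (nat_lit 76) (nat_lit 3648935573) (nat_lit 237) (nat_lit 5) (nat_lit 244) (nat_lit 5) (nat_lit 238) (nat_lit 5) (nat_lit 492) (nat_lit 420) (nat_lit 228))) (XT.nd (nat_lit 78) (nat_lit 456) (nat_lit 0) (XT.lf (nat_lit 0) (nat_lit 126122820)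 (nat_lit 608) (nat_lit 8350342516) (nat_lit 76) (nat_lit 11710041134) (nat_lit 229) (nat_lit 5) (nat_lit 237) (nat_lit 5) (nat_lit 230) (nat_lit 5) (nat_lit 493) (nat_lit 420) (nat_lit 227)) (XT.nd (nat_lit 78) (nat_lit 0) (nat_lit 0) (XT.lf (nat_lit 0) (nat_lit 4092703635) (nat_lit 456) (nat_lit 437358007) (nat_lit 532) (nat_lit 15895153378) (nat_lit 223) (nat_lit 5) (nat_lit 229) (nat_lit 5) (nat_lit 230) (nat_lit 5) (nat_lit 494) (nat_lit 420) (nat_lit 226)) (XT.lf (nat_lit 0) (nat_lit 9121847320) (nat_lit 532) (nat_lit 3830773854) (nat_lit 76) (nat_lit 7714081205) (nat_lit 223) (nat_lit 5) (nat_lit 230) (nat_lit 5) (nat_lit 224) (nat_lit 5) (nat_lit 495) (nat_lit 420) (nat_lit 225))))) (XT.nd (nat_lit 53508) (nat_lit 0) (nat_lit 27208) (XT.nd (nat_lit 78) (nat_lit 532) (nat_lit 0) (XT.lf (nat_lit 0) (nat_lit 9026458168) (nat_lit 456) (nat_lit 4833612990) (nat_lit 532) (nat_lit 7051856278) (nat_lit 217) (nat_lit 5) (nat_lit 223) (nat_lit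 5) (nat_lit 224) (nat_lit 5) (nat_lit 496) (nat_lit 420) (nat_lit 224)) (XT.nd (nat_lit 78) (nat_lit 76) (nat_lit 0) (XT.lf (nat_lit 0) (nat_lit 1011856564) (nat_lit 456) (nat_lit 17729185105) (nat_lit 532) (nat_lit 2420055680) (nat_lit 211) (nat_lit 5) (nat_lit 217) (nat_lit 5) (nat_lit 218) (nat_lit 5) (nat_lit 497) (nat_lit 420) (nat_lit 223)) (XT.lf (nat_lit 0) (nat_lit 2379630149) (nat_lit 532) (nat_lit 7143018524) (nat_lit 76) (nat_lit 11890193327) (nat_lit 210) (nat_lit 5) (nat_lit 217) (nat_lit 5) (nat_lit 211) (nat_lit 5) (nat_lit 498) (nat_lit 420) (nat_lit 222)))) (XT.nd (nat_lit 78) (nat_lit 0) (nat_lit 0) (XT.lf (nat_lit 0) (nat_lit 1231960972) (nat_lit 0) (nat_lit 1231960972) (nat_lit 1596) (nat_lit 2369102650) (nat_lit 568) (nat_lit 5) (nat_lit 568) (nat_lit 3) (nat_lit 589) (nat_lit 3) (nat_lit 421) (nat_lit 421) (nat_lit 298)) (XT.nd (nat_lit 78) (nat_lit 0) (nat_lit 0) (XT.lf (nat_lit 0) (nat_lit 5756779853) (nat_lit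 1596) (nat_lit 2374639337) (nat_lit 1672) (nat_lit 1615697340) (nat_lit 568) (nat_lit 5) (nat_lit 589) (nat_lit 3) (nat_lit 590) (nat_lit 5) (nat_lit 422) (nat_lit 421) (nat_lit 297)) (XT.lf (nat_lit 76) (nat_lit 2556049146) (nat_lit 0) (nat_lit 4059051925) (nat_lit 1672) (nat_lit 3214448017) (nat_lit 569) (nat_lit 5) (nat_lit 568) (nat_lit 5) (nat_lit 590) (nat_lit 5) (nat_lit 423) (nat_lit 421) (nat_lit 296))))))))
noncomputable def xc204 : XT := (XT.nd (nat_lit 1560) (nat_lit 11476) (nat_lit 0) (XT.nd (nat_lit 780) (nat_lit 1368) (nat_lit 0) (XT.nd (nat_lit 390) (nat_lit 0) (nat_lit 76) (XT.nd (nat_lit 156) (nat_lit 1596) (nat_lit 0) (XT.nd (nat_lit 78) (nat_lit 0) (nat_lit 0) (XT.lf (nat_lit 0) (nat_lit 7487524705) (nat_lit 1596) (nat_lit 2307433502) (nat_lit 1672) (nat_lit 118733370) (nat_lit 569) (nat_lit 5) (nat_lit 590) (nat_lit 5) (nat_lit 591) (nat_lit 5) (nat_lit 424) (nat_lit 421) (nat_lit 295)) (XT.lf (nat_lit 76) (nat_lit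 2756498261) (nat_lit 0) (nat_lit 5646343486) (nat_lit 1672) (nat_lit 1596166270) (nat_lit 570) (nat_lit 5) (nat_lit 569) (nat_lit 5) (nat_lit 591) (nat_lit 5) (nat_lit 425) (nat_lit 421) (nat_lit 294))) (XT.nd (nat_lit 78) (nat_lit 1596) (nat_lit 0) (XT.lf (nat_lit 76) (nat_lit 7942330261) (nat_lit 0) (nat_lit 1390595639) (nat_lit 1672) (nat_lit 753175670) (nat_lit 570) (nat_lit 5) (nat_lit 569) (nat_lit 5) (nat_lit 591) (nat_lit 5) (nat_lit 426) (nat_lit 421) (nat_lit 293)) (XT.nd (nat_lit 78) (nat_lit 0) (nat_lit 0) (XT.lf (nat_lit 0) (nat_lit 125883196) (nat_lit 1672) (nat_lit 7108216422) (nat_lit 1748) (nat_lit 2940411374) (nat_lit 548) (nat_lit 5) (nat_lit 570) (nat_lit 5) (nat_lit 571) (nat_lit 5) (nat_lit 427) (nat_lit 421) (nat_lit 292)) (XT.lf (nat_lit 0) (nat_lit 1017714240) (nat_lit 1672) (nat_lit 1880119056) (nat_lit 1748) (nat_lit 7366650215) (nat_lit 548) (nat_lit 5) (nat_lit 570) (nat_lit 5) (nat_lit 571) (nat_lit 5) (nat_lit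 428) (nat_lit 421) (nat_lit 291))))) (XT.nd (nat_lit 156) (nat_lit 0) (nat_lit 76) (XT.nd (nat_lit 78) (nat_lit 0) (nat_lit 0) (XT.lf (nat_lit 0) (nat_lit 1942061481) (nat_lit 1672) (nat_lit 6878814640) (nat_lit 1748) (nat_lit 1535085769) (nat_lit 549) (nat_lit 5) (nat_lit 571) (nat_lit 5) (nat_lit 572) (nat_lit 5) (nat_lit 429) (nat_lit 421) (nat_lit 290)) (XT.lf (nat_lit 0) (nat_lit 2899054141) (nat_lit 1672) (nat_lit 1512407785) (nat_lit 1748) (nat_lit 6037524742) (nat_lit 549) (nat_lit 5) (nat_lit 571) (nat_lit 5) (nat_lit 572) (nat_lit 5) (nat_lit 430) (nat_lit 421) (nat_lit 289))) (XT.nd (nat_lit 78) (nat_lit 0) (nat_lit 0) (XT.lf (nat_lit 0) (nat_lit 3884564349) (nat_lit 1672) (nat_lit 6541588673) (nat_lit 1748) (nat_lit 117531365) (nat_lit 550) (nat_lit 5) (nat_lit 572) (nat_lit 5) (nat_lit 573) (nat_lit 5) (nat_lit 431) (nat_lit 421) (nat_lit 288)) (XT.nd (nat_lit 78) (nat_lit 0) (nat_lit 0) (XT.lf (nat_lit 0) (nat_lit 4912141945)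 (nat_lit 1672) (nat_lit 1033217102) (nat_lit 1748) (nat_lit 4694469870) (nat_lit 550) (nat_lit 5) (nat_lit 572) (nat_lit 5) (nat_lit 573) (nat_lit 5) (nat_lit 432) (nat_lit 421) (nat_lit 287)) (XT.lf (nat_lit 76) (nat_lit 4635080240) (nat_lit 0) (nat_lit 1338545593) (nat_lit 1748) (nat_lit 4764003409) (nat_lit 551) (nat_lit 5) (nat_lit 550) (nat_lit 5) (nat_lit 573) (nat_lit 5) (nat_lit 433) (nat_lit 421) (nat_lit 286)))))) (XT.nd (nat_lit 390) (nat_lit 0) (nat_lit 0) (XT.nd (nat_lit 156) (nat_lit 1596) (nat_lit 0) (XT.nd (nat_lit 78) (nat_lit 0) (nat_lit 0) (XT.lf (nat_lit 0) (nat_lit 7068690373) (nat_lit 1672) (nat_lit 439686234) (nat_lit 1748) (nat_lit 3328761948) (nat_lit 551) (nat_lit 5) (nat_lit 573) (nat_lit 5) (nat_lit 574) (nat_lit 5) (nat_lit 434) (nat_lit 421) (nat_lit 285)) (XT.lf (nat_lit 76) (nat_lit 5387119846) (nat_lit 0) (nat_lit 2826253783) (nat_lit 1748) (nat_lit 2724710076) (nat_lit 552) (nat_lit 5) (nat_lit 551) (nat_lit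 5) (nat_lit 574) (nat_lit 5) (nat_lit 435) (nat_lit 421) (nat_lit 284))) (XT.nd (nat_lit 78) (nat_lit 1672) (nat_lit 0) (XT.lf (nat_lit 76) (nat_lit 274984286) (nat_lit 0) (nat_lit 9107531396) (nat_lit 1748) (nat_lit 1658500773) (nat_lit 553) (nat_lit 5) (nat_lit 552) (nat_lit 5) (nat_lit 575) (nat_lit 5) (nat_lit 436) (nat_lit 421) (nat_lit 283)) (XT.nd (nat_lit 78) (nat_lit 1672) (nat_lit 0) (XT.lf (nat_lit 76) (nat_lit 6262426897) (nat_lit 0) (nat_lit 4352846859) (nat_lit 1748) (nat_lit 529929441) (nat_lit 553) (nat_lit 5) (nat_lit 552) (nat_lit 5) (nat_lit 575) (nat_lit 5) (nat_lit 437) (nat_lit 421) (nat_lit 282)) (XT.lf (nat_lit 0) (nat_lit 608243578) (nat_lit 1748) (nat_lit 10137403329) (nat_lit 1824) (nat_lit 505842548) (nat_lit 530) (nat_lit 5) (nat_lit 553) (nat_lit 5) (nat_lit 554) (nat_lit 5) (nat_lit 438) (nat_lit 421) (nat_lit 281))))) (XT.nd (nat_lit 156) (nat_lit 0) (nat_lit 76) (XT.nd (nat_lit 78) (nat_lit 0) (nat_lit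 0) (XT.lf (nat_lit 0) (nat_lit 1808749991) (nat_lit 1748) (nat_lit 4106267989) (nat_lit 1824) (nat_lit 5443880089) (nat_lit 530) (nat_lit 5) (nat_lit 553) (nat_lit 5) (nat_lit 554) (nat_lit 5) (nat_lit 439) (nat_lit 421) (nat_lit 280)) (XT.lf (nat_lit 76) (nat_lit 2061207746) (nat_lit 0) (nat_lit 970587847) (nat_lit 1824) (nat_lit 8436688680) (nat_lit 531) (nat_lit 5) (nat_lit 530) (nat_lit 5) (nat_lit 554) (nat_lit 5) (nat_lit 440) (nat_lit 421) (nat_lit 279))) (XT.nd (nat_lit 78) (nat_lit 0) (nat_lit 0) (XT.lf (nat_lit 0) (nat_lit 4318869320) (nat_lit 1748) (nat_lit 3210197638) (nat_lit 1824) (nat_lit 4050403898) (nat_lit 531) (nat_lit 5) (nat_lit 554) (nat_lit 5) (nat_lit 555) (nat_lit 5) (nat_lit 441) (nat_lit 421) (nat_lit 278)) (XT.nd (nat_lit 78) (nat_lit 0) (nat_lit 76) (XT.lf (nat_lit 76) (nat_lit 3134171170) (nat_lit 0) (nat_lit 2509963378) (nat_lit 1824) (nat_lit 6048293624) (nat_lit 532) (nat_lit 5) (nat_lit 531) (nat_lit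 5) (nat_lit 555) (nat_lit 5) (nat_lit 442) (nat_lit 421) (nat_lit 277)) (XT.lf (nat_lit 0) (nat_lit 7020432227) (nat_lit 1748) (nat_lit 2186912360) (nat_lit 1824) (nat_lit 2599809503) (nat_lit 532) (nat_lit 5) (nat_lit 555) (nat_lit 5) (nat_lit 556) (nat_lit 5) (nat_lit 443) (nat_lit 421) (nat_lit 276))))))) (XT.nd (nat_lit 780) (nat_lit 5092) (nat_lit 0) (XT.nd (nat_lit 390) (nat_lit 2964) (nat_lit 0) (XT.nd (nat_lit 156) (nat_lit 3572) (nat_lit 0) (XT.nd (nat_lit 78) (nat_lit 0) (nat_lit 76) (XT.lf (nat_lit 76) (nat_lit 4340838776) (nat_lit 0) (nat_lit 4114399057) (nat_lit 1824) (nat_lit 3468317055) (nat_lit 533) (nat_lit 5) (nat_lit 532) (nat_lit 5) (nat_lit 556) (nat_lit 5) (nat_lit 444) (nat_lit 421) (nat_lit 275)) (XT.lf (nat_lit 0) (nat_lit 9926916259) (nat_lit 1748) (nat_lit 1031855371) (nat_lit 76) (nat_lit 1083348537) (nat_lit 533) (nat_lit 5) (nat_lit 556) (nat_lit 5) (nat_lit 534) (nat_lit 5) (nat_lit 445) (nat_lit 421) (nat_lit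 274))) (XT.nd (nat_lit 78) (nat_lit 1900) (nat_lit 0) (XT.lf (nat_lit 0) (nat_lit 5686032176) (nat_lit 1748) (nat_lit 5792817595) (nat_lit 1824) (nat_lit 683190551) (nat_lit 510) (nat_lit 5) (nat_lit 533) (nat_lit 5) (nat_lit 534) (nat_lit 5) (nat_lit 446) (nat_lit 421) (nat_lit 273)) (XT.nd (nat_lit 78) (nat_lit 0) (nat_lit 0) (XT.lf (nat_lit 0) (nat_lit 254875630) (nat_lit 1824) (nat_lit 507773730) (nat_lit 1900) (nat_lit 11521700906) (nat_lit 485) (nat_lit 5) (nat_lit 509) (nat_lit 5) (nat_lit 510) (nat_lit 5) (nat_lit 447) (nat_lit 421) (nat_lit 272)) (XT.lf (nat_lit 0) (nat_lit 2290670424) (nat_lit 1900) (nat_lit 5248206641) (nat_lit 76) (nat_lit 4868890781) (nat_lit 485) (nat_lit 5) (nat_lit 510) (nat_lit 5) (nat_lit 486) (nat_lit 5) (nat_lit 448) (nat_lit 421) (nat_lit 271))))) (XT.nd (nat_lit 156) (nat_lit 1824) (nat_lit 0) (XT.nd (nat_lit 78) (nat_lit 0) (nat_lit 0) (XT.lf (nat_lit 0) (nat_lit 1675916933) (nat_lit 1140) (nat_lit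 2174789680) (nat_lit 1216) (nat_lit 8682918070) (nat_lit 470) (nat_lit 5) (nat_lit 485) (nat_lit 5) (nat_lit 486) (nat_lit 5) (nat_lit 449) (nat_lit 421) (nat_lit 270)) (XT.lf (nat_lit 0) (nat_lit 5486195132) (nat_lit 1216) (nat_lit 3884840059) (nat_lit 76) (nat_lit 3290078434) (nat_lit 470) (nat_lit 5) (nat_lit 486) (nat_lit 5) (nat_lit 471) (nat_lit 5) (nat_lit 450) (nat_lit 421) (nat_lit 269))) (XT.nd (nat_lit 78) (nat_lit 912) (nat_lit 0) (XT.lf (nat_lit 0) (nat_lit 3244285961) (nat_lit 912) (nat_lit 3933217785) (nat_lit 988) (nat_lit 5613186394) (nat_lit 458) (nat_lit 5) (nat_lit 470) (nat_lit 5) (nat_lit 471) (nat_lit 5) (nat_lit 451) (nat_lit 421) (nat_lit 268)) (XT.nd (nat_lit 78) (nat_lit 912) (nat_lit 0) (XT.lf (nat_lit 0) (nat_lit 8927174214) (nat_lit 988) (nat_lit 2375850774) (nat_lit 76) (nat_lit 1619342483) (nat_lit 458) (nat_lit 5) (nat_lit 471) (nat_lit 5) (nat_lit 459) (nat_lit 5) (nat_lit 452) (nat_lit 421) (nat_lit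 267)) (XT.lf (nat_lit 0) (nat_lit 4965899579) (nat_lit 912) (nat_lit 5792285809) (nat_lit 988) (nat_lit 2297566015) (nat_lit 446) (nat_lit 5) (nat_lit 458) (nat_lit 5) (nat_lit 459) (nat_lit 5) (nat_lit 453) (nat_lit 421) (nat_lit 266)))))) (XT.nd (nat_lit 390) (nat_lit 2432) (nat_lit 0) (XT.nd (nat_lit 156) (nat_lit 1748) (nat_lit 0) (XT.nd (nat_lit 78) (nat_lit 912) (nat_lit 0) (XT.lf (nat_lit 0) (nat_lit 12475469546) (nat_lit 912) (nat_lit 154509348) (nat_lit 988) (nat_lit 561740877) (nat_lit 446) (nat_lit 5) (nat_lit 458) (nat_lit 5) (nat_lit 459) (nat_lit 5) (nat_lit 454) (nat_lit 421) (nat_lit 265)) (XT.lf (nat_lit 0) (nat_lit 1262647863) (nat_lit 912) (nat_lit 6490274113) (nat_lit 76) (nat_lit 5575934549) (nat_lit 434) (nat_lit 5) (nat_lit 446) (nat_lit 5) (nat_lit 435) (nat_lit 5) (nat_lit 455) (nat_lit 421) (nat_lit 264))) (XT.nd (nat_lit 78) (nat_lit 836) (nat_lit 0) (XT.lf (nat_lit 0) (nat_lit 1083704830) (nat_lit 912) (nat_lit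 2033734443) (nat_lit 988) (nat_lit 10351193747) (nat_lit 422) (nat_lit 5) (nat_lit 434) (nat_lit 5) (nat_lit 435) (nat_lit 5) (nat_lit 456) (nat_lit 421) (nat_lit 263)) (XT.nd (nat_lit 78) (nat_lit 836) (nat_lit 0) (XT.lf (nat_lit 0) (nat_lit 5066523506) (nat_lit 988) (nat_lit 4749618858) (nat_lit 76) (nat_lit 3793918741) (nat_lit 422) (nat_lit 5) (nat_lit 435) (nat_lit 5) (nat_lit 423) (nat_lit 5) (nat_lit 457) (nat_lit 421) (nat_lit 262)) (XT.lf (nat_lit 0) (nat_lit 3053737247) (nat_lit 836) (nat_lit 4023053724) (nat_lit 912) (nat_lit 6677082750) (nat_lit 411) (nat_lit 5) (nat_lit 422) (nat_lit 5) (nat_lit 423) (nat_lit 5) (nat_lit 458) (nat_lit 421) (nat_lit 261))))) (XT.nd (nat_lit 234) (nat_lit 1596) (nat_lit 0) (XT.nd (nat_lit 78) (nat_lit 836) (nat_lit 0) (XT.lf (nat_lit 0) (nat_lit 9160641618) (nat_lit 912) (nat_lit 2846222784) (nat_lit 76) (nat_lit 1893030630) (nat_lit 411) (nat_lit 5) (nat_lit 423) (nat_lit 5) (nat_lit 412)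 (nat_lit 5) (nat_lit 459) (nat_lit 421) (nat_lit 260)) (XT.nd (nat_lit 78) (nat_lit 0) (nat_lit 0) (XT.lf (nat_lit 0) (nat_lit 5195099451) (nat_lit 836) (nat_lit 6140707128) (nat_lit 912) (nat_lit 2712037445) (nat_lit 400) (nat_lit 5) (nat_lit 411) (nat_lit 5) (nat_lit 412) (nat_lit 5) (nat_lit 460) (nat_lit 421) (nat_lit 259)) (XT.lf (nat_lit 0) (nat_lit 13424741209) (nat_lit 836) (nat_lit 138236321) (nat_lit 912) (nat_lit 635604412) (nat_lit 400) (nat_lit 5) (nat_lit 411) (nat_lit 5) (nat_lit 412) (nat_lit 5) (nat_lit 461) (nat_lit 421) (nat_lit 258)))) (XT.nd (nat_lit 78) (nat_lit 760) (nat_lit 0) (XT.lf (nat_lit 0) (nat_lit 1540683318) (nat_lit 836) (nat_lit 6845649597) (nat_lit 76) (nat_lit 5964253864) (nat_lit 389) (nat_lit 5) (nat_lit 400) (nat_lit 5) (nat_lit 390) (nat_lit 5) (nat_lit 462) (nat_lit 421) (nat_lit 257)) (XT.nd (nat_lit 78) (nat_lit 0) (nat_lit 0) (XT.lf (nat_lit 0) (nat_lit 1457063046) (nat_lit 760) (nat_lit 2300206012)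 (nat_lit 836) (nat_lit 10748172970) (nat_lit 379) (nat_lit 5) (nat_lit 389) (nat_lit 5) (nat_lit 390) (nat_lit 5) (nat_lit 463) (nat_lit 421) (nat_lit 256)) (XT.lf (nat_lit 0) (nat_lit 6079596759) (nat_lit 836) (nat_lit 4680791198) (nat_lit 76) (nat_lit 3901778221) (nat_lit 379) (nat_lit 5) (nat_lit 390) (nat_lit 5) (nat_lit 380) (nat_lit 5) (nat_lit 464) (nat_lit 421) (nat_lit 255))))))))
noncomputable def xc205 : XT := (XT.nd (nat_lit 1560) (nat_lit 4256) (nat_lit 0) (XT.nd (nat_lit 780) (nat_lit 3648) (nat_lit 0) (XT.nd (nat_lit 390) (nat_lit 2128) (nat_lit 0) (XT.nd (nat_lit 156) (nat_lit 1520) (nat_lit 0) (XT.nd (nat_lit 78) (nat_lit 0) (nat_lit 0) (XT.lf (nat_lit 0) (nat_lit 3878741602) (nat_lit 760) (nat_lit 4600043078) (nat_lit 836) (nat_lit 6342631856) (nat_lit 369) (nat_lit 5) (nat_lit 379) (nat_lit 5) (nat_lit 380) (nat_lit 5) (nat_lit 465) (nat_lit 421) (nat_lit 254)) (XT.lf (nat_lit 0) (nat_lit 10958620359) (nat_lit 836)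 (nat_lit 2332609531) (nat_lit 76) (nat_lit 1691968732) (nat_lit 369) (nat_lit 5) (nat_lit 380) (nat_lit 5) (nat_lit 370) (nat_lit 5) (nat_lit 466) (nat_lit 421) (nat_lit 253))) (XT.nd (nat_lit 78) (nat_lit 760) (nat_lit 0) (XT.lf (nat_lit 0) (nat_lit 6493412668) (nat_lit 760) (nat_lit 7057572264) (nat_lit 836) (nat_lit 1595972772) (nat_lit 359) (nat_lit 5) (nat_lit 369) (nat_lit 5) (nat_lit 370) (nat_lit 5) (nat_lit 467) (nat_lit 421) (nat_lit 252)) (XT.nd (nat_lit 78) (nat_lit 0) (nat_lit 0) (XT.lf (nat_lit 0) (nat_lit 199690507) (nat_lit 684) (nat_lit 677375215) (nat_lit 760) (nat_lit 14436663459) (nat_lit 349) (nat_lit 5) (nat_lit 358) (nat_lit 5) (nat_lit 359) (nat_lit 5) (nat_lit 468) (nat_lit 421) (nat_lit 251)) (XT.lf (nat_lit 0) (nat_lit 3464997953) (nat_lit 760) (nat_lit 6195299574) (nat_lit 76) (nat_lit 5821591512) (nat_lit 349) (nat_lit 5) (nat_lit 359) (nat_lit 5) (nat_lit 350) (nat_lit 5) (nat_lit 469) (nat_lit 421) (nat_lit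 250))))) (XT.nd (nat_lit 156) (nat_lit 1444) (nat_lit 0) (XT.nd (nat_lit 78) (nat_lit 0) (nat_lit 0) (XT.lf (nat_lit 0) (nat_lit 2924797617) (nat_lit 684) (nat_lit 3194027320) (nat_lit 760) (nat_lit 9534304435) (nat_lit 340) (nat_lit 5) (nat_lit 349) (nat_lit 5) (nat_lit 350) (nat_lit 5) (nat_lit 470) (nat_lit 421) (nat_lit 249)) (XT.lf (nat_lit 0) (nat_lit 8880425749) (nat_lit 760) (nat_lit 3549040493) (nat_lit 76) (nat_lit 3397234323) (nat_lit 340) (nat_lit 5) (nat_lit 350) (nat_lit 5) (nat_lit 341) (nat_lit 5) (nat_lit 471) (nat_lit 421) (nat_lit 248))) (XT.nd (nat_lit 78) (nat_lit 760) (nat_lit 0) (XT.lf (nat_lit 0) (nat_lit 5858745574) (nat_lit 684) (nat_lit 5888648490) (nat_lit 760) (nat_lit 4255346409) (nat_lit 331) (nat_lit 5) (nat_lit 340) (nat_lit 5) (nat_lit 341) (nat_lit 5) (nat_lit 472) (nat_lit 421) (nat_lit 247)) (XT.nd (nat_lit 78) (nat_lit 760) (nat_lit 0) (XT.lf (nat_lit 0) (nat_lit 14691799823) (nat_lit 760) (nat_lit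 695144365) (nat_lit 76) (nat_lit 794955030) (nat_lit 331) (nat_lit 5) (nat_lit 341) (nat_lit 5) (nat_lit 332) (nat_lit 5) (nat_lit 473) (nat_lit 421) (nat_lit 246)) (XT.lf (nat_lit 0) (nat_lit 1402311840) (nat_lit 760) (nat_lit 7360883780) (nat_lit 76) (nat_lit 7599486586) (nat_lit 321) (nat_lit 5) (nat_lit 331) (nat_lit 5) (nat_lit 322) (nat_lit 5) (nat_lit 474) (nat_lit 421) (nat_lit 245)))))) (XT.nd (nat_lit 390) (nat_lit 1824) (nat_lit 0) (XT.nd (nat_lit 156) (nat_lit 1216) (nat_lit 0) (XT.nd (nat_lit 78) (nat_lit 0) (nat_lit 0) (XT.lf (nat_lit 0) (nat_lit 2365534251) (nat_lit 608) (nat_lit 1978419983) (nat_lit 684) (nat_lit 12202702921) (nat_lit 313) (nat_lit 5) (nat_lit 321) (nat_lit 5) (nat_lit 322) (nat_lit 5) (nat_lit 475) (nat_lit 421) (nat_lit 244)) (XT.lf (nat_lit 0) (nat_lit 7417590775) (nat_lit 684) (nat_lit 4390274247) (nat_lit 76) (nat_lit 4924983355) (nat_lit 313) (nat_lit 5) (nat_lit 322) (nat_lit 5) (nat_lit 314) (nat_lit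 5) (nat_lit 476) (nat_lit 421) (nat_lit 243))) (XT.nd (nat_lit 78) (nat_lit 608) (nat_lit 0) (XT.lf (nat_lit 0) (nat_lit 5646763549) (nat_lit 608) (nat_lit 4947222423) (nat_lit 684) (nat_lit 6327951733) (nat_lit 305) (nat_lit 5) (nat_lit 313) (nat_lit 5) (nat_lit 314) (nat_lit 5) (nat_lit 477) (nat_lit 421) (nat_lit 242)) (XT.nd (nat_lit 78) (nat_lit 608) (nat_lit 0) (XT.lf (nat_lit 0) (nat_lit 13868484704) (nat_lit 684) (nat_lit 1194343515) (nat_lit 76) (nat_lit 2051289088) (nat_lit 305) (nat_lit 5) (nat_lit 314) (nat_lit 5) (nat_lit 306) (nat_lit 5) (nat_lit 478) (nat_lit 421) (nat_lit 241)) (XT.lf (nat_lit 0) (nat_lit 9165083407) (nat_lit 608) (nat_lit 8127428867) (nat_lit 684) (nat_lit 15947449) (nat_lit 297) (nat_lit 5) (nat_lit 305) (nat_lit 5) (nat_lit 306) (nat_lit 5) (nat_lit 479) (nat_lit 421) (nat_lit 240))))) (XT.nd (nat_lit 156) (nat_lit 1140) (nat_lit 0) (XT.nd (nat_lit 78) (nat_lit 0) (nat_lit 0) (XT.lf (nat_lit 0) (nat_lit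 2238886011) (nat_lit 608) (nat_lit 1010863608) (nat_lit 684) (nat_lit 14256225384) (nat_lit 288) (nat_lit 5) (nat_lit 296) (nat_lit 5) (nat_lit 297) (nat_lit 5) (nat_lit 480) (nat_lit 421) (nat_lit 239)) (XT.lf (nat_lit 0) (nat_lit 6668009662) (nat_lit 684) (nat_lit 4818779090) (nat_lit 76) (nat_lit 6218900477) (nat_lit 288) (nat_lit 5) (nat_lit 297) (nat_lit 5) (nat_lit 289) (nat_lit 5) (nat_lit 481) (nat_lit 421) (nat_lit 238))) (XT.nd (nat_lit 78) (nat_lit 608) (nat_lit 0) (XT.lf (nat_lit 0) (nat_lit 5898796979) (nat_lit 532) (nat_lit 4292878110) (nat_lit 608) (nat_lit 7716981848) (nat_lit 281) (nat_lit 5) (nat_lit 288) (nat_lit 5) (nat_lit 289) (nat_lit 5) (nat_lit 482) (nat_lit 421) (nat_lit 237)) (XT.nd (nat_lit 78) (nat_lit 608) (nat_lit 0) (XT.lf (nat_lit 0) (nat_lit 13830254160) (nat_lit 608) (nat_lit 1249419200) (nat_lit 76) (nat_lit 3035121832) (nat_lit 281) (nat_lit 5) (nat_lit 289) (nat_lit 5) (nat_lit 282) (nat_lit 5) (nat_lit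 483) (nat_lit 421) (nat_lit 236)) (XT.lf (nat_lit 0) (nat_lit 9816305491) (nat_lit 608) (nat_lit 7809737511) (nat_lit 684) (nat_lit 697324445) (nat_lit 273) (nat_lit 5) (nat_lit 281) (nat_lit 5) (nat_lit 282) (nat_lit 5) (nat_lit 484) (nat_lit 421) (nat_lit 235))))))) (XT.nd (nat_lit 780) (nat_lit 912) (nat_lit 0) (XT.nd (nat_lit 390) (nat_lit 1672) (nat_lit 0) (XT.nd (nat_lit 156) (nat_lit 1064) (nat_lit 0) (XT.nd (nat_lit 78) (nat_lit 0) (nat_lit 0) (XT.lf (nat_lit 0) (nat_lit 2588731986) (nat_lit 532) (nat_lit 351619061) (nat_lit 608) (nat_lit 15595024386) (nat_lit 265) (nat_lit 5) (nat_lit 272) (nat_lit 5) (nat_lit 273) (nat_lit 5) (nat_lit 485) (nat_lit 421) (nat_lit 234)) (XT.lf (nat_lit 0) (nat_lit 6738402176) (nat_lit 608) (nat_lit 4791169585) (nat_lit 76) (nat_lit 7220020442) (nat_lit 265) (nat_lit 5) (nat_lit 273) (nat_lit 5) (nat_lit 266) (nat_lit 5) (nat_lit 486) (nat_lit 421) (nat_lit 233))) (XT.nd (nat_lit 78) (nat_lit 532)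 (nat_lit 0) (XT.lf (nat_lit 0) (nat_lit 6662325147) (nat_lit 532) (nat_lit 3988200567) (nat_lit 608) (nat_lit 8316805367) (nat_lit 258) (nat_lit 5) (nat_lit 265) (nat_lit 5) (nat_lit 266) (nat_lit 5) (nat_lit 487) (nat_lit 421) (nat_lit 232)) (XT.nd (nat_lit 78) (nat_lit 532) (nat_lit 0) (XT.lf (nat_lit 0) (nat_lit 14689895039) (nat_lit 608) (nat_lit 813409465) (nat_lit 76) (nat_lit 3685140168) (nat_lit 258) (nat_lit 5) (nat_lit 266) (nat_lit 5) (nat_lit 259) (nat_lit 5) (nat_lit 488) (nat_lit 421) (nat_lit 231)) (XT.lf (nat_lit 0) (nat_lit 11016083598) (nat_lit 532) (nat_lit 7884639395) (nat_lit 608) (nat_lit 511444115) (nat_lit 251) (nat_lit 5) (nat_lit 258) (nat_lit 5) (nat_lit 259) (nat_lit 5) (nat_lit 489) (nat_lit 421) (nat_lit 230))))) (XT.nd (nat_lit 156) (nat_lit 1064) (nat_lit 0) (XT.nd (nat_lit 78) (nat_lit 0) (nat_lit 0) (XT.lf (nat_lit 0) (nat_lit 3465232974) (nat_lit 532) (nat_lit 64299863) (nat_lit 608) (nat_lit 16109954295)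 (nat_lit 243) (nat_lit 5) (nat_lit 250) (nat_lit 5) (nat_lit 251) (nat_lit 5) (nat_lit 490) (nat_lit 421) (nat_lit 229)) (XT.lf (nat_lit 0) (nat_lit 7745400454) (nat_lit 608) (nat_lit 4257863399) (nat_lit 76) (nat_lit 7866003703) (nat_lit 243) (nat_lit 5) (nat_lit 251) (nat_lit 5) (nat_lit 244) (nat_lit 5) (nat_lit 491) (nat_lit 421) (nat_lit 228))) (XT.nd (nat_lit 78) (nat_lit 608) (nat_lit 0) (XT.lf (nat_lit 0) (nat_lit 7991344551) (nat_lit 456) (nat_lit 4099517338) (nat_lit 532) (nat_lit 8011876169) (nat_lit 237) (nat_lit 5) (nat_lit 243) (nat_lit 5) (nat_lit 244) (nat_lit 5) (nat_lit 492) (nat_lit 421) (nat_lit 227)) (XT.nd (nat_lit 78) (nat_lit 76) (nat_lit 0) (XT.lf (nat_lit 0) (nat_lit 169303692) (nat_lit 532) (nat_lit 16402536763) (nat_lit 608) (nat_lit 3768065357) (nat_lit 230) (nat_lit 5) (nat_lit 237) (nat_lit 5) (nat_lit 238) (nat_lit 5) (nat_lit 493) (nat_lit 421) (nat_lit 226)) (XT.lf (nat_lit 0) (nat_lit 655278177) (nat_lit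 608) (nat_lit 7761705935) (nat_lit 76) (nat_lit 12162719829) (nat_lit 229) (nat_lit 5) (nat_lit 237) (nat_lit 5) (nat_lit 230) (nat_lit 5) (nat_lit 494) (nat_lit 421) (nat_lit 225)))))) (XT.nd (nat_lit 53820) (nat_lit 0) (nat_lit 25080) (XT.nd (nat_lit 156) (nat_lit 456) (nat_lit 0) (XT.nd (nat_lit 78) (nat_lit 0) (nat_lit 0) (XT.lf (nat_lit 0) (nat_lit 4925229800) (nat_lit 456) (nat_lit 216613701) (nat_lit 532) (nat_lit 15681452206) (nat_lit 223) (nat_lit 5) (nat_lit 229) (nat_lit 5) (nat_lit 230) (nat_lit 5) (nat_lit 495) (nat_lit 421) (nat_lit 224)) (XT.lf (nat_lit 0) (nat_lit 9816706460) (nat_lit 532) (nat_lit 3162677865) (nat_lit 76) (nat_lit 8090403656) (nat_lit 223) (nat_lit 5) (nat_lit 230) (nat_lit 5) (nat_lit 224) (nat_lit 5) (nat_lit 496) (nat_lit 421) (nat_lit 223))) (XT.nd (nat_lit 53508) (nat_lit 0) (nat_lit 26676) (XT.lf (nat_lit 0) (nat_lit 9946799380) (nat_lit 456) (nat_lit 4697651252) (nat_lit 532) (nat_lit 6675571792)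 (nat_lit 217) (nat_lit 5) (nat_lit 223) (nat_lit 5) (nat_lit 224) (nat_lit 5) (nat_lit 497) (nat_lit 421) (nat_lit 222)) (XT.nd (nat_lit 78) (nat_lit 0) (nat_lit 0) (XT.lf (nat_lit 0) (nat_lit 1638617640) (nat_lit 0) (nat_lit 1638617640) (nat_lit 1596) (nat_lit 1637169107) (nat_lit 568) (nat_lit 5) (nat_lit 568) (nat_lit 3) (nat_lit 589) (nat_lit 3) (nat_lit 422) (nat_lit 422) (nat_lit 296)) (XT.lf (nat_lit 0) (nat_lit 7365159738) (nat_lit 1596) (nat_lit 1638252796) (nat_lit 1672) (nat_lit 908781441) (nat_lit 568) (nat_lit 5) (nat_lit 589) (nat_lit 3) (nat_lit 590) (nat_lit 5) (nat_lit 423) (nat_lit 422) (nat_lit 295))))) (XT.nd (nat_lit 234) (nat_lit 1596) (nat_lit 0) (XT.nd (nat_lit 78) (nat_lit 0) (nat_lit 0) (XT.lf (nat_lit 76) (nat_lit 3385892356) (nat_lit 0) (nat_lit 4830531706) (nat_lit 1672) (nat_lit 1780335588) (nat_lit 569) (nat_lit 5) (nat_lit 568) (nat_lit 5) (nat_lit 590) (nat_lit 5) (nat_lit 424) (nat_lit 422) (nat_lit 294))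 (XT.nd (nat_lit 78) (nat_lit 0) (nat_lit 76) (XT.lf (nat_lit 76) (nat_lit 8522649100) (nat_lit 0) (nat_lit 554045972) (nat_lit 1672) (nat_lit 1006481938) (nat_lit 569) (nat_lit 5) (nat_lit 568) (nat_lit 5) (nat_lit 590) (nat_lit 5) (nat_lit 425) (nat_lit 422) (nat_lit 293)) (XT.lf (nat_lit 76) (nat_lit 3603038592) (nat_lit 0) (nat_lit 6380667605) (nat_lit 1672) (nat_lit 187025827) (nat_lit 570) (nat_lit 5) (nat_lit 569) (nat_lit 5) (nat_lit 591) (nat_lit 5) (nat_lit 426) (nat_lit 422) (nat_lit 292)))) (XT.nd (nat_lit 78) (nat_lit 0) (nat_lit 76) (XT.lf (nat_lit 0) (nat_lit 636114801) (nat_lit 1672) (nat_lit 1387237075) (nat_lit 1748) (nat_lit 8236685916) (nat_lit 547) (nat_lit 5) (nat_lit 569) (nat_lit 5) (nat_lit 570) (nat_lit 5) (nat_lit 427) (nat_lit 422) (nat_lit 291)) (XT.nd (nat_lit 78) (nat_lit 0) (nat_lit 0) (XT.lf (nat_lit 0) (nat_lit 1496680070) (nat_lit 1672) (nat_lit 6429959828) (nat_lit 1748) (nat_lit 2423995730) (nat_lit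 548) (nat_lit 5) (nat_lit 570) (nat_lit 5) (nat_lit 571) (nat_lit 5) (nat_lit 428) (nat_lit 422) (nat_lit 290)) (XT.lf (nat_lit 0) (nat_lit 2379518731) (nat_lit 1672) (nat_lit 1113387200) (nat_lit 1748) (nat_lit 6950038248) (nat_lit 548) (nat_lit 5) (nat_lit 570) (nat_lit 5) (nat_lit 571) (nat_lit 5) (nat_lit 429) (nat_lit 422) (nat_lit 289))))))))
noncomputable def xc206 : XT := (XT.nd (nat_lit 1560) (nat_lit 10336) (nat_lit 0) (XT.nd (nat_lit 780) (nat_lit 3344) (nat_lit 0) (XT.nd (nat_lit 390) (nat_lit 1520) (nat_lit 0) (XT.nd (nat_lit 156) (nat_lit 0) (nat_lit 0) (XT.nd (nat_lit 78) (nat_lit 0) (nat_lit 0) (XT.lf (nat_lit 0) (nat_lit 3297853308) (nat_lit 1672) (nat_lit 6187557088) (nat_lit 1748) (nat_lit 1051331721) (nat_lit 549) (nat_lit 5) (nat_lit 571) (nat_lit 5) (nat_lit 572) (nat_lit 5) (nat_lit 430) (nat_lit 422) (nat_lit 288)) (XT.lf (nat_lit 0) (nat_lit 4248163260) (nat_lit 1672) (nat_lit 730073739) (nat_lit 1748) (nat_lit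 5653906842) (nat_lit 549) (nat_lit 5) (nat_lit 571) (nat_lit 5) (nat_lit 572) (nat_lit 5) (nat_lit 431) (nat_lit 422) (nat_lit 287))) (XT.nd (nat_lit 78) (nat_lit 0) (nat_lit 76) (XT.lf (nat_lit 76) (nat_lit 4890178366) (nat_lit 0) (nat_lit 342341486) (nat_lit 1748) (nat_lit 5496632939) (nat_lit 550) (nat_lit 5) (nat_lit 549) (nat_lit 5) (nat_lit 572) (nat_lit 5) (nat_lit 432) (nat_lit 422) (nat_lit 286)) (XT.nd (nat_lit 78) (nat_lit 0) (nat_lit 0) (XT.lf (nat_lit 0) (nat_lit 6253562733) (nat_lit 1672) (nat_lit 234598376) (nat_lit 1748) (nat_lit 4339600827) (nat_lit 550) (nat_lit 5) (nat_lit 572) (nat_lit 5) (nat_lit 573) (nat_lit 5) (nat_lit 433) (nat_lit 422) (nat_lit 285)) (XT.lf (nat_lit 76) (nat_lit 5541674893) (nat_lit 0) (nat_lit 1775509701) (nat_lit 1748) (nat_lit 3610715508) (nat_lit 551) (nat_lit 5) (nat_lit 550) (nat_lit 5) (nat_lit 573) (nat_lit 5) (nat_lit 434) (nat_lit 422) (nat_lit 284))))) (XT.nd (nat_lit 156) (nat_lit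 1672) (nat_lit 0) (XT.nd (nat_lit 78) (nat_lit 0) (nat_lit 0) (XT.lf (nat_lit 76) (nat_lit 381064853) (nat_lit 0) (nat_lit 8028946980) (nat_lit 1748) (nat_lit 2619870539) (nat_lit 552) (nat_lit 5) (nat_lit 551) (nat_lit 5) (nat_lit 574) (nat_lit 5) (nat_lit 435) (nat_lit 422) (nat_lit 283)) (XT.lf (nat_lit 76) (nat_lit 6313984669) (nat_lit 0) (nat_lit 3242968374) (nat_lit 1748) (nat_lit 1576306098) (nat_lit 552) (nat_lit 5) (nat_lit 551) (nat_lit 5) (nat_lit 574) (nat_lit 5) (nat_lit 436) (nat_lit 422) (nat_lit 282))) (XT.nd (nat_lit 78) (nat_lit 1748) (nat_lit 0) (XT.lf (nat_lit 76) (nat_lit 1119971704) (nat_lit 0) (nat_lit 9609540245) (nat_lit 1748) (nat_lit 509137915) (nat_lit 553) (nat_lit 5) (nat_lit 552) (nat_lit 5) (nat_lit 575) (nat_lit 5) (nat_lit 437) (nat_lit 422) (nat_lit 281)) (XT.nd (nat_lit 78) (nat_lit 0) (nat_lit 76) (XT.lf (nat_lit 0) (nat_lit 610702015) (nat_lit 1748) (nat_lit 4138690140) (nat_lit 1824) (nat_lit 6595902476)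 (nat_lit 529) (nat_lit 5) (nat_lit 552) (nat_lit 5) (nat_lit 553) (nat_lit 5) (nat_lit 438) (nat_lit 422) (nat_lit 280)) (XT.lf (nat_lit 0) (nat_lit 1745610379) (nat_lit 1748) (nat_lit 9482980182) (nat_lit 1824) (nat_lit 225424645) (nat_lit 530) (nat_lit 5) (nat_lit 553) (nat_lit 5) (nat_lit 554) (nat_lit 5) (nat_lit 439) (nat_lit 422) (nat_lit 279)))))) (XT.nd (nat_lit 390) (nat_lit 3420) (nat_lit 0) (XT.nd (nat_lit 156) (nat_lit 0) (nat_lit 76) (XT.nd (nat_lit 78) (nat_lit 0) (nat_lit 0) (XT.lf (nat_lit 0) (nat_lit 2948064137) (nat_lit 1748) (nat_lit 3348029414) (nat_lit 1824) (nat_lit 5267919697) (nat_lit 530) (nat_lit 5) (nat_lit 553) (nat_lit 5) (nat_lit 554) (nat_lit 5) (nat_lit 440) (nat_lit 422) (nat_lit 278)) (XT.lf (nat_lit 76) (nat_lit 2937267126) (nat_lit 0) (nat_lit 1242093650) (nat_lit 1824) (nat_lit 7496754597) (nat_lit 531) (nat_lit 5) (nat_lit 530) (nat_lit 5) (nat_lit 554) (nat_lit 5) (nat_lit 441) (nat_lit 422) (nat_lit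 277))) (XT.nd (nat_lit 78) (nat_lit 0) (nat_lit 0) (XT.lf (nat_lit 0) (nat_lit 5469258971) (nat_lit 1748) (nat_lit 2433018677) (nat_lit 1824) (nat_lit 3887502381) (nat_lit 531) (nat_lit 5) (nat_lit 554) (nat_lit 5) (nat_lit 555) (nat_lit 5) (nat_lit 442) (nat_lit 422) (nat_lit 276)) (XT.nd (nat_lit 78) (nat_lit 0) (nat_lit 76) (XT.lf (nat_lit 76) (nat_lit 4032702093) (nat_lit 0) (nat_lit 2772891300) (nat_lit 1824) (nat_lit 5099711819) (nat_lit 532) (nat_lit 5) (nat_lit 531) (nat_lit 5) (nat_lit 555) (nat_lit 5) (nat_lit 443) (nat_lit 422) (nat_lit 275)) (XT.lf (nat_lit 0) (nat_lit 8187502616) (nat_lit 1748) (nat_lit 1389277864) (nat_lit 1824) (nat_lit 2445983458) (nat_lit 532) (nat_lit 5) (nat_lit 555) (nat_lit 5) (nat_lit 556) (nat_lit 5) (nat_lit 444) (nat_lit 422) (nat_lit 274))))) (XT.nd (nat_lit 156) (nat_lit 3572) (nat_lit 0) (XT.nd (nat_lit 78) (nat_lit 0) (nat_lit 76) (XT.lf (nat_lit 76) (nat_lit 5263492948) (nat_lit 0) (nat_lit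 4372807574) (nat_lit 1824) (nat_lit 2505486305) (nat_lit 533) (nat_lit 5) (nat_lit 532) (nat_lit 5) (nat_lit 556) (nat_lit 5) (nat_lit 445) (nat_lit 422) (nat_lit 273)) (XT.lf (nat_lit 0) (nat_lit 11116449134) (nat_lit 1748) (nat_lit 212080669) (nat_lit 76) (nat_lit 934612877) (nat_lit 533) (nat_lit 5) (nat_lit 556) (nat_lit 5) (nat_lit 534) (nat_lit 5) (nat_lit 446) (nat_lit 422) (nat_lit 272))) (XT.nd (nat_lit 78) (nat_lit 1824) (nat_lit 0) (XT.lf (nat_lit 0) (nat_lit 295738997) (nat_lit 1824) (nat_lit 5753051497) (nat_lit 76) (nat_lit 6336912043) (nat_lit 509) (nat_lit 5) (nat_lit 533) (nat_lit 5) (nat_lit 510) (nat_lit 5) (nat_lit 447) (nat_lit 422) (nat_lit 271)) (XT.nd (nat_lit 78) (nat_lit 0) (nat_lit 0) (XT.lf (nat_lit 0) (nat_lit 1102346879) (nat_lit 1824) (nat_lit 645195295) (nat_lit 1900) (nat_lit 10763102301) (nat_lit 485) (nat_lit 5) (nat_lit 509) (nat_lit 5) (nat_lit 510) (nat_lit 5) (nat_lit 448) (nat_lit 422) (nat_lit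 270)) (XT.lf (nat_lit 0) (nat_lit 3286301020) (nat_lit 1900) (nat_lit 4507491529) (nat_lit 76) (nat_lit 4843134310) (nat_lit 485) (nat_lit 5) (nat_lit 510) (nat_lit 5) (nat_lit 486) (nat_lit 5) (nat_lit 449) (nat_lit 422) (nat_lit 269))))))) (XT.nd (nat_lit 780) (nat_lit 4712) (nat_lit 0) (XT.nd (nat_lit 390) (nat_lit 2660) (nat_lit 0) (XT.nd (nat_lit 156) (nat_lit 1824) (nat_lit 0) (XT.nd (nat_lit 78) (nat_lit 0) (nat_lit 0) (XT.lf (nat_lit 0) (nat_lit 2549550837) (nat_lit 1140) (nat_lit 2314817817) (nat_lit 1216) (nat_lit 7901195565) (nat_lit 470) (nat_lit 5) (nat_lit 485) (nat_lit 5) (nat_lit 486) (nat_lit 5) (nat_lit 450) (nat_lit 422) (nat_lit 268)) (XT.lf (nat_lit 0) (nat_lit 6513586835) (nat_lit 1216) (nat_lit 3119914041) (nat_lit 76) (nat_lit 3262481666) (nat_lit 470) (nat_lit 5) (nat_lit 486) (nat_lit 5) (nat_lit 471) (nat_lit 5) (nat_lit 451) (nat_lit 422) (nat_lit 267))) (XT.nd (nat_lit 78) (nat_lit 912) (nat_lit 0) (XT.lf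 (nat_lit 0) (nat_lit 4146250928) (nat_lit 912) (nat_lit 4079912081) (nat_lit 988) (nat_lit 4802238750) (nat_lit 458) (nat_lit 5) (nat_lit 470) (nat_lit 5) (nat_lit 471) (nat_lit 5) (nat_lit 452) (nat_lit 422) (nat_lit 266)) (XT.nd (nat_lit 78) (nat_lit 912) (nat_lit 0) (XT.lf (nat_lit 0) (nat_lit 9992646612) (nat_lit 988) (nat_lit 1584521586) (nat_lit 76) (nat_lit 1585908044) (nat_lit 458) (nat_lit 5) (nat_lit 471) (nat_lit 5) (nat_lit 459) (nat_lit 5) (nat_lit 453) (nat_lit 422) (nat_lit 265)) (XT.lf (nat_lit 0) (nat_lit 5898545049) (nat_lit 912) (nat_lit 5949752713) (nat_lit 988) (nat_lit 1451069696) (nat_lit 446) (nat_lit 5) (nat_lit 458) (nat_lit 5) (nat_lit 459) (nat_lit 5) (nat_lit 454) (nat_lit 422) (nat_lit 264))))) (XT.nd (nat_lit 156) (nat_lit 1748) (nat_lit 0) (XT.nd (nat_lit 78) (nat_lit 0) (nat_lit 0) (XT.lf (nat_lit 0) (nat_lit 102958053) (nat_lit 836) (nat_lit 195722958) (nat_lit 912) (nat_lit 13139664718) (nat_lit 434)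 (nat_lit 5) (nat_lit 445) (nat_lit 5) (nat_lit 446) (nat_lit 5) (nat_lit 455) (nat_lit 422) (nat_lit 263)) (XT.lf (nat_lit 0) (nat_lit 2139599598) (nat_lit 912) (nat_lit 5779841983) (nat_lit 76) (nat_lit 5658958099) (nat_lit 434) (nat_lit 5) (nat_lit 446) (nat_lit 5) (nat_lit 435) (nat_lit 5) (nat_lit 456) (nat_lit 422) (nat_lit 262))) (XT.nd (nat_lit 78) (nat_lit 836) (nat_lit 0) (XT.lf (nat_lit 0) (nat_lit 1940088660) (nat_lit 912) (nat_lit 2080117689) (nat_lit 988) (nat_lit 9700990966) (nat_lit 422) (nat_lit 5) (nat_lit 434) (nat_lit 5) (nat_lit 435) (nat_lit 5) (nat_lit 457) (nat_lit 422) (nat_lit 261)) (XT.nd (nat_lit 78) (nat_lit 836) (nat_lit 0) (XT.lf (nat_lit 0) (nat_lit 5991757140) (nat_lit 988) (nat_lit 4009753233) (nat_lit 76) (nat_lit 3864273892) (nat_lit 422) (nat_lit 5) (nat_lit 435) (nat_lit 5) (nat_lit 423) (nat_lit 5) (nat_lit 458) (nat_lit 422) (nat_lit 260)) (XT.lf (nat_lit 0) (nat_lit 3944177508) (nat_lit 836) (nat_lit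 4087282273) (nat_lit 912) (nat_lit 5981228755) (nat_lit 411) (nat_lit 5) (nat_lit 422) (nat_lit 5) (nat_lit 423) (nat_lit 5) (nat_lit 459) (nat_lit 422) (nat_lit 259)))))) (XT.nd (nat_lit 390) (nat_lit 2280) (nat_lit 0) (XT.nd (nat_lit 156) (nat_lit 1596) (nat_lit 0) (XT.nd (nat_lit 78) (nat_lit 836) (nat_lit 0) (XT.lf (nat_lit 0) (nat_lit 10141146982) (nat_lit 912) (nat_lit 2074203334) (nat_lit 76) (nat_lit 1946596766) (nat_lit 411) (nat_lit 5) (nat_lit 423) (nat_lit 5) (nat_lit 412) (nat_lit 5) (nat_lit 460) (nat_lit 422) (nat_lit 258)) (XT.lf (nat_lit 0) (nat_lit 6122491767) (nat_lit 836) (nat_lit 6227036934) (nat_lit 912) (nat_lit 1963532084) (nat_lit 400) (nat_lit 5) (nat_lit 411) (nat_lit 5) (nat_lit 412) (nat_lit 5) (nat_lit 461) (nat_lit 422) (nat_lit 257))) (XT.nd (nat_lit 78) (nat_lit 760) (nat_lit 0) (XT.lf (nat_lit 0) (nat_lit 32989600) (nat_lit 760) (nat_lit 104095142) (nat_lit 836) (nat_lit 14330015055) (nat_lit 389) (nat_lit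 5) (nat_lit 399) (nat_lit 5) (nat_lit 400) (nat_lit 5) (nat_lit 462) (nat_lit 422) (nat_lit 256)) (XT.nd (nat_lit 78) (nat_lit 760) (nat_lit 0) (XT.lf (nat_lit 0) (nat_lit 2338521830) (nat_lit 836) (nat_lit 6155237986) (nat_lit 76) (nat_lit 6128498203) (nat_lit 389) (nat_lit 5) (nat_lit 400) (nat_lit 5) (nat_lit 390) (nat_lit 5) (nat_lit 463) (nat_lit 422) (nat_lit 255)) (XT.lf (nat_lit 0) (nat_lit 2308085985) (nat_lit 760) (nat_lit 2281649798) (nat_lit 836) (nat_lit 10190668659) (nat_lit 379) (nat_lit 5) (nat_lit 389) (nat_lit 5) (nat_lit 390) (nat_lit 5) (nat_lit 464) (nat_lit 422) (nat_lit 254))))) (XT.nd (nat_lit 234) (nat_lit 1520) (nat_lit 0) (XT.nd (nat_lit 78) (nat_lit 760) (nat_lit 0) (XT.lf (nat_lit 0) (nat_lit 6944071549) (nat_lit 836) (nat_lit 3954202182) (nat_lit 76) (nat_lit 4042278113) (nat_lit 379) (nat_lit 5) (nat_lit 390) (nat_lit 5) (nat_lit 380) (nat_lit 5) (nat_lit 465) (nat_lit 422) (nat_lit 253)) (XT.nd (nat_lit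 78) (nat_lit 0) (nat_lit 0) (XT.lf (nat_lit 0) (nat_lit 4771125189) (nat_lit 760) (nat_lit 4610841987) (nat_lit 836) (nat_lit 5721205554) (nat_lit 369) (nat_lit 5) (nat_lit 379) (nat_lit 5) (nat_lit 380) (nat_lit 5) (nat_lit 466) (nat_lit 422) (nat_lit 252)) (XT.lf (nat_lit 0) (nat_lit 11897532001) (nat_lit 836) (nat_lit 1566562040) (nat_lit 76) (nat_lit 1804373767) (nat_lit 369) (nat_lit 5) (nat_lit 380) (nat_lit 5) (nat_lit 370) (nat_lit 5) (nat_lit 467) (nat_lit 422) (nat_lit 251)))) (XT.nd (nat_lit 78) (nat_lit 760) (nat_lit 0) (XT.lf (nat_lit 0) (nat_lit 7430633894) (nat_lit 760) (nat_lit 7102239309) (nat_lit 836) (nat_lit 902806284) (nat_lit 359) (nat_lit 5) (nat_lit 369) (nat_lit 5) (nat_lit 370) (nat_lit 5) (nat_lit 468) (nat_lit 422) (nat_lit 250)) (XT.nd (nat_lit 78) (nat_lit 0) (nat_lit 0) (XT.lf (nat_lit 0) (nat_lit 1015172826) (nat_lit 684) (nat_lit 586248335) (nat_lit 760) (nat_lit 14004446321) (nat_lit 349) (nat_lit 5)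 (nat_lit 358) (nat_lit 5) (nat_lit 359) (nat_lit 5) (nat_lit 469) (nat_lit 422) (nat_lit 249)) (XT.lf (nat_lit 0) (nat_lit 4227919226) (nat_lit 760) (nat_lit 5510435785) (nat_lit 76) (nat_lit 6039299382) (nat_lit 349) (nat_lit 5) (nat_lit 359) (nat_lit 5) (nat_lit 350) (nat_lit 5) (nat_lit 470) (nat_lit 422) (nat_lit 248))))))))
noncomputable def xc207 : XT := (XT.nd (nat_lit 1638) (nat_lit 1520) (nat_lit 0) (XT.nd (nat_lit 780) (nat_lit 4028) (nat_lit 0) (XT.nd (nat_lit 390) (nat_lit 1900) (nat_lit 0) (XT.nd (nat_lit 156) (nat_lit 1444) (nat_lit 0) (XT.nd (nat_lit 78) (nat_lit 0) (nat_lit 0) (XT.lf (nat_lit 0) (nat_lit 3786742496) (nat_lit 684) (nat_lit 3139696359) (nat_lit 760) (nat_lit 9026048356) (nat_lit 340) (nat_lit 5) (nat_lit 349) (nat_lit 5) (nat_lit 350) (nat_lit 5) (nat_lit 471) (nat_lit 422) (nat_lit 247)) (XT.lf (nat_lit 0) (nat_lit 9730588114) (nat_lit 760) (nat_lit 2819642707) (nat_lit 76) (nat_lit 3579552678) (nat_lit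 340) (nat_lit 5) (nat_lit 350) (nat_lit 5) (nat_lit 341) (nat_lit 5) (nat_lit 472) (nat_lit 422) (nat_lit 246))) (XT.nd (nat_lit 78) (nat_lit 760) (nat_lit 0) (XT.lf (nat_lit 0) (nat_lit 6771033433) (nat_lit 684) (nat_lit 5875837433) (nat_lit 760) (nat_lit 3662633839) (nat_lit 331) (nat_lit 5) (nat_lit 340) (nat_lit 5) (nat_lit 341) (nat_lit 5) (nat_lit 473) (nat_lit 422) (nat_lit 245)) (XT.nd (nat_lit 78) (nat_lit 76) (nat_lit 0) (XT.lf (nat_lit 0) (nat_lit 83772702) (nat_lit 684) (nat_lit 15554737180) (nat_lit 760) (nat_lit 853969839) (nat_lit 322) (nat_lit 5) (nat_lit 331) (nat_lit 5) (nat_lit 332) (nat_lit 5) (nat_lit 474) (nat_lit 422) (nat_lit 244)) (XT.lf (nat_lit 0) (nat_lit 2079273184) (nat_lit 760) (nat_lit 6712965146) (nat_lit 76) (nat_lit 7884719218) (nat_lit 321) (nat_lit 5) (nat_lit 331) (nat_lit 5) (nat_lit 322) (nat_lit 5) (nat_lit 475) (nat_lit 422) (nat_lit 243))))) (XT.nd (nat_lit 156) (nat_lit 1292) (nat_lit 0) (XT.nd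 (nat_lit 78) (nat_lit 0) (nat_lit 0) (XT.lf (nat_lit 0) (nat_lit 3202750085) (nat_lit 608) (nat_lit 1869403103) (nat_lit 684) (nat_lit 11792610712) (nat_lit 313) (nat_lit 5) (nat_lit 321) (nat_lit 5) (nat_lit 322) (nat_lit 5) (nat_lit 476) (nat_lit 422) (nat_lit 242)) (XT.lf (nat_lit 0) (nat_lit 8195633359) (nat_lit 684) (nat_lit 3692033817) (nat_lit 76) (nat_lit 5167244353) (nat_lit 313) (nat_lit 5) (nat_lit 322) (nat_lit 5) (nat_lit 314) (nat_lit 5) (nat_lit 477) (nat_lit 422) (nat_lit 241))) (XT.nd (nat_lit 78) (nat_lit 684) (nat_lit 0) (XT.lf (nat_lit 0) (nat_lit 6540573380) (nat_lit 608) (nat_lit 4887706158) (nat_lit 684) (nat_lit 5819648644) (nat_lit 305) (nat_lit 5) (nat_lit 313) (nat_lit 5) (nat_lit 314) (nat_lit 5) (nat_lit 478) (nat_lit 422) (nat_lit 240)) (XT.nd (nat_lit 78) (nat_lit 684) (nat_lit 0) (XT.lf (nat_lit 0) (nat_lit 14757072710) (nat_lit 684) (nat_lit 441471557) (nat_lit 76) (nat_lit 2245631019) (nat_lit 305) (nat_lit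 5) (nat_lit 314) (nat_lit 5) (nat_lit 306) (nat_lit 5) (nat_lit 479) (nat_lit 422) (nat_lit 239)) (XT.lf (nat_lit 0) (nat_lit 592192246) (nat_lit 684) (nat_lit 7526406397) (nat_lit 76) (nat_lit 9523867480) (nat_lit 296) (nat_lit 5) (nat_lit 305) (nat_lit 5) (nat_lit 297) (nat_lit 5) (nat_lit 480) (nat_lit 422) (nat_lit 238)))))) (XT.nd (nat_lit 390) (nat_lit 2280) (nat_lit 0) (XT.nd (nat_lit 156) (nat_lit 1140) (nat_lit 0) (XT.nd (nat_lit 78) (nat_lit 0) (nat_lit 0) (XT.lf (nat_lit 0) (nat_lit 3058265750) (nat_lit 608) (nat_lit 857827022) (nat_lit 684) (nat_lit 13927974769) (nat_lit 288) (nat_lit 5) (nat_lit 296) (nat_lit 5) (nat_lit 297) (nat_lit 5) (nat_lit 481) (nat_lit 422) (nat_lit 237)) (XT.lf (nat_lit 0) (nat_lit 7392029697) (nat_lit 684) (nat_lit 4145052611) (nat_lit 76) (nat_lit 6510907510) (nat_lit 288) (nat_lit 5) (nat_lit 297) (nat_lit 5) (nat_lit 289) (nat_lit 5) (nat_lit 482) (nat_lit 422) (nat_lit 236))) (XT.nd (nat_lit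 78) (nat_lit 608) (nat_lit 0) (XT.lf (nat_lit 0) (nat_lit 6781808519) (nat_lit 532) (nat_lit 4197745467) (nat_lit 608) (nat_lit 7275595182) (nat_lit 281) (nat_lit 5) (nat_lit 288) (nat_lit 5) (nat_lit 289) (nat_lit 5) (nat_lit 483) (nat_lit 422) (nat_lit 235)) (XT.nd (nat_lit 78) (nat_lit 608) (nat_lit 0) (XT.lf (nat_lit 0) (nat_lit 14680604834) (nat_lit 608) (nat_lit 514072879) (nat_lit 76) (nat_lit 3270938471) (nat_lit 281) (nat_lit 5) (nat_lit 289) (nat_lit 5) (nat_lit 282) (nat_lit 5) (nat_lit 484) (nat_lit 422) (nat_lit 234)) (XT.lf (nat_lit 0) (nat_lit 10767964105) (nat_lit 608) (nat_lit 7777999555) (nat_lit 684) (nat_lit 132523141) (nat_lit 273) (nat_lit 5) (nat_lit 281) (nat_lit 5) (nat_lit 282) (nat_lit 5) (nat_lit 485) (nat_lit 422) (nat_lit 233))))) (XT.nd (nat_lit 234) (nat_lit 1140) (nat_lit 0) (XT.nd (nat_lit 78) (nat_lit 532) (nat_lit 0) (XT.lf (nat_lit 0) (nat_lit 3398410281) (nat_lit 532) (nat_lit 165626847) (nat_lit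 608) (nat_lit 15330748232) (nat_lit 265) (nat_lit 5) (nat_lit 272) (nat_lit 5) (nat_lit 273) (nat_lit 5) (nat_lit 486) (nat_lit 422) (nat_lit 232)) (XT.nd (nat_lit 78) (nat_lit 532) (nat_lit 0) (XT.lf (nat_lit 0) (nat_lit 7428201890) (nat_lit 608) (nat_lit 4134102787) (nat_lit 76) (nat_lit 7551178736) (nat_lit 265) (nat_lit 5) (nat_lit 273) (nat_lit 5) (nat_lit 266) (nat_lit 5) (nat_lit 487) (nat_lit 422) (nat_lit 231)) (XT.lf (nat_lit 0) (nat_lit 7543508614) (nat_lit 532) (nat_lit 3869032414) (nat_lit 608) (nat_lit 7923156580) (nat_lit 258) (nat_lit 5) (nat_lit 265) (nat_lit 5) (nat_lit 266) (nat_lit 5) (nat_lit 488) (nat_lit 422) (nat_lit 230)))) (XT.nd (nat_lit 78) (nat_lit 1140) (nat_lit 0) (XT.lf (nat_lit 0) (nat_lit 15523199213) (nat_lit 608) (nat_lit 86907595) (nat_lit 76) (nat_lit 3951316632) (nat_lit 258) (nat_lit 5) (nat_lit 266) (nat_lit 5) (nat_lit 259) (nat_lit 5) (nat_lit 489) (nat_lit 422) (nat_lit 229)) (XT.nd (nat_lit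 78) (nat_lit 532) (nat_lit 0) (XT.lf (nat_lit 0) (nat_lit 22421944) (nat_lit 608) (nat_lit 7815594909) (nat_lit 76) (nat_lit 11951716277) (nat_lit 250) (nat_lit 5) (nat_lit 258) (nat_lit 5) (nat_lit 251) (nat_lit 5) (nat_lit 490) (nat_lit 422) (nat_lit 228)) (XT.lf (nat_lit 0) (nat_lit 4132576116) (nat_lit 608) (nat_lit 15747915530) (nat_lit 76) (nat_lit 141136176) (nat_lit 243) (nat_lit 5) (nat_lit 251) (nat_lit 5) (nat_lit 244) (nat_lit 5) (nat_lit 491) (nat_lit 422) (nat_lit 227))))))) (XT.nd (nat_lit 54288) (nat_lit 0) (nat_lit 24624) (XT.nd (nat_lit 390) (nat_lit 0) (nat_lit 0) (XT.nd (nat_lit 156) (nat_lit 1064) (nat_lit 0) (XT.nd (nat_lit 78) (nat_lit 456) (nat_lit 0) (XT.lf (nat_lit 0) (nat_lit 8422738314) (nat_lit 608) (nat_lit 3608316859) (nat_lit 76) (nat_lit 8225149136) (nat_lit 243) (nat_lit 5) (nat_lit 251) (nat_lit 5) (nat_lit 244) (nat_lit 5) (nat_lit 492) (nat_lit 422) (nat_lit 226)) (XT.lf (nat_lit 0) (nat_lit 8881041672)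 (nat_lit 456) (nat_lit 3968562385) (nat_lit 532) (nat_lit 7644850263) (nat_lit 237) (nat_lit 5) (nat_lit 243) (nat_lit 5) (nat_lit 244) (nat_lit 5) (nat_lit 493) (nat_lit 422) (nat_lit 225))) (XT.nd (nat_lit 78) (nat_lit 532) (nat_lit 0) (XT.lf (nat_lit 0) (nat_lit 906655215) (nat_lit 532) (nat_lit 16509532061) (nat_lit 608) (nat_lit 3320258453) (nat_lit 230) (nat_lit 5) (nat_lit 237) (nat_lit 5) (nat_lit 238) (nat_lit 5) (nat_lit 494) (nat_lit 422) (nat_lit 224)) (XT.nd (nat_lit 78) (nat_lit 456) (nat_lit 0) (XT.lf (nat_lit 0) (nat_lit 1174566844) (nat_lit 608) (nat_lit 7190639177) (nat_lit 76) (nat_lit 12615968336) (nat_lit 229) (nat_lit 5) (nat_lit 237) (nat_lit 5) (nat_lit 230) (nat_lit 5) (nat_lit 495) (nat_lit 422) (nat_lit 223)) (XT.lf (nat_lit 0) (nat_lit 5745256977) (nat_lit 456) (nat_lit 365942) (nat_lit 532) (nat_lit 15484119851) (nat_lit 223) (nat_lit 5) (nat_lit 229) (nat_lit 5) (nat_lit 230) (nat_lit 5) (nat_lit 496) (nat_lit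 422) (nat_lit 222))))) (XT.nd (nat_lit 53664) (nat_lit 0) (nat_lit 24548) (XT.nd (nat_lit 53586) (nat_lit 0) (nat_lit 26220) (XT.lf (nat_lit 0) (nat_lit 10505564805) (nat_lit 532) (nat_lit 2510138011) (nat_lit 76) (nat_lit 8465630441) (nat_lit 223) (nat_lit 5) (nat_lit 230) (nat_lit 5) (nat_lit 224) (nat_lit 5) (nat_lit 497) (nat_lit 422) (nat_lit 221)) (XT.lf (nat_lit 0) (nat_lit 2038573239) (nat_lit 0) (nat_lit 2038573239) (nat_lit 1596) (nat_lit 920858668) (nat_lit 568) (nat_lit 5) (nat_lit 568) (nat_lit 3) (nat_lit 589) (nat_lit 3) (nat_lit 423) (nat_lit 423) (nat_lit 294))) (XT.nd (nat_lit 78) (nat_lit 1672) (nat_lit 0) (XT.lf (nat_lit 0) (nat_lit 8947722726) (nat_lit 1596) (nat_lit 917577513) (nat_lit 1672) (nat_lit 216432420) (nat_lit 568) (nat_lit 5) (nat_lit 589) (nat_lit 3) (nat_lit 590) (nat_lit 5) (nat_lit 424) (nat_lit 423) (nat_lit 293)) (XT.nd (nat_lit 78) (nat_lit 1672) (nat_lit 0) (XT.lf (nat_lit 76) (nat_lit 4202093698)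 (nat_lit 0) (nat_lit 5590635941) (nat_lit 1672) (nat_lit 375725662) (nat_lit 569) (nat_lit 5) (nat_lit 568) (nat_lit 5) (nat_lit 590) (nat_lit 5) (nat_lit 425) (nat_lit 423) (nat_lit 292)) (XT.lf (nat_lit 0) (nat_lit 380311379) (nat_lit 1672) (nat_lit 832747345) (nat_lit 1748) (nat_lit 9044045960) (nat_lit 546) (nat_lit 5) (nat_lit 568) (nat_lit 5) (nat_lit 569) (nat_lit 5) (nat_lit 426) (nat_lit 423) (nat_lit 291)))))) (XT.nd (nat_lit 390) (nat_lit 0) (nat_lit 152) (XT.nd (nat_lit 156) (nat_lit 0) (nat_lit 76) (XT.nd (nat_lit 78) (nat_lit 0) (nat_lit 0) (XT.lf (nat_lit 0) (nat_lit 1178675188) (nat_lit 1672) (nat_lit 5918963875) (nat_lit 1748) (nat_lit 3249193582) (nat_lit 547) (nat_lit 5) (nat_lit 569) (nat_lit 5) (nat_lit 570) (nat_lit 5) (nat_lit 427) (nat_lit 423) (nat_lit 290)) (XT.lf (nat_lit 0) (nat_lit 1988973957) (nat_lit 1672) (nat_lit 651408439) (nat_lit 1748) (nat_lit 7798053414) (nat_lit 547) (nat_lit 5) (nat_lit 569) (nat_lit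 5) (nat_lit 570) (nat_lit 5) (nat_lit 428) (nat_lit 423) (nat_lit 289))) (XT.nd (nat_lit 78) (nat_lit 0) (nat_lit 0) (XT.lf (nat_lit 0) (nat_lit 2841760931) (nat_lit 1672) (nat_lit 5769996047) (nat_lit 1748) (nat_lit 1919588417) (nat_lit 548) (nat_lit 5) (nat_lit 570) (nat_lit 5) (nat_lit 571) (nat_lit 5) (nat_lit 429) (nat_lit 423) (nat_lit 288)) (XT.nd (nat_lit 78) (nat_lit 0) (nat_lit 76) (XT.lf (nat_lit 0) (nat_lit 3716469164) (nat_lit 1672) (nat_lit 362553985) (nat_lit 1748) (nat_lit 6546992711) (nat_lit 548) (nat_lit 5) (nat_lit 570) (nat_lit 5) (nat_lit 571) (nat_lit 5) (nat_lit 430) (nat_lit 423) (nat_lit 287)) (XT.lf (nat_lit 0) (nat_lit 4629622174) (nat_lit 1672) (nat_lit 5514659012) (nat_lit 1748) (nat_lit 577879537) (nat_lit 549) (nat_lit 5) (nat_lit 571) (nat_lit 5) (nat_lit 572) (nat_lit 5) (nat_lit 431) (nat_lit 423) (nat_lit 286))))) (XT.nd (nat_lit 234) (nat_lit 0) (nat_lit 76) (XT.nd (nat_lit 78) (nat_lit 0) (nat_lit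 0) (XT.lf (nat_lit 76) (nat_lit 36836547) (nat_lit 0) (nat_lit 5537521106) (nat_lit 1748) (nat_lit 5245604442) (nat_lit 550) (nat_lit 5) (nat_lit 549) (nat_lit 5) (nat_lit 572) (nat_lit 5) (nat_lit 432) (nat_lit 423) (nat_lit 285)) (XT.nd (nat_lit 78) (nat_lit 0) (nat_lit 76) (XT.lf (nat_lit 76) (nat_lit 5763872232) (nat_lit 0) (nat_lit 794994397) (nat_lit 1748) (nat_lit 4360435290) (nat_lit 550) (nat_lit 5) (nat_lit 549) (nat_lit 5) (nat_lit 572) (nat_lit 5) (nat_lit 433) (nat_lit 423) (nat_lit 284)) (XT.lf (nat_lit 76) (nat_lit 555463974) (nat_lit 0) (nat_lit 7021680289) (nat_lit 1748) (nat_lit 3443202707) (nat_lit 551) (nat_lit 5) (nat_lit 550) (nat_lit 5) (nat_lit 573) (nat_lit 5) (nat_lit 434) (nat_lit 423) (nat_lit 283)))) (XT.nd (nat_lit 78) (nat_lit 0) (nat_lit 76) (XT.lf (nat_lit 76) (nat_lit 6434796980) (nat_lit 0) (nat_lit 2205284790) (nat_lit 1748) (nat_lit 2482845265) (nat_lit 551) (nat_lit 5) (nat_lit 550) (nat_lit 5) (nat_lit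 573) (nat_lit 5) (nat_lit 435) (nat_lit 423) (nat_lit 282)) (XT.nd (nat_lit 78) (nat_lit 0) (nat_lit 0) (XT.lf (nat_lit 76) (nat_lit 1191747352) (nat_lit 0) (nat_lit 8542652895) (nat_lit 1748) (nat_lit 1492956009) (nat_lit 552) (nat_lit 5) (nat_lit 551) (nat_lit 5) (nat_lit 574) (nat_lit 5) (nat_lit 436) (nat_lit 423) (nat_lit 281)) (XT.lf (nat_lit 76) (nat_lit 7227579266) (nat_lit 0) (nat_lit 3654030658) (nat_lit 1748) (nat_lit 451644043) (nat_lit 552) (nat_lit 5) (nat_lit 551) (nat_lit 5) (nat_lit 574) (nat_lit 5) (nat_lit 437) (nat_lit 423) (nat_lit 280))))))))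
noncomputable def xc208 : XT := (XT.nd (nat_lit 1560) (nat_lit 9196) (nat_lit 0) (XT.nd (nat_lit 780) (nat_lit 5776) (nat_lit 0) (XT.nd (nat_lit 390) (nat_lit 1444) (nat_lit 0) (XT.nd (nat_lit 156) (nat_lit 0) (nat_lit 0) (XT.nd (nat_lit 78) (nat_lit 0) (nat_lit 0) (XT.lf (nat_lit 0) (nat_lit 609197097) (nat_lit 1748) (nat_lit 9495883657) (nat_lit 1824) (nat_lit 1335975409) (nat_lit 529) (nat_lit 5) (nat_lit 552) (nat_lit 5) (nat_lit 553) (nat_lit 5) (nat_lit 438) (nat_lit 423) (nat_lit 279)) (XT.lf (nat_lit 0) (nat_lit 1722628592) (nat_lit 1748) (nat_lit 3415781303) (nat_lit 1824) (nat_lit 6411796379) (nat_lit 529) (nat_lit 5) (nat_lit 552) (nat_lit 5) (nat_lit 553) (nat_lit 5) (nat_lit 439) (nat_lit 423) (nat_lit 278))) (XT.nd (nat_lit 78) (nat_lit 0) (nat_lit 76) (XT.lf (nat_lit 76) (nat_lit 2812380794) (nat_lit 0) (nat_lit 49975231) (nat_lit 1824) (nat_lit 8799102816) (nat_lit 530) (nat_lit 5) (nat_lit 529) (nat_lit 5) (nat_lit 553)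 (nat_lit 5) (nat_lit 440) (nat_lit 423) (nat_lit 277)) (XT.nd (nat_lit 78) (nat_lit 0) (nat_lit 0) (XT.lf (nat_lit 0) (nat_lit 4067328328) (nat_lit 1748) (nat_lit 2607258423) (nat_lit 1824) (nat_lit 5099500703) (nat_lit 530) (nat_lit 5) (nat_lit 553) (nat_lit 5) (nat_lit 554) (nat_lit 5) (nat_lit 441) (nat_lit 423) (nat_lit 276)) (XT.lf (nat_lit 76) (nat_lit 3798430024) (nat_lit 0) (nat_lit 1509240450) (nat_lit 1824) (nat_lit 6581072757) (nat_lit 531) (nat_lit 5) (nat_lit 530) (nat_lit 5) (nat_lit 554) (nat_lit 5) (nat_lit 442) (nat_lit 423) (nat_lit 275))))) (XT.nd (nat_lit 156) (nat_lit 1596) (nat_lit 0) (XT.nd (nat_lit 78) (nat_lit 0) (nat_lit 0) (XT.lf (nat_lit 0) (nat_lit 6601339521) (nat_lit 1748) (nat_lit 1672968061) (nat_lit 1824) (nat_lit 3730814140) (nat_lit 531) (nat_lit 5) (nat_lit 554) (nat_lit 5) (nat_lit 555) (nat_lit 5) (nat_lit 443) (nat_lit 423) (nat_lit 274)) (XT.lf (nat_lit 76) (nat_lit 4916746658) (nat_lit 0) (nat_lit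 3032817268) (nat_lit 1824) (nat_lit 4173690217) (nat_lit 532) (nat_lit 5) (nat_lit 531) (nat_lit 5) (nat_lit 555) (nat_lit 5) (nat_lit 444) (nat_lit 423) (nat_lit 273))) (XT.nd (nat_lit 78) (nat_lit 1672) (nat_lit 0) (XT.lf (nat_lit 0) (nat_lit 9338047886) (nat_lit 1748) (nat_lit 608362207) (nat_lit 1824) (nat_lit 2297073219) (nat_lit 532) (nat_lit 5) (nat_lit 555) (nat_lit 5) (nat_lit 556) (nat_lit 5) (nat_lit 445) (nat_lit 423) (nat_lit 272)) (XT.nd (nat_lit 78) (nat_lit 1672) (nat_lit 0) (XT.lf (nat_lit 76) (nat_lit 6172143618) (nat_lit 0) (nat_lit 4629545287) (nat_lit 1824) (nat_lit 1563480411) (nat_lit 533) (nat_lit 5) (nat_lit 532) (nat_lit 5) (nat_lit 556) (nat_lit 5) (nat_lit 446) (nat_lit 423) (nat_lit 271)) (XT.lf (nat_lit 0) (nat_lit 599315442) (nat_lit 1748) (nat_lit 11695866851) (nat_lit 1824) (nat_lit 194095156) (nat_lit 510) (nat_lit 5) (nat_lit 533) (nat_lit 5) (nat_lit 534) (nat_lit 5) (nat_lit 447) (nat_lit 423) (nat_lit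 270)))))) (XT.nd (nat_lit 390) (nat_lit 2736) (nat_lit 0) (XT.nd (nat_lit 156) (nat_lit 1140) (nat_lit 0) (XT.nd (nat_lit 78) (nat_lit 1824) (nat_lit 0) (XT.lf (nat_lit 0) (nat_lit 1246919049) (nat_lit 1824) (nat_lit 5053087180) (nat_lit 76) (nat_lit 6314505053) (nat_lit 509) (nat_lit 5) (nat_lit 533) (nat_lit 5) (nat_lit 510) (nat_lit 5) (nat_lit 448) (nat_lit 423) (nat_lit 269)) (XT.lf (nat_lit 0) (nat_lit 1934057155) (nat_lit 1824) (nat_lit 780423393) (nat_lit 1900) (nat_lit 10027737065) (nat_lit 485) (nat_lit 5) (nat_lit 509) (nat_lit 5) (nat_lit 510) (nat_lit 5) (nat_lit 449) (nat_lit 423) (nat_lit 268))) (XT.nd (nat_lit 78) (nat_lit 1140) (nat_lit 0) (XT.lf (nat_lit 0) (nat_lit 4264961669) (nat_lit 1900) (nat_lit 3784800871) (nat_lit 76) (nat_lit 4821644164) (nat_lit 485) (nat_lit 5) (nat_lit 510) (nat_lit 5) (nat_lit 486) (nat_lit 5) (nat_lit 450) (nat_lit 423) (nat_lit 267)) (XT.nd (nat_lit 78) (nat_lit 0) (nat_lit 0) (XT.lf (nat_lit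 0) (nat_lit 3408034708) (nat_lit 1140) (nat_lit 2453898047) (nat_lit 1216) (nat_lit 7140937213) (nat_lit 470) (nat_lit 5) (nat_lit 485) (nat_lit 5) (nat_lit 486) (nat_lit 5) (nat_lit 451) (nat_lit 423) (nat_lit 266)) (XT.lf (nat_lit 0) (nat_lit 7525892213) (nat_lit 1216) (nat_lit 2372409574) (nat_lit 76) (nat_lit 3237959733) (nat_lit 470) (nat_lit 5) (nat_lit 486) (nat_lit 5) (nat_lit 471) (nat_lit 5) (nat_lit 452) (nat_lit 423) (nat_lit 265))))) (XT.nd (nat_lit 156) (nat_lit 1824) (nat_lit 0) (XT.nd (nat_lit 78) (nat_lit 0) (nat_lit 0) (XT.lf (nat_lit 0) (nat_lit 5033750387) (nat_lit 912) (nat_lit 4226898577) (nat_lit 988) (nat_lit 4010921576) (nat_lit 458) (nat_lit 5) (nat_lit 470) (nat_lit 5) (nat_lit 471) (nat_lit 5) (nat_lit 453) (nat_lit 423) (nat_lit 264)) (XT.lf (nat_lit 0) (nat_lit 11044987927) (nat_lit 988) (nat_lit 809939235) (nat_lit 76) (nat_lit 1554360837) (nat_lit 458) (nat_lit 5) (nat_lit 471) (nat_lit 5) (nat_lit 459)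 (nat_lit 5) (nat_lit 454) (nat_lit 423) (nat_lit 263))) (XT.nd (nat_lit 78) (nat_lit 912) (nat_lit 0) (XT.lf (nat_lit 0) (nat_lit 6817484306) (nat_lit 912) (nat_lit 6108752753) (nat_lit 988) (nat_lit 622298281) (nat_lit 446) (nat_lit 5) (nat_lit 458) (nat_lit 5) (nat_lit 459) (nat_lit 5) (nat_lit 455) (nat_lit 423) (nat_lit 262)) (XT.nd (nat_lit 78) (nat_lit 0) (nat_lit 0) (XT.lf (nat_lit 0) (nat_lit 911892135) (nat_lit 836) (nat_lit 227945089) (nat_lit 912) (nat_lit 12550571767) (nat_lit 434) (nat_lit 5) (nat_lit 445) (nat_lit 5) (nat_lit 446) (nat_lit 5) (nat_lit 456) (nat_lit 423) (nat_lit 261)) (XT.lf (nat_lit 0) (nat_lit 3001017865) (nat_lit 912) (nat_lit 5087828661) (nat_lit 76) (nat_lit 5744748622) (nat_lit 434) (nat_lit 5) (nat_lit 446) (nat_lit 5) (nat_lit 435) (nat_lit 5) (nat_lit 457) (nat_lit 423) (nat_lit 260))))))) (XT.nd (nat_lit 780) (nat_lit 4256) (nat_lit 0) (XT.nd (nat_lit 390) (nat_lit 2356) (nat_lit 0) (XT.nd (nat_lit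 156) (nat_lit 1672) (nat_lit 0) (XT.nd (nat_lit 78) (nat_lit 0) (nat_lit 0) (XT.lf (nat_lit 0) (nat_lit 2781187370) (nat_lit 912) (nat_lit 2127206930) (nat_lit 988) (nat_lit 9071071285) (nat_lit 422) (nat_lit 5) (nat_lit 434) (nat_lit 5) (nat_lit 435) (nat_lit 5) (nat_lit 458) (nat_lit 423) (nat_lit 259)) (XT.lf (nat_lit 0) (nat_lit 6903502282) (nat_lit 988) (nat_lit 3287508848) (nat_lit 76) (nat_lit 3936250619) (nat_lit 422) (nat_lit 5) (nat_lit 435) (nat_lit 5) (nat_lit 423) (nat_lit 5) (nat_lit 459) (nat_lit 423) (nat_lit 258))) (XT.nd (nat_lit 78) (nat_lit 836) (nat_lit 0) (XT.lf (nat_lit 0) (nat_lit 4820221301) (nat_lit 836) (nat_lit 4153425721) (nat_lit 912) (nat_lit 5303664124) (nat_lit 411) (nat_lit 5) (nat_lit 422) (nat_lit 5) (nat_lit 423) (nat_lit 5) (nat_lit 460) (nat_lit 423) (nat_lit 257)) (XT.nd (nat_lit 78) (nat_lit 836) (nat_lit 0) (XT.lf (nat_lit 0) (nat_lit 11110302613) (nat_lit 912) (nat_lit 1318932398) (nat_lit 76)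 (nat_lit 2000624359) (nat_lit 411) (nat_lit 5) (nat_lit 423) (nat_lit 5) (nat_lit 412) (nat_lit 5) (nat_lit 461) (nat_lit 423) (nat_lit 256)) (XT.lf (nat_lit 0) (nat_lit 7036454796) (nat_lit 836) (nat_lit 6316510068) (nat_lit 912) (nat_lit 1231228225) (nat_lit 400) (nat_lit 5) (nat_lit 411) (nat_lit 5) (nat_lit 412) (nat_lit 5) (nat_lit 462) (nat_lit 423) (nat_lit 255))))) (XT.nd (nat_lit 156) (nat_lit 1520) (nat_lit 0) (XT.nd (nat_lit 78) (nat_lit 0) (nat_lit 0) (XT.lf (nat_lit 0) (nat_lit 830008026) (nat_lit 760) (nat_lit 61513568) (nat_lit 836) (nat_lit 13849886296) (nat_lit 389) (nat_lit 5) (nat_lit 399) (nat_lit 5) (nat_lit 400) (nat_lit 5) (nat_lit 463) (nat_lit 423) (nat_lit 254)) (XT.lf (nat_lit 0) (nat_lit 3122532602) (nat_lit 836) (nat_lit 5483144165) (nat_lit 76) (nat_lit 6294281606) (nat_lit 389) (nat_lit 5) (nat_lit 400) (nat_lit 5) (nat_lit 390) (nat_lit 5) (nat_lit 464) (nat_lit 423) (nat_lit 253))) (XT.nd (nat_lit 78)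 (nat_lit 760) (nat_lit 0) (XT.lf (nat_lit 0) (nat_lit 3144214716) (nat_lit 760) (nat_lit 2265229415) (nat_lit 836) (nat_lit 9652010128) (nat_lit 379) (nat_lit 5) (nat_lit 389) (nat_lit 5) (nat_lit 390) (nat_lit 5) (nat_lit 465) (nat_lit 423) (nat_lit 252)) (XT.nd (nat_lit 78) (nat_lit 760) (nat_lit 0) (XT.lf (nat_lit 0) (nat_lit 7796988788) (nat_lit 836) (nat_lit 3244930939) (nat_lit 76) (nat_lit 4183162438) (nat_lit 379) (nat_lit 5) (nat_lit 390) (nat_lit 5) (nat_lit 380) (nat_lit 5) (nat_lit 466) (nat_lit 423) (nat_lit 251)) (XT.lf (nat_lit 0) (nat_lit 5649716432) (nat_lit 760) (nat_lit 4625010045) (nat_lit 836) (nat_lit 5116407309) (nat_lit 369) (nat_lit 5) (nat_lit 379) (nat_lit 5) (nat_lit 380) (nat_lit 5) (nat_lit 467) (nat_lit 423) (nat_lit 250)))))) (XT.nd (nat_lit 390) (nat_lit 2052) (nat_lit 0) (XT.nd (nat_lit 156) (nat_lit 1444) (nat_lit 0) (XT.nd (nat_lit 78) (nat_lit 760) (nat_lit 0) (XT.lf (nat_lit 0) (nat_lit 12827273525)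 (nat_lit 836) (nat_lit 816751719) (nat_lit 76) (nat_lit 1915976103) (nat_lit 369) (nat_lit 5) (nat_lit 380) (nat_lit 5) (nat_lit 370) (nat_lit 5) (nat_lit 468) (nat_lit 423) (nat_lit 249)) (XT.lf (nat_lit 0) (nat_lit 8355249044) (nat_lit 760) (nat_lit 7151546302) (nat_lit 836) (nat_lit 223932437) (nat_lit 359) (nat_lit 5) (nat_lit 369) (nat_lit 5) (nat_lit 370) (nat_lit 5) (nat_lit 469) (nat_lit 423) (nat_lit 248))) (XT.nd (nat_lit 78) (nat_lit 684) (nat_lit 0) (XT.lf (nat_lit 0) (nat_lit 1815453704) (nat_lit 684) (nat_lit 497363551) (nat_lit 760) (nat_lit 13591580223) (nat_lit 349) (nat_lit 5) (nat_lit 358) (nat_lit 5) (nat_lit 359) (nat_lit 5) (nat_lit 470) (nat_lit 423) (nat_lit 247)) (XT.nd (nat_lit 78) (nat_lit 684) (nat_lit 0) (XT.lf (nat_lit 0) (nat_lit 4979164764) (nat_lit 760) (nat_lit 4843280237) (nat_lit 76) (nat_lit 6257428738) (nat_lit 349) (nat_lit 5) (nat_lit 359) (nat_lit 5) (nat_lit 350) (nat_lit 5) (nat_lit 471) (nat_lit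 423) (nat_lit 246)) (XT.lf (nat_lit 0) (nat_lit 4634727371) (nat_lit 684) (nat_lit 3088869076) (nat_lit 760) (nat_lit 8534767932) (nat_lit 340) (nat_lit 5) (nat_lit 349) (nat_lit 5) (nat_lit 350) (nat_lit 5) (nat_lit 472) (nat_lit 423) (nat_lit 245))))) (XT.nd (nat_lit 234) (nat_lit 684) (nat_lit 0) (XT.nd (nat_lit 78) (nat_lit 1368) (nat_lit 0) (XT.lf (nat_lit 0) (nat_lit 10571637641) (nat_lit 760) (nat_lit 2106736642) (nat_lit 76) (nat_lit 3761076132) (nat_lit 340) (nat_lit 5) (nat_lit 350) (nat_lit 5) (nat_lit 341) (nat_lit 5) (nat_lit 473) (nat_lit 423) (nat_lit 244)) (XT.nd (nat_lit 78) (nat_lit 684) (nat_lit 0) (XT.lf (nat_lit 0) (nat_lit 7670691843) (nat_lit 684) (nat_lit 5867840892) (nat_lit 760) (nat_lit 3084387575) (nat_lit 331) (nat_lit 5) (nat_lit 340) (nat_lit 5) (nat_lit 341) (nat_lit 5) (nat_lit 474) (nat_lit 423) (nat_lit 243)) (XT.lf (nat_lit 0) (nat_lit 856538911) (nat_lit 684) (nat_lit 15726746982) (nat_lit 760) (nat_lit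 226403307) (nat_lit 322) (nat_lit 5) (nat_lit 331) (nat_lit 5) (nat_lit 332) (nat_lit 5) (nat_lit 475) (nat_lit 423) (nat_lit 242)))) (XT.nd (nat_lit 78) (nat_lit 608) (nat_lit 0) (XT.lf (nat_lit 0) (nat_lit 2744575591) (nat_lit 760) (nat_lit 6082964251) (nat_lit 76) (nat_lit 8170482518) (nat_lit 321) (nat_lit 5) (nat_lit 331) (nat_lit 5) (nat_lit 322) (nat_lit 5) (nat_lit 476) (nat_lit 423) (nat_lit 241)) (XT.nd (nat_lit 78) (nat_lit 0) (nat_lit 0) (XT.lf (nat_lit 0) (nat_lit 4026037257) (nat_lit 608) (nat_lit 1763975633) (nat_lit 684) (nat_lit 11399717956) (nat_lit 313) (nat_lit 5) (nat_lit 321) (nat_lit 5) (nat_lit 322) (nat_lit 5) (nat_lit 477) (nat_lit 423) (nat_lit 240)) (XT.lf (nat_lit 0) (nat_lit 8964785135) (nat_lit 684) (nat_lit 3010351700) (nat_lit 76) (nat_lit 5408768142) (nat_lit 313) (nat_lit 5) (nat_lit 322) (nat_lit 5) (nat_lit 314) (nat_lit 5) (nat_lit 478) (nat_lit 423) (nat_lit 239))))))))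
noncomputable def xc209 : XT := (XT.nd (nat_lit 55146) (nat_lit 0) (nat_lit 23180) (XT.nd (nat_lit 780) (nat_lit 3192) (nat_lit 0) (XT.nd (nat_lit 390) (nat_lit 1748) (nat_lit 0) (XT.nd (nat_lit 156) (nat_lit 684) (nat_lit 0) (XT.nd (nat_lit 78) (nat_lit 608) (nat_lit 0) (XT.lf (nat_lit 0) (nat_lit 7421937096) (nat_lit 608) (nat_lit 4833152791) (nat_lit 684) (nat_lit 5325831963) (nat_lit 305) (nat_lit 5) (nat_lit 313) (nat_lit 5) (nat_lit 314) (nat_lit 5) (nat_lit 479) (nat_lit 423) (nat_lit 238)) (XT.lf (nat_lit 0) (nat_lit 300232956) (nat_lit 608) (nat_lit 15341414480) (nat_lit 684) (nat_lit 2139622691) (nat_lit 297) (nat_lit 5) (nat_lit 305) (nat_lit 5) (nat_lit 306) (nat_lit 5) (nat_lit 480) (nat_lit 423) (nat_lit 237))) (XT.nd (nat_lit 78) (nat_lit 608) (nat_lit 0) (XT.lf (nat_lit 0) (nat_lit 1188662492) (nat_lit 684) (nat_lit 6927480630) (nat_lit 76) (nat_lit 9867479796) (nat_lit 296) (nat_lit 5) (nat_lit 305) (nat_lit 5) (nat_lit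 297) (nat_lit 5) (nat_lit 481) (nat_lit 423) (nat_lit 236)) (XT.nd (nat_lit 78) (nat_lit 0) (nat_lit 0) (XT.lf (nat_lit 0) (nat_lit 3863954342) (nat_lit 608) (nat_lit 708457362) (nat_lit 684) (nat_lit 13616977246) (nat_lit 288) (nat_lit 5) (nat_lit 296) (nat_lit 5) (nat_lit 297) (nat_lit 5) (nat_lit 482) (nat_lit 423) (nat_lit 235)) (XT.lf (nat_lit 0) (nat_lit 8107594091) (nat_lit 684) (nat_lit 3487755604) (nat_lit 76) (nat_lit 6802245443) (nat_lit 288) (nat_lit 5) (nat_lit 297) (nat_lit 5) (nat_lit 289) (nat_lit 5) (nat_lit 483) (nat_lit 423) (nat_lit 234))))) (XT.nd (nat_lit 156) (nat_lit 608) (nat_lit 0) (XT.nd (nat_lit 78) (nat_lit 608) (nat_lit 0) (XT.lf (nat_lit 0) (nat_lit 7652773025) (nat_lit 532) (nat_lit 4107738241) (nat_lit 608) (nat_lit 6848513562) (nat_lit 281) (nat_lit 5) (nat_lit 288) (nat_lit 5) (nat_lit 289) (nat_lit 5) (nat_lit 484) (nat_lit 423) (nat_lit 233)) (XT.lf (nat_lit 0) (nat_lit 209199331) (nat_lit 608) (nat_lit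 15317842210) (nat_lit 684) (nat_lit 3296830474) (nat_lit 273) (nat_lit 5) (nat_lit 281) (nat_lit 5) (nat_lit 282) (nat_lit 5) (nat_lit 485) (nat_lit 423) (nat_lit 232))) (XT.nd (nat_lit 78) (nat_lit 532) (nat_lit 0) (XT.lf (nat_lit 0) (nat_lit 415577894) (nat_lit 684) (nat_lit 7334557855) (nat_lit 76) (nat_lit 11290958767) (nat_lit 272) (nat_lit 5) (nat_lit 281) (nat_lit 5) (nat_lit 273) (nat_lit 5) (nat_lit 486) (nat_lit 423) (nat_lit 231)) (XT.nd (nat_lit 78) (nat_lit 0) (nat_lit 0) (XT.lf (nat_lit 0) (nat_lit 4178369700) (nat_lit 608) (nat_lit 15067078078) (nat_lit 76) (nat_lit 16372252) (nat_lit 265) (nat_lit 5) (nat_lit 273) (nat_lit 5) (nat_lit 266) (nat_lit 5) (nat_lit 487) (nat_lit 423) (nat_lit 230)) (XT.lf (nat_lit 0) (nat_lit 8110245042) (nat_lit 608) (nat_lit 3493130298) (nat_lit 76) (nat_lit 7881708160) (nat_lit 265) (nat_lit 5) (nat_lit 273) (nat_lit 5) (nat_lit 266) (nat_lit 5) (nat_lit 488) (nat_lit 423) (nat_lit 229))))))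 (XT.nd (nat_lit 390) (nat_lit 1520) (nat_lit 0) (XT.nd (nat_lit 156) (nat_lit 608) (nat_lit 0) (XT.nd (nat_lit 78) (nat_lit 532) (nat_lit 0) (XT.lf (nat_lit 0) (nat_lit 8413272446) (nat_lit 532) (nat_lit 3755205676) (nat_lit 608) (nat_lit 7543379712) (nat_lit 258) (nat_lit 5) (nat_lit 265) (nat_lit 5) (nat_lit 266) (nat_lit 5) (nat_lit 489) (nat_lit 423) (nat_lit 228)) (XT.lf (nat_lit 0) (nat_lit 633591309) (nat_lit 532) (nat_lit 15722742170) (nat_lit 608) (nat_lit 3585865024) (nat_lit 251) (nat_lit 5) (nat_lit 258) (nat_lit 5) (nat_lit 259) (nat_lit 5) (nat_lit 490) (nat_lit 423) (nat_lit 227))) (XT.nd (nat_lit 78) (nat_lit 532) (nat_lit 0) (XT.lf (nat_lit 0) (nat_lit 539261298) (nat_lit 608) (nat_lit 7255813742) (nat_lit 76) (nat_lit 12380124935) (nat_lit 250) (nat_lit 5) (nat_lit 258) (nat_lit 5) (nat_lit 251) (nat_lit 5) (nat_lit 491) (nat_lit 423) (nat_lit 226)) (XT.nd (nat_lit 78) (nat_lit 0) (nat_lit 0) (XT.lf (nat_lit 0) (nat_lit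 4727413767) (nat_lit 608) (nat_lit 15342575990) (nat_lit 76) (nat_lit 341826899) (nat_lit 243) (nat_lit 5) (nat_lit 251) (nat_lit 5) (nat_lit 244) (nat_lit 5) (nat_lit 492) (nat_lit 423) (nat_lit 225)) (XT.lf (nat_lit 0) (nat_lit 9093336344) (nat_lit 608) (nat_lit 2974308832) (nat_lit 76) (nat_lit 8583640354) (nat_lit 243) (nat_lit 5) (nat_lit 251) (nat_lit 5) (nat_lit 244) (nat_lit 5) (nat_lit 493) (nat_lit 423) (nat_lit 224))))) (XT.nd (nat_lit 156) (nat_lit 532) (nat_lit 0) (XT.nd (nat_lit 78) (nat_lit 532) (nat_lit 0) (XT.lf (nat_lit 0) (nat_lit 9760190986) (nat_lit 456) (nat_lit 3843257259) (nat_lit 532) (nat_lit 7290958121) (nat_lit 237) (nat_lit 5) (nat_lit 243) (nat_lit 5) (nat_lit 244) (nat_lit 5) (nat_lit 494) (nat_lit 423) (nat_lit 223)) (XT.lf (nat_lit 0) (nat_lit 1630252994) (nat_lit 532) (nat_lit 16627251117) (nat_lit 608) (nat_lit 2883810671) (nat_lit 230) (nat_lit 5) (nat_lit 237) (nat_lit 5) (nat_lit 238) (nat_lit 5)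 (nat_lit 495) (nat_lit 423) (nat_lit 222))) (XT.nd (nat_lit 78) (nat_lit 456) (nat_lit 0) (XT.lf (nat_lit 0) (nat_lit 1684585578) (nat_lit 608) (nat_lit 6636354233) (nat_lit 76) (nat_lit 13070127486) (nat_lit 229) (nat_lit 5) (nat_lit 237) (nat_lit 5) (nat_lit 230) (nat_lit 5) (nat_lit 496) (nat_lit 423) (nat_lit 221)) (XT.nd (nat_lit 53664) (nat_lit 0) (nat_lit 26220) (XT.lf (nat_lit 0) (nat_lit 6343399833) (nat_lit 532) (nat_lit 15092414839) (nat_lit 76) (nat_lit 208865665) (nat_lit 223) (nat_lit 5) (nat_lit 230) (nat_lit 5) (nat_lit 224) (nat_lit 5) (nat_lit 497) (nat_lit 423) (nat_lit 220)) (XT.lf (nat_lit 0) (nat_lit 2432269776) (nat_lit 0) (nat_lit 2432269776) (nat_lit 1596) (nat_lit 219308693) (nat_lit 568) (nat_lit 5) (nat_lit 568) (nat_lit 3) (nat_lit 589) (nat_lit 3) (nat_lit 424) (nat_lit 424) (nat_lit 292))))))) (XT.nd (nat_lit 780) (nat_lit 1292) (nat_lit 0) (XT.nd (nat_lit 390) (nat_lit 0) (nat_lit 228) (XT.nd (nat_lit 156)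 (nat_lit 0) (nat_lit 76) (XT.nd (nat_lit 78) (nat_lit 0) (nat_lit 76) (XT.lf (nat_lit 0) (nat_lit 250203661) (nat_lit 1748) (nat_lit 216432420) (nat_lit 1748) (nat_lit 9789046960) (nat_lit 545) (nat_lit 3) (nat_lit 568) (nat_lit 3) (nat_lit 568) (nat_lit 5) (nat_lit 425) (nat_lit 424) (nat_lit 291)) (XT.lf (nat_lit 0) (nat_lit 987922128) (nat_lit 1672) (nat_lit 5345626389) (nat_lit 1748) (nat_lit 4011002934) (nat_lit 546) (nat_lit 5) (nat_lit 568) (nat_lit 5) (nat_lit 569) (nat_lit 5) (nat_lit 426) (nat_lit 424) (nat_lit 290))) (XT.nd (nat_lit 78) (nat_lit 0) (nat_lit 76) (XT.lf (nat_lit 0) (nat_lit 1727266666) (nat_lit 1672) (nat_lit 126290334) (nat_lit 1748) (nat_lit 8581902796) (nat_lit 546) (nat_lit 5) (nat_lit 568) (nat_lit 5) (nat_lit 569) (nat_lit 5) (nat_lit 427) (nat_lit 424) (nat_lit 289)) (XT.nd (nat_lit 78) (nat_lit 0) (nat_lit 0) (XT.lf (nat_lit 0) (nat_lit 2516108359) (nat_lit 1672) (nat_lit 5288741802) (nat_lit 1748) (nat_lit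 2722641943) (nat_lit 547) (nat_lit 5) (nat_lit 569) (nat_lit 5) (nat_lit 570) (nat_lit 5) (nat_lit 428) (nat_lit 424) (nat_lit 288)) (XT.lf (nat_lit 76) (nat_lit 70409720) (nat_lit 0) (nat_lit 3246898576) (nat_lit 1748) (nat_lit 7304125134) (nat_lit 548) (nat_lit 5) (nat_lit 547) (nat_lit 5) (nat_lit 570) (nat_lit 5) (nat_lit 429) (nat_lit 424) (nat_lit 287))))) (XT.nd (nat_lit 156) (nat_lit 0) (nat_lit 76) (XT.nd (nat_lit 78) (nat_lit 0) (nat_lit 0) (XT.lf (nat_lit 0) (nat_lit 4162674639) (nat_lit 1672) (nat_lit 5127453852) (nat_lit 1748) (nat_lit 1426562242) (nat_lit 548) (nat_lit 5) (nat_lit 570) (nat_lit 5) (nat_lit 571) (nat_lit 5) (nat_lit 430) (nat_lit 424) (nat_lit 286)) (XT.lf (nat_lit 76) (nat_lit 378236074) (nat_lit 0) (nat_lit 4654310869) (nat_lit 1748) (nat_lit 5781154267) (nat_lit 549) (nat_lit 5) (nat_lit 548) (nat_lit 5) (nat_lit 571) (nat_lit 5) (nat_lit 431) (nat_lit 424) (nat_lit 285))) (XT.nd (nat_lit 78) (nat_lit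 0) (nat_lit 0) (XT.lf (nat_lit 0) (nat_lit 5938873403) (nat_lit 1672) (nat_lit 4859237835) (nat_lit 1748) (nat_lit 114159524) (nat_lit 549) (nat_lit 5) (nat_lit 571) (nat_lit 5) (nat_lit 572) (nat_lit 5) (nat_lit 432) (nat_lit 424) (nat_lit 284)) (XT.nd (nat_lit 78) (nat_lit 0) (nat_lit 0) (XT.lf (nat_lit 76) (nat_lit 798250041) (nat_lit 0) (nat_lit 6085336314) (nat_lit 1748) (nat_lit 4128820151) (nat_lit 550) (nat_lit 5) (nat_lit 549) (nat_lit 5) (nat_lit 572) (nat_lit 5) (nat_lit 433) (nat_lit 424) (nat_lit 283)) (XT.lf (nat_lit 76) (nat_lit 6624911208) (nat_lit 0) (nat_lit 1239389173) (nat_lit 1748) (nat_lit 3249902447) (nat_lit 550) (nat_lit 5) (nat_lit 549) (nat_lit 5) (nat_lit 572) (nat_lit 5) (nat_lit 434) (nat_lit 424) (nat_lit 282)))))) (XT.nd (nat_lit 390) (nat_lit 0) (nat_lit 76) (XT.nd (nat_lit 156) (nat_lit 1672) (nat_lit 0) (XT.nd (nat_lit 78) (nat_lit 0) (nat_lit 0) (XT.lf (nat_lit 76) (nat_lit 1333522850) (nat_lit 0) (nat_lit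 7548648105) (nat_lit 1748) (nat_lit 2335513277) (nat_lit 551) (nat_lit 5) (nat_lit 550) (nat_lit 5) (nat_lit 573) (nat_lit 5) (nat_lit 435) (nat_lit 424) (nat_lit 281)) (XT.lf (nat_lit 76) (nat_lit 7315404289) (nat_lit 0) (nat_lit 2628345594) (nat_lit 1748) (nat_lit 1379018362) (nat_lit 551) (nat_lit 5) (nat_lit 550) (nat_lit 5) (nat_lit 573) (nat_lit 5) (nat_lit 436) (nat_lit 424) (nat_lit 280))) (XT.nd (nat_lit 78) (nat_lit 1748) (nat_lit 0) (XT.lf (nat_lit 76) (nat_lit 1987459655) (nat_lit 0) (nat_lit 9052920578) (nat_lit 1748) (nat_lit 389297309) (nat_lit 552) (nat_lit 5) (nat_lit 551) (nat_lit 5) (nat_lit 574) (nat_lit 5) (nat_lit 437) (nat_lit 424) (nat_lit 279)) (XT.nd (nat_lit 78) (nat_lit 0) (nat_lit 76) (XT.lf (nat_lit 0) (nat_lit 642082123) (nat_lit 1748) (nat_lit 3413479874) (nat_lit 1824) (nat_lit 7482482525) (nat_lit 528) (nat_lit 5) (nat_lit 551) (nat_lit 5) (nat_lit 552) (nat_lit 5) (nat_lit 438) (nat_lit 424) (nat_lit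 278)) (XT.lf (nat_lit 0) (nat_lit 1699530585) (nat_lit 1748) (nat_lit 8895916388) (nat_lit 1824) (nat_lit 1052867322) (nat_lit 529) (nat_lit 5) (nat_lit 552) (nat_lit 5) (nat_lit 553) (nat_lit 5) (nat_lit 439) (nat_lit 424) (nat_lit 277))))) (XT.nd (nat_lit 234) (nat_lit 0) (nat_lit 76) (XT.nd (nat_lit 78) (nat_lit 0) (nat_lit 0) (XT.lf (nat_lit 0) (nat_lit 2814090522) (nat_lit 1748) (nat_lit 2709699927) (nat_lit 1824) (nat_lit 6236279763) (nat_lit 529) (nat_lit 5) (nat_lit 552) (nat_lit 5) (nat_lit 553) (nat_lit 5) (nat_lit 440) (nat_lit 424) (nat_lit 276)) (XT.nd (nat_lit 78) (nat_lit 0) (nat_lit 76) (XT.lf (nat_lit 76) (nat_lit 3637930695) (nat_lit 0) (nat_lit 322950957) (nat_lit 1824) (nat_lit 7912980796) (nat_lit 530) (nat_lit 5) (nat_lit 529) (nat_lit 5) (nat_lit 553) (nat_lit 5) (nat_lit 441) (nat_lit 424) (nat_lit 275)) (XT.lf (nat_lit 0) (nat_lit 5167804949) (nat_lit 1748) (nat_lit 1883037214) (nat_lit 1824) (nat_lit 4938344439)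 (nat_lit 530) (nat_lit 5) (nat_lit 553) (nat_lit 5) (nat_lit 554) (nat_lit 5) (nat_lit 442) (nat_lit 424) (nat_lit 274)))) (XT.nd (nat_lit 78) (nat_lit 0) (nat_lit 76) (XT.lf (nat_lit 76) (nat_lit 4645657328) (nat_lit 0) (nat_lit 1772321190) (nat_lit 1824) (nat_lit 5688456484) (nat_lit 531) (nat_lit 5) (nat_lit 530) (nat_lit 5) (nat_lit 554) (nat_lit 5) (nat_lit 443) (nat_lit 424) (nat_lit 273)) (XT.nd (nat_lit 78) (nat_lit 0) (nat_lit 0) (XT.lf (nat_lit 0) (nat_lit 7716349175) (nat_lit 1748) (nat_lit 929119666) (nat_lit 1824) (nat_lit 3580095658) (nat_lit 531) (nat_lit 5) (nat_lit 554) (nat_lit 5) (nat_lit 555) (nat_lit 5) (nat_lit 444) (nat_lit 424) (nat_lit 272)) (XT.lf (nat_lit 76) (nat_lit 5787275481) (nat_lit 0) (nat_lit 3290002009) (nat_lit 1824) (nat_lit 3269067291) (nat_lit 532) (nat_lit 5) (nat_lit 531) (nat_lit 5) (nat_lit 555) (nat_lit 5) (nat_lit 445) (nat_lit 424) (nat_lit 271))))))))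
noncomputable def xc210 : XT := (XT.nd (nat_lit 1560) (nat_lit 8816) (nat_lit 0) (XT.nd (nat_lit 780) (nat_lit 5244) (nat_lit 0) (XT.nd (nat_lit 390) (nat_lit 2052) (nat_lit 0) (XT.nd (nat_lit 156) (nat_lit 3572) (nat_lit 0) (XT.nd (nat_lit 78) (nat_lit 0) (nat_lit 0) (XT.lf (nat_lit 76) (nat_lit 158852285) (nat_lit 0) (nat_lit 10315464689) (nat_lit 1824) (nat_lit 1995045842) (nat_lit 533) (nat_lit 5) (nat_lit 532) (nat_lit 5) (nat_lit 556) (nat_lit 5) (nat_lit 446) (nat_lit 424) (nat_lit 270)) (XT.lf (nat_lit 76) (nat_lit 7067771046) (nat_lit 0) (nat_lit 4884844344) (nat_lit 1824) (nat_lit 641159458) (nat_lit 533) (nat_lit 5) (nat_lit 532) (nat_lit 5) (nat_lit 556) (nat_lit 5) (nat_lit 447) (nat_lit 424) (nat_lit 269))) (XT.nd (nat_lit 78) (nat_lit 1824) (nat_lit 0) (XT.lf (nat_lit 0) (nat_lit 731350104) (nat_lit 1824) (nat_lit 11327431392) (nat_lit 76) (nat_lit 661772598) (nat_lit 509) (nat_lit 5) (nat_lit 533) (nat_lit 5) (nat_lit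 510) (nat_lit 5) (nat_lit 448) (nat_lit 424) (nat_lit 268)) (XT.nd (nat_lit 78) (nat_lit 1824) (nat_lit 0) (XT.lf (nat_lit 0) (nat_lit 2180416900) (nat_lit 1824) (nat_lit 4370772004) (nat_lit 76) (nat_lit 6297441414) (nat_lit 509) (nat_lit 5) (nat_lit 533) (nat_lit 5) (nat_lit 510) (nat_lit 5) (nat_lit 449) (nat_lit 424) (nat_lit 267)) (XT.lf (nat_lit 0) (nat_lit 2750961422) (nat_lit 1824) (nat_lit 913606056) (nat_lit 1900) (nat_lit 9314578541) (nat_lit 485) (nat_lit 5) (nat_lit 509) (nat_lit 5) (nat_lit 510) (nat_lit 5) (nat_lit 450) (nat_lit 424) (nat_lit 266))))) (XT.nd (nat_lit 156) (nat_lit 912) (nat_lit 0) (XT.nd (nat_lit 78) (nat_lit 1140) (nat_lit 0) (XT.lf (nat_lit 0) (nat_lit 5227745166) (nat_lit 1900) (nat_lit 3079219987) (nat_lit 76) (nat_lit 4804320000) (nat_lit 485) (nat_lit 5) (nat_lit 510) (nat_lit 5) (nat_lit 486) (nat_lit 5) (nat_lit 451) (nat_lit 424) (nat_lit 265)) (XT.lf (nat_lit 0) (nat_lit 4252332325) (nat_lit 1140)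 (nat_lit 2592156972) (nat_lit 1216) (nat_lit 6401131714) (nat_lit 470) (nat_lit 5) (nat_lit 485) (nat_lit 5) (nat_lit 486) (nat_lit 5) (nat_lit 452) (nat_lit 424) (nat_lit 264))) (XT.nd (nat_lit 78) (nat_lit 912) (nat_lit 0) (XT.lf (nat_lit 0) (nat_lit 8524193257) (nat_lit 1216) (nat_lit 1641404528) (nat_lit 76) (nat_lit 3216433301) (nat_lit 470) (nat_lit 5) (nat_lit 486) (nat_lit 5) (nat_lit 471) (nat_lit 5) (nat_lit 453) (nat_lit 424) (nat_lit 263)) (XT.nd (nat_lit 78) (nat_lit 0) (nat_lit 0) (XT.lf (nat_lit 0) (nat_lit 5907757230) (nat_lit 912) (nat_lit 4374285697) (nat_lit 988) (nat_lit 3238235405) (nat_lit 458) (nat_lit 5) (nat_lit 470) (nat_lit 5) (nat_lit 471) (nat_lit 5) (nat_lit 454) (nat_lit 424) (nat_lit 262)) (XT.lf (nat_lit 0) (nat_lit 12085272906) (nat_lit 988) (nat_lit 51173792) (nat_lit 76) (nat_lit 1524639357) (nat_lit 458) (nat_lit 5) (nat_lit 471) (nat_lit 5) (nat_lit 459) (nat_lit 5) (nat_lit 455) (nat_lit 424) (nat_lit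 261)))))) (XT.nd (nat_lit 390) (nat_lit 2508) (nat_lit 0) (XT.nd (nat_lit 156) (nat_lit 912) (nat_lit 0) (XT.nd (nat_lit 78) (nat_lit 836) (nat_lit 0) (XT.lf (nat_lit 0) (nat_lit 187250955) (nat_lit 988) (nat_lit 6080871844) (nat_lit 76) (nat_lit 7535192263) (nat_lit 445) (nat_lit 5) (nat_lit 458) (nat_lit 5) (nat_lit 446) (nat_lit 5) (nat_lit 456) (nat_lit 424) (nat_lit 260)) (XT.lf (nat_lit 0) (nat_lit 1705672962) (nat_lit 836) (nat_lit 259712442) (nat_lit 912) (nat_lit 11982776738) (nat_lit 434) (nat_lit 5) (nat_lit 445) (nat_lit 5) (nat_lit 446) (nat_lit 5) (nat_lit 457) (nat_lit 424) (nat_lit 259))) (XT.nd (nat_lit 78) (nat_lit 912) (nat_lit 0) (XT.lf (nat_lit 0) (nat_lit 3847876242) (nat_lit 912) (nat_lit 4413335560) (nat_lit 76) (nat_lit 5833318490) (nat_lit 434) (nat_lit 5) (nat_lit 446) (nat_lit 5) (nat_lit 435) (nat_lit 5) (nat_lit 458) (nat_lit 424) (nat_lit 258)) (XT.nd (nat_lit 78) (nat_lit 0) (nat_lit 0) (XT.lf (nat_lit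 0) (nat_lit 3607953887) (nat_lit 912) (nat_lit 2175024892) (nat_lit 988) (nat_lit 8460547785) (nat_lit 422) (nat_lit 5) (nat_lit 434) (nat_lit 5) (nat_lit 435) (nat_lit 5) (nat_lit 459) (nat_lit 424) (nat_lit 257)) (XT.lf (nat_lit 0) (nat_lit 7802731496) (nat_lit 988) (nat_lit 2581979278) (nat_lit 76) (nat_lit 4009873027) (nat_lit 422) (nat_lit 5) (nat_lit 435) (nat_lit 5) (nat_lit 423) (nat_lit 5) (nat_lit 460) (nat_lit 424) (nat_lit 256))))) (XT.nd (nat_lit 156) (nat_lit 1672) (nat_lit 0) (XT.nd (nat_lit 78) (nat_lit 0) (nat_lit 0) (XT.lf (nat_lit 0) (nat_lit 5682831265) (nat_lit 836) (nat_lit 4221497891) (nat_lit 912) (nat_lit 4643504028) (nat_lit 411) (nat_lit 5) (nat_lit 422) (nat_lit 5) (nat_lit 423) (nat_lit 5) (nat_lit 461) (nat_lit 424) (nat_lit 255)) (XT.lf (nat_lit 0) (nat_lit 12069083724) (nat_lit 912) (nat_lit 579495010) (nat_lit 76) (nat_lit 2055146322) (nat_lit 411) (nat_lit 5) (nat_lit 423) (nat_lit 5) (nat_lit 412) (nat_lit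 5) (nat_lit 462) (nat_lit 424) (nat_lit 254))) (XT.nd (nat_lit 78) (nat_lit 836) (nat_lit 0) (XT.lf (nat_lit 0) (nat_lit 7937961664) (nat_lit 836) (nat_lit 6409134382) (nat_lit 912) (nat_lit 514239467) (nat_lit 400) (nat_lit 5) (nat_lit 411) (nat_lit 5) (nat_lit 412) (nat_lit 5) (nat_lit 463) (nat_lit 424) (nat_lit 253)) (XT.nd (nat_lit 78) (nat_lit 0) (nat_lit 0) (XT.lf (nat_lit 0) (nat_lit 1612043244) (nat_lit 760) (nat_lit 19814700) (nat_lit 836) (nat_lit 13389927986) (nat_lit 389) (nat_lit 5) (nat_lit 399) (nat_lit 5) (nat_lit 400) (nat_lit 5) (nat_lit 464) (nat_lit 424) (nat_lit 252)) (XT.lf (nat_lit 0) (nat_lit 3893595648) (nat_lit 836) (nat_lit 4828486998) (nat_lit 76) (nat_lit 6461702646) (nat_lit 389) (nat_lit 5) (nat_lit 400) (nat_lit 5) (nat_lit 390) (nat_lit 5) (nat_lit 465) (nat_lit 424) (nat_lit 251))))))) (XT.nd (nat_lit 780) (nat_lit 4408) (nat_lit 0) (XT.nd (nat_lit 390) (nat_lit 2052) (nat_lit 0) (XT.nd (nat_lit 156)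 (nat_lit 1596) (nat_lit 0) (XT.nd (nat_lit 78) (nat_lit 0) (nat_lit 0) (XT.lf (nat_lit 0) (nat_lit 3966390640) (nat_lit 760) (nat_lit 2250890233) (nat_lit 836) (nat_lit 9131409514) (nat_lit 379) (nat_lit 5) (nat_lit 389) (nat_lit 5) (nat_lit 390) (nat_lit 5) (nat_lit 466) (nat_lit 424) (nat_lit 250)) (XT.lf (nat_lit 0) (nat_lit 8639237491) (nat_lit 836) (nat_lit 2552087068) (nat_lit 76) (nat_lit 4324533070) (nat_lit 379) (nat_lit 5) (nat_lit 390) (nat_lit 5) (nat_lit 380) (nat_lit 5) (nat_lit 467) (nat_lit 424) (nat_lit 249))) (XT.nd (nat_lit 78) (nat_lit 836) (nat_lit 0) (XT.lf (nat_lit 0) (nat_lit 6515468102) (nat_lit 760) (nat_lit 4642492194) (nat_lit 836) (nat_lit 4527441380) (nat_lit 369) (nat_lit 5) (nat_lit 379) (nat_lit 5) (nat_lit 380) (nat_lit 5) (nat_lit 468) (nat_lit 424) (nat_lit 248)) (XT.nd (nat_lit 78) (nat_lit 836) (nat_lit 0) (XT.lf (nat_lit 0) (nat_lit 13748746796) (nat_lit 836) (nat_lit 82277871) (nat_lit 76) (nat_lit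 2026878152) (nat_lit 369) (nat_lit 5) (nat_lit 380) (nat_lit 5) (nat_lit 370) (nat_lit 5) (nat_lit 469) (nat_lit 424) (nat_lit 247)) (XT.lf (nat_lit 0) (nat_lit 435666468) (nat_lit 836) (nat_lit 6766850537) (nat_lit 76) (nat_lit 8829633357) (nat_lit 358) (nat_lit 5) (nat_lit 369) (nat_lit 5) (nat_lit 359) (nat_lit 5) (nat_lit 470) (nat_lit 424) (nat_lit 246))))) (XT.nd (nat_lit 156) (nat_lit 1368) (nat_lit 0) (XT.nd (nat_lit 78) (nat_lit 0) (nat_lit 0) (XT.lf (nat_lit 0) (nat_lit 2601452725) (nat_lit 684) (nat_lit 410607871) (nat_lit 760) (nat_lit 13197365092) (nat_lit 349) (nat_lit 5) (nat_lit 358) (nat_lit 5) (nat_lit 359) (nat_lit 5) (nat_lit 471) (nat_lit 424) (nat_lit 245)) (XT.lf (nat_lit 0) (nat_lit 5719546937) (nat_lit 760) (nat_lit 4192967579) (nat_lit 76) (nat_lit 6476140719) (nat_lit 349) (nat_lit 5) (nat_lit 359) (nat_lit 5) (nat_lit 350) (nat_lit 5) (nat_lit 472) (nat_lit 424) (nat_lit 244))) (XT.nd (nat_lit 78) (nat_lit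 684) (nat_lit 0) (XT.lf (nat_lit 0) (nat_lit 5469684534) (nat_lit 684) (nat_lit 3041437297) (nat_lit 760) (nat_lit 8059748766) (nat_lit 340) (nat_lit 5) (nat_lit 349) (nat_lit 5) (nat_lit 350) (nat_lit 5) (nat_lit 473) (nat_lit 424) (nat_lit 243)) (XT.nd (nat_lit 78) (nat_lit 684) (nat_lit 0) (XT.lf (nat_lit 0) (nat_lit 11404406192) (nat_lit 760) (nat_lit 1409445271) (nat_lit 76) (nat_lit 3941961245) (nat_lit 340) (nat_lit 5) (nat_lit 350) (nat_lit 5) (nat_lit 341) (nat_lit 5) (nat_lit 474) (nat_lit 424) (nat_lit 242)) (XT.lf (nat_lit 0) (nat_lit 8558667139) (nat_lit 684) (nat_lit 5864558254) (nat_lit 760) (nat_lit 2519874883) (nat_lit 331) (nat_lit 5) (nat_lit 340) (nat_lit 5) (nat_lit 341) (nat_lit 5) (nat_lit 475) (nat_lit 424) (nat_lit 241)))))) (XT.nd (nat_lit 390) (nat_lit 2432) (nat_lit 0) (XT.nd (nat_lit 156) (nat_lit 1216) (nat_lit 0) (XT.nd (nat_lit 78) (nat_lit 0) (nat_lit 0) (XT.lf (nat_lit 0) (nat_lit 383584532) (nat_lit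 760) (nat_lit 15521439232) (nat_lit 76) (nat_lit 1228659463) (nat_lit 321) (nat_lit 5) (nat_lit 331) (nat_lit 5) (nat_lit 322) (nat_lit 5) (nat_lit 476) (nat_lit 424) (nat_lit 240)) (XT.lf (nat_lit 0) (nat_lit 3398964356) (nat_lit 760) (nat_lit 5470040494) (nat_lit 76) (nat_lit 8456988012) (nat_lit 321) (nat_lit 5) (nat_lit 331) (nat_lit 5) (nat_lit 322) (nat_lit 5) (nat_lit 477) (nat_lit 424) (nat_lit 239))) (XT.nd (nat_lit 78) (nat_lit 608) (nat_lit 0) (XT.lf (nat_lit 0) (nat_lit 4836308262) (nat_lit 608) (nat_lit 1661985314) (nat_lit 684) (nat_lit 11023382278) (nat_lit 313) (nat_lit 5) (nat_lit 321) (nat_lit 5) (nat_lit 322) (nat_lit 5) (nat_lit 478) (nat_lit 424) (nat_lit 238)) (XT.nd (nat_lit 78) (nat_lit 608) (nat_lit 0) (XT.lf (nat_lit 0) (nat_lit 9725817774) (nat_lit 684) (nat_lit 2344373811) (nat_lit 76) (nat_lit 5649756753) (nat_lit 313) (nat_lit 5) (nat_lit 322) (nat_lit 5) (nat_lit 314) (nat_lit 5) (nat_lit 479) (nat_lit 424)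 (nat_lit 237)) (XT.lf (nat_lit 0) (nat_lit 8291783229) (nat_lit 608) (nat_lit 4783422641) (nat_lit 684) (nat_lit 4845834133) (nat_lit 305) (nat_lit 5) (nat_lit 313) (nat_lit 5) (nat_lit 314) (nat_lit 5) (nat_lit 480) (nat_lit 424) (nat_lit 236))))) (XT.nd (nat_lit 234) (nat_lit 1140) (nat_lit 0) (XT.nd (nat_lit 78) (nat_lit 684) (nat_lit 0) (XT.lf (nat_lit 0) (nat_lit 1033379300) (nat_lit 608) (nat_lit 15490493413) (nat_lit 684) (nat_lit 1601634970) (nat_lit 297) (nat_lit 5) (nat_lit 305) (nat_lit 5) (nat_lit 306) (nat_lit 5) (nat_lit 481) (nat_lit 424) (nat_lit 235)) (XT.nd (nat_lit 78) (nat_lit 608) (nat_lit 0) (XT.lf (nat_lit 0) (nat_lit 1774360387) (nat_lit 684) (nat_lit 6345678555) (nat_lit 76) (nat_lit 10212017940) (nat_lit 296) (nat_lit 5) (nat_lit 305) (nat_lit 5) (nat_lit 297) (nat_lit 5) (nat_lit 482) (nat_lit 424) (nat_lit 234)) (XT.lf (nat_lit 0) (nat_lit 4656845960) (nat_lit 608) (nat_lit 562566724) (nat_lit 684) (nat_lit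 13322652989) (nat_lit 288) (nat_lit 5) (nat_lit 296) (nat_lit 5) (nat_lit 297) (nat_lit 5) (nat_lit 483) (nat_lit 424) (nat_lit 233)))) (XT.nd (nat_lit 78) (nat_lit 1140) (nat_lit 0) (XT.lf (nat_lit 0) (nat_lit 8815424366) (nat_lit 684) (nat_lit 2846055449) (nat_lit 76) (nat_lit 7093153658) (nat_lit 288) (nat_lit 5) (nat_lit 297) (nat_lit 5) (nat_lit 289) (nat_lit 5) (nat_lit 484) (nat_lit 424) (nat_lit 232)) (XT.nd (nat_lit 78) (nat_lit 608) (nat_lit 0) (XT.lf (nat_lit 0) (nat_lit 8512603125) (nat_lit 532) (nat_lit 4022686032) (nat_lit 608) (nat_lit 6435124814) (nat_lit 281) (nat_lit 5) (nat_lit 288) (nat_lit 5) (nat_lit 289) (nat_lit 5) (nat_lit 485) (nat_lit 424) (nat_lit 231)) (XT.lf (nat_lit 0) (nat_lit 925150006) (nat_lit 608) (nat_lit 15447105868) (nat_lit 684) (nat_lit 2817400112) (nat_lit 273) (nat_lit 5) (nat_lit 281) (nat_lit 5) (nat_lit 282) (nat_lit 5) (nat_lit 486) (nat_lit 424) (nat_lit 230))))))))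
noncomputable def xc211 : XT := (XT.nd (nat_lit 55380) (nat_lit 0) (nat_lit 16416) (XT.nd (nat_lit 54522) (nat_lit 0) (nat_lit 23940) (XT.nd (nat_lit 390) (nat_lit 1596) (nat_lit 0) (XT.nd (nat_lit 156) (nat_lit 1064) (nat_lit 0) (XT.nd (nat_lit 78) (nat_lit 532) (nat_lit 0) (XT.lf (nat_lit 0) (nat_lit 951550615) (nat_lit 684) (nat_lit 6776426195) (nat_lit 76) (nat_lit 11683386375) (nat_lit 272) (nat_lit 5) (nat_lit 281) (nat_lit 5) (nat_lit 273) (nat_lit 5) (nat_lit 487) (nat_lit 424) (nat_lit 229)) (XT.lf (nat_lit 0) (nat_lit 4784955834) (nat_lit 608) (nat_lit 14658954399) (nat_lit 76) (nat_lit 192685823) (nat_lit 265) (nat_lit 5) (nat_lit 273) (nat_lit 5) (nat_lit 266) (nat_lit 5) (nat_lit 488) (nat_lit 424) (nat_lit 228))) (XT.nd (nat_lit 78) (nat_lit 1064) (nat_lit 0) (XT.lf (nat_lit 0) (nat_lit 8785213412) (nat_lit 608) (nat_lit 2867438746) (nat_lit 76) (nat_lit 8211877741) (nat_lit 265) (nat_lit 5) (nat_lit 273) (nat_lit 5) (nat_lit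 266) (nat_lit 5) (nat_lit 489) (nat_lit 424) (nat_lit 227)) (XT.nd (nat_lit 78) (nat_lit 532) (nat_lit 0) (XT.lf (nat_lit 0) (nat_lit 9272516039) (nat_lit 532) (nat_lit 3646527219) (nat_lit 608) (nat_lit 7176907822) (nat_lit 258) (nat_lit 5) (nat_lit 265) (nat_lit 5) (nat_lit 266) (nat_lit 5) (nat_lit 490) (nat_lit 424) (nat_lit 226)) (XT.lf (nat_lit 0) (nat_lit 1341587157) (nat_lit 532) (nat_lit 15844807900) (nat_lit 608) (nat_lit 3144588718) (nat_lit 251) (nat_lit 5) (nat_lit 258) (nat_lit 5) (nat_lit 259) (nat_lit 5) (nat_lit 491) (nat_lit 424) (nat_lit 225))))) (XT.nd (nat_lit 156) (nat_lit 988) (nat_lit 0) (XT.nd (nat_lit 78) (nat_lit 532) (nat_lit 0) (XT.lf (nat_lit 0) (nat_lit 1046385349) (nat_lit 608) (nat_lit 6712643718) (nat_lit 76) (nat_lit 12809748130) (nat_lit 250) (nat_lit 5) (nat_lit 258) (nat_lit 5) (nat_lit 251) (nat_lit 5) (nat_lit 492) (nat_lit 424) (nat_lit 224)) (XT.lf (nat_lit 0) (nat_lit 5314259360) (nat_lit 608)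 (nat_lit 14957099702) (nat_lit 76) (nat_lit 538847980) (nat_lit 243) (nat_lit 5) (nat_lit 251) (nat_lit 5) (nat_lit 244) (nat_lit 5) (nat_lit 493) (nat_lit 424) (nat_lit 223))) (XT.nd (nat_lit 78) (nat_lit 988) (nat_lit 0) (XT.lf (nat_lit 0) (nat_lit 9757847500) (nat_lit 608) (nat_lit 2355042256) (nat_lit 76) (nat_lit 8941768596) (nat_lit 243) (nat_lit 5) (nat_lit 251) (nat_lit 5) (nat_lit 244) (nat_lit 5) (nat_lit 494) (nat_lit 424) (nat_lit 222)) (XT.nd (nat_lit 78) (nat_lit 532) (nat_lit 0) (XT.lf (nat_lit 0) (nat_lit 10629682079) (nat_lit 456) (nat_lit 3723393863) (nat_lit 532) (nat_lit 6949667376) (nat_lit 237) (nat_lit 5) (nat_lit 243) (nat_lit 5) (nat_lit 244) (nat_lit 5) (nat_lit 495) (nat_lit 424) (nat_lit 221)) (XT.lf (nat_lit 0) (nat_lit 2340928677) (nat_lit 532) (nat_lit 16755575084) (nat_lit 608) (nat_lit 2458160325) (nat_lit 230) (nat_lit 5) (nat_lit 237) (nat_lit 5) (nat_lit 238) (nat_lit 5) (nat_lit 496) (nat_lit 424)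 (nat_lit 220)))))) (XT.nd (nat_lit 390) (nat_lit 0) (nat_lit 152) (XT.nd (nat_lit 156) (nat_lit 0) (nat_lit 76) (XT.nd (nat_lit 78) (nat_lit 0) (nat_lit 0) (XT.lf (nat_lit 0) (nat_lit 462173043) (nat_lit 1748) (nat_lit 2354861267) (nat_lit 1748) (nat_lit 2354861267) (nat_lit 545) (nat_lit 3) (nat_lit 568) (nat_lit 3) (nat_lit 568) (nat_lit 5) (nat_lit 425) (nat_lit 425) (nat_lit 290)) (XT.lf (nat_lit 76) (nat_lit 468315079) (nat_lit 0) (nat_lit 1129019760) (nat_lit 1748) (nat_lit 8836619320) (nat_lit 546) (nat_lit 5) (nat_lit 545) (nat_lit 3) (nat_lit 568) (nat_lit 5) (nat_lit 426) (nat_lit 425) (nat_lit 289))) (XT.nd (nat_lit 78) (nat_lit 0) (nat_lit 0) (XT.lf (nat_lit 0) (nat_lit 2320767884) (nat_lit 1672) (nat_lit 4743605625) (nat_lit 1748) (nat_lit 3460807225) (nat_lit 546) (nat_lit 5) (nat_lit 568) (nat_lit 5) (nat_lit 569) (nat_lit 5) (nat_lit 427) (nat_lit 425) (nat_lit 288)) (XT.nd (nat_lit 78) (nat_lit 0) (nat_lit 76) (XT.lf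 (nat_lit 76) (nat_lit 573741217) (nat_lit 0) (nat_lit 2479136394) (nat_lit 1748) (nat_lit 7565470070) (nat_lit 547) (nat_lit 5) (nat_lit 546) (nat_lit 5) (nat_lit 569) (nat_lit 5) (nat_lit 428) (nat_lit 425) (nat_lit 287)) (XT.lf (nat_lit 0) (nat_lit 3829271421) (nat_lit 1672) (nat_lit 4674984390) (nat_lit 1748) (nat_lit 2208529317) (nat_lit 547) (nat_lit 5) (nat_lit 569) (nat_lit 5) (nat_lit 570) (nat_lit 5) (nat_lit 429) (nat_lit 425) (nat_lit 286))))) (XT.nd (nat_lit 234) (nat_lit 0) (nat_lit 76) (XT.nd (nat_lit 78) (nat_lit 0) (nat_lit 76) (XT.lf (nat_lit 76) (nat_lit 786616397) (nat_lit 0) (nat_lit 3839758319) (nat_lit 1748) (nat_lit 6182632977) (nat_lit 548) (nat_lit 5) (nat_lit 547) (nat_lit 5) (nat_lit 570) (nat_lit 5) (nat_lit 430) (nat_lit 425) (nat_lit 285)) (XT.nd (nat_lit 78) (nat_lit 0) (nat_lit 0) (XT.lf (nat_lit 0) (nat_lit 5460920913) (nat_lit 1672) (nat_lit 4501492629) (nat_lit 1748) (nat_lit 944311151) (nat_lit 548)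 (nat_lit 5) (nat_lit 570) (nat_lit 5) (nat_lit 571) (nat_lit 5) (nat_lit 431) (nat_lit 425) (nat_lit 284)) (XT.lf (nat_lit 76) (nat_lit 1109518265) (nat_lit 0) (nat_lit 5219547864) (nat_lit 1748) (nat_lit 4676991740) (nat_lit 549) (nat_lit 5) (nat_lit 548) (nat_lit 5) (nat_lit 571) (nat_lit 5) (nat_lit 432) (nat_lit 425) (nat_lit 283)))) (XT.nd (nat_lit 78) (nat_lit 0) (nat_lit 76) (XT.lf (nat_lit 76) (nat_lit 6884401909) (nat_lit 0) (nat_lit 344902742) (nat_lit 1748) (nat_lit 3877778451) (nat_lit 549) (nat_lit 5) (nat_lit 548) (nat_lit 5) (nat_lit 571) (nat_lit 5) (nat_lit 433) (nat_lit 425) (nat_lit 282)) (XT.nd (nat_lit 78) (nat_lit 0) (nat_lit 0) (XT.lf (nat_lit 76) (nat_lit 1545353799) (nat_lit 0) (nat_lit 6627136068) (nat_lit 1748) (nat_lit 3037140133) (nat_lit 550) (nat_lit 5) (nat_lit 549) (nat_lit 5) (nat_lit 572) (nat_lit 5) (nat_lit 434) (nat_lit 425) (nat_lit 281)) (XT.lf (nat_lit 76) (nat_lit 7474212135) (nat_lit 0) (nat_lit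 1676032867) (nat_lit 1748) (nat_lit 2163668711) (nat_lit 550) (nat_lit 5) (nat_lit 549) (nat_lit 5) (nat_lit 572) (nat_lit 5) (nat_lit 435) (nat_lit 425) (nat_lit 280))))))) (XT.nd (nat_lit 780) (nat_lit 6232) (nat_lit 0) (XT.nd (nat_lit 390) (nat_lit 0) (nat_lit 76) (XT.nd (nat_lit 156) (nat_lit 1672) (nat_lit 0) (XT.nd (nat_lit 78) (nat_lit 0) (nat_lit 0) (XT.lf (nat_lit 76) (nat_lit 2097361317) (nat_lit 0) (nat_lit 8071145683) (nat_lit 1748) (nat_lit 1251357065) (nat_lit 551) (nat_lit 5) (nat_lit 550) (nat_lit 5) (nat_lit 573) (nat_lit 5) (nat_lit 436) (nat_lit 425) (nat_lit 279)) (XT.lf (nat_lit 76) (nat_lit 8184426110) (nat_lit 0) (nat_lit 3045152326) (nat_lit 1748) (nat_lit 297906104) (nat_lit 551) (nat_lit 5) (nat_lit 550) (nat_lit 5) (nat_lit 573) (nat_lit 5) (nat_lit 437) (nat_lit 425) (nat_lit 278))) (XT.nd (nat_lit 78) (nat_lit 0) (nat_lit 0) (XT.lf (nat_lit 0) (nat_lit 683337491) (nat_lit 1748) (nat_lit 8872290685) (nat_lit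 1824) (nat_lit 2081190221) (nat_lit 528) (nat_lit 5) (nat_lit 551) (nat_lit 5) (nat_lit 552) (nat_lit 5) (nat_lit 438) (nat_lit 425) (nat_lit 277)) (XT.nd (nat_lit 78) (nat_lit 0) (nat_lit 76) (XT.lf (nat_lit 0) (nat_lit 1709054088) (nat_lit 1748) (nat_lit 2740383362) (nat_lit 1824) (nat_lit 7298285357) (nat_lit 528) (nat_lit 5) (nat_lit 551) (nat_lit 5) (nat_lit 552) (nat_lit 5) (nat_lit 439) (nat_lit 425) (nat_lit 276)) (XT.lf (nat_lit 0) (nat_lit 2769804881) (nat_lit 1748) (nat_lit 8314621969) (nat_lit 1824) (nat_lit 776128057) (nat_lit 529) (nat_lit 5) (nat_lit 552) (nat_lit 5) (nat_lit 553) (nat_lit 5) (nat_lit 440) (nat_lit 425) (nat_lit 275))))) (XT.nd (nat_lit 156) (nat_lit 0) (nat_lit 76) (XT.nd (nat_lit 78) (nat_lit 0) (nat_lit 0) (XT.lf (nat_lit 0) (nat_lit 3886336730) (nat_lit 1748) (nat_lit 2019567703) (nat_lit 1824) (nat_lit 6069047896) (nat_lit 529) (nat_lit 5) (nat_lit 552) (nat_lit 5) (nat_lit 553) (nat_lit 5) (nat_lit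 441) (nat_lit 425) (nat_lit 274)) (XT.lf (nat_lit 76) (nat_lit 4450118648) (nat_lit 0) (nat_lit 590825028) (nat_lit 1824) (nat_lit 7050379132) (nat_lit 530) (nat_lit 5) (nat_lit 529) (nat_lit 5) (nat_lit 553) (nat_lit 5) (nat_lit 442) (nat_lit 425) (nat_lit 273))) (XT.nd (nat_lit 78) (nat_lit 0) (nat_lit 0) (XT.lf (nat_lit 0) (nat_lit 6250717040) (nat_lit 1748) (nat_lit 1174478833) (nat_lit 1824) (nat_lit 4784183340) (nat_lit 530) (nat_lit 5) (nat_lit 553) (nat_lit 5) (nat_lit 554) (nat_lit 5) (nat_lit 443) (nat_lit 425) (nat_lit 272)) (XT.nd (nat_lit 78) (nat_lit 0) (nat_lit 76) (XT.lf (nat_lit 76) (nat_lit 5479880263) (nat_lit 0) (nat_lit 2031619913) (nat_lit 1824) (nat_lit 4817760285) (nat_lit 531) (nat_lit 5) (nat_lit 530) (nat_lit 5) (nat_lit 554) (nat_lit 5) (nat_lit 444) (nat_lit 425) (nat_lit 271)) (XT.lf (nat_lit 0) (nat_lit 8815488599) (nat_lit 1748) (nat_lit 200578110) (nat_lit 1824) (nat_lit 3435112831) (nat_lit 531) (nat_lit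 5) (nat_lit 554) (nat_lit 5) (nat_lit 555) (nat_lit 5) (nat_lit 445) (nat_lit 425) (nat_lit 270)))))) (XT.nd (nat_lit 390) (nat_lit 4712) (nat_lit 0) (XT.nd (nat_lit 156) (nat_lit 1748) (nat_lit 0) (XT.nd (nat_lit 78) (nat_lit 0) (nat_lit 76) (XT.lf (nat_lit 76) (nat_lit 6645229650) (nat_lit 0) (nat_lit 3544699007) (nat_lit 1824) (nat_lit 2384720907) (nat_lit 532) (nat_lit 5) (nat_lit 531) (nat_lit 5) (nat_lit 555) (nat_lit 5) (nat_lit 446) (nat_lit 425) (nat_lit 269)) (XT.lf (nat_lit 76) (nat_lit 919073013) (nat_lit 0) (nat_lit 10681291778) (nat_lit 1824) (nat_lit 1100054051) (nat_lit 533) (nat_lit 5) (nat_lit 532) (nat_lit 5) (nat_lit 556) (nat_lit 5) (nat_lit 447) (nat_lit 425) (nat_lit 268))) (XT.nd (nat_lit 78) (nat_lit 0) (nat_lit 76) (XT.lf (nat_lit 0) (nat_lit 259135061) (nat_lit 1824) (nat_lit 4878057233) (nat_lit 1900) (nat_lit 7690452161) (nat_lit 508) (nat_lit 5) (nat_lit 532) (nat_lit 5) (nat_lit 533) (nat_lit 5) (nat_lit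 448) (nat_lit 425) (nat_lit 267)) (XT.nd (nat_lit 78) (nat_lit 0) (nat_lit 0) (XT.lf (nat_lit 0) (nat_lit 1636721684) (nat_lit 1824) (nat_lit 10785963432) (nat_lit 76) (nat_lit 534465168) (nat_lit 509) (nat_lit 5) (nat_lit 533) (nat_lit 5) (nat_lit 510) (nat_lit 5) (nat_lit 449) (nat_lit 425) (nat_lit 266)) (XT.lf (nat_lit 0) (nat_lit 3097304237) (nat_lit 1824) (nat_lit 3705230005) (nat_lit 76) (nat_lit 6285603103) (nat_lit 509) (nat_lit 5) (nat_lit 533) (nat_lit 5) (nat_lit 510) (nat_lit 5) (nat_lit 450) (nat_lit 425) (nat_lit 265))))) (XT.nd (nat_lit 234) (nat_lit 1824) (nat_lit 0) (XT.nd (nat_lit 78) (nat_lit 1140) (nat_lit 0) (XT.lf (nat_lit 0) (nat_lit 3553984422) (nat_lit 1824) (nat_lit 1044886823) (nat_lit 1900) (nat_lit 8622637447) (nat_lit 485) (nat_lit 5) (nat_lit 509) (nat_lit 5) (nat_lit 510) (nat_lit 5) (nat_lit 451) (nat_lit 425) (nat_lit 264)) (XT.nd (nat_lit 78) (nat_lit 1140) (nat_lit 0) (XT.lf (nat_lit 0) (nat_lit 6175710550)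 (nat_lit 1900) (nat_lit 2389865419) (nat_lit 76) (nat_lit 4791066677) (nat_lit 485) (nat_lit 5) (nat_lit 510) (nat_lit 5) (nat_lit 486) (nat_lit 5) (nat_lit 452) (nat_lit 425) (nat_lit 263)) (XT.lf (nat_lit 0) (nat_lit 5083377551) (nat_lit 1140) (nat_lit 2729718069) (nat_lit 1216) (nat_lit 5680803480) (nat_lit 470) (nat_lit 5) (nat_lit 485) (nat_lit 5) (nat_lit 486) (nat_lit 5) (nat_lit 453) (nat_lit 425) (nat_lit 262)))) (XT.nd (nat_lit 78) (nat_lit 1824) (nat_lit 0) (XT.lf (nat_lit 0) (nat_lit 9509539868) (nat_lit 1216) (nat_lit 926007669) (nat_lit 76) (nat_lit 3197826917) (nat_lit 470) (nat_lit 5) (nat_lit 486) (nat_lit 5) (nat_lit 471) (nat_lit 5) (nat_lit 454) (nat_lit 425) (nat_lit 261)) (XT.nd (nat_lit 78) (nat_lit 912) (nat_lit 0) (XT.lf (nat_lit 0) (nat_lit 6769214791) (nat_lit 912) (nat_lit 4522180051) (nat_lit 988) (nat_lit 2483214835) (nat_lit 458) (nat_lit 5) (nat_lit 470) (nat_lit 5) (nat_lit 471) (nat_lit 5) (nat_lit 455)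 (nat_lit 425) (nat_lit 260)) (XT.lf (nat_lit 0) (nat_lit 701879428) (nat_lit 912) (nat_lit 12417223496) (nat_lit 988) (nat_lit 799362361) (nat_lit 446) (nat_lit 5) (nat_lit 458) (nat_lit 5) (nat_lit 459) (nat_lit 5) (nat_lit 456) (nat_lit 425) (nat_lit 259))))))))
noncomputable def xc212 : XT := (XT.nd (nat_lit 1560) (nat_lit 7144) (nat_lit 0) (XT.nd (nat_lit 780) (nat_lit 4408) (nat_lit 0) (XT.nd (nat_lit 390) (nat_lit 2508) (nat_lit 0) (XT.nd (nat_lit 156) (nat_lit 912) (nat_lit 0) (XT.nd (nat_lit 78) (nat_lit 836) (nat_lit 0) (XT.lf (nat_lit 0) (nat_lit 973070578) (nat_lit 988) (nat_lit 5452124968) (nat_lit 76) (nat_lit 7638544325) (nat_lit 445) (nat_lit 5) (nat_lit 458) (nat_lit 5) (nat_lit 446) (nat_lit 5) (nat_lit 457) (nat_lit 425) (nat_lit 258)) (XT.lf (nat_lit 0) (nat_lit 2485214127) (nat_lit 836) (nat_lit 291058604) (nat_lit 912) (nat_lit 11435421062) (nat_lit 434) (nat_lit 5) (nat_lit 445) (nat_lit 5) (nat_lit 446) (nat_lit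 5) (nat_lit 458) (nat_lit 425) (nat_lit 257))) (XT.nd (nat_lit 78) (nat_lit 912) (nat_lit 0) (XT.lf (nat_lit 0) (nat_lit 4681117907) (nat_lit 912) (nat_lit 3755495317) (nat_lit 76) (nat_lit 5924681990) (nat_lit 434) (nat_lit 5) (nat_lit 446) (nat_lit 5) (nat_lit 435) (nat_lit 5) (nat_lit 459) (nat_lit 425) (nat_lit 256)) (XT.nd (nat_lit 78) (nat_lit 0) (nat_lit 0) (XT.lf (nat_lit 0) (nat_lit 4421311320) (nat_lit 912) (nat_lit 2223594426) (nat_lit 988) (nat_lit 7868566002) (nat_lit 422) (nat_lit 5) (nat_lit 434) (nat_lit 5) (nat_lit 435) (nat_lit 5) (nat_lit 460) (nat_lit 425) (nat_lit 255)) (XT.lf (nat_lit 0) (nat_lit 8690388557) (nat_lit 988) (nat_lit 1892288849) (nat_lit 76) (nat_lit 4085166023) (nat_lit 422) (nat_lit 5) (nat_lit 435) (nat_lit 5) (nat_lit 423) (nat_lit 5) (nat_lit 461) (nat_lit 425) (nat_lit 254))))) (XT.nd (nat_lit 156) (nat_lit 836) (nat_lit 0) (XT.nd (nat_lit 78) (nat_lit 836) (nat_lit 0) (XT.lf (nat_lit 0) (nat_lit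 6532940734) (nat_lit 836) (nat_lit 4291513831) (nat_lit 912) (nat_lit 3999894507) (nat_lit 411) (nat_lit 5) (nat_lit 422) (nat_lit 5) (nat_lit 423) (nat_lit 5) (nat_lit 462) (nat_lit 425) (nat_lit 253)) (XT.lf (nat_lit 0) (nat_lit 146920442) (nat_lit 836) (nat_lit 12872471813) (nat_lit 912) (nat_lit 1964228765) (nat_lit 400) (nat_lit 5) (nat_lit 411) (nat_lit 5) (nat_lit 412) (nat_lit 5) (nat_lit 463) (nat_lit 425) (nat_lit 252))) (XT.nd (nat_lit 78) (nat_lit 760) (nat_lit 0) (XT.lf (nat_lit 0) (nat_lit 185821841) (nat_lit 912) (nat_lit 6317851219) (nat_lit 76) (nat_lit 8640887937) (nat_lit 399) (nat_lit 5) (nat_lit 411) (nat_lit 5) (nat_lit 400) (nat_lit 5) (nat_lit 464) (nat_lit 425) (nat_lit 251)) (XT.nd (nat_lit 78) (nat_lit 0) (nat_lit 0) (XT.lf (nat_lit 0) (nat_lit 2359081914) (nat_lit 836) (nat_lit 12928472934) (nat_lit 76) (nat_lit 20775064) (nat_lit 389) (nat_lit 5) (nat_lit 400) (nat_lit 5) (nat_lit 390) (nat_lit 5) (nat_lit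 465) (nat_lit 425) (nat_lit 250)) (XT.lf (nat_lit 0) (nat_lit 4652563673) (nat_lit 836) (nat_lit 4190416166) (nat_lit 76) (nat_lit 6630859236) (nat_lit 389) (nat_lit 5) (nat_lit 400) (nat_lit 5) (nat_lit 390) (nat_lit 5) (nat_lit 466) (nat_lit 425) (nat_lit 249)))))) (XT.nd (nat_lit 390) (nat_lit 2052) (nat_lit 0) (XT.nd (nat_lit 156) (nat_lit 1596) (nat_lit 0) (XT.nd (nat_lit 78) (nat_lit 0) (nat_lit 0) (XT.lf (nat_lit 0) (nat_lit 4775525862) (nat_lit 760) (nat_lit 2238580308) (nat_lit 836) (nat_lit 8628108431) (nat_lit 379) (nat_lit 5) (nat_lit 389) (nat_lit 5) (nat_lit 390) (nat_lit 5) (nat_lit 467) (nat_lit 425) (nat_lit 248)) (XT.lf (nat_lit 0) (nat_lit 9471680956) (nat_lit 836) (nat_lit 1874810384) (nat_lit 76) (nat_lit 4466490267) (nat_lit 379) (nat_lit 5) (nat_lit 390) (nat_lit 5) (nat_lit 380) (nat_lit 5) (nat_lit 468) (nat_lit 425) (nat_lit 247))) (XT.nd (nat_lit 78) (nat_lit 836) (nat_lit 0) (XT.lf (nat_lit 0) (nat_lit 7369304321)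 (nat_lit 760) (nat_lit 4663237028) (nat_lit 836) (nat_lit 3953539924) (nat_lit 369) (nat_lit 5) (nat_lit 379) (nat_lit 5) (nat_lit 380) (nat_lit 5) (nat_lit 469) (nat_lit 425) (nat_lit 246)) (XT.nd (nat_lit 78) (nat_lit 76) (nat_lit 0) (XT.lf (nat_lit 0) (nat_lit 646205734) (nat_lit 760) (nat_lit 14020819437) (nat_lit 836) (nat_lit 1495169635) (nat_lit 359) (nat_lit 5) (nat_lit 369) (nat_lit 5) (nat_lit 370) (nat_lit 5) (nat_lit 470) (nat_lit 425) (nat_lit 245)) (XT.lf (nat_lit 0) (nat_lit 1079791083) (nat_lit 836) (nat_lit 6176836931) (nat_lit 76) (nat_lit 9083457128) (nat_lit 358) (nat_lit 5) (nat_lit 369) (nat_lit 5) (nat_lit 359) (nat_lit 5) (nat_lit 471) (nat_lit 425) (nat_lit 244))))) (XT.nd (nat_lit 156) (nat_lit 1368) (nat_lit 0) (XT.nd (nat_lit 78) (nat_lit 0) (nat_lit 0) (XT.lf (nat_lit 0) (nat_lit 3374060353) (nat_lit 684) (nat_lit 325872171) (nat_lit 760) (nat_lit 12821129064) (nat_lit 349) (nat_lit 5) (nat_lit 358) (nat_lit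 5) (nat_lit 359) (nat_lit 5) (nat_lit 472) (nat_lit 425) (nat_lit 243)) (XT.lf (nat_lit 0) (nat_lit 6449853753) (nat_lit 760) (nat_lit 3558662511) (nat_lit 76) (nat_lit 6695593759) (nat_lit 349) (nat_lit 5) (nat_lit 359) (nat_lit 5) (nat_lit 350) (nat_lit 5) (nat_lit 473) (nat_lit 425) (nat_lit 242))) (XT.nd (nat_lit 78) (nat_lit 684) (nat_lit 0) (XT.lf (nat_lit 0) (nat_lit 6292517879) (nat_lit 684) (nat_lit 2997297608) (nat_lit 760) (nat_lit 7600303098) (nat_lit 340) (nat_lit 5) (nat_lit 349) (nat_lit 5) (nat_lit 350) (nat_lit 5) (nat_lit 474) (nat_lit 425) (nat_lit 241)) (XT.nd (nat_lit 78) (nat_lit 684) (nat_lit 0) (XT.lf (nat_lit 0) (nat_lit 12229702887) (nat_lit 760) (nat_lit 726920888) (nat_lit 76) (nat_lit 4122361014) (nat_lit 340) (nat_lit 5) (nat_lit 350) (nat_lit 5) (nat_lit 341) (nat_lit 5) (nat_lit 475) (nat_lit 425) (nat_lit 240)) (XT.lf (nat_lit 0) (nat_lit 9435878024) (nat_lit 684) (nat_lit 5865894540) (nat_lit 760) (nat_lit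 1968388063) (nat_lit 331) (nat_lit 5) (nat_lit 340) (nat_lit 5) (nat_lit 341) (nat_lit 5) (nat_lit 476) (nat_lit 425) (nat_lit 239))))))) (XT.nd (nat_lit 780) (nat_lit 3344) (nat_lit 0) (XT.nd (nat_lit 390) (nat_lit 1824) (nat_lit 0) (XT.nd (nat_lit 156) (nat_lit 1216) (nat_lit 0) (XT.nd (nat_lit 78) (nat_lit 0) (nat_lit 0) (XT.lf (nat_lit 0) (nat_lit 978998628) (nat_lit 760) (nat_lit 15111688563) (nat_lit 76) (nat_lit 1373914852) (nat_lit 321) (nat_lit 5) (nat_lit 331) (nat_lit 5) (nat_lit 322) (nat_lit 5) (nat_lit 477) (nat_lit 425) (nat_lit 238)) (XT.lf (nat_lit 0) (nat_lit 4043161688) (nat_lit 760) (nat_lit 4873383016) (nat_lit 76) (nat_lit 8744443654) (nat_lit 321) (nat_lit 5) (nat_lit 331) (nat_lit 5) (nat_lit 322) (nat_lit 5) (nat_lit 478) (nat_lit 425) (nat_lit 237))) (XT.nd (nat_lit 78) (nat_lit 608) (nat_lit 0) (XT.lf (nat_lit 0) (nat_lit 5634447594) (nat_lit 608) (nat_lit 1563285544) (nat_lit 684) (nat_lit 10662986758) (nat_lit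 313) (nat_lit 5) (nat_lit 321) (nat_lit 5) (nat_lit 322) (nat_lit 5) (nat_lit 479) (nat_lit 425) (nat_lit 236)) (XT.nd (nat_lit 78) (nat_lit 608) (nat_lit 0) (XT.lf (nat_lit 0) (nat_lit 10479481512) (nat_lit 684) (nat_lit 1693275010) (nat_lit 76) (nat_lit 5890407835) (nat_lit 313) (nat_lit 5) (nat_lit 322) (nat_lit 5) (nat_lit 314) (nat_lit 5) (nat_lit 480) (nat_lit 425) (nat_lit 235)) (XT.lf (nat_lit 0) (nat_lit 9151013155) (nat_lit 608) (nat_lit 4738382516) (nat_lit 684) (nat_lit 4379011419) (nat_lit 305) (nat_lit 5) (nat_lit 313) (nat_lit 5) (nat_lit 314) (nat_lit 5) (nat_lit 481) (nat_lit 425) (nat_lit 234))))) (XT.nd (nat_lit 156) (nat_lit 1140) (nat_lit 0) (XT.nd (nat_lit 78) (nat_lit 76) (nat_lit 0) (XT.lf (nat_lit 0) (nat_lit 1752952772) (nat_lit 608) (nat_lit 15648679525) (nat_lit 684) (nat_lit 1075439897) (nat_lit 297) (nat_lit 5) (nat_lit 305) (nat_lit 5) (nat_lit 306) (nat_lit 5) (nat_lit 482) (nat_lit 425) (nat_lit 233))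 (XT.lf (nat_lit 0) (nat_lit 2349952022) (nat_lit 684) (nat_lit 5780212573) (nat_lit 76) (nat_lit 10557731337) (nat_lit 296) (nat_lit 5) (nat_lit 305) (nat_lit 5) (nat_lit 297) (nat_lit 5) (nat_lit 483) (nat_lit 425) (nat_lit 232))) (XT.nd (nat_lit 78) (nat_lit 532) (nat_lit 0) (XT.lf (nat_lit 0) (nat_lit 5437807304) (nat_lit 608) (nat_lit 419973590) (nat_lit 684) (nat_lit 13044446494) (nat_lit 288) (nat_lit 5) (nat_lit 296) (nat_lit 5) (nat_lit 297) (nat_lit 5) (nat_lit 484) (nat_lit 425) (nat_lit 231)) (XT.nd (nat_lit 78) (nat_lit 532) (nat_lit 0) (XT.lf (nat_lit 0) (nat_lit 9516221889) (nat_lit 684) (nat_lit 2219147967) (nat_lit 76) (nat_lit 7383866506) (nat_lit 288) (nat_lit 5) (nat_lit 297) (nat_lit 5) (nat_lit 289) (nat_lit 5) (nat_lit 485) (nat_lit 425) (nat_lit 230)) (XT.lf (nat_lit 0) (nat_lit 9362184907) (nat_lit 532) (nat_lit 3942425629) (nat_lit 608) (nat_lit 6034839402) (nat_lit 281) (nat_lit 5) (nat_lit 288) (nat_lit 5) (nat_lit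 289) (nat_lit 5) (nat_lit 486) (nat_lit 425) (nat_lit 229)))))) (XT.nd (nat_lit 390) (nat_lit 1596) (nat_lit 0) (XT.nd (nat_lit 156) (nat_lit 1064) (nat_lit 0) (XT.nd (nat_lit 78) (nat_lit 76) (nat_lit 0) (XT.lf (nat_lit 0) (nat_lit 1627780926) (nat_lit 608) (nat_lit 15585831543) (nat_lit 684) (nat_lit 2349558407) (nat_lit 273) (nat_lit 5) (nat_lit 281) (nat_lit 5) (nat_lit 282) (nat_lit 5) (nat_lit 487) (nat_lit 425) (nat_lit 228)) (XT.lf (nat_lit 0) (nat_lit 1477753063) (nat_lit 684) (nat_lit 6234501030) (nat_lit 76) (nat_lit 12077192925) (nat_lit 272) (nat_lit 5) (nat_lit 281) (nat_lit 5) (nat_lit 273) (nat_lit 5) (nat_lit 488) (nat_lit 425) (nat_lit 227))) (XT.nd (nat_lit 78) (nat_lit 532) (nat_lit 0) (XT.lf (nat_lit 0) (nat_lit 5383364235) (nat_lit 608) (nat_lit 14270217646) (nat_lit 76) (nat_lit 365691910) (nat_lit 265) (nat_lit 5) (nat_lit 273) (nat_lit 5) (nat_lit 266) (nat_lit 5) (nat_lit 489) (nat_lit 425) (nat_lit 226)) (XT.nd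 (nat_lit 78) (nat_lit 532) (nat_lit 0) (XT.lf (nat_lit 0) (nat_lit 9453769920) (nat_lit 608) (nat_lit 2256242580) (nat_lit 76) (nat_lit 8541950954) (nat_lit 265) (nat_lit 5) (nat_lit 273) (nat_lit 5) (nat_lit 266) (nat_lit 5) (nat_lit 490) (nat_lit 425) (nat_lit 225)) (XT.lf (nat_lit 0) (nat_lit 10122112979) (nat_lit 532) (nat_lit 3542811694) (nat_lit 608) (nat_lit 6823195417) (nat_lit 258) (nat_lit 5) (nat_lit 265) (nat_lit 5) (nat_lit 266) (nat_lit 5) (nat_lit 491) (nat_lit 425) (nat_lit 224))))) (XT.nd (nat_lit 234) (nat_lit 456) (nat_lit 0) (XT.nd (nat_lit 78) (nat_lit 608) (nat_lit 0) (XT.lf (nat_lit 0) (nat_lit 2036742642) (nat_lit 532) (nat_lit 15976785648) (nat_lit 608) (nat_lit 2714407054) (nat_lit 251) (nat_lit 5) (nat_lit 258) (nat_lit 5) (nat_lit 259) (nat_lit 5) (nat_lit 492) (nat_lit 425) (nat_lit 223)) (XT.nd (nat_lit 78) (nat_lit 532) (nat_lit 0) (XT.lf (nat_lit 0) (nat_lit 1544378441) (nat_lit 608) (nat_lit 6185337289)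 (nat_lit 76) (nat_lit 13240895703) (nat_lit 250) (nat_lit 5) (nat_lit 258) (nat_lit 5) (nat_lit 251) (nat_lit 5) (nat_lit 493) (nat_lit 425) (nat_lit 222)) (XT.lf (nat_lit 0) (nat_lit 5893725360) (nat_lit 608) (nat_lit 14590797821) (nat_lit 76) (nat_lit 732424386) (nat_lit 243) (nat_lit 5) (nat_lit 251) (nat_lit 5) (nat_lit 244) (nat_lit 5) (nat_lit 494) (nat_lit 425) (nat_lit 221)))) (XT.nd (nat_lit 78) (nat_lit 456) (nat_lit 0) (XT.lf (nat_lit 0) (nat_lit 10416907207) (nat_lit 608) (nat_lit 1749747146) (nat_lit 76) (nat_lit 9299819111) (nat_lit 243) (nat_lit 5) (nat_lit 251) (nat_lit 5) (nat_lit 244) (nat_lit 5) (nat_lit 495) (nat_lit 425) (nat_lit 220)) (XT.nd (nat_lit 53898) (nat_lit 0) (nat_lit 23408) (XT.lf (nat_lit 0) (nat_lit 11490379598) (nat_lit 456) (nat_lit 3608772408) (nat_lit 532) (nat_lit 6620465888) (nat_lit 237) (nat_lit 5) (nat_lit 243) (nat_lit 5) (nat_lit 244) (nat_lit 5) (nat_lit 496) (nat_lit 425) (nat_lit 219))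 (XT.lf (nat_lit 0) (nat_lit 1127831451) (nat_lit 1748) (nat_lit 2067186868) (nat_lit 1748) (nat_lit 2067186868) (nat_lit 545) (nat_lit 3) (nat_lit 568) (nat_lit 3) (nat_lit 568) (nat_lit 5) (nat_lit 426) (nat_lit 426) (nat_lit 288))))))))
noncomputable def xc213 : XT := (XT.nd (nat_lit 1560) (nat_lit 10488) (nat_lit 0) (XT.nd (nat_lit 780) (nat_lit 1368) (nat_lit 0) (XT.nd (nat_lit 390) (nat_lit 0) (nat_lit 228) (XT.nd (nat_lit 156) (nat_lit 0) (nat_lit 76) (XT.nd (nat_lit 78) (nat_lit 0) (nat_lit 76) (XT.lf (nat_lit 76) (nat_lit 1142819738) (nat_lit 0) (nat_lit 1777868451) (nat_lit 1748) (nat_lit 7696116920) (nat_lit 546) (nat_lit 5) (nat_lit 545) (nat_lit 3) (nat_lit 568) (nat_lit 5) (nat_lit 427) (nat_lit 426) (nat_lit 287)) (XT.lf (nat_lit 0) (nat_lit 3629281775) (nat_lit 1672) (nat_lit 4157073189) (nat_lit 1748) (nat_lit 2924087414) (nat_lit 546) (nat_lit 5) (nat_lit 568) (nat_lit 5) (nat_lit 569) (nat_lit 5) (nat_lit 428) (nat_lit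 426) (nat_lit 286))) (XT.nd (nat_lit 78) (nat_lit 0) (nat_lit 76) (XT.lf (nat_lit 76) (nat_lit 1262137665) (nat_lit 0) (nat_lit 3093544025) (nat_lit 1748) (nat_lit 6450198014) (nat_lit 547) (nat_lit 5) (nat_lit 546) (nat_lit 5) (nat_lit 569) (nat_lit 5) (nat_lit 429) (nat_lit 426) (nat_lit 285)) (XT.nd (nat_lit 78) (nat_lit 0) (nat_lit 0) (XT.lf (nat_lit 0) (nat_lit 5119660094) (nat_lit 1672) (nat_lit 4076892145) (nat_lit 1748) (nat_lit 1706212528) (nat_lit 547) (nat_lit 5) (nat_lit 569) (nat_lit 5) (nat_lit 570) (nat_lit 5) (nat_lit 430) (nat_lit 426) (nat_lit 284)) (XT.lf (nat_lit 76) (nat_lit 1489390712) (nat_lit 0) (nat_lit 4423975412) (nat_lit 1748) (nat_lit 5087932445) (nat_lit 548) (nat_lit 5) (nat_lit 547) (nat_lit 5) (nat_lit 570) (nat_lit 5) (nat_lit 431) (nat_lit 426) (nat_lit 283))))) (XT.nd (nat_lit 156) (nat_lit 0) (nat_lit 0) (XT.nd (nat_lit 78) (nat_lit 0) (nat_lit 0) (XT.lf (nat_lit 0) (nat_lit 6737952461) (nat_lit 1672)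 (nat_lit 3891301124) (nat_lit 1748) (nat_lit 472249338) (nat_lit 548) (nat_lit 5) (nat_lit 570) (nat_lit 5) (nat_lit 571) (nat_lit 5) (nat_lit 432) (nat_lit 426) (nat_lit 282)) (XT.lf (nat_lit 76) (nat_lit 1827323268) (nat_lit 0) (nat_lit 5777755408) (nat_lit 1748) (nat_lit 3598111725) (nat_lit 549) (nat_lit 5) (nat_lit 548) (nat_lit 5) (nat_lit 571) (nat_lit 5) (nat_lit 433) (nat_lit 426) (nat_lit 281))) (XT.nd (nat_lit 78) (nat_lit 0) (nat_lit 76) (XT.lf (nat_lit 76) (nat_lit 7704065082) (nat_lit 0) (nat_lit 796719020) (nat_lit 1748) (nat_lit 2805902795) (nat_lit 549) (nat_lit 5) (nat_lit 548) (nat_lit 5) (nat_lit 571) (nat_lit 5) (nat_lit 434) (nat_lit 426) (nat_lit 280)) (XT.nd (nat_lit 78) (nat_lit 0) (nat_lit 0) (XT.lf (nat_lit 76) (nat_lit 2279008623) (nat_lit 0) (nat_lit 7163459093) (nat_lit 1748) (nat_lit 1969224323) (nat_lit 550) (nat_lit 5) (nat_lit 549) (nat_lit 5) (nat_lit 572) (nat_lit 5) (nat_lit 435) (nat_lit 426) (nat_lit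 279)) (XT.lf (nat_lit 76) (nat_lit 8312664759) (nat_lit 0) (nat_lit 2105416567) (nat_lit 1748) (nat_lit 1100414034) (nat_lit 550) (nat_lit 5) (nat_lit 549) (nat_lit 5) (nat_lit 572) (nat_lit 5) (nat_lit 436) (nat_lit 426) (nat_lit 278)))))) (XT.nd (nat_lit 390) (nat_lit 0) (nat_lit 152) (XT.nd (nat_lit 156) (nat_lit 0) (nat_lit 76) (XT.nd (nat_lit 78) (nat_lit 1748) (nat_lit 0) (XT.lf (nat_lit 76) (nat_lit 2847851421) (nat_lit 0) (nat_lit 8589666459) (nat_lit 1748) (nat_lit 189430651) (nat_lit 551) (nat_lit 5) (nat_lit 550) (nat_lit 5) (nat_lit 573) (nat_lit 5) (nat_lit 437) (nat_lit 426) (nat_lit 277)) (XT.lf (nat_lit 0) (nat_lit 751785677) (nat_lit 1748) (nat_lit 2699320761) (nat_lit 1824) (nat_lit 8285933957) (nat_lit 527) (nat_lit 5) (nat_lit 550) (nat_lit 5) (nat_lit 551) (nat_lit 5) (nat_lit 438) (nat_lit 426) (nat_lit 276))) (XT.nd (nat_lit 78) (nat_lit 0) (nat_lit 0) (XT.lf (nat_lit 0) (nat_lit 1730465341) (nat_lit 1748) (nat_lit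 8322906979) (nat_lit 1824) (nat_lit 1795513223) (nat_lit 528) (nat_lit 5) (nat_lit 551) (nat_lit 5) (nat_lit 552) (nat_lit 5) (nat_lit 439) (nat_lit 426) (nat_lit 275)) (XT.nd (nat_lit 78) (nat_lit 0) (nat_lit 76) (XT.lf (nat_lit 0) (nat_lit 2756432326) (nat_lit 1748) (nat_lit 2082613069) (nat_lit 1824) (nat_lit 7123367924) (nat_lit 528) (nat_lit 5) (nat_lit 551) (nat_lit 5) (nat_lit 552) (nat_lit 5) (nat_lit 440) (nat_lit 426) (nat_lit 274)) (XT.lf (nat_lit 0) (nat_lit 3821244505) (nat_lit 1748) (nat_lit 7751182817) (nat_lit 1824) (nat_lit 505417812) (nat_lit 529) (nat_lit 5) (nat_lit 552) (nat_lit 5) (nat_lit 553) (nat_lit 5) (nat_lit 441) (nat_lit 426) (nat_lit 273))))) (XT.nd (nat_lit 156) (nat_lit 0) (nat_lit 76) (XT.nd (nat_lit 78) (nat_lit 0) (nat_lit 0) (XT.lf (nat_lit 0) (nat_lit 4940576725) (nat_lit 1748) (nat_lit 1344535929) (nat_lit 1824) (nat_lit 5909808456) (nat_lit 529) (nat_lit 5) (nat_lit 552) (nat_lit 5) (nat_lit 553)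 (nat_lit 5) (nat_lit 442) (nat_lit 426) (nat_lit 272)) (XT.lf (nat_lit 76) (nat_lit 5249837418) (nat_lit 0) (nat_lit 853905517) (nat_lit 1824) (nat_lit 6210166723) (nat_lit 530) (nat_lit 5) (nat_lit 529) (nat_lit 5) (nat_lit 553) (nat_lit 5) (nat_lit 443) (nat_lit 426) (nat_lit 271))) (XT.nd (nat_lit 78) (nat_lit 0) (nat_lit 0) (XT.lf (nat_lit 0) (nat_lit 7317250021) (nat_lit 1748) (nat_lit 480725883) (nat_lit 1824) (nat_lit 4636760521) (nat_lit 530) (nat_lit 5) (nat_lit 553) (nat_lit 5) (nat_lit 554) (nat_lit 5) (nat_lit 444) (nat_lit 426) (nat_lit 270)) (XT.nd (nat_lit 78) (nat_lit 0) (nat_lit 76) (XT.lf (nat_lit 76) (nat_lit 6302001694) (nat_lit 0) (nat_lit 2287412152) (nat_lit 1824) (nat_lit 3967878151) (nat_lit 531) (nat_lit 5) (nat_lit 530) (nat_lit 5) (nat_lit 554) (nat_lit 5) (nat_lit 445) (nat_lit 426) (nat_lit 269)) (XT.lf (nat_lit 76) (nat_lit 520346986) (nat_lit 0) (nat_lit 9382954044) (nat_lit 1824) (nat_lit 2778672048) (nat_lit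 532) (nat_lit 5) (nat_lit 531) (nat_lit 5) (nat_lit 555) (nat_lit 5) (nat_lit 446) (nat_lit 426) (nat_lit 268))))))) (XT.nd (nat_lit 780) (nat_lit 5244) (nat_lit 0) (XT.nd (nat_lit 390) (nat_lit 3800) (nat_lit 0) (XT.nd (nat_lit 156) (nat_lit 1748) (nat_lit 0) (XT.nd (nat_lit 78) (nat_lit 0) (nat_lit 76) (XT.lf (nat_lit 76) (nat_lit 7491522036) (nat_lit 0) (nat_lit 3797154845) (nat_lit 1824) (nat_lit 1519566681) (nat_lit 532) (nat_lit 5) (nat_lit 531) (nat_lit 5) (nat_lit 555) (nat_lit 5) (nat_lit 447) (nat_lit 426) (nat_lit 267)) (XT.lf (nat_lit 76) (nat_lit 1665101226) (nat_lit 0) (nat_lit 11048241139) (nat_lit 1824) (nat_lit 223465448) (nat_lit 533) (nat_lit 5) (nat_lit 532) (nat_lit 5) (nat_lit 556) (nat_lit 5) (nat_lit 448) (nat_lit 426) (nat_lit 266))) (XT.nd (nat_lit 78) (nat_lit 0) (nat_lit 76) (XT.lf (nat_lit 0) (nat_lit 1133733957) (nat_lit 1824) (nat_lit 4250685124) (nat_lit 1900) (nat_lit 7682389939) (nat_lit 508) (nat_lit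 5) (nat_lit 532) (nat_lit 5) (nat_lit 533) (nat_lit 5) (nat_lit 449) (nat_lit 426) (nat_lit 265)) (XT.nd (nat_lit 78) (nat_lit 0) (nat_lit 0) (XT.lf (nat_lit 0) (nat_lit 2525611998) (nat_lit 1824) (nat_lit 10263489133) (nat_lit 76) (nat_lit 410069041) (nat_lit 509) (nat_lit 5) (nat_lit 533) (nat_lit 5) (nat_lit 510) (nat_lit 5) (nat_lit 450) (nat_lit 426) (nat_lit 264)) (XT.lf (nat_lit 0) (nat_lit 3998618832) (nat_lit 1824) (nat_lit 3055615421) (nat_lit 76) (nat_lit 6278878469) (nat_lit 509) (nat_lit 5) (nat_lit 533) (nat_lit 5) (nat_lit 510) (nat_lit 5) (nat_lit 451) (nat_lit 426) (nat_lit 263))))) (XT.nd (nat_lit 156) (nat_lit 2052) (nat_lit 0) (XT.nd (nat_lit 78) (nat_lit 0) (nat_lit 0) (XT.lf (nat_lit 0) (nat_lit 4344021984) (nat_lit 1824) (nat_lit 1174404941) (nat_lit 1900) (nat_lit 7950960375) (nat_lit 485) (nat_lit 5) (nat_lit 509) (nat_lit 5) (nat_lit 510) (nat_lit 5) (nat_lit 452) (nat_lit 426) (nat_lit 262)) (XT.lf (nat_lit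 0) (nat_lit 7109884585) (nat_lit 1900) (nat_lit 1715883635) (nat_lit 76) (nat_lit 4781794083) (nat_lit 485) (nat_lit 5) (nat_lit 510) (nat_lit 5) (nat_lit 486) (nat_lit 5) (nat_lit 453) (nat_lit 426) (nat_lit 261))) (XT.nd (nat_lit 78) (nat_lit 912) (nat_lit 0) (XT.lf (nat_lit 0) (nat_lit 5902075648) (nat_lit 1140) (nat_lit 2866701856) (nat_lit 1216) (nat_lit 4979011179) (nat_lit 470) (nat_lit 5) (nat_lit 485) (nat_lit 5) (nat_lit 486) (nat_lit 5) (nat_lit 454) (nat_lit 426) (nat_lit 260)) (XT.nd (nat_lit 78) (nat_lit 912) (nat_lit 0) (XT.lf (nat_lit 0) (nat_lit 10482951296) (nat_lit 1216) (nat_lit 225357360) (nat_lit 76) (nat_lit 3182068874) (nat_lit 470) (nat_lit 5) (nat_lit 486) (nat_lit 5) (nat_lit 471) (nat_lit 5) (nat_lit 455) (nat_lit 426) (nat_lit 259)) (XT.lf (nat_lit 0) (nat_lit 7619038165) (nat_lit 912) (nat_lit 4670686550) (nat_lit 988) (nat_lit 1744927116) (nat_lit 458) (nat_lit 5) (nat_lit 470) (nat_lit 5) (nat_lit 471)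 (nat_lit 5) (nat_lit 456) (nat_lit 426) (nat_lit 258)))))) (XT.nd (nat_lit 390) (nat_lit 2508) (nat_lit 0) (XT.nd (nat_lit 156) (nat_lit 1748) (nat_lit 0) (XT.nd (nat_lit 78) (nat_lit 76) (nat_lit 0) (XT.lf (nat_lit 0) (nat_lit 1441378735) (nat_lit 912) (nat_lit 12701801715) (nat_lit 988) (nat_lit 38420232) (nat_lit 446) (nat_lit 5) (nat_lit 458) (nat_lit 5) (nat_lit 459) (nat_lit 5) (nat_lit 457) (nat_lit 426) (nat_lit 257)) (XT.lf (nat_lit 0) (nat_lit 1744237683) (nat_lit 988) (nat_lit 4839940716) (nat_lit 76) (nat_lit 7745802156) (nat_lit 445) (nat_lit 5) (nat_lit 458) (nat_lit 5) (nat_lit 446) (nat_lit 5) (nat_lit 458) (nat_lit 426) (nat_lit 256))) (XT.nd (nat_lit 78) (nat_lit 912) (nat_lit 0) (XT.lf (nat_lit 0) (nat_lit 3251400248) (nat_lit 836) (nat_lit 322016179) (nat_lit 912) (nat_lit 10907678877) (nat_lit 434) (nat_lit 5) (nat_lit 445) (nat_lit 5) (nat_lit 446) (nat_lit 5) (nat_lit 459) (nat_lit 426) (nat_lit 255)) (XT.nd (nat_lit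 78) (nat_lit 912) (nat_lit 0) (XT.lf (nat_lit 0) (nat_lit 5501656970) (nat_lit 912) (nat_lit 3113470511) (nat_lit 76) (nat_lit 6018855302) (nat_lit 434) (nat_lit 5) (nat_lit 446) (nat_lit 5) (nat_lit 435) (nat_lit 5) (nat_lit 460) (nat_lit 426) (nat_lit 254)) (XT.lf (nat_lit 0) (nat_lit 5222154267) (nat_lit 912) (nat_lit 2272938512) (nat_lit 988) (nat_lit 7294302625) (nat_lit 422) (nat_lit 5) (nat_lit 434) (nat_lit 5) (nat_lit 435) (nat_lit 5) (nat_lit 461) (nat_lit 426) (nat_lit 253))))) (XT.nd (nat_lit 234) (nat_lit 836) (nat_lit 0) (XT.nd (nat_lit 78) (nat_lit 1672) (nat_lit 0) (XT.lf (nat_lit 0) (nat_lit 9567389745) (nat_lit 988) (nat_lit 1217591359) (nat_lit 76) (nat_lit 4162155325) (nat_lit 422) (nat_lit 5) (nat_lit 435) (nat_lit 5) (nat_lit 423) (nat_lit 5) (nat_lit 462) (nat_lit 426) (nat_lit 252)) (XT.nd (nat_lit 78) (nat_lit 836) (nat_lit 0) (XT.lf (nat_lit 0) (nat_lit 7371455031) (nat_lit 836) (nat_lit 4363489803) (nat_lit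 912) (nat_lit 3372011196) (nat_lit 411) (nat_lit 5) (nat_lit 422) (nat_lit 5) (nat_lit 423) (nat_lit 5) (nat_lit 463) (nat_lit 426) (nat_lit 251)) (XT.lf (nat_lit 0) (nat_lit 866756737) (nat_lit 836) (nat_lit 13098159439) (nat_lit 912) (nat_lit 1304674544) (nat_lit 400) (nat_lit 5) (nat_lit 411) (nat_lit 5) (nat_lit 412) (nat_lit 5) (nat_lit 464) (nat_lit 426) (nat_lit 250)))) (XT.nd (nat_lit 78) (nat_lit 760) (nat_lit 0) (XT.lf (nat_lit 0) (nat_lit 865688671) (nat_lit 912) (nat_lit 5732381495) (nat_lit 76) (nat_lit 8835859043) (nat_lit 399) (nat_lit 5) (nat_lit 411) (nat_lit 5) (nat_lit 400) (nat_lit 5) (nat_lit 465) (nat_lit 426) (nat_lit 249)) (XT.nd (nat_lit 78) (nat_lit 0) (nat_lit 0) (XT.lf (nat_lit 0) (nat_lit 3074004839) (nat_lit 836) (nat_lit 12466806538) (nat_lit 76) (nat_lit 60330308) (nat_lit 389) (nat_lit 5) (nat_lit 400) (nat_lit 5) (nat_lit 390) (nat_lit 5) (nat_lit 466) (nat_lit 426) (nat_lit 248)) (XT.lf (nat_lit 0) (nat_lit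 5400263266) (nat_lit 836) (nat_lit 3568110907) (nat_lit 76) (nat_lit 6801848718) (nat_lit 389) (nat_lit 5) (nat_lit 400) (nat_lit 5) (nat_lit 390) (nat_lit 5) (nat_lit 467) (nat_lit 426) (nat_lit 247))))))))
noncomputable def xc214 : XT := (XT.nd (nat_lit 1560) (nat_lit 2888) (nat_lit 0) (XT.nd (nat_lit 780) (nat_lit 3800) (nat_lit 0) (XT.nd (nat_lit 390) (nat_lit 2052) (nat_lit 0) (XT.nd (nat_lit 156) (nat_lit 1596) (nat_lit 0) (XT.nd (nat_lit 78) (nat_lit 0) (nat_lit 0) (XT.lf (nat_lit 0) (nat_lit 5572504478) (nat_lit 760) (nat_lit 2228250289) (nat_lit 836) (nat_lit 8141376796) (nat_lit 379) (nat_lit 5) (nat_lit 389) (nat_lit 5) (nat_lit 390) (nat_lit 5) (nat_lit 468) (nat_lit 426) (nat_lit 246)) (XT.lf (nat_lit 0) (nat_lit 10295157938) (nat_lit 836) (nat_lit 1212269659) (nat_lit 76) (nat_lit 4609132775) (nat_lit 379) (nat_lit 5) (nat_lit 390) (nat_lit 5) (nat_lit 380) (nat_lit 5) (nat_lit 469) (nat_lit 426) (nat_lit 245))) (XT.nd (nat_lit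 78) (nat_lit 836) (nat_lit 0) (XT.lf (nat_lit 0) (nat_lit 8212121834) (nat_lit 760) (nat_lit 4687196684) (nat_lit 836) (nat_lit 3393961853) (nat_lit 369) (nat_lit 5) (nat_lit 379) (nat_lit 5) (nat_lit 380) (nat_lit 5) (nat_lit 470) (nat_lit 426) (nat_lit 244)) (XT.nd (nat_lit 78) (nat_lit 76) (nat_lit 0) (XT.lf (nat_lit 0) (nat_lit 1361979197) (nat_lit 760) (nat_lit 14217240349) (nat_lit 836) (nat_lit 893842079) (nat_lit 359) (nat_lit 5) (nat_lit 369) (nat_lit 5) (nat_lit 370) (nat_lit 5) (nat_lit 471) (nat_lit 426) (nat_lit 243)) (XT.lf (nat_lit 0) (nat_lit 1712124396) (nat_lit 836) (nat_lit 5603189302) (nat_lit 76) (nat_lit 9339358398) (nat_lit 358) (nat_lit 5) (nat_lit 369) (nat_lit 5) (nat_lit 359) (nat_lit 5) (nat_lit 472) (nat_lit 426) (nat_lit 242))))) (XT.nd (nat_lit 156) (nat_lit 1368) (nat_lit 0) (XT.nd (nat_lit 78) (nat_lit 0) (nat_lit 0) (XT.lf (nat_lit 0) (nat_lit 4134139188) (nat_lit 684) (nat_lit 243051035) (nat_lit 760)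 (nat_lit 12462227415) (nat_lit 349) (nat_lit 5) (nat_lit 358) (nat_lit 5) (nat_lit 359) (nat_lit 5) (nat_lit 473) (nat_lit 426) (nat_lit 241)) (XT.lf (nat_lit 0) (nat_lit 7170849941) (nat_lit 760) (nat_lit 2939558541) (nat_lit 76) (nat_lit 6915943759) (nat_lit 349) (nat_lit 5) (nat_lit 359) (nat_lit 5) (nat_lit 350) (nat_lit 5) (nat_lit 474) (nat_lit 426) (nat_lit 240))) (XT.nd (nat_lit 78) (nat_lit 684) (nat_lit 0) (XT.lf (nat_lit 0) (nat_lit 7104104159) (nat_lit 684) (nat_lit 2956351177) (nat_lit 760) (nat_lit 7155768750) (nat_lit 340) (nat_lit 5) (nat_lit 349) (nat_lit 5) (nat_lit 350) (nat_lit 5) (nat_lit 475) (nat_lit 426) (nat_lit 239)) (XT.nd (nat_lit 78) (nat_lit 684) (nat_lit 0) (XT.lf (nat_lit 0) (nat_lit 13048315180) (nat_lit 760) (nat_lit 58343882) (nat_lit 76) (nat_lit 4302425059) (nat_lit 340) (nat_lit 5) (nat_lit 350) (nat_lit 5) (nat_lit 341) (nat_lit 5) (nat_lit 476) (nat_lit 426) (nat_lit 238)) (XT.lf (nat_lit 0) (nat_lit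 10303216829) (nat_lit 684) (nat_lit 5871760222) (nat_lit 760) (nat_lit 1429243409) (nat_lit 331) (nat_lit 5) (nat_lit 340) (nat_lit 5) (nat_lit 341) (nat_lit 5) (nat_lit 477) (nat_lit 426) (nat_lit 237)))))) (XT.nd (nat_lit 390) (nat_lit 1824) (nat_lit 0) (XT.nd (nat_lit 156) (nat_lit 1216) (nat_lit 0) (XT.nd (nat_lit 78) (nat_lit 0) (nat_lit 0) (XT.lf (nat_lit 0) (nat_lit 1563498252) (nat_lit 760) (nat_lit 14721708326) (nat_lit 76) (nat_lit 1517389112) (nat_lit 321) (nat_lit 5) (nat_lit 331) (nat_lit 5) (nat_lit 322) (nat_lit 5) (nat_lit 478) (nat_lit 426) (nat_lit 236)) (XT.lf (nat_lit 0) (nat_lit 4677867718) (nat_lit 760) (nat_lit 4292209492) (nat_lit 76) (nat_lit 9033054059) (nat_lit 321) (nat_lit 5) (nat_lit 331) (nat_lit 5) (nat_lit 322) (nat_lit 5) (nat_lit 479) (nat_lit 426) (nat_lit 235))) (XT.nd (nat_lit 78) (nat_lit 608) (nat_lit 0) (XT.lf (nat_lit 0) (nat_lit 6421312986) (nat_lit 608) (nat_lit 1467735150) (nat_lit 684) (nat_lit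 10317938953) (nat_lit 313) (nat_lit 5) (nat_lit 321) (nat_lit 5) (nat_lit 322) (nat_lit 5) (nat_lit 480) (nat_lit 426) (nat_lit 234)) (XT.nd (nat_lit 78) (nat_lit 608) (nat_lit 0) (XT.lf (nat_lit 0) (nat_lit 11226506150) (nat_lit 684) (nat_lit 1056257891) (nat_lit 76) (nat_lit 6130914903) (nat_lit 313) (nat_lit 5) (nat_lit 322) (nat_lit 5) (nat_lit 314) (nat_lit 5) (nat_lit 481) (nat_lit 426) (nat_lit 233)) (XT.lf (nat_lit 0) (nat_lit 10000502336) (nat_lit 608) (nat_lit 4697905473) (nat_lit 684) (nat_lit 3924742938) (nat_lit 305) (nat_lit 5) (nat_lit 313) (nat_lit 5) (nat_lit 314) (nat_lit 5) (nat_lit 482) (nat_lit 426) (nat_lit 232))))) (XT.nd (nat_lit 156) (nat_lit 1140) (nat_lit 0) (XT.nd (nat_lit 78) (nat_lit 76) (nat_lit 0) (XT.lf (nat_lit 0) (nat_lit 2459778347) (nat_lit 608) (nat_lit 15815917094) (nat_lit 684) (nat_lit 560397586) (nat_lit 297) (nat_lit 5) (nat_lit 305) (nat_lit 5) (nat_lit 306) (nat_lit 5) (nat_lit 483) (nat_lit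 426) (nat_lit 231)) (XT.lf (nat_lit 0) (nat_lit 2916082576) (nat_lit 684) (nat_lit 5230323213) (nat_lit 76) (nat_lit 10904865432) (nat_lit 296) (nat_lit 5) (nat_lit 305) (nat_lit 5) (nat_lit 297) (nat_lit 5) (nat_lit 484) (nat_lit 426) (nat_lit 230))) (XT.nd (nat_lit 78) (nat_lit 532) (nat_lit 0) (XT.lf (nat_lit 0) (nat_lit 6207678814) (nat_lit 608) (nat_lit 280502562) (nat_lit 684) (nat_lit 12781825663) (nat_lit 288) (nat_lit 5) (nat_lit 296) (nat_lit 5) (nat_lit 297) (nat_lit 5) (nat_lit 485) (nat_lit 426) (nat_lit 229)) (XT.nd (nat_lit 78) (nat_lit 532) (nat_lit 0) (XT.lf (nat_lit 0) (nat_lit 10210668814) (nat_lit 684) (nat_lit 1606256232) (nat_lit 76) (nat_lit 7674613593) (nat_lit 288) (nat_lit 5) (nat_lit 297) (nat_lit 5) (nat_lit 289) (nat_lit 5) (nat_lit 486) (nat_lit 426) (nat_lit 228)) (XT.lf (nat_lit 0) (nat_lit 10202379123) (nat_lit 532) (nat_lit 3866800744) (nat_lit 608) (nat_lit 5647089527) (nat_lit 281) (nat_lit 5) (nat_lit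 288) (nat_lit 5) (nat_lit 289) (nat_lit 5) (nat_lit 487) (nat_lit 426) (nat_lit 227))))))) (XT.nd (nat_lit 54678) (nat_lit 0) (nat_lit 21584) (XT.nd (nat_lit 390) (nat_lit 1140) (nat_lit 0) (XT.nd (nat_lit 156) (nat_lit 1064) (nat_lit 0) (XT.nd (nat_lit 78) (nat_lit 76) (nat_lit 0) (XT.lf (nat_lit 0) (nat_lit 2317898944) (nat_lit 608) (nat_lit 15733941444) (nat_lit 684) (nat_lit 1892714793) (nat_lit 273) (nat_lit 5) (nat_lit 281) (nat_lit 5) (nat_lit 282) (nat_lit 5) (nat_lit 488) (nat_lit 426) (nat_lit 226)) (XT.lf (nat_lit 0) (nat_lit 1994785476) (nat_lit 684) (nat_lit 5708043714) (nat_lit 76) (nat_lit 12472657222) (nat_lit 272) (nat_lit 5) (nat_lit 281) (nat_lit 5) (nat_lit 273) (nat_lit 5) (nat_lit 489) (nat_lit 426) (nat_lit 225))) (XT.nd (nat_lit 78) (nat_lit 532) (nat_lit 0) (XT.lf (nat_lit 0) (nat_lit 5974219989) (nat_lit 608) (nat_lit 13900185782) (nat_lit 76) (nat_lit 535589726) (nat_lit 265) (nat_lit 5) (nat_lit 273) (nat_lit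 5) (nat_lit 266) (nat_lit 5) (nat_lit 490) (nat_lit 426) (nat_lit 224)) (XT.nd (nat_lit 78) (nat_lit 532) (nat_lit 0) (XT.lf (nat_lit 0) (nat_lit 10116559505) (nat_lit 608) (nat_lit 1658782904) (nat_lit 76) (nat_lit 8872186030) (nat_lit 265) (nat_lit 5) (nat_lit 273) (nat_lit 5) (nat_lit 266) (nat_lit 5) (nat_lit 491) (nat_lit 426) (nat_lit 223)) (XT.lf (nat_lit 0) (nat_lit 10962912236) (nat_lit 532) (nat_lit 3443881240) (nat_lit 608) (nat_lit 6481717609) (nat_lit 258) (nat_lit 5) (nat_lit 265) (nat_lit 5) (nat_lit 266) (nat_lit 5) (nat_lit 492) (nat_lit 426) (nat_lit 222))))) (XT.nd (nat_lit 156) (nat_lit 532) (nat_lit 0) (XT.nd (nat_lit 78) (nat_lit 76) (nat_lit 0) (XT.lf (nat_lit 0) (nat_lit 2719849412) (nat_lit 532) (nat_lit 16118583558) (nat_lit 608) (nat_lit 2294768399) (nat_lit 251) (nat_lit 5) (nat_lit 258) (nat_lit 5) (nat_lit 259) (nat_lit 5) (nat_lit 493) (nat_lit 426) (nat_lit 221)) (XT.lf (nat_lit 0) (nat_lit 2033806364)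 (nat_lit 608) (nat_lit 5673173886) (nat_lit 76) (nat_lit 13673872605) (nat_lit 250) (nat_lit 5) (nat_lit 258) (nat_lit 5) (nat_lit 251) (nat_lit 5) (nat_lit 494) (nat_lit 426) (nat_lit 220))) (XT.nd (nat_lit 78) (nat_lit 0) (nat_lit 0) (XT.lf (nat_lit 0) (nat_lit 6466406492) (nat_lit 608) (nat_lit 14243009899) (nat_lit 76) (nat_lit 922773995) (nat_lit 243) (nat_lit 5) (nat_lit 251) (nat_lit 5) (nat_lit 244) (nat_lit 5) (nat_lit 495) (nat_lit 426) (nat_lit 219)) (XT.nd (nat_lit 53976) (nat_lit 0) (nat_lit 22952) (XT.lf (nat_lit 0) (nat_lit 11071134199) (nat_lit 608) (nat_lit 1157679463) (nat_lit 76) (nat_lit 9658071495) (nat_lit 243) (nat_lit 5) (nat_lit 251) (nat_lit 5) (nat_lit 244) (nat_lit 5) (nat_lit 496) (nat_lit 426) (nat_lit 218)) (XT.lf (nat_lit 0) (nat_lit 1781313636) (nat_lit 1748) (nat_lit 1786758573) (nat_lit 1748) (nat_lit 1786758573) (nat_lit 545) (nat_lit 3) (nat_lit 568) (nat_lit 3) (nat_lit 568) (nat_lit 5) (nat_lit 427)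 (nat_lit 427) (nat_lit 286)))))) (XT.nd (nat_lit 390) (nat_lit 1368) (nat_lit 0) (XT.nd (nat_lit 156) (nat_lit 0) (nat_lit 76) (XT.nd (nat_lit 78) (nat_lit 0) (nat_lit 76) (XT.lf (nat_lit 76) (nat_lit 1804986357) (nat_lit 0) (nat_lit 2415375354) (nat_lit 1748) (nat_lit 6583954305) (nat_lit 546) (nat_lit 5) (nat_lit 545) (nat_lit 3) (nat_lit 568) (nat_lit 5) (nat_lit 428) (nat_lit 427) (nat_lit 285)) (XT.lf (nat_lit 0) (nat_lit 4914957119) (nat_lit 1672) (nat_lit 3585269874) (nat_lit 1748) (nat_lit 2400162439) (nat_lit 546) (nat_lit 5) (nat_lit 568) (nat_lit 5) (nat_lit 569) (nat_lit 5) (nat_lit 429) (nat_lit 427) (nat_lit 284))) (XT.nd (nat_lit 78) (nat_lit 0) (nat_lit 76) (XT.lf (nat_lit 76) (nat_lit 1938016350) (nat_lit 0) (nat_lit 3698306970) (nat_lit 1748) (nat_lit 5361803418) (nat_lit 547) (nat_lit 5) (nat_lit 546) (nat_lit 5) (nat_lit 569) (nat_lit 5) (nat_lit 430) (nat_lit 427) (nat_lit 283)) (XT.nd (nat_lit 78) (nat_lit 0) (nat_lit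 0) (XT.lf (nat_lit 0) (nat_lit 6388723080) (nat_lit 1672) (nat_lit 3493693412) (nat_lit 1748) (nat_lit 1215070174) (nat_lit 547) (nat_lit 5) (nat_lit 569) (nat_lit 5) (nat_lit 570) (nat_lit 5) (nat_lit 431) (nat_lit 427) (nat_lit 282)) (XT.lf (nat_lit 76) (nat_lit 2179541835) (nat_lit 0) (nat_lit 5000173034) (nat_lit 1748) (nat_lit 4018648042) (nat_lit 548) (nat_lit 5) (nat_lit 547) (nat_lit 5) (nat_lit 570) (nat_lit 5) (nat_lit 432) (nat_lit 427) (nat_lit 281))))) (XT.nd (nat_lit 234) (nat_lit 1596) (nat_lit 0) (XT.nd (nat_lit 78) (nat_lit 0) (nat_lit 0) (XT.lf (nat_lit 0) (nat_lit 7995177034) (nat_lit 1672) (nat_lit 3296096238) (nat_lit 1748) (nat_lit 9810400) (nat_lit 548) (nat_lit 5) (nat_lit 570) (nat_lit 5) (nat_lit 571) (nat_lit 5) (nat_lit 433) (nat_lit 427) (nat_lit 280)) (XT.nd (nat_lit 78) (nat_lit 0) (nat_lit 0) (XT.lf (nat_lit 76) (nat_lit 2532472807) (nat_lit 0) (nat_lit 6329504853) (nat_lit 1748) (nat_lit 2543180602) (nat_lit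 549) (nat_lit 5) (nat_lit 548) (nat_lit 5) (nat_lit 571) (nat_lit 5) (nat_lit 434) (nat_lit 427) (nat_lit 279)) (XT.lf (nat_lit 76) (nat_lit 8513639593) (nat_lit 0) (nat_lit 1240294906) (nat_lit 1748) (nat_lit 1757223441) (nat_lit 549) (nat_lit 5) (nat_lit 548) (nat_lit 5) (nat_lit 571) (nat_lit 5) (nat_lit 435) (nat_lit 427) (nat_lit 278)))) (XT.nd (nat_lit 78) (nat_lit 1672) (nat_lit 0) (XT.lf (nat_lit 76) (nat_lit 3000047992) (nat_lit 0) (nat_lit 7694829297) (nat_lit 1748) (nat_lit 923777387) (nat_lit 550) (nat_lit 5) (nat_lit 549) (nat_lit 5) (nat_lit 572) (nat_lit 5) (nat_lit 436) (nat_lit 427) (nat_lit 277)) (XT.nd (nat_lit 78) (nat_lit 1672) (nat_lit 0) (XT.lf (nat_lit 76) (nat_lit 9141132952) (nat_lit 0) (nat_lit 2528016096) (nat_lit 1748) (nat_lit 58862096) (nat_lit 550) (nat_lit 5) (nat_lit 549) (nat_lit 5) (nat_lit 572) (nat_lit 5) (nat_lit 437) (nat_lit 427) (nat_lit 276)) (XT.lf (nat_lit 0) (nat_lit 840358634) (nat_lit 1748)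 (nat_lit 8258693223) (nat_lit 1824) (nat_lit 2739839860) (nat_lit 527) (nat_lit 5) (nat_lit 550) (nat_lit 5) (nat_lit 551) (nat_lit 5) (nat_lit 438) (nat_lit 427) (nat_lit 275))))))))
noncomputable def xc215 : XT := (XT.nd (nat_lit 1638) (nat_lit 9424) (nat_lit 0) (XT.nd (nat_lit 780) (nat_lit 6232) (nat_lit 0) (XT.nd (nat_lit 390) (nat_lit 0) (nat_lit 152) (XT.nd (nat_lit 156) (nat_lit 0) (nat_lit 76) (XT.nd (nat_lit 78) (nat_lit 0) (nat_lit 76) (XT.lf (nat_lit 0) (nat_lit 1777648639) (nat_lit 1748) (nat_lit 2072198036) (nat_lit 1824) (nat_lit 8101717983) (nat_lit 527) (nat_lit 5) (nat_lit 550) (nat_lit 5) (nat_lit 551) (nat_lit 5) (nat_lit 439) (nat_lit 427) (nat_lit 274)) (XT.lf (nat_lit 0) (nat_lit 2758405193) (nat_lit 1748) (nat_lit 7790759275) (nat_lit 1824) (nat_lit 1516832174) (nat_lit 528) (nat_lit 5) (nat_lit 551) (nat_lit 5) (nat_lit 552) (nat_lit 5) (nat_lit 440) (nat_lit 427) (nat_lit 273))) (XT.nd (nat_lit 78) (nat_lit 0)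 (nat_lit 76) (XT.lf (nat_lit 0) (nat_lit 3785414449) (nat_lit 1748) (nat_lit 1439357640) (nat_lit 1824) (nat_lit 6957412426) (nat_lit 528) (nat_lit 5) (nat_lit 551) (nat_lit 5) (nat_lit 552) (nat_lit 5) (nat_lit 441) (nat_lit 427) (nat_lit 272)) (XT.nd (nat_lit 78) (nat_lit 0) (nat_lit 0) (XT.lf (nat_lit 0) (nat_lit 4855035338) (nat_lit 1748) (nat_lit 7204811250) (nat_lit 1824) (nat_lit 240408130) (nat_lit 529) (nat_lit 5) (nat_lit 552) (nat_lit 5) (nat_lit 553) (nat_lit 5) (nat_lit 442) (nat_lit 427) (nat_lit 271)) (XT.lf (nat_lit 0) (nat_lit 5977982321) (nat_lit 1748) (nat_lit 683784271) (nat_lit 1824) (nat_lit 5758281058) (nat_lit 529) (nat_lit 5) (nat_lit 552) (nat_lit 5) (nat_lit 553) (nat_lit 5) (nat_lit 443) (nat_lit 427) (nat_lit 270))))) (XT.nd (nat_lit 156) (nat_lit 0) (nat_lit 76) (XT.nd (nat_lit 78) (nat_lit 0) (nat_lit 76) (XT.lf (nat_lit 76) (nat_lit 6037952580) (nat_lit 0) (nat_lit 1112490728) (nat_lit 1824) (nat_lit 5391252033)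 (nat_lit 530) (nat_lit 5) (nat_lit 529) (nat_lit 5) (nat_lit 553) (nat_lit 5) (nat_lit 444) (nat_lit 427) (nat_lit 269)) (XT.lf (nat_lit 76) (nat_lit 201696002) (nat_lit 0) (nat_lit 8168166885) (nat_lit 1824) (nat_lit 4295442909) (nat_lit 531) (nat_lit 5) (nat_lit 530) (nat_lit 5) (nat_lit 554) (nat_lit 5) (nat_lit 445) (nat_lit 427) (nat_lit 268))) (XT.nd (nat_lit 78) (nat_lit 0) (nat_lit 76) (XT.lf (nat_lit 76) (nat_lit 7112897385) (nat_lit 0) (nat_lit 2539965317) (nat_lit 1824) (nat_lit 3137741923) (nat_lit 531) (nat_lit 5) (nat_lit 530) (nat_lit 5) (nat_lit 554) (nat_lit 5) (nat_lit 446) (nat_lit 427) (nat_lit 267)) (XT.nd (nat_lit 78) (nat_lit 0) (nat_lit 0) (XT.lf (nat_lit 76) (nat_lit 1230153722) (nat_lit 0) (nat_lit 9748614947) (nat_lit 1824) (nat_lit 1939295837) (nat_lit 532) (nat_lit 5) (nat_lit 531) (nat_lit 5) (nat_lit 555) (nat_lit 5) (nat_lit 447) (nat_lit 427) (nat_lit 266)) (XT.lf (nat_lit 76) (nat_lit 8327038552) (nat_lit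 0) (nat_lit 4047609533) (nat_lit 1824) (nat_lit 672556396) (nat_lit 532) (nat_lit 5) (nat_lit 531) (nat_lit 5) (nat_lit 555) (nat_lit 5) (nat_lit 448) (nat_lit 427) (nat_lit 265)))))) (XT.nd (nat_lit 390) (nat_lit 3040) (nat_lit 0) (XT.nd (nat_lit 156) (nat_lit 1748) (nat_lit 0) (XT.nd (nat_lit 78) (nat_lit 0) (nat_lit 0) (XT.lf (nat_lit 0) (nat_lit 627423466) (nat_lit 1824) (nat_lit 10784941940) (nat_lit 1900) (nat_lit 1766160786) (nat_lit 508) (nat_lit 5) (nat_lit 532) (nat_lit 5) (nat_lit 533) (nat_lit 5) (nat_lit 449) (nat_lit 427) (nat_lit 264)) (XT.lf (nat_lit 0) (nat_lit 1992064341) (nat_lit 1824) (nat_lit 3638915615) (nat_lit 1900) (nat_lit 7680452131) (nat_lit 508) (nat_lit 5) (nat_lit 532) (nat_lit 5) (nat_lit 533) (nat_lit 5) (nat_lit 450) (nat_lit 427) (nat_lit 263))) (XT.nd (nat_lit 78) (nat_lit 1824) (nat_lit 0) (XT.lf (nat_lit 0) (nat_lit 3399034543) (nat_lit 1824) (nat_lit 9759230304) (nat_lit 76) (nat_lit 288430523) (nat_lit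 509) (nat_lit 5) (nat_lit 533) (nat_lit 5) (nat_lit 510) (nat_lit 5) (nat_lit 451) (nat_lit 427) (nat_lit 262)) (XT.nd (nat_lit 78) (nat_lit 1824) (nat_lit 0) (XT.lf (nat_lit 0) (nat_lit 4885366017) (nat_lit 1824) (nat_lit 2421111444) (nat_lit 76) (nat_lit 6277162020) (nat_lit 509) (nat_lit 5) (nat_lit 533) (nat_lit 5) (nat_lit 510) (nat_lit 5) (nat_lit 452) (nat_lit 427) (nat_lit 261)) (XT.lf (nat_lit 0) (nat_lit 5121942287) (nat_lit 1824) (nat_lit 1302295561) (nat_lit 1900) (nat_lit 7298628351) (nat_lit 485) (nat_lit 5) (nat_lit 509) (nat_lit 5) (nat_lit 510) (nat_lit 5) (nat_lit 453) (nat_lit 427) (nat_lit 260))))) (XT.nd (nat_lit 234) (nat_lit 988) (nat_lit 0) (XT.nd (nat_lit 78) (nat_lit 2052) (nat_lit 0) (XT.lf (nat_lit 0) (nat_lit 8031263191) (nat_lit 1900) (nat_lit 1056449777) (nat_lit 76) (nat_lit 4776416962) (nat_lit 485) (nat_lit 5) (nat_lit 510) (nat_lit 5) (nat_lit 486) (nat_lit 5) (nat_lit 454) (nat_lit 427) (nat_lit 259))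 (XT.nd (nat_lit 78) (nat_lit 912) (nat_lit 0) (XT.lf (nat_lit 0) (nat_lit 6709304536) (nat_lit 1140) (nat_lit 3003226037) (nat_lit 1216) (nat_lit 4294846333) (nat_lit 470) (nat_lit 5) (nat_lit 485) (nat_lit 5) (nat_lit 486) (nat_lit 5) (nat_lit 455) (nat_lit 427) (nat_lit 258)) (XT.lf (nat_lit 0) (nat_lit 467511182) (nat_lit 912) (nat_lit 10980941752) (nat_lit 988) (nat_lit 2704615294) (nat_lit 458) (nat_lit 5) (nat_lit 470) (nat_lit 5) (nat_lit 471) (nat_lit 5) (nat_lit 456) (nat_lit 427) (nat_lit 257)))) (XT.nd (nat_lit 78) (nat_lit 988) (nat_lit 0) (XT.lf (nat_lit 0) (nat_lit 8458115466) (nat_lit 912) (nat_lit 4819908527) (nat_lit 988) (nat_lit 1022470779) (nat_lit 458) (nat_lit 5) (nat_lit 470) (nat_lit 5) (nat_lit 471) (nat_lit 5) (nat_lit 457) (nat_lit 427) (nat_lit 256)) (XT.nd (nat_lit 78) (nat_lit 0) (nat_lit 0) (XT.lf (nat_lit 0) (nat_lit 698291695) (nat_lit 988) (nat_lit 12287686897) (nat_lit 76) (nat_lit 1464519865) (nat_lit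 445) (nat_lit 5) (nat_lit 458) (nat_lit 5) (nat_lit 446) (nat_lit 5) (nat_lit 458) (nat_lit 427) (nat_lit 255)) (XT.lf (nat_lit 0) (nat_lit 2501638483) (nat_lit 988) (nat_lit 4243518892) (nat_lit 76) (nat_lit 7856972470) (nat_lit 445) (nat_lit 5) (nat_lit 458) (nat_lit 5) (nat_lit 446) (nat_lit 5) (nat_lit 459) (nat_lit 427) (nat_lit 254))))))) (XT.nd (nat_lit 780) (nat_lit 4408) (nat_lit 0) (XT.nd (nat_lit 390) (nat_lit 2432) (nat_lit 0) (XT.nd (nat_lit 156) (nat_lit 1748) (nat_lit 0) (XT.nd (nat_lit 78) (nat_lit 0) (nat_lit 0) (XT.lf (nat_lit 0) (nat_lit 4005088229) (nat_lit 836) (nat_lit 352616829) (nat_lit 912) (nat_lit 10398755747) (nat_lit 434) (nat_lit 5) (nat_lit 445) (nat_lit 5) (nat_lit 446) (nat_lit 5) (nat_lit 460) (nat_lit 427) (nat_lit 253)) (XT.lf (nat_lit 0) (nat_lit 6310379754) (nat_lit 912) (nat_lit 2486452425) (nat_lit 76) (nat_lit 6115856469) (nat_lit 434) (nat_lit 5) (nat_lit 446) (nat_lit 5) (nat_lit 435) (nat_lit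 5) (nat_lit 461) (nat_lit 427) (nat_lit 252))) (XT.nd (nat_lit 78) (nat_lit 836) (nat_lit 0) (XT.lf (nat_lit 0) (nat_lit 6011350063) (nat_lit 912) (nat_lit 2323080288) (nat_lit 988) (nat_lit 6736964248) (nat_lit 422) (nat_lit 5) (nat_lit 434) (nat_lit 5) (nat_lit 435) (nat_lit 5) (nat_lit 462) (nat_lit 427) (nat_lit 251)) (XT.nd (nat_lit 78) (nat_lit 836) (nat_lit 0) (XT.lf (nat_lit 0) (nat_lit 10434625099) (nat_lit 988) (nat_lit 557068843) (nat_lit 76) (nat_lit 4240867464) (nat_lit 422) (nat_lit 5) (nat_lit 435) (nat_lit 5) (nat_lit 423) (nat_lit 5) (nat_lit 463) (nat_lit 427) (nat_lit 250)) (XT.lf (nat_lit 0) (nat_lit 8199252722) (nat_lit 836) (nat_lit 4437443274) (nat_lit 912) (nat_lit 2759058108) (nat_lit 411) (nat_lit 5) (nat_lit 422) (nat_lit 5) (nat_lit 423) (nat_lit 5) (nat_lit 464) (nat_lit 427) (nat_lit 249))))) (XT.nd (nat_lit 156) (nat_lit 1520) (nat_lit 0) (XT.nd (nat_lit 78) (nat_lit 76) (nat_lit 0) (XT.lf (nat_lit 0) (nat_lit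 1573151739) (nat_lit 836) (nat_lit 13329594167) (nat_lit 912) (nat_lit 659066000) (nat_lit 400) (nat_lit 5) (nat_lit 411) (nat_lit 5) (nat_lit 412) (nat_lit 5) (nat_lit 465) (nat_lit 427) (nat_lit 248)) (XT.lf (nat_lit 0) (nat_lit 1532897093) (nat_lit 912) (nat_lit 5162843478) (nat_lit 76) (nat_lit 9033869329) (nat_lit 399) (nat_lit 5) (nat_lit 411) (nat_lit 5) (nat_lit 400) (nat_lit 5) (nat_lit 466) (nat_lit 427) (nat_lit 247))) (XT.nd (nat_lit 78) (nat_lit 760) (nat_lit 0) (XT.lf (nat_lit 0) (nat_lit 3777297013) (nat_lit 836) (nat_lit 12023874450) (nat_lit 76) (nat_lit 99156813) (nat_lit 389) (nat_lit 5) (nat_lit 400) (nat_lit 5) (nat_lit 390) (nat_lit 5) (nat_lit 467) (nat_lit 427) (nat_lit 246)) (XT.nd (nat_lit 78) (nat_lit 760) (nat_lit 0) (XT.lf (nat_lit 0) (nat_lit 6137496059) (nat_lit 836) (nat_lit 2960778793) (nat_lit 76) (nat_lit 6974767946) (nat_lit 389) (nat_lit 5) (nat_lit 400) (nat_lit 5) (nat_lit 390) (nat_lit 5) (nat_lit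 468) (nat_lit 427) (nat_lit 245)) (XT.lf (nat_lit 0) (nat_lit 6358183805) (nat_lit 760) (nat_lit 2219853334) (nat_lit 836) (nat_lit 7670511710) (nat_lit 379) (nat_lit 5) (nat_lit 389) (nat_lit 5) (nat_lit 390) (nat_lit 5) (nat_lit 469) (nat_lit 427) (nat_lit 244)))))) (XT.nd (nat_lit 390) (nat_lit 2128) (nat_lit 0) (XT.nd (nat_lit 156) (nat_lit 1520) (nat_lit 0) (XT.nd (nat_lit 78) (nat_lit 760) (nat_lit 0) (XT.lf (nat_lit 0) (nat_lit 11110483784) (nat_lit 836) (nat_lit 563661406) (nat_lit 76) (nat_lit 4752557936) (nat_lit 379) (nat_lit 5) (nat_lit 390) (nat_lit 5) (nat_lit 380) (nat_lit 5) (nat_lit 470) (nat_lit 427) (nat_lit 243)) (XT.lf (nat_lit 0) (nat_lit 9044791248) (nat_lit 760) (nat_lit 4714326734) (nat_lit 836) (nat_lit 2847991734) (nat_lit 369) (nat_lit 5) (nat_lit 379) (nat_lit 5) (nat_lit 380) (nat_lit 5) (nat_lit 471) (nat_lit 427) (nat_lit 242))) (XT.nd (nat_lit 78) (nat_lit 760) (nat_lit 0) (XT.lf (nat_lit 0) (nat_lit 2064775632)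 (nat_lit 760) (nat_lit 14420851326) (nat_lit 836) (nat_lit 304999439) (nat_lit 359) (nat_lit 5) (nat_lit 369) (nat_lit 5) (nat_lit 370) (nat_lit 5) (nat_lit 472) (nat_lit 427) (nat_lit 241)) (XT.nd (nat_lit 78) (nat_lit 684) (nat_lit 0) (XT.lf (nat_lit 0) (nat_lit 2333388694) (nat_lit 836) (nat_lit 5045141238) (nat_lit 76) (nat_lit 9597495168) (nat_lit 358) (nat_lit 5) (nat_lit 369) (nat_lit 5) (nat_lit 359) (nat_lit 5) (nat_lit 473) (nat_lit 427) (nat_lit 240)) (XT.lf (nat_lit 0) (nat_lit 4882525191) (nat_lit 684) (nat_lit 162042603) (nat_lit 760) (nat_lit 12120041522) (nat_lit 349) (nat_lit 5) (nat_lit 358) (nat_lit 5) (nat_lit 359) (nat_lit 5) (nat_lit 474) (nat_lit 427) (nat_lit 239))))) (XT.nd (nat_lit 234) (nat_lit 760) (nat_lit 0) (XT.nd (nat_lit 78) (nat_lit 1368) (nat_lit 0) (XT.lf (nat_lit 0) (nat_lit 7883278005) (nat_lit 760) (nat_lit 2334876798) (nat_lit 76) (nat_lit 7137344262) (nat_lit 349) (nat_lit 5) (nat_lit 359) (nat_lit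 5) (nat_lit 350) (nat_lit 5) (nat_lit 475) (nat_lit 427) (nat_lit 238)) (XT.nd (nat_lit 78) (nat_lit 684) (nat_lit 0) (XT.lf (nat_lit 0) (nat_lit 7905294203) (nat_lit 684) (nat_lit 2918503592) (nat_lit 760) (nat_lit 6725508106) (nat_lit 340) (nat_lit 5) (nat_lit 349) (nat_lit 5) (nat_lit 350) (nat_lit 5) (nat_lit 476) (nat_lit 427) (nat_lit 237)) (XT.lf (nat_lit 0) (nat_lit 605013318) (nat_lit 684) (nat_lit 13259924720) (nat_lit 760) (nat_lit 3881214634) (nat_lit 331) (nat_lit 5) (nat_lit 340) (nat_lit 5) (nat_lit 341) (nat_lit 5) (nat_lit 477) (nat_lit 427) (nat_lit 236)))) (XT.nd (nat_lit 78) (nat_lit 760) (nat_lit 0) (XT.lf (nat_lit 0) (nat_lit 11161550719) (nat_lit 684) (nat_lit 5882071042) (nat_lit 760) (nat_lit 901780204) (nat_lit 331) (nat_lit 5) (nat_lit 340) (nat_lit 5) (nat_lit 341) (nat_lit 5) (nat_lit 478) (nat_lit 427) (nat_lit 235)) (XT.nd (nat_lit 78) (nat_lit 0) (nat_lit 0) (XT.lf (nat_lit 0) (nat_lit 2137751351) (nat_lit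 760) (nat_lit 14350807999) (nat_lit 76) (nat_lit 1659228593) (nat_lit 321) (nat_lit 5) (nat_lit 331) (nat_lit 5) (nat_lit 322) (nat_lit 5) (nat_lit 479) (nat_lit 427) (nat_lit 234)) (XT.lf (nat_lit 0) (nat_lit 5303761477) (nat_lit 760) (nat_lit 3725764962) (nat_lit 76) (nat_lit 9323020727) (nat_lit 321) (nat_lit 5) (nat_lit 331) (nat_lit 5) (nat_lit 322) (nat_lit 5) (nat_lit 480) (nat_lit 427) (nat_lit 233))))))))
noncomputable def xc216 : XT := (XT.nd (nat_lit 55536) (nat_lit 0) (nat_lit 20064) (XT.nd (nat_lit 780) (nat_lit 2204) (nat_lit 0) (XT.nd (nat_lit 390) (nat_lit 1824) (nat_lit 0) (XT.nd (nat_lit 156) (nat_lit 1292) (nat_lit 0) (XT.nd (nat_lit 78) (nat_lit 0) (nat_lit 0) (XT.lf (nat_lit 0) (nat_lit 7197736592) (nat_lit 608) (nat_lit 1375198171) (nat_lit 684) (nat_lit 9987669954) (nat_lit 313) (nat_lit 5) (nat_lit 321) (nat_lit 5) (nat_lit 322) (nat_lit 5) (nat_lit 481) (nat_lit 427) (nat_lit 232)) (XT.lf (nat_lit 0) (nat_lit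 11967602025) (nat_lit 684) (nat_lit 432551619) (nat_lit 76) (nat_lit 6371467564) (nat_lit 313) (nat_lit 5) (nat_lit 322) (nat_lit 5) (nat_lit 314) (nat_lit 5) (nat_lit 482) (nat_lit 427) (nat_lit 231))) (XT.nd (nat_lit 78) (nat_lit 684) (nat_lit 0) (XT.lf (nat_lit 0) (nat_lit 10841101501) (nat_lit 608) (nat_lit 4661870606) (nat_lit 684) (nat_lit 3482429733) (nat_lit 305) (nat_lit 5) (nat_lit 313) (nat_lit 5) (nat_lit 314) (nat_lit 5) (nat_lit 483) (nat_lit 427) (nat_lit 230)) (XT.nd (nat_lit 78) (nat_lit 76) (nat_lit 0) (XT.lf (nat_lit 0) (nat_lit 3154654920) (nat_lit 608) (nat_lit 15992158522) (nat_lit 684) (nat_lit 55889364) (nat_lit 297) (nat_lit 5) (nat_lit 305) (nat_lit 5) (nat_lit 306) (nat_lit 5) (nat_lit 484) (nat_lit 427) (nat_lit 229)) (XT.lf (nat_lit 0) (nat_lit 3473377232) (nat_lit 684) (nat_lit 4695277994) (nat_lit 76) (nat_lit 11253661959) (nat_lit 296) (nat_lit 5) (nat_lit 305) (nat_lit 5) (nat_lit 297) (nat_lit 5) (nat_lit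 485) (nat_lit 427) (nat_lit 228))))) (XT.nd (nat_lit 156) (nat_lit 1216) (nat_lit 0) (XT.nd (nat_lit 78) (nat_lit 0) (nat_lit 0) (XT.lf (nat_lit 0) (nat_lit 6967275839) (nat_lit 608) (nat_lit 143984105) (nat_lit 684) (nat_lit 12534280937) (nat_lit 288) (nat_lit 5) (nat_lit 296) (nat_lit 5) (nat_lit 297) (nat_lit 5) (nat_lit 486) (nat_lit 427) (nat_lit 227)) (XT.lf (nat_lit 0) (nat_lit 10899428987) (nat_lit 684) (nat_lit 1006629440) (nat_lit 76) (nat_lit 7965620049) (nat_lit 288) (nat_lit 5) (nat_lit 297) (nat_lit 5) (nat_lit 289) (nat_lit 5) (nat_lit 487) (nat_lit 427) (nat_lit 226))) (XT.nd (nat_lit 78) (nat_lit 684) (nat_lit 0) (XT.lf (nat_lit 0) (nat_lit 11034022360) (nat_lit 532) (nat_lit 3795661752) (nat_lit 608) (nat_lit 5271328258) (nat_lit 281) (nat_lit 5) (nat_lit 288) (nat_lit 5) (nat_lit 289) (nat_lit 5) (nat_lit 488) (nat_lit 427) (nat_lit 225)) (XT.nd (nat_lit 78) (nat_lit 76) (nat_lit 0) (XT.lf (nat_lit 0) (nat_lit 2996285372)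 (nat_lit 608) (nat_lit 15891366591) (nat_lit 684) (nat_lit 1446298825) (nat_lit 273) (nat_lit 5) (nat_lit 281) (nat_lit 5) (nat_lit 282) (nat_lit 5) (nat_lit 489) (nat_lit 427) (nat_lit 224)) (XT.lf (nat_lit 0) (nat_lit 2503229197) (nat_lit 684) (nat_lit 5196342097) (nat_lit 76) (nat_lit 12870053886) (nat_lit 272) (nat_lit 5) (nat_lit 281) (nat_lit 5) (nat_lit 273) (nat_lit 5) (nat_lit 490) (nat_lit 427) (nat_lit 223)))))) (XT.nd (nat_lit 390) (nat_lit 532) (nat_lit 0) (XT.nd (nat_lit 156) (nat_lit 1140) (nat_lit 0) (XT.nd (nat_lit 78) (nat_lit 0) (nat_lit 0) (XT.lf (nat_lit 0) (nat_lit 6558130062) (nat_lit 608) (nat_lit 13548204667) (nat_lit 76) (nat_lit 702572165) (nat_lit 265) (nat_lit 5) (nat_lit 273) (nat_lit 5) (nat_lit 266) (nat_lit 5) (nat_lit 491) (nat_lit 427) (nat_lit 222)) (XT.lf (nat_lit 0) (nat_lit 10774209982) (nat_lit 608) (nat_lit 1074326376) (nat_lit 76) (nat_lit 9202836264) (nat_lit 265) (nat_lit 5) (nat_lit 273) (nat_lit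 5) (nat_lit 266) (nat_lit 5) (nat_lit 492) (nat_lit 427) (nat_lit 221))) (XT.nd (nat_lit 78) (nat_lit 608) (nat_lit 0) (XT.lf (nat_lit 0) (nat_lit 11795739297) (nat_lit 532) (nat_lit 3349565202) (nat_lit 608) (nat_lit 6151969305) (nat_lit 258) (nat_lit 5) (nat_lit 265) (nat_lit 5) (nat_lit 266) (nat_lit 5) (nat_lit 493) (nat_lit 427) (nat_lit 220)) (XT.nd (nat_lit 78) (nat_lit 76) (nat_lit 0) (XT.lf (nat_lit 0) (nat_lit 3391674232) (nat_lit 532) (nat_lit 16270119202) (nat_lit 608) (nat_lit 1885140125) (nat_lit 251) (nat_lit 5) (nat_lit 258) (nat_lit 5) (nat_lit 259) (nat_lit 5) (nat_lit 494) (nat_lit 427) (nat_lit 219)) (XT.lf (nat_lit 0) (nat_lit 2515217164) (nat_lit 608) (nat_lit 5175458827) (nat_lit 76) (nat_lit 14108979227) (nat_lit 250) (nat_lit 5) (nat_lit 258) (nat_lit 5) (nat_lit 251) (nat_lit 5) (nat_lit 495) (nat_lit 427) (nat_lit 218))))) (XT.nd (nat_lit 54132) (nat_lit 0) (nat_lit 22952) (XT.nd (nat_lit 54054) (nat_lit 0)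 (nat_lit 22952) (XT.lf (nat_lit 0) (nat_lit 7032880551) (nat_lit 608) (nat_lit 13913102817) (nat_lit 76) (nat_lit 1110107907) (nat_lit 243) (nat_lit 5) (nat_lit 251) (nat_lit 5) (nat_lit 244) (nat_lit 5) (nat_lit 496) (nat_lit 427) (nat_lit 217)) (XT.lf (nat_lit 0) (nat_lit 2423365856) (nat_lit 1748) (nat_lit 1513216511) (nat_lit 1748) (nat_lit 1513216511) (nat_lit 545) (nat_lit 3) (nat_lit 568) (nat_lit 3) (nat_lit 568) (nat_lit 5) (nat_lit 428) (nat_lit 428) (nat_lit 284))) (XT.nd (nat_lit 78) (nat_lit 0) (nat_lit 76) (XT.lf (nat_lit 76) (nat_lit 2455571112) (nat_lit 0) (nat_lit 3042257961) (nat_lit 1748) (nat_lit 5498712060) (nat_lit 546) (nat_lit 5) (nat_lit 545) (nat_lit 3) (nat_lit 568) (nat_lit 5) (nat_lit 429) (nat_lit 428) (nat_lit 283)) (XT.nd (nat_lit 78) (nat_lit 0) (nat_lit 0) (XT.lf (nat_lit 0) (nat_lit 6179240218) (nat_lit 1672) (nat_lit 3027462796) (nat_lit 1748) (nat_lit 1888374528) (nat_lit 546) (nat_lit 5) (nat_lit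 568) (nat_lit 5) (nat_lit 569) (nat_lit 5) (nat_lit 430) (nat_lit 428) (nat_lit 282)) (XT.lf (nat_lit 76) (nat_lit 2602147623) (nat_lit 0) (nat_lit 4294084012) (nat_lit 1748) (nat_lit 4298914000) (nat_lit 547) (nat_lit 5) (nat_lit 546) (nat_lit 5) (nat_lit 569) (nat_lit 5) (nat_lit 431) (nat_lit 428) (nat_lit 281))))))) (XT.nd (nat_lit 780) (nat_lit 1444) (nat_lit 0) (XT.nd (nat_lit 390) (nat_lit 1596) (nat_lit 0) (XT.nd (nat_lit 156) (nat_lit 0) (nat_lit 0) (XT.nd (nat_lit 78) (nat_lit 0) (nat_lit 0) (XT.lf (nat_lit 0) (nat_lit 7637864117) (nat_lit 1672) (nat_lit 2924643236) (nat_lit 1748) (nat_lit 734501715) (nat_lit 547) (nat_lit 5) (nat_lit 569) (nat_lit 5) (nat_lit 570) (nat_lit 5) (nat_lit 432) (nat_lit 428) (nat_lit 280)) (XT.lf (nat_lit 76) (nat_lit 2857853268) (nat_lit 0) (nat_lit 5568955921) (nat_lit 1748) (nat_lit 2973450981) (nat_lit 548) (nat_lit 5) (nat_lit 547) (nat_lit 5) (nat_lit 570) (nat_lit 5) (nat_lit 433) (nat_lit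 428) (nat_lit 279))) (XT.nd (nat_lit 78) (nat_lit 0) (nat_lit 76) (XT.lf (nat_lit 76) (nat_lit 8787429427) (nat_lit 0) (nat_lit 449448081) (nat_lit 1748) (nat_lit 2268591898) (nat_lit 548) (nat_lit 5) (nat_lit 547) (nat_lit 5) (nat_lit 570) (nat_lit 5) (nat_lit 434) (nat_lit 428) (nat_lit 278)) (XT.nd (nat_lit 78) (nat_lit 0) (nat_lit 0) (XT.lf (nat_lit 76) (nat_lit 3225762665) (nat_lit 0) (nat_lit 6875351328) (nat_lit 1748) (nat_lit 1510909498) (nat_lit 549) (nat_lit 5) (nat_lit 548) (nat_lit 5) (nat_lit 571) (nat_lit 5) (nat_lit 435) (nat_lit 428) (nat_lit 277)) (XT.lf (nat_lit 76) (nat_lit 9313951994) (nat_lit 0) (nat_lit 1676136469) (nat_lit 1748) (nat_lit 730471130) (nat_lit 549) (nat_lit 5) (nat_lit 548) (nat_lit 5) (nat_lit 571) (nat_lit 5) (nat_lit 436) (nat_lit 428) (nat_lit 276))))) (XT.nd (nat_lit 156) (nat_lit 0) (nat_lit 76) (XT.nd (nat_lit 78) (nat_lit 0) (nat_lit 0) (XT.lf (nat_lit 0) (nat_lit 99135700) (nat_lit 1748) (nat_lit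 8121955517) (nat_lit 1824) (nat_lit 3609478291) (nat_lit 526) (nat_lit 5) (nat_lit 549) (nat_lit 5) (nat_lit 550) (nat_lit 5) (nat_lit 437) (nat_lit 428) (nat_lit 275)) (XT.lf (nat_lit 0) (nat_lit 949601832) (nat_lit 1748) (nat_lit 1988318519) (nat_lit 1824) (nat_lit 9004481738) (nat_lit 526) (nat_lit 5) (nat_lit 549) (nat_lit 5) (nat_lit 550) (nat_lit 5) (nat_lit 438) (nat_lit 428) (nat_lit 274))) (XT.nd (nat_lit 78) (nat_lit 0) (nat_lit 0) (XT.lf (nat_lit 0) (nat_lit 1848172913) (nat_lit 1748) (nat_lit 7756113028) (nat_lit 1824) (nat_lit 2451563467) (nat_lit 527) (nat_lit 5) (nat_lit 550) (nat_lit 5) (nat_lit 551) (nat_lit 5) (nat_lit 439) (nat_lit 428) (nat_lit 273)) (XT.nd (nat_lit 78) (nat_lit 0) (nat_lit 76) (XT.lf (nat_lit 0) (nat_lit 2784777207) (nat_lit 1748) (nat_lit 1458981154) (nat_lit 1824) (nat_lit 7927406078) (nat_lit 527) (nat_lit 5) (nat_lit 550) (nat_lit 5) (nat_lit 551) (nat_lit 5) (nat_lit 440) (nat_lit 428) (nat_lit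 272)) (XT.lf (nat_lit 0) (nat_lit 3768331607) (nat_lit 1748) (nat_lit 7275096334) (nat_lit 1824) (nat_lit 1244793468) (nat_lit 528) (nat_lit 5) (nat_lit 551) (nat_lit 5) (nat_lit 552) (nat_lit 5) (nat_lit 441) (nat_lit 428) (nat_lit 271)))))) (XT.nd (nat_lit 390) (nat_lit 1596) (nat_lit 0) (XT.nd (nat_lit 156) (nat_lit 0) (nat_lit 76) (XT.nd (nat_lit 78) (nat_lit 0) (nat_lit 0) (XT.lf (nat_lit 0) (nat_lit 4797160297) (nat_lit 1748) (nat_lit 809832904) (nat_lit 1824) (nat_lit 6800114254) (nat_lit 528) (nat_lit 5) (nat_lit 551) (nat_lit 5) (nat_lit 552) (nat_lit 5) (nat_lit 442) (nat_lit 428) (nat_lit 270)) (XT.lf (nat_lit 76) (nat_lit 5852978759) (nat_lit 0) (nat_lit 19473980) (nat_lit 1824) (nat_lit 6655400741) (nat_lit 529) (nat_lit 5) (nat_lit 528) (nat_lit 5) (nat_lit 552) (nat_lit 5) (nat_lit 443) (nat_lit 428) (nat_lit 269))) (XT.nd (nat_lit 78) (nat_lit 0) (nat_lit 0) (XT.lf (nat_lit 0) (nat_lit 6999689277) (nat_lit 1748) (nat_lit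 36519572) (nat_lit 1824) (nat_lit 5614196808) (nat_lit 529) (nat_lit 5) (nat_lit 552) (nat_lit 5) (nat_lit 553) (nat_lit 5) (nat_lit 444) (nat_lit 428) (nat_lit 268)) (XT.nd (nat_lit 78) (nat_lit 0) (nat_lit 76) (XT.lf (nat_lit 76) (nat_lit 6815303724) (nat_lit 0) (nat_lit 1366869628) (nat_lit 1824) (nat_lit 4592581472) (nat_lit 530) (nat_lit 5) (nat_lit 529) (nat_lit 5) (nat_lit 553) (nat_lit 5) (nat_lit 445) (nat_lit 428) (nat_lit 267)) (XT.lf (nat_lit 76) (nat_lit 877157037) (nat_lit 0) (nat_lit 8534280147) (nat_lit 1824) (nat_lit 3489691188) (nat_lit 531) (nat_lit 5) (nat_lit 530) (nat_lit 5) (nat_lit 554) (nat_lit 5) (nat_lit 446) (nat_lit 428) (nat_lit 266))))) (XT.nd (nat_lit 234) (nat_lit 0) (nat_lit 76) (XT.nd (nat_lit 78) (nat_lit 1748) (nat_lit 0) (XT.lf (nat_lit 76) (nat_lit 7913417210) (nat_lit 0) (nat_lit 2789539059) (nat_lit 1824) (nat_lit 2326319722) (nat_lit 531) (nat_lit 5) (nat_lit 530) (nat_lit 5) (nat_lit 554) (nat_lit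 5) (nat_lit 447) (nat_lit 428) (nat_lit 265)) (XT.nd (nat_lit 78) (nat_lit 1824) (nat_lit 0) (XT.lf (nat_lit 76) (nat_lit 1926998047) (nat_lit 0) (nat_lit 10114677041) (nat_lit 1824) (nat_lit 1117884088) (nat_lit 532) (nat_lit 5) (nat_lit 531) (nat_lit 5) (nat_lit 555) (nat_lit 5) (nat_lit 448) (nat_lit 428) (nat_lit 264)) (XT.lf (nat_lit 0) (nat_lit 155260194) (nat_lit 1824) (nat_lit 4139994744) (nat_lit 1900) (nat_lit 8996337300) (nat_lit 507) (nat_lit 5) (nat_lit 531) (nat_lit 5) (nat_lit 532) (nat_lit 5) (nat_lit 449) (nat_lit 428) (nat_lit 263)))) (XT.nd (nat_lit 78) (nat_lit 0) (nat_lit 0) (XT.lf (nat_lit 0) (nat_lit 1459242234) (nat_lit 1824) (nat_lit 10317519983) (nat_lit 1900) (nat_lit 1648949093) (nat_lit 508) (nat_lit 5) (nat_lit 532) (nat_lit 5) (nat_lit 533) (nat_lit 5) (nat_lit 450) (nat_lit 428) (nat_lit 262)) (XT.nd (nat_lit 78) (nat_lit 0) (nat_lit 76) (XT.lf (nat_lit 0) (nat_lit 2835111803) (nat_lit 1824) (nat_lit 3041967657)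 (nat_lit 1900) (nat_lit 7684517145) (nat_lit 508) (nat_lit 5) (nat_lit 532) (nat_lit 5) (nat_lit 533) (nat_lit 5) (nat_lit 451) (nat_lit 428) (nat_lit 261)) (XT.lf (nat_lit 0) (nat_lit 4257970928) (nat_lit 1824) (nat_lit 9272438159) (nat_lit 76) (nat_lit 169401076) (nat_lit 509) (nat_lit 5) (nat_lit 533) (nat_lit 5) (nat_lit 510) (nat_lit 5) (nat_lit 452) (nat_lit 428) (nat_lit 260))))))))
noncomputable def xc217 : XT := (XT.nd (nat_lit 1560) (nat_lit 7904) (nat_lit 0) (XT.nd (nat_lit 780) (nat_lit 4940) (nat_lit 0) (XT.nd (nat_lit 390) (nat_lit 1824) (nat_lit 0) (XT.nd (nat_lit 156) (nat_lit 2052) (nat_lit 0) (XT.nd (nat_lit 78) (nat_lit 1824) (nat_lit 0) (XT.lf (nat_lit 0) (nat_lit 5758520096) (nat_lit 1824) (nat_lit 1800929015) (nat_lit 76) (nat_lit 6280354224) (nat_lit 509) (nat_lit 5) (nat_lit 533) (nat_lit 5) (nat_lit 510) (nat_lit 5) (nat_lit 453) (nat_lit 428) (nat_lit 259)) (XT.lf (nat_lit 0) (nat_lit 5888587076) (nat_lit 1824)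 (nat_lit 1428689915) (nat_lit 1900) (nat_lit 6664755444) (nat_lit 485) (nat_lit 5) (nat_lit 509) (nat_lit 5) (nat_lit 510) (nat_lit 5) (nat_lit 454) (nat_lit 428) (nat_lit 258))) (XT.nd (nat_lit 78) (nat_lit 2052) (nat_lit 0) (XT.lf (nat_lit 0) (nat_lit 8940812825) (nat_lit 1900) (nat_lit 410766459) (nat_lit 76) (nat_lit 4774854757) (nat_lit 485) (nat_lit 5) (nat_lit 510) (nat_lit 5) (nat_lit 486) (nat_lit 5) (nat_lit 455) (nat_lit 428) (nat_lit 257)) (XT.nd (nat_lit 78) (nat_lit 912) (nat_lit 0) (XT.lf (nat_lit 0) (nat_lit 7505916017) (nat_lit 1140) (nat_lit 3139405651) (nat_lit 1216) (nat_lit 3627431966) (nat_lit 470) (nat_lit 5) (nat_lit 485) (nat_lit 5) (nat_lit 486) (nat_lit 5) (nat_lit 456) (nat_lit 428) (nat_lit 256)) (XT.lf (nat_lit 0) (nat_lit 1150093306) (nat_lit 912) (nat_lit 11255274553) (nat_lit 988) (nat_lit 2016202816) (nat_lit 458) (nat_lit 5) (nat_lit 470) (nat_lit 5) (nat_lit 471) (nat_lit 5) (nat_lit 457) (nat_lit 428)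 (nat_lit 255))))) (XT.nd (nat_lit 156) (nat_lit 836) (nat_lit 0) (XT.nd (nat_lit 78) (nat_lit 988) (nat_lit 0) (XT.lf (nat_lit 0) (nat_lit 9287309050) (nat_lit 912) (nat_lit 4969947841) (nat_lit 988) (nat_lit 314974329) (nat_lit 458) (nat_lit 5) (nat_lit 470) (nat_lit 5) (nat_lit 471) (nat_lit 5) (nat_lit 458) (nat_lit 428) (nat_lit 254)) (XT.lf (nat_lit 0) (nat_lit 1420606593) (nat_lit 988) (nat_lit 11853812558) (nat_lit 76) (nat_lit 1450922293) (nat_lit 445) (nat_lit 5) (nat_lit 458) (nat_lit 5) (nat_lit 446) (nat_lit 5) (nat_lit 459) (nat_lit 428) (nat_lit 253))) (XT.nd (nat_lit 78) (nat_lit 836) (nat_lit 0) (XT.lf (nat_lit 0) (nat_lit 3246131119) (nat_lit 988) (nat_lit 3662087234) (nat_lit 76) (nat_lit 7972064891) (nat_lit 445) (nat_lit 5) (nat_lit 458) (nat_lit 5) (nat_lit 446) (nat_lit 5) (nat_lit 460) (nat_lit 428) (nat_lit 252)) (XT.nd (nat_lit 78) (nat_lit 0) (nat_lit 0) (XT.lf (nat_lit 0) (nat_lit 4747108463) (nat_lit 836) (nat_lit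 382891316) (nat_lit 912) (nat_lit 9907887429) (nat_lit 434) (nat_lit 5) (nat_lit 445) (nat_lit 5) (nat_lit 446) (nat_lit 5) (nat_lit 461) (nat_lit 428) (nat_lit 251)) (XT.lf (nat_lit 0) (nat_lit 7108146022) (nat_lit 912) (nat_lit 1873659850) (nat_lit 76) (nat_lit 6215705374) (nat_lit 434) (nat_lit 5) (nat_lit 446) (nat_lit 5) (nat_lit 435) (nat_lit 5) (nat_lit 462) (nat_lit 428) (nat_lit 250)))))) (XT.nd (nat_lit 390) (nat_lit 2280) (nat_lit 0) (XT.nd (nat_lit 156) (nat_lit 912) (nat_lit 0) (XT.nd (nat_lit 78) (nat_lit 836) (nat_lit 0) (XT.lf (nat_lit 0) (nat_lit 6789739992) (nat_lit 912) (nat_lit 2374043052) (nat_lit 988) (nat_lit 6195786165) (nat_lit 422) (nat_lit 5) (nat_lit 434) (nat_lit 5) (nat_lit 435) (nat_lit 5) (nat_lit 463) (nat_lit 428) (nat_lit 249)) (XT.lf (nat_lit 0) (nat_lit 91266594) (nat_lit 836) (nat_lit 11202285591) (nat_lit 912) (nat_lit 4230655758) (nat_lit 411) (nat_lit 5) (nat_lit 422) (nat_lit 5) (nat_lit 423)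 (nat_lit 5) (nat_lit 464) (nat_lit 428) (nat_lit 248))) (XT.nd (nat_lit 78) (nat_lit 912) (nat_lit 0) (XT.lf (nat_lit 0) (nat_lit 9017186826) (nat_lit 836) (nat_lit 4513392904) (nat_lit 912) (nat_lit 2160266461) (nat_lit 411) (nat_lit 5) (nat_lit 422) (nat_lit 5) (nat_lit 423) (nat_lit 5) (nat_lit 465) (nat_lit 428) (nat_lit 247)) (XT.nd (nat_lit 78) (nat_lit 76) (nat_lit 0) (XT.lf (nat_lit 0) (nat_lit 2266917607) (nat_lit 836) (nat_lit 13566843047) (nat_lit 912) (nat_lit 26628293) (nat_lit 400) (nat_lit 5) (nat_lit 411) (nat_lit 5) (nat_lit 412) (nat_lit 5) (nat_lit 466) (nat_lit 428) (nat_lit 246)) (XT.lf (nat_lit 0) (nat_lit 2188213483) (nat_lit 912) (nat_lit 4608482462) (nat_lit 76) (nat_lit 9235012984) (nat_lit 399) (nat_lit 5) (nat_lit 411) (nat_lit 5) (nat_lit 400) (nat_lit 5) (nat_lit 467) (nat_lit 428) (nat_lit 245))))) (XT.nd (nat_lit 156) (nat_lit 1520) (nat_lit 0) (XT.nd (nat_lit 78) (nat_lit 0) (nat_lit 0) (XT.lf (nat_lit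 0) (nat_lit 4469732687) (nat_lit 836) (nat_lit 11598965339) (nat_lit 76) (nat_lit 137299021) (nat_lit 389) (nat_lit 5) (nat_lit 400) (nat_lit 5) (nat_lit 390) (nat_lit 5) (nat_lit 468) (nat_lit 428) (nat_lit 244)) (XT.lf (nat_lit 0) (nat_lit 6865039836) (nat_lit 836) (nat_lit 2367654565) (nat_lit 76) (nat_lit 7149713375) (nat_lit 389) (nat_lit 5) (nat_lit 400) (nat_lit 5) (nat_lit 390) (nat_lit 5) (nat_lit 469) (nat_lit 428) (nat_lit 243))) (XT.nd (nat_lit 78) (nat_lit 760) (nat_lit 0) (XT.lf (nat_lit 0) (nat_lit 7133395576) (nat_lit 760) (nat_lit 2213345017) (nat_lit 836) (nat_lit 7214836379) (nat_lit 379) (nat_lit 5) (nat_lit 389) (nat_lit 5) (nat_lit 390) (nat_lit 5) (nat_lit 470) (nat_lit 428) (nat_lit 242)) (XT.nd (nat_lit 78) (nat_lit 0) (nat_lit 0) (XT.lf (nat_lit 0) (nat_lit 72745352) (nat_lit 760) (nat_lit 11846178479) (nat_lit 836) (nat_lit 4824588750) (nat_lit 369) (nat_lit 5) (nat_lit 379) (nat_lit 5) (nat_lit 380) (nat_lit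 5) (nat_lit 471) (nat_lit 428) (nat_lit 241)) (XT.lf (nat_lit 0) (nat_lit 9868158216) (nat_lit 760) (nat_lit 4744586083) (nat_lit 836) (nat_lit 2314938732) (nat_lit 369) (nat_lit 5) (nat_lit 379) (nat_lit 5) (nat_lit 380) (nat_lit 5) (nat_lit 472) (nat_lit 428) (nat_lit 240))))))) (XT.nd (nat_lit 780) (nat_lit 3648) (nat_lit 0) (XT.nd (nat_lit 390) (nat_lit 2052) (nat_lit 0) (XT.nd (nat_lit 156) (nat_lit 1368) (nat_lit 0) (XT.nd (nat_lit 78) (nat_lit 0) (nat_lit 0) (XT.lf (nat_lit 0) (nat_lit 268492275) (nat_lit 836) (nat_lit 14361375516) (nat_lit 76) (nat_lit 2485101300) (nat_lit 358) (nat_lit 5) (nat_lit 369) (nat_lit 5) (nat_lit 359) (nat_lit 5) (nat_lit 473) (nat_lit 428) (nat_lit 239)) (XT.lf (nat_lit 0) (nat_lit 2944283506) (nat_lit 836) (nat_lit 4501953474) (nat_lit 76) (nat_lit 9858024083) (nat_lit 358) (nat_lit 5) (nat_lit 369) (nat_lit 5) (nat_lit 359) (nat_lit 5) (nat_lit 474) (nat_lit 428) (nat_lit 238))) (XT.nd (nat_lit 78)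 (nat_lit 684) (nat_lit 0) (XT.lf (nat_lit 0) (nat_lit 5620028846) (nat_lit 684) (nat_lit 82748417) (nat_lit 760) (nat_lit 11793977877) (nat_lit 349) (nat_lit 5) (nat_lit 358) (nat_lit 5) (nat_lit 359) (nat_lit 5) (nat_lit 475) (nat_lit 428) (nat_lit 237)) (XT.nd (nat_lit 78) (nat_lit 684) (nat_lit 0) (XT.lf (nat_lit 0) (nat_lit 8587859238) (nat_lit 760) (nat_lit 1743864881) (nat_lit 76) (nat_lit 7359946613) (nat_lit 349) (nat_lit 5) (nat_lit 359) (nat_lit 5) (nat_lit 350) (nat_lit 5) (nat_lit 476) (nat_lit 428) (nat_lit 236)) (XT.lf (nat_lit 0) (nat_lit 8696914082) (nat_lit 684) (nat_lit 2883664697) (nat_lit 760) (nat_lit 6308907139) (nat_lit 340) (nat_lit 5) (nat_lit 349) (nat_lit 5) (nat_lit 350) (nat_lit 5) (nat_lit 477) (nat_lit 428) (nat_lit 235))))) (XT.nd (nat_lit 156) (nat_lit 1368) (nat_lit 0) (XT.nd (nat_lit 78) (nat_lit 0) (nat_lit 0) (XT.lf (nat_lit 0) (nat_lit 1256593539) (nat_lit 684) (nat_lit 13420099308) (nat_lit 760)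 (nat_lit 3413693757) (nat_lit 331) (nat_lit 5) (nat_lit 340) (nat_lit 5) (nat_lit 341) (nat_lit 5) (nat_lit 478) (nat_lit 428) (nat_lit 234)) (XT.lf (nat_lit 0) (nat_lit 12011722866) (nat_lit 684) (nat_lit 5896747849) (nat_lit 760) (nat_lit 385359759) (nat_lit 331) (nat_lit 5) (nat_lit 340) (nat_lit 5) (nat_lit 341) (nat_lit 5) (nat_lit 479) (nat_lit 428) (nat_lit 233))) (XT.nd (nat_lit 78) (nat_lit 608) (nat_lit 0) (XT.lf (nat_lit 0) (nat_lit 2702404814) (nat_lit 760) (nat_lit 13998325414) (nat_lit 76) (nat_lit 1799575504) (nat_lit 321) (nat_lit 5) (nat_lit 331) (nat_lit 5) (nat_lit 322) (nat_lit 5) (nat_lit 480) (nat_lit 428) (nat_lit 232)) (XT.nd (nat_lit 78) (nat_lit 608) (nat_lit 0) (XT.lf (nat_lit 0) (nat_lit 5921501841) (nat_lit 760) (nat_lit 3173320708) (nat_lit 76) (nat_lit 9614542259) (nat_lit 321) (nat_lit 5) (nat_lit 331) (nat_lit 5) (nat_lit 322) (nat_lit 5) (nat_lit 481) (nat_lit 428) (nat_lit 231)) (XT.lf (nat_lit 0) (nat_lit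 7964526144) (nat_lit 608) (nat_lit 1285543656) (nat_lit 684) (nat_lit 9671633485) (nat_lit 313) (nat_lit 5) (nat_lit 321) (nat_lit 5) (nat_lit 322) (nat_lit 5) (nat_lit 482) (nat_lit 428) (nat_lit 230)))))) (XT.nd (nat_lit 390) (nat_lit 1748) (nat_lit 0) (XT.nd (nat_lit 156) (nat_lit 1292) (nat_lit 0) (XT.nd (nat_lit 78) (nat_lit 0) (nat_lit 0) (XT.lf (nat_lit 0) (nat_lit 180962543) (nat_lit 608) (nat_lit 12523673324) (nat_lit 684) (nat_lit 6432464128) (nat_lit 305) (nat_lit 5) (nat_lit 313) (nat_lit 5) (nat_lit 314) (nat_lit 5) (nat_lit 483) (nat_lit 428) (nat_lit 229)) (XT.lf (nat_lit 0) (nat_lit 11673637792) (nat_lit 608) (nat_lit 4630162827) (nat_lit 684) (nat_lit 3051493876) (nat_lit 305) (nat_lit 5) (nat_lit 313) (nat_lit 5) (nat_lit 314) (nat_lit 5) (nat_lit 484) (nat_lit 428) (nat_lit 228))) (XT.nd (nat_lit 78) (nat_lit 608) (nat_lit 0) (XT.lf (nat_lit 0) (nat_lit 432929727) (nat_lit 684) (nat_lit 15741529222) (nat_lit 76) (nat_lit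 3402521531) (nat_lit 296) (nat_lit 5) (nat_lit 305) (nat_lit 5) (nat_lit 297) (nat_lit 5) (nat_lit 485) (nat_lit 428) (nat_lit 227)) (XT.nd (nat_lit 78) (nat_lit 608) (nat_lit 0) (XT.lf (nat_lit 0) (nat_lit 4022442050) (nat_lit 684) (nat_lit 4174370325) (nat_lit 76) (nat_lit 11604359208) (nat_lit 296) (nat_lit 5) (nat_lit 305) (nat_lit 5) (nat_lit 297) (nat_lit 5) (nat_lit 486) (nat_lit 428) (nat_lit 226)) (XT.lf (nat_lit 0) (nat_lit 7717389761) (nat_lit 608) (nat_lit 10254301) (nat_lit 684) (nat_lit 12301324458) (nat_lit 288) (nat_lit 5) (nat_lit 296) (nat_lit 5) (nat_lit 297) (nat_lit 5) (nat_lit 487) (nat_lit 428) (nat_lit 225))))) (XT.nd (nat_lit 234) (nat_lit 608) (nat_lit 0) (XT.nd (nat_lit 78) (nat_lit 1140) (nat_lit 0) (XT.lf (nat_lit 0) (nat_lit 11583148821) (nat_lit 684) (nat_lit 419541809) (nat_lit 76) (nat_lit 8257106790) (nat_lit 288) (nat_lit 5) (nat_lit 297) (nat_lit 5) (nat_lit 289) (nat_lit 5) (nat_lit 488) (nat_lit 428)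 (nat_lit 224)) (XT.nd (nat_lit 78) (nat_lit 608) (nat_lit 0) (XT.lf (nat_lit 0) (nat_lit 11857928157) (nat_lit 532) (nat_lit 3728865445) (nat_lit 608) (nat_lit 4907028700) (nat_lit 281) (nat_lit 5) (nat_lit 288) (nat_lit 5) (nat_lit 289) (nat_lit 5) (nat_lit 489) (nat_lit 428) (nat_lit 223)) (XT.lf (nat_lit 0) (nat_lit 3663697094) (nat_lit 608) (nat_lit 16058046594) (nat_lit 684) (nat_lit 1009759343) (nat_lit 273) (nat_lit 5) (nat_lit 281) (nat_lit 5) (nat_lit 282) (nat_lit 5) (nat_lit 490) (nat_lit 428) (nat_lit 222)))) (XT.nd (nat_lit 78) (nat_lit 532) (nat_lit 0) (XT.lf (nat_lit 0) (nat_lit 3003647502) (nat_lit 684) (nat_lit 4698709451) (nat_lit 76) (nat_lit 13269653656) (nat_lit 272) (nat_lit 5) (nat_lit 281) (nat_lit 5) (nat_lit 273) (nat_lit 5) (nat_lit 491) (nat_lit 428) (nat_lit 221)) (XT.nd (nat_lit 78) (nat_lit 0) (nat_lit 0) (XT.lf (nat_lit 0) (nat_lit 7135684121) (nat_lit 608) (nat_lit 13213647009) (nat_lit 76) (nat_lit 866826073)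 (nat_lit 265) (nat_lit 5) (nat_lit 273) (nat_lit 5) (nat_lit 266) (nat_lit 5) (nat_lit 492) (nat_lit 428) (nat_lit 220)) (XT.lf (nat_lit 0) (nat_lit 11427332866) (nat_lit 608) (nat_lit 502164127) (nat_lit 76) (nat_lit 9534150307) (nat_lit 265) (nat_lit 5) (nat_lit 273) (nat_lit 5) (nat_lit 266) (nat_lit 5) (nat_lit 493) (nat_lit 428) (nat_lit 219))))))))
noncomputable def xc218 : XT := (XT.nd (nat_lit 55692) (nat_lit 0) (nat_lit 11248) (XT.nd (nat_lit 54912) (nat_lit 0) (nat_lit 20824) (XT.nd (nat_lit 54522) (nat_lit 0) (nat_lit 22420) (XT.nd (nat_lit 54288) (nat_lit 0) (nat_lit 22344) (XT.nd (nat_lit 78) (nat_lit 532) (nat_lit 0) (XT.lf (nat_lit 0) (nat_lit 12621397275) (nat_lit 532) (nat_lit 3259699852) (nat_lit 608) (nat_lit 5833464422) (nat_lit 258) (nat_lit 5) (nat_lit 265) (nat_lit 5) (nat_lit 266) (nat_lit 5) (nat_lit 494) (nat_lit 428) (nat_lit 218)) (XT.lf (nat_lit 0) (nat_lit 4052960074) (nat_lit 532) (nat_lit 16431319330) (nat_lit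 608) (nat_lit 1485007825) (nat_lit 251) (nat_lit 5) (nat_lit 258) (nat_lit 5) (nat_lit 259) (nat_lit 5) (nat_lit 495) (nat_lit 428) (nat_lit 217))) (XT.nd (nat_lit 78) (nat_lit 0) (nat_lit 0) (XT.lf (nat_lit 0) (nat_lit 3054710861) (nat_lit 1748) (nat_lit 1246213220) (nat_lit 1748) (nat_lit 1246213220) (nat_lit 545) (nat_lit 3) (nat_lit 568) (nat_lit 3) (nat_lit 568) (nat_lit 5) (nat_lit 429) (nat_lit 429) (nat_lit 282)) (XT.nd (nat_lit 78) (nat_lit 0) (nat_lit 76) (XT.lf (nat_lit 76) (nat_lit 3095306361) (nat_lit 0) (nat_lit 3659211444) (nat_lit 1748) (nat_lit 4439019508) (nat_lit 546) (nat_lit 5) (nat_lit 545) (nat_lit 3) (nat_lit 568) (nat_lit 5) (nat_lit 430) (nat_lit 429) (nat_lit 281)) (XT.lf (nat_lit 0) (nat_lit 7423532400) (nat_lit 1672) (nat_lit 2482944313) (nat_lit 1748) (nat_lit 1388088231) (nat_lit 546) (nat_lit 5) (nat_lit 568) (nat_lit 5) (nat_lit 569) (nat_lit 5) (nat_lit 431) (nat_lit 429) (nat_lit 280))))) (XT.nd (nat_lit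 156) (nat_lit 0) (nat_lit 76) (XT.nd (nat_lit 78) (nat_lit 0) (nat_lit 76) (XT.lf (nat_lit 76) (nat_lit 3255277605) (nat_lit 0) (nat_lit 4881514043) (nat_lit 1748) (nat_lit 3260204193) (nat_lit 547) (nat_lit 5) (nat_lit 546) (nat_lit 5) (nat_lit 569) (nat_lit 5) (nat_lit 432) (nat_lit 429) (nat_lit 279)) (XT.lf (nat_lit 0) (nat_lit 8868443944) (nat_lit 1672) (nat_lit 2369022255) (nat_lit 1748) (nat_lit 263926599) (nat_lit 547) (nat_lit 5) (nat_lit 569) (nat_lit 5) (nat_lit 570) (nat_lit 5) (nat_lit 433) (nat_lit 429) (nat_lit 278))) (XT.nd (nat_lit 78) (nat_lit 0) (nat_lit 0) (XT.lf (nat_lit 76) (nat_lit 3525083956) (nat_lit 0) (nat_lit 6130911188) (nat_lit 1748) (nat_lit 1951057233) (nat_lit 548) (nat_lit 5) (nat_lit 547) (nat_lit 5) (nat_lit 570) (nat_lit 5) (nat_lit 434) (nat_lit 429) (nat_lit 277)) (XT.nd (nat_lit 78) (nat_lit 0) (nat_lit 76) (XT.lf (nat_lit 76) (nat_lit 9561289410) (nat_lit 0) (nat_lit 900178365) (nat_lit 1748) (nat_lit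 1253313965) (nat_lit 548) (nat_lit 5) (nat_lit 547) (nat_lit 5) (nat_lit 570) (nat_lit 5) (nat_lit 435) (nat_lit 429) (nat_lit 276)) (XT.lf (nat_lit 76) (nat_lit 3907963810) (nat_lit 0) (nat_lit 7415834497) (nat_lit 1748) (nat_lit 500052414) (nat_lit 549) (nat_lit 5) (nat_lit 548) (nat_lit 5) (nat_lit 571) (nat_lit 5) (nat_lit 436) (nat_lit 429) (nat_lit 275)))))) (XT.nd (nat_lit 390) (nat_lit 0) (nat_lit 228) (XT.nd (nat_lit 156) (nat_lit 0) (nat_lit 76) (XT.nd (nat_lit 78) (nat_lit 0) (nat_lit 76) (XT.lf (nat_lit 0) (nat_lit 271967180) (nat_lit 1748) (nat_lit 1830941625) (nat_lit 1824) (nat_lit 9832013214) (nat_lit 525) (nat_lit 5) (nat_lit 548) (nat_lit 5) (nat_lit 549) (nat_lit 5) (nat_lit 437) (nat_lit 429) (nat_lit 274)) (XT.lf (nat_lit 0) (nat_lit 1090190712) (nat_lit 1748) (nat_lit 7647230488) (nat_lit 1824) (nat_lit 3309978252) (nat_lit 526) (nat_lit 5) (nat_lit 549) (nat_lit 5) (nat_lit 550) (nat_lit 5) (nat_lit 438) (nat_lit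 429) (nat_lit 273))) (XT.nd (nat_lit 78) (nat_lit 0) (nat_lit 76) (XT.lf (nat_lit 0) (nat_lit 1938272592) (nat_lit 1748) (nat_lit 1403414165) (nat_lit 1824) (nat_lit 8820169799) (nat_lit 526) (nat_lit 5) (nat_lit 549) (nat_lit 5) (nat_lit 550) (nat_lit 5) (nat_lit 439) (nat_lit 429) (nat_lit 272)) (XT.nd (nat_lit 78) (nat_lit 0) (nat_lit 0) (XT.lf (nat_lit 0) (nat_lit 2837661465) (nat_lit 1748) (nat_lit 7269410933) (nat_lit 1824) (nat_lit 2170843497) (nat_lit 527) (nat_lit 5) (nat_lit 550) (nat_lit 5) (nat_lit 551) (nat_lit 5) (nat_lit 440) (nat_lit 429) (nat_lit 271)) (XT.lf (nat_lit 0) (nat_lit 3774320882) (nat_lit 1748) (nat_lit 858921213) (nat_lit 1824) (nat_lit 7762668670) (nat_lit 527) (nat_lit 5) (nat_lit 550) (nat_lit 5) (nat_lit 551) (nat_lit 5) (nat_lit 441) (nat_lit 429) (nat_lit 270))))) (XT.nd (nat_lit 156) (nat_lit 0) (nat_lit 0) (XT.nd (nat_lit 78) (nat_lit 0) (nat_lit 0) (XT.lf (nat_lit 0) (nat_lit 4761382121) (nat_lit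 1748) (nat_lit 6775194447) (nat_lit 1824) (nat_lit 979055592) (nat_lit 528) (nat_lit 5) (nat_lit 551) (nat_lit 5) (nat_lit 552) (nat_lit 5) (nat_lit 442) (nat_lit 429) (nat_lit 269)) (XT.lf (nat_lit 0) (nat_lit 5792793583) (nat_lit 1748) (nat_lit 193280726) (nat_lit 1824) (nat_lit 6651181494) (nat_lit 528) (nat_lit 5) (nat_lit 551) (nat_lit 5) (nat_lit 552) (nat_lit 5) (nat_lit 443) (nat_lit 429) (nat_lit 268))) (XT.nd (nat_lit 78) (nat_lit 0) (nat_lit 76) (XT.lf (nat_lit 76) (nat_lit 6598624349) (nat_lit 0) (nat_lit 277407739) (nat_lit 1824) (nat_lit 5884655854) (nat_lit 529) (nat_lit 5) (nat_lit 528) (nat_lit 5) (nat_lit 552) (nat_lit 5) (nat_lit 444) (nat_lit 429) (nat_lit 267)) (XT.nd (nat_lit 78) (nat_lit 0) (nat_lit 0) (XT.lf (nat_lit 76) (nat_lit 605972741) (nat_lit 0) (nat_lit 7404760529) (nat_lit 1824) (nat_lit 4875259497) (nat_lit 530) (nat_lit 5) (nat_lit 529) (nat_lit 5) (nat_lit 553) (nat_lit 5) (nat_lit 445) (nat_lit 429)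 (nat_lit 266)) (XT.lf (nat_lit 76) (nat_lit 7582705620) (nat_lit 0) (nat_lit 1617322251) (nat_lit 1824) (nat_lit 3813137829) (nat_lit 530) (nat_lit 5) (nat_lit 529) (nat_lit 5) (nat_lit 553) (nat_lit 5) (nat_lit 446) (nat_lit 429) (nat_lit 265))))))) (XT.nd (nat_lit 780) (nat_lit 5396) (nat_lit 0) (XT.nd (nat_lit 390) (nat_lit 2812) (nat_lit 0) (XT.nd (nat_lit 156) (nat_lit 1748) (nat_lit 0) (XT.nd (nat_lit 78) (nat_lit 0) (nat_lit 0) (XT.lf (nat_lit 76) (nat_lit 1540054960) (nat_lit 0) (nat_lit 8899842647) (nat_lit 1824) (nat_lit 2702448699) (nat_lit 531) (nat_lit 5) (nat_lit 530) (nat_lit 5) (nat_lit 554) (nat_lit 5) (nat_lit 447) (nat_lit 429) (nat_lit 264)) (XT.lf (nat_lit 76) (nat_lit 8704386321) (nat_lit 0) (nat_lit 3036385621) (nat_lit 1824) (nat_lit 1532614438) (nat_lit 531) (nat_lit 5) (nat_lit 530) (nat_lit 5) (nat_lit 554) (nat_lit 5) (nat_lit 448) (nat_lit 429) (nat_lit 263))) (XT.nd (nat_lit 78) (nat_lit 1824) (nat_lit 0)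 (XT.lf (nat_lit 76) (nat_lit 2611675311) (nat_lit 0) (nat_lit 10481416751) (nat_lit 1824) (nat_lit 313446628) (nat_lit 532) (nat_lit 5) (nat_lit 531) (nat_lit 5) (nat_lit 555) (nat_lit 5) (nat_lit 449) (nat_lit 429) (nat_lit 262)) (XT.nd (nat_lit 78) (nat_lit 0) (nat_lit 76) (XT.lf (nat_lit 0) (nat_lit 958317922) (nat_lit 1824) (nat_lit 3578695746) (nat_lit 1900) (nat_lit 9004411363) (nat_lit 507) (nat_lit 5) (nat_lit 531) (nat_lit 5) (nat_lit 532) (nat_lit 5) (nat_lit 450) (nat_lit 429) (nat_lit 261)) (XT.lf (nat_lit 0) (nat_lit 2275884112) (nat_lit 1824) (nat_lit 9867276000) (nat_lit 1900) (nat_lit 1535316282) (nat_lit 508) (nat_lit 5) (nat_lit 532) (nat_lit 5) (nat_lit 533) (nat_lit 5) (nat_lit 451) (nat_lit 429) (nat_lit 260))))) (XT.nd (nat_lit 156) (nat_lit 2888) (nat_lit 0) (XT.nd (nat_lit 78) (nat_lit 0) (nat_lit 76) (XT.lf (nat_lit 0) (nat_lit 3663830739) (nat_lit 1824) (nat_lit 2459087027) (nat_lit 1900) (nat_lit 7694470437)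 (nat_lit 508) (nat_lit 5) (nat_lit 532) (nat_lit 5) (nat_lit 533) (nat_lit 5) (nat_lit 452) (nat_lit 429) (nat_lit 259)) (XT.lf (nat_lit 0) (nat_lit 5103372267) (nat_lit 1824) (nat_lit 8802392160) (nat_lit 76) (nat_lit 52837101) (nat_lit 509) (nat_lit 5) (nat_lit 533) (nat_lit 5) (nat_lit 510) (nat_lit 5) (nat_lit 453) (nat_lit 429) (nat_lit 258))) (XT.nd (nat_lit 78) (nat_lit 2964) (nat_lit 0) (XT.lf (nat_lit 0) (nat_lit 6619025714) (nat_lit 1824) (nat_lit 1194305671) (nat_lit 76) (nat_lit 6288361312) (nat_lit 509) (nat_lit 5) (nat_lit 533) (nat_lit 5) (nat_lit 510) (nat_lit 5) (nat_lit 454) (nat_lit 429) (nat_lit 257)) (XT.nd (nat_lit 78) (nat_lit 1140) (nat_lit 0) (XT.lf (nat_lit 0) (nat_lit 6644772834) (nat_lit 1824) (nat_lit 1553715504) (nat_lit 1900) (nat_lit 6048487429) (nat_lit 485) (nat_lit 5) (nat_lit 509) (nat_lit 5) (nat_lit 510) (nat_lit 5) (nat_lit 455) (nat_lit 429) (nat_lit 256)) (XT.lf (nat_lit 0) (nat_lit 224886820)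 (nat_lit 1140) (nat_lit 9616045100) (nat_lit 1216) (nat_lit 4553604746) (nat_lit 470) (nat_lit 5) (nat_lit 485) (nat_lit 5) (nat_lit 486) (nat_lit 5) (nat_lit 456) (nat_lit 429) (nat_lit 255)))))) (XT.nd (nat_lit 390) (nat_lit 3496) (nat_lit 0) (XT.nd (nat_lit 156) (nat_lit 988) (nat_lit 0) (XT.nd (nat_lit 78) (nat_lit 912) (nat_lit 0) (XT.lf (nat_lit 0) (nat_lit 8292736942) (nat_lit 1140) (nat_lit 3275353216) (nat_lit 1216) (nat_lit 2975921308) (nat_lit 470) (nat_lit 5) (nat_lit 485) (nat_lit 5) (nat_lit 486) (nat_lit 5) (nat_lit 457) (nat_lit 429) (nat_lit 254)) (XT.lf (nat_lit 0) (nat_lit 1820184657) (nat_lit 912) (nat_lit 11532969401) (nat_lit 988) (nat_lit 1342854455) (nat_lit 458) (nat_lit 5) (nat_lit 470) (nat_lit 5) (nat_lit 471) (nat_lit 5) (nat_lit 458) (nat_lit 429) (nat_lit 253))) (XT.nd (nat_lit 78) (nat_lit 912) (nat_lit 0) (XT.lf (nat_lit 0) (nat_lit 373442175) (nat_lit 988) (nat_lit 4744956821) (nat_lit 76) (nat_lit 9731508518)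 (nat_lit 457) (nat_lit 5) (nat_lit 470) (nat_lit 5) (nat_lit 458) (nat_lit 5) (nat_lit 459) (nat_lit 429) (nat_lit 252)) (XT.nd (nat_lit 78) (nat_lit 0) (nat_lit 0) (XT.lf (nat_lit 0) (nat_lit 2129861731) (nat_lit 988) (nat_lit 11437651519) (nat_lit 76) (nat_lit 1438718162) (nat_lit 445) (nat_lit 5) (nat_lit 458) (nat_lit 5) (nat_lit 446) (nat_lit 5) (nat_lit 460) (nat_lit 429) (nat_lit 251)) (XT.lf (nat_lit 0) (nat_lit 3978546885) (nat_lit 988) (nat_lit 3094900264) (nat_lit 76) (nat_lit 8091091898) (nat_lit 445) (nat_lit 5) (nat_lit 458) (nat_lit 5) (nat_lit 446) (nat_lit 5) (nat_lit 461) (nat_lit 429) (nat_lit 250))))) (XT.nd (nat_lit 234) (nat_lit 1748) (nat_lit 0) (XT.nd (nat_lit 78) (nat_lit 912) (nat_lit 0) (XT.lf (nat_lit 0) (nat_lit 5478266001) (nat_lit 836) (nat_lit 412869549) (nat_lit 912) (nat_lit 9434338687) (nat_lit 434) (nat_lit 5) (nat_lit 445) (nat_lit 5) (nat_lit 446) (nat_lit 5) (nat_lit 462) (nat_lit 429) (nat_lit 249))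 (XT.nd (nat_lit 78) (nat_lit 912) (nat_lit 0) (XT.lf (nat_lit 0) (nat_lit 7895790174) (nat_lit 912) (nat_lit 1274337946) (nat_lit 76) (nat_lit 6318423727) (nat_lit 434) (nat_lit 5) (nat_lit 446) (nat_lit 5) (nat_lit 435) (nat_lit 5) (nat_lit 463) (nat_lit 429) (nat_lit 248)) (XT.lf (nat_lit 0) (nat_lit 7558140452) (nat_lit 912) (nat_lit 2425850285) (nat_lit 988) (nat_lit 5670031215) (nat_lit 422) (nat_lit 5) (nat_lit 434) (nat_lit 5) (nat_lit 435) (nat_lit 5) (nat_lit 464) (nat_lit 429) (nat_lit 247)))) (XT.nd (nat_lit 78) (nat_lit 912) (nat_lit 0) (XT.lf (nat_lit 0) (nat_lit 734218445) (nat_lit 836) (nat_lit 11413783032) (nat_lit 912) (nat_lit 3674119059) (nat_lit 411) (nat_lit 5) (nat_lit 422) (nat_lit 5) (nat_lit 423) (nat_lit 5) (nat_lit 465) (nat_lit 429) (nat_lit 246)) (XT.nd (nat_lit 78) (nat_lit 912) (nat_lit 0) (XT.lf (nat_lit 0) (nat_lit 9826085973) (nat_lit 836) (nat_lit 4591358537) (nat_lit 912) (nat_lit 1574893541) (nat_lit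 411) (nat_lit 5) (nat_lit 422) (nat_lit 5) (nat_lit 423) (nat_lit 5) (nat_lit 466) (nat_lit 429) (nat_lit 245)) (XT.lf (nat_lit 0) (nat_lit 585605602) (nat_lit 912) (nat_lit 13220441005) (nat_lit 76) (nat_lit 2359305441) (nat_lit 399) (nat_lit 5) (nat_lit 411) (nat_lit 5) (nat_lit 400) (nat_lit 5) (nat_lit 467) (nat_lit 429) (nat_lit 244))))))))
noncomputable def xc219 : XT := (XT.nd (nat_lit 1638) (nat_lit 2280) (nat_lit 0) (XT.nd (nat_lit 780) (nat_lit 4636) (nat_lit 0) (XT.nd (nat_lit 390) (nat_lit 1520) (nat_lit 0) (XT.nd (nat_lit 156) (nat_lit 1520) (nat_lit 0) (XT.nd (nat_lit 78) (nat_lit 760) (nat_lit 0) (XT.lf (nat_lit 0) (nat_lit 2832379951) (nat_lit 912) (nat_lit 4068570331) (nat_lit 76) (nat_lit 9439384782) (nat_lit 399) (nat_lit 5) (nat_lit 411) (nat_lit 5) (nat_lit 400) (nat_lit 5) (nat_lit 468) (nat_lit 429) (nat_lit 243)) (XT.lf (nat_lit 0) (nat_lit 5152062493) (nat_lit 836) (nat_lit 11191395819) (nat_lit 76) (nat_lit 174799973)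 (nat_lit 389) (nat_lit 5) (nat_lit 400) (nat_lit 5) (nat_lit 390) (nat_lit 5) (nat_lit 469) (nat_lit 429) (nat_lit 242))) (XT.nd (nat_lit 78) (nat_lit 1520) (nat_lit 0) (XT.lf (nat_lit 0) (nat_lit 7583649606) (nat_lit 836) (nat_lit 1787999003) (nat_lit 76) (nat_lit 7326781144) (nat_lit 389) (nat_lit 5) (nat_lit 400) (nat_lit 5) (nat_lit 390) (nat_lit 5) (nat_lit 470) (nat_lit 429) (nat_lit 241)) (XT.nd (nat_lit 78) (nat_lit 760) (nat_lit 0) (XT.lf (nat_lit 0) (nat_lit 7898947085) (nat_lit 760) (nat_lit 2208683252) (nat_lit 836) (nat_lit 6773699076) (nat_lit 379) (nat_lit 5) (nat_lit 389) (nat_lit 5) (nat_lit 390) (nat_lit 5) (nat_lit 471) (nat_lit 429) (nat_lit 240)) (XT.lf (nat_lit 0) (nat_lit 704073929) (nat_lit 760) (nat_lit 12020330299) (nat_lit 836) (nat_lit 4342636567) (nat_lit 369) (nat_lit 5) (nat_lit 379) (nat_lit 5) (nat_lit 380) (nat_lit 5) (nat_lit 472) (nat_lit 429) (nat_lit 239))))) (XT.nd (nat_lit 156) (nat_lit 684) (nat_lit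 0) (XT.nd (nat_lit 78) (nat_lit 836) (nat_lit 0) (XT.lf (nat_lit 0) (nat_lit 10683044586) (nat_lit 760) (nat_lit 4777936873) (nat_lit 836) (nat_lit 1794135587) (nat_lit 369) (nat_lit 5) (nat_lit 379) (nat_lit 5) (nat_lit 380) (nat_lit 5) (nat_lit 473) (nat_lit 429) (nat_lit 238)) (XT.lf (nat_lit 0) (nat_lit 827025883) (nat_lit 836) (nat_lit 14017141664) (nat_lit 76) (nat_lit 2602037650) (nat_lit 358) (nat_lit 5) (nat_lit 369) (nat_lit 5) (nat_lit 359) (nat_lit 5) (nat_lit 474) (nat_lit 429) (nat_lit 237))) (XT.nd (nat_lit 78) (nat_lit 684) (nat_lit 0) (XT.lf (nat_lit 0) (nat_lit 3545486591) (nat_lit 836) (nat_lit 3972912776) (nat_lit 76) (nat_lit 10121100568) (nat_lit 358) (nat_lit 5) (nat_lit 369) (nat_lit 5) (nat_lit 359) (nat_lit 5) (nat_lit 475) (nat_lit 429) (nat_lit 236)) (XT.nd (nat_lit 78) (nat_lit 0) (nat_lit 0) (XT.lf (nat_lit 0) (nat_lit 6347436296) (nat_lit 684) (nat_lit 5073284) (nat_lit 760) (nat_lit 11483467127) (nat_lit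 349) (nat_lit 5) (nat_lit 358) (nat_lit 5) (nat_lit 359) (nat_lit 5) (nat_lit 476) (nat_lit 429) (nat_lit 235)) (XT.lf (nat_lit 0) (nat_lit 9285294693) (nat_lit 760) (nat_lit 1165795762) (nat_lit 76) (nat_lit 7583900127) (nat_lit 349) (nat_lit 5) (nat_lit 359) (nat_lit 5) (nat_lit 350) (nat_lit 5) (nat_lit 477) (nat_lit 429) (nat_lit 234)))))) (XT.nd (nat_lit 390) (nat_lit 2508) (nat_lit 0) (XT.nd (nat_lit 156) (nat_lit 760) (nat_lit 0) (XT.nd (nat_lit 78) (nat_lit 684) (nat_lit 0) (XT.lf (nat_lit 0) (nat_lit 9479766239) (nat_lit 684) (nat_lit 2851748442) (nat_lit 760) (nat_lit 5905374469) (nat_lit 340) (nat_lit 5) (nat_lit 349) (nat_lit 5) (nat_lit 350) (nat_lit 5) (nat_lit 478) (nat_lit 429) (nat_lit 233)) (XT.lf (nat_lit 0) (nat_lit 1896373579) (nat_lit 684) (nat_lit 13587555595) (nat_lit 760) (nat_lit 2957991114) (nat_lit 331) (nat_lit 5) (nat_lit 340) (nat_lit 5) (nat_lit 341) (nat_lit 5) (nat_lit 479) (nat_lit 429) (nat_lit 232)))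 (XT.nd (nat_lit 78) (nat_lit 684) (nat_lit 0) (XT.lf (nat_lit 0) (nat_lit 119053357) (nat_lit 760) (nat_lit 5795864165) (nat_lit 76) (nat_lit 12734701299) (nat_lit 330) (nat_lit 5) (nat_lit 340) (nat_lit 5) (nat_lit 331) (nat_lit 5) (nat_lit 480) (nat_lit 429) (nat_lit 231)) (XT.nd (nat_lit 78) (nat_lit 0) (nat_lit 0) (XT.lf (nat_lit 0) (nat_lit 3258085394) (nat_lit 760) (nat_lit 13663625693) (nat_lit 76) (nat_lit 1938568110) (nat_lit 321) (nat_lit 5) (nat_lit 331) (nat_lit 5) (nat_lit 322) (nat_lit 5) (nat_lit 481) (nat_lit 429) (nat_lit 230)) (XT.lf (nat_lit 0) (nat_lit 6531728431) (nat_lit 760) (nat_lit 2634173172) (nat_lit 76) (nat_lit 9907814570) (nat_lit 321) (nat_lit 5) (nat_lit 331) (nat_lit 5) (nat_lit 322) (nat_lit 5) (nat_lit 482) (nat_lit 429) (nat_lit 229))))) (XT.nd (nat_lit 234) (nat_lit 1292) (nat_lit 0) (XT.nd (nat_lit 78) (nat_lit 608) (nat_lit 0) (XT.lf (nat_lit 0) (nat_lit 8722466051) (nat_lit 608) (nat_lit 1198645456)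 (nat_lit 684) (nat_lit 9369305036) (nat_lit 313) (nat_lit 5) (nat_lit 321) (nat_lit 5) (nat_lit 322) (nat_lit 5) (nat_lit 483) (nat_lit 429) (nat_lit 228)) (XT.nd (nat_lit 78) (nat_lit 0) (nat_lit 0) (XT.lf (nat_lit 0) (nat_lit 788223227) (nat_lit 608) (nat_lit 12651651506) (nat_lit 684) (nat_lit 6070344341) (nat_lit 305) (nat_lit 5) (nat_lit 313) (nat_lit 5) (nat_lit 314) (nat_lit 5) (nat_lit 484) (nat_lit 429) (nat_lit 227)) (XT.lf (nat_lit 0) (nat_lit 12498915874) (nat_lit 608) (nat_lit 4602672666) (nat_lit 684) (nat_lit 2631377606) (nat_lit 305) (nat_lit 5) (nat_lit 313) (nat_lit 5) (nat_lit 314) (nat_lit 5) (nat_lit 485) (nat_lit 429) (nat_lit 226)))) (XT.nd (nat_lit 78) (nat_lit 608) (nat_lit 0) (XT.lf (nat_lit 0) (nat_lit 911781728) (nat_lit 684) (nat_lit 15453601739) (nat_lit 76) (nat_lit 3593732755) (nat_lit 296) (nat_lit 5) (nat_lit 305) (nat_lit 5) (nat_lit 297) (nat_lit 5) (nat_lit 486) (nat_lit 429) (nat_lit 225)) (XT.nd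 (nat_lit 78) (nat_lit 608) (nat_lit 0) (XT.lf (nat_lit 0) (nat_lit 4563864819) (nat_lit 684) (nat_lit 3666918450) (nat_lit 76) (nat_lit 11957192268) (nat_lit 296) (nat_lit 5) (nat_lit 305) (nat_lit 5) (nat_lit 297) (nat_lit 5) (nat_lit 487) (nat_lit 429) (nat_lit 224)) (XT.lf (nat_lit 0) (nat_lit 8338728303) (nat_lit 684) (nat_lit 11962428485) (nat_lit 76) (nat_lit 119260475) (nat_lit 288) (nat_lit 5) (nat_lit 297) (nat_lit 5) (nat_lit 289) (nat_lit 5) (nat_lit 488) (nat_lit 429) (nat_lit 223))))))) (XT.nd (nat_lit 54990) (nat_lit 0) (nat_lit 20292) (XT.nd (nat_lit 390) (nat_lit 532) (nat_lit 0) (XT.nd (nat_lit 156) (nat_lit 1216) (nat_lit 0) (XT.nd (nat_lit 78) (nat_lit 0) (nat_lit 0) (XT.lf (nat_lit 0) (nat_lit 157777755) (nat_lit 532) (nat_lit 12105704781) (nat_lit 608) (nat_lit 8392537418) (nat_lit 281) (nat_lit 5) (nat_lit 288) (nat_lit 5) (nat_lit 289) (nat_lit 5) (nat_lit 489) (nat_lit 429) (nat_lit 222)) (XT.lf (nat_lit 0) (nat_lit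 12674888094) (nat_lit 532) (nat_lit 3666274797) (nat_lit 608) (nat_lit 4553683188) (nat_lit 281) (nat_lit 5) (nat_lit 288) (nat_lit 5) (nat_lit 289) (nat_lit 5) (nat_lit 490) (nat_lit 429) (nat_lit 221))) (XT.nd (nat_lit 78) (nat_lit 608) (nat_lit 0) (XT.lf (nat_lit 0) (nat_lit 4320867629) (nat_lit 608) (nat_lit 16233929431) (nat_lit 684) (nat_lit 582563662) (nat_lit 273) (nat_lit 5) (nat_lit 281) (nat_lit 5) (nat_lit 282) (nat_lit 5) (nat_lit 491) (nat_lit 429) (nat_lit 220)) (XT.nd (nat_lit 78) (nat_lit 532) (nat_lit 0) (XT.lf (nat_lit 0) (nat_lit 3496586390) (nat_lit 684) (nat_lit 4214483440) (nat_lit 76) (nat_lit 13671723673) (nat_lit 272) (nat_lit 5) (nat_lit 281) (nat_lit 5) (nat_lit 273) (nat_lit 5) (nat_lit 492) (nat_lit 429) (nat_lit 219)) (XT.lf (nat_lit 0) (nat_lit 7707455337) (nat_lit 608) (nat_lit 12895911345) (nat_lit 76) (nat_lit 1028532514) (nat_lit 265) (nat_lit 5) (nat_lit 273) (nat_lit 5) (nat_lit 266) (nat_lit 5) (nat_lit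 493) (nat_lit 429) (nat_lit 218))))) (XT.nd (nat_lit 54366) (nat_lit 0) (nat_lit 21812) (XT.nd (nat_lit 78) (nat_lit 0) (nat_lit 0) (XT.lf (nat_lit 0) (nat_lit 59165222) (nat_lit 532) (nat_lit 12017743081) (nat_lit 608) (nat_lit 9807591368) (nat_lit 258) (nat_lit 5) (nat_lit 265) (nat_lit 5) (nat_lit 266) (nat_lit 5) (nat_lit 494) (nat_lit 429) (nat_lit 217)) (XT.lf (nat_lit 0) (nat_lit 13440667966) (nat_lit 532) (nat_lit 3174128130) (nat_lit 608) (nat_lit 5525735145) (nat_lit 258) (nat_lit 5) (nat_lit 265) (nat_lit 5) (nat_lit 266) (nat_lit 5) (nat_lit 495) (nat_lit 429) (nat_lit 216))) (XT.nd (nat_lit 78) (nat_lit 0) (nat_lit 0) (XT.lf (nat_lit 0) (nat_lit 3676048916) (nat_lit 1748) (nat_lit 985413127) (nat_lit 1748) (nat_lit 985413127) (nat_lit 545) (nat_lit 3) (nat_lit 568) (nat_lit 3) (nat_lit 568) (nat_lit 5) (nat_lit 430) (nat_lit 430) (nat_lit 280)) (XT.nd (nat_lit 78) (nat_lit 0) (nat_lit 76) (XT.lf (nat_lit 76) (nat_lit 3724901672)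 (nat_lit 0) (nat_lit 4266909633) (nat_lit 1748) (nat_lit 3403552692) (nat_lit 546) (nat_lit 5) (nat_lit 545) (nat_lit 3) (nat_lit 568) (nat_lit 5) (nat_lit 431) (nat_lit 430) (nat_lit 279)) (XT.lf (nat_lit 0) (nat_lit 8649191994) (nat_lit 1672) (nat_lit 1951030979) (nat_lit 1748) (nat_lit 898689492) (nat_lit 546) (nat_lit 5) (nat_lit 568) (nat_lit 5) (nat_lit 569) (nat_lit 5) (nat_lit 432) (nat_lit 430) (nat_lit 278)))))) (XT.nd (nat_lit 390) (nat_lit 0) (nat_lit 0) (XT.nd (nat_lit 156) (nat_lit 1596) (nat_lit 0) (XT.nd (nat_lit 78) (nat_lit 0) (nat_lit 0) (XT.lf (nat_lit 76) (nat_lit 3898129245) (nat_lit 0) (nat_lit 5461216940) (nat_lit 1748) (nat_lit 2244393199) (nat_lit 547) (nat_lit 5) (nat_lit 546) (nat_lit 5) (nat_lit 569) (nat_lit 5) (nat_lit 433) (nat_lit 430) (nat_lit 277)) (XT.lf (nat_lit 76) (nat_lit 9883242195) (nat_lit 0) (nat_lit 199837485) (nat_lit 1748) (nat_lit 1627595636) (nat_lit 547) (nat_lit 5) (nat_lit 546) (nat_lit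 5) (nat_lit 569) (nat_lit 5) (nat_lit 434) (nat_lit 430) (nat_lit 276))) (XT.nd (nat_lit 78) (nat_lit 1672) (nat_lit 0) (XT.lf (nat_lit 76) (nat_lit 4181969355) (nat_lit 0) (nat_lit 6686609140) (nat_lit 1748) (nat_lit 950225661) (nat_lit 548) (nat_lit 5) (nat_lit 547) (nat_lit 5) (nat_lit 570) (nat_lit 5) (nat_lit 435) (nat_lit 430) (nat_lit 275)) (XT.nd (nat_lit 78) (nat_lit 1672) (nat_lit 0) (XT.lf (nat_lit 76) (nat_lit 10327401199) (nat_lit 0) (nat_lit 1342769901) (nat_lit 1748) (nat_lit 258916796) (nat_lit 548) (nat_lit 5) (nat_lit 547) (nat_lit 5) (nat_lit 570) (nat_lit 5) (nat_lit 436) (nat_lit 430) (nat_lit 274)) (XT.lf (nat_lit 0) (nat_lit 484161341) (nat_lit 1748) (nat_lit 7464068957) (nat_lit 1824) (nat_lit 4092413163) (nat_lit 525) (nat_lit 5) (nat_lit 548) (nat_lit 5) (nat_lit 549) (nat_lit 5) (nat_lit 437) (nat_lit 430) (nat_lit 273))))) (XT.nd (nat_lit 234) (nat_lit 0) (nat_lit 152) (XT.nd (nat_lit 78) (nat_lit 0) (nat_lit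 76) (XT.lf (nat_lit 0) (nat_lit 1245568641) (nat_lit 1748) (nat_lit 1272634881) (nat_lit 1824) (nat_lit 9636053695) (nat_lit 525) (nat_lit 5) (nat_lit 548) (nat_lit 5) (nat_lit 549) (nat_lit 5) (nat_lit 438) (nat_lit 430) (nat_lit 272)) (XT.nd (nat_lit 78) (nat_lit 0) (nat_lit 0) (XT.lf (nat_lit 0) (nat_lit 2062659941) (nat_lit 1748) (nat_lit 7187752818) (nat_lit 1824) (nat_lit 3018921373) (nat_lit 526) (nat_lit 5) (nat_lit 549) (nat_lit 5) (nat_lit 550) (nat_lit 5) (nat_lit 439) (nat_lit 430) (nat_lit 271)) (XT.lf (nat_lit 0) (nat_lit 2909062961) (nat_lit 1748) (nat_lit 831068449) (nat_lit 1824) (nat_lit 8646321779) (nat_lit 526) (nat_lit 5) (nat_lit 549) (nat_lit 5) (nat_lit 550) (nat_lit 5) (nat_lit 440) (nat_lit 430) (nat_lit 270)))) (XT.nd (nat_lit 78) (nat_lit 0) (nat_lit 0) (XT.lf (nat_lit 0) (nat_lit 3809952077) (nat_lit 1748) (nat_lit 6797897618) (nat_lit 1824) (nat_lit 1897313770) (nat_lit 527) (nat_lit 5) (nat_lit 550) (nat_lit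 5) (nat_lit 551) (nat_lit 5) (nat_lit 441) (nat_lit 430) (nat_lit 269)) (XT.nd (nat_lit 78) (nat_lit 0) (nat_lit 76) (XT.lf (nat_lit 0) (nat_lit 4747392969) (nat_lit 1748) (nat_lit 271294213) (nat_lit 1824) (nat_lit 7607190086) (nat_lit 527) (nat_lit 5) (nat_lit 550) (nat_lit 5) (nat_lit 551) (nat_lit 5) (nat_lit 442) (nat_lit 430) (nat_lit 268)) (XT.lf (nat_lit 0) (nat_lit 5738658861) (nat_lit 1748) (nat_lit 6290356340) (nat_lit 1824) (nat_lit 719288620) (nat_lit 528) (nat_lit 5) (nat_lit 551) (nat_lit 5) (nat_lit 552) (nat_lit 5) (nat_lit 443) (nat_lit 430) (nat_lit 267))))))))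
noncomputable def xc220 : XT := (XT.nd (nat_lit 1560) (nat_lit 9196) (nat_lit 0) (XT.nd (nat_lit 780) (nat_lit 5548) (nat_lit 0) (XT.nd (nat_lit 390) (nat_lit 1596) (nat_lit 0) (XT.nd (nat_lit 156) (nat_lit 0) (nat_lit 76) (XT.nd (nat_lit 78) (nat_lit 0) (nat_lit 0) (XT.lf (nat_lit 76) (nat_lit 416494487) (nat_lit 0) (nat_lit 6359613143) (nat_lit 1824) (nat_lit 6096544125) (nat_lit 529) (nat_lit 5) (nat_lit 528) (nat_lit 5) (nat_lit 552) (nat_lit 5) (nat_lit 444) (nat_lit 430) (nat_lit 266)) (XT.lf (nat_lit 76) (nat_lit 7334774090) (nat_lit 0) (nat_lit 530499416) (nat_lit 1824) (nat_lit 5133593780) (nat_lit 529) (nat_lit 5) (nat_lit 528) (nat_lit 5) (nat_lit 552) (nat_lit 5) (nat_lit 445) (nat_lit 430) (nat_lit 265))) (XT.nd (nat_lit 78) (nat_lit 0) (nat_lit 0) (XT.lf (nat_lit 76) (nat_lit 1236813589) (nat_lit 0) (nat_lit 7771596161) (nat_lit 1824) (nat_lit 4118553635) (nat_lit 530) (nat_lit 5) (nat_lit 529) (nat_lit 5) (nat_lit 553)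 (nat_lit 5) (nat_lit 446) (nat_lit 430) (nat_lit 264)) (XT.nd (nat_lit 78) (nat_lit 0) (nat_lit 76) (XT.lf (nat_lit 76) (nat_lit 8340949334) (nat_lit 0) (nat_lit 1864120090) (nat_lit 1824) (nat_lit 3051938770) (nat_lit 530) (nat_lit 5) (nat_lit 529) (nat_lit 5) (nat_lit 553) (nat_lit 5) (nat_lit 447) (nat_lit 430) (nat_lit 263)) (XT.lf (nat_lit 76) (nat_lit 2191150928) (nat_lit 0) (nat_lit 9265149089) (nat_lit 1824) (nat_lit 1932741125) (nat_lit 531) (nat_lit 5) (nat_lit 530) (nat_lit 5) (nat_lit 554) (nat_lit 5) (nat_lit 448) (nat_lit 430) (nat_lit 262))))) (XT.nd (nat_lit 156) (nat_lit 0) (nat_lit 0) (XT.nd (nat_lit 78) (nat_lit 1748) (nat_lit 0) (XT.lf (nat_lit 76) (nat_lit 9486606272) (nat_lit 0) (nat_lit 3280750186) (nat_lit 1824) (nat_lit 755662268) (nat_lit 531) (nat_lit 5) (nat_lit 530) (nat_lit 5) (nat_lit 554) (nat_lit 5) (nat_lit 449) (nat_lit 430) (nat_lit 261)) (XT.lf (nat_lit 0) (nat_lit 468744746) (nat_lit 1824) (nat_lit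 10377215339) (nat_lit 1900) (nat_lit 2813065551) (nat_lit 507) (nat_lit 5) (nat_lit 531) (nat_lit 5) (nat_lit 532) (nat_lit 5) (nat_lit 450) (nat_lit 430) (nat_lit 260))) (XT.nd (nat_lit 78) (nat_lit 0) (nat_lit 76) (XT.lf (nat_lit 0) (nat_lit 1746373674) (nat_lit 1824) (nat_lit 3031181914) (nat_lit 1900) (nat_lit 9019320157) (nat_lit 507) (nat_lit 5) (nat_lit 531) (nat_lit 5) (nat_lit 532) (nat_lit 5) (nat_lit 451) (nat_lit 430) (nat_lit 259)) (XT.nd (nat_lit 78) (nat_lit 0) (nat_lit 0) (XT.lf (nat_lit 0) (nat_lit 3078280913) (nat_lit 1824) (nat_lit 9433523498) (nat_lit 1900) (nat_lit 1425103930) (nat_lit 508) (nat_lit 5) (nat_lit 532) (nat_lit 5) (nat_lit 533) (nat_lit 5) (nat_lit 452) (nat_lit 430) (nat_lit 258)) (XT.lf (nat_lit 0) (nat_lit 4479145705) (nat_lit 1824) (nat_lit 1889545216) (nat_lit 1900) (nat_lit 7710204279) (nat_lit 508) (nat_lit 5) (nat_lit 532) (nat_lit 5) (nat_lit 533) (nat_lit 5) (nat_lit 453) (nat_lit 430) (nat_lit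 257)))))) (XT.nd (nat_lit 390) (nat_lit 2736) (nat_lit 0) (XT.nd (nat_lit 156) (nat_lit 2888) (nat_lit 0) (XT.nd (nat_lit 78) (nat_lit 0) (nat_lit 76) (XT.lf (nat_lit 76) (nat_lit 5874348214) (nat_lit 0) (nat_lit 62216248) (nat_lit 1900) (nat_lit 8286586602) (nat_lit 509) (nat_lit 5) (nat_lit 508) (nat_lit 5) (nat_lit 533) (nat_lit 5) (nat_lit 454) (nat_lit 430) (nat_lit 256)) (XT.lf (nat_lit 0) (nat_lit 7467799170) (nat_lit 1824) (nat_lit 600504430) (nat_lit 76) (nat_lit 6301095092) (nat_lit 509) (nat_lit 5) (nat_lit 533) (nat_lit 5) (nat_lit 510) (nat_lit 5) (nat_lit 455) (nat_lit 430) (nat_lit 255))) (XT.nd (nat_lit 78) (nat_lit 1140) (nat_lit 0) (XT.lf (nat_lit 0) (nat_lit 7391291913) (nat_lit 1824) (nat_lit 1677496265) (nat_lit 1900) (nat_lit 5449000504) (nat_lit 485) (nat_lit 5) (nat_lit 509) (nat_lit 5) (nat_lit 510) (nat_lit 5) (nat_lit 456) (nat_lit 430) (nat_lit 254)) (XT.nd (nat_lit 78) (nat_lit 0) (nat_lit 0) (XT.lf (nat_lit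 0) (nat_lit 853602796) (nat_lit 1140) (nat_lit 9880090955) (nat_lit 1216) (nat_lit 3934814784) (nat_lit 470) (nat_lit 5) (nat_lit 485) (nat_lit 5) (nat_lit 486) (nat_lit 5) (nat_lit 457) (nat_lit 430) (nat_lit 253)) (XT.lf (nat_lit 0) (nat_lit 9070570348) (nat_lit 1140) (nat_lit 3411178861) (nat_lit 1216) (nat_lit 2339496541) (nat_lit 470) (nat_lit 5) (nat_lit 485) (nat_lit 5) (nat_lit 486) (nat_lit 5) (nat_lit 458) (nat_lit 430) (nat_lit 252))))) (XT.nd (nat_lit 156) (nat_lit 1748) (nat_lit 0) (XT.nd (nat_lit 78) (nat_lit 76) (nat_lit 0) (XT.lf (nat_lit 0) (nat_lit 2478550561) (nat_lit 912) (nat_lit 11814176036) (nat_lit 988) (nat_lit 683751896) (nat_lit 458) (nat_lit 5) (nat_lit 470) (nat_lit 5) (nat_lit 471) (nat_lit 5) (nat_lit 459) (nat_lit 430) (nat_lit 251)) (XT.lf (nat_lit 0) (nat_lit 1044600394) (nat_lit 988) (nat_lit 4221269001) (nat_lit 76) (nat_lit 9867762481) (nat_lit 457) (nat_lit 5) (nat_lit 470) (nat_lit 5) (nat_lit 458)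 (nat_lit 5) (nat_lit 460) (nat_lit 430) (nat_lit 250))) (XT.nd (nat_lit 78) (nat_lit 836) (nat_lit 0) (XT.lf (nat_lit 0) (nat_lit 2826864009) (nat_lit 988) (nat_lit 11038533260) (nat_lit 76) (nat_lit 1427870672) (nat_lit 445) (nat_lit 5) (nat_lit 458) (nat_lit 5) (nat_lit 446) (nat_lit 5) (nat_lit 461) (nat_lit 430) (nat_lit 249)) (XT.nd (nat_lit 78) (nat_lit 836) (nat_lit 0) (XT.lf (nat_lit 0) (nat_lit 4699691394) (nat_lit 988) (nat_lit 2541238181) (nat_lit 76) (nat_lit 8214068781) (nat_lit 445) (nat_lit 5) (nat_lit 458) (nat_lit 5) (nat_lit 446) (nat_lit 5) (nat_lit 462) (nat_lit 430) (nat_lit 248)) (XT.lf (nat_lit 0) (nat_lit 6199341672) (nat_lit 836) (nat_lit 442580617) (nat_lit 912) (nat_lit 8977402152) (nat_lit 434) (nat_lit 5) (nat_lit 445) (nat_lit 5) (nat_lit 446) (nat_lit 5) (nat_lit 463) (nat_lit 430) (nat_lit 247))))))) (XT.nd (nat_lit 780) (nat_lit 4256) (nat_lit 0) (XT.nd (nat_lit 390) (nat_lit 2280) (nat_lit 0) (XT.nd (nat_lit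 156) (nat_lit 1748) (nat_lit 0) (XT.nd (nat_lit 78) (nat_lit 912) (nat_lit 0) (XT.lf (nat_lit 0) (nat_lit 8674122386) (nat_lit 912) (nat_lit 687757134) (nat_lit 76) (nat_lit 6424035036) (nat_lit 434) (nat_lit 5) (nat_lit 446) (nat_lit 5) (nat_lit 435) (nat_lit 5) (nat_lit 464) (nat_lit 430) (nat_lit 246)) (XT.lf (nat_lit 0) (nat_lit 8317344072) (nat_lit 912) (nat_lit 2478525666) (nat_lit 988) (nat_lit 5158988670) (nat_lit 422) (nat_lit 5) (nat_lit 434) (nat_lit 5) (nat_lit 435) (nat_lit 5) (nat_lit 465) (nat_lit 430) (nat_lit 245))) (XT.nd (nat_lit 78) (nat_lit 912) (nat_lit 0) (XT.lf (nat_lit 0) (nat_lit 1365133609) (nat_lit 836) (nat_lit 11629997687) (nat_lit 912) (nat_lit 3131348255) (nat_lit 411) (nat_lit 5) (nat_lit 422) (nat_lit 5) (nat_lit 423) (nat_lit 5) (nat_lit 466) (nat_lit 430) (nat_lit 244)) (XT.nd (nat_lit 78) (nat_lit 912) (nat_lit 0) (XT.lf (nat_lit 0) (nat_lit 10626755531) (nat_lit 836) (nat_lit 4671361192) (nat_lit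 912) (nat_lit 1002221623) (nat_lit 411) (nat_lit 5) (nat_lit 422) (nat_lit 5) (nat_lit 423) (nat_lit 5) (nat_lit 467) (nat_lit 430) (nat_lit 243)) (XT.lf (nat_lit 0) (nat_lit 1185947321) (nat_lit 912) (nat_lit 12865161804) (nat_lit 76) (nat_lit 2425777372) (nat_lit 399) (nat_lit 5) (nat_lit 411) (nat_lit 5) (nat_lit 400) (nat_lit 5) (nat_lit 468) (nat_lit 430) (nat_lit 242))))) (XT.nd (nat_lit 156) (nat_lit 1520) (nat_lit 0) (XT.nd (nat_lit 78) (nat_lit 760) (nat_lit 0) (XT.lf (nat_lit 0) (nat_lit 3466115400) (nat_lit 912) (nat_lit 3542404462) (nat_lit 76) (nat_lit 9647080146) (nat_lit 399) (nat_lit 5) (nat_lit 411) (nat_lit 5) (nat_lit 400) (nat_lit 5) (nat_lit 469) (nat_lit 430) (nat_lit 241)) (XT.lf (nat_lit 0) (nat_lit 5825014501) (nat_lit 836) (nat_lit 10800509369) (nat_lit 76) (nat_lit 211701366) (nat_lit 389) (nat_lit 5) (nat_lit 400) (nat_lit 5) (nat_lit 390) (nat_lit 5) (nat_lit 470) (nat_lit 430) (nat_lit 240))) (XT.nd (nat_lit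 78) (nat_lit 1520) (nat_lit 0) (XT.lf (nat_lit 0) (nat_lit 8294058636) (nat_lit 836) (nat_lit 1221097839) (nat_lit 76) (nat_lit 7506067153) (nat_lit 389) (nat_lit 5) (nat_lit 400) (nat_lit 5) (nat_lit 390) (nat_lit 5) (nat_lit 471) (nat_lit 430) (nat_lit 239)) (XT.nd (nat_lit 78) (nat_lit 760) (nat_lit 0) (XT.lf (nat_lit 0) (nat_lit 8655622294) (nat_lit 760) (nat_lit 2205828211) (nat_lit 836) (nat_lit 6346472145) (nat_lit 379) (nat_lit 5) (nat_lit 389) (nat_lit 5) (nat_lit 390) (nat_lit 5) (nat_lit 472) (nat_lit 430) (nat_lit 238)) (XT.lf (nat_lit 0) (nat_lit 1323570315) (nat_lit 760) (nat_lit 12200402658) (nat_lit 836) (nat_lit 3873507025) (nat_lit 369) (nat_lit 5) (nat_lit 379) (nat_lit 5) (nat_lit 380) (nat_lit 5) (nat_lit 473) (nat_lit 430) (nat_lit 237)))))) (XT.nd (nat_lit 390) (nat_lit 2736) (nat_lit 0) (XT.nd (nat_lit 156) (nat_lit 684) (nat_lit 0) (XT.nd (nat_lit 78) (nat_lit 836) (nat_lit 0) (XT.lf (nat_lit 0) (nat_lit 11490249505)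 (nat_lit 760) (nat_lit 4814344389) (nat_lit 836) (nat_lit 1284937639) (nat_lit 369) (nat_lit 5) (nat_lit 379) (nat_lit 5) (nat_lit 380) (nat_lit 5) (nat_lit 474) (nat_lit 430) (nat_lit 236)) (XT.lf (nat_lit 0) (nat_lit 1375250140) (nat_lit 836) (nat_lit 13690543549) (nat_lit 76) (nat_lit 2718701937) (nat_lit 358) (nat_lit 5) (nat_lit 369) (nat_lit 5) (nat_lit 359) (nat_lit 5) (nat_lit 475) (nat_lit 430) (nat_lit 235))) (XT.nd (nat_lit 78) (nat_lit 684) (nat_lit 0) (XT.lf (nat_lit 0) (nat_lit 4137654891) (nat_lit 836) (nat_lit 3457330887) (nat_lit 76) (nat_lit 10386878985) (nat_lit 358) (nat_lit 5) (nat_lit 369) (nat_lit 5) (nat_lit 359) (nat_lit 5) (nat_lit 476) (nat_lit 430) (nat_lit 234)) (XT.nd (nat_lit 78) (nat_lit 0) (nat_lit 0) (XT.lf (nat_lit 0) (nat_lit 6994897028) (nat_lit 760) (nat_lit 11117349762) (nat_lit 76) (nat_lit 70142706) (nat_lit 349) (nat_lit 5) (nat_lit 359) (nat_lit 5) (nat_lit 350) (nat_lit 5) (nat_lit 477) (nat_lit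 430) (nat_lit 233)) (XT.lf (nat_lit 0) (nat_lit 9976266129) (nat_lit 760) (nat_lit 599966717) (nat_lit 76) (nat_lit 7809352237) (nat_lit 349) (nat_lit 5) (nat_lit 359) (nat_lit 5) (nat_lit 350) (nat_lit 5) (nat_lit 478) (nat_lit 430) (nat_lit 232))))) (XT.nd (nat_lit 234) (nat_lit 1292) (nat_lit 0) (XT.nd (nat_lit 78) (nat_lit 760) (nat_lit 0) (XT.lf (nat_lit 0) (nat_lit 10254630571) (nat_lit 684) (nat_lit 2822672734) (nat_lit 760) (nat_lit 5514340462) (nat_lit 340) (nat_lit 5) (nat_lit 349) (nat_lit 5) (nat_lit 350) (nat_lit 5) (nat_lit 479) (nat_lit 430) (nat_lit 231)) (XT.nd (nat_lit 78) (nat_lit 76) (nat_lit 0) (XT.lf (nat_lit 0) (nat_lit 2525081682) (nat_lit 684) (nat_lit 13762280851) (nat_lit 760) (nat_lit 2513521064) (nat_lit 331) (nat_lit 5) (nat_lit 340) (nat_lit 5) (nat_lit 341) (nat_lit 5) (nat_lit 480) (nat_lit 430) (nat_lit 230)) (XT.lf (nat_lit 0) (nat_lit 608713518) (nat_lit 760) (nat_lit 5326109069) (nat_lit 76) (nat_lit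 13078043030) (nat_lit 330) (nat_lit 5) (nat_lit 340) (nat_lit 5) (nat_lit 331) (nat_lit 5) (nat_lit 481) (nat_lit 430) (nat_lit 229)))) (XT.nd (nat_lit 78) (nat_lit 608) (nat_lit 0) (XT.lf (nat_lit 0) (nat_lit 3805400586) (nat_lit 760) (nat_lit 13346100217) (nat_lit 76) (nat_lit 2076340909) (nat_lit 321) (nat_lit 5) (nat_lit 331) (nat_lit 5) (nat_lit 322) (nat_lit 5) (nat_lit 482) (nat_lit 430) (nat_lit 228)) (XT.nd (nat_lit 78) (nat_lit 608) (nat_lit 0) (XT.lf (nat_lit 0) (nat_lit 7135062493) (nat_lit 760) (nat_lit 2107642919) (nat_lit 76) (nat_lit 10203031094) (nat_lit 321) (nat_lit 5) (nat_lit 331) (nat_lit 5) (nat_lit 322) (nat_lit 5) (nat_lit 483) (nat_lit 430) (nat_lit 227)) (XT.lf (nat_lit 0) (nat_lit 9472318472) (nat_lit 608) (nat_lit 1114382041) (nat_lit 684) (nat_lit 9080181027) (nat_lit 313) (nat_lit 5) (nat_lit 321) (nat_lit 5) (nat_lit 322) (nat_lit 5) (nat_lit 484) (nat_lit 430) (nat_lit 226))))))))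
noncomputable def xc221 : XT := (XT.nd (nat_lit 55926) (nat_lit 0) (nat_lit 15124) (XT.nd (nat_lit 780) (nat_lit 532) (nat_lit 0) (XT.nd (nat_lit 390) (nat_lit 1748) (nat_lit 0) (XT.nd (nat_lit 156) (nat_lit 1292) (nat_lit 0) (XT.nd (nat_lit 78) (nat_lit 0) (nat_lit 0) (XT.lf (nat_lit 0) (nat_lit 1384188992) (nat_lit 608) (nat_lit 12786945892) (nat_lit 684) (nat_lit 5720039318) (nat_lit 305) (nat_lit 5) (nat_lit 313) (nat_lit 5) (nat_lit 314) (nat_lit 5) (nat_lit 485) (nat_lit 430) (nat_lit 225)) (XT.lf (nat_lit 0) (nat_lit 13317718996) (nat_lit 608) (nat_lit 4579296076) (nat_lit 684) (nat_lit 2221542502) (nat_lit 305) (nat_lit 5) (nat_lit 313) (nat_lit 5) (nat_lit 314) (nat_lit 5) (nat_lit 486) (nat_lit 430) (nat_lit 224))) (XT.nd (nat_lit 78) (nat_lit 608) (nat_lit 0) (XT.lf (nat_lit 0) (nat_lit 1381952585) (nat_lit 684) (nat_lit 15183321537) (nat_lit 76) (nat_lit 3783985720) (nat_lit 296) (nat_lit 5) (nat_lit 305) (nat_lit 5) (nat_lit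 297) (nat_lit 5) (nat_lit 487) (nat_lit 430) (nat_lit 223)) (XT.nd (nat_lit 78) (nat_lit 608) (nat_lit 0) (XT.lf (nat_lit 0) (nat_lit 5098215864) (nat_lit 684) (nat_lit 3172264430) (nat_lit 76) (nat_lit 12312393279) (nat_lit 296) (nat_lit 5) (nat_lit 305) (nat_lit 5) (nat_lit 297) (nat_lit 5) (nat_lit 488) (nat_lit 430) (nat_lit 222)) (XT.lf (nat_lit 0) (nat_lit 8944371832) (nat_lit 684) (nat_lit 11629479879) (nat_lit 76) (nat_lit 246196518) (nat_lit 288) (nat_lit 5) (nat_lit 297) (nat_lit 5) (nat_lit 289) (nat_lit 5) (nat_lit 489) (nat_lit 430) (nat_lit 221))))) (XT.nd (nat_lit 156) (nat_lit 1216) (nat_lit 0) (XT.nd (nat_lit 78) (nat_lit 0) (nat_lit 0) (XT.lf (nat_lit 0) (nat_lit 729366030) (nat_lit 532) (nat_lit 12213340488) (nat_lit 608) (nat_lit 8117754749) (nat_lit 281) (nat_lit 5) (nat_lit 288) (nat_lit 5) (nat_lit 289) (nat_lit 5) (nat_lit 490) (nat_lit 430) (nat_lit 220)) (XT.lf (nat_lit 0) (nat_lit 13485672836) (nat_lit 532)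 (nat_lit 3607758735) (nat_lit 608) (nat_lit 4210802520) (nat_lit 281) (nat_lit 5) (nat_lit 288) (nat_lit 5) (nat_lit 289) (nat_lit 5) (nat_lit 491) (nat_lit 430) (nat_lit 219))) (XT.nd (nat_lit 78) (nat_lit 608) (nat_lit 0) (XT.lf (nat_lit 0) (nat_lit 4968508157) (nat_lit 608) (nat_lit 16418971251) (nat_lit 684) (nat_lit 164196800) (nat_lit 273) (nat_lit 5) (nat_lit 281) (nat_lit 5) (nat_lit 282) (nat_lit 5) (nat_lit 492) (nat_lit 430) (nat_lit 218)) (XT.nd (nat_lit 78) (nat_lit 532) (nat_lit 0) (XT.lf (nat_lit 0) (nat_lit 3982575343) (nat_lit 684) (nat_lit 3743025127) (nat_lit 76) (nat_lit 14076527758) (nat_lit 272) (nat_lit 5) (nat_lit 281) (nat_lit 5) (nat_lit 273) (nat_lit 5) (nat_lit 493) (nat_lit 430) (nat_lit 217)) (XT.lf (nat_lit 0) (nat_lit 8274001151) (nat_lit 608) (nat_lit 12594421072) (nat_lit 76) (nat_lit 1187867024) (nat_lit 265) (nat_lit 5) (nat_lit 273) (nat_lit 5) (nat_lit 266) (nat_lit 5) (nat_lit 494) (nat_lit 430)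 (nat_lit 216)))))) (XT.nd (nat_lit 54678) (nat_lit 0) (nat_lit 20216) (XT.nd (nat_lit 54444) (nat_lit 0) (nat_lit 21812) (XT.nd (nat_lit 54366) (nat_lit 0) (nat_lit 21812) (XT.lf (nat_lit 0) (nat_lit 616076708) (nat_lit 532) (nat_lit 12110288414) (nat_lit 608) (nat_lit 9587666169) (nat_lit 258) (nat_lit 5) (nat_lit 265) (nat_lit 5) (nat_lit 266) (nat_lit 5) (nat_lit 495) (nat_lit 430) (nat_lit 215)) (XT.lf (nat_lit 0) (nat_lit 4288058781) (nat_lit 1748) (nat_lit 730492058) (nat_lit 1748) (nat_lit 730492058) (nat_lit 545) (nat_lit 3) (nat_lit 568) (nat_lit 3) (nat_lit 568) (nat_lit 5) (nat_lit 431) (nat_lit 431) (nat_lit 278))) (XT.nd (nat_lit 78) (nat_lit 0) (nat_lit 76) (XT.lf (nat_lit 76) (nat_lit 4345044825) (nat_lit 0) (nat_lit 4866005957) (nat_lit 1748) (nat_lit 2391032429) (nat_lit 546) (nat_lit 5) (nat_lit 545) (nat_lit 3) (nat_lit 568) (nat_lit 5) (nat_lit 432) (nat_lit 431) (nat_lit 277)) (XT.nd (nat_lit 78) (nat_lit 0) (nat_lit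 0) (XT.lf (nat_lit 0) (nat_lit 9857536219) (nat_lit 1672) (nat_lit 1431062536) (nat_lit 1748) (nat_lit 419584751) (nat_lit 546) (nat_lit 5) (nat_lit 568) (nat_lit 5) (nat_lit 569) (nat_lit 5) (nat_lit 433) (nat_lit 431) (nat_lit 276)) (XT.lf (nat_lit 76) (nat_lit 4531403333) (nat_lit 0) (nat_lit 6033794427) (nat_lit 1748) (nat_lit 1250243118) (nat_lit 547) (nat_lit 5) (nat_lit 546) (nat_lit 5) (nat_lit 569) (nat_lit 5) (nat_lit 434) (nat_lit 431) (nat_lit 275))))) (XT.nd (nat_lit 234) (nat_lit 0) (nat_lit 76) (XT.nd (nat_lit 78) (nat_lit 1672) (nat_lit 0) (XT.lf (nat_lit 76) (nat_lit 10625330082) (nat_lit 0) (nat_lit 658102028) (nat_lit 1748) (nat_lit 641482897) (nat_lit 547) (nat_lit 5) (nat_lit 546) (nat_lit 5) (nat_lit 569) (nat_lit 5) (nat_lit 435) (nat_lit 431) (nat_lit 274)) (XT.nd (nat_lit 78) (nat_lit 0) (nat_lit 0) (XT.lf (nat_lit 0) (nat_lit 29847141) (nat_lit 1748) (nat_lit 7206556606) (nat_lit 1824) (nat_lit 4799175036) (nat_lit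 524) (nat_lit 5) (nat_lit 547) (nat_lit 5) (nat_lit 548) (nat_lit 5) (nat_lit 436) (nat_lit 431) (nat_lit 273)) (XT.lf (nat_lit 0) (nat_lit 706393707) (nat_lit 1748) (nat_lit 1066592019) (nat_lit 1824) (nat_lit 10375377718) (nat_lit 524) (nat_lit 5) (nat_lit 547) (nat_lit 5) (nat_lit 548) (nat_lit 5) (nat_lit 437) (nat_lit 431) (nat_lit 272)))) (XT.nd (nat_lit 78) (nat_lit 0) (nat_lit 0) (XT.lf (nat_lit 0) (nat_lit 1443023115) (nat_lit 1748) (nat_lit 7030089967) (nat_lit 1824) (nat_lit 3789359677) (nat_lit 525) (nat_lit 5) (nat_lit 548) (nat_lit 5) (nat_lit 549) (nat_lit 5) (nat_lit 438) (nat_lit 431) (nat_lit 271)) (XT.nd (nat_lit 78) (nat_lit 0) (nat_lit 76) (XT.lf (nat_lit 0) (nat_lit 2201047217) (nat_lit 1748) (nat_lit 726263688) (nat_lit 1824) (nat_lit 9451420112) (nat_lit 525) (nat_lit 5) (nat_lit 548) (nat_lit 5) (nat_lit 549) (nat_lit 5) (nat_lit 439) (nat_lit 431) (nat_lit 270)) (XT.lf (nat_lit 0) (nat_lit 3017663058) (nat_lit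 1748) (nat_lit 6742866699) (nat_lit 1824) (nat_lit 2735916060) (nat_lit 526) (nat_lit 5) (nat_lit 549) (nat_lit 5) (nat_lit 550) (nat_lit 5) (nat_lit 440) (nat_lit 431) (nat_lit 269))))))) (XT.nd (nat_lit 780) (nat_lit 3724) (nat_lit 0) (XT.nd (nat_lit 390) (nat_lit 1520) (nat_lit 0) (XT.nd (nat_lit 156) (nat_lit 0) (nat_lit 76) (XT.nd (nat_lit 78) (nat_lit 0) (nat_lit 76) (XT.lf (nat_lit 0) (nat_lit 3863077473) (nat_lit 1748) (nat_lit 270590626) (nat_lit 1824) (nat_lit 8482597489) (nat_lit 526) (nat_lit 5) (nat_lit 549) (nat_lit 5) (nat_lit 550) (nat_lit 5) (nat_lit 441) (nat_lit 431) (nat_lit 268)) (XT.lf (nat_lit 0) (nat_lit 4766137069) (nat_lit 1748) (nat_lit 6340909076) (nat_lit 1824) (nat_lit 1630620871) (nat_lit 527) (nat_lit 5) (nat_lit 550) (nat_lit 5) (nat_lit 551) (nat_lit 5) (nat_lit 442) (nat_lit 431) (nat_lit 267))) (XT.nd (nat_lit 78) (nat_lit 0) (nat_lit 76) (XT.lf (nat_lit 76) (nat_lit 308647969) (nat_lit 0) (nat_lit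 5398428130) (nat_lit 1824) (nat_lit 7154024008) (nat_lit 528) (nat_lit 5) (nat_lit 527) (nat_lit 5) (nat_lit 551) (nat_lit 5) (nat_lit 443) (nat_lit 431) (nat_lit 266)) (XT.nd (nat_lit 78) (nat_lit 0) (nat_lit 0) (XT.lf (nat_lit 0) (nat_lit 6701230095) (nat_lit 1748) (nat_lit 5819910106) (nat_lit 1824) (nat_lit 465173736) (nat_lit 528) (nat_lit 5) (nat_lit 551) (nat_lit 5) (nat_lit 552) (nat_lit 5) (nat_lit 444) (nat_lit 431) (nat_lit 265)) (XT.lf (nat_lit 76) (nat_lit 1017155018) (nat_lit 0) (nat_lit 6729495134) (nat_lit 1824) (nat_lit 5366754232) (nat_lit 529) (nat_lit 5) (nat_lit 528) (nat_lit 5) (nat_lit 552) (nat_lit 5) (nat_lit 445) (nat_lit 431) (nat_lit 264))))) (XT.nd (nat_lit 156) (nat_lit 1672) (nat_lit 0) (XT.nd (nat_lit 78) (nat_lit 0) (nat_lit 76) (XT.lf (nat_lit 76) (nat_lit 8062185886) (nat_lit 0) (nat_lit 779040509) (nat_lit 1824) (nat_lit 4401245287) (nat_lit 529) (nat_lit 5) (nat_lit 528) (nat_lit 5) (nat_lit 552) (nat_lit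 5) (nat_lit 446) (nat_lit 431) (nat_lit 263)) (XT.lf (nat_lit 76) (nat_lit 1856245549) (nat_lit 0) (nat_lit 8137274549) (nat_lit 1824) (nat_lit 3379883712) (nat_lit 530) (nat_lit 5) (nat_lit 529) (nat_lit 5) (nat_lit 553) (nat_lit 5) (nat_lit 447) (nat_lit 431) (nat_lit 262))) (XT.nd (nat_lit 78) (nat_lit 1748) (nat_lit 0) (XT.lf (nat_lit 76) (nat_lit 9090803309) (nat_lit 0) (nat_lit 2107526477) (nat_lit 1824) (nat_lit 2308035393) (nat_lit 530) (nat_lit 5) (nat_lit 529) (nat_lit 5) (nat_lit 553) (nat_lit 5) (nat_lit 448) (nat_lit 431) (nat_lit 261)) (XT.nd (nat_lit 78) (nat_lit 1824) (nat_lit 0) (XT.lf (nat_lit 76) (nat_lit 2831182010) (nat_lit 0) (nat_lit 9630488201) (nat_lit 1824) (nat_lit 1179626870) (nat_lit 531) (nat_lit 5) (nat_lit 530) (nat_lit 5) (nat_lit 554) (nat_lit 5) (nat_lit 449) (nat_lit 431) (nat_lit 260)) (XT.lf (nat_lit 0) (nat_lit 5396956) (nat_lit 1824) (nat_lit 3517438027) (nat_lit 1900) (nat_lit 10255422933) (nat_lit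 506) (nat_lit 5) (nat_lit 530) (nat_lit 5) (nat_lit 531) (nat_lit 5) (nat_lit 450) (nat_lit 431) (nat_lit 259)))))) (XT.nd (nat_lit 390) (nat_lit 3800) (nat_lit 0) (XT.nd (nat_lit 156) (nat_lit 0) (nat_lit 76) (XT.nd (nat_lit 78) (nat_lit 0) (nat_lit 0) (XT.lf (nat_lit 0) (nat_lit 1231932772) (nat_lit 1824) (nat_lit 9977810874) (nat_lit 1900) (nat_lit 2707386241) (nat_lit 507) (nat_lit 5) (nat_lit 531) (nat_lit 5) (nat_lit 532) (nat_lit 5) (nat_lit 451) (nat_lit 431) (nat_lit 258)) (XT.lf (nat_lit 0) (nat_lit 2520333628) (nat_lit 1824) (nat_lit 2496757736) (nat_lit 1900) (nat_lit 9040941245) (nat_lit 507) (nat_lit 5) (nat_lit 531) (nat_lit 5) (nat_lit 532) (nat_lit 5) (nat_lit 452) (nat_lit 431) (nat_lit 257))) (XT.nd (nat_lit 78) (nat_lit 0) (nat_lit 0) (XT.lf (nat_lit 0) (nat_lit 3867335110) (nat_lit 1824) (nat_lit 9015602250) (nat_lit 1900) (nat_lit 1318159375) (nat_lit 508) (nat_lit 5) (nat_lit 532) (nat_lit 5) (nat_lit 533) (nat_lit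 5) (nat_lit 453) (nat_lit 431) (nat_lit 256)) (XT.nd (nat_lit 78) (nat_lit 0) (nat_lit 0) (XT.lf (nat_lit 0) (nat_lit 5281952716) (nat_lit 1824) (nat_lit 1332638358) (nat_lit 1900) (nat_lit 7731617547) (nat_lit 508) (nat_lit 5) (nat_lit 532) (nat_lit 5) (nat_lit 533) (nat_lit 5) (nat_lit 454) (nat_lit 431) (nat_lit 255)) (XT.lf (nat_lit 76) (nat_lit 6582620455) (nat_lit 0) (nat_lit 175750377) (nat_lit 1900) (nat_lit 7735181751) (nat_lit 509) (nat_lit 5) (nat_lit 508) (nat_lit 5) (nat_lit 533) (nat_lit 5) (nat_lit 455) (nat_lit 431) (nat_lit 254))))) (XT.nd (nat_lit 234) (nat_lit 988) (nat_lit 0) (XT.nd (nat_lit 78) (nat_lit 2964) (nat_lit 0) (XT.lf (nat_lit 0) (nat_lit 8305729684) (nat_lit 1824) (nat_lit 18812716) (nat_lit 76) (nat_lit 6318472775) (nat_lit 509) (nat_lit 5) (nat_lit 533) (nat_lit 5) (nat_lit 510) (nat_lit 5) (nat_lit 456) (nat_lit 431) (nat_lit 253)) (XT.nd (nat_lit 78) (nat_lit 1140) (nat_lit 0) (XT.lf (nat_lit 0) (nat_lit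 8128913621) (nat_lit 1824) (nat_lit 1800152736) (nat_lit 1900) (nat_lit 4865500050) (nat_lit 485) (nat_lit 5) (nat_lit 509) (nat_lit 5) (nat_lit 510) (nat_lit 5) (nat_lit 457) (nat_lit 431) (nat_lit 252)) (XT.lf (nat_lit 0) (nat_lit 1470653937) (nat_lit 1140) (nat_lit 10146632559) (nat_lit 1216) (nat_lit 3331213832) (nat_lit 470) (nat_lit 5) (nat_lit 485) (nat_lit 5) (nat_lit 486) (nat_lit 5) (nat_lit 458) (nat_lit 431) (nat_lit 251)))) (XT.nd (nat_lit 78) (nat_lit 988) (nat_lit 0) (XT.lf (nat_lit 0) (nat_lit 9840196544) (nat_lit 1140) (nat_lit 3546990463) (nat_lit 1216) (nat_lit 1717367602) (nat_lit 470) (nat_lit 5) (nat_lit 485) (nat_lit 5) (nat_lit 486) (nat_lit 5) (nat_lit 459) (nat_lit 431) (nat_lit 250)) (XT.nd (nat_lit 78) (nat_lit 76) (nat_lit 0) (XT.lf (nat_lit 0) (nat_lit 3125932233) (nat_lit 912) (nat_lit 12099043993) (nat_lit 988) (nat_lit 38103935) (nat_lit 458) (nat_lit 5) (nat_lit 470) (nat_lit 5) (nat_lit 471) (nat_lit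 5) (nat_lit 460) (nat_lit 431) (nat_lit 249)) (XT.lf (nat_lit 0) (nat_lit 1703409911) (nat_lit 988) (nat_lit 3711127910) (nat_lit 76) (nat_lit 10009008343) (nat_lit 457) (nat_lit 5) (nat_lit 470) (nat_lit 5) (nat_lit 458) (nat_lit 5) (nat_lit 461) (nat_lit 431) (nat_lit 248))))))))
noncomputable def xc222 : XT := (XT.nd (nat_lit 1560) (nat_lit 4484) (nat_lit 0) (XT.nd (nat_lit 780) (nat_lit 4408) (nat_lit 0) (XT.nd (nat_lit 390) (nat_lit 2508) (nat_lit 0) (XT.nd (nat_lit 156) (nat_lit 1748) (nat_lit 0) (XT.nd (nat_lit 78) (nat_lit 0) (nat_lit 0) (XT.lf (nat_lit 0) (nat_lit 3512394987) (nat_lit 988) (nat_lit 10655813643) (nat_lit 76) (nat_lit 1418344796) (nat_lit 445) (nat_lit 5) (nat_lit 458) (nat_lit 5) (nat_lit 446) (nat_lit 5) (nat_lit 462) (nat_lit 431) (nat_lit 247)) (XT.lf (nat_lit 0) (nat_lit 5410345710) (nat_lit 988) (nat_lit 2000405805) (nat_lit 76) (nat_lit 8341013599) (nat_lit 445) (nat_lit 5) (nat_lit 458) (nat_lit 5) (nat_lit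 446) (nat_lit 5) (nat_lit 463) (nat_lit 431) (nat_lit 246))) (XT.nd (nat_lit 78) (nat_lit 912) (nat_lit 0) (XT.lf (nat_lit 0) (nat_lit 6911093164) (nat_lit 836) (nat_lit 472052835) (nat_lit 912) (nat_lit 8536397226) (nat_lit 434) (nat_lit 5) (nat_lit 445) (nat_lit 5) (nat_lit 446) (nat_lit 5) (nat_lit 464) (nat_lit 431) (nat_lit 245)) (XT.nd (nat_lit 78) (nat_lit 912) (nat_lit 0) (XT.lf (nat_lit 0) (nat_lit 9443929717) (nat_lit 912) (nat_lit 113212035) (nat_lit 76) (nat_lit 6532564597) (nat_lit 434) (nat_lit 5) (nat_lit 446) (nat_lit 5) (nat_lit 435) (nat_lit 5) (nat_lit 465) (nat_lit 431) (nat_lit 244)) (XT.lf (nat_lit 0) (nat_lit 9068120798) (nat_lit 912) (nat_lit 2532093079) (nat_lit 988) (nat_lit 4661973164) (nat_lit 422) (nat_lit 5) (nat_lit 434) (nat_lit 5) (nat_lit 435) (nat_lit 5) (nat_lit 466) (nat_lit 431) (nat_lit 243))))) (XT.nd (nat_lit 156) (nat_lit 1672) (nat_lit 0) (XT.nd (nat_lit 78) (nat_lit 0) (nat_lit 0) (XT.lf (nat_lit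 0) (nat_lit 1984738083) (nat_lit 836) (nat_lit 11851004979) (nat_lit 912) (nat_lit 2601651898) (nat_lit 411) (nat_lit 5) (nat_lit 422) (nat_lit 5) (nat_lit 423) (nat_lit 5) (nat_lit 467) (nat_lit 431) (nat_lit 242)) (XT.lf (nat_lit 0) (nat_lit 11419978683) (nat_lit 836) (nat_lit 4753423061) (nat_lit 912) (nat_lit 441556915) (nat_lit 411) (nat_lit 5) (nat_lit 422) (nat_lit 5) (nat_lit 423) (nat_lit 5) (nat_lit 468) (nat_lit 431) (nat_lit 241))) (XT.nd (nat_lit 78) (nat_lit 760) (nat_lit 0) (XT.lf (nat_lit 0) (nat_lit 1775438669) (nat_lit 912) (nat_lit 12526840261) (nat_lit 76) (nat_lit 2492829849) (nat_lit 399) (nat_lit 5) (nat_lit 411) (nat_lit 5) (nat_lit 400) (nat_lit 5) (nat_lit 469) (nat_lit 431) (nat_lit 240)) (XT.nd (nat_lit 78) (nat_lit 760) (nat_lit 0) (XT.lf (nat_lit 0) (nat_lit 4090116533) (nat_lit 912) (nat_lit 3029306689) (nat_lit 76) (nat_lit 9858195209) (nat_lit 399) (nat_lit 5) (nat_lit 411) (nat_lit 5) (nat_lit 400) (nat_lit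 5) (nat_lit 470) (nat_lit 431) (nat_lit 239)) (XT.lf (nat_lit 0) (nat_lit 6489295220) (nat_lit 836) (nat_lit 10425675297) (nat_lit 76) (nat_lit 248043615) (nat_lit 389) (nat_lit 5) (nat_lit 400) (nat_lit 5) (nat_lit 390) (nat_lit 5) (nat_lit 471) (nat_lit 431) (nat_lit 238)))))) (XT.nd (nat_lit 390) (nat_lit 2052) (nat_lit 0) (XT.nd (nat_lit 156) (nat_lit 1596) (nat_lit 0) (XT.nd (nat_lit 78) (nat_lit 760) (nat_lit 0) (XT.lf (nat_lit 0) (nat_lit 8996979445) (nat_lit 836) (nat_lit 666260719) (nat_lit 76) (nat_lit 7687667144) (nat_lit 389) (nat_lit 5) (nat_lit 400) (nat_lit 5) (nat_lit 390) (nat_lit 5) (nat_lit 472) (nat_lit 431) (nat_lit 237)) (XT.lf (nat_lit 0) (nat_lit 9404182902) (nat_lit 760) (nat_lit 2204742251) (nat_lit 836) (nat_lit 5932551036) (nat_lit 379) (nat_lit 5) (nat_lit 389) (nat_lit 5) (nat_lit 390) (nat_lit 5) (nat_lit 473) (nat_lit 431) (nat_lit 236))) (XT.nd (nat_lit 78) (nat_lit 836) (nat_lit 0) (XT.lf (nat_lit 0)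 (nat_lit 1931947629) (nat_lit 760) (nat_lit 12386419317) (nat_lit 836) (nat_lit 3416584361) (nat_lit 369) (nat_lit 5) (nat_lit 379) (nat_lit 5) (nat_lit 380) (nat_lit 5) (nat_lit 474) (nat_lit 431) (nat_lit 235)) (XT.nd (nat_lit 78) (nat_lit 836) (nat_lit 0) (XT.lf (nat_lit 0) (nat_lit 12290550483) (nat_lit 760) (nat_lit 4853776968) (nat_lit 836) (nat_lit 786721877) (nat_lit 369) (nat_lit 5) (nat_lit 379) (nat_lit 5) (nat_lit 380) (nat_lit 5) (nat_lit 475) (nat_lit 431) (nat_lit 234)) (XT.lf (nat_lit 0) (nat_lit 1913792955) (nat_lit 836) (nat_lit 13380981729) (nat_lit 76) (nat_lit 2835190098) (nat_lit 358) (nat_lit 5) (nat_lit 369) (nat_lit 5) (nat_lit 359) (nat_lit 5) (nat_lit 476) (nat_lit 431) (nat_lit 233))))) (XT.nd (nat_lit 156) (nat_lit 1368) (nat_lit 0) (XT.nd (nat_lit 78) (nat_lit 684) (nat_lit 0) (XT.lf (nat_lit 0) (nat_lit 4721425451) (nat_lit 836) (nat_lit 2954543494) (nat_lit 76) (nat_lit 10655512764) (nat_lit 358) (nat_lit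 5) (nat_lit 369) (nat_lit 5) (nat_lit 359) (nat_lit 5) (nat_lit 477) (nat_lit 431) (nat_lit 232)) (XT.lf (nat_lit 0) (nat_lit 7630153344) (nat_lit 760) (nat_lit 10762103658) (nat_lit 76) (nat_lit 143873117) (nat_lit 349) (nat_lit 5) (nat_lit 359) (nat_lit 5) (nat_lit 350) (nat_lit 5) (nat_lit 478) (nat_lit 431) (nat_lit 231))) (XT.nd (nat_lit 78) (nat_lit 1368) (nat_lit 0) (XT.lf (nat_lit 0) (nat_lit 10661436917) (nat_lit 760) (nat_lit 45698307) (nat_lit 76) (nat_lit 8036448650) (nat_lit 349) (nat_lit 5) (nat_lit 359) (nat_lit 5) (nat_lit 350) (nat_lit 5) (nat_lit 479) (nat_lit 431) (nat_lit 230)) (XT.nd (nat_lit 78) (nat_lit 684) (nat_lit 0) (XT.lf (nat_lit 0) (nat_lit 11022265480) (nat_lit 684) (nat_lit 2796359293) (nat_lit 760) (nat_lit 5135256360) (nat_lit 340) (nat_lit 5) (nat_lit 349) (nat_lit 5) (nat_lit 350) (nat_lit 5) (nat_lit 480) (nat_lit 431) (nat_lit 229)) (XT.lf (nat_lit 0) (nat_lit 3143423215) (nat_lit 684) (nat_lit 13944268245)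 (nat_lit 760) (nat_lit 2079718175) (nat_lit 331) (nat_lit 5) (nat_lit 340) (nat_lit 5) (nat_lit 341) (nat_lit 5) (nat_lit 481) (nat_lit 431) (nat_lit 228))))))) (XT.nd (nat_lit 780) (nat_lit 684) (nat_lit 0) (XT.nd (nat_lit 390) (nat_lit 1824) (nat_lit 0) (XT.nd (nat_lit 156) (nat_lit 1216) (nat_lit 0) (XT.nd (nat_lit 78) (nat_lit 684) (nat_lit 0) (XT.lf (nat_lit 0) (nat_lit 1089245240) (nat_lit 760) (nat_lit 4869701242) (nat_lit 76) (nat_lit 13424809297) (nat_lit 330) (nat_lit 5) (nat_lit 340) (nat_lit 5) (nat_lit 331) (nat_lit 5) (nat_lit 482) (nat_lit 431) (nat_lit 227)) (XT.lf (nat_lit 0) (nat_lit 4344939473) (nat_lit 760) (nat_lit 13045165637) (nat_lit 76) (nat_lit 2213024818) (nat_lit 321) (nat_lit 5) (nat_lit 331) (nat_lit 5) (nat_lit 322) (nat_lit 5) (nat_lit 483) (nat_lit 431) (nat_lit 226))) (XT.nd (nat_lit 78) (nat_lit 1216) (nat_lit 0) (XT.lf (nat_lit 0) (nat_lit 7732107739) (nat_lit 760) (nat_lit 1593073636) (nat_lit 76)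 (nat_lit 10500382982) (nat_lit 321) (nat_lit 5) (nat_lit 331) (nat_lit 5) (nat_lit 322) (nat_lit 5) (nat_lit 484) (nat_lit 431) (nat_lit 225)) (XT.nd (nat_lit 78) (nat_lit 608) (nat_lit 0) (XT.lf (nat_lit 0) (nat_lit 10214824337) (nat_lit 608) (nat_lit 1032636305) (nat_lit 684) (nat_lit 8803778006) (nat_lit 313) (nat_lit 5) (nat_lit 321) (nat_lit 5) (nat_lit 322) (nat_lit 5) (nat_lit 485) (nat_lit 431) (nat_lit 224)) (XT.lf (nat_lit 0) (nat_lit 1969544148) (nat_lit 608) (nat_lit 12929518100) (nat_lit 684) (nat_lit 5381045344) (nat_lit 305) (nat_lit 5) (nat_lit 313) (nat_lit 5) (nat_lit 314) (nat_lit 5) (nat_lit 486) (nat_lit 431) (nat_lit 223))))) (XT.nd (nat_lit 156) (nat_lit 1140) (nat_lit 0) (XT.nd (nat_lit 78) (nat_lit 684) (nat_lit 0) (XT.lf (nat_lit 0) (nat_lit 14130810020) (nat_lit 608) (nat_lit 4559934244) (nat_lit 684) (nat_lit 1821468684) (nat_lit 305) (nat_lit 5) (nat_lit 313) (nat_lit 5) (nat_lit 314) (nat_lit 5) (nat_lit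 487) (nat_lit 431) (nat_lit 222)) (XT.lf (nat_lit 0) (nat_lit 1843977665) (nat_lit 684) (nat_lit 14930132684) (nat_lit 76) (nat_lit 3973446970) (nat_lit 296) (nat_lit 5) (nat_lit 305) (nat_lit 5) (nat_lit 297) (nat_lit 5) (nat_lit 488) (nat_lit 431) (nat_lit 221))) (XT.nd (nat_lit 78) (nat_lit 1140) (nat_lit 0) (XT.lf (nat_lit 0) (nat_lit 5626048835) (nat_lit 684) (nat_lit 2689773166) (nat_lit 76) (nat_lit 12670191670) (nat_lit 296) (nat_lit 5) (nat_lit 305) (nat_lit 5) (nat_lit 297) (nat_lit 5) (nat_lit 489) (nat_lit 431) (nat_lit 220)) (XT.nd (nat_lit 78) (nat_lit 532) (nat_lit 0) (XT.lf (nat_lit 0) (nat_lit 9545086415) (nat_lit 684) (nat_lit 11312091416) (nat_lit 76) (nat_lit 370834820) (nat_lit 288) (nat_lit 5) (nat_lit 297) (nat_lit 5) (nat_lit 289) (nat_lit 5) (nat_lit 490) (nat_lit 431) (nat_lit 219)) (XT.lf (nat_lit 0) (nat_lit 1290313136) (nat_lit 532) (nat_lit 12328350869) (nat_lit 608) (nat_lit 7854664421) (nat_lit 281) (nat_lit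 5) (nat_lit 288) (nat_lit 5) (nat_lit 289) (nat_lit 5) (nat_lit 491) (nat_lit 431) (nat_lit 218)))))) (XT.nd (nat_lit 54834) (nat_lit 0) (nat_lit 19076) (XT.nd (nat_lit 156) (nat_lit 0) (nat_lit 0) (XT.nd (nat_lit 78) (nat_lit 684) (nat_lit 0) (XT.lf (nat_lit 0) (nat_lit 14291033140) (nat_lit 532) (nat_lit 3553191921) (nat_lit 608) (nat_lit 3877915215) (nat_lit 281) (nat_lit 5) (nat_lit 288) (nat_lit 5) (nat_lit 289) (nat_lit 5) (nat_lit 492) (nat_lit 431) (nat_lit 217)) (XT.lf (nat_lit 0) (nat_lit 242615044) (nat_lit 684) (nat_lit 16368893054) (nat_lit 76) (nat_lit 5363065397) (nat_lit 272) (nat_lit 5) (nat_lit 281) (nat_lit 5) (nat_lit 273) (nat_lit 5) (nat_lit 493) (nat_lit 431) (nat_lit 216))) (XT.nd (nat_lit 54522) (nat_lit 0) (nat_lit 20748) (XT.lf (nat_lit 0) (nat_lit 4462128067) (nat_lit 684) (nat_lit 3283718020) (nat_lit 76) (nat_lit 14484326682) (nat_lit 272) (nat_lit 5) (nat_lit 281) (nat_lit 5) (nat_lit 273) (nat_lit 5) (nat_lit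 494) (nat_lit 431) (nat_lit 215)) (XT.nd (nat_lit 78) (nat_lit 0) (nat_lit 0) (XT.lf (nat_lit 0) (nat_lit 4891398663) (nat_lit 1748) (nat_lit 481136758) (nat_lit 1748) (nat_lit 481136758) (nat_lit 545) (nat_lit 3) (nat_lit 568) (nat_lit 3) (nat_lit 568) (nat_lit 5) (nat_lit 432) (nat_lit 432) (nat_lit 276)) (XT.lf (nat_lit 76) (nat_lit 4956402777) (nat_lit 0) (nat_lit 5457134354) (nat_lit 1748) (nat_lit 1400222438) (nat_lit 546) (nat_lit 5) (nat_lit 545) (nat_lit 3) (nat_lit 568) (nat_lit 5) (nat_lit 433) (nat_lit 432) (nat_lit 275))))) (XT.nd (nat_lit 234) (nat_lit 0) (nat_lit 76) (XT.nd (nat_lit 78) (nat_lit 1672) (nat_lit 0) (XT.lf (nat_lit 76) (nat_lit 10999708921) (nat_lit 0) (nat_lit 50461733) (nat_lit 1748) (nat_lit 872266848) (nat_lit 546) (nat_lit 5) (nat_lit 545) (nat_lit 3) (nat_lit 568) (nat_lit 5) (nat_lit 434) (nat_lit 432) (nat_lit 274)) (XT.nd (nat_lit 78) (nat_lit 1748) (nat_lit 0) (XT.lf (nat_lit 76) (nat_lit 5155779481)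 (nat_lit 0) (nat_lit 6599830898) (nat_lit 1748) (nat_lit 276557145) (nat_lit 547) (nat_lit 5) (nat_lit 546) (nat_lit 5) (nat_lit 569) (nat_lit 5) (nat_lit 435) (nat_lit 432) (nat_lit 273)) (XT.lf (nat_lit 0) (nat_lit 320536347) (nat_lit 1748) (nat_lit 785204775) (nat_lit 1824) (nat_lit 11038431800) (nat_lit 523) (nat_lit 5) (nat_lit 546) (nat_lit 5) (nat_lit 547) (nat_lit 5) (nat_lit 436) (nat_lit 432) (nat_lit 272)))) (XT.nd (nat_lit 78) (nat_lit 0) (nat_lit 0) (XT.lf (nat_lit 0) (nat_lit 978507990) (nat_lit 1748) (nat_lit 6796360550) (nat_lit 1824) (nat_lit 4482460541) (nat_lit 524) (nat_lit 5) (nat_lit 547) (nat_lit 5) (nat_lit 548) (nat_lit 5) (nat_lit 437) (nat_lit 432) (nat_lit 271)) (XT.nd (nat_lit 78) (nat_lit 0) (nat_lit 76) (XT.lf (nat_lit 0) (nat_lit 1649995999) (nat_lit 1748) (nat_lit 544465831) (nat_lit 1824) (nat_lit 10178279393) (nat_lit 524) (nat_lit 5) (nat_lit 547) (nat_lit 5) (nat_lit 548) (nat_lit 5) (nat_lit 438)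 (nat_lit 432) (nat_lit 270)) (XT.lf (nat_lit 0) (nat_lit 2384204364) (nat_lit 1748) (nat_lit 6610080108) (nat_lit 1824) (nat_lit 3495191325) (nat_lit 525) (nat_lit 5) (nat_lit 548) (nat_lit 5) (nat_lit 549) (nat_lit 5) (nat_lit 439) (nat_lit 432) (nat_lit 269))))))))
noncomputable def xc223 : XT := (XT.nd (nat_lit 1638) (nat_lit 9880) (nat_lit 0) (XT.nd (nat_lit 780) (nat_lit 4180) (nat_lit 0) (XT.nd (nat_lit 390) (nat_lit 0) (nat_lit 228) (XT.nd (nat_lit 156) (nat_lit 0) (nat_lit 76) (XT.nd (nat_lit 78) (nat_lit 0) (nat_lit 76) (XT.lf (nat_lit 0) (nat_lit 3139500306) (nat_lit 1748) (nat_lit 191169689) (nat_lit 1824) (nat_lit 9277747000) (nat_lit 525) (nat_lit 5) (nat_lit 548) (nat_lit 5) (nat_lit 549) (nat_lit 5) (nat_lit 440) (nat_lit 432) (nat_lit 268)) (XT.lf (nat_lit 0) (nat_lit 3956284215) (nat_lit 1748) (nat_lit 6311940512) (nat_lit 1824) (nat_lit 2460584649) (nat_lit 526) (nat_lit 5) (nat_lit 549) (nat_lit 5) (nat_lit 550) (nat_lit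 5) (nat_lit 441) (nat_lit 432) (nat_lit 267))) (XT.nd (nat_lit 78) (nat_lit 0) (nat_lit 76) (XT.lf (nat_lit 76) (nat_lit 282390895) (nat_lit 0) (nat_lit 4520828552) (nat_lit 1824) (nat_lit 8048113843) (nat_lit 527) (nat_lit 5) (nat_lit 526) (nat_lit 5) (nat_lit 550) (nat_lit 5) (nat_lit 442) (nat_lit 432) (nat_lit 266)) (XT.nd (nat_lit 78) (nat_lit 0) (nat_lit 0) (XT.lf (nat_lit 0) (nat_lit 5707274833) (nat_lit 1748) (nat_lit 5897805598) (nat_lit 1824) (nat_lit 1370423624) (nat_lit 527) (nat_lit 5) (nat_lit 550) (nat_lit 5) (nat_lit 551) (nat_lit 5) (nat_lit 443) (nat_lit 432) (nat_lit 265)) (XT.lf (nat_lit 76) (nat_lit 880993104) (nat_lit 0) (nat_lit 5773130898) (nat_lit 1824) (nat_lit 6447539980) (nat_lit 528) (nat_lit 5) (nat_lit 527) (nat_lit 5) (nat_lit 551) (nat_lit 5) (nat_lit 444) (nat_lit 432) (nat_lit 264))))) (XT.nd (nat_lit 156) (nat_lit 0) (nat_lit 0) (XT.nd (nat_lit 78) (nat_lit 0) (nat_lit 0) (XT.lf (nat_lit 0) (nat_lit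 7650131721) (nat_lit 1748) (nat_lit 5363208192) (nat_lit 1824) (nat_lit 216402761) (nat_lit 528) (nat_lit 5) (nat_lit 551) (nat_lit 5) (nat_lit 552) (nat_lit 5) (nat_lit 445) (nat_lit 432) (nat_lit 263)) (XT.lf (nat_lit 76) (nat_lit 1606827838) (nat_lit 0) (nat_lit 7097350826) (nat_lit 1824) (nat_lit 4655441897) (nat_lit 529) (nat_lit 5) (nat_lit 528) (nat_lit 5) (nat_lit 552) (nat_lit 5) (nat_lit 446) (nat_lit 432) (nat_lit 262))) (XT.nd (nat_lit 78) (nat_lit 0) (nat_lit 76) (XT.lf (nat_lit 76) (nat_lit 8781595997) (nat_lit 0) (nat_lit 1023313270) (nat_lit 1824) (nat_lit 3686674683) (nat_lit 529) (nat_lit 5) (nat_lit 528) (nat_lit 5) (nat_lit 552) (nat_lit 5) (nat_lit 447) (nat_lit 432) (nat_lit 261)) (XT.nd (nat_lit 78) (nat_lit 0) (nat_lit 0) (XT.lf (nat_lit 76) (nat_lit 2464973389) (nat_lit 0) (nat_lit 8502102378) (nat_lit 1824) (nat_lit 2658322413) (nat_lit 530) (nat_lit 5) (nat_lit 529) (nat_lit 5) (nat_lit 553) (nat_lit 5) (nat_lit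 448) (nat_lit 432) (nat_lit 260)) (XT.lf (nat_lit 76) (nat_lit 9833014404) (nat_lit 0) (nat_lit 2347796946) (nat_lit 1824) (nat_lit 1580510833) (nat_lit 530) (nat_lit 5) (nat_lit 529) (nat_lit 5) (nat_lit 553) (nat_lit 5) (nat_lit 449) (nat_lit 432) (nat_lit 259)))))) (XT.nd (nat_lit 390) (nat_lit 2736) (nat_lit 0) (XT.nd (nat_lit 156) (nat_lit 0) (nat_lit 76) (XT.nd (nat_lit 78) (nat_lit 1824) (nat_lit 0) (XT.lf (nat_lit 76) (nat_lit 3460862228) (nat_lit 0) (nat_lit 9996143073) (nat_lit 1824) (nat_lit 442195689) (nat_lit 531) (nat_lit 5) (nat_lit 530) (nat_lit 5) (nat_lit 554) (nat_lit 5) (nat_lit 450) (nat_lit 432) (nat_lit 258)) (XT.lf (nat_lit 0) (nat_lit 741821323) (nat_lit 1824) (nat_lit 3016181355) (nat_lit 1900) (nat_lit 10281094068) (nat_lit 506) (nat_lit 5) (nat_lit 530) (nat_lit 5) (nat_lit 531) (nat_lit 5) (nat_lit 451) (nat_lit 432) (nat_lit 257))) (XT.nd (nat_lit 78) (nat_lit 0) (nat_lit 0) (XT.lf (nat_lit 0) (nat_lit 1981113075)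 (nat_lit 1824) (nat_lit 9593986880) (nat_lit 1900) (nat_lit 2605881697) (nat_lit 507) (nat_lit 5) (nat_lit 531) (nat_lit 5) (nat_lit 532) (nat_lit 5) (nat_lit 452) (nat_lit 432) (nat_lit 256)) (XT.nd (nat_lit 78) (nat_lit 0) (nat_lit 76) (XT.lf (nat_lit 0) (nat_lit 3281075250) (nat_lit 1824) (nat_lit 1974751507) (nat_lit 1900) (nat_lit 9069159806) (nat_lit 507) (nat_lit 5) (nat_lit 531) (nat_lit 5) (nat_lit 532) (nat_lit 5) (nat_lit 453) (nat_lit 432) (nat_lit 255)) (XT.lf (nat_lit 0) (nat_lit 4643921124) (nat_lit 1824) (nat_lit 8612877274) (nat_lit 1900) (nat_lit 1214335487) (nat_lit 508) (nat_lit 5) (nat_lit 532) (nat_lit 5) (nat_lit 533) (nat_lit 5) (nat_lit 454) (nat_lit 432) (nat_lit 254))))) (XT.nd (nat_lit 234) (nat_lit 1140) (nat_lit 0) (XT.nd (nat_lit 78) (nat_lit 1748) (nat_lit 0) (XT.lf (nat_lit 0) (nat_lit 6073120507) (nat_lit 1824) (nat_lit 787686202) (nat_lit 1900) (nat_lit 7758615510) (nat_lit 508) (nat_lit 5) (nat_lit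 532) (nat_lit 5) (nat_lit 533) (nat_lit 5) (nat_lit 455) (nat_lit 432) (nat_lit 253)) (XT.nd (nat_lit 78) (nat_lit 1748) (nat_lit 0) (XT.lf (nat_lit 76) (nat_lit 7282117228) (nat_lit 0) (nat_lit 287194839) (nat_lit 1900) (nat_lit 7200596091) (nat_lit 509) (nat_lit 5) (nat_lit 508) (nat_lit 5) (nat_lit 533) (nat_lit 5) (nat_lit 456) (nat_lit 432) (nat_lit 252)) (XT.lf (nat_lit 0) (nat_lit 558787262) (nat_lit 1824) (nat_lit 8578521376) (nat_lit 1900) (nat_lit 5785257555) (nat_lit 485) (nat_lit 5) (nat_lit 509) (nat_lit 5) (nat_lit 510) (nat_lit 5) (nat_lit 457) (nat_lit 432) (nat_lit 251)))) (XT.nd (nat_lit 78) (nat_lit 1140) (nat_lit 0) (XT.lf (nat_lit 0) (nat_lit 8858385270) (nat_lit 1824) (nat_lit 1921802221) (nat_lit 1900) (nat_lit 4297219448) (nat_lit 485) (nat_lit 5) (nat_lit 509) (nat_lit 5) (nat_lit 510) (nat_lit 5) (nat_lit 458) (nat_lit 432) (nat_lit 250)) (XT.nd (nat_lit 78) (nat_lit 0) (nat_lit 0) (XT.lf (nat_lit 0) (nat_lit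 2076748182) (nat_lit 1140) (nat_lit 10415827980) (nat_lit 1216) (nat_lit 2742035295) (nat_lit 470) (nat_lit 5) (nat_lit 485) (nat_lit 5) (nat_lit 486) (nat_lit 5) (nat_lit 459) (nat_lit 432) (nat_lit 249)) (XT.lf (nat_lit 0) (nat_lit 10602374167) (nat_lit 1140) (nat_lit 3682893772) (nat_lit 1216) (nat_lit 1108771019) (nat_lit 470) (nat_lit 5) (nat_lit 485) (nat_lit 5) (nat_lit 486) (nat_lit 5) (nat_lit 460) (nat_lit 432) (nat_lit 248))))))) (XT.nd (nat_lit 780) (nat_lit 4484) (nat_lit 0) (XT.nd (nat_lit 390) (nat_lit 2660) (nat_lit 0) (XT.nd (nat_lit 156) (nat_lit 1748) (nat_lit 0) (XT.nd (nat_lit 78) (nat_lit 0) (nat_lit 0) (XT.lf (nat_lit 0) (nat_lit 587053042) (nat_lit 988) (nat_lit 11796730238) (nat_lit 76) (nat_lit 3172055344) (nat_lit 457) (nat_lit 5) (nat_lit 470) (nat_lit 5) (nat_lit 458) (nat_lit 5) (nat_lit 461) (nat_lit 432) (nat_lit 247)) (XT.lf (nat_lit 0) (nat_lit 2350624504) (nat_lit 988) (nat_lit 3213871738) (nat_lit 76)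 (nat_lit 10155257917) (nat_lit 457) (nat_lit 5) (nat_lit 470) (nat_lit 5) (nat_lit 458) (nat_lit 5) (nat_lit 462) (nat_lit 432) (nat_lit 246))) (XT.nd (nat_lit 78) (nat_lit 836) (nat_lit 0) (XT.lf (nat_lit 0) (nat_lit 4187211992) (nat_lit 988) (nat_lit 10288873897) (nat_lit 76) (nat_lit 1410107223) (nat_lit 445) (nat_lit 5) (nat_lit 458) (nat_lit 5) (nat_lit 446) (nat_lit 5) (nat_lit 463) (nat_lit 432) (nat_lit 245)) (XT.nd (nat_lit 78) (nat_lit 836) (nat_lit 0) (XT.lf (nat_lit 0) (nat_lit 6111267434) (nat_lit 988) (nat_lit 1471731549) (nat_lit 76) (nat_lit 8471947137) (nat_lit 445) (nat_lit 5) (nat_lit 458) (nat_lit 5) (nat_lit 446) (nat_lit 5) (nat_lit 464) (nat_lit 432) (nat_lit 244)) (XT.lf (nat_lit 0) (nat_lit 7614256067) (nat_lit 836) (nat_lit 501313774) (nat_lit 912) (nat_lit 8110669030) (nat_lit 434) (nat_lit 5) (nat_lit 445) (nat_lit 5) (nat_lit 446) (nat_lit 5) (nat_lit 465) (nat_lit 432) (nat_lit 243))))) (XT.nd (nat_lit 156)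 (nat_lit 1748) (nat_lit 0) (XT.nd (nat_lit 78) (nat_lit 0) (nat_lit 0) (XT.lf (nat_lit 0) (nat_lit 455959541) (nat_lit 912) (nat_lit 9752978024) (nat_lit 988) (nat_lit 6191040327) (nat_lit 422) (nat_lit 5) (nat_lit 434) (nat_lit 5) (nat_lit 435) (nat_lit 5) (nat_lit 466) (nat_lit 432) (nat_lit 242)) (XT.lf (nat_lit 0) (nat_lit 9811218936) (nat_lit 912) (nat_lit 2586576635) (nat_lit 988) (nat_lit 4178323662) (nat_lit 422) (nat_lit 5) (nat_lit 434) (nat_lit 5) (nat_lit 435) (nat_lit 5) (nat_lit 467) (nat_lit 432) (nat_lit 241))) (XT.nd (nat_lit 78) (nat_lit 912) (nat_lit 0) (XT.lf (nat_lit 0) (nat_lit 2593734846) (nat_lit 836) (nat_lit 12076882574) (nat_lit 912) (nat_lit 2084362249) (nat_lit 411) (nat_lit 5) (nat_lit 422) (nat_lit 5) (nat_lit 423) (nat_lit 5) (nat_lit 468) (nat_lit 432) (nat_lit 240)) (XT.nd (nat_lit 78) (nat_lit 836) (nat_lit 0) (XT.lf (nat_lit 0) (nat_lit 106358000) (nat_lit 912) (nat_lit 4730495779) (nat_lit 76) (nat_lit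 12099445755) (nat_lit 410) (nat_lit 5) (nat_lit 422) (nat_lit 5) (nat_lit 411) (nat_lit 5) (nat_lit 469) (nat_lit 432) (nat_lit 239)) (XT.lf (nat_lit 0) (nat_lit 2354750212) (nat_lit 912) (nat_lit 12204881123) (nat_lit 76) (nat_lit 2560503564) (nat_lit 399) (nat_lit 5) (nat_lit 411) (nat_lit 5) (nat_lit 400) (nat_lit 5) (nat_lit 470) (nat_lit 432) (nat_lit 238)))))) (XT.nd (nat_lit 390) (nat_lit 2204) (nat_lit 0) (XT.nd (nat_lit 156) (nat_lit 1520) (nat_lit 0) (XT.nd (nat_lit 78) (nat_lit 760) (nat_lit 0) (XT.lf (nat_lit 0) (nat_lit 4705058834) (nat_lit 912) (nat_lit 2528622290) (nat_lit 76) (nat_lit 10072826877) (nat_lit 399) (nat_lit 5) (nat_lit 411) (nat_lit 5) (nat_lit 400) (nat_lit 5) (nat_lit 471) (nat_lit 432) (nat_lit 237)) (XT.lf (nat_lit 0) (nat_lit 7145590571) (nat_lit 836) (nat_lit 10066287747) (nat_lit 76) (nat_lit 283865907) (nat_lit 389) (nat_lit 5) (nat_lit 400) (nat_lit 5) (nat_lit 390) (nat_lit 5) (nat_lit 472) (nat_lit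 432) (nat_lit 236))) (XT.nd (nat_lit 78) (nat_lit 1520) (nat_lit 0) (XT.lf (nat_lit 0) (nat_lit 9693104766) (nat_lit 836) (nat_lit 122820192) (nat_lit 76) (nat_lit 7871676781) (nat_lit 389) (nat_lit 5) (nat_lit 400) (nat_lit 5) (nat_lit 390) (nat_lit 5) (nat_lit 473) (nat_lit 432) (nat_lit 235)) (XT.nd (nat_lit 78) (nat_lit 760) (nat_lit 0) (XT.lf (nat_lit 0) (nat_lit 10145369369) (nat_lit 760) (nat_lit 2205389842) (nat_lit 836) (nat_lit 5531353392) (nat_lit 379) (nat_lit 5) (nat_lit 389) (nat_lit 5) (nat_lit 390) (nat_lit 5) (nat_lit 474) (nat_lit 432) (nat_lit 234)) (XT.lf (nat_lit 0) (nat_lit 2529896375) (nat_lit 760) (nat_lit 12578408185) (nat_lit 836) (nat_lit 2971274367) (nat_lit 369) (nat_lit 5) (nat_lit 379) (nat_lit 5) (nat_lit 380) (nat_lit 5) (nat_lit 475) (nat_lit 432) (nat_lit 233))))) (XT.nd (nat_lit 234) (nat_lit 1368) (nat_lit 0) (XT.nd (nat_lit 78) (nat_lit 836) (nat_lit 0) (XT.lf (nat_lit 0) (nat_lit 13084704427) (nat_lit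 760) (nat_lit 4896205921) (nat_lit 836) (nat_lit 298886039) (nat_lit 369) (nat_lit 5) (nat_lit 379) (nat_lit 5) (nat_lit 380) (nat_lit 5) (nat_lit 476) (nat_lit 432) (nat_lit 232)) (XT.nd (nat_lit 78) (nat_lit 0) (nat_lit 0) (XT.lf (nat_lit 0) (nat_lit 2443262405) (nat_lit 836) (nat_lit 13087881745) (nat_lit 76) (nat_lit 2951596056) (nat_lit 358) (nat_lit 5) (nat_lit 369) (nat_lit 5) (nat_lit 359) (nat_lit 5) (nat_lit 477) (nat_lit 432) (nat_lit 231)) (XT.lf (nat_lit 0) (nat_lit 5297416304) (nat_lit 836) (nat_lit 2463909247) (nat_lit 76) (nat_lit 10927154545) (nat_lit 358) (nat_lit 5) (nat_lit 369) (nat_lit 5) (nat_lit 359) (nat_lit 5) (nat_lit 478) (nat_lit 432) (nat_lit 230)))) (XT.nd (nat_lit 78) (nat_lit 684) (nat_lit 0) (XT.lf (nat_lit 0) (nat_lit 8258879416) (nat_lit 760) (nat_lit 10422181277) (nat_lit 76) (nat_lit 216269568) (nat_lit 349) (nat_lit 5) (nat_lit 359) (nat_lit 5) (nat_lit 350) (nat_lit 5) (nat_lit 479) (nat_lit 432)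 (nat_lit 229)) (XT.nd (nat_lit 78) (nat_lit 0) (nat_lit 0) (XT.lf (nat_lit 0) (nat_lit 504280330) (nat_lit 684) (nat_lit 10840446708) (nat_lit 760) (nat_lit 7764327287) (nat_lit 340) (nat_lit 5) (nat_lit 349) (nat_lit 5) (nat_lit 350) (nat_lit 5) (nat_lit 480) (nat_lit 432) (nat_lit 228)) (XT.lf (nat_lit 0) (nat_lit 11783408885) (nat_lit 684) (nat_lit 2772733524) (nat_lit 760) (nat_lit 4767593445) (nat_lit 340) (nat_lit 5) (nat_lit 349) (nat_lit 5) (nat_lit 350) (nat_lit 5) (nat_lit 481) (nat_lit 432) (nat_lit 227))))))))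
noncomputable def xc224 : XT := (XT.nd (nat_lit 56082) (nat_lit 0) (nat_lit 15048) (XT.nd (nat_lit 780) (nat_lit 1216) (nat_lit 0) (XT.nd (nat_lit 390) (nat_lit 1900) (nat_lit 0) (XT.nd (nat_lit 156) (nat_lit 1292) (nat_lit 0) (XT.nd (nat_lit 78) (nat_lit 76) (nat_lit 0) (XT.lf (nat_lit 0) (nat_lit 3752081664) (nat_lit 684) (nat_lit 14133516718) (nat_lit 760) (nat_lit 1656036386) (nat_lit 331) (nat_lit 5) (nat_lit 340) (nat_lit 5) (nat_lit 341) (nat_lit 5) (nat_lit 482) (nat_lit 432) (nat_lit 226)) (XT.lf (nat_lit 0) (nat_lit 1561200707) (nat_lit 760) (nat_lit 4426024517) (nat_lit 76) (nat_lit 13775202260) (nat_lit 330) (nat_lit 5) (nat_lit 340) (nat_lit 5) (nat_lit 331) (nat_lit 5) (nat_lit 483) (nat_lit 432) (nat_lit 225))) (XT.nd (nat_lit 78) (nat_lit 608) (nat_lit 0) (XT.lf (nat_lit 0) (nat_lit 4877273553) (nat_lit 760) (nat_lit 12760262928) (nat_lit 76) (nat_lit 2348747340) (nat_lit 321) (nat_lit 5) (nat_lit 331) (nat_lit 5) (nat_lit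 322) (nat_lit 5) (nat_lit 484) (nat_lit 432) (nat_lit 224)) (XT.nd (nat_lit 78) (nat_lit 608) (nat_lit 0) (XT.lf (nat_lit 0) (nat_lit 8323451158) (nat_lit 760) (nat_lit 1089831167) (nat_lit 76) (nat_lit 10800059293) (nat_lit 321) (nat_lit 5) (nat_lit 331) (nat_lit 5) (nat_lit 322) (nat_lit 5) (nat_lit 485) (nat_lit 432) (nat_lit 223)) (XT.lf (nat_lit 0) (nat_lit 10950704345) (nat_lit 608) (nat_lit 953295397) (nat_lit 684) (nat_lit 8539631880) (nat_lit 313) (nat_lit 5) (nat_lit 321) (nat_lit 5) (nat_lit 322) (nat_lit 5) (nat_lit 486) (nat_lit 432) (nat_lit 222))))) (XT.nd (nat_lit 156) (nat_lit 1292) (nat_lit 0) (XT.nd (nat_lit 78) (nat_lit 0) (nat_lit 0) (XT.lf (nat_lit 0) (nat_lit 2544951349) (nat_lit 608) (nat_lit 13079336155) (nat_lit 684) (nat_lit 5052877361) (nat_lit 305) (nat_lit 5) (nat_lit 313) (nat_lit 5) (nat_lit 314) (nat_lit 5) (nat_lit 487) (nat_lit 432) (nat_lit 221)) (XT.lf (nat_lit 0) (nat_lit 14938932414) (nat_lit 608)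 (nat_lit 4544493411) (nat_lit 684) (nat_lit 1430654049) (nat_lit 305) (nat_lit 5) (nat_lit 313) (nat_lit 5) (nat_lit 314) (nat_lit 5) (nat_lit 488) (nat_lit 432) (nat_lit 220))) (XT.nd (nat_lit 78) (nat_lit 608) (nat_lit 0) (XT.lf (nat_lit 0) (nat_lit 2298375507) (nat_lit 684) (nat_lit 14693503423) (nat_lit 76) (nat_lit 4162279169) (nat_lit 296) (nat_lit 5) (nat_lit 305) (nat_lit 5) (nat_lit 297) (nat_lit 5) (nat_lit 489) (nat_lit 432) (nat_lit 219)) (XT.nd (nat_lit 78) (nat_lit 608) (nat_lit 0) (XT.lf (nat_lit 0) (nat_lit 6147901468) (nat_lit 684) (nat_lit 2218831458) (nat_lit 76) (nat_lit 13030814385) (nat_lit 296) (nat_lit 5) (nat_lit 305) (nat_lit 5) (nat_lit 297) (nat_lit 5) (nat_lit 490) (nat_lit 432) (nat_lit 218)) (XT.lf (nat_lit 0) (nat_lit 10141435227) (nat_lit 684) (nat_lit 11009711501) (nat_lit 76) (nat_lit 493317234) (nat_lit 288) (nat_lit 5) (nat_lit 297) (nat_lit 5) (nat_lit 289) (nat_lit 5) (nat_lit 491) (nat_lit 432)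 (nat_lit 217)))))) (XT.nd (nat_lit 54912) (nat_lit 0) (nat_lit 19000) (XT.nd (nat_lit 156) (nat_lit 684) (nat_lit 0) (XT.nd (nat_lit 78) (nat_lit 0) (nat_lit 0) (XT.lf (nat_lit 0) (nat_lit 1841263366) (nat_lit 532) (nat_lit 12450680642) (nat_lit 608) (nat_lit 7602832851) (nat_lit 281) (nat_lit 5) (nat_lit 288) (nat_lit 5) (nat_lit 289) (nat_lit 5) (nat_lit 492) (nat_lit 432) (nat_lit 216)) (XT.lf (nat_lit 0) (nat_lit 15091700831) (nat_lit 532) (nat_lit 3502454539) (nat_lit 608) (nat_lit 3554566796) (nat_lit 281) (nat_lit 5) (nat_lit 288) (nat_lit 5) (nat_lit 289) (nat_lit 5) (nat_lit 493) (nat_lit 432) (nat_lit 215))) (XT.nd (nat_lit 54600) (nat_lit 0) (nat_lit 20748) (XT.lf (nat_lit 0) (nat_lit 639527361) (nat_lit 684) (nat_lit 16172577179) (nat_lit 76) (nat_lit 5594119224) (nat_lit 272) (nat_lit 5) (nat_lit 281) (nat_lit 5) (nat_lit 273) (nat_lit 5) (nat_lit 494) (nat_lit 432) (nat_lit 214)) (XT.nd (nat_lit 78) (nat_lit 0) (nat_lit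 0) (XT.lf (nat_lit 0) (nat_lit 5486707131) (nat_lit 1748) (nat_lit 237044441) (nat_lit 1748) (nat_lit 237044441) (nat_lit 545) (nat_lit 3) (nat_lit 568) (nat_lit 3) (nat_lit 568) (nat_lit 5) (nat_lit 433) (nat_lit 433) (nat_lit 274)) (XT.lf (nat_lit 76) (nat_lit 5559622582) (nat_lit 0) (nat_lit 6040910140) (nat_lit 1748) (nat_lit 429927542) (nat_lit 546) (nat_lit 5) (nat_lit 545) (nat_lit 3) (nat_lit 568) (nat_lit 5) (nat_lit 434) (nat_lit 433) (nat_lit 273))))) (XT.nd (nat_lit 156) (nat_lit 0) (nat_lit 76) (XT.nd (nat_lit 78) (nat_lit 0) (nat_lit 76) (XT.lf (nat_lit 0) (nat_lit 87845246) (nat_lit 1748) (nat_lit 428362802) (nat_lit 1824) (nat_lit 11625475963) (nat_lit 522) (nat_lit 5) (nat_lit 545) (nat_lit 3) (nat_lit 546) (nat_lit 5) (nat_lit 435) (nat_lit 433) (nat_lit 272)) (XT.lf (nat_lit 0) (nat_lit 668932405) (nat_lit 1748) (nat_lit 6486472909) (nat_lit 1824) (nat_lit 5098495768) (nat_lit 523) (nat_lit 5) (nat_lit 546) (nat_lit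 5) (nat_lit 547) (nat_lit 5) (nat_lit 436) (nat_lit 433) (nat_lit 271))) (XT.nd (nat_lit 78) (nat_lit 0) (nat_lit 76) (XT.lf (nat_lit 0) (nat_lit 1255693206) (nat_lit 1748) (nat_lit 285603585) (nat_lit 1824) (nat_lit 10827184666) (nat_lit 523) (nat_lit 5) (nat_lit 546) (nat_lit 5) (nat_lit 547) (nat_lit 5) (nat_lit 437) (nat_lit 433) (nat_lit 270)) (XT.nd (nat_lit 78) (nat_lit 0) (nat_lit 0) (XT.lf (nat_lit 0) (nat_lit 1909327579) (nat_lit 1748) (nat_lit 6399485773) (nat_lit 1824) (nat_lit 4175437321) (nat_lit 524) (nat_lit 5) (nat_lit 547) (nat_lit 5) (nat_lit 548) (nat_lit 5) (nat_lit 438) (nat_lit 433) (nat_lit 269)) (XT.lf (nat_lit 0) (nat_lit 2576377712) (nat_lit 1748) (nat_lit 33000258) (nat_lit 1824) (nat_lit 9992950442) (nat_lit 524) (nat_lit 5) (nat_lit 547) (nat_lit 5) (nat_lit 548) (nat_lit 5) (nat_lit 439) (nat_lit 433) (nat_lit 268))))))) (XT.nd (nat_lit 780) (nat_lit 4180) (nat_lit 0) (XT.nd (nat_lit 390) (nat_lit 0) (nat_lit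 152) (XT.nd (nat_lit 156) (nat_lit 0) (nat_lit 76) (XT.nd (nat_lit 78) (nat_lit 0) (nat_lit 0) (XT.lf (nat_lit 0) (nat_lit 3308782711) (nat_lit 1748) (nat_lit 6203439287) (nat_lit 1824) (nat_lit 3209505431) (nat_lit 525) (nat_lit 5) (nat_lit 548) (nat_lit 5) (nat_lit 549) (nat_lit 5) (nat_lit 440) (nat_lit 433) (nat_lit 267)) (XT.lf (nat_lit 76) (nat_lit 337712968) (nat_lit 0) (nat_lit 3726470254) (nat_lit 1824) (nat_lit 8779164254) (nat_lit 526) (nat_lit 5) (nat_lit 525) (nat_lit 5) (nat_lit 549) (nat_lit 5) (nat_lit 441) (nat_lit 433) (nat_lit 266))) (XT.nd (nat_lit 78) (nat_lit 0) (nat_lit 0) (XT.lf (nat_lit 0) (nat_lit 4879573582) (nat_lit 1748) (nat_lit 5894365864) (nat_lit 1824) (nat_lit 2192562844) (nat_lit 526) (nat_lit 5) (nat_lit 549) (nat_lit 5) (nat_lit 550) (nat_lit 5) (nat_lit 442) (nat_lit 433) (nat_lit 265)) (XT.nd (nat_lit 78) (nat_lit 0) (nat_lit 76) (XT.lf (nat_lit 76) (nat_lit 828274451) (nat_lit 0) (nat_lit 4902128408)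 (nat_lit 1824) (nat_lit 7361334717) (nat_lit 527) (nat_lit 5) (nat_lit 526) (nat_lit 5) (nat_lit 550) (nat_lit 5) (nat_lit 443) (nat_lit 433) (nat_lit 264)) (XT.lf (nat_lit 0) (nat_lit 6634391325) (nat_lit 1748) (nat_lit 5467970802) (nat_lit 1824) (nat_lit 1116392589) (nat_lit 527) (nat_lit 5) (nat_lit 550) (nat_lit 5) (nat_lit 551) (nat_lit 5) (nat_lit 444) (nat_lit 433) (nat_lit 263))))) (XT.nd (nat_lit 156) (nat_lit 0) (nat_lit 76) (XT.nd (nat_lit 78) (nat_lit 0) (nat_lit 0) (XT.lf (nat_lit 76) (nat_lit 1442799985) (nat_lit 0) (nat_lit 6144970106) (nat_lit 1824) (nat_lit 5759915897) (nat_lit 528) (nat_lit 5) (nat_lit 527) (nat_lit 5) (nat_lit 551) (nat_lit 5) (nat_lit 445) (nat_lit 433) (nat_lit 262)) (XT.lf (nat_lit 76) (nat_lit 8558863079) (nat_lit 0) (nat_lit 27685385) (nat_lit 1824) (nat_lit 4892120783) (nat_lit 528) (nat_lit 5) (nat_lit 527) (nat_lit 5) (nat_lit 551) (nat_lit 5) (nat_lit 446) (nat_lit 433) (nat_lit 261))) (XT.nd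 (nat_lit 78) (nat_lit 0) (nat_lit 0) (XT.lf (nat_lit 76) (nat_lit 2186186349) (nat_lit 0) (nat_lit 7463505637) (nat_lit 1824) (nat_lit 3961692391) (nat_lit 529) (nat_lit 5) (nat_lit 528) (nat_lit 5) (nat_lit 552) (nat_lit 5) (nat_lit 447) (nat_lit 433) (nat_lit 260)) (XT.nd (nat_lit 78) (nat_lit 0) (nat_lit 76) (XT.lf (nat_lit 76) (nat_lit 9493720028) (nat_lit 0) (nat_lit 1263591099) (nat_lit 1824) (nat_lit 2988978429) (nat_lit 529) (nat_lit 5) (nat_lit 528) (nat_lit 5) (nat_lit 552) (nat_lit 5) (nat_lit 448) (nat_lit 433) (nat_lit 259)) (XT.lf (nat_lit 76) (nat_lit 3063679748) (nat_lit 0) (nat_lit 8866379661) (nat_lit 1824) (nat_lit 1952973893) (nat_lit 530) (nat_lit 5) (nat_lit 529) (nat_lit 5) (nat_lit 553) (nat_lit 5) (nat_lit 449) (nat_lit 433) (nat_lit 258)))))) (XT.nd (nat_lit 390) (nat_lit 2736) (nat_lit 0) (XT.nd (nat_lit 156) (nat_lit 0) (nat_lit 0) (XT.nd (nat_lit 78) (nat_lit 1748) (nat_lit 0) (XT.lf (nat_lit 76) (nat_lit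 10568308899) (nat_lit 0) (nat_lit 2585179585) (nat_lit 1824) (nat_lit 868478924) (nat_lit 530) (nat_lit 5) (nat_lit 529) (nat_lit 5) (nat_lit 553) (nat_lit 5) (nat_lit 450) (nat_lit 433) (nat_lit 257)) (XT.lf (nat_lit 0) (nat_lit 276754712) (nat_lit 1824) (nat_lit 10083779607) (nat_lit 1900) (nat_lit 3802271682) (nat_lit 506) (nat_lit 5) (nat_lit 530) (nat_lit 5) (nat_lit 531) (nat_lit 5) (nat_lit 451) (nat_lit 433) (nat_lit 256))) (XT.nd (nat_lit 78) (nat_lit 0) (nat_lit 76) (XT.lf (nat_lit 0) (nat_lit 1464382112) (nat_lit 1824) (nat_lit 2527095686) (nat_lit 1900) (nat_lit 10314246395) (nat_lit 506) (nat_lit 5) (nat_lit 530) (nat_lit 5) (nat_lit 531) (nat_lit 5) (nat_lit 452) (nat_lit 433) (nat_lit 255)) (XT.nd (nat_lit 78) (nat_lit 0) (nat_lit 0) (XT.lf (nat_lit 0) (nat_lit 2717142149) (nat_lit 1824) (nat_lit 9225139771) (nat_lit 1900) (nat_lit 2508391229) (nat_lit 507) (nat_lit 5) (nat_lit 531) (nat_lit 5) (nat_lit 532) (nat_lit 5)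 (nat_lit 453) (nat_lit 433) (nat_lit 254)) (XT.lf (nat_lit 0) (nat_lit 4029448532) (nat_lit 1824) (nat_lit 1464514335) (nat_lit 1900) (nat_lit 9103868393) (nat_lit 507) (nat_lit 5) (nat_lit 531) (nat_lit 5) (nat_lit 532) (nat_lit 5) (nat_lit 454) (nat_lit 433) (nat_lit 253))))) (XT.nd (nat_lit 234) (nat_lit 2888) (nat_lit 0) (XT.nd (nat_lit 78) (nat_lit 0) (nat_lit 0) (XT.lf (nat_lit 0) (nat_lit 5408886543) (nat_lit 1824) (nat_lit 8224737836) (nat_lit 1900) (nat_lit 1113490444) (nat_lit 508) (nat_lit 5) (nat_lit 532) (nat_lit 5) (nat_lit 533) (nat_lit 5) (nat_lit 455) (nat_lit 433) (nat_lit 252)) (XT.nd (nat_lit 78) (nat_lit 0) (nat_lit 0) (XT.lf (nat_lit 0) (nat_lit 6853491737) (nat_lit 1824) (nat_lit 254031119) (nat_lit 1900) (nat_lit 7791109631) (nat_lit 508) (nat_lit 5) (nat_lit 532) (nat_lit 5) (nat_lit 533) (nat_lit 5) (nat_lit 456) (nat_lit 433) (nat_lit 251)) (XT.lf (nat_lit 76) (nat_lit 7973553849) (nat_lit 0) (nat_lit 396677158)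 (nat_lit 1900) (nat_lit 6682084661) (nat_lit 509) (nat_lit 5) (nat_lit 508) (nat_lit 5) (nat_lit 533) (nat_lit 5) (nat_lit 457) (nat_lit 433) (nat_lit 250)))) (XT.nd (nat_lit 78) (nat_lit 1140) (nat_lit 0) (XT.lf (nat_lit 0) (nat_lit 1125740827) (nat_lit 1824) (nat_lit 8834058891) (nat_lit 1900) (nat_lit 5248422899) (nat_lit 485) (nat_lit 5) (nat_lit 509) (nat_lit 5) (nat_lit 510) (nat_lit 5) (nat_lit 458) (nat_lit 433) (nat_lit 249)) (XT.nd (nat_lit 78) (nat_lit 1140) (nat_lit 0) (XT.lf (nat_lit 0) (nat_lit 9580433191) (nat_lit 1824) (nat_lit 2042558940) (nat_lit 1900) (nat_lit 3743418929) (nat_lit 485) (nat_lit 5) (nat_lit 509) (nat_lit 5) (nat_lit 510) (nat_lit 5) (nat_lit 459) (nat_lit 433) (nat_lit 248)) (XT.lf (nat_lit 0) (nat_lit 2672571079) (nat_lit 1140) (nat_lit 10687834245) (nat_lit 1216) (nat_lit 2166538809) (nat_lit 470) (nat_lit 5) (nat_lit 485) (nat_lit 5) (nat_lit 486) (nat_lit 5) (nat_lit 460) (nat_lit 433) (nat_lit 247))))))))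
noncomputable def xc225 : XT := (XT.nd (nat_lit 1560) (nat_lit 5168) (nat_lit 0) (XT.nd (nat_lit 780) (nat_lit 4636) (nat_lit 0) (XT.nd (nat_lit 390) (nat_lit 2660) (nat_lit 0) (XT.nd (nat_lit 156) (nat_lit 912) (nat_lit 0) (XT.nd (nat_lit 78) (nat_lit 988) (nat_lit 0) (XT.lf (nat_lit 0) (nat_lit 11357841193) (nat_lit 1140) (nat_lit 3818992535) (nat_lit 1216) (nat_lit 512968800) (nat_lit 470) (nat_lit 5) (nat_lit 485) (nat_lit 5) (nat_lit 486) (nat_lit 5) (nat_lit 461) (nat_lit 433) (nat_lit 246)) (XT.lf (nat_lit 0) (nat_lit 1199918019) (nat_lit 988) (nat_lit 11472391578) (nat_lit 76) (nat_lit 3182623322) (nat_lit 457) (nat_lit 5) (nat_lit 470) (nat_lit 5) (nat_lit 458) (nat_lit 5) (nat_lit 462) (nat_lit 433) (nat_lit 245))) (XT.nd (nat_lit 78) (nat_lit 912) (nat_lit 0) (XT.lf (nat_lit 0) (nat_lit 2986974167) (nat_lit 988) (nat_lit 2728861658) (nat_lit 76) (nat_lit 10306526674) (nat_lit 457) (nat_lit 5) (nat_lit 470) (nat_lit 5) (nat_lit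 458) (nat_lit 5) (nat_lit 463) (nat_lit 433) (nat_lit 244)) (XT.nd (nat_lit 78) (nat_lit 0) (nat_lit 0) (XT.lf (nat_lit 0) (nat_lit 4852049183) (nat_lit 988) (nat_lit 9937119638) (nat_lit 76) (nat_lit 1403126295) (nat_lit 445) (nat_lit 5) (nat_lit 458) (nat_lit 5) (nat_lit 446) (nat_lit 5) (nat_lit 464) (nat_lit 433) (nat_lit 243)) (XT.lf (nat_lit 0) (nat_lit 6803191754) (nat_lit 988) (nat_lit 954566438) (nat_lit 76) (nat_lit 8606892871) (nat_lit 445) (nat_lit 5) (nat_lit 458) (nat_lit 5) (nat_lit 446) (nat_lit 5) (nat_lit 465) (nat_lit 433) (nat_lit 242))))) (XT.nd (nat_lit 156) (nat_lit 912) (nat_lit 0) (XT.nd (nat_lit 78) (nat_lit 912) (nat_lit 0) (XT.lf (nat_lit 0) (nat_lit 8309544880) (nat_lit 836) (nat_lit 530390301) (nat_lit 912) (nat_lit 7699587388) (nat_lit 434) (nat_lit 5) (nat_lit 445) (nat_lit 5) (nat_lit 446) (nat_lit 5) (nat_lit 466) (nat_lit 433) (nat_lit 241)) (XT.lf (nat_lit 0) (nat_lit 1015800027) (nat_lit 912) (nat_lit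 9951803952) (nat_lit 988) (nat_lit 5749283716) (nat_lit 422) (nat_lit 5) (nat_lit 434) (nat_lit 5) (nat_lit 435) (nat_lit 5) (nat_lit 467) (nat_lit 433) (nat_lit 240))) (XT.nd (nat_lit 78) (nat_lit 912) (nat_lit 0) (XT.lf (nat_lit 0) (nat_lit 10547366154) (nat_lit 912) (nat_lit 2642000686) (nat_lit 988) (nat_lit 3707402471) (nat_lit 422) (nat_lit 5) (nat_lit 434) (nat_lit 5) (nat_lit 435) (nat_lit 5) (nat_lit 468) (nat_lit 433) (nat_lit 239)) (XT.nd (nat_lit 78) (nat_lit 76) (nat_lit 0) (XT.lf (nat_lit 0) (nat_lit 3192804854) (nat_lit 836) (nat_lit 12307710397) (nat_lit 912) (nat_lit 1578834302) (nat_lit 411) (nat_lit 5) (nat_lit 422) (nat_lit 5) (nat_lit 423) (nat_lit 5) (nat_lit 469) (nat_lit 433) (nat_lit 238)) (XT.lf (nat_lit 0) (nat_lit 637934539) (nat_lit 912) (nat_lit 4281603600) (nat_lit 76) (nat_lit 12344898397) (nat_lit 410) (nat_lit 5) (nat_lit 422) (nat_lit 5) (nat_lit 411) (nat_lit 5) (nat_lit 470) (nat_lit 433) (nat_lit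 237)))))) (XT.nd (nat_lit 390) (nat_lit 2280) (nat_lit 0) (XT.nd (nat_lit 156) (nat_lit 1520) (nat_lit 0) (XT.nd (nat_lit 78) (nat_lit 0) (nat_lit 0) (XT.lf (nat_lit 0) (nat_lit 2924531462) (nat_lit 912) (nat_lit 11898713517) (nat_lit 76) (nat_lit 2628838893) (nat_lit 399) (nat_lit 5) (nat_lit 411) (nat_lit 5) (nat_lit 400) (nat_lit 5) (nat_lit 471) (nat_lit 433) (nat_lit 236)) (XT.lf (nat_lit 0) (nat_lit 5311597506) (nat_lit 912) (nat_lit 2039719022) (nat_lit 76) (nat_lit 10291072883) (nat_lit 399) (nat_lit 5) (nat_lit 411) (nat_lit 5) (nat_lit 400) (nat_lit 5) (nat_lit 472) (nat_lit 433) (nat_lit 235))) (XT.nd (nat_lit 78) (nat_lit 760) (nat_lit 0) (XT.lf (nat_lit 0) (nat_lit 7794566827) (nat_lit 836) (nat_lit 9721764736) (nat_lit 76) (nat_lit 319206259) (nat_lit 389) (nat_lit 5) (nat_lit 400) (nat_lit 5) (nat_lit 390) (nat_lit 5) (nat_lit 473) (nat_lit 433) (nat_lit 234)) (XT.nd (nat_lit 78) (nat_lit 0) (nat_lit 0) (XT.lf (nat_lit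 0) (nat_lit 415316199) (nat_lit 760) (nat_lit 9970488781) (nat_lit 836) (nat_lit 7645572031) (nat_lit 379) (nat_lit 5) (nat_lit 389) (nat_lit 5) (nat_lit 390) (nat_lit 5) (nat_lit 474) (nat_lit 433) (nat_lit 233)) (XT.lf (nat_lit 0) (nat_lit 10879901909) (nat_lit 760) (nat_lit 2207737493) (nat_lit 836) (nat_lit 5142318152) (nat_lit 379) (nat_lit 5) (nat_lit 389) (nat_lit 5) (nat_lit 390) (nat_lit 5) (nat_lit 475) (nat_lit 433) (nat_lit 232))))) (XT.nd (nat_lit 156) (nat_lit 1444) (nat_lit 0) (XT.nd (nat_lit 78) (nat_lit 76) (nat_lit 0) (XT.lf (nat_lit 0) (nat_lit 3118085415) (nat_lit 760) (nat_lit 12776401264) (nat_lit 836) (nat_lit 2537003507) (nat_lit 369) (nat_lit 5) (nat_lit 379) (nat_lit 5) (nat_lit 380) (nat_lit 5) (nat_lit 476) (nat_lit 433) (nat_lit 231)) (XT.lf (nat_lit 0) (nat_lit 176802652) (nat_lit 836) (nat_lit 4763616356) (nat_lit 76) (nat_lit 13695459534) (nat_lit 368) (nat_lit 5) (nat_lit 379) (nat_lit 5) (nat_lit 369)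 (nat_lit 5) (nat_lit 477) (nat_lit 433) (nat_lit 230))) (XT.nd (nat_lit 78) (nat_lit 684) (nat_lit 0) (XT.lf (nat_lit 0) (nat_lit 2964247598) (nat_lit 836) (nat_lit 12810693187) (nat_lit 76) (nat_lit 3068011826) (nat_lit 358) (nat_lit 5) (nat_lit 369) (nat_lit 5) (nat_lit 359) (nat_lit 5) (nat_lit 478) (nat_lit 433) (nat_lit 229)) (XT.nd (nat_lit 78) (nat_lit 684) (nat_lit 0) (XT.lf (nat_lit 0) (nat_lit 5866227322) (nat_lit 836) (nat_lit 1984808812) (nat_lit 76) (nat_lit 11201956310) (nat_lit 358) (nat_lit 5) (nat_lit 369) (nat_lit 5) (nat_lit 359) (nat_lit 5) (nat_lit 479) (nat_lit 433) (nat_lit 228)) (XT.lf (nat_lit 0) (nat_lit 8881691574) (nat_lit 760) (nat_lit 10097018160) (nat_lit 76) (nat_lit 287414442) (nat_lit 349) (nat_lit 5) (nat_lit 359) (nat_lit 5) (nat_lit 350) (nat_lit 5) (nat_lit 480) (nat_lit 433) (nat_lit 227))))))) (XT.nd (nat_lit 780) (nat_lit 1140) (nat_lit 0) (XT.nd (nat_lit 390) (nat_lit 1900) (nat_lit 0) (XT.nd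 (nat_lit 156) (nat_lit 1444) (nat_lit 0) (XT.nd (nat_lit 78) (nat_lit 0) (nat_lit 0) (XT.lf (nat_lit 0) (nat_lit 1044462109) (nat_lit 684) (nat_lit 10979262548) (nat_lit 760) (nat_lit 7458468693) (nat_lit 340) (nat_lit 5) (nat_lit 349) (nat_lit 5) (nat_lit 350) (nat_lit 5) (nat_lit 481) (nat_lit 433) (nat_lit 226)) (XT.lf (nat_lit 0) (nat_lit 12538779192) (nat_lit 684) (nat_lit 2751724377) (nat_lit 760) (nat_lit 4410842236) (nat_lit 340) (nat_lit 5) (nat_lit 349) (nat_lit 5) (nat_lit 350) (nat_lit 5) (nat_lit 482) (nat_lit 433) (nat_lit 225))) (XT.nd (nat_lit 78) (nat_lit 760) (nat_lit 0) (XT.lf (nat_lit 0) (nat_lit 4351719591) (nat_lit 684) (nat_lit 14330030869) (nat_lit 760) (nat_lit 1241948200) (nat_lit 331) (nat_lit 5) (nat_lit 340) (nat_lit 5) (nat_lit 341) (nat_lit 5) (nat_lit 483) (nat_lit 433) (nat_lit 224)) (XT.nd (nat_lit 78) (nat_lit 684) (nat_lit 0) (XT.lf (nat_lit 0) (nat_lit 2025114611) (nat_lit 760) (nat_lit 3994484695)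 (nat_lit 76) (nat_lit 14129422930) (nat_lit 330) (nat_lit 5) (nat_lit 340) (nat_lit 5) (nat_lit 331) (nat_lit 5) (nat_lit 484) (nat_lit 433) (nat_lit 223)) (XT.lf (nat_lit 0) (nat_lit 5402957519) (nat_lit 760) (nat_lit 12490856479) (nat_lit 76) (nat_lit 2483632730) (nat_lit 321) (nat_lit 5) (nat_lit 331) (nat_lit 5) (nat_lit 322) (nat_lit 5) (nat_lit 485) (nat_lit 433) (nat_lit 222))))) (XT.nd (nat_lit 156) (nat_lit 1292) (nat_lit 0) (XT.nd (nat_lit 78) (nat_lit 608) (nat_lit 0) (XT.lf (nat_lit 0) (nat_lit 8909663804) (nat_lit 760) (nat_lit 597302586) (nat_lit 76) (nat_lit 11102247188) (nat_lit 321) (nat_lit 5) (nat_lit 331) (nat_lit 5) (nat_lit 322) (nat_lit 5) (nat_lit 486) (nat_lit 433) (nat_lit 221)) (XT.lf (nat_lit 0) (nat_lit 11680659918) (nat_lit 608) (nat_lit 876250546) (nat_lit 684) (nat_lit 8287297177) (nat_lit 313) (nat_lit 5) (nat_lit 321) (nat_lit 5) (nat_lit 322) (nat_lit 5) (nat_lit 487) (nat_lit 433) (nat_lit 220))) (XT.nd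 (nat_lit 78) (nat_lit 684) (nat_lit 0) (XT.lf (nat_lit 0) (nat_lit 3111052526) (nat_lit 608) (nat_lit 13236374331) (nat_lit 684) (nat_lit 4735068232) (nat_lit 305) (nat_lit 5) (nat_lit 313) (nat_lit 5) (nat_lit 314) (nat_lit 5) (nat_lit 488) (nat_lit 433) (nat_lit 219)) (XT.nd (nat_lit 78) (nat_lit 684) (nat_lit 0) (XT.lf (nat_lit 0) (nat_lit 15742811209) (nat_lit 608) (nat_lit 4532884705) (nat_lit 684) (nat_lit 1048613526) (nat_lit 305) (nat_lit 5) (nat_lit 313) (nat_lit 5) (nat_lit 314) (nat_lit 5) (nat_lit 489) (nat_lit 433) (nat_lit 218)) (XT.lf (nat_lit 0) (nat_lit 2745648562) (nat_lit 684) (nat_lit 14472925285) (nat_lit 76) (nat_lit 4350641304) (nat_lit 296) (nat_lit 5) (nat_lit 305) (nat_lit 5) (nat_lit 297) (nat_lit 5) (nat_lit 490) (nat_lit 433) (nat_lit 217)))))) (XT.nd (nat_lit 54990) (nat_lit 0) (nat_lit 18316) (XT.nd (nat_lit 156) (nat_lit 532) (nat_lit 0) (XT.nd (nat_lit 78) (nat_lit 608) (nat_lit 0) (XT.lf (nat_lit 0) (nat_lit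 6664296306) (nat_lit 684) (nat_lit 1758847100) (nat_lit 76) (nat_lit 13394486115) (nat_lit 296) (nat_lit 5) (nat_lit 305) (nat_lit 5) (nat_lit 297) (nat_lit 5) (nat_lit 491) (nat_lit 433) (nat_lit 216)) (XT.lf (nat_lit 0) (nat_lit 10733967010) (nat_lit 684) (nat_lit 10721811015) (nat_lit 76) (nat_lit 613781154) (nat_lit 288) (nat_lit 5) (nat_lit 297) (nat_lit 5) (nat_lit 289) (nat_lit 5) (nat_lit 492) (nat_lit 433) (nat_lit 215))) (XT.nd (nat_lit 78) (nat_lit 0) (nat_lit 0) (XT.lf (nat_lit 0) (nat_lit 2382840622) (nat_lit 532) (nat_lit 12580281294) (nat_lit 608) (nat_lit 7361843700) (nat_lit 281) (nat_lit 5) (nat_lit 288) (nat_lit 5) (nat_lit 289) (nat_lit 5) (nat_lit 493) (nat_lit 433) (nat_lit 214)) (XT.nd (nat_lit 54678) (nat_lit 0) (nat_lit 18316) (XT.lf (nat_lit 0) (nat_lit 15888389738) (nat_lit 532) (nat_lit 3455432100) (nat_lit 608) (nat_lit 3240319104) (nat_lit 281) (nat_lit 5) (nat_lit 288) (nat_lit 5) (nat_lit 289) (nat_lit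 5) (nat_lit 494) (nat_lit 433) (nat_lit 213)) (XT.lf (nat_lit 0) (nat_lit 2063988) (nat_lit 0) (nat_lit 2063988) (nat_lit 1748) (nat_lit 6066319622) (nat_lit 522) (nat_lit 5) (nat_lit 522) (nat_lit 3) (nat_lit 545) (nat_lit 3) (nat_lit 434) (nat_lit 434) (nat_lit 272))))) (XT.nd (nat_lit 234) (nat_lit 0) (nat_lit 76) (XT.nd (nat_lit 78) (nat_lit 0) (nat_lit 0) (XT.lf (nat_lit 0) (nat_lit 514174957) (nat_lit 1748) (nat_lit 6100305519) (nat_lit 1824) (nat_lit 5637706943) (nat_lit 522) (nat_lit 5) (nat_lit 545) (nat_lit 3) (nat_lit 546) (nat_lit 5) (nat_lit 435) (nat_lit 434) (nat_lit 271)) (XT.nd (nat_lit 78) (nat_lit 0) (nat_lit 76) (XT.lf (nat_lit 76) (nat_lit 51094679) (nat_lit 0) (nat_lit 967221272) (nat_lit 1824) (nat_lit 11347627463) (nat_lit 523) (nat_lit 5) (nat_lit 522) (nat_lit 5) (nat_lit 546) (nat_lit 5) (nat_lit 436) (nat_lit 434) (nat_lit 270)) (XT.lf (nat_lit 0) (nat_lit 1592846477) (nat_lit 1748) (nat_lit 6111001107) (nat_lit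 1824) (nat_lit 4776920811) (nat_lit 523) (nat_lit 5) (nat_lit 546) (nat_lit 5) (nat_lit 547) (nat_lit 5) (nat_lit 437) (nat_lit 434) (nat_lit 269)))) (XT.nd (nat_lit 78) (nat_lit 0) (nat_lit 76) (XT.lf (nat_lit 76) (nat_lit 206690477) (nat_lit 0) (nat_lit 1968140353) (nat_lit 1824) (nat_lit 10423139782) (nat_lit 524) (nat_lit 5) (nat_lit 523) (nat_lit 5) (nat_lit 547) (nat_lit 5) (nat_lit 438) (nat_lit 434) (nat_lit 268)) (XT.nd (nat_lit 78) (nat_lit 0) (nat_lit 0) (XT.lf (nat_lit 0) (nat_lit 2823378634) (nat_lit 1748) (nat_lit 6015362851) (nat_lit 1824) (nat_lit 3877676912) (nat_lit 524) (nat_lit 5) (nat_lit 547) (nat_lit 5) (nat_lit 548) (nat_lit 5) (nat_lit 439) (nat_lit 434) (nat_lit 267)) (XT.lf (nat_lit 76) (nat_lit 474635884) (nat_lit 0) (nat_lit 3015041723) (nat_lit 1824) (nat_lit 9347461927) (nat_lit 525) (nat_lit 5) (nat_lit 524) (nat_lit 5) (nat_lit 548) (nat_lit 5) (nat_lit 440) (nat_lit 434) (nat_lit 266))))))))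
noncomputable def xc226 : XT := (XT.nd (nat_lit 1560) (nat_lit 10336) (nat_lit 0) (XT.nd (nat_lit 780) (nat_lit 3040) (nat_lit 0) (XT.nd (nat_lit 390) (nat_lit 0) (nat_lit 152) (XT.nd (nat_lit 156) (nat_lit 0) (nat_lit 76) (XT.nd (nat_lit 78) (nat_lit 0) (nat_lit 0) (XT.lf (nat_lit 0) (nat_lit 4217801752) (nat_lit 1748) (nat_lit 5809589556) (nat_lit 1824) (nat_lit 2931913801) (nat_lit 525) (nat_lit 5) (nat_lit 548) (nat_lit 5) (nat_lit 549) (nat_lit 5) (nat_lit 441) (nat_lit 434) (nat_lit 265)) (XT.lf (nat_lit 76) (nat_lit 858978385) (nat_lit 0) (nat_lit 4116146096) (nat_lit 1824) (nat_lit 8108496794) (nat_lit 526) (nat_lit 5) (nat_lit 525) (nat_lit 5) (nat_lit 549) (nat_lit 5) (nat_lit 442) (nat_lit 434) (nat_lit 264))) (XT.nd (nat_lit 78) (nat_lit 0) (nat_lit 0) (XT.lf (nat_lit 0) (nat_lit 5788548832) (nat_lit 1748) (nat_lit 5489556663) (nat_lit 1824) (nat_lit 1931499165) (nat_lit 526) (nat_lit 5) (nat_lit 549) (nat_lit 5) (nat_lit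 550) (nat_lit 5) (nat_lit 443) (nat_lit 434) (nat_lit 263)) (XT.nd (nat_lit 78) (nat_lit 0) (nat_lit 76) (XT.lf (nat_lit 76) (nat_lit 1364097665) (nat_lit 0) (nat_lit 5279758908) (nat_lit 1824) (nat_lit 6693738841) (nat_lit 527) (nat_lit 5) (nat_lit 526) (nat_lit 5) (nat_lit 550) (nat_lit 5) (nat_lit 444) (nat_lit 434) (nat_lit 262)) (XT.lf (nat_lit 0) (nat_lit 7548481493) (nat_lit 1748) (nat_lit 5050810700) (nat_lit 1824) (nat_lit 868209572) (nat_lit 527) (nat_lit 5) (nat_lit 550) (nat_lit 5) (nat_lit 551) (nat_lit 5) (nat_lit 445) (nat_lit 434) (nat_lit 261))))) (XT.nd (nat_lit 156) (nat_lit 0) (nat_lit 76) (XT.nd (nat_lit 78) (nat_lit 0) (nat_lit 0) (XT.lf (nat_lit 76) (nat_lit 1994711560) (nat_lit 0) (nat_lit 6514290684) (nat_lit 1824) (nat_lit 5090247930) (nat_lit 528) (nat_lit 5) (nat_lit 527) (nat_lit 5) (nat_lit 551) (nat_lit 5) (nat_lit 446) (nat_lit 434) (nat_lit 260)) (XT.lf (nat_lit 76) (nat_lit 9242839923) (nat_lit 0) (nat_lit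 269828480) (nat_lit 1824) (nat_lit 4220486448) (nat_lit 528) (nat_lit 5) (nat_lit 527) (nat_lit 5) (nat_lit 551) (nat_lit 5) (nat_lit 447) (nat_lit 434) (nat_lit 259))) (XT.nd (nat_lit 78) (nat_lit 0) (nat_lit 0) (XT.lf (nat_lit 76) (nat_lit 2755882734) (nat_lit 0) (nat_lit 7828277282) (nat_lit 1824) (nat_lit 3284622565) (nat_lit 529) (nat_lit 5) (nat_lit 528) (nat_lit 5) (nat_lit 552) (nat_lit 5) (nat_lit 448) (nat_lit 434) (nat_lit 258)) (XT.nd (nat_lit 78) (nat_lit 0) (nat_lit 76) (XT.lf (nat_lit 76) (nat_lit 10199253897) (nat_lit 0) (nat_lit 1500138933) (nat_lit 1824) (nat_lit 2307283807) (nat_lit 529) (nat_lit 5) (nat_lit 528) (nat_lit 5) (nat_lit 552) (nat_lit 5) (nat_lit 449) (nat_lit 434) (nat_lit 257)) (XT.lf (nat_lit 76) (nat_lit 3653026095) (nat_lit 0) (nat_lit 9230400098) (nat_lit 1824) (nat_lit 1262972464) (nat_lit 530) (nat_lit 5) (nat_lit 529) (nat_lit 5) (nat_lit 553) (nat_lit 5) (nat_lit 450) (nat_lit 434) (nat_lit 256))))))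 (XT.nd (nat_lit 390) (nat_lit 1596) (nat_lit 0) (XT.nd (nat_lit 156) (nat_lit 0) (nat_lit 0) (XT.nd (nat_lit 78) (nat_lit 1748) (nat_lit 0) (XT.lf (nat_lit 76) (nat_lit 11297393461) (nat_lit 0) (nat_lit 2819915377) (nat_lit 1824) (nat_lit 171082906) (nat_lit 530) (nat_lit 5) (nat_lit 529) (nat_lit 5) (nat_lit 553) (nat_lit 5) (nat_lit 451) (nat_lit 434) (nat_lit 255)) (XT.lf (nat_lit 0) (nat_lit 976137221) (nat_lit 1824) (nat_lit 9746818634) (nat_lit 1900) (nat_lit 3709229318) (nat_lit 506) (nat_lit 5) (nat_lit 530) (nat_lit 5) (nat_lit 531) (nat_lit 5) (nat_lit 452) (nat_lit 434) (nat_lit 254))) (XT.nd (nat_lit 78) (nat_lit 0) (nat_lit 76) (XT.lf (nat_lit 0) (nat_lit 2173912318) (nat_lit 1824) (nat_lit 2049562536) (nat_lit 1900) (nat_lit 10354758972) (nat_lit 506) (nat_lit 5) (nat_lit 530) (nat_lit 5) (nat_lit 531) (nat_lit 5) (nat_lit 453) (nat_lit 434) (nat_lit 253)) (XT.nd (nat_lit 78) (nat_lit 0) (nat_lit 0) (XT.lf (nat_lit 0) (nat_lit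 3440849479) (nat_lit 1824) (nat_lit 8870689426) (nat_lit 1900) (nat_lit 2414760416) (nat_lit 507) (nat_lit 5) (nat_lit 531) (nat_lit 5) (nat_lit 532) (nat_lit 5) (nat_lit 454) (nat_lit 434) (nat_lit 252)) (XT.lf (nat_lit 0) (nat_lit 4766277196) (nat_lit 1824) (nat_lit 965419190) (nat_lit 1900) (nat_lit 9144966704) (nat_lit 507) (nat_lit 5) (nat_lit 531) (nat_lit 5) (nat_lit 532) (nat_lit 5) (nat_lit 455) (nat_lit 434) (nat_lit 251))))) (XT.nd (nat_lit 156) (nat_lit 1748) (nat_lit 0) (XT.nd (nat_lit 78) (nat_lit 0) (nat_lit 0) (XT.lf (nat_lit 0) (nat_lit 6163053313) (nat_lit 1824) (nat_lit 7850596507) (nat_lit 1900) (nat_lit 1015487518) (nat_lit 508) (nat_lit 5) (nat_lit 532) (nat_lit 5) (nat_lit 533) (nat_lit 5) (nat_lit 456) (nat_lit 434) (nat_lit 250)) (XT.lf (nat_lit 76) (nat_lit 272537226) (nat_lit 0) (nat_lit 7353116426) (nat_lit 1900) (nat_lit 7558249644) (nat_lit 509) (nat_lit 5) (nat_lit 508) (nat_lit 5) (nat_lit 533) (nat_lit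 5) (nat_lit 457) (nat_lit 434) (nat_lit 249))) (XT.nd (nat_lit 78) (nat_lit 1748) (nat_lit 0) (XT.lf (nat_lit 76) (nat_lit 8657625344) (nat_lit 0) (nat_lit 504320834) (nat_lit 1900) (nat_lit 6178929592) (nat_lit 509) (nat_lit 5) (nat_lit 508) (nat_lit 5) (nat_lit 533) (nat_lit 5) (nat_lit 458) (nat_lit 434) (nat_lit 248)) (XT.nd (nat_lit 78) (nat_lit 0) (nat_lit 0) (XT.lf (nat_lit 0) (nat_lit 1682451934) (nat_lit 1824) (nat_lit 9091446613) (nat_lit 1900) (nat_lit 4726190466) (nat_lit 485) (nat_lit 5) (nat_lit 509) (nat_lit 5) (nat_lit 510) (nat_lit 5) (nat_lit 459) (nat_lit 434) (nat_lit 247)) (XT.lf (nat_lit 0) (nat_lit 10295763709) (nat_lit 1824) (nat_lit 2162534182) (nat_lit 1900) (nat_lit 3203384473) (nat_lit 485) (nat_lit 5) (nat_lit 509) (nat_lit 5) (nat_lit 510) (nat_lit 5) (nat_lit 460) (nat_lit 434) (nat_lit 246))))))) (XT.nd (nat_lit 780) (nat_lit 4712) (nat_lit 0) (XT.nd (nat_lit 390) (nat_lit 2584) (nat_lit 0) (XT.nd (nat_lit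 156) (nat_lit 1824) (nat_lit 0) (XT.nd (nat_lit 78) (nat_lit 76) (nat_lit 0) (XT.lf (nat_lit 0) (nat_lit 3258786758) (nat_lit 1140) (nat_lit 10962807486) (nat_lit 1216) (nat_lit 1604009155) (nat_lit 470) (nat_lit 5) (nat_lit 485) (nat_lit 5) (nat_lit 486) (nat_lit 5) (nat_lit 461) (nat_lit 434) (nat_lit 245)) (XT.lf (nat_lit 0) (nat_lit 69824703) (nat_lit 1216) (nat_lit 3885095354) (nat_lit 76) (nat_lit 12037022652) (nat_lit 469) (nat_lit 5) (nat_lit 485) (nat_lit 5) (nat_lit 470) (nat_lit 5) (nat_lit 462) (nat_lit 434) (nat_lit 244))) (XT.nd (nat_lit 78) (nat_lit 912) (nat_lit 0) (XT.lf (nat_lit 0) (nat_lit 1801697922) (nat_lit 988) (nat_lit 11163322239) (nat_lit 76) (nat_lit 3195455787) (nat_lit 457) (nat_lit 5) (nat_lit 470) (nat_lit 5) (nat_lit 458) (nat_lit 5) (nat_lit 463) (nat_lit 434) (nat_lit 243)) (XT.nd (nat_lit 78) (nat_lit 912) (nat_lit 0) (XT.lf (nat_lit 0) (nat_lit 3613166142) (nat_lit 988) (nat_lit 2255480880) (nat_lit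 76) (nat_lit 10462833677) (nat_lit 457) (nat_lit 5) (nat_lit 470) (nat_lit 5) (nat_lit 458) (nat_lit 5) (nat_lit 464) (nat_lit 434) (nat_lit 242)) (XT.lf (nat_lit 0) (nat_lit 5507618569) (nat_lit 988) (nat_lit 9599979930) (nat_lit 76) (nat_lit 1397371950) (nat_lit 445) (nat_lit 5) (nat_lit 458) (nat_lit 5) (nat_lit 446) (nat_lit 5) (nat_lit 465) (nat_lit 434) (nat_lit 241))))) (XT.nd (nat_lit 156) (nat_lit 1748) (nat_lit 0) (XT.nd (nat_lit 78) (nat_lit 836) (nat_lit 0) (XT.lf (nat_lit 0) (nat_lit 7486832454) (nat_lit 988) (nat_lit 448283159) (nat_lit 76) (nat_lit 8745876934) (nat_lit 445) (nat_lit 5) (nat_lit 458) (nat_lit 5) (nat_lit 446) (nat_lit 5) (nat_lit 466) (nat_lit 434) (nat_lit 240)) (XT.lf (nat_lit 0) (nat_lit 8997653973) (nat_lit 836) (nat_lit 559308615) (nat_lit 912) (nat_lit 7302545858) (nat_lit 434) (nat_lit 5) (nat_lit 445) (nat_lit 5) (nat_lit 446) (nat_lit 5) (nat_lit 467) (nat_lit 434) (nat_lit 239))) (XT.nd (nat_lit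 78) (nat_lit 836) (nat_lit 0) (XT.lf (nat_lit 0) (nat_lit 1565452145) (nat_lit 912) (nat_lit 10154460146) (nat_lit 988) (nat_lit 5320654034) (nat_lit 422) (nat_lit 5) (nat_lit 434) (nat_lit 5) (nat_lit 435) (nat_lit 5) (nat_lit 468) (nat_lit 434) (nat_lit 238)) (XT.nd (nat_lit 78) (nat_lit 836) (nat_lit 0) (XT.lf (nat_lit 0) (nat_lit 11277270455) (nat_lit 912) (nat_lit 2698389832) (nat_lit 988) (nat_lit 3248594289) (nat_lit 422) (nat_lit 5) (nat_lit 434) (nat_lit 5) (nat_lit 435) (nat_lit 5) (nat_lit 469) (nat_lit 434) (nat_lit 237)) (XT.lf (nat_lit 0) (nat_lit 3782608001) (nat_lit 836) (nat_lit 12543570653) (nat_lit 912) (nat_lit 1084444828) (nat_lit 411) (nat_lit 5) (nat_lit 422) (nat_lit 5) (nat_lit 423) (nat_lit 5) (nat_lit 470) (nat_lit 434) (nat_lit 236)))))) (XT.nd (nat_lit 390) (nat_lit 2280) (nat_lit 0) (XT.nd (nat_lit 156) (nat_lit 1520) (nat_lit 0) (XT.nd (nat_lit 78) (nat_lit 836) (nat_lit 0) (XT.lf (nat_lit 0) (nat_lit 1159583445)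 (nat_lit 912) (nat_lit 3844838426) (nat_lit 76) (nat_lit 12595125592) (nat_lit 410) (nat_lit 5) (nat_lit 422) (nat_lit 5) (nat_lit 411) (nat_lit 5) (nat_lit 471) (nat_lit 434) (nat_lit 235)) (XT.lf (nat_lit 0) (nat_lit 3485411793) (nat_lit 912) (nat_lit 11607790029) (nat_lit 76) (nat_lit 2697875934) (nat_lit 399) (nat_lit 5) (nat_lit 411) (nat_lit 5) (nat_lit 400) (nat_lit 5) (nat_lit 472) (nat_lit 434) (nat_lit 234))) (XT.nd (nat_lit 78) (nat_lit 1520) (nat_lit 0) (XT.lf (nat_lit 0) (nat_lit 5910368380) (nat_lit 912) (nat_lit 1561986188) (nat_lit 76) (nat_lit 10513031853) (nat_lit 399) (nat_lit 5) (nat_lit 411) (nat_lit 5) (nat_lit 400) (nat_lit 5) (nat_lit 473) (nat_lit 434) (nat_lit 233)) (XT.nd (nat_lit 78) (nat_lit 760) (nat_lit 0) (XT.lf (nat_lit 0) (nat_lit 8436871508) (nat_lit 836) (nat_lit 9391547238) (nat_lit 76) (nat_lit 354101566) (nat_lit 389) (nat_lit 5) (nat_lit 400) (nat_lit 5) (nat_lit 390) (nat_lit 5) (nat_lit 474) (nat_lit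 434) (nat_lit 232)) (XT.lf (nat_lit 0) (nat_lit 944823653) (nat_lit 760) (nat_lit 10128957238) (nat_lit 836) (nat_lit 7308618464) (nat_lit 379) (nat_lit 5) (nat_lit 389) (nat_lit 5) (nat_lit 390) (nat_lit 5) (nat_lit 475) (nat_lit 434) (nat_lit 231))))) (XT.nd (nat_lit 234) (nat_lit 1444) (nat_lit 0) (XT.nd (nat_lit 78) (nat_lit 836) (nat_lit 0) (XT.lf (nat_lit 0) (nat_lit 11608481447) (nat_lit 760) (nat_lit 2211753696) (nat_lit 836) (nat_lit 4764904704) (nat_lit 379) (nat_lit 5) (nat_lit 389) (nat_lit 5) (nat_lit 390) (nat_lit 5) (nat_lit 476) (nat_lit 434) (nat_lit 230)) (XT.nd (nat_lit 78) (nat_lit 76) (nat_lit 0) (XT.lf (nat_lit 0) (nat_lit 3697162917) (nat_lit 760) (nat_lit 12980434591) (nat_lit 836) (nat_lit 2113218060) (nat_lit 369) (nat_lit 5) (nat_lit 379) (nat_lit 5) (nat_lit 380) (nat_lit 5) (nat_lit 477) (nat_lit 434) (nat_lit 229)) (XT.lf (nat_lit 0) (nat_lit 639458342) (nat_lit 836) (nat_lit 4346203113) (nat_lit 76) (nat_lit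 14013752265) (nat_lit 368) (nat_lit 5) (nat_lit 379) (nat_lit 5) (nat_lit 369) (nat_lit 5) (nat_lit 478) (nat_lit 434) (nat_lit 228)))) (XT.nd (nat_lit 78) (nat_lit 684) (nat_lit 0) (XT.lf (nat_lit 0) (nat_lit 3477319502) (nat_lit 836) (nat_lit 12548888796) (nat_lit 76) (nat_lit 3184527626) (nat_lit 358) (nat_lit 5) (nat_lit 369) (nat_lit 5) (nat_lit 359) (nat_lit 5) (nat_lit 479) (nat_lit 434) (nat_lit 227)) (XT.nd (nat_lit 78) (nat_lit 684) (nat_lit 0) (XT.lf (nat_lit 0) (nat_lit 6428441037) (nat_lit 836) (nat_lit 1516643954) (nat_lit 76) (nat_lit 11480069519) (nat_lit 358) (nat_lit 5) (nat_lit 369) (nat_lit 5) (nat_lit 359) (nat_lit 5) (nat_lit 480) (nat_lit 434) (nat_lit 226)) (XT.lf (nat_lit 0) (nat_lit 9499189466) (nat_lit 760) (nat_lit 9786072381) (nat_lit 76) (nat_lit 357387531) (nat_lit 349) (nat_lit 5) (nat_lit 359) (nat_lit 5) (nat_lit 350) (nat_lit 5) (nat_lit 481) (nat_lit 434) (nat_lit 225))))))))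
noncomputable def xc227 : XT := (XT.nd (nat_lit 56394) (nat_lit 0) (nat_lit 12844) (XT.nd (nat_lit 780) (nat_lit 608) (nat_lit 0) (XT.nd (nat_lit 390) (nat_lit 1900) (nat_lit 0) (XT.nd (nat_lit 156) (nat_lit 1444) (nat_lit 0) (XT.nd (nat_lit 78) (nat_lit 0) (nat_lit 0) (XT.lf (nat_lit 0) (nat_lit 1574863242) (nat_lit 684) (nat_lit 11123883273) (nat_lit 760) (nat_lit 7164399755) (nat_lit 340) (nat_lit 5) (nat_lit 349) (nat_lit 5) (nat_lit 350) (nat_lit 5) (nat_lit 482) (nat_lit 434) (nat_lit 224)) (XT.lf (nat_lit 0) (nat_lit 13289076238) (nat_lit 684) (nat_lit 2733264230) (nat_lit 760) (nat_lit 4064511716) (nat_lit 340) (nat_lit 5) (nat_lit 349) (nat_lit 5) (nat_lit 350) (nat_lit 5) (nat_lit 483) (nat_lit 434) (nat_lit 223))) (XT.nd (nat_lit 78) (nat_lit 760) (nat_lit 0) (XT.lf (nat_lit 0) (nat_lit 4942979563) (nat_lit 684) (nat_lit 14533820853) (nat_lit 760) (nat_lit 836943918) (nat_lit 331) (nat_lit 5) (nat_lit 340) (nat_lit 5) (nat_lit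 341) (nat_lit 5) (nat_lit 484) (nat_lit 434) (nat_lit 222)) (XT.nd (nat_lit 78) (nat_lit 684) (nat_lit 0) (XT.lf (nat_lit 0) (nat_lit 2481504918) (nat_lit 760) (nat_lit 3574508652) (nat_lit 76) (nat_lit 14487671351) (nat_lit 330) (nat_lit 5) (nat_lit 340) (nat_lit 5) (nat_lit 331) (nat_lit 5) (nat_lit 485) (nat_lit 434) (nat_lit 221)) (XT.lf (nat_lit 0) (nat_lit 5922530025) (nat_lit 760) (nat_lit 12236433212) (nat_lit 76) (nat_lit 2617802158) (nat_lit 321) (nat_lit 5) (nat_lit 331) (nat_lit 5) (nat_lit 322) (nat_lit 5) (nat_lit 486) (nat_lit 434) (nat_lit 220))))) (XT.nd (nat_lit 156) (nat_lit 1292) (nat_lit 0) (XT.nd (nat_lit 78) (nat_lit 608) (nat_lit 0) (XT.lf (nat_lit 0) (nat_lit 9491301546) (nat_lit 760) (nat_lit 114895308) (nat_lit 76) (nat_lit 11407132106) (nat_lit 321) (nat_lit 5) (nat_lit 331) (nat_lit 5) (nat_lit 322) (nat_lit 5) (nat_lit 487) (nat_lit 434) (nat_lit 219)) (XT.lf (nat_lit 0) (nat_lit 12405374121) (nat_lit 608)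 (nat_lit 801396896) (nat_lit 684) (nat_lit 8046346330) (nat_lit 313) (nat_lit 5) (nat_lit 321) (nat_lit 5) (nat_lit 322) (nat_lit 5) (nat_lit 488) (nat_lit 434) (nat_lit 218))) (XT.nd (nat_lit 78) (nat_lit 684) (nat_lit 0) (XT.lf (nat_lit 0) (nat_lit 3668469800) (nat_lit 608) (nat_lit 13400613019) (nat_lit 684) (nat_lit 4427168024) (nat_lit 305) (nat_lit 5) (nat_lit 313) (nat_lit 5) (nat_lit 314) (nat_lit 5) (nat_lit 489) (nat_lit 434) (nat_lit 217)) (XT.nd (nat_lit 78) (nat_lit 684) (nat_lit 0) (XT.lf (nat_lit 0) (nat_lit 16543153927) (nat_lit 608) (nat_lit 4525023968) (nat_lit 684) (nat_lit 674878372) (nat_lit 305) (nat_lit 5) (nat_lit 313) (nat_lit 5) (nat_lit 314) (nat_lit 5) (nat_lit 490) (nat_lit 434) (nat_lit 216)) (XT.lf (nat_lit 0) (nat_lit 3186283894) (nat_lit 684) (nat_lit 14267912235) (nat_lit 76) (nat_lit 4538688877) (nat_lit 296) (nat_lit 5) (nat_lit 305) (nat_lit 5) (nat_lit 297) (nat_lit 5) (nat_lit 491) (nat_lit 434)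 (nat_lit 215)))))) (XT.nd (nat_lit 55146) (nat_lit 0) (nat_lit 17860) (XT.nd (nat_lit 54912) (nat_lit 0) (nat_lit 17784) (XT.nd (nat_lit 78) (nat_lit 608) (nat_lit 0) (XT.lf (nat_lit 0) (nat_lit 7175741410) (nat_lit 684) (nat_lit 1309248007) (nat_lit 76) (nat_lit 13761429512) (nat_lit 296) (nat_lit 5) (nat_lit 305) (nat_lit 5) (nat_lit 297) (nat_lit 5) (nat_lit 492) (nat_lit 434) (nat_lit 214)) (XT.lf (nat_lit 0) (nat_lit 11323216784) (nat_lit 684) (nat_lit 10447882456) (nat_lit 76) (nat_lit 732359714) (nat_lit 288) (nat_lit 5) (nat_lit 297) (nat_lit 5) (nat_lit 289) (nat_lit 5) (nat_lit 493) (nat_lit 434) (nat_lit 213))) (XT.nd (nat_lit 78) (nat_lit 0) (nat_lit 0) (XT.lf (nat_lit 0) (nat_lit 234956696) (nat_lit 0) (nat_lit 234956696) (nat_lit 1748) (nat_lit 5712629101) (nat_lit 522) (nat_lit 5) (nat_lit 522) (nat_lit 3) (nat_lit 545) (nat_lit 3) (nat_lit 435) (nat_lit 435) (nat_lit 270)) (XT.nd (nat_lit 78) (nat_lit 0) (nat_lit 0) (XT.lf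 (nat_lit 0) (nat_lit 1434636947) (nat_lit 1748) (nat_lit 5744512980) (nat_lit 1824) (nat_lit 5299877670) (nat_lit 522) (nat_lit 5) (nat_lit 545) (nat_lit 3) (nat_lit 546) (nat_lit 5) (nat_lit 436) (nat_lit 435) (nat_lit 269)) (XT.lf (nat_lit 76) (nat_lit 526771810) (nat_lit 0) (nat_lit 1407324091) (nat_lit 1824) (nat_lit 10661258109) (nat_lit 523) (nat_lit 5) (nat_lit 522) (nat_lit 5) (nat_lit 546) (nat_lit 5) (nat_lit 437) (nat_lit 435) (nat_lit 268))))) (XT.nd (nat_lit 234) (nat_lit 0) (nat_lit 76) (XT.nd (nat_lit 78) (nat_lit 0) (nat_lit 0) (XT.lf (nat_lit 0) (nat_lit 2499881630) (nat_lit 1748) (nat_lit 5747637451) (nat_lit 1824) (nat_lit 4465361118) (nat_lit 523) (nat_lit 5) (nat_lit 546) (nat_lit 5) (nat_lit 547) (nat_lit 5) (nat_lit 438) (nat_lit 435) (nat_lit 267)) (XT.nd (nat_lit 78) (nat_lit 0) (nat_lit 76) (XT.lf (nat_lit 76) (nat_lit 693213336) (nat_lit 0) (nat_lit 2386263966) (nat_lit 1824) (nat_lit 9753229725) (nat_lit 524)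 (nat_lit 5) (nat_lit 523) (nat_lit 5) (nat_lit 547) (nat_lit 5) (nat_lit 439) (nat_lit 435) (nat_lit 266)) (XT.lf (nat_lit 0) (nat_lit 3721699824) (nat_lit 1748) (nat_lit 5643443429) (nat_lit 1824) (nat_lit 3588766440) (nat_lit 524) (nat_lit 5) (nat_lit 547) (nat_lit 5) (nat_lit 548) (nat_lit 5) (nat_lit 440) (nat_lit 435) (nat_lit 265)))) (XT.nd (nat_lit 78) (nat_lit 0) (nat_lit 76) (XT.lf (nat_lit 76) (nat_lit 973116947) (nat_lit 0) (nat_lit 3414875732) (nat_lit 1824) (nat_lit 8689319215) (nat_lit 525) (nat_lit 5) (nat_lit 524) (nat_lit 5) (nat_lit 548) (nat_lit 5) (nat_lit 441) (nat_lit 435) (nat_lit 264)) (XT.nd (nat_lit 78) (nat_lit 0) (nat_lit 0) (XT.lf (nat_lit 0) (nat_lit 5112272537) (nat_lit 1748) (nat_lit 5427974239) (nat_lit 1824) (nat_lit 2662042141) (nat_lit 525) (nat_lit 5) (nat_lit 548) (nat_lit 5) (nat_lit 549) (nat_lit 5) (nat_lit 442) (nat_lit 435) (nat_lit 263)) (XT.lf (nat_lit 76) (nat_lit 1370690015) (nat_lit 0) (nat_lit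 4501377933) (nat_lit 1824) (nat_lit 7457276933) (nat_lit 526) (nat_lit 5) (nat_lit 525) (nat_lit 5) (nat_lit 549) (nat_lit 5) (nat_lit 443) (nat_lit 435) (nat_lit 262))))))) (XT.nd (nat_lit 780) (nat_lit 3648) (nat_lit 0) (XT.nd (nat_lit 390) (nat_lit 1596) (nat_lit 0) (XT.nd (nat_lit 156) (nat_lit 0) (nat_lit 76) (XT.nd (nat_lit 78) (nat_lit 0) (nat_lit 0) (XT.lf (nat_lit 0) (nat_lit 6684196565) (nat_lit 1748) (nat_lit 5096948220) (nat_lit 1824) (nat_lit 1677054432) (nat_lit 526) (nat_lit 5) (nat_lit 549) (nat_lit 5) (nat_lit 550) (nat_lit 5) (nat_lit 444) (nat_lit 435) (nat_lit 261)) (XT.lf (nat_lit 76) (nat_lit 1890473934) (nat_lit 0) (nat_lit 5654085279) (nat_lit 1824) (nat_lit 6044431600) (nat_lit 527) (nat_lit 5) (nat_lit 526) (nat_lit 5) (nat_lit 550) (nat_lit 5) (nat_lit 445) (nat_lit 435) (nat_lit 260))) (XT.nd (nat_lit 78) (nat_lit 0) (nat_lit 0) (XT.lf (nat_lit 0) (nat_lit 8450510658) (nat_lit 1748) (nat_lit 4645752790) (nat_lit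 1824) (nat_lit 625567161) (nat_lit 527) (nat_lit 5) (nat_lit 550) (nat_lit 5) (nat_lit 551) (nat_lit 5) (nat_lit 446) (nat_lit 435) (nat_lit 259)) (XT.nd (nat_lit 78) (nat_lit 0) (nat_lit 0) (XT.lf (nat_lit 76) (nat_lit 2537350480) (nat_lit 0) (nat_lit 6881428839) (nat_lit 1824) (nat_lit 4437663918) (nat_lit 528) (nat_lit 5) (nat_lit 527) (nat_lit 5) (nat_lit 551) (nat_lit 5) (nat_lit 447) (nat_lit 435) (nat_lit 258)) (XT.lf (nat_lit 76) (nat_lit 9920583671) (nat_lit 0) (nat_lit 507433227) (nat_lit 1824) (nat_lit 3565299148) (nat_lit 528) (nat_lit 5) (nat_lit 527) (nat_lit 5) (nat_lit 551) (nat_lit 5) (nat_lit 448) (nat_lit 435) (nat_lit 257))))) (XT.nd (nat_lit 156) (nat_lit 1748) (nat_lit 0) (XT.nd (nat_lit 78) (nat_lit 0) (nat_lit 0) (XT.lf (nat_lit 76) (nat_lit 3316548887) (nat_lit 0) (nat_lit 8191976173) (nat_lit 1824) (nat_lit 2623379535) (nat_lit 529) (nat_lit 5) (nat_lit 528) (nat_lit 5) (nat_lit 552) (nat_lit 5) (nat_lit 449)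 (nat_lit 435) (nat_lit 256)) (XT.lf (nat_lit 76) (nat_lit 10898874758) (nat_lit 0) (nat_lit 1733213619) (nat_lit 1824) (nat_lit 1640747639) (nat_lit 529) (nat_lit 5) (nat_lit 528) (nat_lit 5) (nat_lit 552) (nat_lit 5) (nat_lit 450) (nat_lit 435) (nat_lit 255))) (XT.nd (nat_lit 78) (nat_lit 1824) (nat_lit 0) (XT.lf (nat_lit 76) (nat_lit 4233653660) (nat_lit 0) (nat_lit 9594451433) (nat_lit 1824) (nat_lit 587481329) (nat_lit 530) (nat_lit 5) (nat_lit 529) (nat_lit 5) (nat_lit 553) (nat_lit 5) (nat_lit 451) (nat_lit 435) (nat_lit 254)) (XT.nd (nat_lit 78) (nat_lit 0) (nat_lit 76) (XT.lf (nat_lit 0) (nat_lit 505784205) (nat_lit 1824) (nat_lit 2543060237) (nat_lit 1900) (nat_lit 11511777794) (nat_lit 505) (nat_lit 5) (nat_lit 529) (nat_lit 5) (nat_lit 530) (nat_lit 5) (nat_lit 452) (nat_lit 435) (nat_lit 253)) (XT.lf (nat_lit 0) (nat_lit 1662564440) (nat_lit 1824) (nat_lit 9424034356) (nat_lit 1900) (nat_lit 3620891991) (nat_lit 506) (nat_lit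 5) (nat_lit 530) (nat_lit 5) (nat_lit 531) (nat_lit 5) (nat_lit 453) (nat_lit 435) (nat_lit 252)))))) (XT.nd (nat_lit 390) (nat_lit 3724) (nat_lit 0) (XT.nd (nat_lit 156) (nat_lit 0) (nat_lit 76) (XT.nd (nat_lit 78) (nat_lit 0) (nat_lit 76) (XT.lf (nat_lit 0) (nat_lit 2871218480) (nat_lit 1824) (nat_lit 1582984521) (nat_lit 1900) (nat_lit 10402518943) (nat_lit 506) (nat_lit 5) (nat_lit 530) (nat_lit 5) (nat_lit 531) (nat_lit 5) (nat_lit 454) (nat_lit 435) (nat_lit 251)) (XT.lf (nat_lit 0) (nat_lit 4153038718) (nat_lit 1824) (nat_lit 8530078282) (nat_lit 1900) (nat_lit 2324840864) (nat_lit 507) (nat_lit 5) (nat_lit 531) (nat_lit 5) (nat_lit 532) (nat_lit 5) (nat_lit 455) (nat_lit 435) (nat_lit 250))) (XT.nd (nat_lit 78) (nat_lit 0) (nat_lit 76) (XT.lf (nat_lit 0) (nat_lit 5492359846) (nat_lit 1824) (nat_lit 476859993) (nat_lit 1900) (nat_lit 9192361371) (nat_lit 507) (nat_lit 5) (nat_lit 531) (nat_lit 5) (nat_lit 532) (nat_lit 5) (nat_lit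 456) (nat_lit 435) (nat_lit 249)) (XT.nd (nat_lit 78) (nat_lit 0) (nat_lit 0) (XT.lf (nat_lit 0) (nat_lit 6907218877) (nat_lit 1824) (nat_lit 7489888247) (nat_lit 1900) (nat_lit 920194871) (nat_lit 508) (nat_lit 5) (nat_lit 532) (nat_lit 5) (nat_lit 533) (nat_lit 5) (nat_lit 457) (nat_lit 435) (nat_lit 248)) (XT.lf (nat_lit 76) (nat_lit 792302106) (nat_lit 0) (nat_lit 7597933786) (nat_lit 1900) (nat_lit 7085104086) (nat_lit 509) (nat_lit 5) (nat_lit 508) (nat_lit 5) (nat_lit 533) (nat_lit 5) (nat_lit 458) (nat_lit 435) (nat_lit 247))))) (XT.nd (nat_lit 234) (nat_lit 2128) (nat_lit 0) (XT.nd (nat_lit 78) (nat_lit 1748) (nat_lit 0) (XT.lf (nat_lit 76) (nat_lit 9335007396) (nat_lit 0) (nat_lit 610245517) (nat_lit 1900) (nat_lit 5690439015) (nat_lit 509) (nat_lit 5) (nat_lit 508) (nat_lit 5) (nat_lit 533) (nat_lit 5) (nat_lit 459) (nat_lit 435) (nat_lit 246)) (XT.nd (nat_lit 78) (nat_lit 0) (nat_lit 0) (XT.lf (nat_lit 0) (nat_lit 2229553770)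 (nat_lit 1824) (nat_lit 9350848156) (nat_lit 1900) (nat_lit 4217868359) (nat_lit 485) (nat_lit 5) (nat_lit 509) (nat_lit 5) (nat_lit 510) (nat_lit 5) (nat_lit 460) (nat_lit 435) (nat_lit 245)) (XT.lf (nat_lit 0) (nat_lit 11005064078) (nat_lit 1824) (nat_lit 2281836444) (nat_lit 1900) (nat_lit 2676426755) (nat_lit 485) (nat_lit 5) (nat_lit 509) (nat_lit 5) (nat_lit 510) (nat_lit 5) (nat_lit 461) (nat_lit 435) (nat_lit 244)))) (XT.nd (nat_lit 78) (nat_lit 988) (nat_lit 0) (XT.lf (nat_lit 0) (nat_lit 3836038865) (nat_lit 1140) (nat_lit 11240903079) (nat_lit 1216) (nat_lit 1053755207) (nat_lit 470) (nat_lit 5) (nat_lit 485) (nat_lit 5) (nat_lit 486) (nat_lit 5) (nat_lit 462) (nat_lit 435) (nat_lit 243)) (XT.nd (nat_lit 78) (nat_lit 912) (nat_lit 0) (XT.lf (nat_lit 0) (nat_lit 634649348) (nat_lit 1216) (nat_lit 3453273939) (nat_lit 76) (nat_lit 12212589713) (nat_lit 469) (nat_lit 5) (nat_lit 485) (nat_lit 5) (nat_lit 470) (nat_lit 5) (nat_lit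 463) (nat_lit 435) (nat_lit 242)) (XT.lf (nat_lit 0) (nat_lit 2393077460) (nat_lit 988) (nat_lit 10868982790) (nat_lit 76) (nat_lit 3210518304) (nat_lit 457) (nat_lit 5) (nat_lit 470) (nat_lit 5) (nat_lit 458) (nat_lit 5) (nat_lit 464) (nat_lit 435) (nat_lit 241))))))))
noncomputable def xc228 : XT := (XT.nd (nat_lit 1560) (nat_lit 3344) (nat_lit 0) (XT.nd (nat_lit 780) (nat_lit 4484) (nat_lit 0) (XT.nd (nat_lit 390) (nat_lit 1748) (nat_lit 0) (XT.nd (nat_lit 156) (nat_lit 1748) (nat_lit 0) (XT.nd (nat_lit 78) (nat_lit 912) (nat_lit 0) (XT.lf (nat_lit 0) (nat_lit 4229885916) (nat_lit 988) (nat_lit 1793133740) (nat_lit 76) (nat_lit 10624201528) (nat_lit 457) (nat_lit 5) (nat_lit 470) (nat_lit 5) (nat_lit 458) (nat_lit 5) (nat_lit 465) (nat_lit 435) (nat_lit 240)) (XT.lf (nat_lit 0) (nat_lit 6154611005) (nat_lit 988) (nat_lit 9276906384) (nat_lit 76) (nat_lit 1392815669) (nat_lit 445) (nat_lit 5) (nat_lit 458) (nat_lit 5) (nat_lit 446)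 (nat_lit 5) (nat_lit 466) (nat_lit 435) (nat_lit 239))) (XT.nd (nat_lit 78) (nat_lit 912) (nat_lit 0) (XT.lf (nat_lit 0) (nat_lit 48359087) (nat_lit 836) (nat_lit 8114837784) (nat_lit 912) (nat_lit 8840882972) (nat_lit 434) (nat_lit 5) (nat_lit 445) (nat_lit 5) (nat_lit 446) (nat_lit 5) (nat_lit 467) (nat_lit 435) (nat_lit 238)) (XT.nd (nat_lit 78) (nat_lit 912) (nat_lit 0) (XT.lf (nat_lit 0) (nat_lit 9679258529) (nat_lit 836) (nat_lit 588094275) (nat_lit 912) (nat_lit 6918960792) (nat_lit 434) (nat_lit 5) (nat_lit 445) (nat_lit 5) (nat_lit 446) (nat_lit 5) (nat_lit 468) (nat_lit 435) (nat_lit 237)) (XT.lf (nat_lit 0) (nat_lit 2105542538) (nat_lit 912) (nat_lit 10361028891) (nat_lit 988) (nat_lit 4904561005) (nat_lit 422) (nat_lit 5) (nat_lit 434) (nat_lit 5) (nat_lit 435) (nat_lit 5) (nat_lit 469) (nat_lit 435) (nat_lit 236))))) (XT.nd (nat_lit 156) (nat_lit 912) (nat_lit 0) (XT.nd (nat_lit 78) (nat_lit 836) (nat_lit 0) (XT.lf (nat_lit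 0) (nat_lit 12001621109) (nat_lit 912) (nat_lit 2755768944) (nat_lit 988) (nat_lit 2801305282) (nat_lit 422) (nat_lit 5) (nat_lit 434) (nat_lit 5) (nat_lit 435) (nat_lit 5) (nat_lit 470) (nat_lit 435) (nat_lit 235)) (XT.lf (nat_lit 0) (nat_lit 4363784046) (nat_lit 836) (nat_lit 12784547841) (nat_lit 912) (nat_lit 600591472) (nat_lit 411) (nat_lit 5) (nat_lit 422) (nat_lit 5) (nat_lit 423) (nat_lit 5) (nat_lit 471) (nat_lit 435) (nat_lit 234))) (XT.nd (nat_lit 78) (nat_lit 836) (nat_lit 0) (XT.lf (nat_lit 0) (nat_lit 1671904501) (nat_lit 912) (nat_lit 3419623271) (nat_lit 76) (nat_lit 12850228053) (nat_lit 410) (nat_lit 5) (nat_lit 422) (nat_lit 5) (nat_lit 411) (nat_lit 5) (nat_lit 472) (nat_lit 435) (nat_lit 233)) (XT.nd (nat_lit 78) (nat_lit 0) (nat_lit 0) (XT.lf (nat_lit 0) (nat_lit 4038001326) (nat_lit 912) (nat_lit 11331585815) (nat_lit 76) (nat_lit 2767654544) (nat_lit 399) (nat_lit 5) (nat_lit 411) (nat_lit 5) (nat_lit 400) (nat_lit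 5) (nat_lit 473) (nat_lit 435) (nat_lit 232)) (XT.lf (nat_lit 0) (nat_lit 6501988784) (nat_lit 912) (nat_lit 1094833741) (nat_lit 76) (nat_lit 10738803364) (nat_lit 399) (nat_lit 5) (nat_lit 411) (nat_lit 5) (nat_lit 400) (nat_lit 5) (nat_lit 474) (nat_lit 435) (nat_lit 231)))))) (XT.nd (nat_lit 390) (nat_lit 2128) (nat_lit 0) (XT.nd (nat_lit 156) (nat_lit 836) (nat_lit 0) (XT.nd (nat_lit 78) (nat_lit 760) (nat_lit 0) (XT.lf (nat_lit 0) (nat_lit 9073134259) (nat_lit 836) (nat_lit 9075098297) (nat_lit 76) (nat_lit 388587655) (nat_lit 389) (nat_lit 5) (nat_lit 400) (nat_lit 5) (nat_lit 390) (nat_lit 5) (nat_lit 475) (nat_lit 435) (nat_lit 230)) (XT.lf (nat_lit 0) (nat_lit 1464682381) (nat_lit 760) (nat_lit 10292184866) (nat_lit 836) (nat_lit 6983947881) (nat_lit 379) (nat_lit 5) (nat_lit 389) (nat_lit 5) (nat_lit 390) (nat_lit 5) (nat_lit 476) (nat_lit 435) (nat_lit 229))) (XT.nd (nat_lit 78) (nat_lit 836) (nat_lit 0) (XT.lf (nat_lit 0)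 (nat_lit 12331790542) (nat_lit 760) (nat_lit 2217408851) (nat_lit 836) (nat_lit 4398592061) (nat_lit 379) (nat_lit 5) (nat_lit 389) (nat_lit 5) (nat_lit 390) (nat_lit 5) (nat_lit 477) (nat_lit 435) (nat_lit 228)) (XT.nd (nat_lit 78) (nat_lit 76) (nat_lit 0) (XT.lf (nat_lit 0) (nat_lit 4267757265) (nat_lit 760) (nat_lit 13190548186) (nat_lit 836) (nat_lit 1699383308) (nat_lit 369) (nat_lit 5) (nat_lit 379) (nat_lit 5) (nat_lit 380) (nat_lit 5) (nat_lit 478) (nat_lit 435) (nat_lit 227)) (XT.lf (nat_lit 0) (nat_lit 1093538971) (nat_lit 836) (nat_lit 3940349810) (nat_lit 76) (nat_lit 14336687384) (nat_lit 368) (nat_lit 5) (nat_lit 379) (nat_lit 5) (nat_lit 369) (nat_lit 5) (nat_lit 479) (nat_lit 435) (nat_lit 226))))) (XT.nd (nat_lit 156) (nat_lit 1368) (nat_lit 0) (XT.nd (nat_lit 78) (nat_lit 0) (nat_lit 0) (XT.lf (nat_lit 0) (nat_lit 3983031744) (nat_lit 836) (nat_lit 12301963597) (nat_lit 76) (nat_lit 3301231984) (nat_lit 358) (nat_lit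 5) (nat_lit 369) (nat_lit 5) (nat_lit 359) (nat_lit 5) (nat_lit 480) (nat_lit 435) (nat_lit 225)) (XT.lf (nat_lit 0) (nat_lit 6984623438) (nat_lit 836) (nat_lit 1058836662) (nat_lit 76) (nat_lit 11761645228) (nat_lit 358) (nat_lit 5) (nat_lit 369) (nat_lit 5) (nat_lit 359) (nat_lit 5) (nat_lit 481) (nat_lit 435) (nat_lit 224))) (XT.nd (nat_lit 78) (nat_lit 684) (nat_lit 0) (XT.lf (nat_lit 0) (nat_lit 10111956859) (nat_lit 760) (nat_lit 9488823680) (nat_lit 76) (nat_lit 426266154) (nat_lit 349) (nat_lit 5) (nat_lit 359) (nat_lit 5) (nat_lit 350) (nat_lit 5) (nat_lit 482) (nat_lit 435) (nat_lit 223)) (XT.nd (nat_lit 78) (nat_lit 0) (nat_lit 0) (XT.lf (nat_lit 0) (nat_lit 2096087430) (nat_lit 684) (nat_lit 11274307375) (nat_lit 760) (nat_lit 6881660922) (nat_lit 340) (nat_lit 5) (nat_lit 349) (nat_lit 5) (nat_lit 350) (nat_lit 5) (nat_lit 483) (nat_lit 435) (nat_lit 222)) (XT.lf (nat_lit 0) (nat_lit 14034982197) (nat_lit 684) (nat_lit 2717288767)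 (nat_lit 760) (nat_lit 3728128590) (nat_lit 340) (nat_lit 5) (nat_lit 349) (nat_lit 5) (nat_lit 350) (nat_lit 5) (nat_lit 484) (nat_lit 435) (nat_lit 221))))))) (XT.nd (nat_lit 55614) (nat_lit 0) (nat_lit 17176) (XT.nd (nat_lit 390) (nat_lit 1292) (nat_lit 0) (XT.nd (nat_lit 156) (nat_lit 1292) (nat_lit 0) (XT.nd (nat_lit 78) (nat_lit 76) (nat_lit 0) (XT.lf (nat_lit 0) (nat_lit 5526485041) (nat_lit 684) (nat_lit 14744902275) (nat_lit 760) (nat_lit 440530887) (nat_lit 331) (nat_lit 5) (nat_lit 340) (nat_lit 5) (nat_lit 341) (nat_lit 5) (nat_lit 485) (nat_lit 435) (nat_lit 220)) (XT.lf (nat_lit 0) (nat_lit 2930873592) (nat_lit 760) (nat_lit 3165543483) (nat_lit 76) (nat_lit 14850146772) (nat_lit 330) (nat_lit 5) (nat_lit 340) (nat_lit 5) (nat_lit 331) (nat_lit 5) (nat_lit 486) (nat_lit 435) (nat_lit 219))) (XT.nd (nat_lit 78) (nat_lit 608) (nat_lit 0) (XT.lf (nat_lit 0) (nat_lit 6436514416) (nat_lit 760) (nat_lit 11996501750) (nat_lit 76)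 (nat_lit 2751373862) (nat_lit 321) (nat_lit 5) (nat_lit 331) (nat_lit 5) (nat_lit 322) (nat_lit 5) (nat_lit 487) (nat_lit 435) (nat_lit 218)) (XT.nd (nat_lit 78) (nat_lit 0) (nat_lit 0) (XT.lf (nat_lit 0) (nat_lit 362720922) (nat_lit 608) (nat_lit 9708539905) (nat_lit 684) (nat_lit 11354532047) (nat_lit 313) (nat_lit 5) (nat_lit 321) (nat_lit 5) (nat_lit 322) (nat_lit 5) (nat_lit 488) (nat_lit 435) (nat_lit 217)) (XT.lf (nat_lit 0) (nat_lit 13125512558) (nat_lit 608) (nat_lit 728633349) (nat_lit 684) (nat_lit 7816368998) (nat_lit 313) (nat_lit 5) (nat_lit 321) (nat_lit 5) (nat_lit 322) (nat_lit 5) (nat_lit 489) (nat_lit 435) (nat_lit 216))))) (XT.nd (nat_lit 156) (nat_lit 684) (nat_lit 0) (XT.nd (nat_lit 78) (nat_lit 0) (nat_lit 0) (XT.lf (nat_lit 0) (nat_lit 4217806346) (nat_lit 608) (nat_lit 13572038583) (nat_lit 684) (nat_lit 4128743322) (nat_lit 305) (nat_lit 5) (nat_lit 313) (nat_lit 5) (nat_lit 314) (nat_lit 5) (nat_lit 490) (nat_lit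 435) (nat_lit 215)) (XT.lf (nat_lit 0) (nat_lit 17340651466) (nat_lit 608) (nat_lit 4520831608) (nat_lit 684) (nat_lit 308995486) (nat_lit 305) (nat_lit 5) (nat_lit 313) (nat_lit 5) (nat_lit 314) (nat_lit 5) (nat_lit 491) (nat_lit 435) (nat_lit 214))) (XT.nd (nat_lit 78) (nat_lit 0) (nat_lit 0) (XT.lf (nat_lit 0) (nat_lit 3620753864) (nat_lit 684) (nat_lit 14077999857) (nat_lit 76) (nat_lit 4726574099) (nat_lit 296) (nat_lit 5) (nat_lit 305) (nat_lit 5) (nat_lit 297) (nat_lit 5) (nat_lit 492) (nat_lit 435) (nat_lit 213)) (XT.nd (nat_lit 54912) (nat_lit 0) (nat_lit 17176) (XT.lf (nat_lit 0) (nat_lit 7682731034) (nat_lit 684) (nat_lit 869481376) (nat_lit 76) (nat_lit 14131865401) (nat_lit 296) (nat_lit 5) (nat_lit 305) (nat_lit 5) (nat_lit 297) (nat_lit 5) (nat_lit 493) (nat_lit 435) (nat_lit 212)) (XT.lf (nat_lit 0) (nat_lit 463465353) (nat_lit 0) (nat_lit 463465353) (nat_lit 1748) (nat_lit 5370310255) (nat_lit 522) (nat_lit 5) (nat_lit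 522) (nat_lit 3) (nat_lit 545) (nat_lit 3) (nat_lit 436) (nat_lit 436) (nat_lit 268)))))) (XT.nd (nat_lit 390) (nat_lit 0) (nat_lit 152) (XT.nd (nat_lit 156) (nat_lit 0) (nat_lit 76) (XT.nd (nat_lit 78) (nat_lit 0) (nat_lit 0) (XT.lf (nat_lit 0) (nat_lit 2338164837) (nat_lit 1748) (nat_lit 5400158094) (nat_lit 1824) (nat_lit 4972788515) (nat_lit 522) (nat_lit 5) (nat_lit 545) (nat_lit 3) (nat_lit 546) (nat_lit 5) (nat_lit 437) (nat_lit 436) (nat_lit 267)) (XT.lf (nat_lit 76) (nat_lit 993531042) (nat_lit 0) (nat_lit 1839890405) (nat_lit 1824) (nat_lit 9996626771) (nat_lit 523) (nat_lit 5) (nat_lit 522) (nat_lit 5) (nat_lit 546) (nat_lit 5) (nat_lit 438) (nat_lit 436) (nat_lit 266))) (XT.nd (nat_lit 78) (nat_lit 0) (nat_lit 0) (XT.lf (nat_lit 0) (nat_lit 3391073249) (nat_lit 1748) (nat_lit 5395862327) (nat_lit 1824) (nat_lit 4163378347) (nat_lit 523) (nat_lit 5) (nat_lit 546) (nat_lit 5) (nat_lit 547) (nat_lit 5) (nat_lit 439) (nat_lit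 436) (nat_lit 265)) (XT.nd (nat_lit 78) (nat_lit 0) (nat_lit 76) (XT.lf (nat_lit 76) (nat_lit 1170734898) (nat_lit 0) (nat_lit 2798042308) (nat_lit 1824) (nat_lit 9104029755) (nat_lit 524) (nat_lit 5) (nat_lit 523) (nat_lit 5) (nat_lit 547) (nat_lit 5) (nat_lit 440) (nat_lit 436) (nat_lit 264)) (XT.lf (nat_lit 0) (nat_lit 4605297236) (nat_lit 1748) (nat_lit 5283199380) (nat_lit 1824) (nat_lit 3308308002) (nat_lit 524) (nat_lit 5) (nat_lit 547) (nat_lit 5) (nat_lit 548) (nat_lit 5) (nat_lit 441) (nat_lit 436) (nat_lit 263))))) (XT.nd (nat_lit 234) (nat_lit 0) (nat_lit 152) (XT.nd (nat_lit 78) (nat_lit 0) (nat_lit 76) (XT.lf (nat_lit 76) (nat_lit 1462579619) (nat_lit 0) (nat_lit 3809521933) (nat_lit 1824) (nat_lit 8050829599) (nat_lit 525) (nat_lit 5) (nat_lit 524) (nat_lit 5) (nat_lit 548) (nat_lit 5) (nat_lit 442) (nat_lit 436) (nat_lit 262)) (XT.nd (nat_lit 78) (nat_lit 0) (nat_lit 0) (XT.lf (nat_lit 0) (nat_lit 5993174996) (nat_lit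 1748) (nat_lit 5058057072) (nat_lit 1824) (nat_lit 2399529488) (nat_lit 525) (nat_lit 5) (nat_lit 548) (nat_lit 5) (nat_lit 549) (nat_lit 5) (nat_lit 443) (nat_lit 436) (nat_lit 261)) (XT.lf (nat_lit 76) (nat_lit 1873432594) (nat_lit 0) (nat_lit 4882552085) (nat_lit 1824) (nat_lit 6824617591) (nat_lit 526) (nat_lit 5) (nat_lit 525) (nat_lit 5) (nat_lit 549) (nat_lit 5) (nat_lit 444) (nat_lit 436) (nat_lit 260)))) (XT.nd (nat_lit 78) (nat_lit 0) (nat_lit 0) (XT.lf (nat_lit 0) (nat_lit 7567473689) (nat_lit 1748) (nat_lit 4715996397) (nat_lit 1824) (nat_lit 1428901252) (nat_lit 526) (nat_lit 5) (nat_lit 549) (nat_lit 5) (nat_lit 550) (nat_lit 5) (nat_lit 445) (nat_lit 436) (nat_lit 259)) (XT.nd (nat_lit 78) (nat_lit 0) (nat_lit 76) (XT.lf (nat_lit 76) (nat_lit 2407997287) (nat_lit 0) (nat_lit 6025463017) (nat_lit 1824) (nat_lit 5412550127) (nat_lit 527) (nat_lit 5) (nat_lit 526) (nat_lit 5) (nat_lit 550) (nat_lit 5) (nat_lit 446) (nat_lit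 436) (nat_lit 258)) (XT.lf (nat_lit 0) (nat_lit 9341415849) (nat_lit 1748) (nat_lit 4252245196) (nat_lit 1824) (nat_lit 388168275) (nat_lit 527) (nat_lit 5) (nat_lit 550) (nat_lit 5) (nat_lit 551) (nat_lit 5) (nat_lit 447) (nat_lit 436) (nat_lit 257))))))))
noncomputable def xc229 : XT := (XT.nd (nat_lit 1560) (nat_lit 9424) (nat_lit 0) (XT.nd (nat_lit 780) (nat_lit 4560) (nat_lit 0) (XT.nd (nat_lit 390) (nat_lit 0) (nat_lit 0) (XT.nd (nat_lit 156) (nat_lit 1672) (nat_lit 0) (XT.nd (nat_lit 78) (nat_lit 0) (nat_lit 0) (XT.lf (nat_lit 76) (nat_lit 3071319989) (nat_lit 0) (nat_lit 7246712491) (nat_lit 1824) (nat_lit 3801322069) (nat_lit 528) (nat_lit 5) (nat_lit 527) (nat_lit 5) (nat_lit 551) (nat_lit 5) (nat_lit 448) (nat_lit 436) (nat_lit 256)) (XT.lf (nat_lit 76) (nat_lit 10592742894) (nat_lit 0) (nat_lit 740773143) (nat_lit 1824) (nat_lit 2925727555) (nat_lit 528) (nat_lit 5) (nat_lit 527) (nat_lit 5) (nat_lit 551) (nat_lit 5) (nat_lit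 449) (nat_lit 436) (nat_lit 255))) (XT.nd (nat_lit 78) (nat_lit 1748) (nat_lit 0) (XT.lf (nat_lit 76) (nat_lit 3868797299) (nat_lit 0) (nat_lit 8554905802) (nat_lit 1824) (nat_lit 1977139435) (nat_lit 529) (nat_lit 5) (nat_lit 528) (nat_lit 5) (nat_lit 552) (nat_lit 5) (nat_lit 450) (nat_lit 436) (nat_lit 254)) (XT.nd (nat_lit 78) (nat_lit 1748) (nat_lit 0) (XT.lf (nat_lit 76) (nat_lit 11593241895) (nat_lit 0) (nat_lit 1963064269) (nat_lit 1824) (nat_lit 988555052) (nat_lit 529) (nat_lit 5) (nat_lit 528) (nat_lit 5) (nat_lit 552) (nat_lit 5) (nat_lit 451) (nat_lit 436) (nat_lit 253)) (XT.lf (nat_lit 0) (nat_lit 73334057) (nat_lit 1824) (nat_lit 9884989623) (nat_lit 1900) (nat_lit 4732358162) (nat_lit 505) (nat_lit 5) (nat_lit 529) (nat_lit 5) (nat_lit 530) (nat_lit 5) (nat_lit 452) (nat_lit 436) (nat_lit 252))))) (XT.nd (nat_lit 156) (nat_lit 0) (nat_lit 76) (XT.nd (nat_lit 78) (nat_lit 0) (nat_lit 76) (XT.lf (nat_lit 0) (nat_lit 1167572430)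 (nat_lit 1824) (nat_lit 2106969296) (nat_lit 1900) (nat_lit 11564259505) (nat_lit 505) (nat_lit 5) (nat_lit 529) (nat_lit 5) (nat_lit 530) (nat_lit 5) (nat_lit 453) (nat_lit 436) (nat_lit 251)) (XT.lf (nat_lit 0) (nat_lit 2336823489) (nat_lit 1824) (nat_lit 9114898116) (nat_lit 1900) (nat_lit 3537098842) (nat_lit 506) (nat_lit 5) (nat_lit 530) (nat_lit 5) (nat_lit 531) (nat_lit 5) (nat_lit 454) (nat_lit 436) (nat_lit 250))) (XT.nd (nat_lit 78) (nat_lit 0) (nat_lit 76) (XT.lf (nat_lit 0) (nat_lit 3557081831) (nat_lit 1824) (nat_lit 1126784480) (nat_lit 1900) (nat_lit 10457421293) (nat_lit 506) (nat_lit 5) (nat_lit 530) (nat_lit 5) (nat_lit 531) (nat_lit 5) (nat_lit 455) (nat_lit 436) (nat_lit 249)) (XT.nd (nat_lit 78) (nat_lit 0) (nat_lit 0) (XT.lf (nat_lit 0) (nat_lit 4854488812) (nat_lit 1824) (nat_lit 8202770454) (nat_lit 1900) (nat_lit 2238489968) (nat_lit 507) (nat_lit 5) (nat_lit 531) (nat_lit 5) (nat_lit 532) (nat_lit 5) (nat_lit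 456) (nat_lit 436) (nat_lit 248)) (XT.lf (nat_lit 76) (nat_lit 1772517) (nat_lit 0) (nat_lit 6206710073) (nat_lit 1900) (nat_lit 9244204733) (nat_lit 508) (nat_lit 5) (nat_lit 507) (nat_lit 5) (nat_lit 532) (nat_lit 5) (nat_lit 457) (nat_lit 436) (nat_lit 247)))))) (XT.nd (nat_lit 390) (nat_lit 3040) (nat_lit 0) (XT.nd (nat_lit 156) (nat_lit 1748) (nat_lit 0) (XT.nd (nat_lit 78) (nat_lit 0) (nat_lit 0) (XT.lf (nat_lit 0) (nat_lit 7642157273) (nat_lit 1824) (nat_lit 7142069528) (nat_lit 1900) (nat_lit 827485352) (nat_lit 508) (nat_lit 5) (nat_lit 532) (nat_lit 5) (nat_lit 533) (nat_lit 5) (nat_lit 458) (nat_lit 436) (nat_lit 246)) (XT.lf (nat_lit 76) (nat_lit 1302490840) (nat_lit 0) (nat_lit 7843851547) (nat_lit 1900) (nat_lit 6626738356) (nat_lit 509) (nat_lit 5) (nat_lit 508) (nat_lit 5) (nat_lit 533) (nat_lit 5) (nat_lit 459) (nat_lit 436) (nat_lit 245))) (XT.nd (nat_lit 78) (nat_lit 1748) (nat_lit 0) (XT.lf (nat_lit 76) (nat_lit 10006357242)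 (nat_lit 0) (nat_lit 714567178) (nat_lit 1900) (nat_lit 5215946019) (nat_lit 509) (nat_lit 5) (nat_lit 508) (nat_lit 5) (nat_lit 533) (nat_lit 5) (nat_lit 460) (nat_lit 436) (nat_lit 244)) (XT.nd (nat_lit 78) (nat_lit 0) (nat_lit 0) (XT.lf (nat_lit 0) (nat_lit 2767659645) (nat_lit 1824) (nat_lit 9612425491) (nat_lit 1900) (nat_lit 3722789052) (nat_lit 485) (nat_lit 5) (nat_lit 509) (nat_lit 5) (nat_lit 510) (nat_lit 5) (nat_lit 461) (nat_lit 436) (nat_lit 243)) (XT.lf (nat_lit 0) (nat_lit 11709003398) (nat_lit 1824) (nat_lit 2400571576) (nat_lit 1900) (nat_lit 2161880119) (nat_lit 485) (nat_lit 5) (nat_lit 509) (nat_lit 5) (nat_lit 510) (nat_lit 5) (nat_lit 462) (nat_lit 436) (nat_lit 242))))) (XT.nd (nat_lit 156) (nat_lit 1824) (nat_lit 0) (XT.nd (nat_lit 78) (nat_lit 76) (nat_lit 0) (XT.lf (nat_lit 0) (nat_lit 4404951464) (nat_lit 1140) (nat_lit 11522275777) (nat_lit 1216) (nat_lit 515108924) (nat_lit 470) (nat_lit 5) (nat_lit 485)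 (nat_lit 5) (nat_lit 486) (nat_lit 5) (nat_lit 463) (nat_lit 436) (nat_lit 241)) (XT.lf (nat_lit 0) (nat_lit 1188891885) (nat_lit 1216) (nat_lit 3032601507) (nat_lit 76) (nat_lit 12394198877) (nat_lit 469) (nat_lit 5) (nat_lit 485) (nat_lit 5) (nat_lit 470) (nat_lit 5) (nat_lit 464) (nat_lit 436) (nat_lit 240))) (XT.nd (nat_lit 78) (nat_lit 912) (nat_lit 0) (XT.lf (nat_lit 0) (nat_lit 2974719844) (nat_lit 988) (nat_lit 10588855820) (nat_lit 76) (nat_lit 3227778844) (nat_lit 457) (nat_lit 5) (nat_lit 470) (nat_lit 5) (nat_lit 458) (nat_lit 5) (nat_lit 465) (nat_lit 436) (nat_lit 239)) (XT.nd (nat_lit 78) (nat_lit 912) (nat_lit 0) (XT.lf (nat_lit 0) (nat_lit 4837798179) (nat_lit 988) (nat_lit 1341244821) (nat_lit 76) (nat_lit 10790656317) (nat_lit 457) (nat_lit 5) (nat_lit 470) (nat_lit 5) (nat_lit 458) (nat_lit 5) (nat_lit 466) (nat_lit 436) (nat_lit 238)) (XT.lf (nat_lit 0) (nat_lit 6793697136) (nat_lit 988) (nat_lit 8967372284) (nat_lit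 76) (nat_lit 1389430420) (nat_lit 445) (nat_lit 5) (nat_lit 458) (nat_lit 5) (nat_lit 446) (nat_lit 5) (nat_lit 467) (nat_lit 436) (nat_lit 237))))))) (XT.nd (nat_lit 780) (nat_lit 4408) (nat_lit 0) (XT.nd (nat_lit 390) (nat_lit 2432) (nat_lit 0) (XT.nd (nat_lit 156) (nat_lit 1748) (nat_lit 0) (XT.nd (nat_lit 78) (nat_lit 0) (nat_lit 0) (XT.lf (nat_lit 0) (nat_lit 541141441) (nat_lit 836) (nat_lit 8294388940) (nat_lit 912) (nat_lit 8498449667) (nat_lit 434) (nat_lit 5) (nat_lit 445) (nat_lit 5) (nat_lit 446) (nat_lit 5) (nat_lit 468) (nat_lit 436) (nat_lit 236)) (XT.lf (nat_lit 0) (nat_lit 10355015438) (nat_lit 836) (nat_lit 616772239) (nat_lit 912) (nat_lit 6548270435) (nat_lit 434) (nat_lit 5) (nat_lit 445) (nat_lit 5) (nat_lit 446) (nat_lit 5) (nat_lit 469) (nat_lit 436) (nat_lit 235))) (XT.nd (nat_lit 78) (nat_lit 836) (nat_lit 0) (XT.lf (nat_lit 0) (nat_lit 2636678139) (nat_lit 912) (nat_lit 10571593896) (nat_lit 988) (nat_lit 4500435664)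 (nat_lit 422) (nat_lit 5) (nat_lit 434) (nat_lit 5) (nat_lit 435) (nat_lit 5) (nat_lit 470) (nat_lit 436) (nat_lit 234)) (XT.nd (nat_lit 78) (nat_lit 836) (nat_lit 0) (XT.lf (nat_lit 0) (nat_lit 12721089561) (nat_lit 912) (nat_lit 2814163173) (nat_lit 988) (nat_lit 2364962211) (nat_lit 422) (nat_lit 5) (nat_lit 434) (nat_lit 5) (nat_lit 435) (nat_lit 5) (nat_lit 471) (nat_lit 436) (nat_lit 233)) (XT.lf (nat_lit 0) (nat_lit 4936953503) (nat_lit 836) (nat_lit 13030728777) (nat_lit 912) (nat_lit 126691871) (nat_lit 411) (nat_lit 5) (nat_lit 422) (nat_lit 5) (nat_lit 423) (nat_lit 5) (nat_lit 472) (nat_lit 436) (nat_lit 232))))) (XT.nd (nat_lit 156) (nat_lit 1520) (nat_lit 0) (XT.nd (nat_lit 78) (nat_lit 836) (nat_lit 0) (XT.lf (nat_lit 0) (nat_lit 2175478488) (nat_lit 912) (nat_lit 3005401430) (nat_lit 76) (nat_lit 13110308305) (nat_lit 410) (nat_lit 5) (nat_lit 422) (nat_lit 5) (nat_lit 411) (nat_lit 5) (nat_lit 473) (nat_lit 436) (nat_lit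 231)) (XT.lf (nat_lit 0) (nat_lit 4582891780) (nat_lit 912) (nat_lit 11069597756) (nat_lit 76) (nat_lit 2838214374) (nat_lit 399) (nat_lit 5) (nat_lit 411) (nat_lit 5) (nat_lit 400) (nat_lit 5) (nat_lit 474) (nat_lit 436) (nat_lit 230))) (XT.nd (nat_lit 78) (nat_lit 1520) (nat_lit 0) (XT.lf (nat_lit 0) (nat_lit 7087058391) (nat_lit 912) (nat_lit 637691421) (nat_lit 76) (nat_lit 10968487999) (nat_lit 399) (nat_lit 5) (nat_lit 411) (nat_lit 5) (nat_lit 400) (nat_lit 5) (nat_lit 475) (nat_lit 436) (nat_lit 229)) (XT.nd (nat_lit 78) (nat_lit 760) (nat_lit 0) (XT.lf (nat_lit 0) (nat_lit 9703967688) (nat_lit 836) (nat_lit 8771902180) (nat_lit 76) (nat_lit 422699333) (nat_lit 389) (nat_lit 5) (nat_lit 400) (nat_lit 5) (nat_lit 390) (nat_lit 5) (nat_lit 476) (nat_lit 436) (nat_lit 228)) (XT.lf (nat_lit 0) (nat_lit 1975485308) (nat_lit 760) (nat_lit 10460205113) (nat_lit 836) (nat_lit 6671067292) (nat_lit 379) (nat_lit 5) (nat_lit 389) (nat_lit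 5) (nat_lit 390) (nat_lit 5) (nat_lit 477) (nat_lit 436) (nat_lit 227)))))) (XT.nd (nat_lit 390) (nat_lit 2812) (nat_lit 0) (XT.nd (nat_lit 156) (nat_lit 836) (nat_lit 0) (XT.nd (nat_lit 78) (nat_lit 760) (nat_lit 0) (XT.lf (nat_lit 0) (nat_lit 13050494274) (nat_lit 760) (nat_lit 2224675214) (nat_lit 836) (nat_lit 4042878072) (nat_lit 379) (nat_lit 5) (nat_lit 389) (nat_lit 5) (nat_lit 390) (nat_lit 5) (nat_lit 478) (nat_lit 436) (nat_lit 226)) (XT.lf (nat_lit 0) (nat_lit 4830477933) (nat_lit 760) (nat_lit 13406786008) (nat_lit 836) (nat_lit 1294982745) (nat_lit 369) (nat_lit 5) (nat_lit 379) (nat_lit 5) (nat_lit 380) (nat_lit 5) (nat_lit 479) (nat_lit 436) (nat_lit 225))) (XT.nd (nat_lit 78) (nat_lit 760) (nat_lit 0) (XT.lf (nat_lit 0) (nat_lit 1539565327) (nat_lit 836) (nat_lit 3545514588) (nat_lit 76) (nat_lit 14664424662) (nat_lit 368) (nat_lit 5) (nat_lit 379) (nat_lit 5) (nat_lit 369) (nat_lit 5) (nat_lit 480) (nat_lit 436) (nat_lit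 224)) (XT.nd (nat_lit 78) (nat_lit 0) (nat_lit 0) (XT.lf (nat_lit 0) (nat_lit 4481921379) (nat_lit 836) (nat_lit 12069434074) (nat_lit 76) (nat_lit 3418211839) (nat_lit 358) (nat_lit 5) (nat_lit 369) (nat_lit 5) (nat_lit 359) (nat_lit 5) (nat_lit 481) (nat_lit 436) (nat_lit 223)) (XT.lf (nat_lit 0) (nat_lit 7535324731) (nat_lit 836) (nat_lit 610828302) (nat_lit 76) (nat_lit 12046834226) (nat_lit 358) (nat_lit 5) (nat_lit 369) (nat_lit 5) (nat_lit 359) (nat_lit 5) (nat_lit 482) (nat_lit 436) (nat_lit 222))))) (XT.nd (nat_lit 234) (nat_lit 1444) (nat_lit 0) (XT.nd (nat_lit 78) (nat_lit 684) (nat_lit 0) (XT.lf (nat_lit 0) (nat_lit 10720562396) (nat_lit 760) (nat_lit 9204772638) (nat_lit 76) (nat_lit 494125265) (nat_lit 349) (nat_lit 5) (nat_lit 359) (nat_lit 5) (nat_lit 350) (nat_lit 5) (nat_lit 483) (nat_lit 436) (nat_lit 221)) (XT.nd (nat_lit 78) (nat_lit 0) (nat_lit 0) (XT.lf (nat_lit 0) (nat_lit 2608719409) (nat_lit 684) (nat_lit 11430537888)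 (nat_lit 760) (nat_lit 6609810454) (nat_lit 340) (nat_lit 5) (nat_lit 349) (nat_lit 5) (nat_lit 350) (nat_lit 5) (nat_lit 484) (nat_lit 436) (nat_lit 220)) (XT.lf (nat_lit 0) (nat_lit 14777162459) (nat_lit 684) (nat_lit 2703736861) (nat_lit 760) (nat_lit 3401236566) (nat_lit 340) (nat_lit 5) (nat_lit 349) (nat_lit 5) (nat_lit 350) (nat_lit 5) (nat_lit 485) (nat_lit 436) (nat_lit 219)))) (XT.nd (nat_lit 78) (nat_lit 760) (nat_lit 0) (XT.lf (nat_lit 0) (nat_lit 6102841238) (nat_lit 684) (nat_lit 14963296096) (nat_lit 760) (nat_lit 52232788) (nat_lit 331) (nat_lit 5) (nat_lit 340) (nat_lit 5) (nat_lit 341) (nat_lit 5) (nat_lit 486) (nat_lit 436) (nat_lit 218)) (XT.nd (nat_lit 78) (nat_lit 684) (nat_lit 0) (XT.lf (nat_lit 0) (nat_lit 3373707304) (nat_lit 760) (nat_lit 2767055678) (nat_lit 76) (nat_lit 15217047818) (nat_lit 330) (nat_lit 5) (nat_lit 340) (nat_lit 5) (nat_lit 331) (nat_lit 5) (nat_lit 487) (nat_lit 436) (nat_lit 217)) (XT.lf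 (nat_lit 0) (nat_lit 6945419435) (nat_lit 760) (nat_lit 11770591601) (nat_lit 76) (nat_lit 2884463297) (nat_lit 321) (nat_lit 5) (nat_lit 331) (nat_lit 5) (nat_lit 322) (nat_lit 5) (nat_lit 488) (nat_lit 436) (nat_lit 216))))))))
noncomputable def xc230 : XT := (XT.nd (nat_lit 56550) (nat_lit 0) (nat_lit 8056) (XT.nd (nat_lit 55770) (nat_lit 0) (nat_lit 16720) (XT.nd (nat_lit 55380) (nat_lit 0) (nat_lit 16568) (XT.nd (nat_lit 156) (nat_lit 684) (nat_lit 0) (XT.nd (nat_lit 78) (nat_lit 0) (nat_lit 0) (XT.lf (nat_lit 0) (nat_lit 832750786) (nat_lit 608) (nat_lit 9815660228) (nat_lit 684) (nat_lit 11198383219) (nat_lit 313) (nat_lit 5) (nat_lit 321) (nat_lit 5) (nat_lit 322) (nat_lit 5) (nat_lit 489) (nat_lit 436) (nat_lit 215)) (XT.lf (nat_lit 0) (nat_lit 13841724226) (nat_lit 608) (nat_lit 657862412) (nat_lit 684) (nat_lit 7596971408) (nat_lit 313) (nat_lit 5) (nat_lit 321) (nat_lit 5) (nat_lit 322) (nat_lit 5) (nat_lit 490) (nat_lit 436)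 (nat_lit 214))) (XT.nd (nat_lit 78) (nat_lit 76) (nat_lit 0) (XT.lf (nat_lit 0) (nat_lit 4759647238) (nat_lit 608) (nat_lit 13750643237) (nat_lit 684) (nat_lit 3839376567) (nat_lit 305) (nat_lit 5) (nat_lit 313) (nat_lit 5) (nat_lit 314) (nat_lit 5) (nat_lit 491) (nat_lit 436) (nat_lit 213)) (XT.nd (nat_lit 55068) (nat_lit 0) (nat_lit 16568) (XT.lf (nat_lit 0) (nat_lit 48824401) (nat_lit 684) (nat_lit 4471080399) (nat_lit 76) (nat_lit 18086826933) (nat_lit 304) (nat_lit 5) (nat_lit 313) (nat_lit 5) (nat_lit 305) (nat_lit 5) (nat_lit 492) (nat_lit 436) (nat_lit 212)) (XT.lf (nat_lit 0) (nat_lit 687853387) (nat_lit 0) (nat_lit 687853387) (nat_lit 1748) (nat_lit 5038874257) (nat_lit 522) (nat_lit 5) (nat_lit 522) (nat_lit 3) (nat_lit 545) (nat_lit 3) (nat_lit 437) (nat_lit 437) (nat_lit 266))))) (XT.nd (nat_lit 156) (nat_lit 0) (nat_lit 76) (XT.nd (nat_lit 78) (nat_lit 0) (nat_lit 0) (XT.lf (nat_lit 0) (nat_lit 3225792370) (nat_lit 1748)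 (nat_lit 5066749159) (nat_lit 1824) (nat_lit 4655974862) (nat_lit 522) (nat_lit 5) (nat_lit 545) (nat_lit 3) (nat_lit 546) (nat_lit 5) (nat_lit 438) (nat_lit 437) (nat_lit 265)) (XT.lf (nat_lit 76) (nat_lit 1451909733) (nat_lit 0) (nat_lit 2265403930) (nat_lit 1824) (nat_lit 9352791043) (nat_lit 523) (nat_lit 5) (nat_lit 522) (nat_lit 5) (nat_lit 546) (nat_lit 5) (nat_lit 439) (nat_lit 437) (nat_lit 264))) (XT.nd (nat_lit 78) (nat_lit 0) (nat_lit 0) (XT.lf (nat_lit 0) (nat_lit 4267424113) (nat_lit 1748) (nat_lit 5055175313) (nat_lit 1824) (nat_lit 3870550188) (nat_lit 523) (nat_lit 5) (nat_lit 546) (nat_lit 5) (nat_lit 547) (nat_lit 5) (nat_lit 440) (nat_lit 437) (nat_lit 263)) (XT.nd (nat_lit 78) (nat_lit 0) (nat_lit 76) (XT.lf (nat_lit 76) (nat_lit 1639802512) (nat_lit 0) (nat_lit 3203919593) (nat_lit 1824) (nat_lit 8474629607) (nat_lit 524) (nat_lit 5) (nat_lit 523) (nat_lit 5) (nat_lit 547) (nat_lit 5) (nat_lit 441) (nat_lit 437)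 (nat_lit 262)) (XT.lf (nat_lit 0) (nat_lit 5475145794) (nat_lit 1748) (nat_lit 4934122002) (nat_lit 1824) (nat_lit 3035918063) (nat_lit 524) (nat_lit 5) (nat_lit 547) (nat_lit 5) (nat_lit 548) (nat_lit 5) (nat_lit 442) (nat_lit 437) (nat_lit 261)))))) (XT.nd (nat_lit 390) (nat_lit 0) (nat_lit 228) (XT.nd (nat_lit 156) (nat_lit 0) (nat_lit 76) (XT.nd (nat_lit 78) (nat_lit 0) (nat_lit 76) (XT.lf (nat_lit 76) (nat_lit 1943580858) (nat_lit 0) (nat_lit 4199388542) (nat_lit 1824) (nat_lit 7431111858) (nat_lit 525) (nat_lit 5) (nat_lit 524) (nat_lit 5) (nat_lit 548) (nat_lit 5) (nat_lit 443) (nat_lit 437) (nat_lit 260)) (XT.lf (nat_lit 0) (nat_lit 6861459302) (nat_lit 1748) (nat_lit 4699321393) (nat_lit 1824) (nat_lit 2144027675) (nat_lit 525) (nat_lit 5) (nat_lit 548) (nat_lit 5) (nat_lit 549) (nat_lit 5) (nat_lit 444) (nat_lit 437) (nat_lit 259))) (XT.nd (nat_lit 78) (nat_lit 0) (nat_lit 76) (XT.lf (nat_lit 76) (nat_lit 2367772430) (nat_lit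 0) (nat_lit 5260044144) (nat_lit 1824) (nat_lit 6209663499) (nat_lit 526) (nat_lit 5) (nat_lit 525) (nat_lit 5) (nat_lit 549) (nat_lit 5) (nat_lit 445) (nat_lit 437) (nat_lit 258)) (XT.nd (nat_lit 78) (nat_lit 0) (nat_lit 0) (XT.lf (nat_lit 0) (nat_lit 8439308738) (nat_lit 1748) (nat_lit 4346176775) (nat_lit 1824) (nat_lit 1186723541) (nat_lit 526) (nat_lit 5) (nat_lit 549) (nat_lit 5) (nat_lit 550) (nat_lit 5) (nat_lit 446) (nat_lit 437) (nat_lit 257)) (XT.lf (nat_lit 76) (nat_lit 2917243233) (nat_lit 0) (nat_lit 6394238360) (nat_lit 1824) (nat_lit 4797262005) (nat_lit 527) (nat_lit 5) (nat_lit 526) (nat_lit 5) (nat_lit 550) (nat_lit 5) (nat_lit 447) (nat_lit 437) (nat_lit 256))))) (XT.nd (nat_lit 156) (nat_lit 0) (nat_lit 0) (XT.nd (nat_lit 78) (nat_lit 0) (nat_lit 0) (XT.lf (nat_lit 0) (nat_lit 10222107083) (nat_lit 1748) (nat_lit 3869755836) (nat_lit 1824) (nat_lit 155725731) (nat_lit 527) (nat_lit 5) (nat_lit 550) (nat_lit 5) (nat_lit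 551) (nat_lit 5) (nat_lit 448) (nat_lit 437) (nat_lit 255)) (XT.lf (nat_lit 76) (nat_lit 3597204771) (nat_lit 0) (nat_lit 7610461693) (nat_lit 1824) (nat_lit 3180409711) (nat_lit 528) (nat_lit 5) (nat_lit 527) (nat_lit 5) (nat_lit 551) (nat_lit 5) (nat_lit 449) (nat_lit 437) (nat_lit 254))) (XT.nd (nat_lit 78) (nat_lit 0) (nat_lit 76) (XT.lf (nat_lit 76) (nat_lit 11259949106) (nat_lit 0) (nat_lit 970113068) (nat_lit 1824) (nat_lit 2300968773) (nat_lit 528) (nat_lit 5) (nat_lit 527) (nat_lit 5) (nat_lit 551) (nat_lit 5) (nat_lit 450) (nat_lit 437) (nat_lit 253)) (XT.nd (nat_lit 78) (nat_lit 0) (nat_lit 0) (XT.lf (nat_lit 76) (nat_lit 4413221914) (nat_lit 0) (nat_lit 8917363112) (nat_lit 1824) (nat_lit 1345106205) (nat_lit 529) (nat_lit 5) (nat_lit 528) (nat_lit 5) (nat_lit 552) (nat_lit 5) (nat_lit 451) (nat_lit 437) (nat_lit 252)) (XT.lf (nat_lit 76) (nat_lit 12282997584) (nat_lit 0) (nat_lit 2189932607) (nat_lit 1824) (nat_lit 349918291)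 (nat_lit 529) (nat_lit 5) (nat_lit 528) (nat_lit 5) (nat_lit 552) (nat_lit 5) (nat_lit 452) (nat_lit 437) (nat_lit 251))))))) (XT.nd (nat_lit 780) (nat_lit 5700) (nat_lit 0) (XT.nd (nat_lit 390) (nat_lit 1520) (nat_lit 0) (XT.nd (nat_lit 156) (nat_lit 0) (nat_lit 76) (XT.nd (nat_lit 78) (nat_lit 0) (nat_lit 0) (XT.lf (nat_lit 0) (nat_lit 713695387) (nat_lit 1824) (nat_lit 9605285351) (nat_lit 1900) (nat_lit 4652736849) (nat_lit 505) (nat_lit 5) (nat_lit 529) (nat_lit 5) (nat_lit 530) (nat_lit 5) (nat_lit 453) (nat_lit 437) (nat_lit 250)) (XT.lf (nat_lit 0) (nat_lit 1817291181) (nat_lit 1824) (nat_lit 1681065481) (nat_lit 1900) (nat_lit 11624693247) (nat_lit 505) (nat_lit 5) (nat_lit 529) (nat_lit 5) (nat_lit 530) (nat_lit 5) (nat_lit 454) (nat_lit 437) (nat_lit 249))) (XT.nd (nat_lit 78) (nat_lit 0) (nat_lit 0) (XT.lf (nat_lit 0) (nat_lit 2999676607) (nat_lit 1824) (nat_lit 8818902223) (nat_lit 1900) (nat_lit 3457695693) (nat_lit 506)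 (nat_lit 5) (nat_lit 530) (nat_lit 5) (nat_lit 531) (nat_lit 5) (nat_lit 455) (nat_lit 437) (nat_lit 248)) (XT.nd (nat_lit 78) (nat_lit 0) (nat_lit 76) (XT.lf (nat_lit 0) (nat_lit 4232259397) (nat_lit 1824) (nat_lit 680404625) (nat_lit 1900) (nat_lit 10519368616) (nat_lit 506) (nat_lit 5) (nat_lit 530) (nat_lit 5) (nat_lit 531) (nat_lit 5) (nat_lit 456) (nat_lit 437) (nat_lit 247)) (XT.lf (nat_lit 0) (nat_lit 5545955097) (nat_lit 1824) (nat_lit 7888250899) (nat_lit 1900) (nat_lit 2155570692) (nat_lit 507) (nat_lit 5) (nat_lit 531) (nat_lit 5) (nat_lit 532) (nat_lit 5) (nat_lit 457) (nat_lit 437) (nat_lit 246))))) (XT.nd (nat_lit 156) (nat_lit 1672) (nat_lit 0) (XT.nd (nat_lit 78) (nat_lit 0) (nat_lit 76) (XT.lf (nat_lit 76) (nat_lit 477234413) (nat_lit 0) (nat_lit 6441226681) (nat_lit 1900) (nat_lit 8831563799) (nat_lit 508) (nat_lit 5) (nat_lit 507) (nat_lit 5) (nat_lit 532) (nat_lit 5) (nat_lit 458) (nat_lit 437) (nat_lit 245)) (XT.lf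 (nat_lit 0) (nat_lit 8368620199) (nat_lit 1824) (nat_lit 6806617490) (nat_lit 1900) (nat_lit 737236313) (nat_lit 508) (nat_lit 5) (nat_lit 532) (nat_lit 5) (nat_lit 533) (nat_lit 5) (nat_lit 459) (nat_lit 437) (nat_lit 244))) (XT.nd (nat_lit 78) (nat_lit 1748) (nat_lit 0) (XT.lf (nat_lit 76) (nat_lit 1803687419) (nat_lit 0) (nat_lit 8091039118) (nat_lit 1900) (nat_lit 6182506675) (nat_lit 509) (nat_lit 5) (nat_lit 508) (nat_lit 5) (nat_lit 533) (nat_lit 5) (nat_lit 460) (nat_lit 437) (nat_lit 243)) (XT.nd (nat_lit 78) (nat_lit 1748) (nat_lit 0) (XT.lf (nat_lit 76) (nat_lit 10672314545) (nat_lit 0) (nat_lit 817398266) (nat_lit 1900) (nat_lit 4754807638) (nat_lit 509) (nat_lit 5) (nat_lit 508) (nat_lit 5) (nat_lit 533) (nat_lit 5) (nat_lit 461) (nat_lit 437) (nat_lit 242)) (XT.lf (nat_lit 0) (nat_lit 3297363856) (nat_lit 1824) (nat_lit 9876339102) (nat_lit 1900) (nat_lit 3240308391) (nat_lit 485) (nat_lit 5) (nat_lit 509) (nat_lit 5) (nat_lit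 510) (nat_lit 5) (nat_lit 462) (nat_lit 437) (nat_lit 241)))))) (XT.nd (nat_lit 390) (nat_lit 3572) (nat_lit 0) (XT.nd (nat_lit 156) (nat_lit 912) (nat_lit 0) (XT.nd (nat_lit 78) (nat_lit 1216) (nat_lit 0) (XT.lf (nat_lit 0) (nat_lit 12408233484) (nat_lit 1824) (nat_lit 2518842911) (nat_lit 1900) (nat_lit 1659101602) (nat_lit 485) (nat_lit 5) (nat_lit 509) (nat_lit 5) (nat_lit 510) (nat_lit 5) (nat_lit 463) (nat_lit 437) (nat_lit 240)) (XT.lf (nat_lit 0) (nat_lit 12410688) (nat_lit 1216) (nat_lit 11794585871) (nat_lit 76) (nat_lit 4953635936) (nat_lit 469) (nat_lit 5) (nat_lit 485) (nat_lit 5) (nat_lit 470) (nat_lit 5) (nat_lit 464) (nat_lit 437) (nat_lit 239))) (XT.nd (nat_lit 78) (nat_lit 912) (nat_lit 0) (XT.lf (nat_lit 0) (nat_lit 1733190243) (nat_lit 1216) (nat_lit 2622532746) (nat_lit 76) (nat_lit 12581872714) (nat_lit 469) (nat_lit 5) (nat_lit 485) (nat_lit 5) (nat_lit 470) (nat_lit 5) (nat_lit 465) (nat_lit 437) (nat_lit 238))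 (XT.nd (nat_lit 78) (nat_lit 0) (nat_lit 0) (XT.lf (nat_lit 0) (nat_lit 3547267716) (nat_lit 988) (nat_lit 10322445100) (nat_lit 76) (nat_lit 3247207714) (nat_lit 457) (nat_lit 5) (nat_lit 470) (nat_lit 5) (nat_lit 458) (nat_lit 5) (nat_lit 466) (nat_lit 437) (nat_lit 237)) (XT.lf (nat_lit 0) (nat_lit 5437547745) (nat_lit 988) (nat_lit 899258113) (nat_lit 76) (nat_lit 10962227574) (nat_lit 457) (nat_lit 5) (nat_lit 470) (nat_lit 5) (nat_lit 458) (nat_lit 5) (nat_lit 467) (nat_lit 437) (nat_lit 236))))) (XT.nd (nat_lit 234) (nat_lit 1824) (nat_lit 0) (XT.nd (nat_lit 78) (nat_lit 836) (nat_lit 0) (XT.lf (nat_lit 0) (nat_lit 7425528316) (nat_lit 988) (nat_lit 8670871761) (nat_lit 76) (nat_lit 1387190615) (nat_lit 445) (nat_lit 5) (nat_lit 458) (nat_lit 5) (nat_lit 446) (nat_lit 5) (nat_lit 468) (nat_lit 437) (nat_lit 235)) (XT.nd (nat_lit 78) (nat_lit 0) (nat_lit 0) (XT.lf (nat_lit 0) (nat_lit 1024681661) (nat_lit 836) (nat_lit 8476861109)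 (nat_lit 912) (nat_lit 8169330843) (nat_lit 434) (nat_lit 5) (nat_lit 445) (nat_lit 5) (nat_lit 446) (nat_lit 5) (nat_lit 469) (nat_lit 437) (nat_lit 234)) (XT.lf (nat_lit 0) (nat_lit 11025564169) (nat_lit 836) (nat_lit 645366891) (nat_lit 912) (nat_lit 6189934062) (nat_lit 434) (nat_lit 5) (nat_lit 445) (nat_lit 5) (nat_lit 446) (nat_lit 5) (nat_lit 470) (nat_lit 437) (nat_lit 233)))) (XT.nd (nat_lit 78) (nat_lit 912) (nat_lit 0) (XT.lf (nat_lit 0) (nat_lit 3159447026) (nat_lit 912) (nat_lit 10786240332) (nat_lit 988) (nat_lit 4107729497) (nat_lit 422) (nat_lit 5) (nat_lit 434) (nat_lit 5) (nat_lit 435) (nat_lit 5) (nat_lit 471) (nat_lit 437) (nat_lit 232)) (XT.nd (nat_lit 78) (nat_lit 912) (nat_lit 0) (XT.lf (nat_lit 0) (nat_lit 13436330297) (nat_lit 912) (nat_lit 2873597964) (nat_lit 988) (nat_lit 1939011573) (nat_lit 422) (nat_lit 5) (nat_lit 434) (nat_lit 5) (nat_lit 435) (nat_lit 5) (nat_lit 472) (nat_lit 437) (nat_lit 231)) (XT.lf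 (nat_lit 0) (nat_lit 333386655) (nat_lit 912) (nat_lit 12946578762) (nat_lit 76) (nat_lit 5167094646) (nat_lit 410) (nat_lit 5) (nat_lit 422) (nat_lit 5) (nat_lit 411) (nat_lit 5) (nat_lit 473) (nat_lit 437) (nat_lit 230))))))))
noncomputable def xc231 : XT := (XT.nd (nat_lit 56706) (nat_lit 0) (nat_lit 15124) (XT.nd (nat_lit 780) (nat_lit 4028) (nat_lit 0) (XT.nd (nat_lit 390) (nat_lit 1596) (nat_lit 0) (XT.nd (nat_lit 156) (nat_lit 1520) (nat_lit 0) (XT.nd (nat_lit 78) (nat_lit 836) (nat_lit 0) (XT.lf (nat_lit 0) (nat_lit 2670868005) (nat_lit 912) (nat_lit 2601635655) (nat_lit 76) (nat_lit 13375470729) (nat_lit 410) (nat_lit 5) (nat_lit 422) (nat_lit 5) (nat_lit 411) (nat_lit 5) (nat_lit 474) (nat_lit 437) (nat_lit 229)) (XT.lf (nat_lit 0) (nat_lit 5120657294) (nat_lit 912) (nat_lit 10821343637) (nat_lit 76) (nat_lit 2909594904) (nat_lit 399) (nat_lit 5) (nat_lit 411) (nat_lit 5) (nat_lit 400) (nat_lit 5) (nat_lit 475) (nat_lit 437)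 (nat_lit 228))) (XT.nd (nat_lit 78) (nat_lit 1520) (nat_lit 0) (XT.lf (nat_lit 0) (nat_lit 7666160027) (nat_lit 912) (nat_lit 190007922) (nat_lit 76) (nat_lit 11202187408) (nat_lit 399) (nat_lit 5) (nat_lit 411) (nat_lit 5) (nat_lit 400) (nat_lit 5) (nat_lit 476) (nat_lit 437) (nat_lit 227)) (XT.nd (nat_lit 78) (nat_lit 760) (nat_lit 0) (XT.lf (nat_lit 0) (nat_lit 10329968171) (nat_lit 836) (nat_lit 8481463558) (nat_lit 76) (nat_lit 456470433) (nat_lit 389) (nat_lit 5) (nat_lit 400) (nat_lit 5) (nat_lit 390) (nat_lit 5) (nat_lit 477) (nat_lit 437) (nat_lit 226)) (XT.lf (nat_lit 0) (nat_lit 2477806702) (nat_lit 760) (nat_lit 10633054496) (nat_lit 836) (nat_lit 6369502530) (nat_lit 379) (nat_lit 5) (nat_lit 389) (nat_lit 5) (nat_lit 390) (nat_lit 5) (nat_lit 478) (nat_lit 437) (nat_lit 225))))) (XT.nd (nat_lit 156) (nat_lit 836) (nat_lit 0) (XT.nd (nat_lit 78) (nat_lit 760) (nat_lit 0) (XT.lf (nat_lit 0) (nat_lit 13765241108) (nat_lit 760)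 (nat_lit 2233526837) (nat_lit 836) (nat_lit 3697278665) (nat_lit 379) (nat_lit 5) (nat_lit 389) (nat_lit 5) (nat_lit 390) (nat_lit 5) (nat_lit 479) (nat_lit 437) (nat_lit 224)) (XT.lf (nat_lit 0) (nat_lit 5385916330) (nat_lit 760) (nat_lit 13629195910) (nat_lit 836) (nat_lit 899517321) (nat_lit 369) (nat_lit 5) (nat_lit 379) (nat_lit 5) (nat_lit 380) (nat_lit 5) (nat_lit 480) (nat_lit 437) (nat_lit 223))) (XT.nd (nat_lit 78) (nat_lit 760) (nat_lit 0) (XT.lf (nat_lit 0) (nat_lit 1978041732) (nat_lit 836) (nat_lit 3161174765) (nat_lit 76) (nat_lit 14997124469) (nat_lit 368) (nat_lit 5) (nat_lit 379) (nat_lit 5) (nat_lit 369) (nat_lit 5) (nat_lit 481) (nat_lit 437) (nat_lit 222)) (XT.nd (nat_lit 78) (nat_lit 0) (nat_lit 0) (XT.lf (nat_lit 0) (nat_lit 4974509634) (nat_lit 836) (nat_lit 11850837370) (nat_lit 76) (nat_lit 3535552638) (nat_lit 358) (nat_lit 5) (nat_lit 369) (nat_lit 5) (nat_lit 359) (nat_lit 5) (nat_lit 482) (nat_lit 437) (nat_lit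 221)) (XT.lf (nat_lit 0) (nat_lit 8081080075) (nat_lit 836) (nat_lit 172078803) (nat_lit 76) (nat_lit 12335787148) (nat_lit 358) (nat_lit 5) (nat_lit 369) (nat_lit 5) (nat_lit 359) (nat_lit 5) (nat_lit 483) (nat_lit 437) (nat_lit 220)))))) (XT.nd (nat_lit 390) (nat_lit 1900) (nat_lit 0) (XT.nd (nat_lit 156) (nat_lit 760) (nat_lit 0) (XT.nd (nat_lit 78) (nat_lit 684) (nat_lit 0) (XT.lf (nat_lit 0) (nat_lit 11325560342) (nat_lit 760) (nat_lit 8933439874) (nat_lit 76) (nat_lit 561037555) (nat_lit 349) (nat_lit 5) (nat_lit 359) (nat_lit 5) (nat_lit 350) (nat_lit 5) (nat_lit 484) (nat_lit 437) (nat_lit 219)) (XT.lf (nat_lit 0) (nat_lit 3113325776) (nat_lit 684) (nat_lit 11592582291) (nat_lit 760) (nat_lit 6348423726) (nat_lit 340) (nat_lit 5) (nat_lit 349) (nat_lit 5) (nat_lit 350) (nat_lit 5) (nat_lit 485) (nat_lit 437) (nat_lit 218))) (XT.nd (nat_lit 78) (nat_lit 760) (nat_lit 0) (XT.lf (nat_lit 0) (nat_lit 15516266471) (nat_lit 684) (nat_lit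 2692550466) (nat_lit 760) (nat_lit 3083395674) (nat_lit 340) (nat_lit 5) (nat_lit 349) (nat_lit 5) (nat_lit 350) (nat_lit 5) (nat_lit 486) (nat_lit 437) (nat_lit 217)) (XT.nd (nat_lit 78) (nat_lit 0) (nat_lit 0) (XT.lf (nat_lit 0) (nat_lit 324103886) (nat_lit 760) (nat_lit 14862749751) (nat_lit 76) (nat_lit 6346357154) (nat_lit 330) (nat_lit 5) (nat_lit 340) (nat_lit 5) (nat_lit 331) (nat_lit 5) (nat_lit 487) (nat_lit 437) (nat_lit 216)) (XT.lf (nat_lit 0) (nat_lit 3810478105) (nat_lit 760) (nat_lit 2378530322) (nat_lit 76) (nat_lit 15588572656) (nat_lit 330) (nat_lit 5) (nat_lit 340) (nat_lit 5) (nat_lit 331) (nat_lit 5) (nat_lit 488) (nat_lit 437) (nat_lit 215))))) (XT.nd (nat_lit 234) (nat_lit 608) (nat_lit 0) (XT.nd (nat_lit 78) (nat_lit 608) (nat_lit 0) (XT.lf (nat_lit 0) (nat_lit 7449739907) (nat_lit 760) (nat_lit 11558252392) (nat_lit 76) (nat_lit 3017183279) (nat_lit 321) (nat_lit 5) (nat_lit 331) (nat_lit 5) (nat_lit 322) (nat_lit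 5) (nat_lit 489) (nat_lit 437) (nat_lit 214)) (XT.nd (nat_lit 78) (nat_lit 0) (nat_lit 0) (XT.lf (nat_lit 0) (nat_lit 1294211113) (nat_lit 608) (nat_lit 9928303233) (nat_lit 684) (nat_lit 11053993070) (nat_lit 313) (nat_lit 5) (nat_lit 321) (nat_lit 5) (nat_lit 322) (nat_lit 5) (nat_lit 490) (nat_lit 437) (nat_lit 213)) (XT.lf (nat_lit 0) (nat_lit 14554642349) (nat_lit 608) (nat_lit 588990053) (nat_lit 684) (nat_lit 7387775725) (nat_lit 313) (nat_lit 5) (nat_lit 321) (nat_lit 5) (nat_lit 322) (nat_lit 5) (nat_lit 491) (nat_lit 437) (nat_lit 212)))) (XT.nd (nat_lit 55146) (nat_lit 0) (nat_lit 16492) (XT.lf (nat_lit 0) (nat_lit 5294560258) (nat_lit 608) (nat_lit 13936424924) (nat_lit 684) (nat_lit 3558665424) (nat_lit 305) (nat_lit 5) (nat_lit 313) (nat_lit 5) (nat_lit 314) (nat_lit 5) (nat_lit 492) (nat_lit 437) (nat_lit 211)) (XT.nd (nat_lit 78) (nat_lit 0) (nat_lit 0) (XT.lf (nat_lit 0) (nat_lit 908375859) (nat_lit 0) (nat_lit 908375859)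 (nat_lit 1748) (nat_lit 4717850317) (nat_lit 522) (nat_lit 5) (nat_lit 522) (nat_lit 3) (nat_lit 545) (nat_lit 3) (nat_lit 438) (nat_lit 438) (nat_lit 264)) (XT.lf (nat_lit 0) (nat_lit 4098520670) (nat_lit 1748) (nat_lit 4743812615) (nat_lit 1824) (nat_lit 4348989184) (nat_lit 522) (nat_lit 5) (nat_lit 545) (nat_lit 3) (nat_lit 546) (nat_lit 5) (nat_lit 439) (nat_lit 438) (nat_lit 263))))))) (XT.nd (nat_lit 780) (nat_lit 1368) (nat_lit 0) (XT.nd (nat_lit 390) (nat_lit 0) (nat_lit 228) (XT.nd (nat_lit 156) (nat_lit 0) (nat_lit 76) (XT.nd (nat_lit 78) (nat_lit 0) (nat_lit 76) (XT.lf (nat_lit 76) (nat_lit 1902428195) (nat_lit 0) (nat_lit 2684333421) (nat_lit 1824) (nat_lit 8728843151) (nat_lit 523) (nat_lit 5) (nat_lit 522) (nat_lit 5) (nat_lit 546) (nat_lit 5) (nat_lit 440) (nat_lit 438) (nat_lit 262)) (XT.lf (nat_lit 0) (nat_lit 5129905812) (nat_lit 1748) (nat_lit 4725094409) (nat_lit 1824) (nat_lit 3586469721) (nat_lit 523) (nat_lit 5)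 (nat_lit 546) (nat_lit 5) (nat_lit 547) (nat_lit 5) (nat_lit 441) (nat_lit 438) (nat_lit 261))) (XT.nd (nat_lit 78) (nat_lit 0) (nat_lit 76) (XT.lf (nat_lit 76) (nat_lit 2100946234) (nat_lit 0) (nat_lit 3604326742) (nat_lit 1824) (nat_lit 7864152243) (nat_lit 524) (nat_lit 5) (nat_lit 523) (nat_lit 5) (nat_lit 547) (nat_lit 5) (nat_lit 442) (nat_lit 438) (nat_lit 260)) (XT.nd (nat_lit 78) (nat_lit 0) (nat_lit 0) (XT.lf (nat_lit 0) (nat_lit 6332190630) (nat_lit 1748) (nat_lit 4595721237) (nat_lit 1824) (nat_lit 2771226870) (nat_lit 524) (nat_lit 5) (nat_lit 547) (nat_lit 5) (nat_lit 548) (nat_lit 5) (nat_lit 443) (nat_lit 438) (nat_lit 259)) (XT.lf (nat_lit 76) (nat_lit 2416660132) (nat_lit 0) (nat_lit 4584872055) (nat_lit 1824) (nat_lit 6829316628) (nat_lit 525) (nat_lit 5) (nat_lit 524) (nat_lit 5) (nat_lit 548) (nat_lit 5) (nat_lit 444) (nat_lit 438) (nat_lit 258))))) (XT.nd (nat_lit 156) (nat_lit 0) (nat_lit 76) (XT.nd (nat_lit 78)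 (nat_lit 0) (nat_lit 0) (XT.lf (nat_lit 0) (nat_lit 7718047203) (nat_lit 1748) (nat_lit 4351269354) (nat_lit 1824) (nat_lit 1895200806) (nat_lit 525) (nat_lit 5) (nat_lit 548) (nat_lit 5) (nat_lit 549) (nat_lit 5) (nat_lit 445) (nat_lit 438) (nat_lit 257)) (XT.lf (nat_lit 76) (nat_lit 2854258197) (nat_lit 0) (nat_lit 5634219475) (nat_lit 1824) (nat_lit 5611589906) (nat_lit 526) (nat_lit 5) (nat_lit 525) (nat_lit 5) (nat_lit 549) (nat_lit 5) (nat_lit 446) (nat_lit 438) (nat_lit 256))) (XT.nd (nat_lit 78) (nat_lit 0) (nat_lit 0) (XT.lf (nat_lit 0) (nat_lit 9300603154) (nat_lit 1748) (nat_lit 3986983865) (nat_lit 1824) (nat_lit 950216051) (nat_lit 526) (nat_lit 5) (nat_lit 549) (nat_lit 5) (nat_lit 550) (nat_lit 5) (nat_lit 447) (nat_lit 438) (nat_lit 255)) (XT.nd (nat_lit 78) (nat_lit 0) (nat_lit 0) (XT.lf (nat_lit 76) (nat_lit 3418769567) (nat_lit 0) (nat_lit 6760748735) (nat_lit 1824) (nat_lit 4197764027) (nat_lit 527) (nat_lit 5) (nat_lit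 526) (nat_lit 5) (nat_lit 550) (nat_lit 5) (nat_lit 448) (nat_lit 438) (nat_lit 254)) (XT.lf (nat_lit 76) (nat_lit 11020947008) (nat_lit 0) (nat_lit 72995525) (nat_lit 1824) (nat_lit 3425250023) (nat_lit 527) (nat_lit 5) (nat_lit 526) (nat_lit 5) (nat_lit 550) (nat_lit 5) (nat_lit 449) (nat_lit 438) (nat_lit 253)))))) (XT.nd (nat_lit 390) (nat_lit 0) (nat_lit 76) (XT.nd (nat_lit 156) (nat_lit 1748) (nat_lit 0) (XT.nd (nat_lit 78) (nat_lit 0) (nat_lit 0) (XT.lf (nat_lit 76) (nat_lit 4115571762) (nat_lit 0) (nat_lit 7972989027) (nat_lit 1824) (nat_lit 2574142088) (nat_lit 528) (nat_lit 5) (nat_lit 527) (nat_lit 5) (nat_lit 551) (nat_lit 5) (nat_lit 450) (nat_lit 438) (nat_lit 252)) (XT.lf (nat_lit 76) (nat_lit 11922817595) (nat_lit 0) (nat_lit 1195709545) (nat_lit 1824) (nat_lit 1690247151) (nat_lit 528) (nat_lit 5) (nat_lit 527) (nat_lit 5) (nat_lit 551) (nat_lit 5) (nat_lit 451) (nat_lit 438) (nat_lit 251))) (XT.nd (nat_lit 78) (nat_lit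 1824) (nat_lit 0) (XT.lf (nat_lit 76) (nat_lit 4950398951) (nat_lit 0) (nat_lit 9279638857) (nat_lit 1824) (nat_lit 726510425) (nat_lit 529) (nat_lit 5) (nat_lit 528) (nat_lit 5) (nat_lit 552) (nat_lit 5) (nat_lit 452) (nat_lit 438) (nat_lit 250)) (XT.nd (nat_lit 78) (nat_lit 0) (nat_lit 76) (XT.lf (nat_lit 0) (nat_lit 272305626) (nat_lit 1824) (nat_lit 2139920361) (nat_lit 1900) (nat_lit 12694634986) (nat_lit 504) (nat_lit 5) (nat_lit 528) (nat_lit 5) (nat_lit 529) (nat_lit 5) (nat_lit 453) (nat_lit 438) (nat_lit 249)) (XT.lf (nat_lit 0) (nat_lit 1342054885) (nat_lit 1824) (nat_lit 9338525175) (nat_lit 1900) (nat_lit 4578290167) (nat_lit 505) (nat_lit 5) (nat_lit 529) (nat_lit 5) (nat_lit 530) (nat_lit 5) (nat_lit 454) (nat_lit 438) (nat_lit 248))))) (XT.nd (nat_lit 234) (nat_lit 0) (nat_lit 152) (XT.nd (nat_lit 78) (nat_lit 0) (nat_lit 76) (XT.lf (nat_lit 0) (nat_lit 2455681701) (nat_lit 1824) (nat_lit 1264818277) (nat_lit 1900) (nat_lit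 11692970035) (nat_lit 505) (nat_lit 5) (nat_lit 529) (nat_lit 5) (nat_lit 530) (nat_lit 5) (nat_lit 455) (nat_lit 438) (nat_lit 247)) (XT.nd (nat_lit 78) (nat_lit 0) (nat_lit 0) (XT.lf (nat_lit 0) (nat_lit 3651862227) (nat_lit 1824) (nat_lit 8535559146) (nat_lit 1900) (nat_lit 3382534799) (nat_lit 506) (nat_lit 5) (nat_lit 530) (nat_lit 5) (nat_lit 531) (nat_lit 5) (nat_lit 456) (nat_lit 438) (nat_lit 246)) (XT.lf (nat_lit 0) (nat_lit 4897485063) (nat_lit 1824) (nat_lit 243305735) (nat_lit 1900) (nat_lit 10588270882) (nat_lit 506) (nat_lit 5) (nat_lit 530) (nat_lit 5) (nat_lit 531) (nat_lit 5) (nat_lit 457) (nat_lit 438) (nat_lit 245)))) (XT.nd (nat_lit 78) (nat_lit 0) (nat_lit 0) (XT.lf (nat_lit 0) (nat_lit 6228170344) (nat_lit 1824) (nat_lit 7586024601) (nat_lit 1900) (nat_lit 2075951354) (nat_lit 507) (nat_lit 5) (nat_lit 531) (nat_lit 5) (nat_lit 532) (nat_lit 5) (nat_lit 458) (nat_lit 438) (nat_lit 244)) (XT.nd (nat_lit 78) (nat_lit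 0) (nat_lit 76) (XT.lf (nat_lit 76) (nat_lit 943744158) (nat_lit 0) (nat_lit 6676147338) (nat_lit 1900) (nat_lit 8433872672) (nat_lit 508) (nat_lit 5) (nat_lit 507) (nat_lit 5) (nat_lit 532) (nat_lit 5) (nat_lit 459) (nat_lit 438) (nat_lit 243)) (XT.lf (nat_lit 0) (nat_lit 9087338028) (nat_lit 1824) (nat_lit 6483029127) (nat_lit 1900) (nat_lit 649329419) (nat_lit 508) (nat_lit 5) (nat_lit 532) (nat_lit 5) (nat_lit 533) (nat_lit 5) (nat_lit 460) (nat_lit 438) (nat_lit 242))))))))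
noncomputable def xc232 : XT := (XT.nd (nat_lit 1560) (nat_lit 5016) (nat_lit 0) (XT.nd (nat_lit 780) (nat_lit 4180) (nat_lit 0) (XT.nd (nat_lit 390) (nat_lit 2660) (nat_lit 0) (XT.nd (nat_lit 156) (nat_lit 2964) (nat_lit 0) (XT.nd (nat_lit 78) (nat_lit 0) (nat_lit 0) (XT.lf (nat_lit 76) (nat_lit 2296457401) (nat_lit 0) (nat_lit 8339663571) (nat_lit 1900) (nat_lit 5751786906) (nat_lit 509) (nat_lit 5) (nat_lit 508) (nat_lit 5) (nat_lit 533) (nat_lit 5) (nat_lit 461) (nat_lit 438) (nat_lit 241)) (XT.lf (nat_lit 76) (nat_lit 11333502242) (nat_lit 0) (nat_lit 918847869) (nat_lit 1900) (nat_lit 4306403886) (nat_lit 509) (nat_lit 5) (nat_lit 508) (nat_lit 5) (nat_lit 533) (nat_lit 5) (nat_lit 462) (nat_lit 438) (nat_lit 240))) (XT.nd (nat_lit 78) (nat_lit 1216) (nat_lit 0) (XT.lf (nat_lit 0) (nat_lit 3819242523) (nat_lit 1824) (nat_lit 10142748142) (nat_lit 1900) (nat_lit 2769804638) (nat_lit 485) (nat_lit 5) (nat_lit 509) (nat_lit 5) (nat_lit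 510) (nat_lit 5) (nat_lit 463) (nat_lit 438) (nat_lit 239)) (XT.nd (nat_lit 78) (nat_lit 1216) (nat_lit 0) (XT.lf (nat_lit 0) (nat_lit 13103389713) (nat_lit 1824) (nat_lit 2636751395) (nat_lit 1900) (nat_lit 1167469985) (nat_lit 485) (nat_lit 5) (nat_lit 509) (nat_lit 5) (nat_lit 510) (nat_lit 5) (nat_lit 464) (nat_lit 438) (nat_lit 238)) (XT.lf (nat_lit 0) (nat_lit 522973138) (nat_lit 1216) (nat_lit 11568986617) (nat_lit 76) (nat_lit 4993679106) (nat_lit 469) (nat_lit 5) (nat_lit 485) (nat_lit 5) (nat_lit 470) (nat_lit 5) (nat_lit 465) (nat_lit 438) (nat_lit 237))))) (XT.nd (nat_lit 156) (nat_lit 1748) (nat_lit 0) (XT.nd (nat_lit 78) (nat_lit 912) (nat_lit 0) (XT.lf (nat_lit 0) (nat_lit 2268162122) (nat_lit 1216) (nat_lit 2222541272) (nat_lit 76) (nat_lit 12775638062) (nat_lit 469) (nat_lit 5) (nat_lit 485) (nat_lit 5) (nat_lit 470) (nat_lit 5) (nat_lit 466) (nat_lit 438) (nat_lit 236)) (XT.lf (nat_lit 0) (nat_lit 4111344053) (nat_lit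 988) (nat_lit 10069274782) (nat_lit 76) (nat_lit 3268777486) (nat_lit 457) (nat_lit 5) (nat_lit 470) (nat_lit 5) (nat_lit 458) (nat_lit 5) (nat_lit 467) (nat_lit 438) (nat_lit 235))) (XT.nd (nat_lit 78) (nat_lit 1748) (nat_lit 0) (XT.lf (nat_lit 0) (nat_lit 6029760447) (nat_lit 988) (nat_lit 466636196) (nat_lit 76) (nat_lit 11138948222) (nat_lit 457) (nat_lit 5) (nat_lit 470) (nat_lit 5) (nat_lit 458) (nat_lit 5) (nat_lit 468) (nat_lit 438) (nat_lit 234)) (XT.nd (nat_lit 78) (nat_lit 836) (nat_lit 0) (XT.lf (nat_lit 0) (nat_lit 8050737497) (nat_lit 988) (nat_lit 8386918983) (nat_lit 76) (nat_lit 1386072054) (nat_lit 445) (nat_lit 5) (nat_lit 458) (nat_lit 5) (nat_lit 446) (nat_lit 5) (nat_lit 469) (nat_lit 438) (nat_lit 233)) (XT.lf (nat_lit 0) (nat_lit 1499536492) (nat_lit 836) (nat_lit 8662338730) (nat_lit 912) (nat_lit 7853009832) (nat_lit 434) (nat_lit 5) (nat_lit 445) (nat_lit 5) (nat_lit 446) (nat_lit 5) (nat_lit 470) (nat_lit 438)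 (nat_lit 232)))))) (XT.nd (nat_lit 390) (nat_lit 2356) (nat_lit 0) (XT.nd (nat_lit 156) (nat_lit 912) (nat_lit 0) (XT.nd (nat_lit 78) (nat_lit 912) (nat_lit 0) (XT.lf (nat_lit 0) (nat_lit 11691527607) (nat_lit 836) (nat_lit 673902070) (nat_lit 912) (nat_lit 5843431147) (nat_lit 434) (nat_lit 5) (nat_lit 445) (nat_lit 5) (nat_lit 446) (nat_lit 5) (nat_lit 471) (nat_lit 438) (nat_lit 231)) (XT.lf (nat_lit 0) (nat_lit 3674419245) (nat_lit 912) (nat_lit 11005054872) (nat_lit 988) (nat_lit 3725913615) (nat_lit 422) (nat_lit 5) (nat_lit 434) (nat_lit 5) (nat_lit 435) (nat_lit 5) (nat_lit 472) (nat_lit 438) (nat_lit 230))) (XT.nd (nat_lit 78) (nat_lit 912) (nat_lit 0) (XT.lf (nat_lit 0) (nat_lit 14147981686) (nat_lit 912) (nat_lit 2934099074) (nat_lit 988) (nat_lit 1522918792) (nat_lit 422) (nat_lit 5) (nat_lit 434) (nat_lit 5) (nat_lit 435) (nat_lit 5) (nat_lit 473) (nat_lit 438) (nat_lit 229)) (XT.nd (nat_lit 78) (nat_lit 0) (nat_lit 0) (XT.lf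 (nat_lit 0) (nat_lit 783073944) (nat_lit 912) (nat_lit 12750732098) (nat_lit 76) (nat_lit 5273334831) (nat_lit 410) (nat_lit 5) (nat_lit 422) (nat_lit 5) (nat_lit 411) (nat_lit 5) (nat_lit 474) (nat_lit 438) (nat_lit 228)) (XT.lf (nat_lit 0) (nat_lit 3158618263) (nat_lit 912) (nat_lit 2207807349) (nat_lit 76) (nat_lit 13645821607) (nat_lit 410) (nat_lit 5) (nat_lit 422) (nat_lit 5) (nat_lit 411) (nat_lit 5) (nat_lit 475) (nat_lit 438) (nat_lit 227))))) (XT.nd (nat_lit 156) (nat_lit 760) (nat_lit 0) (XT.nd (nat_lit 78) (nat_lit 760) (nat_lit 0) (XT.lf (nat_lit 0) (nat_lit 5651855212) (nat_lit 912) (nat_lit 10586361366) (nat_lit 76) (nat_lit 2981835478) (nat_lit 399) (nat_lit 5) (nat_lit 411) (nat_lit 5) (nat_lit 400) (nat_lit 5) (nat_lit 476) (nat_lit 438) (nat_lit 226)) (XT.lf (nat_lit 0) (nat_lit 252055659) (nat_lit 760) (nat_lit 7989441309) (nat_lit 836) (nat_lit 11189585222) (nat_lit 389) (nat_lit 5) (nat_lit 399) (nat_lit 5) (nat_lit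 400) (nat_lit 5) (nat_lit 477) (nat_lit 438) (nat_lit 225))) (XT.nd (nat_lit 78) (nat_lit 760) (nat_lit 0) (XT.lf (nat_lit 0) (nat_lit 10951716641) (nat_lit 836) (nat_lit 8203306722) (nat_lit 76) (nat_lit 489933860) (nat_lit 389) (nat_lit 5) (nat_lit 400) (nat_lit 5) (nat_lit 390) (nat_lit 5) (nat_lit 478) (nat_lit 438) (nat_lit 224)) (XT.nd (nat_lit 78) (nat_lit 0) (nat_lit 0) (XT.lf (nat_lit 0) (nat_lit 2972202982) (nat_lit 760) (nat_lit 10810772565) (nat_lit 836) (nat_lit 6078797513) (nat_lit 379) (nat_lit 5) (nat_lit 389) (nat_lit 5) (nat_lit 390) (nat_lit 5) (nat_lit 479) (nat_lit 438) (nat_lit 223)) (XT.lf (nat_lit 0) (nat_lit 14476663720) (nat_lit 760) (nat_lit 2243939510) (nat_lit 836) (nat_lit 3361327113) (nat_lit 379) (nat_lit 5) (nat_lit 389) (nat_lit 5) (nat_lit 390) (nat_lit 5) (nat_lit 480) (nat_lit 438) (nat_lit 222))))))) (XT.nd (nat_lit 780) (nat_lit 608) (nat_lit 0) (XT.nd (nat_lit 390) (nat_lit 2128) (nat_lit 0) (XT.nd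 (nat_lit 156) (nat_lit 1444) (nat_lit 0) (XT.nd (nat_lit 78) (nat_lit 76) (nat_lit 0) (XT.lf (nat_lit 0) (nat_lit 5934646611) (nat_lit 760) (nat_lit 13857829598) (nat_lit 836) (nat_lit 512504707) (nat_lit 369) (nat_lit 5) (nat_lit 379) (nat_lit 5) (nat_lit 380) (nat_lit 5) (nat_lit 481) (nat_lit 438) (nat_lit 221)) (XT.lf (nat_lit 0) (nat_lit 2409456757) (nat_lit 836) (nat_lit 2786826063) (nat_lit 76) (nat_lit 15334947883) (nat_lit 368) (nat_lit 5) (nat_lit 379) (nat_lit 5) (nat_lit 369) (nat_lit 5) (nat_lit 482) (nat_lit 438) (nat_lit 220))) (XT.nd (nat_lit 78) (nat_lit 684) (nat_lit 0) (XT.lf (nat_lit 0) (nat_lit 5461302621) (nat_lit 836) (nat_lit 11645730524) (nat_lit 76) (nat_lit 3653338433) (nat_lit 358) (nat_lit 5) (nat_lit 369) (nat_lit 5) (nat_lit 359) (nat_lit 5) (nat_lit 483) (nat_lit 438) (nat_lit 219)) (XT.nd (nat_lit 78) (nat_lit 0) (nat_lit 0) (XT.lf (nat_lit 0) (nat_lit 261361931) (nat_lit 684) (nat_lit 8362745302) (nat_lit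 760) (nat_lit 12368989603) (nat_lit 349) (nat_lit 5) (nat_lit 358) (nat_lit 5) (nat_lit 359) (nat_lit 5) (nat_lit 484) (nat_lit 438) (nat_lit 218)) (XT.lf (nat_lit 0) (nat_lit 11927491290) (nat_lit 760) (nat_lit 8674365287) (nat_lit 76) (nat_lit 627073554) (nat_lit 349) (nat_lit 5) (nat_lit 359) (nat_lit 5) (nat_lit 350) (nat_lit 5) (nat_lit 485) (nat_lit 438) (nat_lit 217))))) (XT.nd (nat_lit 156) (nat_lit 1444) (nat_lit 0) (XT.nd (nat_lit 78) (nat_lit 0) (nat_lit 0) (XT.lf (nat_lit 0) (nat_lit 3610455785) (nat_lit 684) (nat_lit 11760452435) (nat_lit 760) (nat_lit 6097092570) (nat_lit 340) (nat_lit 5) (nat_lit 349) (nat_lit 5) (nat_lit 350) (nat_lit 5) (nat_lit 486) (nat_lit 438) (nat_lit 216)) (XT.lf (nat_lit 0) (nat_lit 16252928559) (nat_lit 684) (nat_lit 2683674513) (nat_lit 760) (nat_lit 2774181596) (nat_lit 340) (nat_lit 5) (nat_lit 349) (nat_lit 5) (nat_lit 350) (nat_lit 5) (nat_lit 487) (nat_lit 438) (nat_lit 215))) (XT.nd (nat_lit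 78) (nat_lit 684) (nat_lit 0) (XT.lf (nat_lit 0) (nat_lit 692641508) (nat_lit 760) (nat_lit 14724841540) (nat_lit 76) (nat_lit 6539150848) (nat_lit 330) (nat_lit 5) (nat_lit 340) (nat_lit 5) (nat_lit 331) (nat_lit 5) (nat_lit 488) (nat_lit 438) (nat_lit 214)) (XT.nd (nat_lit 78) (nat_lit 684) (nat_lit 0) (XT.lf (nat_lit 0) (nat_lit 4241644083) (nat_lit 760) (nat_lit 1999470335) (nat_lit 76) (nat_lit 15964919158) (nat_lit 330) (nat_lit 5) (nat_lit 340) (nat_lit 5) (nat_lit 331) (nat_lit 5) (nat_lit 489) (nat_lit 438) (nat_lit 213)) (XT.lf (nat_lit 0) (nat_lit 7949957392) (nat_lit 760) (nat_lit 11359053117) (nat_lit 76) (nat_lit 3149644128) (nat_lit 321) (nat_lit 5) (nat_lit 331) (nat_lit 5) (nat_lit 322) (nat_lit 5) (nat_lit 490) (nat_lit 438) (nat_lit 212)))))) (XT.nd (nat_lit 55536) (nat_lit 0) (nat_lit 15960) (XT.nd (nat_lit 55302) (nat_lit 0) (nat_lit 15884) (XT.nd (nat_lit 78) (nat_lit 0) (nat_lit 0) (XT.lf (nat_lit 0) (nat_lit 1747628313)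 (nat_lit 608) (nat_lit 10046448114) (nat_lit 684) (nat_lit 10921018901) (nat_lit 313) (nat_lit 5) (nat_lit 321) (nat_lit 5) (nat_lit 322) (nat_lit 5) (nat_lit 491) (nat_lit 438) (nat_lit 211)) (XT.lf (nat_lit 0) (nat_lit 15264885175) (nat_lit 608) (nat_lit 521925556) (nat_lit 684) (nat_lit 7188419445) (nat_lit 313) (nat_lit 5) (nat_lit 321) (nat_lit 5) (nat_lit 322) (nat_lit 5) (nat_lit 492) (nat_lit 438) (nat_lit 210))) (XT.nd (nat_lit 78) (nat_lit 0) (nat_lit 0) (XT.lf (nat_lit 0) (nat_lit 1125279828) (nat_lit 0) (nat_lit 1125279828) (nat_lit 1748) (nat_lit 4406784962) (nat_lit 522) (nat_lit 5) (nat_lit 522) (nat_lit 3) (nat_lit 545) (nat_lit 3) (nat_lit 439) (nat_lit 439) (nat_lit 262)) (XT.nd (nat_lit 78) (nat_lit 0) (nat_lit 0) (XT.lf (nat_lit 0) (nat_lit 4957319661) (nat_lit 1748) (nat_lit 4430892321) (nat_lit 1824) (nat_lit 4051400365) (nat_lit 522) (nat_lit 5) (nat_lit 545) (nat_lit 3) (nat_lit 546) (nat_lit 5) (nat_lit 440) (nat_lit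 439) (nat_lit 261)) (XT.lf (nat_lit 76) (nat_lit 2345590434) (nat_lit 0) (nat_lit 3097133326) (nat_lit 1824) (nat_lit 8123908564) (nat_lit 523) (nat_lit 5) (nat_lit 522) (nat_lit 5) (nat_lit 546) (nat_lit 5) (nat_lit 441) (nat_lit 439) (nat_lit 260))))) (XT.nd (nat_lit 234) (nat_lit 0) (nat_lit 76) (XT.nd (nat_lit 78) (nat_lit 0) (nat_lit 0) (XT.lf (nat_lit 0) (nat_lit 5979460115) (nat_lit 1748) (nat_lit 4405155302) (nat_lit 1824) (nat_lit 3310744799) (nat_lit 523) (nat_lit 5) (nat_lit 546) (nat_lit 5) (nat_lit 547) (nat_lit 5) (nat_lit 442) (nat_lit 439) (nat_lit 259)) (XT.nd (nat_lit 78) (nat_lit 0) (nat_lit 76) (XT.lf (nat_lit 76) (nat_lit 2554679567) (nat_lit 0) (nat_lit 3999681978) (nat_lit 1824) (nat_lit 7271752515) (nat_lit 524) (nat_lit 5) (nat_lit 523) (nat_lit 5) (nat_lit 547) (nat_lit 5) (nat_lit 443) (nat_lit 439) (nat_lit 258)) (XT.lf (nat_lit 0) (nat_lit 7177348399) (nat_lit 1748) (nat_lit 4267524930) (nat_lit 1824) (nat_lit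 2513877904) (nat_lit 524) (nat_lit 5) (nat_lit 547) (nat_lit 5) (nat_lit 548) (nat_lit 5) (nat_lit 444) (nat_lit 439) (nat_lit 257)))) (XT.nd (nat_lit 78) (nat_lit 0) (nat_lit 76) (XT.lf (nat_lit 76) (nat_lit 2882340180) (nat_lit 0) (nat_lit 4966357791) (nat_lit 1824) (nat_lit 6244625118) (nat_lit 525) (nat_lit 5) (nat_lit 524) (nat_lit 5) (nat_lit 548) (nat_lit 5) (nat_lit 445) (nat_lit 439) (nat_lit 256)) (XT.nd (nat_lit 78) (nat_lit 0) (nat_lit 0) (XT.lf (nat_lit 0) (nat_lit 8563833287) (nat_lit 1748) (nat_lit 4013421167) (nat_lit 1824) (nat_lit 1652724754) (nat_lit 525) (nat_lit 5) (nat_lit 548) (nat_lit 5) (nat_lit 549) (nat_lit 5) (nat_lit 446) (nat_lit 439) (nat_lit 255)) (XT.lf (nat_lit 76) (nat_lit 3333421714) (nat_lit 0) (nat_lit 6005433708) (nat_lit 1824) (nat_lit 5029601344) (nat_lit 526) (nat_lit 5) (nat_lit 525) (nat_lit 5) (nat_lit 549) (nat_lit 5) (nat_lit 447) (nat_lit 439) (nat_lit 254))))))))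
noncomputable def xc233 : XT := (XT.nd (nat_lit 1560) (nat_lit 9804) (nat_lit 0) (XT.nd (nat_lit 780) (nat_lit 2660) (nat_lit 0) (XT.nd (nat_lit 390) (nat_lit 1672) (nat_lit 0) (XT.nd (nat_lit 156) (nat_lit 0) (nat_lit 0) (XT.nd (nat_lit 78) (nat_lit 0) (nat_lit 0) (XT.lf (nat_lit 0) (nat_lit 10152232520) (nat_lit 1748) (nat_lit 3637930342) (nat_lit 1824) (nat_lit 719083923) (nat_lit 526) (nat_lit 5) (nat_lit 549) (nat_lit 5) (nat_lit 550) (nat_lit 5) (nat_lit 448) (nat_lit 439) (nat_lit 253)) (XT.lf (nat_lit 76) (nat_lit 3913117151) (nat_lit 0) (nat_lit 7125323194) (nat_lit 1824) (nat_lit 3613280996) (nat_lit 527) (nat_lit 5) (nat_lit 526) (nat_lit 5) (nat_lit 550) (nat_lit 5) (nat_lit 449) (nat_lit 439) (nat_lit 252))) (XT.nd (nat_lit 78) (nat_lit 0) (nat_lit 76) (XT.lf (nat_lit 76) (nat_lit 11658985745) (nat_lit 0) (nat_lit 299317675) (nat_lit 1824) (nat_lit 2838423346) (nat_lit 527) (nat_lit 5) (nat_lit 526) (nat_lit 5) (nat_lit 550)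 (nat_lit 5) (nat_lit 450) (nat_lit 439) (nat_lit 251)) (XT.nd (nat_lit 78) (nat_lit 0) (nat_lit 0) (XT.lf (nat_lit 76) (nat_lit 4626970949) (nat_lit 0) (nat_lit 8334600000) (nat_lit 1824) (nat_lit 1981761208) (nat_lit 528) (nat_lit 5) (nat_lit 527) (nat_lit 5) (nat_lit 551) (nat_lit 5) (nat_lit 451) (nat_lit 439) (nat_lit 250)) (XT.lf (nat_lit 76) (nat_lit 12581948212) (nat_lit 0) (nat_lit 1417811180) (nat_lit 1824) (nat_lit 1092813151) (nat_lit 528) (nat_lit 5) (nat_lit 527) (nat_lit 5) (nat_lit 551) (nat_lit 5) (nat_lit 452) (nat_lit 439) (nat_lit 249))))) (XT.nd (nat_lit 156) (nat_lit 0) (nat_lit 76) (XT.nd (nat_lit 78) (nat_lit 1824) (nat_lit 0) (XT.lf (nat_lit 76) (nat_lit 5480887706) (nat_lit 0) (nat_lit 9642017950) (nat_lit 1824) (nat_lit 120608200) (nat_lit 529) (nat_lit 5) (nat_lit 528) (nat_lit 5) (nat_lit 552) (nat_lit 5) (nat_lit 453) (nat_lit 439) (nat_lit 248)) (XT.lf (nat_lit 0) (nat_lit 878041298) (nat_lit 1824) (nat_lit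 1751720867) (nat_lit 1900) (nat_lit 12767230236) (nat_lit 504) (nat_lit 5) (nat_lit 528) (nat_lit 5) (nat_lit 529) (nat_lit 5) (nat_lit 454) (nat_lit 439) (nat_lit 247))) (XT.nd (nat_lit 78) (nat_lit 0) (nat_lit 0) (XT.lf (nat_lit 0) (nat_lit 1959135881) (nat_lit 1824) (nat_lit 9084248116) (nat_lit 1900) (nat_lit 4508858836) (nat_lit 505) (nat_lit 5) (nat_lit 529) (nat_lit 5) (nat_lit 530) (nat_lit 5) (nat_lit 455) (nat_lit 439) (nat_lit 246)) (XT.nd (nat_lit 78) (nat_lit 0) (nat_lit 76) (XT.lf (nat_lit 0) (nat_lit 3083461903) (nat_lit 1824) (nat_lit 857715072) (nat_lit 1900) (nat_lit 11768989107) (nat_lit 505) (nat_lit 5) (nat_lit 529) (nat_lit 5) (nat_lit 530) (nat_lit 5) (nat_lit 456) (nat_lit 439) (nat_lit 245)) (XT.lf (nat_lit 0) (nat_lit 4294096019) (nat_lit 1824) (nat_lit 8264400739) (nat_lit 1900) (nat_lit 3311474608) (nat_lit 506) (nat_lit 5) (nat_lit 530) (nat_lit 5) (nat_lit 531) (nat_lit 5) (nat_lit 457) (nat_lit 439) (nat_lit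 244)))))) (XT.nd (nat_lit 390) (nat_lit 2812) (nat_lit 0) (XT.nd (nat_lit 156) (nat_lit 0) (nat_lit 76) (XT.nd (nat_lit 78) (nat_lit 0) (nat_lit 76) (XT.lf (nat_lit 76) (nat_lit 187492629) (nat_lit 0) (nat_lit 5367195292) (nat_lit 1900) (nat_lit 10477769930) (nat_lit 507) (nat_lit 5) (nat_lit 506) (nat_lit 5) (nat_lit 531) (nat_lit 5) (nat_lit 458) (nat_lit 439) (nat_lit 243)) (XT.lf (nat_lit 0) (nat_lit 6901845770) (nat_lit 1824) (nat_lit 7295615801) (nat_lit 1900) (nat_lit 1999505414) (nat_lit 507) (nat_lit 5) (nat_lit 531) (nat_lit 5) (nat_lit 532) (nat_lit 5) (nat_lit 459) (nat_lit 439) (nat_lit 242))) (XT.nd (nat_lit 78) (nat_lit 0) (nat_lit 76) (XT.lf (nat_lit 76) (nat_lit 1401839588) (nat_lit 0) (nat_lit 6911646566) (nat_lit 1900) (nat_lit 8050529361) (nat_lit 508) (nat_lit 5) (nat_lit 507) (nat_lit 5) (nat_lit 532) (nat_lit 5) (nat_lit 460) (nat_lit 439) (nat_lit 241)) (XT.nd (nat_lit 78) (nat_lit 0) (nat_lit 0) (XT.lf (nat_lit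 0) (nat_lit 9799020799) (nat_lit 1824) (nat_lit 6170820512) (nat_lit 1900) (nat_lit 563650474) (nat_lit 508) (nat_lit 5) (nat_lit 532) (nat_lit 5) (nat_lit 533) (nat_lit 5) (nat_lit 461) (nat_lit 439) (nat_lit 240)) (XT.lf (nat_lit 76) (nat_lit 2781348712) (nat_lit 0) (nat_lit 8589889821) (nat_lit 1900) (nat_lit 5333979599) (nat_lit 509) (nat_lit 5) (nat_lit 508) (nat_lit 5) (nat_lit 533) (nat_lit 5) (nat_lit 462) (nat_lit 439) (nat_lit 239))))) (XT.nd (nat_lit 156) (nat_lit 1216) (nat_lit 0) (XT.nd (nat_lit 78) (nat_lit 1748) (nat_lit 0) (XT.lf (nat_lit 76) (nat_lit 11990527349) (nat_lit 0) (nat_lit 1019021865) (nat_lit 1900) (nat_lit 3870136822) (nat_lit 509) (nat_lit 5) (nat_lit 508) (nat_lit 5) (nat_lit 533) (nat_lit 5) (nat_lit 463) (nat_lit 439) (nat_lit 238)) (XT.lf (nat_lit 0) (nat_lit 4333854392) (nat_lit 1824) (nat_lit 10411810581) (nat_lit 1900) (nat_lit 2310677546) (nat_lit 485) (nat_lit 5) (nat_lit 509) (nat_lit 5) (nat_lit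 510) (nat_lit 5) (nat_lit 464) (nat_lit 439) (nat_lit 237))) (XT.nd (nat_lit 78) (nat_lit 1216) (nat_lit 0) (XT.lf (nat_lit 0) (nat_lit 13795091839) (nat_lit 1824) (nat_lit 2754395713) (nat_lit 1900) (nat_lit 686384890) (nat_lit 485) (nat_lit 5) (nat_lit 509) (nat_lit 5) (nat_lit 510) (nat_lit 5) (nat_lit 465) (nat_lit 439) (nat_lit 236)) (XT.nd (nat_lit 78) (nat_lit 0) (nat_lit 0) (XT.lf (nat_lit 0) (nat_lit 1023930713) (nat_lit 1216) (nat_lit 11356795635) (nat_lit 76) (nat_lit 5036815328) (nat_lit 469) (nat_lit 5) (nat_lit 485) (nat_lit 5) (nat_lit 470) (nat_lit 5) (nat_lit 466) (nat_lit 439) (nat_lit 235)) (XT.lf (nat_lit 0) (nat_lit 2794405867) (nat_lit 1216) (nat_lit 1832118848) (nat_lit 76) (nat_lit 12975525960) (nat_lit 469) (nat_lit 5) (nat_lit 485) (nat_lit 5) (nat_lit 470) (nat_lit 5) (nat_lit 467) (nat_lit 439) (nat_lit 234))))))) (XT.nd (nat_lit 780) (nat_lit 4484) (nat_lit 0) (XT.nd (nat_lit 390) (nat_lit 2660) (nat_lit 0)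 (XT.nd (nat_lit 156) (nat_lit 1748) (nat_lit 0) (XT.nd (nat_lit 78) (nat_lit 0) (nat_lit 0) (XT.lf (nat_lit 0) (nat_lit 4667553039) (nat_lit 988) (nat_lit 9828888631) (nat_lit 76) (nat_lit 3292462934) (nat_lit 457) (nat_lit 5) (nat_lit 470) (nat_lit 5) (nat_lit 458) (nat_lit 5) (nat_lit 468) (nat_lit 439) (nat_lit 233)) (XT.lf (nat_lit 0) (nat_lit 6615043995) (nat_lit 988) (nat_lit 42859463) (nat_lit 76) (nat_lit 11320854537) (nat_lit 457) (nat_lit 5) (nat_lit 470) (nat_lit 5) (nat_lit 458) (nat_lit 5) (nat_lit 469) (nat_lit 439) (nat_lit 232))) (XT.nd (nat_lit 78) (nat_lit 836) (nat_lit 0) (XT.lf (nat_lit 0) (nat_lit 8669940072) (nat_lit 988) (nat_lit 8115047393) (nat_lit 76) (nat_lit 1386051882) (nat_lit 445) (nat_lit 5) (nat_lit 458) (nat_lit 5) (nat_lit 446) (nat_lit 5) (nat_lit 470) (nat_lit 439) (nat_lit 231)) (XT.nd (nat_lit 78) (nat_lit 0) (nat_lit 0) (XT.lf (nat_lit 0) (nat_lit 1966245021) (nat_lit 836) (nat_lit 8850906918) (nat_lit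 912) (nat_lit 7548990031) (nat_lit 434) (nat_lit 5) (nat_lit 445) (nat_lit 5) (nat_lit 446) (nat_lit 5) (nat_lit 471) (nat_lit 439) (nat_lit 230)) (XT.lf (nat_lit 0) (nat_lit 12353512864) (nat_lit 836) (nat_lit 702401105) (nat_lit 912) (nat_lit 5508260557) (nat_lit 434) (nat_lit 5) (nat_lit 445) (nat_lit 5) (nat_lit 446) (nat_lit 5) (nat_lit 472) (nat_lit 439) (nat_lit 229))))) (XT.nd (nat_lit 156) (nat_lit 1748) (nat_lit 0) (XT.nd (nat_lit 78) (nat_lit 0) (nat_lit 0) (XT.lf (nat_lit 0) (nat_lit 4182147614) (nat_lit 912) (nat_lit 11228125725) (nat_lit 988) (nat_lit 3354477953) (nat_lit 422) (nat_lit 5) (nat_lit 434) (nat_lit 5) (nat_lit 435) (nat_lit 5) (nat_lit 473) (nat_lit 439) (nat_lit 228)) (XT.lf (nat_lit 0) (nat_lit 14856666794) (nat_lit 912) (nat_lit 2995692580) (nat_lit 988) (nat_lit 1116167429) (nat_lit 422) (nat_lit 5) (nat_lit 434) (nat_lit 5) (nat_lit 435) (nat_lit 5) (nat_lit 474) (nat_lit 439) (nat_lit 227))) (XT.nd (nat_lit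 78) (nat_lit 836) (nat_lit 0) (XT.lf (nat_lit 0) (nat_lit 1224551990) (nat_lit 912) (nat_lit 12568628093) (nat_lit 76) (nat_lit 5381587276) (nat_lit 410) (nat_lit 5) (nat_lit 422) (nat_lit 5) (nat_lit 411) (nat_lit 5) (nat_lit 475) (nat_lit 439) (nat_lit 226)) (XT.nd (nat_lit 78) (nat_lit 836) (nat_lit 0) (XT.lf (nat_lit 0) (nat_lit 3639257851) (nat_lit 912) (nat_lit 1823415803) (nat_lit 76) (nat_lit 13921469165) (nat_lit 410) (nat_lit 5) (nat_lit 422) (nat_lit 5) (nat_lit 411) (nat_lit 5) (nat_lit 476) (nat_lit 439) (nat_lit 225)) (XT.lf (nat_lit 0) (nat_lit 6177026854) (nat_lit 912) (nat_lit 10364208216) (nat_lit 76) (nat_lit 3054975337) (nat_lit 399) (nat_lit 5) (nat_lit 411) (nat_lit 5) (nat_lit 400) (nat_lit 5) (nat_lit 477) (nat_lit 439) (nat_lit 224)))))) (XT.nd (nat_lit 390) (nat_lit 2204) (nat_lit 0) (XT.nd (nat_lit 156) (nat_lit 1520) (nat_lit 0) (XT.nd (nat_lit 78) (nat_lit 0) (nat_lit 0) (XT.lf (nat_lit 0) (nat_lit 688122673)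 (nat_lit 760) (nat_lit 8125056208) (nat_lit 836) (nat_lit 10998387912) (nat_lit 389) (nat_lit 5) (nat_lit 399) (nat_lit 5) (nat_lit 400) (nat_lit 5) (nat_lit 478) (nat_lit 439) (nat_lit 223)) (XT.lf (nat_lit 0) (nat_lit 11569779334) (nat_lit 836) (nat_lit 7936974830) (nat_lit 76) (nat_lit 523121637) (nat_lit 389) (nat_lit 5) (nat_lit 400) (nat_lit 5) (nat_lit 390) (nat_lit 5) (nat_lit 479) (nat_lit 439) (nat_lit 222))) (XT.nd (nat_lit 78) (nat_lit 760) (nat_lit 0) (XT.lf (nat_lit 0) (nat_lit 3459213503) (nat_lit 760) (nat_lit 10993401875) (nat_lit 836) (nat_lit 5798513538) (nat_lit 379) (nat_lit 5) (nat_lit 389) (nat_lit 5) (nat_lit 390) (nat_lit 5) (nat_lit 480) (nat_lit 439) (nat_lit 221)) (XT.nd (nat_lit 78) (nat_lit 760) (nat_lit 0) (XT.lf (nat_lit 0) (nat_lit 15185379800) (nat_lit 760) (nat_lit 2255890711) (nat_lit 836) (nat_lit 3034573336) (nat_lit 379) (nat_lit 5) (nat_lit 389) (nat_lit 5) (nat_lit 390) (nat_lit 5) (nat_lit 481)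 (nat_lit 439) (nat_lit 220)) (XT.lf (nat_lit 0) (nat_lit 6477226467) (nat_lit 760) (nat_lit 14092742602) (nat_lit 836) (nat_lit 133478600) (nat_lit 369) (nat_lit 5) (nat_lit 379) (nat_lit 5) (nat_lit 380) (nat_lit 5) (nat_lit 482) (nat_lit 439) (nat_lit 219))))) (XT.nd (nat_lit 234) (nat_lit 684) (nat_lit 0) (XT.nd (nat_lit 78) (nat_lit 1444) (nat_lit 0) (XT.lf (nat_lit 0) (nat_lit 2834283905) (nat_lit 836) (nat_lit 2421981848) (nat_lit 76) (nat_lit 15678056803) (nat_lit 368) (nat_lit 5) (nat_lit 379) (nat_lit 5) (nat_lit 369) (nat_lit 5) (nat_lit 483) (nat_lit 439) (nat_lit 218)) (XT.nd (nat_lit 78) (nat_lit 684) (nat_lit 0) (XT.lf (nat_lit 0) (nat_lit 5942792028) (nat_lit 836) (nat_lit 11453689740) (nat_lit 76) (nat_lit 3771651975) (nat_lit 358) (nat_lit 5) (nat_lit 369) (nat_lit 5) (nat_lit 359) (nat_lit 5) (nat_lit 484) (nat_lit 439) (nat_lit 217)) (XT.lf (nat_lit 0) (nat_lit 688748805) (nat_lit 684) (nat_lit 8475545587) (nat_lit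 760) (nat_lit 12241310281) (nat_lit 349) (nat_lit 5) (nat_lit 358) (nat_lit 5) (nat_lit 359) (nat_lit 5) (nat_lit 485) (nat_lit 439) (nat_lit 216)))) (XT.nd (nat_lit 78) (nat_lit 684) (nat_lit 0) (XT.lf (nat_lit 0) (nat_lit 12526882850) (nat_lit 760) (nat_lit 8427107318) (nat_lit 76) (nat_lit 692301731) (nat_lit 349) (nat_lit 5) (nat_lit 359) (nat_lit 5) (nat_lit 350) (nat_lit 5) (nat_lit 486) (nat_lit 439) (nat_lit 215)) (XT.nd (nat_lit 78) (nat_lit 0) (nat_lit 0) (XT.lf (nat_lit 0) (nat_lit 4100642114) (nat_lit 684) (nat_lit 11934164462) (nat_lit 760) (nat_lit 5855424625) (nat_lit 340) (nat_lit 5) (nat_lit 349) (nat_lit 5) (nat_lit 350) (nat_lit 5) (nat_lit 487) (nat_lit 439) (nat_lit 214)) (XT.lf (nat_lit 0) (nat_lit 16987768712) (nat_lit 684) (nat_lit 2677056805) (nat_lit 760) (nat_lit 2473185036) (nat_lit 340) (nat_lit 5) (nat_lit 349) (nat_lit 5) (nat_lit 350) (nat_lit 5) (nat_lit 488) (nat_lit 439) (nat_lit 213))))))))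
noncomputable def xc234 : XT := (XT.nd (nat_lit 56862) (nat_lit 0) (nat_lit 6764) (XT.nd (nat_lit 56082) (nat_lit 0) (nat_lit 13908) (XT.nd (nat_lit 55692) (nat_lit 0) (nat_lit 15276) (XT.nd (nat_lit 156) (nat_lit 684) (nat_lit 0) (XT.nd (nat_lit 78) (nat_lit 0) (nat_lit 0) (XT.lf (nat_lit 0) (nat_lit 1054490824) (nat_lit 760) (nat_lit 14601073083) (nat_lit 76) (nat_lit 6733242737) (nat_lit 330) (nat_lit 5) (nat_lit 340) (nat_lit 5) (nat_lit 331) (nat_lit 5) (nat_lit 489) (nat_lit 439) (nat_lit 212)) (XT.lf (nat_lit 0) (nat_lit 4667649990) (nat_lit 760) (nat_lit 1629395734) (nat_lit 76) (nat_lit 16346285063) (nat_lit 330) (nat_lit 5) (nat_lit 340) (nat_lit 5) (nat_lit 331) (nat_lit 5) (nat_lit 490) (nat_lit 439) (nat_lit 211))) (XT.nd (nat_lit 55380) (nat_lit 0) (nat_lit 15276) (XT.lf (nat_lit 0) (nat_lit 8446540821) (nat_lit 760) (nat_lit 11172581427) (nat_lit 76) (nat_lit 3281953795) (nat_lit 321) (nat_lit 5) (nat_lit 331) (nat_lit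 5) (nat_lit 322) (nat_lit 5) (nat_lit 491) (nat_lit 439) (nat_lit 210)) (XT.nd (nat_lit 78) (nat_lit 0) (nat_lit 0) (XT.lf (nat_lit 0) (nat_lit 1338804698) (nat_lit 0) (nat_lit 1338804698) (nat_lit 1748) (nat_lit 4105241344) (nat_lit 522) (nat_lit 5) (nat_lit 522) (nat_lit 3) (nat_lit 545) (nat_lit 3) (nat_lit 440) (nat_lit 440) (nat_lit 260)) (XT.lf (nat_lit 0) (nat_lit 5803129432) (nat_lit 1748) (nat_lit 4127548857) (nat_lit 1824) (nat_lit 3762793037) (nat_lit 522) (nat_lit 5) (nat_lit 545) (nat_lit 3) (nat_lit 546) (nat_lit 5) (nat_lit 441) (nat_lit 440) (nat_lit 259))))) (XT.nd (nat_lit 156) (nat_lit 0) (nat_lit 76) (XT.nd (nat_lit 78) (nat_lit 0) (nat_lit 76) (XT.lf (nat_lit 76) (nat_lit 2781884859) (nat_lit 0) (nat_lit 3504244425) (nat_lit 1824) (nat_lit 7537144665) (nat_lit 523) (nat_lit 5) (nat_lit 522) (nat_lit 5) (nat_lit 546) (nat_lit 5) (nat_lit 442) (nat_lit 440) (nat_lit 258)) (XT.lf (nat_lit 0) (nat_lit 6817000285) (nat_lit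 1748) (nat_lit 4094910663) (nat_lit 1824) (nat_lit 3042997453) (nat_lit 523) (nat_lit 5) (nat_lit 546) (nat_lit 5) (nat_lit 547) (nat_lit 5) (nat_lit 443) (nat_lit 440) (nat_lit 257))) (XT.nd (nat_lit 78) (nat_lit 0) (nat_lit 76) (XT.lf (nat_lit 76) (nat_lit 3001500195) (nat_lit 0) (nat_lit 4390391401) (nat_lit 1824) (nat_lit 6696615889) (nat_lit 524) (nat_lit 5) (nat_lit 523) (nat_lit 5) (nat_lit 547) (nat_lit 5) (nat_lit 444) (nat_lit 440) (nat_lit 256)) (XT.nd (nat_lit 78) (nat_lit 0) (nat_lit 0) (XT.lf (nat_lit 0) (nat_lit 8011508550) (nat_lit 1748) (nat_lit 3949078109) (nat_lit 1824) (nat_lit 2263527334) (nat_lit 524) (nat_lit 5) (nat_lit 547) (nat_lit 5) (nat_lit 548) (nat_lit 5) (nat_lit 445) (nat_lit 440) (nat_lit 255)) (XT.lf (nat_lit 76) (nat_lit 3341127742) (nat_lit 0) (nat_lit 5344220409) (nat_lit 1824) (nat_lit 5676247876) (nat_lit 525) (nat_lit 5) (nat_lit 524) (nat_lit 5) (nat_lit 548) (nat_lit 5) (nat_lit 446) (nat_lit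 440) (nat_lit 254)))))) (XT.nd (nat_lit 390) (nat_lit 1596) (nat_lit 0) (XT.nd (nat_lit 156) (nat_lit 0) (nat_lit 76) (XT.nd (nat_lit 78) (nat_lit 0) (nat_lit 0) (XT.lf (nat_lit 0) (nat_lit 9399686211) (nat_lit 1748) (nat_lit 3685314375) (nat_lit 1824) (nat_lit 1416286681) (nat_lit 525) (nat_lit 5) (nat_lit 548) (nat_lit 5) (nat_lit 549) (nat_lit 5) (nat_lit 447) (nat_lit 440) (nat_lit 253)) (XT.lf (nat_lit 76) (nat_lit 3805778684) (nat_lit 0) (nat_lit 6374033196) (nat_lit 1824) (nat_lit 4462930434) (nat_lit 526) (nat_lit 5) (nat_lit 525) (nat_lit 5) (nat_lit 549) (nat_lit 5) (nat_lit 448) (nat_lit 440) (nat_lit 252))) (XT.nd (nat_lit 78) (nat_lit 0) (nat_lit 0) (XT.lf (nat_lit 0) (nat_lit 10995047742) (nat_lit 1748) (nat_lit 3298546311) (nat_lit 1824) (nat_lit 493042256) (nat_lit 526) (nat_lit 5) (nat_lit 549) (nat_lit 5) (nat_lit 550) (nat_lit 5) (nat_lit 449) (nat_lit 440) (nat_lit 251)) (XT.nd (nat_lit 78) (nat_lit 0) (nat_lit 0)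 (XT.lf (nat_lit 76) (nat_lit 4400810667) (nat_lit 0) (nat_lit 7488282835) (nat_lit 1824) (nat_lit 3043064580) (nat_lit 527) (nat_lit 5) (nat_lit 526) (nat_lit 5) (nat_lit 550) (nat_lit 5) (nat_lit 450) (nat_lit 440) (nat_lit 250)) (XT.lf (nat_lit 76) (nat_lit 12293568571) (nat_lit 0) (nat_lit 521434594) (nat_lit 1824) (nat_lit 2265307464) (nat_lit 527) (nat_lit 5) (nat_lit 526) (nat_lit 5) (nat_lit 550) (nat_lit 5) (nat_lit 451) (nat_lit 440) (nat_lit 249))))) (XT.nd (nat_lit 156) (nat_lit 1748) (nat_lit 0) (XT.nd (nat_lit 78) (nat_lit 0) (nat_lit 0) (XT.lf (nat_lit 76) (nat_lit 5131936119) (nat_lit 0) (nat_lit 8695593415) (nat_lit 1824) (nat_lit 1402534723) (nat_lit 528) (nat_lit 5) (nat_lit 527) (nat_lit 5) (nat_lit 551) (nat_lit 5) (nat_lit 452) (nat_lit 440) (nat_lit 248)) (XT.lf (nat_lit 76) (nat_lit 13237926148) (nat_lit 0) (nat_lit 1636658987) (nat_lit 1824) (nat_lit 507942248) (nat_lit 528) (nat_lit 5) (nat_lit 527) (nat_lit 5)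 (nat_lit 551) (nat_lit 5) (nat_lit 453) (nat_lit 440) (nat_lit 247))) (XT.nd (nat_lit 78) (nat_lit 0) (nat_lit 0) (XT.lf (nat_lit 0) (nat_lit 467112245) (nat_lit 1824) (nat_lit 9534532982) (nat_lit 1900) (nat_lit 5534984497) (nat_lit 504) (nat_lit 5) (nat_lit 528) (nat_lit 5) (nat_lit 529) (nat_lit 5) (nat_lit 454) (nat_lit 440) (nat_lit 246)) (XT.nd (nat_lit 78) (nat_lit 0) (nat_lit 76) (XT.lf (nat_lit 0) (nat_lit 1472581708) (nat_lit 1824) (nat_lit 1372493557) (nat_lit 1900) (nat_lit 12848317392) (nat_lit 504) (nat_lit 5) (nat_lit 528) (nat_lit 5) (nat_lit 529) (nat_lit 5) (nat_lit 455) (nat_lit 440) (nat_lit 245)) (XT.lf (nat_lit 0) (nat_lit 2565638763) (nat_lit 1824) (nat_lit 8842011931) (nat_lit 1900) (nat_lit 4444290593) (nat_lit 505) (nat_lit 5) (nat_lit 529) (nat_lit 5) (nat_lit 530) (nat_lit 5) (nat_lit 456) (nat_lit 440) (nat_lit 244))))))) (XT.nd (nat_lit 780) (nat_lit 5700) (nat_lit 0) (XT.nd (nat_lit 390) (nat_lit 1520) (nat_lit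 0) (XT.nd (nat_lit 156) (nat_lit 0) (nat_lit 76) (XT.nd (nat_lit 78) (nat_lit 0) (nat_lit 76) (XT.lf (nat_lit 0) (nat_lit 3701327380) (nat_lit 1824) (nat_lit 459260406) (nat_lit 1900) (nat_lit 11852657694) (nat_lit 505) (nat_lit 5) (nat_lit 529) (nat_lit 5) (nat_lit 530) (nat_lit 5) (nat_lit 457) (nat_lit 440) (nat_lit 243)) (XT.lf (nat_lit 0) (nat_lit 4927071891) (nat_lit 1824) (nat_lit 8004977498) (nat_lit 1900) (nat_lit 3244379525) (nat_lit 506) (nat_lit 5) (nat_lit 530) (nat_lit 5) (nat_lit 531) (nat_lit 5) (nat_lit 458) (nat_lit 440) (nat_lit 242))) (XT.nd (nat_lit 78) (nat_lit 0) (nat_lit 76) (XT.lf (nat_lit 76) (nat_lit 613159584) (nat_lit 0) (nat_lit 5591728080) (nat_lit 1900) (nat_lit 10137437224) (nat_lit 507) (nat_lit 5) (nat_lit 506) (nat_lit 5) (nat_lit 531) (nat_lit 5) (nat_lit 459) (nat_lit 440) (nat_lit 241)) (XT.nd (nat_lit 78) (nat_lit 0) (nat_lit 0) (XT.lf (nat_lit 0) (nat_lit 7567672016) (nat_lit 1824) (nat_lit 7016567245)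 (nat_lit 1900) (nat_lit 1926111278) (nat_lit 507) (nat_lit 5) (nat_lit 531) (nat_lit 5) (nat_lit 532) (nat_lit 5) (nat_lit 460) (nat_lit 440) (nat_lit 240)) (XT.lf (nat_lit 76) (nat_lit 1852041457) (nat_lit 0) (nat_lit 7147895915) (nat_lit 1900) (nat_lit 7680954823) (nat_lit 508) (nat_lit 5) (nat_lit 507) (nat_lit 5) (nat_lit 532) (nat_lit 5) (nat_lit 461) (nat_lit 440) (nat_lit 239))))) (XT.nd (nat_lit 156) (nat_lit 1748) (nat_lit 0) (XT.nd (nat_lit 78) (nat_lit 0) (nat_lit 0) (XT.lf (nat_lit 0) (nat_lit 10504359164) (nat_lit 1824) (nat_lit 5869526045) (nat_lit 1900) (nat_lit 480089253) (nat_lit 508) (nat_lit 5) (nat_lit 532) (nat_lit 5) (nat_lit 533) (nat_lit 5) (nat_lit 462) (nat_lit 440) (nat_lit 238)) (XT.lf (nat_lit 76) (nat_lit 3258892413) (nat_lit 0) (nat_lit 8841880792) (nat_lit 1900) (nat_lit 4928507092) (nat_lit 509) (nat_lit 5) (nat_lit 508) (nat_lit 5) (nat_lit 533) (nat_lit 5) (nat_lit 463) (nat_lit 440) (nat_lit 237)))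 (XT.nd (nat_lit 78) (nat_lit 1748) (nat_lit 0) (XT.lf (nat_lit 76) (nat_lit 12643981746) (nat_lit 0) (nat_lit 1118023061) (nat_lit 1900) (nat_lit 3445429657) (nat_lit 509) (nat_lit 5) (nat_lit 508) (nat_lit 5) (nat_lit 533) (nat_lit 5) (nat_lit 464) (nat_lit 440) (nat_lit 236)) (XT.nd (nat_lit 78) (nat_lit 0) (nat_lit 0) (XT.lf (nat_lit 0) (nat_lit 4841741609) (nat_lit 1824) (nat_lit 10683683352) (nat_lit 1900) (nat_lit 1862347475) (nat_lit 485) (nat_lit 5) (nat_lit 509) (nat_lit 5) (nat_lit 510) (nat_lit 5) (nat_lit 465) (nat_lit 440) (nat_lit 235)) (XT.lf (nat_lit 0) (nat_lit 14483944783) (nat_lit 1824) (nat_lit 2871872411) (nat_lit 1900) (nat_lit 215265900) (nat_lit 485) (nat_lit 5) (nat_lit 509) (nat_lit 5) (nat_lit 510) (nat_lit 5) (nat_lit 466) (nat_lit 440) (nat_lit 234)))))) (XT.nd (nat_lit 390) (nat_lit 2660) (nat_lit 0) (XT.nd (nat_lit 156) (nat_lit 1824) (nat_lit 0) (XT.nd (nat_lit 78) (nat_lit 0) (nat_lit 0) (XT.lf (nat_lit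 0) (nat_lit 1515860800) (nat_lit 1216) (nat_lit 11157585225) (nat_lit 76) (nat_lit 5083017456) (nat_lit 469) (nat_lit 5) (nat_lit 485) (nat_lit 5) (nat_lit 470) (nat_lit 5) (nat_lit 467) (nat_lit 440) (nat_lit 233)) (XT.lf (nat_lit 0) (nat_lit 3312501310) (nat_lit 1216) (nat_lit 1450774634) (nat_lit 76) (nat_lit 13181571598) (nat_lit 469) (nat_lit 5) (nat_lit 485) (nat_lit 5) (nat_lit 470) (nat_lit 5) (nat_lit 468) (nat_lit 440) (nat_lit 232))) (XT.nd (nat_lit 78) (nat_lit 912) (nat_lit 0) (XT.lf (nat_lit 0) (nat_lit 5216480903) (nat_lit 988) (nat_lit 9600849289) (nat_lit 76) (nat_lit 3318240968) (nat_lit 457) (nat_lit 5) (nat_lit 470) (nat_lit 5) (nat_lit 458) (nat_lit 5) (nat_lit 469) (nat_lit 440) (nat_lit 231)) (XT.nd (nat_lit 78) (nat_lit 0) (nat_lit 0) (XT.lf (nat_lit 0) (nat_lit 377525956) (nat_lit 912) (nat_lit 6818913992) (nat_lit 988) (nat_lit 11132911306) (nat_lit 445) (nat_lit 5) (nat_lit 457) (nat_lit 5) (nat_lit 458) (nat_lit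 5) (nat_lit 470) (nat_lit 440) (nat_lit 230)) (XT.lf (nat_lit 0) (nat_lit 9283734708) (nat_lit 988) (nat_lit 7854808962) (nat_lit 76) (nat_lit 1387108548) (nat_lit 445) (nat_lit 5) (nat_lit 458) (nat_lit 5) (nat_lit 446) (nat_lit 5) (nat_lit 471) (nat_lit 440) (nat_lit 229))))) (XT.nd (nat_lit 234) (nat_lit 912) (nat_lit 0) (XT.nd (nat_lit 78) (nat_lit 912) (nat_lit 0) (XT.lf (nat_lit 0) (nat_lit 2425329436) (nat_lit 836) (nat_lit 9042651521) (nat_lit 912) (nat_lit 7256794134) (nat_lit 434) (nat_lit 5) (nat_lit 445) (nat_lit 5) (nat_lit 446) (nat_lit 5) (nat_lit 472) (nat_lit 440) (nat_lit 228)) (XT.nd (nat_lit 78) (nat_lit 912) (nat_lit 0) (XT.lf (nat_lit 0) (nat_lit 13012112057) (nat_lit 836) (nat_lit 730886837) (nat_lit 912) (nat_lit 5183939790) (nat_lit 434) (nat_lit 5) (nat_lit 445) (nat_lit 5) (nat_lit 446) (nat_lit 5) (nat_lit 473) (nat_lit 440) (nat_lit 227)) (XT.lf (nat_lit 0) (nat_lit 4683168482) (nat_lit 912) (nat_lit 11455542676)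 (nat_lit 988) (nat_lit 2992930514) (nat_lit 422) (nat_lit 5) (nat_lit 434) (nat_lit 5) (nat_lit 435) (nat_lit 5) (nat_lit 474) (nat_lit 440) (nat_lit 226)))) (XT.nd (nat_lit 78) (nat_lit 912) (nat_lit 0) (XT.lf (nat_lit 0) (nat_lit 15562994165) (nat_lit 912) (nat_lit 3058404899) (nat_lit 988) (nat_lit 718258425) (nat_lit 422) (nat_lit 5) (nat_lit 434) (nat_lit 5) (nat_lit 435) (nat_lit 5) (nat_lit 475) (nat_lit 440) (nat_lit 225)) (XT.nd (nat_lit 78) (nat_lit 0) (nat_lit 0) (XT.lf (nat_lit 0) (nat_lit 1658324620) (nat_lit 912) (nat_lit 12399855859) (nat_lit 76) (nat_lit 5491896596) (nat_lit 410) (nat_lit 5) (nat_lit 422) (nat_lit 5) (nat_lit 411) (nat_lit 5) (nat_lit 476) (nat_lit 440) (nat_lit 224)) (XT.lf (nat_lit 0) (nat_lit 4113299469) (nat_lit 912) (nat_lit 1447977456) (nat_lit 76) (nat_lit 14202523621) (nat_lit 410) (nat_lit 5) (nat_lit 422) (nat_lit 5) (nat_lit 411) (nat_lit 5) (nat_lit 477) (nat_lit 440) (nat_lit 223))))))))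
noncomputable def xc235 : XT := (XT.nd (nat_lit 57018) (nat_lit 0) (nat_lit 10564) (XT.nd (nat_lit 780) (nat_lit 1444) (nat_lit 0) (XT.nd (nat_lit 390) (nat_lit 2280) (nat_lit 0) (XT.nd (nat_lit 156) (nat_lit 760) (nat_lit 0) (XT.nd (nat_lit 78) (nat_lit 760) (nat_lit 0) (XT.lf (nat_lit 0) (nat_lit 6696698242) (nat_lit 912) (nat_lit 10154460107) (nat_lit 76) (nat_lit 3129053648) (nat_lit 399) (nat_lit 5) (nat_lit 411) (nat_lit 5) (nat_lit 400) (nat_lit 5) (nat_lit 478) (nat_lit 440) (nat_lit 222)) (XT.lf (nat_lit 0) (nat_lit 1116173766) (nat_lit 760) (nat_lit 8264322109) (nat_lit 836) (nat_lit 10819481186) (nat_lit 389) (nat_lit 5) (nat_lit 399) (nat_lit 5) (nat_lit 400) (nat_lit 5) (nat_lit 479) (nat_lit 440) (nat_lit 221))) (XT.nd (nat_lit 78) (nat_lit 760) (nat_lit 0) (XT.lf (nat_lit 0) (nat_lit 12184708523) (nat_lit 836) (nat_lit 7682029179) (nat_lit 76) (nat_lit 556064942) (nat_lit 389) (nat_lit 5) (nat_lit 400) (nat_lit 5) (nat_lit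 390) (nat_lit 5) (nat_lit 480) (nat_lit 440) (nat_lit 220)) (XT.nd (nat_lit 78) (nat_lit 0) (nat_lit 0) (XT.lf (nat_lit 0) (nat_lit 3939361307) (nat_lit 760) (nat_lit 11180987963) (nat_lit 836) (nat_lit 5528228593) (nat_lit 379) (nat_lit 5) (nat_lit 389) (nat_lit 5) (nat_lit 390) (nat_lit 5) (nat_lit 481) (nat_lit 440) (nat_lit 219)) (XT.lf (nat_lit 0) (nat_lit 15891992821) (nat_lit 760) (nat_lit 2269359554) (nat_lit 836) (nat_lit 2716583219) (nat_lit 379) (nat_lit 5) (nat_lit 389) (nat_lit 5) (nat_lit 390) (nat_lit 5) (nat_lit 482) (nat_lit 440) (nat_lit 218))))) (XT.nd (nat_lit 156) (nat_lit 1444) (nat_lit 0) (XT.nd (nat_lit 78) (nat_lit 0) (nat_lit 0) (XT.lf (nat_lit 0) (nat_lit 234890390) (nat_lit 836) (nat_lit 14097527607) (nat_lit 76) (nat_lit 6777731245) (nat_lit 368) (nat_lit 5) (nat_lit 379) (nat_lit 5) (nat_lit 369) (nat_lit 5) (nat_lit 483) (nat_lit 440) (nat_lit 217)) (XT.lf (nat_lit 0) (nat_lit 3252982284) (nat_lit 836) (nat_lit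 2066172412) (nat_lit 76) (nat_lit 16026614057) (nat_lit 368) (nat_lit 5) (nat_lit 379) (nat_lit 5) (nat_lit 369) (nat_lit 5) (nat_lit 484) (nat_lit 440) (nat_lit 216))) (XT.nd (nat_lit 78) (nat_lit 684) (nat_lit 0) (XT.lf (nat_lit 0) (nat_lit 6419455784) (nat_lit 836) (nat_lit 11274309676) (nat_lit 76) (nat_lit 3890574800) (nat_lit 358) (nat_lit 5) (nat_lit 369) (nat_lit 5) (nat_lit 359) (nat_lit 5) (nat_lit 485) (nat_lit 440) (nat_lit 215)) (XT.nd (nat_lit 78) (nat_lit 0) (nat_lit 0) (XT.lf (nat_lit 0) (nat_lit 1108290444) (nat_lit 684) (nat_lit 8592716416) (nat_lit 760) (nat_lit 12125641375) (nat_lit 349) (nat_lit 5) (nat_lit 358) (nat_lit 5) (nat_lit 359) (nat_lit 5) (nat_lit 486) (nat_lit 440) (nat_lit 214)) (XT.lf (nat_lit 0) (nat_lit 13124250317) (nat_lit 760) (nat_lit 8191242242) (nat_lit 76) (nat_lit 756788582) (nat_lit 349) (nat_lit 5) (nat_lit 359) (nat_lit 5) (nat_lit 350) (nat_lit 5) (nat_lit 487) (nat_lit 440) (nat_lit 213))))))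 (XT.nd (nat_lit 55770) (nat_lit 0) (nat_lit 14592) (XT.nd (nat_lit 156) (nat_lit 760) (nat_lit 0) (XT.nd (nat_lit 78) (nat_lit 0) (nat_lit 0) (XT.lf (nat_lit 0) (nat_lit 4584401605) (nat_lit 684) (nat_lit 12113738733) (nat_lit 760) (nat_lit 5623042734) (nat_lit 340) (nat_lit 5) (nat_lit 349) (nat_lit 5) (nat_lit 350) (nat_lit 5) (nat_lit 488) (nat_lit 440) (nat_lit 212)) (XT.lf (nat_lit 0) (nat_lit 17721393350) (nat_lit 684) (nat_lit 2672647924) (nat_lit 760) (nat_lit 2180011105) (nat_lit 340) (nat_lit 5) (nat_lit 349) (nat_lit 5) (nat_lit 350) (nat_lit 5) (nat_lit 489) (nat_lit 440) (nat_lit 211))) (XT.nd (nat_lit 78) (nat_lit 0) (nat_lit 0) (XT.lf (nat_lit 0) (nat_lit 1410063999) (nat_lit 760) (nat_lit 14491071008) (nat_lit 76) (nat_lit 6928758103) (nat_lit 330) (nat_lit 5) (nat_lit 340) (nat_lit 5) (nat_lit 331) (nat_lit 5) (nat_lit 490) (nat_lit 440) (nat_lit 210)) (XT.nd (nat_lit 55458) (nat_lit 0) (nat_lit 14592) (XT.lf (nat_lit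 0) (nat_lit 5088927851) (nat_lit 760) (nat_lit 1267842926) (nat_lit 76) (nat_lit 16732868129) (nat_lit 330) (nat_lit 5) (nat_lit 340) (nat_lit 5) (nat_lit 331) (nat_lit 5) (nat_lit 491) (nat_lit 440) (nat_lit 209)) (XT.lf (nat_lit 0) (nat_lit 1549182554) (nat_lit 0) (nat_lit 1549182554) (nat_lit 1748) (nat_lit 3812798576) (nat_lit 522) (nat_lit 5) (nat_lit 522) (nat_lit 3) (nat_lit 545) (nat_lit 3) (nat_lit 441) (nat_lit 441) (nat_lit 258))))) (XT.nd (nat_lit 234) (nat_lit 0) (nat_lit 76) (XT.nd (nat_lit 78) (nat_lit 0) (nat_lit 0) (XT.lf (nat_lit 0) (nat_lit 6636861550) (nat_lit 1748) (nat_lit 3833358860) (nat_lit 1824) (nat_lit 3482766953) (nat_lit 522) (nat_lit 5) (nat_lit 545) (nat_lit 3) (nat_lit 546) (nat_lit 5) (nat_lit 442) (nat_lit 441) (nat_lit 257)) (XT.nd (nat_lit 78) (nat_lit 0) (nat_lit 76) (XT.lf (nat_lit 76) (nat_lit 3211784972) (nat_lit 0) (nat_lit 3906094436) (nat_lit 1824) (nat_lit 6967739471) (nat_lit 523) (nat_lit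 5) (nat_lit 522) (nat_lit 5) (nat_lit 546) (nat_lit 5) (nat_lit 443) (nat_lit 441) (nat_lit 256)) (XT.lf (nat_lit 0) (nat_lit 7643412348) (nat_lit 1748) (nat_lit 3793929459) (nat_lit 1824) (nat_lit 2782863322) (nat_lit 523) (nat_lit 5) (nat_lit 546) (nat_lit 5) (nat_lit 547) (nat_lit 5) (nat_lit 444) (nat_lit 441) (nat_lit 255)))) (XT.nd (nat_lit 78) (nat_lit 0) (nat_lit 76) (XT.lf (nat_lit 76) (nat_lit 3441890672) (nat_lit 0) (nat_lit 4776849540) (nat_lit 1824) (nat_lit 6137957207) (nat_lit 524) (nat_lit 5) (nat_lit 523) (nat_lit 5) (nat_lit 547) (nat_lit 5) (nat_lit 445) (nat_lit 441) (nat_lit 254)) (XT.nd (nat_lit 78) (nat_lit 0) (nat_lit 0) (XT.lf (nat_lit 0) (nat_lit 8835534553) (nat_lit 1748) (nat_lit 3639942294) (nat_lit 1824) (nat_lit 2019843510) (nat_lit 524) (nat_lit 5) (nat_lit 547) (nat_lit 5) (nat_lit 548) (nat_lit 5) (nat_lit 446) (nat_lit 441) (nat_lit 253)) (XT.lf (nat_lit 76) (nat_lit 3793514270) (nat_lit 0) (nat_lit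 5718824408) (nat_lit 1824) (nat_lit 5123423597) (nat_lit 525) (nat_lit 5) (nat_lit 524) (nat_lit 5) (nat_lit 548) (nat_lit 5) (nat_lit 447) (nat_lit 441) (nat_lit 252))))))) (XT.nd (nat_lit 780) (nat_lit 2584) (nat_lit 0) (XT.nd (nat_lit 390) (nat_lit 1672) (nat_lit 0) (XT.nd (nat_lit 156) (nat_lit 0) (nat_lit 76) (XT.nd (nat_lit 78) (nat_lit 0) (nat_lit 0) (XT.lf (nat_lit 0) (nat_lit 10226449887) (nat_lit 1748) (nat_lit 3366503155) (nat_lit 1824) (nat_lit 1185584571) (nat_lit 525) (nat_lit 5) (nat_lit 548) (nat_lit 5) (nat_lit 549) (nat_lit 5) (nat_lit 448) (nat_lit 441) (nat_lit 251)) (XT.lf (nat_lit 76) (nat_lit 4271829414) (nat_lit 0) (nat_lit 6740355473) (nat_lit 1824) (nat_lit 3910836738) (nat_lit 526) (nat_lit 5) (nat_lit 525) (nat_lit 5) (nat_lit 549) (nat_lit 5) (nat_lit 449) (nat_lit 441) (nat_lit 250))) (XT.nd (nat_lit 78) (nat_lit 0) (nat_lit 0) (XT.lf (nat_lit 0) (nat_lit 11829876198) (nat_lit 1748) (nat_lit 2968378601) (nat_lit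 1824) (nat_lit 271815687) (nat_lit 526) (nat_lit 5) (nat_lit 549) (nat_lit 5) (nat_lit 550) (nat_lit 5) (nat_lit 450) (nat_lit 441) (nat_lit 249)) (XT.nd (nat_lit 78) (nat_lit 0) (nat_lit 0) (XT.lf (nat_lit 76) (nat_lit 4882359342) (nat_lit 0) (nat_lit 7849941203) (nat_lit 1824) (nat_lit 2486392195) (nat_lit 527) (nat_lit 5) (nat_lit 526) (nat_lit 5) (nat_lit 550) (nat_lit 5) (nat_lit 451) (nat_lit 441) (nat_lit 248)) (XT.lf (nat_lit 76) (nat_lit 12925256081) (nat_lit 0) (nat_lit 739601238) (nat_lit 1824) (nat_lit 1705188440) (nat_lit 527) (nat_lit 5) (nat_lit 526) (nat_lit 5) (nat_lit 550) (nat_lit 5) (nat_lit 452) (nat_lit 441) (nat_lit 247))))) (XT.nd (nat_lit 156) (nat_lit 0) (nat_lit 76) (XT.nd (nat_lit 78) (nat_lit 1824) (nat_lit 0) (XT.lf (nat_lit 76) (nat_lit 5630985598) (nat_lit 0) (nat_lit 9056261738) (nat_lit 1824) (nat_lit 835754862) (nat_lit 528) (nat_lit 5) (nat_lit 527) (nat_lit 5) (nat_lit 551) (nat_lit 5) (nat_lit 453)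 (nat_lit 441) (nat_lit 246)) (XT.lf (nat_lit 0) (nat_lit 64212763) (nat_lit 1824) (nat_lit 1787843065) (nat_lit 1900) (nat_lit 13826679002) (nat_lit 503) (nat_lit 5) (nat_lit 527) (nat_lit 5) (nat_lit 528) (nat_lit 5) (nat_lit 454) (nat_lit 441) (nat_lit 245))) (XT.nd (nat_lit 78) (nat_lit 0) (nat_lit 0) (XT.lf (nat_lit 0) (nat_lit 1042120749) (nat_lit 1824) (nat_lit 9319084694) (nat_lit 1900) (nat_lit 5474843551) (nat_lit 504) (nat_lit 5) (nat_lit 528) (nat_lit 5) (nat_lit 529) (nat_lit 5) (nat_lit 455) (nat_lit 441) (nat_lit 244)) (XT.nd (nat_lit 78) (nat_lit 0) (nat_lit 76) (XT.lf (nat_lit 0) (nat_lit 2056608106) (nat_lit 1824) (nat_lit 1001767989) (nat_lit 1900) (nat_lit 12937792920) (nat_lit 504) (nat_lit 5) (nat_lit 528) (nat_lit 5) (nat_lit 529) (nat_lit 5) (nat_lit 456) (nat_lit 441) (nat_lit 243)) (XT.lf (nat_lit 0) (nat_lit 3162241968) (nat_lit 1824) (nat_lit 8611392397) (nat_lit 1900) (nat_lit 4384439938) (nat_lit 505) (nat_lit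 5) (nat_lit 529) (nat_lit 5) (nat_lit 530) (nat_lit 5) (nat_lit 457) (nat_lit 441) (nat_lit 242)))))) (XT.nd (nat_lit 390) (nat_lit 2736) (nat_lit 0) (XT.nd (nat_lit 156) (nat_lit 0) (nat_lit 76) (XT.nd (nat_lit 78) (nat_lit 0) (nat_lit 76) (XT.lf (nat_lit 0) (nat_lit 4309952389) (nat_lit 1824) (nat_lit 68975249) (nat_lit 1900) (nat_lit 11943890783) (nat_lit 505) (nat_lit 5) (nat_lit 529) (nat_lit 5) (nat_lit 530) (nat_lit 5) (nat_lit 458) (nat_lit 441) (nat_lit 241)) (XT.lf (nat_lit 0) (nat_lit 5551462955) (nat_lit 1824) (nat_lit 7756857848) (nat_lit 1900) (nat_lit 3181119696) (nat_lit 506) (nat_lit 5) (nat_lit 530) (nat_lit 5) (nat_lit 531) (nat_lit 5) (nat_lit 459) (nat_lit 441) (nat_lit 240))) (XT.nd (nat_lit 78) (nat_lit 0) (nat_lit 76) (XT.lf (nat_lit 76) (nat_lit 1030956323) (nat_lit 0) (nat_lit 5816200936) (nat_lit 1900) (nat_lit 9811650690) (nat_lit 507) (nat_lit 5) (nat_lit 506) (nat_lit 5) (nat_lit 531) (nat_lit 5) (nat_lit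 460) (nat_lit 441) (nat_lit 239)) (XT.nd (nat_lit 78) (nat_lit 0) (nat_lit 0) (XT.lf (nat_lit 0) (nat_lit 8226320083) (nat_lit 1824) (nat_lit 6748439465) (nat_lit 1900) (nat_lit 1855652108) (nat_lit 507) (nat_lit 5) (nat_lit 531) (nat_lit 5) (nat_lit 532) (nat_lit 5) (nat_lit 461) (nat_lit 441) (nat_lit 238)) (XT.lf (nat_lit 76) (nat_lit 2294854179) (nat_lit 0) (nat_lit 7385064154) (nat_lit 1900) (nat_lit 7324592061) (nat_lit 508) (nat_lit 5) (nat_lit 507) (nat_lit 5) (nat_lit 532) (nat_lit 5) (nat_lit 462) (nat_lit 441) (nat_lit 237))))) (XT.nd (nat_lit 234) (nat_lit 2964) (nat_lit 0) (XT.nd (nat_lit 78) (nat_lit 0) (nat_lit 0) (XT.lf (nat_lit 0) (nat_lit 11204025306) (nat_lit 1824) (nat_lit 5578697729) (nat_lit 1900) (nat_lit 398539336) (nat_lit 508) (nat_lit 5) (nat_lit 532) (nat_lit 5) (nat_lit 533) (nat_lit 5) (nat_lit 463) (nat_lit 441) (nat_lit 236)) (XT.nd (nat_lit 78) (nat_lit 0) (nat_lit 0) (XT.lf (nat_lit 76) (nat_lit 3729603448)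 (nat_lit 0) (nat_lit 9095797583) (nat_lit 1900) (nat_lit 4534812625) (nat_lit 509) (nat_lit 5) (nat_lit 508) (nat_lit 5) (nat_lit 533) (nat_lit 5) (nat_lit 464) (nat_lit 441) (nat_lit 235)) (XT.lf (nat_lit 76) (nat_lit 13294442936) (nat_lit 0) (nat_lit 1215951342) (nat_lit 1900) (nat_lit 3031725888) (nat_lit 509) (nat_lit 5) (nat_lit 508) (nat_lit 5) (nat_lit 533) (nat_lit 5) (nat_lit 465) (nat_lit 441) (nat_lit 234)))) (XT.nd (nat_lit 78) (nat_lit 1216) (nat_lit 0) (XT.lf (nat_lit 0) (nat_lit 5343430468) (nat_lit 1824) (nat_lit 10958522493) (nat_lit 1900) (nat_lit 1424254534) (nat_lit 485) (nat_lit 5) (nat_lit 509) (nat_lit 5) (nat_lit 510) (nat_lit 5) (nat_lit 466) (nat_lit 441) (nat_lit 233)) (XT.nd (nat_lit 78) (nat_lit 1140) (nat_lit 0) (XT.lf (nat_lit 0) (nat_lit 243216068) (nat_lit 1900) (nat_lit 2744427834) (nat_lit 76) (nat_lit 14925691214) (nat_lit 484) (nat_lit 5) (nat_lit 509) (nat_lit 5) (nat_lit 485) (nat_lit 5) (nat_lit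 467) (nat_lit 441) (nat_lit 232)) (XT.lf (nat_lit 0) (nat_lit 1999322453) (nat_lit 1216) (nat_lit 10970946154) (nat_lit 76) (nat_lit 5132261254) (nat_lit 469) (nat_lit 5) (nat_lit 485) (nat_lit 5) (nat_lit 470) (nat_lit 5) (nat_lit 468) (nat_lit 441) (nat_lit 231))))))))
noncomputable def xc236 : XT := (XT.nd (nat_lit 1560) (nat_lit 1444) (nat_lit 0) (XT.nd (nat_lit 780) (nat_lit 4636) (nat_lit 0) (XT.nd (nat_lit 390) (nat_lit 1824) (nat_lit 0) (XT.nd (nat_lit 156) (nat_lit 1748) (nat_lit 0) (XT.nd (nat_lit 78) (nat_lit 912) (nat_lit 0) (XT.lf (nat_lit 0) (nat_lit 3823010589) (nat_lit 1216) (nat_lit 1078034464) (nat_lit 76) (nat_lit 13393814255) (nat_lit 469) (nat_lit 5) (nat_lit 485) (nat_lit 5) (nat_lit 470) (nat_lit 5) (nat_lit 469) (nat_lit 441) (nat_lit 230)) (XT.lf (nat_lit 0) (nat_lit 5758696721) (nat_lit 988) (nat_lit 9384737561) (nat_lit 76) (nat_lit 3346090578) (nat_lit 457) (nat_lit 5) (nat_lit 470) (nat_lit 5) (nat_lit 458)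 (nat_lit 5) (nat_lit 470) (nat_lit 441) (nat_lit 229))) (XT.nd (nat_lit 78) (nat_lit 836) (nat_lit 0) (XT.lf (nat_lit 0) (nat_lit 790520132) (nat_lit 912) (nat_lit 6981781220) (nat_lit 988) (nat_lit 10914998275) (nat_lit 445) (nat_lit 5) (nat_lit 457) (nat_lit 5) (nat_lit 458) (nat_lit 5) (nat_lit 471) (nat_lit 441) (nat_lit 228)) (XT.nd (nat_lit 78) (nat_lit 836) (nat_lit 0) (XT.lf (nat_lit 0) (nat_lit 9892704129) (nat_lit 988) (nat_lit 7605773482) (nat_lit 76) (nat_lit 1389221757) (nat_lit 445) (nat_lit 5) (nat_lit 458) (nat_lit 5) (nat_lit 446) (nat_lit 5) (nat_lit 472) (nat_lit 441) (nat_lit 227)) (XT.lf (nat_lit 0) (nat_lit 2877295765) (nat_lit 836) (nat_lit 9237659169) (nat_lit 912) (nat_lit 6975963370) (nat_lit 434) (nat_lit 5) (nat_lit 445) (nat_lit 5) (nat_lit 446) (nat_lit 5) (nat_lit 473) (nat_lit 441) (nat_lit 226))))) (XT.nd (nat_lit 156) (nat_lit 912) (nat_lit 0) (XT.nd (nat_lit 78) (nat_lit 912) (nat_lit 0) (XT.lf (nat_lit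 0) (nat_lit 13667903064) (nat_lit 836) (nat_lit 759381650) (nat_lit 912) (nat_lit 4870004227) (nat_lit 434) (nat_lit 5) (nat_lit 445) (nat_lit 5) (nat_lit 446) (nat_lit 5) (nat_lit 474) (nat_lit 441) (nat_lit 225)) (XT.lf (nat_lit 0) (nat_lit 5178002474) (nat_lit 912) (nat_lit 11687397124) (nat_lit 988) (nat_lit 2640796622) (nat_lit 422) (nat_lit 5) (nat_lit 434) (nat_lit 5) (nat_lit 435) (nat_lit 5) (nat_lit 475) (nat_lit 441) (nat_lit 224))) (XT.nd (nat_lit 78) (nat_lit 912) (nat_lit 0) (XT.lf (nat_lit 0) (nat_lit 16267558580) (nat_lit 912) (nat_lit 3122262796) (nat_lit 988) (nat_lit 328709376) (nat_lit 422) (nat_lit 5) (nat_lit 434) (nat_lit 5) (nat_lit 435) (nat_lit 5) (nat_lit 476) (nat_lit 441) (nat_lit 223)) (XT.nd (nat_lit 78) (nat_lit 0) (nat_lit 0) (XT.lf (nat_lit 0) (nat_lit 2084879800) (nat_lit 912) (nat_lit 12244022914) (nat_lit 76) (nat_lit 5604308128) (nat_lit 410) (nat_lit 5) (nat_lit 422) (nat_lit 5) (nat_lit 411) (nat_lit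 5) (nat_lit 477) (nat_lit 441) (nat_lit 222)) (XT.lf (nat_lit 0) (nat_lit 4581240642) (nat_lit 912) (nat_lit 1081025180) (nat_lit 76) (nat_lit 14489097231) (nat_lit 410) (nat_lit 5) (nat_lit 422) (nat_lit 5) (nat_lit 411) (nat_lit 5) (nat_lit 478) (nat_lit 441) (nat_lit 221)))))) (XT.nd (nat_lit 390) (nat_lit 2280) (nat_lit 0) (XT.nd (nat_lit 156) (nat_lit 760) (nat_lit 0) (XT.nd (nat_lit 78) (nat_lit 760) (nat_lit 0) (XT.lf (nat_lit 0) (nat_lit 7211380815) (nat_lit 912) (nat_lit 9956710907) (nat_lit 76) (nat_lit 3204109544) (nat_lit 399) (nat_lit 5) (nat_lit 411) (nat_lit 5) (nat_lit 400) (nat_lit 5) (nat_lit 479) (nat_lit 441) (nat_lit 220)) (XT.lf (nat_lit 0) (nat_lit 1536698549) (nat_lit 760) (nat_lit 8407275579) (nat_lit 836) (nat_lit 10652485108) (nat_lit 389) (nat_lit 5) (nat_lit 399) (nat_lit 5) (nat_lit 400) (nat_lit 5) (nat_lit 480) (nat_lit 441) (nat_lit 219))) (XT.nd (nat_lit 78) (nat_lit 760) (nat_lit 0) (XT.lf (nat_lit 0)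 (nat_lit 12797043219) (nat_lit 836) (nat_lit 7438048514) (nat_lit 76) (nat_lit 588794153) (nat_lit 389) (nat_lit 5) (nat_lit 400) (nat_lit 5) (nat_lit 390) (nat_lit 5) (nat_lit 481) (nat_lit 441) (nat_lit 218)) (XT.nd (nat_lit 78) (nat_lit 0) (nat_lit 0) (XT.lf (nat_lit 0) (nat_lit 4413153852) (nat_lit 760) (nat_lit 11373579319) (nat_lit 836) (nat_lit 5267536710) (nat_lit 379) (nat_lit 5) (nat_lit 389) (nat_lit 5) (nat_lit 390) (nat_lit 5) (nat_lit 482) (nat_lit 441) (nat_lit 217)) (XT.lf (nat_lit 0) (nat_lit 16597092794) (nat_lit 760) (nat_lit 2284326742) (nat_lit 836) (nat_lit 2406937967) (nat_lit 379) (nat_lit 5) (nat_lit 389) (nat_lit 5) (nat_lit 390) (nat_lit 5) (nat_lit 483) (nat_lit 441) (nat_lit 216))))) (XT.nd (nat_lit 156) (nat_lit 1444) (nat_lit 0) (XT.nd (nat_lit 78) (nat_lit 0) (nat_lit 0) (XT.lf (nat_lit 0) (nat_lit 594502610) (nat_lit 836) (nat_lit 13983155539) (nat_lit 76) (nat_lit 6947595790) (nat_lit 368) (nat_lit 5)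 (nat_lit 379) (nat_lit 5) (nat_lit 369) (nat_lit 5) (nat_lit 484) (nat_lit 441) (nat_lit 215)) (XT.lf (nat_lit 0) (nat_lit 3665997236) (nat_lit 836) (nat_lit 1718944271) (nat_lit 76) (nat_lit 16380783515) (nat_lit 368) (nat_lit 5) (nat_lit 379) (nat_lit 5) (nat_lit 369) (nat_lit 5) (nat_lit 485) (nat_lit 441) (nat_lit 214))) (XT.nd (nat_lit 78) (nat_lit 684) (nat_lit 0) (XT.lf (nat_lit 0) (nat_lit 6891758697) (nat_lit 836) (nat_lit 11107202772) (nat_lit 76) (nat_lit 4010187320) (nat_lit 358) (nat_lit 5) (nat_lit 369) (nat_lit 5) (nat_lit 359) (nat_lit 5) (nat_lit 486) (nat_lit 441) (nat_lit 213)) (XT.nd (nat_lit 78) (nat_lit 0) (nat_lit 0) (XT.lf (nat_lit 0) (nat_lit 1520466501) (nat_lit 684) (nat_lit 8714263091) (nat_lit 760) (nat_lit 12021657556) (nat_lit 349) (nat_lit 5) (nat_lit 358) (nat_lit 5) (nat_lit 359) (nat_lit 5) (nat_lit 487) (nat_lit 441) (nat_lit 212)) (XT.lf (nat_lit 0) (nat_lit 13720097310) (nat_lit 760) (nat_lit 7966363489)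 (nat_lit 76) (nat_lit 820598726) (nat_lit 349) (nat_lit 5) (nat_lit 359) (nat_lit 5) (nat_lit 350) (nat_lit 5) (nat_lit 488) (nat_lit 441) (nat_lit 211))))))) (XT.nd (nat_lit 56238) (nat_lit 0) (nat_lit 13148) (XT.nd (nat_lit 55848) (nat_lit 0) (nat_lit 14592) (XT.nd (nat_lit 156) (nat_lit 760) (nat_lit 0) (XT.nd (nat_lit 78) (nat_lit 0) (nat_lit 0) (XT.lf (nat_lit 0) (nat_lit 5062235975) (nat_lit 684) (nat_lit 12299199765) (nat_lit 760) (nat_lit 5399584342) (nat_lit 340) (nat_lit 5) (nat_lit 349) (nat_lit 5) (nat_lit 350) (nat_lit 5) (nat_lit 489) (nat_lit 441) (nat_lit 210)) (XT.lf (nat_lit 0) (nat_lit 18454396058) (nat_lit 684) (nat_lit 2670401135) (nat_lit 760) (nat_lit 1894278733) (nat_lit 340) (nat_lit 5) (nat_lit 349) (nat_lit 5) (nat_lit 350) (nat_lit 5) (nat_lit 490) (nat_lit 441) (nat_lit 209))) (XT.nd (nat_lit 55536) (nat_lit 0) (nat_lit 14592) (XT.lf (nat_lit 0) (nat_lit 1759760241) (nat_lit 760) (nat_lit 14394479955) (nat_lit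 76) (nat_lit 7125820877) (nat_lit 330) (nat_lit 5) (nat_lit 340) (nat_lit 5) (nat_lit 331) (nat_lit 5) (nat_lit 491) (nat_lit 441) (nat_lit 208)) (XT.nd (nat_lit 78) (nat_lit 0) (nat_lit 0) (XT.lf (nat_lit 0) (nat_lit 1756638487) (nat_lit 0) (nat_lit 1756638487) (nat_lit 1748) (nat_lit 3529051093) (nat_lit 522) (nat_lit 5) (nat_lit 522) (nat_lit 3) (nat_lit 545) (nat_lit 3) (nat_lit 442) (nat_lit 442) (nat_lit 256)) (XT.lf (nat_lit 0) (nat_lit 7459400327) (nat_lit 1748) (nat_lit 3547914374) (nat_lit 1824) (nat_lit 3210936378) (nat_lit 522) (nat_lit 5) (nat_lit 545) (nat_lit 3) (nat_lit 546) (nat_lit 5) (nat_lit 443) (nat_lit 442) (nat_lit 255))))) (XT.nd (nat_lit 156) (nat_lit 0) (nat_lit 76) (XT.nd (nat_lit 78) (nat_lit 0) (nat_lit 76) (XT.lf (nat_lit 76) (nat_lit 3635750021) (nat_lit 0) (nat_lit 4303098602) (nat_lit 1824) (nat_lit 6414910400) (nat_lit 523) (nat_lit 5) (nat_lit 522) (nat_lit 5) (nat_lit 546) (nat_lit 5) (nat_lit 444)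 (nat_lit 442) (nat_lit 254)) (XT.lf (nat_lit 0) (nat_lit 8459556312) (nat_lit 1748) (nat_lit 3501796306) (nat_lit 1824) (nat_lit 2529991099) (nat_lit 523) (nat_lit 5) (nat_lit 546) (nat_lit 5) (nat_lit 547) (nat_lit 5) (nat_lit 445) (nat_lit 442) (nat_lit 253))) (XT.nd (nat_lit 78) (nat_lit 0) (nat_lit 76) (XT.lf (nat_lit 76) (nat_lit 3876319099) (nat_lit 0) (nat_lit 5159439886) (nat_lit 1824) (nat_lit 5595019503) (nat_lit 524) (nat_lit 5) (nat_lit 523) (nat_lit 5) (nat_lit 547) (nat_lit 5) (nat_lit 446) (nat_lit 442) (nat_lit 252)) (XT.nd (nat_lit 78) (nat_lit 0) (nat_lit 0) (XT.lf (nat_lit 0) (nat_lit 9650265075) (nat_lit 1748) (nat_lit 3339694833) (nat_lit 1824) (nat_lit 1782506459) (nat_lit 524) (nat_lit 5) (nat_lit 547) (nat_lit 5) (nat_lit 548) (nat_lit 5) (nat_lit 447) (nat_lit 442) (nat_lit 251)) (XT.lf (nat_lit 76) (nat_lit 4239976610) (nat_lit 0) (nat_lit 6090524609) (nat_lit 1824) (nat_lit 4585417986) (nat_lit 525) (nat_lit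 5) (nat_lit 524) (nat_lit 5) (nat_lit 548) (nat_lit 5) (nat_lit 448) (nat_lit 442) (nat_lit 250)))))) (XT.nd (nat_lit 390) (nat_lit 1672) (nat_lit 0) (XT.nd (nat_lit 156) (nat_lit 0) (nat_lit 76) (XT.nd (nat_lit 78) (nat_lit 0) (nat_lit 0) (XT.lf (nat_lit 0) (nat_lit 11044944621) (nat_lit 1748) (nat_lit 3056557643) (nat_lit 1824) (nat_lit 960326786) (nat_lit 525) (nat_lit 5) (nat_lit 548) (nat_lit 5) (nat_lit 549) (nat_lit 5) (nat_lit 449) (nat_lit 442) (nat_lit 249)) (XT.lf (nat_lit 76) (nat_lit 4732059501) (nat_lit 0) (nat_lit 7104729684) (nat_lit 1824) (nat_lit 3372605660) (nat_lit 526) (nat_lit 5) (nat_lit 525) (nat_lit 5) (nat_lit 549) (nat_lit 5) (nat_lit 450) (nat_lit 442) (nat_lit 248))) (XT.nd (nat_lit 78) (nat_lit 0) (nat_lit 0) (XT.lf (nat_lit 0) (nat_lit 12657522838) (nat_lit 1748) (nat_lit 2646990082) (nat_lit 1824) (nat_lit 55137993) (nat_lit 526) (nat_lit 5) (nat_lit 549) (nat_lit 5) (nat_lit 550) (nat_lit 5) (nat_lit 451)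 (nat_lit 442) (nat_lit 247)) (XT.nd (nat_lit 78) (nat_lit 0) (nat_lit 0) (XT.lf (nat_lit 76) (nat_lit 5358257645) (nat_lit 0) (nat_lit 8210604685) (nat_lit 1824) (nat_lit 1942565949) (nat_lit 527) (nat_lit 5) (nat_lit 526) (nat_lit 5) (nat_lit 550) (nat_lit 5) (nat_lit 452) (nat_lit 442) (nat_lit 246)) (XT.lf (nat_lit 76) (nat_lit 13554595630) (nat_lit 0) (nat_lit 954064497) (nat_lit 1824) (nat_lit 1157376434) (nat_lit 527) (nat_lit 5) (nat_lit 526) (nat_lit 5) (nat_lit 550) (nat_lit 5) (nat_lit 453) (nat_lit 442) (nat_lit 245))))) (XT.nd (nat_lit 234) (nat_lit 0) (nat_lit 76) (XT.nd (nat_lit 78) (nat_lit 1824) (nat_lit 0) (XT.lf (nat_lit 76) (nat_lit 6124622953) (nat_lit 0) (nat_lit 9416891446) (nat_lit 1824) (nat_lit 280737400) (nat_lit 528) (nat_lit 5) (nat_lit 527) (nat_lit 5) (nat_lit 551) (nat_lit 5) (nat_lit 454) (nat_lit 442) (nat_lit 244)) (XT.nd (nat_lit 78) (nat_lit 0) (nat_lit 76) (XT.lf (nat_lit 0) (nat_lit 618667787) (nat_lit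 1824) (nat_lit 1442701868) (nat_lit 1900) (nat_lit 13919876456) (nat_lit 503) (nat_lit 5) (nat_lit 527) (nat_lit 5) (nat_lit 528) (nat_lit 5) (nat_lit 455) (nat_lit 442) (nat_lit 243)) (XT.lf (nat_lit 0) (nat_lit 1606663913) (nat_lit 1824) (nat_lit 9115098310) (nat_lit 1900) (nat_lit 5420133736) (nat_lit 504) (nat_lit 5) (nat_lit 528) (nat_lit 5) (nat_lit 529) (nat_lit 5) (nat_lit 456) (nat_lit 442) (nat_lit 242)))) (XT.nd (nat_lit 78) (nat_lit 0) (nat_lit 76) (XT.lf (nat_lit 0) (nat_lit 2630780218) (nat_lit 1824) (nat_lit 639089547) (nat_lit 1900) (nat_lit 13035561831) (nat_lit 504) (nat_lit 5) (nat_lit 528) (nat_lit 5) (nat_lit 529) (nat_lit 5) (nat_lit 457) (nat_lit 442) (nat_lit 241)) (XT.nd (nat_lit 78) (nat_lit 0) (nat_lit 0) (XT.lf (nat_lit 0) (nat_lit 3749602946) (nat_lit 1824) (nat_lit 8391982632) (nat_lit 1900) (nat_lit 4329167889) (nat_lit 505) (nat_lit 5) (nat_lit 529) (nat_lit 5) (nat_lit 530) (nat_lit 5) (nat_lit 458) (nat_lit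 442) (nat_lit 240)) (XT.lf (nat_lit 76) (nat_lit 317771318) (nat_lit 0) (nat_lit 4594282652) (nat_lit 1900) (nat_lit 11726902768) (nat_lit 506) (nat_lit 5) (nat_lit 505) (nat_lit 5) (nat_lit 530) (nat_lit 5) (nat_lit 459) (nat_lit 442) (nat_lit 239))))))))
noncomputable def xc237 : XT := (XT.nd (nat_lit 1638) (nat_lit 4484) (nat_lit 0) (XT.nd (nat_lit 780) (nat_lit 5320) (nat_lit 0) (XT.nd (nat_lit 390) (nat_lit 2812) (nat_lit 0) (XT.nd (nat_lit 156) (nat_lit 0) (nat_lit 76) (XT.nd (nat_lit 78) (nat_lit 0) (nat_lit 0) (XT.lf (nat_lit 0) (nat_lit 6167922459) (nat_lit 1824) (nat_lit 7519627454) (nat_lit 1900) (nat_lit 3121570792) (nat_lit 506) (nat_lit 5) (nat_lit 530) (nat_lit 5) (nat_lit 531) (nat_lit 5) (nat_lit 460) (nat_lit 442) (nat_lit 238)) (XT.lf (nat_lit 76) (nat_lit 1441361635) (nat_lit 0) (nat_lit 6040789368) (nat_lit 1900) (nat_lit 9499872093) (nat_lit 507) (nat_lit 5) (nat_lit 506) (nat_lit 5) (nat_lit 531) (nat_lit 5) (nat_lit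 461) (nat_lit 442) (nat_lit 237))) (XT.nd (nat_lit 78) (nat_lit 0) (nat_lit 0) (XT.lf (nat_lit 0) (nat_lit 8878442244) (nat_lit 1824) (nat_lit 6490810096) (nat_lit 1900) (nat_lit 1788015635) (nat_lit 507) (nat_lit 5) (nat_lit 531) (nat_lit 5) (nat_lit 532) (nat_lit 5) (nat_lit 462) (nat_lit 442) (nat_lit 236)) (XT.nd (nat_lit 78) (nat_lit 0) (nat_lit 76) (XT.lf (nat_lit 76) (nat_lit 2730766539) (nat_lit 0) (nat_lit 7623317457) (nat_lit 1900) (nat_lit 6980905261) (nat_lit 508) (nat_lit 5) (nat_lit 507) (nat_lit 5) (nat_lit 532) (nat_lit 5) (nat_lit 463) (nat_lit 442) (nat_lit 235)) (XT.lf (nat_lit 0) (nat_lit 11898673823) (nat_lit 1824) (nat_lit 5297904482) (nat_lit 1900) (nat_lit 318897953) (nat_lit 508) (nat_lit 5) (nat_lit 532) (nat_lit 5) (nat_lit 533) (nat_lit 5) (nat_lit 464) (nat_lit 442) (nat_lit 234))))) (XT.nd (nat_lit 156) (nat_lit 2964) (nat_lit 0) (XT.nd (nat_lit 78) (nat_lit 0) (nat_lit 0) (XT.lf (nat_lit 76) (nat_lit 4193981355)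 (nat_lit 0) (nat_lit 9351799632) (nat_lit 1900) (nat_lit 4152359502) (nat_lit 509) (nat_lit 5) (nat_lit 508) (nat_lit 5) (nat_lit 533) (nat_lit 5) (nat_lit 465) (nat_lit 442) (nat_lit 233)) (XT.lf (nat_lit 76) (nat_lit 13942474774) (nat_lit 0) (nat_lit 1312903797) (nat_lit 1900) (nat_lit 2628488470) (nat_lit 509) (nat_lit 5) (nat_lit 508) (nat_lit 5) (nat_lit 533) (nat_lit 5) (nat_lit 466) (nat_lit 442) (nat_lit 232))) (XT.nd (nat_lit 78) (nat_lit 1216) (nat_lit 0) (XT.lf (nat_lit 0) (nat_lit 5839432129) (nat_lit 1824) (nat_lit 11236483287) (nat_lit 1900) (nat_lit 995857761) (nat_lit 485) (nat_lit 5) (nat_lit 509) (nat_lit 5) (nat_lit 510) (nat_lit 5) (nat_lit 467) (nat_lit 442) (nat_lit 231)) (XT.nd (nat_lit 78) (nat_lit 1140) (nat_lit 0) (XT.lf (nat_lit 0) (nat_lit 690129189) (nat_lit 1900) (nat_lit 2411938803) (nat_lit 76) (nat_lit 15160692850) (nat_lit 484) (nat_lit 5) (nat_lit 509) (nat_lit 5) (nat_lit 485) (nat_lit 5) (nat_lit 468)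 (nat_lit 442) (nat_lit 230)) (XT.lf (nat_lit 0) (nat_lit 2474857189) (nat_lit 1216) (nat_lit 10796486976) (nat_lit 76) (nat_lit 5184525328) (nat_lit 469) (nat_lit 5) (nat_lit 485) (nat_lit 5) (nat_lit 470) (nat_lit 5) (nat_lit 469) (nat_lit 442) (nat_lit 229)))))) (XT.nd (nat_lit 390) (nat_lit 2660) (nat_lit 0) (XT.nd (nat_lit 156) (nat_lit 1748) (nat_lit 0) (XT.nd (nat_lit 78) (nat_lit 912) (nat_lit 0) (XT.lf (nat_lit 0) (nat_lit 4326478925) (nat_lit 1216) (nat_lit 713440153) (nat_lit 76) (nat_lit 13612297254) (nat_lit 469) (nat_lit 5) (nat_lit 485) (nat_lit 5) (nat_lit 470) (nat_lit 5) (nat_lit 470) (nat_lit 442) (nat_lit 228)) (XT.lf (nat_lit 0) (nat_lit 6294753201) (nat_lit 988) (nat_lit 9180151733) (nat_lit 76) (nat_lit 3375992772) (nat_lit 457) (nat_lit 5) (nat_lit 470) (nat_lit 5) (nat_lit 458) (nat_lit 5) (nat_lit 471) (nat_lit 442) (nat_lit 227))) (XT.nd (nat_lit 78) (nat_lit 836) (nat_lit 0) (XT.lf (nat_lit 0) (nat_lit 1196030321)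 (nat_lit 912) (nat_lit 7146877195) (nat_lit 988) (nat_lit 10709834902) (nat_lit 445) (nat_lit 5) (nat_lit 457) (nat_lit 5) (nat_lit 458) (nat_lit 5) (nat_lit 472) (nat_lit 442) (nat_lit 226)) (XT.nd (nat_lit 78) (nat_lit 836) (nat_lit 0) (XT.lf (nat_lit 0) (nat_lit 10497415889) (nat_lit 988) (nat_lit 7367527879) (nat_lit 76) (nat_lit 1392372434) (nat_lit 445) (nat_lit 5) (nat_lit 458) (nat_lit 5) (nat_lit 446) (nat_lit 5) (nat_lit 473) (nat_lit 442) (nat_lit 225)) (XT.lf (nat_lit 0) (nat_lit 3322634588) (nat_lit 836) (nat_lit 9436017329) (nat_lit 912) (nat_lit 6706056796) (nat_lit 434) (nat_lit 5) (nat_lit 445) (nat_lit 5) (nat_lit 446) (nat_lit 5) (nat_lit 474) (nat_lit 442) (nat_lit 224))))) (XT.nd (nat_lit 234) (nat_lit 1672) (nat_lit 0) (XT.nd (nat_lit 78) (nat_lit 988) (nat_lit 0) (XT.lf (nat_lit 0) (nat_lit 14321450251) (nat_lit 836) (nat_lit 787907496) (nat_lit 912) (nat_lit 4566006427) (nat_lit 434) (nat_lit 5) (nat_lit 445) (nat_lit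 5) (nat_lit 446) (nat_lit 5) (nat_lit 475) (nat_lit 442) (nat_lit 223)) (XT.nd (nat_lit 78) (nat_lit 76) (nat_lit 0) (XT.lf (nat_lit 0) (nat_lit 5667155202) (nat_lit 912) (nat_lit 11923782124) (nat_lit 988) (nat_lit 2297618224) (nat_lit 422) (nat_lit 5) (nat_lit 434) (nat_lit 5) (nat_lit 435) (nat_lit 5) (nat_lit 476) (nat_lit 442) (nat_lit 222)) (XT.lf (nat_lit 0) (nat_lit 52251773) (nat_lit 988) (nat_lit 3134690992) (nat_lit 76) (nat_lit 16918339380) (nat_lit 421) (nat_lit 5) (nat_lit 434) (nat_lit 5) (nat_lit 422) (nat_lit 5) (nat_lit 477) (nat_lit 442) (nat_lit 221)))) (XT.nd (nat_lit 78) (nat_lit 836) (nat_lit 0) (XT.lf (nat_lit 0) (nat_lit 2504690322) (nat_lit 912) (nat_lit 12100754524) (nat_lit 76) (nat_lit 5718867955) (nat_lit 410) (nat_lit 5) (nat_lit 422) (nat_lit 5) (nat_lit 411) (nat_lit 5) (nat_lit 478) (nat_lit 442) (nat_lit 220)) (XT.nd (nat_lit 78) (nat_lit 836) (nat_lit 0) (XT.lf (nat_lit 0) (nat_lit 5043564402) (nat_lit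 912) (nat_lit 722107597) (nat_lit 76) (nat_lit 14781304337) (nat_lit 410) (nat_lit 5) (nat_lit 422) (nat_lit 5) (nat_lit 411) (nat_lit 5) (nat_lit 479) (nat_lit 442) (nat_lit 219)) (XT.lf (nat_lit 0) (nat_lit 7721572106) (nat_lit 912) (nat_lit 9770571767) (nat_lit 76) (nat_lit 3280182144) (nat_lit 399) (nat_lit 5) (nat_lit 411) (nat_lit 5) (nat_lit 400) (nat_lit 5) (nat_lit 480) (nat_lit 442) (nat_lit 218))))))) (XT.nd (nat_lit 56394) (nat_lit 0) (nat_lit 13832) (XT.nd (nat_lit 390) (nat_lit 2128) (nat_lit 0) (XT.nd (nat_lit 156) (nat_lit 1596) (nat_lit 0) (XT.nd (nat_lit 78) (nat_lit 0) (nat_lit 0) (XT.lf (nat_lit 0) (nat_lit 1950171185) (nat_lit 760) (nat_lit 8553955335) (nat_lit 836) (nat_lit 10497036442) (nat_lit 389) (nat_lit 5) (nat_lit 399) (nat_lit 5) (nat_lit 400) (nat_lit 5) (nat_lit 481) (nat_lit 442) (nat_lit 217)) (XT.lf (nat_lit 0) (nat_lit 13407309848) (nat_lit 836) (nat_lit 7204628354) (nat_lit 76) (nat_lit 621338887)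 (nat_lit 389) (nat_lit 5) (nat_lit 400) (nat_lit 5) (nat_lit 390) (nat_lit 5) (nat_lit 482) (nat_lit 442) (nat_lit 216))) (XT.nd (nat_lit 78) (nat_lit 836) (nat_lit 0) (XT.lf (nat_lit 0) (nat_lit 4881083710) (nat_lit 760) (nat_lit 11571227373) (nat_lit 836) (nat_lit 5016047330) (nat_lit 379) (nat_lit 5) (nat_lit 389) (nat_lit 5) (nat_lit 390) (nat_lit 5) (nat_lit 483) (nat_lit 442) (nat_lit 215)) (XT.nd (nat_lit 78) (nat_lit 836) (nat_lit 0) (XT.lf (nat_lit 0) (nat_lit 17301256985) (nat_lit 760) (nat_lit 2300774520) (nat_lit 836) (nat_lit 2105233477) (nat_lit 379) (nat_lit 5) (nat_lit 389) (nat_lit 5) (nat_lit 390) (nat_lit 5) (nat_lit 484) (nat_lit 442) (nat_lit 214)) (XT.lf (nat_lit 0) (nat_lit 947525315) (nat_lit 836) (nat_lit 13881885719) (nat_lit 76) (nat_lit 7119525330) (nat_lit 368) (nat_lit 5) (nat_lit 379) (nat_lit 5) (nat_lit 369) (nat_lit 5) (nat_lit 485) (nat_lit 442) (nat_lit 213))))) (XT.nd (nat_lit 156) (nat_lit 1368) (nat_lit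 0) (XT.nd (nat_lit 78) (nat_lit 760) (nat_lit 0) (XT.lf (nat_lit 0) (nat_lit 4073760958) (nat_lit 836) (nat_lit 1379859500) (nat_lit 76) (nat_lit 16740730190) (nat_lit 368) (nat_lit 5) (nat_lit 379) (nat_lit 5) (nat_lit 369) (nat_lit 5) (nat_lit 486) (nat_lit 442) (nat_lit 212)) (XT.lf (nat_lit 0) (nat_lit 7360153077) (nat_lit 836) (nat_lit 10951998598) (nat_lit 76) (nat_lit 4130568906) (nat_lit 358) (nat_lit 5) (nat_lit 369) (nat_lit 5) (nat_lit 359) (nat_lit 5) (nat_lit 487) (nat_lit 442) (nat_lit 211))) (XT.nd (nat_lit 78) (nat_lit 684) (nat_lit 0) (XT.lf (nat_lit 0) (nat_lit 1925741506) (nat_lit 684) (nat_lit 8840194207) (nat_lit 760) (nat_lit 11929048947) (nat_lit 349) (nat_lit 5) (nat_lit 358) (nat_lit 5) (nat_lit 359) (nat_lit 5) (nat_lit 488) (nat_lit 442) (nat_lit 210)) (XT.nd (nat_lit 78) (nat_lit 684) (nat_lit 0) (XT.lf (nat_lit 0) (nat_lit 14314916390) (nat_lit 760) (nat_lit 7752080995) (nat_lit 76) (nat_lit 883794987) (nat_lit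 349) (nat_lit 5) (nat_lit 359) (nat_lit 5) (nat_lit 350) (nat_lit 5) (nat_lit 489) (nat_lit 442) (nat_lit 209)) (XT.lf (nat_lit 0) (nat_lit 5534632498) (nat_lit 684) (nat_lit 12490576165) (nat_lit 760) (nat_lit 5184700936) (nat_lit 340) (nat_lit 5) (nat_lit 349) (nat_lit 5) (nat_lit 350) (nat_lit 5) (nat_lit 490) (nat_lit 442) (nat_lit 208)))))) (XT.nd (nat_lit 390) (nat_lit 0) (nat_lit 152) (XT.nd (nat_lit 156) (nat_lit 0) (nat_lit 0) (XT.nd (nat_lit 78) (nat_lit 0) (nat_lit 0) (XT.lf (nat_lit 0) (nat_lit 1961390905) (nat_lit 0) (nat_lit 1961390905) (nat_lit 1748) (nat_lit 3253608032) (nat_lit 522) (nat_lit 5) (nat_lit 522) (nat_lit 3) (nat_lit 545) (nat_lit 3) (nat_lit 443) (nat_lit 443) (nat_lit 254)) (XT.lf (nat_lit 0) (nat_lit 8271604045) (nat_lit 1748) (nat_lit 3270822236) (nat_lit 1824) (nat_lit 2946929506) (nat_lit 522) (nat_lit 5) (nat_lit 545) (nat_lit 3) (nat_lit 546) (nat_lit 5) (nat_lit 444) (nat_lit 443) (nat_lit 253)))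 (XT.nd (nat_lit 78) (nat_lit 0) (nat_lit 76) (XT.lf (nat_lit 76) (nat_lit 4054225642) (nat_lit 0) (nat_lit 4695660264) (nat_lit 1824) (nat_lit 5877903091) (nat_lit 523) (nat_lit 5) (nat_lit 522) (nat_lit 5) (nat_lit 546) (nat_lit 5) (nat_lit 445) (nat_lit 443) (nat_lit 252)) (XT.nd (nat_lit 78) (nat_lit 0) (nat_lit 0) (XT.lf (nat_lit 0) (nat_lit 9266267352) (nat_lit 1748) (nat_lit 3218110834) (nat_lit 1824) (nat_lit 2284042007) (nat_lit 523) (nat_lit 5) (nat_lit 546) (nat_lit 5) (nat_lit 547) (nat_lit 5) (nat_lit 446) (nat_lit 443) (nat_lit 251)) (XT.lf (nat_lit 76) (nat_lit 4305239764) (nat_lit 0) (nat_lit 5538535408) (nat_lit 1824) (nat_lit 5067072866) (nat_lit 524) (nat_lit 5) (nat_lit 523) (nat_lit 5) (nat_lit 547) (nat_lit 5) (nat_lit 447) (nat_lit 443) (nat_lit 250))))) (XT.nd (nat_lit 234) (nat_lit 0) (nat_lit 76) (XT.nd (nat_lit 78) (nat_lit 0) (nat_lit 0) (XT.lf (nat_lit 0) (nat_lit 10456515120) (nat_lit 1748) (nat_lit 3047928266)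 (nat_lit 1824) (nat_lit 1551207414) (nat_lit 524) (nat_lit 5) (nat_lit 547) (nat_lit 5) (nat_lit 548) (nat_lit 5) (nat_lit 448) (nat_lit 443) (nat_lit 249)) (XT.nd (nat_lit 78) (nat_lit 0) (nat_lit 76) (XT.lf (nat_lit 76) (nat_lit 4680977656) (nat_lit 0) (nat_lit 6459666621) (nat_lit 1824) (nat_lit 4061522653) (nat_lit 525) (nat_lit 5) (nat_lit 524) (nat_lit 5) (nat_lit 548) (nat_lit 5) (nat_lit 449) (nat_lit 443) (nat_lit 248)) (XT.lf (nat_lit 0) (nat_lit 11855968213) (nat_lit 1748) (nat_lit 2755063291) (nat_lit 1824) (nat_lit 740231634) (nat_lit 525) (nat_lit 5) (nat_lit 548) (nat_lit 5) (nat_lit 549) (nat_lit 5) (nat_lit 450) (nat_lit 443) (nat_lit 247)))) (XT.nd (nat_lit 78) (nat_lit 0) (nat_lit 0) (XT.lf (nat_lit 76) (nat_lit 5186940501) (nat_lit 0) (nat_lit 7467477010) (nat_lit 1824) (nat_lit 2847547381) (nat_lit 526) (nat_lit 5) (nat_lit 525) (nat_lit 5) (nat_lit 549) (nat_lit 5) (nat_lit 451) (nat_lit 443) (nat_lit 246)) (XT.nd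 (nat_lit 78) (nat_lit 0) (nat_lit 76) (XT.lf (nat_lit 76) (nat_lit 13320467738) (nat_lit 0) (nat_lit 159338044) (nat_lit 1824) (nat_lit 2175655500) (nat_lit 526) (nat_lit 5) (nat_lit 525) (nat_lit 5) (nat_lit 549) (nat_lit 5) (nat_lit 452) (nat_lit 443) (nat_lit 245)) (XT.lf (nat_lit 76) (nat_lit 5828985962) (nat_lit 0) (nat_lit 8570572891) (nat_lit 1824) (nat_lit 1410911606) (nat_lit 527) (nat_lit 5) (nat_lit 526) (nat_lit 5) (nat_lit 550) (nat_lit 5) (nat_lit 453) (nat_lit 443) (nat_lit 244))))))))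
noncomputable def xc238 : XT := (XT.nd (nat_lit 1560) (nat_lit 7296) (nat_lit 0) (XT.nd (nat_lit 780) (nat_lit 4408) (nat_lit 0) (XT.nd (nat_lit 390) (nat_lit 0) (nat_lit 152) (XT.nd (nat_lit 156) (nat_lit 0) (nat_lit 0) (XT.nd (nat_lit 78) (nat_lit 1748) (nat_lit 0) (XT.lf (nat_lit 76) (nat_lit 14182122018) (nat_lit 0) (nat_lit 1165063544) (nat_lit 1824) (nat_lit 621204686) (nat_lit 527) (nat_lit 5) (nat_lit 526) (nat_lit 5) (nat_lit 550) (nat_lit 5) (nat_lit 454) (nat_lit 443) (nat_lit 243)) (XT.lf (nat_lit 0) (nat_lit 259727694) (nat_lit 1824) (nat_lit 9516292767) (nat_lit 1900) (nat_lit 6351867072) (nat_lit 503) (nat_lit 5) (nat_lit 527) (nat_lit 5) (nat_lit 528) (nat_lit 5) (nat_lit 455) (nat_lit 443) (nat_lit 242))) (XT.nd (nat_lit 78) (nat_lit 0) (nat_lit 76) (XT.lf (nat_lit 0) (nat_lit 1162731617) (nat_lit 1824) (nat_lit 1105448584) (nat_lit 1900) (nat_lit 14022057024) (nat_lit 503) (nat_lit 5) (nat_lit 527) (nat_lit 5) (nat_lit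 528) (nat_lit 5) (nat_lit 456) (nat_lit 443) (nat_lit 241)) (XT.nd (nat_lit 78) (nat_lit 0) (nat_lit 0) (XT.lf (nat_lit 0) (nat_lit 2161385378) (nat_lit 1824) (nat_lit 8922190667) (nat_lit 1900) (nat_lit 5370706070) (nat_lit 504) (nat_lit 5) (nat_lit 528) (nat_lit 5) (nat_lit 529) (nat_lit 5) (nat_lit 457) (nat_lit 443) (nat_lit 240)) (XT.lf (nat_lit 0) (nat_lit 3195737182) (nat_lit 1824) (nat_lit 284018780) (nat_lit 1900) (nat_lit 13141537440) (nat_lit 504) (nat_lit 5) (nat_lit 528) (nat_lit 5) (nat_lit 529) (nat_lit 5) (nat_lit 458) (nat_lit 443) (nat_lit 239))))) (XT.nd (nat_lit 156) (nat_lit 0) (nat_lit 76) (XT.nd (nat_lit 78) (nat_lit 0) (nat_lit 0) (XT.lf (nat_lit 0) (nat_lit 4328359075) (nat_lit 1824) (nat_lit 8183392438) (nat_lit 1900) (nat_lit 4278341742) (nat_lit 505) (nat_lit 5) (nat_lit 529) (nat_lit 5) (nat_lit 530) (nat_lit 5) (nat_lit 459) (nat_lit 443) (nat_lit 238)) (XT.lf (nat_lit 76) (nat_lit 698080079) (nat_lit 0)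 (nat_lit 4808529266) (nat_lit 1900) (nat_lit 11455200241) (nat_lit 506) (nat_lit 5) (nat_lit 505) (nat_lit 5) (nat_lit 530) (nat_lit 5) (nat_lit 460) (nat_lit 443) (nat_lit 237))) (XT.nd (nat_lit 78) (nat_lit 0) (nat_lit 0) (XT.lf (nat_lit 0) (nat_lit 6777084680) (nat_lit 1824) (nat_lit 7292888562) (nat_lit 1900) (nat_lit 3065613800) (nat_lit 506) (nat_lit 5) (nat_lit 530) (nat_lit 5) (nat_lit 531) (nat_lit 5) (nat_lit 461) (nat_lit 443) (nat_lit 236)) (XT.nd (nat_lit 78) (nat_lit 0) (nat_lit 76) (XT.lf (nat_lit 76) (nat_lit 1844839181) (nat_lit 0) (nat_lit 6265665529) (nat_lit 1900) (nat_lit 9201584635) (nat_lit 507) (nat_lit 5) (nat_lit 506) (nat_lit 5) (nat_lit 531) (nat_lit 5) (nat_lit 462) (nat_lit 443) (nat_lit 235)) (XT.lf (nat_lit 0) (nat_lit 9524672910) (nat_lit 1824) (nat_lit 6243273204) (nat_lit 1900) (nat_lit 1723093984) (nat_lit 507) (nat_lit 5) (nat_lit 531) (nat_lit 5) (nat_lit 532) (nat_lit 5) (nat_lit 463) (nat_lit 443)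 (nat_lit 234)))))) (XT.nd (nat_lit 390) (nat_lit 3040) (nat_lit 0) (XT.nd (nat_lit 156) (nat_lit 1672) (nat_lit 0) (XT.nd (nat_lit 78) (nat_lit 0) (nat_lit 76) (XT.lf (nat_lit 76) (nat_lit 3160252377) (nat_lit 0) (nat_lit 7862819580) (nat_lit 1900) (nat_lit 6649378959) (nat_lit 508) (nat_lit 5) (nat_lit 507) (nat_lit 5) (nat_lit 532) (nat_lit 5) (nat_lit 464) (nat_lit 443) (nat_lit 233)) (XT.lf (nat_lit 0) (nat_lit 12588942582) (nat_lit 1824) (nat_lit 5026731467) (nat_lit 1900) (nat_lit 241065829) (nat_lit 508) (nat_lit 5) (nat_lit 532) (nat_lit 5) (nat_lit 533) (nat_lit 5) (nat_lit 465) (nat_lit 443) (nat_lit 232))) (XT.nd (nat_lit 78) (nat_lit 1748) (nat_lit 0) (XT.lf (nat_lit 76) (nat_lit 4652510962) (nat_lit 0) (nat_lit 9610044869) (nat_lit 1900) (nat_lit 3780630285) (nat_lit 509) (nat_lit 5) (nat_lit 508) (nat_lit 5) (nat_lit 533) (nat_lit 5) (nat_lit 466) (nat_lit 443) (nat_lit 231)) (XT.nd (nat_lit 78) (nat_lit 1748) (nat_lit 0)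 (XT.lf (nat_lit 76) (nat_lit 14588628170) (nat_lit 0) (nat_lit 1408974857) (nat_lit 1900) (nat_lit 2235199017) (nat_lit 509) (nat_lit 5) (nat_lit 508) (nat_lit 5) (nat_lit 533) (nat_lit 5) (nat_lit 467) (nat_lit 443) (nat_lit 230)) (XT.lf (nat_lit 0) (nat_lit 6330243312) (nat_lit 1824) (nat_lit 11517720396) (nat_lit 1900) (nat_lit 576634332) (nat_lit 485) (nat_lit 5) (nat_lit 509) (nat_lit 5) (nat_lit 510) (nat_lit 5) (nat_lit 468) (nat_lit 443) (nat_lit 229))))) (XT.nd (nat_lit 156) (nat_lit 1824) (nat_lit 0) (XT.nd (nat_lit 78) (nat_lit 1140) (nat_lit 0) (XT.lf (nat_lit 0) (nat_lit 1128815279) (nat_lit 1900) (nat_lit 2087842335) (nat_lit 76) (nat_lit 15402860775) (nat_lit 484) (nat_lit 5) (nat_lit 509) (nat_lit 5) (nat_lit 485) (nat_lit 5) (nat_lit 469) (nat_lit 443) (nat_lit 228)) (XT.lf (nat_lit 0) (nat_lit 2942989748) (nat_lit 1216) (nat_lit 10633833382) (nat_lit 76) (nat_lit 5239791044) (nat_lit 469) (nat_lit 5) (nat_lit 485) (nat_lit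 5) (nat_lit 470) (nat_lit 5) (nat_lit 470) (nat_lit 443) (nat_lit 227))) (XT.nd (nat_lit 78) (nat_lit 1824) (nat_lit 0) (XT.lf (nat_lit 0) (nat_lit 4823435381) (nat_lit 1216) (nat_lit 356548825) (nat_lit 76) (nat_lit 13837067915) (nat_lit 469) (nat_lit 5) (nat_lit 485) (nat_lit 5) (nat_lit 470) (nat_lit 5) (nat_lit 471) (nat_lit 443) (nat_lit 226)) (XT.nd (nat_lit 78) (nat_lit 912) (nat_lit 0) (XT.lf (nat_lit 0) (nat_lit 6825187429) (nat_lit 988) (nat_lit 8986706922) (nat_lit 76) (nat_lit 3407930527) (nat_lit 457) (nat_lit 5) (nat_lit 470) (nat_lit 5) (nat_lit 458) (nat_lit 5) (nat_lit 472) (nat_lit 443) (nat_lit 225)) (XT.lf (nat_lit 0) (nat_lit 1594518195) (nat_lit 912) (nat_lit 7314286432) (nat_lit 988) (nat_lit 10517011858) (nat_lit 445) (nat_lit 5) (nat_lit 457) (nat_lit 5) (nat_lit 458) (nat_lit 5) (nat_lit 473) (nat_lit 443) (nat_lit 224))))))) (XT.nd (nat_lit 780) (nat_lit 3040) (nat_lit 0) (XT.nd (nat_lit 390) (nat_lit 2432)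 (nat_lit 0) (XT.nd (nat_lit 156) (nat_lit 988) (nat_lit 0) (XT.nd (nat_lit 78) (nat_lit 836) (nat_lit 0) (XT.lf (nat_lit 0) (nat_lit 11098423104) (nat_lit 988) (nat_lit 7139675560) (nat_lit 76) (nat_lit 1396542684) (nat_lit 445) (nat_lit 5) (nat_lit 458) (nat_lit 5) (nat_lit 446) (nat_lit 5) (nat_lit 474) (nat_lit 443) (nat_lit 223)) (XT.lf (nat_lit 0) (nat_lit 3761821716) (nat_lit 836) (nat_lit 9637814355) (nat_lit 912) (nat_lit 6446650594) (nat_lit 434) (nat_lit 5) (nat_lit 445) (nat_lit 5) (nat_lit 446) (nat_lit 5) (nat_lit 475) (nat_lit 443) (nat_lit 222))) (XT.nd (nat_lit 78) (nat_lit 988) (nat_lit 0) (XT.lf (nat_lit 0) (nat_lit 14973305173) (nat_lit 836) (nat_lit 816485919) (nat_lit 912) (nat_lit 4271515440) (nat_lit 434) (nat_lit 5) (nat_lit 445) (nat_lit 5) (nat_lit 446) (nat_lit 5) (nat_lit 476) (nat_lit 443) (nat_lit 221)) (XT.nd (nat_lit 78) (nat_lit 76) (nat_lit 0) (XT.lf (nat_lit 0) (nat_lit 6151117951) (nat_lit 912) (nat_lit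 12164792424) (nat_lit 988) (nat_lit 1962953200) (nat_lit 422) (nat_lit 5) (nat_lit 434) (nat_lit 5) (nat_lit 435) (nat_lit 5) (nat_lit 477) (nat_lit 443) (nat_lit 220)) (XT.lf (nat_lit 0) (nat_lit 421557125) (nat_lit 988) (nat_lit 2829138233) (nat_lit 76) (nat_lit 17249327223) (nat_lit 421) (nat_lit 5) (nat_lit 434) (nat_lit 5) (nat_lit 422) (nat_lit 5) (nat_lit 478) (nat_lit 443) (nat_lit 219))))) (XT.nd (nat_lit 156) (nat_lit 1596) (nat_lit 0) (XT.nd (nat_lit 78) (nat_lit 0) (nat_lit 0) (XT.lf (nat_lit 0) (nat_lit 2918214468) (nat_lit 912) (nat_lit 11969693059) (nat_lit 76) (nat_lit 5835622924) (nat_lit 410) (nat_lit 5) (nat_lit 422) (nat_lit 5) (nat_lit 411) (nat_lit 5) (nat_lit 479) (nat_lit 443) (nat_lit 218)) (XT.lf (nat_lit 0) (nat_lit 5500739944) (nat_lit 912) (nat_lit 370788420) (nat_lit 76) (nat_lit 15079261413) (nat_lit 410) (nat_lit 5) (nat_lit 422) (nat_lit 5) (nat_lit 411) (nat_lit 5) (nat_lit 480) (nat_lit 443) (nat_lit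 217))) (XT.nd (nat_lit 78) (nat_lit 760) (nat_lit 0) (XT.lf (nat_lit 0) (nat_lit 8227756407) (nat_lit 912) (nat_lit 9595670478) (nat_lit 76) (nat_lit 3357310595) (nat_lit 399) (nat_lit 5) (nat_lit 411) (nat_lit 5) (nat_lit 400) (nat_lit 5) (nat_lit 481) (nat_lit 443) (nat_lit 216)) (XT.nd (nat_lit 78) (nat_lit 0) (nat_lit 0) (XT.lf (nat_lit 0) (nat_lit 2357051065) (nat_lit 760) (nat_lit 8704402228) (nat_lit 836) (nat_lit 10352788043) (nat_lit 389) (nat_lit 5) (nat_lit 399) (nat_lit 5) (nat_lit 400) (nat_lit 5) (nat_lit 482) (nat_lit 443) (nat_lit 215)) (XT.lf (nat_lit 0) (nat_lit 14016022908) (nat_lit 836) (nat_lit 6981380349) (nat_lit 76) (nat_lit 653728036) (nat_lit 389) (nat_lit 5) (nat_lit 400) (nat_lit 5) (nat_lit 390) (nat_lit 5) (nat_lit 483) (nat_lit 443) (nat_lit 214)))))) (XT.nd (nat_lit 390) (nat_lit 684) (nat_lit 0) (XT.nd (nat_lit 156) (nat_lit 1596) (nat_lit 0) (XT.nd (nat_lit 78) (nat_lit 0) (nat_lit 0) (XT.lf (nat_lit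 0) (nat_lit 5343629242) (nat_lit 760) (nat_lit 11773986473) (nat_lit 836) (nat_lit 4773384699) (nat_lit 379) (nat_lit 5) (nat_lit 389) (nat_lit 5) (nat_lit 390) (nat_lit 5) (nat_lit 484) (nat_lit 443) (nat_lit 213)) (XT.lf (nat_lit 0) (nat_lit 18005050612) (nat_lit 760) (nat_lit 2318686630) (nat_lit 836) (nat_lit 1811079737) (nat_lit 379) (nat_lit 5) (nat_lit 389) (nat_lit 5) (nat_lit 390) (nat_lit 5) (nat_lit 485) (nat_lit 443) (nat_lit 212))) (XT.nd (nat_lit 78) (nat_lit 760) (nat_lit 0) (XT.lf (nat_lit 0) (nat_lit 1294361878) (nat_lit 836) (nat_lit 13793382593) (nat_lit 76) (nat_lit 7293612900) (nat_lit 368) (nat_lit 5) (nat_lit 379) (nat_lit 5) (nat_lit 369) (nat_lit 5) (nat_lit 486) (nat_lit 443) (nat_lit 211)) (XT.nd (nat_lit 78) (nat_lit 760) (nat_lit 0) (XT.lf (nat_lit 0) (nat_lit 4476693096) (nat_lit 836) (nat_lit 1048495081) (nat_lit 76) (nat_lit 17106620345) (nat_lit 368) (nat_lit 5) (nat_lit 379) (nat_lit 5) (nat_lit 369)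 (nat_lit 5) (nat_lit 487) (nat_lit 443) (nat_lit 210)) (XT.lf (nat_lit 0) (nat_lit 7825079327) (nat_lit 836) (nat_lit 10808343233) (nat_lit 76) (nat_lit 4251797969) (nat_lit 358) (nat_lit 5) (nat_lit 369) (nat_lit 5) (nat_lit 359) (nat_lit 5) (nat_lit 488) (nat_lit 443) (nat_lit 209))))) (XT.nd (nat_lit 55926) (nat_lit 0) (nat_lit 13148) (XT.nd (nat_lit 78) (nat_lit 0) (nat_lit 0) (XT.lf (nat_lit 0) (nat_lit 2324565520) (nat_lit 684) (nat_lit 8970521595) (nat_lit 760) (nat_lit 11847520584) (nat_lit 349) (nat_lit 5) (nat_lit 358) (nat_lit 5) (nat_lit 359) (nat_lit 5) (nat_lit 489) (nat_lit 443) (nat_lit 208)) (XT.nd (nat_lit 55770) (nat_lit 0) (nat_lit 13148) (XT.lf (nat_lit 0) (nat_lit 14909189663) (nat_lit 760) (nat_lit 7548020575) (nat_lit 76) (nat_lit 946438483) (nat_lit 349) (nat_lit 5) (nat_lit 359) (nat_lit 5) (nat_lit 350) (nat_lit 5) (nat_lit 490) (nat_lit 443) (nat_lit 207)) (XT.lf (nat_lit 0) (nat_lit 2163651833) (nat_lit 0)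 (nat_lit 2163651833) (nat_lit 1748) (nat_lit 2986092648) (nat_lit 522) (nat_lit 5) (nat_lit 522) (nat_lit 3) (nat_lit 545) (nat_lit 3) (nat_lit 444) (nat_lit 444) (nat_lit 252)))) (XT.nd (nat_lit 78) (nat_lit 0) (nat_lit 0) (XT.lf (nat_lit 0) (nat_lit 9074306129) (nat_lit 1748) (nat_lit 3001703477) (nat_lit 1824) (nat_lit 2690387896) (nat_lit 522) (nat_lit 5) (nat_lit 545) (nat_lit 3) (nat_lit 546) (nat_lit 5) (nat_lit 445) (nat_lit 444) (nat_lit 251)) (XT.nd (nat_lit 78) (nat_lit 0) (nat_lit 76) (XT.lf (nat_lit 76) (nat_lit 4467644469) (nat_lit 0) (nat_lit 5084171403) (nat_lit 1824) (nat_lit 5355990260) (nat_lit 523) (nat_lit 5) (nat_lit 522) (nat_lit 5) (nat_lit 546) (nat_lit 5) (nat_lit 446) (nat_lit 444) (nat_lit 250)) (XT.lf (nat_lit 0) (nat_lit 10064356937) (nat_lit 1748) (nat_lit 2942487085) (nat_lit 1824) (nat_lit 2044689290) (nat_lit 523) (nat_lit 5) (nat_lit 546) (nat_lit 5) (nat_lit 547) (nat_lit 5) (nat_lit 447) (nat_lit 444)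 (nat_lit 249))))))))
noncomputable def xc239 : XT := (XT.nd (nat_lit 1638) (nat_lit 11020) (nat_lit 0) (XT.nd (nat_lit 780) (nat_lit 0) (nat_lit 76) (XT.nd (nat_lit 390) (nat_lit 1520) (nat_lit 0) (XT.nd (nat_lit 156) (nat_lit 0) (nat_lit 76) (XT.nd (nat_lit 78) (nat_lit 0) (nat_lit 76) (XT.lf (nat_lit 76) (nat_lit 4729093775) (nat_lit 0) (nat_lit 5914499046) (nat_lit 1824) (nat_lit 4553413335) (nat_lit 524) (nat_lit 5) (nat_lit 523) (nat_lit 5) (nat_lit 547) (nat_lit 5) (nat_lit 448) (nat_lit 444) (nat_lit 248)) (XT.lf (nat_lit 0) (nat_lit 11255077125) (nat_lit 1748) (nat_lit 2764249707) (nat_lit 1824) (nat_lit 1325648350) (nat_lit 524) (nat_lit 5) (nat_lit 547) (nat_lit 5) (nat_lit 548) (nat_lit 5) (nat_lit 449) (nat_lit 444) (nat_lit 247))) (XT.nd (nat_lit 78) (nat_lit 0) (nat_lit 76) (XT.lf (nat_lit 76) (nat_lit 5116966984) (nat_lit 0) (nat_lit 6826587288) (nat_lit 1824) (nat_lit 3551054054) (nat_lit 525) (nat_lit 5) (nat_lit 524)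 (nat_lit 5) (nat_lit 548) (nat_lit 5) (nat_lit 450) (nat_lit 444) (nat_lit 246)) (XT.nd (nat_lit 78) (nat_lit 0) (nat_lit 0) (XT.lf (nat_lit 0) (nat_lit 12660297014) (nat_lit 1748) (nat_lit 2461620243) (nat_lit 1824) (nat_lit 525026954) (nat_lit 525) (nat_lit 5) (nat_lit 548) (nat_lit 5) (nat_lit 549) (nat_lit 5) (nat_lit 451) (nat_lit 444) (nat_lit 245)) (XT.lf (nat_lit 76) (nat_lit 5636930571) (nat_lit 0) (nat_lit 7828911067) (nat_lit 1824) (nat_lit 2334995836) (nat_lit 526) (nat_lit 5) (nat_lit 525) (nat_lit 5) (nat_lit 549) (nat_lit 5) (nat_lit 452) (nat_lit 444) (nat_lit 244))))) (XT.nd (nat_lit 156) (nat_lit 1672) (nat_lit 0) (XT.nd (nat_lit 78) (nat_lit 0) (nat_lit 76) (XT.lf (nat_lit 76) (nat_lit 13926339112) (nat_lit 0) (nat_lit 370450802) (nat_lit 1824) (nat_lit 1660832833) (nat_lit 526) (nat_lit 5) (nat_lit 525) (nat_lit 5) (nat_lit 549) (nat_lit 5) (nat_lit 453) (nat_lit 444) (nat_lit 243)) (XT.lf (nat_lit 76) (nat_lit 6295011245)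 (nat_lit 0) (nat_lit 8930139012) (nat_lit 1824) (nat_lit 890777606) (nat_lit 527) (nat_lit 5) (nat_lit 526) (nat_lit 5) (nat_lit 550) (nat_lit 5) (nat_lit 454) (nat_lit 444) (nat_lit 242))) (XT.nd (nat_lit 78) (nat_lit 1748) (nat_lit 0) (XT.lf (nat_lit 76) (nat_lit 14808358148) (nat_lit 0) (nat_lit 1372830171) (nat_lit 1824) (nat_lit 96028553) (nat_lit 527) (nat_lit 5) (nat_lit 526) (nat_lit 5) (nat_lit 550) (nat_lit 5) (nat_lit 455) (nat_lit 444) (nat_lit 241)) (XT.nd (nat_lit 78) (nat_lit 0) (nat_lit 0) (XT.lf (nat_lit 0) (nat_lit 786187418) (nat_lit 1824) (nat_lit 9347689875) (nat_lit 1900) (nat_lit 6306142687) (nat_lit 503) (nat_lit 5) (nat_lit 527) (nat_lit 5) (nat_lit 528) (nat_lit 5) (nat_lit 456) (nat_lit 444) (nat_lit 240)) (XT.lf (nat_lit 0) (nat_lit 1697030534) (nat_lit 1824) (nat_lit 775666627) (nat_lit 1900) (nat_lit 14133123923) (nat_lit 503) (nat_lit 5) (nat_lit 527) (nat_lit 5) (nat_lit 528) (nat_lit 5) (nat_lit 457) (nat_lit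 444) (nat_lit 239)))))) (XT.nd (nat_lit 390) (nat_lit 0) (nat_lit 152) (XT.nd (nat_lit 156) (nat_lit 0) (nat_lit 76) (XT.nd (nat_lit 78) (nat_lit 0) (nat_lit 0) (XT.lf (nat_lit 0) (nat_lit 2706908535) (nat_lit 1824) (nat_lit 8739994717) (nat_lit 1900) (nat_lit 5326418595) (nat_lit 504) (nat_lit 5) (nat_lit 528) (nat_lit 5) (nat_lit 529) (nat_lit 5) (nat_lit 458) (nat_lit 444) (nat_lit 238)) (XT.lf (nat_lit 76) (nat_lit 64718027) (nat_lit 0) (nat_lit 3687800610) (nat_lit 1900) (nat_lit 13191343299) (nat_lit 505) (nat_lit 5) (nat_lit 504) (nat_lit 5) (nat_lit 529) (nat_lit 5) (nat_lit 459) (nat_lit 444) (nat_lit 237))) (XT.nd (nat_lit 78) (nat_lit 0) (nat_lit 0) (XT.lf (nat_lit 0) (nat_lit 4899128554) (nat_lit 1824) (nat_lit 7985247669) (nat_lit 1900) (nat_lit 4231834851) (nat_lit 505) (nat_lit 5) (nat_lit 529) (nat_lit 5) (nat_lit 530) (nat_lit 5) (nat_lit 460) (nat_lit 444) (nat_lit 236)) (XT.nd (nat_lit 78) (nat_lit 0) (nat_lit 76) (XT.lf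 (nat_lit 76) (nat_lit 1071473952) (nat_lit 0) (nat_lit 5022309387) (nat_lit 1900) (nat_lit 11197721603) (nat_lit 506) (nat_lit 5) (nat_lit 505) (nat_lit 5) (nat_lit 530) (nat_lit 5) (nat_lit 461) (nat_lit 444) (nat_lit 235)) (XT.lf (nat_lit 0) (nat_lit 7379565794) (nat_lit 1824) (nat_lit 7076259366) (nat_lit 1900) (nat_lit 3013134835) (nat_lit 506) (nat_lit 5) (nat_lit 530) (nat_lit 5) (nat_lit 531) (nat_lit 5) (nat_lit 462) (nat_lit 444) (nat_lit 234))))) (XT.nd (nat_lit 234) (nat_lit 0) (nat_lit 152) (XT.nd (nat_lit 78) (nat_lit 0) (nat_lit 76) (XT.lf (nat_lit 76) (nat_lit 2241838149) (nat_lit 0) (nat_lit 6490998422) (nat_lit 1900) (nat_lit 8916292125) (nat_lit 507) (nat_lit 5) (nat_lit 506) (nat_lit 5) (nat_lit 531) (nat_lit 5) (nat_lit 463) (nat_lit 444) (nat_lit 233)) (XT.nd (nat_lit 78) (nat_lit 0) (nat_lit 0) (XT.lf (nat_lit 0) (nat_lit 10165629479) (nat_lit 1824) (nat_lit 6005438655) (nat_lit 1900) (nat_lit 1660783503) (nat_lit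 507) (nat_lit 5) (nat_lit 531) (nat_lit 5) (nat_lit 532) (nat_lit 5) (nat_lit 464) (nat_lit 444) (nat_lit 232)) (XT.lf (nat_lit 76) (nat_lit 3583771253) (nat_lit 0) (nat_lit 8103732041) (nat_lit 1900) (nat_lit 6329517242) (nat_lit 508) (nat_lit 5) (nat_lit 507) (nat_lit 5) (nat_lit 532) (nat_lit 5) (nat_lit 465) (nat_lit 444) (nat_lit 231)))) (XT.nd (nat_lit 78) (nat_lit 0) (nat_lit 0) (XT.lf (nat_lit 0) (nat_lit 13275453538) (nat_lit 1824) (nat_lit 4764779452) (nat_lit 1900) (nat_lit 164947043) (nat_lit 508) (nat_lit 5) (nat_lit 532) (nat_lit 5) (nat_lit 533) (nat_lit 5) (nat_lit 466) (nat_lit 444) (nat_lit 230)) (XT.nd (nat_lit 78) (nat_lit 0) (nat_lit 0) (XT.lf (nat_lit 76) (nat_lit 5105663045) (nat_lit 0) (nat_lit 9870689869) (nat_lit 1900) (nat_lit 3419126005) (nat_lit 509) (nat_lit 5) (nat_lit 508) (nat_lit 5) (nat_lit 533) (nat_lit 5) (nat_lit 467) (nat_lit 444) (nat_lit 229)) (XT.lf (nat_lit 76) (nat_lit 15233441777) (nat_lit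 0) (nat_lit 1504256416) (nat_lit 1900) (nat_lit 1851357031) (nat_lit 509) (nat_lit 5) (nat_lit 508) (nat_lit 5) (nat_lit 533) (nat_lit 5) (nat_lit 468) (nat_lit 444) (nat_lit 228))))))) (XT.nd (nat_lit 780) (nat_lit 4864) (nat_lit 0) (XT.nd (nat_lit 390) (nat_lit 2660) (nat_lit 0) (XT.nd (nat_lit 156) (nat_lit 2052) (nat_lit 0) (XT.nd (nat_lit 78) (nat_lit 76) (nat_lit 0) (XT.lf (nat_lit 0) (nat_lit 6816346968) (nat_lit 1824) (nat_lit 11802387994) (nat_lit 1900) (nat_lit 166078799) (nat_lit 485) (nat_lit 5) (nat_lit 509) (nat_lit 5) (nat_lit 510) (nat_lit 5) (nat_lit 469) (nat_lit 444) (nat_lit 227)) (XT.lf (nat_lit 0) (nat_lit 1559776346) (nat_lit 1900) (nat_lit 1771722170) (nat_lit 76) (nat_lit 15652242546) (nat_lit 484) (nat_lit 5) (nat_lit 509) (nat_lit 5) (nat_lit 485) (nat_lit 5) (nat_lit 470) (nat_lit 444) (nat_lit 226))) (XT.nd (nat_lit 78) (nat_lit 912) (nat_lit 0) (XT.lf (nat_lit 0) (nat_lit 3404228836) (nat_lit 1216) (nat_lit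 10482627568) (nat_lit 76) (nat_lit 5298042468) (nat_lit 469) (nat_lit 5) (nat_lit 485) (nat_lit 5) (nat_lit 470) (nat_lit 5) (nat_lit 471) (nat_lit 444) (nat_lit 225)) (XT.nd (nat_lit 78) (nat_lit 912) (nat_lit 0) (XT.lf (nat_lit 0) (nat_lit 5314393591) (nat_lit 1216) (nat_lit 6932271) (nat_lit 76) (nat_lit 14068177512) (nat_lit 469) (nat_lit 5) (nat_lit 485) (nat_lit 5) (nat_lit 470) (nat_lit 5) (nat_lit 472) (nat_lit 444) (nat_lit 224)) (XT.lf (nat_lit 0) (nat_lit 7350521592) (nat_lit 988) (nat_lit 8804034441) (nat_lit 76) (nat_lit 3441888733) (nat_lit 457) (nat_lit 5) (nat_lit 470) (nat_lit 5) (nat_lit 458) (nat_lit 5) (nat_lit 473) (nat_lit 444) (nat_lit 223))))) (XT.nd (nat_lit 156) (nat_lit 1748) (nat_lit 0) (XT.nd (nat_lit 78) (nat_lit 0) (nat_lit 0) (XT.lf (nat_lit 0) (nat_lit 1986430924) (nat_lit 912) (nat_lit 7484093589) (nat_lit 988) (nat_lit 10336137427) (nat_lit 445) (nat_lit 5) (nat_lit 457) (nat_lit 5) (nat_lit 458) (nat_lit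 5) (nat_lit 474) (nat_lit 444) (nat_lit 222)) (XT.lf (nat_lit 0) (nat_lit 11696265170) (nat_lit 988) (nat_lit 6921835780) (nat_lit 76) (nat_lit 1401715753) (nat_lit 445) (nat_lit 5) (nat_lit 458) (nat_lit 5) (nat_lit 446) (nat_lit 5) (nat_lit 475) (nat_lit 444) (nat_lit 221))) (XT.nd (nat_lit 78) (nat_lit 912) (nat_lit 0) (XT.lf (nat_lit 0) (nat_lit 4195318854) (nat_lit 836) (nat_lit 9843139538) (nat_lit 912) (nat_lit 6197337415) (nat_lit 434) (nat_lit 5) (nat_lit 445) (nat_lit 5) (nat_lit 446) (nat_lit 5) (nat_lit 476) (nat_lit 444) (nat_lit 220)) (XT.nd (nat_lit 78) (nat_lit 912) (nat_lit 0) (XT.lf (nat_lit 0) (nat_lit 15624007261) (nat_lit 836) (nat_lit 845138084) (nat_lit 912) (nat_lit 3986116150) (nat_lit 434) (nat_lit 5) (nat_lit 445) (nat_lit 5) (nat_lit 446) (nat_lit 5) (nat_lit 477) (nat_lit 444) (nat_lit 219)) (XT.lf (nat_lit 0) (nat_lit 6630368342) (nat_lit 912) (nat_lit 12410524507) (nat_lit 988) (nat_lit 1636374712) (nat_lit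 422) (nat_lit 5) (nat_lit 434) (nat_lit 5) (nat_lit 435) (nat_lit 5) (nat_lit 478) (nat_lit 444) (nat_lit 218)))))) (XT.nd (nat_lit 390) (nat_lit 2356) (nat_lit 0) (XT.nd (nat_lit 156) (nat_lit 1596) (nat_lit 0) (XT.nd (nat_lit 78) (nat_lit 836) (nat_lit 0) (XT.lf (nat_lit 0) (nat_lit 783948587) (nat_lit 988) (nat_lit 2531773883) (nat_lit 76) (nat_lit 17587221357) (nat_lit 421) (nat_lit 5) (nat_lit 434) (nat_lit 5) (nat_lit 422) (nat_lit 5) (nat_lit 479) (nat_lit 444) (nat_lit 217)) (XT.lf (nat_lit 0) (nat_lit 3325896654) (nat_lit 912) (nat_lit 11850497381) (nat_lit 76) (nat_lit 5954620666) (nat_lit 410) (nat_lit 5) (nat_lit 422) (nat_lit 5) (nat_lit 411) (nat_lit 5) (nat_lit 480) (nat_lit 444) (nat_lit 216))) (XT.nd (nat_lit 78) (nat_lit 1596) (nat_lit 0) (XT.lf (nat_lit 0) (nat_lit 5953223269) (nat_lit 912) (nat_lit 26645817) (nat_lit 76) (nat_lit 15383087116) (nat_lit 410) (nat_lit 5) (nat_lit 422) (nat_lit 5) (nat_lit 411) (nat_lit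 5) (nat_lit 481) (nat_lit 444) (nat_lit 215)) (XT.nd (nat_lit 78) (nat_lit 760) (nat_lit 0) (XT.lf (nat_lit 0) (nat_lit 8730405403) (nat_lit 912) (nat_lit 9431650858) (nat_lit 76) (nat_lit 3435534092) (nat_lit 399) (nat_lit 5) (nat_lit 411) (nat_lit 5) (nat_lit 400) (nat_lit 5) (nat_lit 482) (nat_lit 444) (nat_lit 214)) (XT.lf (nat_lit 0) (nat_lit 2757783451) (nat_lit 760) (nat_lit 8858659233) (nat_lit 836) (nat_lit 10219408272) (nat_lit 389) (nat_lit 5) (nat_lit 399) (nat_lit 5) (nat_lit 400) (nat_lit 5) (nat_lit 483) (nat_lit 444) (nat_lit 213))))) (XT.nd (nat_lit 234) (nat_lit 1596) (nat_lit 0) (XT.nd (nat_lit 78) (nat_lit 760) (nat_lit 0) (XT.lf (nat_lit 0) (nat_lit 14623685603) (nat_lit 836) (nat_lit 6767931667) (nat_lit 76) (nat_lit 685989805) (nat_lit 389) (nat_lit 5) (nat_lit 400) (nat_lit 5) (nat_lit 390) (nat_lit 5) (nat_lit 484) (nat_lit 444) (nat_lit 212)) (XT.nd (nat_lit 78) (nat_lit 0) (nat_lit 0) (XT.lf (nat_lit 0) (nat_lit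 5801255246) (nat_lit 760) (nat_lit 11981913869) (nat_lit 836) (nat_lit 4539187286) (nat_lit 379) (nat_lit 5) (nat_lit 389) (nat_lit 5) (nat_lit 390) (nat_lit 5) (nat_lit 485) (nat_lit 444) (nat_lit 211)) (XT.lf (nat_lit 0) (nat_lit 18709027526) (nat_lit 760) (nat_lit 2338048271) (nat_lit 836) (nat_lit 1524100247) (nat_lit 379) (nat_lit 5) (nat_lit 389) (nat_lit 5) (nat_lit 390) (nat_lit 5) (nat_lit 486) (nat_lit 444) (nat_lit 210)))) (XT.nd (nat_lit 78) (nat_lit 760) (nat_lit 0) (XT.lf (nat_lit 0) (nat_lit 1635402957) (nat_lit 836) (nat_lit 13717327099) (nat_lit 76) (nat_lit 7469951385) (nat_lit 368) (nat_lit 5) (nat_lit 379) (nat_lit 5) (nat_lit 369) (nat_lit 5) (nat_lit 487) (nat_lit 444) (nat_lit 209)) (XT.nd (nat_lit 78) (nat_lit 760) (nat_lit 0) (XT.lf (nat_lit 0) (nat_lit 4875201312) (nat_lit 836) (nat_lit 724442291) (nat_lit 76) (nat_lit 17478621602) (nat_lit 368) (nat_lit 5) (nat_lit 379) (nat_lit 5) (nat_lit 369) (nat_lit 5)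 (nat_lit 488) (nat_lit 444) (nat_lit 208)) (XT.lf (nat_lit 0) (nat_lit 8286966524) (nat_lit 836) (nat_lit 10675898662) (nat_lit 76) (nat_lit 4373952041) (nat_lit 358) (nat_lit 5) (nat_lit 369) (nat_lit 5) (nat_lit 359) (nat_lit 5) (nat_lit 489) (nat_lit 444) (nat_lit 207))))))))
noncomputable def xc240 : XT := (XT.nd (nat_lit 1560) (nat_lit 8588) (nat_lit 0) (XT.nd (nat_lit 780) (nat_lit 1520) (nat_lit 0) (XT.nd (nat_lit 390) (nat_lit 0) (nat_lit 152) (XT.nd (nat_lit 156) (nat_lit 0) (nat_lit 0) (XT.nd (nat_lit 78) (nat_lit 0) (nat_lit 0) (XT.lf (nat_lit 0) (nat_lit 2363627206) (nat_lit 0) (nat_lit 2363627206) (nat_lit 1748) (nat_lit 2726141735) (nat_lit 522) (nat_lit 5) (nat_lit 522) (nat_lit 3) (nat_lit 545) (nat_lit 3) (nat_lit 445) (nat_lit 445) (nat_lit 250)) (XT.lf (nat_lit 0) (nat_lit 9868316285) (nat_lit 1748) (nat_lit 2740192752) (nat_lit 1824) (nat_lit 2440965935) (nat_lit 522) (nat_lit 5) (nat_lit 545) (nat_lit 3) (nat_lit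 546) (nat_lit 5) (nat_lit 446) (nat_lit 445) (nat_lit 249))) (XT.nd (nat_lit 78) (nat_lit 0) (nat_lit 76) (XT.lf (nat_lit 76) (nat_lit 4876426726) (nat_lit 0) (nat_lit 5469013168) (nat_lit 1824) (nat_lit 4848470607) (nat_lit 523) (nat_lit 5) (nat_lit 522) (nat_lit 5) (nat_lit 546) (nat_lit 5) (nat_lit 447) (nat_lit 445) (nat_lit 248)) (XT.nd (nat_lit 78) (nat_lit 0) (nat_lit 0) (XT.lf (nat_lit 0) (nat_lit 10854613931) (nat_lit 1748) (nat_lit 2674552931) (nat_lit 1824) (nat_lit 1811617718) (nat_lit 523) (nat_lit 5) (nat_lit 546) (nat_lit 5) (nat_lit 547) (nat_lit 5) (nat_lit 448) (nat_lit 445) (nat_lit 247)) (XT.lf (nat_lit 76) (nat_lit 5148309652) (nat_lit 0) (nat_lit 6287684191) (nat_lit 1824) (nat_lit 4053361852) (nat_lit 524) (nat_lit 5) (nat_lit 523) (nat_lit 5) (nat_lit 547) (nat_lit 5) (nat_lit 449) (nat_lit 445) (nat_lit 246))))) (XT.nd (nat_lit 156) (nat_lit 0) (nat_lit 76) (XT.nd (nat_lit 78) (nat_lit 0) (nat_lit 0) (XT.lf (nat_lit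 0) (nat_lit 12046722018) (nat_lit 1748) (nat_lit 2488280257) (nat_lit 1824) (nat_lit 1105541544) (nat_lit 524) (nat_lit 5) (nat_lit 547) (nat_lit 5) (nat_lit 548) (nat_lit 5) (nat_lit 450) (nat_lit 445) (nat_lit 245)) (XT.lf (nat_lit 76) (nat_lit 5548381463) (nat_lit 0) (nat_lit 7191615127) (nat_lit 1824) (nat_lit 3053352478) (nat_lit 525) (nat_lit 5) (nat_lit 524) (nat_lit 5) (nat_lit 548) (nat_lit 5) (nat_lit 451) (nat_lit 445) (nat_lit 244))) (XT.nd (nat_lit 78) (nat_lit 0) (nat_lit 0) (XT.lf (nat_lit 0) (nat_lit 13458686958) (nat_lit 1748) (nat_lit 2175842734) (nat_lit 1824) (nat_lit 314449723) (nat_lit 525) (nat_lit 5) (nat_lit 548) (nat_lit 5) (nat_lit 549) (nat_lit 5) (nat_lit 452) (nat_lit 445) (nat_lit 243)) (XT.nd (nat_lit 78) (nat_lit 0) (nat_lit 0) (XT.lf (nat_lit 76) (nat_lit 6082475083) (nat_lit 0) (nat_lit 8189338305) (nat_lit 1824) (nat_lit 1834307737) (nat_lit 526) (nat_lit 5) (nat_lit 525) (nat_lit 5) (nat_lit 549) (nat_lit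 5) (nat_lit 453) (nat_lit 445) (nat_lit 242)) (XT.lf (nat_lit 76) (nat_lit 14531146189) (nat_lit 0) (nat_lit 577711795) (nat_lit 1824) (nat_lit 1157394572) (nat_lit 526) (nat_lit 5) (nat_lit 525) (nat_lit 5) (nat_lit 549) (nat_lit 5) (nat_lit 454) (nat_lit 445) (nat_lit 241)))))) (XT.nd (nat_lit 390) (nat_lit 0) (nat_lit 152) (XT.nd (nat_lit 156) (nat_lit 0) (nat_lit 76) (XT.nd (nat_lit 78) (nat_lit 1824) (nat_lit 0) (XT.lf (nat_lit 76) (nat_lit 6756787637) (nat_lit 0) (nat_lit 9289590181) (nat_lit 1824) (nat_lit 381534112) (nat_lit 527) (nat_lit 5) (nat_lit 526) (nat_lit 5) (nat_lit 550) (nat_lit 5) (nat_lit 455) (nat_lit 445) (nat_lit 240)) (XT.lf (nat_lit 0) (nat_lit 413283115) (nat_lit 1824) (nat_lit 1161532653) (nat_lit 1900) (nat_lit 15017759208) (nat_lit 502) (nat_lit 5) (nat_lit 526) (nat_lit 5) (nat_lit 527) (nat_lit 5) (nat_lit 456) (nat_lit 445) (nat_lit 239))) (XT.nd (nat_lit 78) (nat_lit 0) (nat_lit 0) (XT.lf (nat_lit 0)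 (nat_lit 1302934975) (nat_lit 1824) (nat_lit 9189652566) (nat_lit 1900) (nat_lit 6266212362) (nat_lit 503) (nat_lit 5) (nat_lit 527) (nat_lit 5) (nat_lit 528) (nat_lit 5) (nat_lit 457) (nat_lit 445) (nat_lit 238)) (XT.nd (nat_lit 78) (nat_lit 0) (nat_lit 76) (XT.lf (nat_lit 0) (nat_lit 2222170956) (nat_lit 1824) (nat_lit 452953385) (nat_lit 1900) (nat_lit 14252989167) (nat_lit 503) (nat_lit 5) (nat_lit 527) (nat_lit 5) (nat_lit 528) (nat_lit 5) (nat_lit 458) (nat_lit 445) (nat_lit 237)) (XT.lf (nat_lit 0) (nat_lit 3243837411) (nat_lit 1824) (nat_lit 8568158930) (nat_lit 1900) (nat_lit 5287136129) (nat_lit 504) (nat_lit 5) (nat_lit 528) (nat_lit 5) (nat_lit 529) (nat_lit 5) (nat_lit 459) (nat_lit 445) (nat_lit 236))))) (XT.nd (nat_lit 156) (nat_lit 0) (nat_lit 76) (XT.nd (nat_lit 78) (nat_lit 0) (nat_lit 76) (XT.lf (nat_lit 76) (nat_lit 410367571) (nat_lit 0) (nat_lit 3892761442) (nat_lit 1900) (nat_lit 12970098962) (nat_lit 505) (nat_lit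 5) (nat_lit 504) (nat_lit 5) (nat_lit 529) (nat_lit 5) (nat_lit 460) (nat_lit 445) (nat_lit 235)) (XT.lf (nat_lit 0) (nat_lit 5462511257) (nat_lit 1824) (nat_lit 7797189630) (nat_lit 1900) (nat_lit 4189526406) (nat_lit 505) (nat_lit 5) (nat_lit 529) (nat_lit 5) (nat_lit 530) (nat_lit 5) (nat_lit 461) (nat_lit 445) (nat_lit 234))) (XT.nd (nat_lit 78) (nat_lit 0) (nat_lit 76) (XT.lf (nat_lit 76) (nat_lit 1438378509) (nat_lit 0) (nat_lit 5235798190) (nat_lit 1900) (nat_lit 10953987988) (nat_lit 506) (nat_lit 5) (nat_lit 505) (nat_lit 5) (nat_lit 530) (nat_lit 5) (nat_lit 462) (nat_lit 445) (nat_lit 233)) (XT.nd (nat_lit 78) (nat_lit 0) (nat_lit 0) (XT.lf (nat_lit 0) (nat_lit 7975964703) (nat_lit 1824) (nat_lit 6869373397) (nat_lit 1900) (nat_lit 2964024944) (nat_lit 506) (nat_lit 5) (nat_lit 530) (nat_lit 5) (nat_lit 531) (nat_lit 5) (nat_lit 463) (nat_lit 445) (nat_lit 232)) (XT.lf (nat_lit 76) (nat_lit 2632793890) (nat_lit 0) (nat_lit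 6716954091) (nat_lit 1900) (nat_lit 8643518196) (nat_lit 507) (nat_lit 5) (nat_lit 506) (nat_lit 5) (nat_lit 531) (nat_lit 5) (nat_lit 464) (nat_lit 445) (nat_lit 231))))))) (XT.nd (nat_lit 780) (nat_lit 5168) (nat_lit 0) (XT.nd (nat_lit 390) (nat_lit 3800) (nat_lit 0) (XT.nd (nat_lit 156) (nat_lit 0) (nat_lit 76) (XT.nd (nat_lit 78) (nat_lit 0) (nat_lit 0) (XT.lf (nat_lit 0) (nat_lit 10801913149) (nat_lit 1824) (nat_lit 5776931499) (nat_lit 1900) (nat_lit 1600984601) (nat_lit 507) (nat_lit 5) (nat_lit 531) (nat_lit 5) (nat_lit 532) (nat_lit 5) (nat_lit 465) (nat_lit 445) (nat_lit 230)) (XT.lf (nat_lit 76) (nat_lit 4001769082) (nat_lit 0) (nat_lit 8346214283) (nat_lit 1900) (nat_lit 6020842981) (nat_lit 508) (nat_lit 5) (nat_lit 507) (nat_lit 5) (nat_lit 532) (nat_lit 5) (nat_lit 466) (nat_lit 445) (nat_lit 229))) (XT.nd (nat_lit 78) (nat_lit 0) (nat_lit 0) (XT.lf (nat_lit 0) (nat_lit 13958813537) (nat_lit 1824) (nat_lit 4511664194) (nat_lit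 1900) (nat_lit 90448885) (nat_lit 508) (nat_lit 5) (nat_lit 532) (nat_lit 5) (nat_lit 533) (nat_lit 5) (nat_lit 467) (nat_lit 445) (nat_lit 228)) (XT.nd (nat_lit 78) (nat_lit 0) (nat_lit 0) (XT.lf (nat_lit 76) (nat_lit 5553894976) (nat_lit 0) (nat_lit 10133890000) (nat_lit 1900) (nat_lit 3067365421) (nat_lit 509) (nat_lit 5) (nat_lit 508) (nat_lit 5) (nat_lit 533) (nat_lit 5) (nat_lit 468) (nat_lit 445) (nat_lit 227)) (XT.lf (nat_lit 76) (nat_lit 15877442642) (nat_lit 0) (nat_lit 1598837950) (nat_lit 1900) (nat_lit 1476479167) (nat_lit 509) (nat_lit 5) (nat_lit 508) (nat_lit 5) (nat_lit 533) (nat_lit 5) (nat_lit 469) (nat_lit 445) (nat_lit 226))))) (XT.nd (nat_lit 156) (nat_lit 2052) (nat_lit 0) (XT.nd (nat_lit 78) (nat_lit 0) (nat_lit 0) (XT.lf (nat_lit 0) (nat_lit 233198557) (nat_lit 1900) (nat_lit 11855876455) (nat_lit 76) (nat_lit 7063449478) (nat_lit 484) (nat_lit 5) (nat_lit 509) (nat_lit 5) (nat_lit 485) (nat_lit 5) (nat_lit 470)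 (nat_lit 445) (nat_lit 225)) (XT.lf (nat_lit 0) (nat_lit 1983498557) (nat_lit 1900) (nat_lit 1463176402) (nat_lit 76) (nat_lit 15908890391) (nat_lit 484) (nat_lit 5) (nat_lit 509) (nat_lit 5) (nat_lit 485) (nat_lit 5) (nat_lit 471) (nat_lit 445) (nat_lit 224))) (XT.nd (nat_lit 78) (nat_lit 912) (nat_lit 0) (XT.lf (nat_lit 0) (nat_lit 3859067826) (nat_lit 1216) (nat_lit 10342527638) (nat_lit 76) (nat_lit 5359266296) (nat_lit 469) (nat_lit 5) (nat_lit 485) (nat_lit 5) (nat_lit 470) (nat_lit 5) (nat_lit 472) (nat_lit 445) (nat_lit 223)) (XT.nd (nat_lit 78) (nat_lit 0) (nat_lit 0) (XT.lf (nat_lit 0) (nat_lit 340286592) (nat_lit 912) (nat_lit 5461775231) (nat_lit 988) (nat_lit 13967604011) (nat_lit 457) (nat_lit 5) (nat_lit 469) (nat_lit 5) (nat_lit 470) (nat_lit 5) (nat_lit 473) (nat_lit 445) (nat_lit 222)) (XT.lf (nat_lit 0) (nat_lit 7871263679) (nat_lit 988) (nat_lit 8631781202) (nat_lit 76) (nat_lit 3477854147) (nat_lit 457) (nat_lit 5)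 (nat_lit 470) (nat_lit 5) (nat_lit 458) (nat_lit 5) (nat_lit 474) (nat_lit 445) (nat_lit 221)))))) (XT.nd (nat_lit 390) (nat_lit 2508) (nat_lit 0) (XT.nd (nat_lit 156) (nat_lit 1748) (nat_lit 0) (XT.nd (nat_lit 78) (nat_lit 0) (nat_lit 0) (XT.lf (nat_lit 0) (nat_lit 2372201799) (nat_lit 912) (nat_lit 7656383523) (nat_lit 988) (nat_lit 10166836849) (nat_lit 445) (nat_lit 5) (nat_lit 457) (nat_lit 5) (nat_lit 458) (nat_lit 5) (nat_lit 475) (nat_lit 445) (nat_lit 220)) (XT.lf (nat_lit 0) (nat_lit 12291468447) (nat_lit 988) (nat_lit 6713643035) (nat_lit 76) (nat_lit 1407875996) (nat_lit 445) (nat_lit 5) (nat_lit 458) (nat_lit 5) (nat_lit 446) (nat_lit 5) (nat_lit 476) (nat_lit 445) (nat_lit 219))) (XT.nd (nat_lit 78) (nat_lit 912) (nat_lit 0) (XT.lf (nat_lit 0) (nat_lit 4623574236) (nat_lit 836) (nat_lit 10052083158) (nat_lit 912) (nat_lit 5957725732) (nat_lit 434) (nat_lit 5) (nat_lit 445) (nat_lit 5) (nat_lit 446) (nat_lit 5) (nat_lit 477)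 (nat_lit 445) (nat_lit 218)) (XT.nd (nat_lit 78) (nat_lit 912) (nat_lit 0) (XT.lf (nat_lit 0) (nat_lit 16274084469) (nat_lit 836) (nat_lit 873884797) (nat_lit 912) (nat_lit 3709408638) (nat_lit 434) (nat_lit 5) (nat_lit 445) (nat_lit 5) (nat_lit 446) (nat_lit 5) (nat_lit 478) (nat_lit 445) (nat_lit 217)) (XT.lf (nat_lit 0) (nat_lit 7105370972) (nat_lit 912) (nat_lit 12661076629) (nat_lit 988) (nat_lit 1317470573) (nat_lit 422) (nat_lit 5) (nat_lit 434) (nat_lit 5) (nat_lit 435) (nat_lit 5) (nat_lit 479) (nat_lit 445) (nat_lit 216))))) (XT.nd (nat_lit 234) (nat_lit 760) (nat_lit 0) (XT.nd (nat_lit 78) (nat_lit 1672) (nat_lit 0) (XT.lf (nat_lit 0) (nat_lit 1139843168) (nat_lit 988) (nat_lit 2242206443) (nat_lit 76) (nat_lit 17932148780) (nat_lit 421) (nat_lit 5) (nat_lit 434) (nat_lit 5) (nat_lit 422) (nat_lit 5) (nat_lit 480) (nat_lit 445) (nat_lit 215)) (XT.nd (nat_lit 78) (nat_lit 836) (nat_lit 0) (XT.lf (nat_lit 0) (nat_lit 3728168044)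 (nat_lit 912) (nat_lit 11742842260) (nat_lit 76) (nat_lit 6075909623) (nat_lit 410) (nat_lit 5) (nat_lit 422) (nat_lit 5) (nat_lit 411) (nat_lit 5) (nat_lit 481) (nat_lit 445) (nat_lit 214)) (XT.lf (nat_lit 0) (nat_lit 314857611) (nat_lit 836) (nat_lit 6088644444) (nat_lit 912) (nat_lit 15380088985) (nat_lit 399) (nat_lit 5) (nat_lit 410) (nat_lit 5) (nat_lit 411) (nat_lit 5) (nat_lit 482) (nat_lit 445) (nat_lit 213)))) (XT.nd (nat_lit 78) (nat_lit 760) (nat_lit 0) (XT.lf (nat_lit 0) (nat_lit 9229978781) (nat_lit 912) (nat_lit 9278172159) (nat_lit 76) (nat_lit 3514891915) (nat_lit 399) (nat_lit 5) (nat_lit 411) (nat_lit 5) (nat_lit 400) (nat_lit 5) (nat_lit 483) (nat_lit 445) (nat_lit 212)) (XT.nd (nat_lit 78) (nat_lit 0) (nat_lit 0) (XT.lf (nat_lit 0) (nat_lit 3152800102) (nat_lit 760) (nat_lit 9016771442) (nat_lit 836) (nat_lit 10096580432) (nat_lit 389) (nat_lit 5) (nat_lit 399) (nat_lit 5) (nat_lit 400) (nat_lit 5) (nat_lit 484) (nat_lit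 445) (nat_lit 211)) (XT.lf (nat_lit 0) (nat_lit 15230790454) (nat_lit 836) (nat_lit 6563924393) (nat_lit 76) (nat_lit 718151746) (nat_lit 389) (nat_lit 5) (nat_lit 400) (nat_lit 5) (nat_lit 390) (nat_lit 5) (nat_lit 485) (nat_lit 445) (nat_lit 210))))))))
noncomputable def xc241 : XT := (XT.nd (nat_lit 57486) (nat_lit 0) (nat_lit 3192) (XT.nd (nat_lit 56706) (nat_lit 0) (nat_lit 10184) (XT.nd (nat_lit 56316) (nat_lit 0) (nat_lit 11704) (XT.nd (nat_lit 156) (nat_lit 836) (nat_lit 0) (XT.nd (nat_lit 78) (nat_lit 0) (nat_lit 0) (XT.lf (nat_lit 0) (nat_lit 6254413587) (nat_lit 760) (nat_lit 12195069703) (nat_lit 836) (nat_lit 4313107222) (nat_lit 379) (nat_lit 5) (nat_lit 389) (nat_lit 5) (nat_lit 390) (nat_lit 5) (nat_lit 486) (nat_lit 445) (nat_lit 209)) (XT.lf (nat_lit 0) (nat_lit 19413730857) (nat_lit 760) (nat_lit 2358846057) (nat_lit 836) (nat_lit 1243931458) (nat_lit 379) (nat_lit 5) (nat_lit 389) (nat_lit 5) (nat_lit 390) (nat_lit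 5) (nat_lit 487) (nat_lit 445) (nat_lit 208))) (XT.nd (nat_lit 78) (nat_lit 0) (nat_lit 0) (XT.lf (nat_lit 0) (nat_lit 1971027049) (nat_lit 836) (nat_lit 13653416101) (nat_lit 76) (nat_lit 7648633599) (nat_lit 368) (nat_lit 5) (nat_lit 379) (nat_lit 5) (nat_lit 369) (nat_lit 5) (nat_lit 488) (nat_lit 445) (nat_lit 207)) (XT.nd (nat_lit 56004) (nat_lit 0) (nat_lit 11704) (XT.lf (nat_lit 0) (nat_lit 5269681842) (nat_lit 836) (nat_lit 407306097) (nat_lit 76) (nat_lit 17856903041) (nat_lit 368) (nat_lit 5) (nat_lit 379) (nat_lit 5) (nat_lit 369) (nat_lit 5) (nat_lit 489) (nat_lit 445) (nat_lit 206)) (XT.lf (nat_lit 0) (nat_lit 2561517144) (nat_lit 0) (nat_lit 2561517144) (nat_lit 1748) (nat_lit 2473405088) (nat_lit 522) (nat_lit 5) (nat_lit 522) (nat_lit 3) (nat_lit 545) (nat_lit 3) (nat_lit 446) (nat_lit 446) (nat_lit 248))))) (XT.nd (nat_lit 156) (nat_lit 0) (nat_lit 76) (XT.nd (nat_lit 78) (nat_lit 0) (nat_lit 0) (XT.lf (nat_lit 0) (nat_lit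 10654421588) (nat_lit 1748) (nat_lit 2485937789) (nat_lit 1824) (nat_lit 2198330314) (nat_lit 522) (nat_lit 5) (nat_lit 545) (nat_lit 3) (nat_lit 546) (nat_lit 5) (nat_lit 447) (nat_lit 446) (nat_lit 247)) (XT.lf (nat_lit 76) (nat_lit 5280980797) (nat_lit 0) (nat_lit 5850556385) (nat_lit 1824) (nat_lit 4354667759) (nat_lit 523) (nat_lit 5) (nat_lit 522) (nat_lit 5) (nat_lit 546) (nat_lit 5) (nat_lit 448) (nat_lit 446) (nat_lit 246))) (XT.nd (nat_lit 78) (nat_lit 0) (nat_lit 0) (XT.lf (nat_lit 0) (nat_lit 11637805648) (nat_lit 1748) (nat_lit 2413949511) (nat_lit 1824) (nat_lit 1584523124) (nat_lit 523) (nat_lit 5) (nat_lit 546) (nat_lit 5) (nat_lit 547) (nat_lit 5) (nat_lit 449) (nat_lit 446) (nat_lit 245)) (XT.nd (nat_lit 78) (nat_lit 0) (nat_lit 76) (XT.lf (nat_lit 76) (nat_lit 5563303913) (nat_lit 0) (nat_lit 6658435150) (nat_lit 1824) (nat_lit 3566263240) (nat_lit 524) (nat_lit 5) (nat_lit 523) (nat_lit 5) (nat_lit 547) (nat_lit 5)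 (nat_lit 450) (nat_lit 446) (nat_lit 244)) (XT.lf (nat_lit 0) (nat_lit 12832200241) (nat_lit 1748) (nat_lit 2219654431) (nat_lit 1824) (nat_lit 890609148) (nat_lit 524) (nat_lit 5) (nat_lit 547) (nat_lit 5) (nat_lit 548) (nat_lit 5) (nat_lit 451) (nat_lit 446) (nat_lit 243)))))) (XT.nd (nat_lit 390) (nat_lit 0) (nat_lit 0) (XT.nd (nat_lit 156) (nat_lit 1672) (nat_lit 0) (XT.nd (nat_lit 78) (nat_lit 0) (nat_lit 76) (XT.lf (nat_lit 76) (nat_lit 5975645842) (nat_lit 0) (nat_lit 7555070741) (nat_lit 1824) (nat_lit 2567781065) (nat_lit 525) (nat_lit 5) (nat_lit 524) (nat_lit 5) (nat_lit 548) (nat_lit 5) (nat_lit 452) (nat_lit 446) (nat_lit 242)) (XT.lf (nat_lit 0) (nat_lit 14251874542) (nat_lit 1748) (nat_lit 1897358519) (nat_lit 1824) (nat_lit 108245667) (nat_lit 525) (nat_lit 5) (nat_lit 548) (nat_lit 5) (nat_lit 549) (nat_lit 5) (nat_lit 453) (nat_lit 446) (nat_lit 241))) (XT.nd (nat_lit 78) (nat_lit 1748) (nat_lit 0) (XT.lf (nat_lit 76)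 (nat_lit 6524007227) (nat_lit 0) (nat_lit 8549058383) (nat_lit 1824) (nat_lit 1344861619) (nat_lit 526) (nat_lit 5) (nat_lit 525) (nat_lit 5) (nat_lit 549) (nat_lit 5) (nat_lit 454) (nat_lit 446) (nat_lit 240)) (XT.nd (nat_lit 78) (nat_lit 1748) (nat_lit 0) (XT.lf (nat_lit 76) (nat_lit 15135379547) (nat_lit 0) (nat_lit 781357513) (nat_lit 1824) (nat_lit 664726510) (nat_lit 526) (nat_lit 5) (nat_lit 525) (nat_lit 5) (nat_lit 549) (nat_lit 5) (nat_lit 455) (nat_lit 446) (nat_lit 239)) (XT.lf (nat_lit 0) (nat_lit 115887818) (nat_lit 1824) (nat_lit 9532542323) (nat_lit 1900) (nat_lit 7098091589) (nat_lit 502) (nat_lit 5) (nat_lit 526) (nat_lit 5) (nat_lit 527) (nat_lit 5) (nat_lit 456) (nat_lit 446) (nat_lit 238))))) (XT.nd (nat_lit 156) (nat_lit 0) (nat_lit 76) (XT.nd (nat_lit 78) (nat_lit 0) (nat_lit 76) (XT.lf (nat_lit 0) (nat_lit 911694510) (nat_lit 1824) (nat_lit 861745914) (nat_lit 1900) (nat_lit 15141183137) (nat_lit 502) (nat_lit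 5) (nat_lit 526) (nat_lit 5) (nat_lit 527) (nat_lit 5) (nat_lit 457) (nat_lit 446) (nat_lit 237)) (XT.lf (nat_lit 0) (nat_lit 1810562118) (nat_lit 1824) (nat_lit 9041850937) (nat_lit 1900) (nat_lit 6231931478) (nat_lit 503) (nat_lit 5) (nat_lit 527) (nat_lit 5) (nat_lit 528) (nat_lit 5) (nat_lit 458) (nat_lit 446) (nat_lit 236))) (XT.nd (nat_lit 78) (nat_lit 0) (nat_lit 76) (XT.lf (nat_lit 0) (nat_lit 2738740300) (nat_lit 1824) (nat_lit 136919628) (nat_lit 1900) (nat_lit 14381573332) (nat_lit 503) (nat_lit 5) (nat_lit 527) (nat_lit 5) (nat_lit 528) (nat_lit 5) (nat_lit 459) (nat_lit 446) (nat_lit 235)) (XT.nd (nat_lit 78) (nat_lit 0) (nat_lit 0) (XT.lf (nat_lit 0) (nat_lit 3772757513) (nat_lit 1824) (nat_lit 8406346713) (nat_lit 1900) (nat_lit 5252730027) (nat_lit 504) (nat_lit 5) (nat_lit 528) (nat_lit 5) (nat_lit 529) (nat_lit 5) (nat_lit 460) (nat_lit 446) (nat_lit 234)) (XT.lf (nat_lit 76) (nat_lit 749558375) (nat_lit 0) (nat_lit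 4096726647) (nat_lit 1900) (nat_lit 12763265644) (nat_lit 505) (nat_lit 5) (nat_lit 504) (nat_lit 5) (nat_lit 529) (nat_lit 5) (nat_lit 461) (nat_lit 446) (nat_lit 233))))))) (XT.nd (nat_lit 780) (nat_lit 5624) (nat_lit 0) (XT.nd (nat_lit 390) (nat_lit 1596) (nat_lit 0) (XT.nd (nat_lit 156) (nat_lit 0) (nat_lit 76) (XT.nd (nat_lit 78) (nat_lit 0) (nat_lit 0) (XT.lf (nat_lit 0) (nat_lit 6019089560) (nat_lit 1824) (nat_lit 7618874491) (nat_lit 1900) (nat_lit 4151301227) (nat_lit 505) (nat_lit 5) (nat_lit 529) (nat_lit 5) (nat_lit 530) (nat_lit 5) (nat_lit 462) (nat_lit 446) (nat_lit 232)) (XT.lf (nat_lit 76) (nat_lit 1799205939) (nat_lit 0) (nat_lit 5449167185) (nat_lit 1900) (nat_lit 10723540599) (nat_lit 506) (nat_lit 5) (nat_lit 505) (nat_lit 5) (nat_lit 530) (nat_lit 5) (nat_lit 463) (nat_lit 446) (nat_lit 231))) (XT.nd (nat_lit 78) (nat_lit 0) (nat_lit 0) (XT.lf (nat_lit 0) (nat_lit 8566863844) (nat_lit 1824) (nat_lit 6671878938) (nat_lit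 1900) (nat_lit 2918179925) (nat_lit 506) (nat_lit 5) (nat_lit 530) (nat_lit 5) (nat_lit 531) (nat_lit 5) (nat_lit 464) (nat_lit 446) (nat_lit 230)) (XT.nd (nat_lit 78) (nat_lit 0) (nat_lit 76) (XT.lf (nat_lit 76) (nat_lit 3018128524) (nat_lit 0) (nat_lit 6943695807) (nat_lit 1900) (nat_lit 8382805542) (nat_lit 507) (nat_lit 5) (nat_lit 506) (nat_lit 5) (nat_lit 531) (nat_lit 5) (nat_lit 465) (nat_lit 446) (nat_lit 229)) (XT.lf (nat_lit 0) (nat_lit 11434109697) (nat_lit 1824) (nat_lit 5557391381) (nat_lit 1900) (nat_lit 1543601590) (nat_lit 507) (nat_lit 5) (nat_lit 531) (nat_lit 5) (nat_lit 532) (nat_lit 5) (nat_lit 466) (nat_lit 446) (nat_lit 228))))) (XT.nd (nat_lit 156) (nat_lit 1748) (nat_lit 0) (XT.nd (nat_lit 78) (nat_lit 0) (nat_lit 76) (XT.lf (nat_lit 76) (nat_lit 4414678747) (nat_lit 0) (nat_lit 8590423846) (nat_lit 1900) (nat_lit 5722897090) (nat_lit 508) (nat_lit 5) (nat_lit 507) (nat_lit 5) (nat_lit 532) (nat_lit 5) (nat_lit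 467) (nat_lit 446) (nat_lit 227)) (XT.lf (nat_lit 0) (nat_lit 14639615074) (nat_lit 1824) (nat_lit 4267015850) (nat_lit 1900) (nat_lit 17481719) (nat_lit 508) (nat_lit 5) (nat_lit 532) (nat_lit 5) (nat_lit 533) (nat_lit 5) (nat_lit 468) (nat_lit 446) (nat_lit 226))) (XT.nd (nat_lit 78) (nat_lit 1824) (nat_lit 0) (XT.lf (nat_lit 76) (nat_lit 5997651335) (nat_lit 0) (nat_lit 10399799571) (nat_lit 1900) (nat_lit 2724884294) (nat_lit 509) (nat_lit 5) (nat_lit 508) (nat_lit 5) (nat_lit 533) (nat_lit 5) (nat_lit 469) (nat_lit 446) (nat_lit 225)) (XT.nd (nat_lit 78) (nat_lit 1824) (nat_lit 0) (XT.lf (nat_lit 76) (nat_lit 16521146847) (nat_lit 0) (nat_lit 1692806641) (nat_lit 1900) (nat_lit 1110098520) (nat_lit 509) (nat_lit 5) (nat_lit 508) (nat_lit 5) (nat_lit 533) (nat_lit 5) (nat_lit 470) (nat_lit 446) (nat_lit 224)) (XT.lf (nat_lit 0) (nat_lit 622692610) (nat_lit 1900) (nat_lit 11755758482) (nat_lit 76) (nat_lit 7149427286) (nat_lit 484)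 (nat_lit 5) (nat_lit 509) (nat_lit 5) (nat_lit 485) (nat_lit 5) (nat_lit 471) (nat_lit 446) (nat_lit 223)))))) (XT.nd (nat_lit 390) (nat_lit 2660) (nat_lit 0) (XT.nd (nat_lit 156) (nat_lit 1824) (nat_lit 0) (XT.nd (nat_lit 78) (nat_lit 1140) (nat_lit 0) (XT.lf (nat_lit 0) (nat_lit 2400452922) (nat_lit 1900) (nat_lit 1161816889) (nat_lit 76) (nat_lit 16172861158) (nat_lit 484) (nat_lit 5) (nat_lit 509) (nat_lit 5) (nat_lit 485) (nat_lit 5) (nat_lit 472) (nat_lit 446) (nat_lit 222)) (XT.lf (nat_lit 0) (nat_lit 4307985452) (nat_lit 1216) (nat_lit 10213207025) (nat_lit 76) (nat_lit 5423451794) (nat_lit 469) (nat_lit 5) (nat_lit 485) (nat_lit 5) (nat_lit 470) (nat_lit 5) (nat_lit 473) (nat_lit 446) (nat_lit 221))) (XT.nd (nat_lit 78) (nat_lit 912) (nat_lit 0) (XT.lf (nat_lit 0) (nat_lit 681051838) (nat_lit 912) (nat_lit 5603666831) (nat_lit 988) (nat_lit 13873008170) (nat_lit 457) (nat_lit 5) (nat_lit 469) (nat_lit 5) (nat_lit 470) (nat_lit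 5) (nat_lit 474) (nat_lit 446) (nat_lit 220)) (XT.nd (nat_lit 78) (nat_lit 912) (nat_lit 0) (XT.lf (nat_lit 0) (nat_lit 8387908153) (nat_lit 988) (nat_lit 8469609129) (nat_lit 76) (nat_lit 3515815343) (nat_lit 457) (nat_lit 5) (nat_lit 470) (nat_lit 5) (nat_lit 458) (nat_lit 5) (nat_lit 475) (nat_lit 446) (nat_lit 219)) (XT.lf (nat_lit 0) (nat_lit 2752250850) (nat_lit 912) (nat_lit 7831241358) (nat_lit 988) (nat_lit 10008751704) (nat_lit 445) (nat_lit 5) (nat_lit 457) (nat_lit 5) (nat_lit 458) (nat_lit 5) (nat_lit 476) (nat_lit 446) (nat_lit 218))))) (XT.nd (nat_lit 234) (nat_lit 1824) (nat_lit 0) (XT.nd (nat_lit 78) (nat_lit 836) (nat_lit 0) (XT.lf (nat_lit 0) (nat_lit 12884546926) (nat_lit 988) (nat_lit 6514746479) (nat_lit 76) (nat_lit 1415008840) (nat_lit 445) (nat_lit 5) (nat_lit 458) (nat_lit 5) (nat_lit 446) (nat_lit 5) (nat_lit 477) (nat_lit 446) (nat_lit 217)) (XT.nd (nat_lit 78) (nat_lit 0) (nat_lit 0) (XT.lf (nat_lit 0) (nat_lit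 5047023233) (nat_lit 836) (nat_lit 10264736538) (nat_lit 912) (nat_lit 5727439233) (nat_lit 434) (nat_lit 5) (nat_lit 445) (nat_lit 5) (nat_lit 446) (nat_lit 5) (nat_lit 478) (nat_lit 446) (nat_lit 216)) (XT.lf (nat_lit 0) (nat_lit 16924053916) (nat_lit 836) (nat_lit 902746529) (nat_lit 912) (nat_lit 3441007582) (nat_lit 434) (nat_lit 5) (nat_lit 445) (nat_lit 5) (nat_lit 446) (nat_lit 5) (nat_lit 479) (nat_lit 446) (nat_lit 215)))) (XT.nd (nat_lit 78) (nat_lit 912) (nat_lit 0) (XT.lf (nat_lit 0) (nat_lit 7576578030) (nat_lit 912) (nat_lit 12916548865) (nat_lit 988) (nat_lit 1005842636) (nat_lit 422) (nat_lit 5) (nat_lit 434) (nat_lit 5) (nat_lit 435) (nat_lit 5) (nat_lit 480) (nat_lit 446) (nat_lit 214)) (XT.nd (nat_lit 78) (nat_lit 836) (nat_lit 0) (XT.lf (nat_lit 0) (nat_lit 1489644653) (nat_lit 988) (nat_lit 1960058148) (nat_lit 76) (nat_lit 18284239464) (nat_lit 421) (nat_lit 5) (nat_lit 434) (nat_lit 5) (nat_lit 422) (nat_lit 5)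 (nat_lit 481) (nat_lit 446) (nat_lit 213)) (XT.lf (nat_lit 0) (nat_lit 4125447146) (nat_lit 912) (nat_lit 11646417800) (nat_lit 76) (nat_lit 6199539064) (nat_lit 410) (nat_lit 5) (nat_lit 422) (nat_lit 5) (nat_lit 411) (nat_lit 5) (nat_lit 482) (nat_lit 446) (nat_lit 212))))))))
noncomputable def xc242 : XT := (XT.nd (nat_lit 57642) (nat_lit 0) (nat_lit 3268) (XT.nd (nat_lit 56862) (nat_lit 0) (nat_lit 9348) (XT.nd (nat_lit 390) (nat_lit 0) (nat_lit 0) (XT.nd (nat_lit 156) (nat_lit 1520) (nat_lit 0) (XT.nd (nat_lit 78) (nat_lit 0) (nat_lit 0) (XT.lf (nat_lit 0) (nat_lit 650256585) (nat_lit 836) (nat_lit 6199840239) (nat_lit 912) (nat_lit 15362795542) (nat_lit 399) (nat_lit 5) (nat_lit 410) (nat_lit 5) (nat_lit 411) (nat_lit 5) (nat_lit 483) (nat_lit 446) (nat_lit 211)) (XT.lf (nat_lit 0) (nat_lit 9726924829) (nat_lit 912) (nat_lit 9134908500) (nat_lit 76) (nat_lit 3595423452) (nat_lit 399) (nat_lit 5) (nat_lit 411) (nat_lit 5) (nat_lit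 400) (nat_lit 5) (nat_lit 484) (nat_lit 446) (nat_lit 210))) (XT.nd (nat_lit 78) (nat_lit 760) (nat_lit 0) (XT.lf (nat_lit 0) (nat_lit 3542519869) (nat_lit 760) (nat_lit 9178786055) (nat_lit 836) (nat_lit 9984002232) (nat_lit 389) (nat_lit 5) (nat_lit 399) (nat_lit 5) (nat_lit 400) (nat_lit 5) (nat_lit 485) (nat_lit 446) (nat_lit 209)) (XT.nd (nat_lit 78) (nat_lit 760) (nat_lit 0) (XT.lf (nat_lit 0) (nat_lit 15837819891) (nat_lit 836) (nat_lit 6369014966) (nat_lit 76) (nat_lit 750240795) (nat_lit 389) (nat_lit 5) (nat_lit 400) (nat_lit 5) (nat_lit 390) (nat_lit 5) (nat_lit 486) (nat_lit 446) (nat_lit 208)) (XT.lf (nat_lit 0) (nat_lit 6703543801) (nat_lit 760) (nat_lit 12413516999) (nat_lit 836) (nat_lit 4094809766) (nat_lit 379) (nat_lit 5) (nat_lit 389) (nat_lit 5) (nat_lit 390) (nat_lit 5) (nat_lit 487) (nat_lit 446) (nat_lit 207))))) (XT.nd (nat_lit 56238) (nat_lit 0) (nat_lit 10868) (XT.nd (nat_lit 56160) (nat_lit 0) (nat_lit 10868)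 (XT.lf (nat_lit 0) (nat_lit 20119693653) (nat_lit 760) (nat_lit 2381067980) (nat_lit 836) (nat_lit 970222243) (nat_lit 379) (nat_lit 5) (nat_lit 389) (nat_lit 5) (nat_lit 390) (nat_lit 5) (nat_lit 488) (nat_lit 446) (nat_lit 206)) (XT.lf (nat_lit 0) (nat_lit 2757516223) (nat_lit 0) (nat_lit 2757516223) (nat_lit 1748) (nat_lit 2227544967) (nat_lit 522) (nat_lit 5) (nat_lit 522) (nat_lit 3) (nat_lit 545) (nat_lit 3) (nat_lit 447) (nat_lit 447) (nat_lit 246))) (XT.nd (nat_lit 78) (nat_lit 0) (nat_lit 0) (XT.lf (nat_lit 0) (nat_lit 11433387546) (nat_lit 1748) (nat_lit 2238598858) (nat_lit 1824) (nat_lit 1962159531) (nat_lit 522) (nat_lit 5) (nat_lit 545) (nat_lit 3) (nat_lit 546) (nat_lit 5) (nat_lit 448) (nat_lit 447) (nat_lit 245)) (XT.nd (nat_lit 78) (nat_lit 0) (nat_lit 76) (XT.lf (nat_lit 76) (nat_lit 5681703773) (nat_lit 0) (nat_lit 6229162047) (nat_lit 1824) (nat_lit 3873929262) (nat_lit 523) (nat_lit 5) (nat_lit 522) (nat_lit 5) (nat_lit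 546) (nat_lit 5) (nat_lit 449) (nat_lit 447) (nat_lit 244)) (XT.lf (nat_lit 0) (nat_lit 12414678869) (nat_lit 1748) (nat_lit 2160330694) (nat_lit 1824) (nat_lit 1363111945) (nat_lit 523) (nat_lit 5) (nat_lit 546) (nat_lit 5) (nat_lit 547) (nat_lit 5) (nat_lit 450) (nat_lit 447) (nat_lit 243)))))) (XT.nd (nat_lit 390) (nat_lit 1596) (nat_lit 0) (XT.nd (nat_lit 156) (nat_lit 0) (nat_lit 76) (XT.nd (nat_lit 78) (nat_lit 0) (nat_lit 76) (XT.lf (nat_lit 76) (nat_lit 5974481629) (nat_lit 0) (nat_lit 7027087585) (nat_lit 1824) (nat_lit 3091485227) (nat_lit 524) (nat_lit 5) (nat_lit 523) (nat_lit 5) (nat_lit 547) (nat_lit 5) (nat_lit 451) (nat_lit 447) (nat_lit 242)) (XT.lf (nat_lit 0) (nat_lit 13612242729) (nat_lit 1748) (nat_lit 1958019616) (nat_lit 1824) (nat_lit 680582781) (nat_lit 524) (nat_lit 5) (nat_lit 547) (nat_lit 5) (nat_lit 548) (nat_lit 5) (nat_lit 452) (nat_lit 447) (nat_lit 241))) (XT.nd (nat_lit 78) (nat_lit 0) (nat_lit 0) (XT.lf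 (nat_lit 76) (nat_lit 6399173321) (nat_lit 0) (nat_lit 7917267226) (nat_lit 1824) (nat_lit 2093724861) (nat_lit 525) (nat_lit 5) (nat_lit 524) (nat_lit 5) (nat_lit 548) (nat_lit 5) (nat_lit 453) (nat_lit 447) (nat_lit 240)) (XT.nd (nat_lit 78) (nat_lit 0) (nat_lit 76) (XT.lf (nat_lit 76) (nat_lit 14946117018) (nat_lit 0) (nat_lit 95078072) (nat_lit 1824) (nat_lit 1531347550) (nat_lit 525) (nat_lit 5) (nat_lit 524) (nat_lit 5) (nat_lit 548) (nat_lit 5) (nat_lit 454) (nat_lit 447) (nat_lit 239)) (XT.lf (nat_lit 76) (nat_lit 6961948581) (nat_lit 0) (nat_lit 8908364532) (nat_lit 1824) (nat_lit 866056936) (nat_lit 526) (nat_lit 5) (nat_lit 525) (nat_lit 5) (nat_lit 549) (nat_lit 5) (nat_lit 455) (nat_lit 447) (nat_lit 238))))) (XT.nd (nat_lit 156) (nat_lit 0) (nat_lit 0) (XT.nd (nat_lit 78) (nat_lit 1748) (nat_lit 0) (XT.lf (nat_lit 76) (nat_lit 15739519696) (nat_lit 0) (nat_lit 981616998) (nat_lit 1824) (nat_lit 182234849) (nat_lit 526) (nat_lit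 5) (nat_lit 525) (nat_lit 5) (nat_lit 549) (nat_lit 5) (nat_lit 456) (nat_lit 447) (nat_lit 237)) (XT.lf (nat_lit 0) (nat_lit 598740606) (nat_lit 1824) (nat_lit 9406509451) (nat_lit 1900) (nat_lit 7066591406) (nat_lit 502) (nat_lit 5) (nat_lit 526) (nat_lit 5) (nat_lit 527) (nat_lit 5) (nat_lit 457) (nat_lit 447) (nat_lit 236))) (XT.nd (nat_lit 78) (nat_lit 0) (nat_lit 76) (XT.lf (nat_lit 0) (nat_lit 1401041176) (nat_lit 1824) (nat_lit 568506599) (nat_lit 1900) (nat_lit 15273946002) (nat_lit 502) (nat_lit 5) (nat_lit 526) (nat_lit 5) (nat_lit 527) (nat_lit 5) (nat_lit 458) (nat_lit 447) (nat_lit 235)) (XT.nd (nat_lit 78) (nat_lit 0) (nat_lit 0) (XT.lf (nat_lit 0) (nat_lit 2309641914) (nat_lit 1824) (nat_lit 8903969500) (nat_lit 1900) (nat_lit 6203162639) (nat_lit 503) (nat_lit 5) (nat_lit 527) (nat_lit 5) (nat_lit 528) (nat_lit 5) (nat_lit 459) (nat_lit 447) (nat_lit 234)) (XT.lf (nat_lit 76) (nat_lit 175107621) (nat_lit 0) (nat_lit 3073337100)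 (nat_lit 1900) (nat_lit 14344834613) (nat_lit 504) (nat_lit 5) (nat_lit 503) (nat_lit 5) (nat_lit 528) (nat_lit 5) (nat_lit 460) (nat_lit 447) (nat_lit 233))))))) (XT.nd (nat_lit 780) (nat_lit 6232) (nat_lit 0) (XT.nd (nat_lit 390) (nat_lit 0) (nat_lit 152) (XT.nd (nat_lit 156) (nat_lit 0) (nat_lit 76) (XT.nd (nat_lit 78) (nat_lit 0) (nat_lit 0) (XT.lf (nat_lit 0) (nat_lit 4294236649) (nat_lit 1824) (nat_lit 8254235858) (nat_lit 1900) (nat_lit 5223077951) (nat_lit 504) (nat_lit 5) (nat_lit 528) (nat_lit 5) (nat_lit 529) (nat_lit 5) (nat_lit 461) (nat_lit 447) (nat_lit 232)) (XT.lf (nat_lit 76) (nat_lit 1082680504) (nat_lit 0) (nat_lit 4299874152) (nat_lit 1900) (nat_lit 12570400144) (nat_lit 505) (nat_lit 5) (nat_lit 504) (nat_lit 5) (nat_lit 529) (nat_lit 5) (nat_lit 462) (nat_lit 447) (nat_lit 231))) (XT.nd (nat_lit 78) (nat_lit 0) (nat_lit 0) (XT.lf (nat_lit 0) (nat_lit 6569429134) (nat_lit 1824) (nat_lit 7449972731) (nat_lit 1900)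 (nat_lit 4117049563) (nat_lit 505) (nat_lit 5) (nat_lit 529) (nat_lit 5) (nat_lit 530) (nat_lit 5) (nat_lit 463) (nat_lit 447) (nat_lit 230)) (XT.nd (nat_lit 78) (nat_lit 0) (nat_lit 76) (XT.lf (nat_lit 76) (nat_lit 2154355629) (nat_lit 0) (nat_lit 5662584431) (nat_lit 1900) (nat_lit 10505939948) (nat_lit 506) (nat_lit 5) (nat_lit 505) (nat_lit 5) (nat_lit 530) (nat_lit 5) (nat_lit 464) (nat_lit 447) (nat_lit 229)) (XT.lf (nat_lit 0) (nat_lit 9152829963) (nat_lit 1824) (nat_lit 6483438464) (nat_lit 1900) (nat_lit 2875500158) (nat_lit 506) (nat_lit 5) (nat_lit 530) (nat_lit 5) (nat_lit 531) (nat_lit 5) (nat_lit 465) (nat_lit 447) (nat_lit 228))))) (XT.nd (nat_lit 156) (nat_lit 0) (nat_lit 76) (XT.nd (nat_lit 78) (nat_lit 0) (nat_lit 76) (XT.lf (nat_lit 76) (nat_lit 3398251529) (nat_lit 0) (nat_lit 7171384250) (nat_lit 1900) (nat_lit 8133715192) (nat_lit 507) (nat_lit 5) (nat_lit 506) (nat_lit 5) (nat_lit 531) (nat_lit 5) (nat_lit 466)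 (nat_lit 447) (nat_lit 227)) (XT.lf (nat_lit 0) (nat_lit 12062790242) (nat_lit 1824) (nat_lit 5346471976) (nat_lit 1900) (nat_lit 1488542536) (nat_lit 507) (nat_lit 5) (nat_lit 531) (nat_lit 5) (nat_lit 532) (nat_lit 5) (nat_lit 467) (nat_lit 447) (nat_lit 226))) (XT.nd (nat_lit 78) (nat_lit 0) (nat_lit 0) (XT.lf (nat_lit 76) (nat_lit 4822920690) (nat_lit 0) (nat_lit 8836516518) (nat_lit 1900) (nat_lit 5435237817) (nat_lit 508) (nat_lit 5) (nat_lit 507) (nat_lit 5) (nat_lit 532) (nat_lit 5) (nat_lit 468) (nat_lit 447) (nat_lit 225)) (XT.nd (nat_lit 78) (nat_lit 0) (nat_lit 76) (XT.lf (nat_lit 76) (nat_lit 15264033258) (nat_lit 0) (nat_lit 54759319) (nat_lit 1900) (nat_lit 3976074615) (nat_lit 508) (nat_lit 5) (nat_lit 507) (nat_lit 5) (nat_lit 532) (nat_lit 5) (nat_lit 469) (nat_lit 447) (nat_lit 224)) (XT.lf (nat_lit 76) (nat_lit 6437364512) (nat_lit 0) (nat_lit 10668571966) (nat_lit 1900) (nat_lit 2391234695) (nat_lit 509) (nat_lit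 5) (nat_lit 508) (nat_lit 5) (nat_lit 533) (nat_lit 5) (nat_lit 470) (nat_lit 447) (nat_lit 223)))))) (XT.nd (nat_lit 390) (nat_lit 2660) (nat_lit 0) (XT.nd (nat_lit 156) (nat_lit 2052) (nat_lit 0) (XT.nd (nat_lit 78) (nat_lit 1824) (nat_lit 0) (XT.lf (nat_lit 76) (nat_lit 17165060127) (nat_lit 0) (nat_lit 1786247484) (nat_lit 1900) (nat_lit 751763936) (nat_lit 509) (nat_lit 5) (nat_lit 508) (nat_lit 5) (nat_lit 533) (nat_lit 5) (nat_lit 471) (nat_lit 447) (nat_lit 222)) (XT.lf (nat_lit 0) (nat_lit 1005033123) (nat_lit 1900) (nat_lit 11666733415) (nat_lit 76) (nat_lit 7239271674) (nat_lit 484) (nat_lit 5) (nat_lit 509) (nat_lit 5) (nat_lit 485) (nat_lit 5) (nat_lit 472) (nat_lit 447) (nat_lit 221))) (XT.nd (nat_lit 78) (nat_lit 2052) (nat_lit 0) (XT.lf (nat_lit 0) (nat_lit 2811095961) (nat_lit 1900) (nat_lit 867268681) (nat_lit 76) (nat_lit 16444216266) (nat_lit 484) (nat_lit 5) (nat_lit 509) (nat_lit 5) (nat_lit 485) (nat_lit 5) (nat_lit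 473) (nat_lit 447) (nat_lit 220)) (XT.nd (nat_lit 78) (nat_lit 912) (nat_lit 0) (XT.lf (nat_lit 0) (nat_lit 4751446457) (nat_lit 1216) (nat_lit 10094353936) (nat_lit 76) (nat_lit 5490590738) (nat_lit 469) (nat_lit 5) (nat_lit 485) (nat_lit 5) (nat_lit 470) (nat_lit 5) (nat_lit 474) (nat_lit 447) (nat_lit 219)) (XT.lf (nat_lit 0) (nat_lit 1015664333) (nat_lit 912) (nat_lit 5747128187) (nat_lit 988) (nat_lit 13791041266) (nat_lit 457) (nat_lit 5) (nat_lit 469) (nat_lit 5) (nat_lit 470) (nat_lit 5) (nat_lit 475) (nat_lit 447) (nat_lit 218))))) (XT.nd (nat_lit 234) (nat_lit 1748) (nat_lit 0) (XT.nd (nat_lit 78) (nat_lit 912) (nat_lit 0) (XT.lf (nat_lit 0) (nat_lit 8900936596) (nat_lit 988) (nat_lit 8317194606) (nat_lit 76) (nat_lit 3555762670) (nat_lit 457) (nat_lit 5) (nat_lit 470) (nat_lit 5) (nat_lit 458) (nat_lit 5) (nat_lit 476) (nat_lit 447) (nat_lit 217)) (XT.nd (nat_lit 78) (nat_lit 0) (nat_lit 0) (XT.lf (nat_lit 0) (nat_lit 3126985424)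 (nat_lit 912) (nat_lit 8008752540) (nat_lit 988) (nat_lit 9861539308) (nat_lit 445) (nat_lit 5) (nat_lit 457) (nat_lit 5) (nat_lit 458) (nat_lit 5) (nat_lit 477) (nat_lit 447) (nat_lit 216)) (XT.lf (nat_lit 0) (nat_lit 13476002868) (nat_lit 988) (nat_lit 6324809366) (nat_lit 76) (nat_lit 1423100756) (nat_lit 445) (nat_lit 5) (nat_lit 458) (nat_lit 5) (nat_lit 446) (nat_lit 5) (nat_lit 478) (nat_lit 447) (nat_lit 215)))) (XT.nd (nat_lit 78) (nat_lit 912) (nat_lit 0) (XT.lf (nat_lit 0) (nat_lit 5466088950) (nat_lit 836) (nat_lit 10481192088) (nat_lit 912) (nat_lit 5506116224) (nat_lit 434) (nat_lit 5) (nat_lit 445) (nat_lit 5) (nat_lit 446) (nat_lit 5) (nat_lit 479) (nat_lit 447) (nat_lit 214)) (XT.nd (nat_lit 78) (nat_lit 912) (nat_lit 0) (XT.lf (nat_lit 0) (nat_lit 17574422497) (nat_lit 836) (nat_lit 931743439) (nat_lit 912) (nat_lit 3180541662) (nat_lit 434) (nat_lit 5) (nat_lit 445) (nat_lit 5) (nat_lit 446) (nat_lit 5) (nat_lit 480)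 (nat_lit 447) (nat_lit 213)) (XT.lf (nat_lit 0) (nat_lit 8044429889) (nat_lit 912) (nat_lit 13177043148) (nat_lit 988) (nat_lit 701106213) (nat_lit 422) (nat_lit 5) (nat_lit 434) (nat_lit 5) (nat_lit 435) (nat_lit 5) (nat_lit 481) (nat_lit 447) (nat_lit 212))))))))
noncomputable def xc243 : XT := (XT.nd (nat_lit 57798) (nat_lit 0) (nat_lit 3268) (XT.nd (nat_lit 56940) (nat_lit 0) (nat_lit 9272) (XT.nd (nat_lit 390) (nat_lit 760) (nat_lit 0) (XT.nd (nat_lit 156) (nat_lit 1596) (nat_lit 0) (XT.nd (nat_lit 78) (nat_lit 836) (nat_lit 0) (XT.lf (nat_lit 0) (nat_lit 1833744181) (nat_lit 988) (nat_lit 1684964402) (nat_lit 76) (nat_lit 18643626396) (nat_lit 421) (nat_lit 5) (nat_lit 434) (nat_lit 5) (nat_lit 422) (nat_lit 5) (nat_lit 482) (nat_lit 447) (nat_lit 211)) (XT.lf (nat_lit 0) (nat_lit 4518140384) (nat_lit 912) (nat_lit 11560928908) (nat_lit 76) (nat_lit 6325559112) (nat_lit 410) (nat_lit 5) (nat_lit 422) (nat_lit 5) (nat_lit 411) (nat_lit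 5) (nat_lit 483) (nat_lit 447) (nat_lit 210))) (XT.nd (nat_lit 78) (nat_lit 760) (nat_lit 0) (XT.lf (nat_lit 0) (nat_lit 979584115) (nat_lit 836) (nat_lit 6313670671) (nat_lit 912) (nat_lit 15357772307) (nat_lit 399) (nat_lit 5) (nat_lit 410) (nat_lit 5) (nat_lit 411) (nat_lit 5) (nat_lit 484) (nat_lit 447) (nat_lit 209)) (XT.nd (nat_lit 78) (nat_lit 760) (nat_lit 0) (XT.lf (nat_lit 0) (nat_lit 10221681005) (nat_lit 912) (nat_lit 9001548326) (nat_lit 76) (nat_lit 3677168234) (nat_lit 399) (nat_lit 5) (nat_lit 411) (nat_lit 5) (nat_lit 400) (nat_lit 5) (nat_lit 485) (nat_lit 447) (nat_lit 208)) (XT.lf (nat_lit 0) (nat_lit 3927349280) (nat_lit 760) (nat_lit 9344752380) (nat_lit 836) (nat_lit 9881385267) (nat_lit 389) (nat_lit 5) (nat_lit 399) (nat_lit 5) (nat_lit 400) (nat_lit 5) (nat_lit 486) (nat_lit 447) (nat_lit 207))))) (XT.nd (nat_lit 56316) (nat_lit 0) (nat_lit 10868) (XT.nd (nat_lit 78) (nat_lit 760) (nat_lit 0) (XT.lf (nat_lit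 0) (nat_lit 16445246828) (nat_lit 836) (nat_lit 6182873625) (nat_lit 76) (nat_lit 782283303) (nat_lit 389) (nat_lit 5) (nat_lit 400) (nat_lit 5) (nat_lit 390) (nat_lit 5) (nat_lit 487) (nat_lit 447) (nat_lit 206)) (XT.lf (nat_lit 0) (nat_lit 7149073676) (nat_lit 760) (nat_lit 12637321656) (nat_lit 836) (nat_lit 3883972780) (nat_lit 379) (nat_lit 5) (nat_lit 389) (nat_lit 5) (nat_lit 390) (nat_lit 5) (nat_lit 488) (nat_lit 447) (nat_lit 205))) (XT.nd (nat_lit 78) (nat_lit 0) (nat_lit 0) (XT.lf (nat_lit 0) (nat_lit 2951813737) (nat_lit 0) (nat_lit 2951813737) (nat_lit 1748) (nat_lit 1988235599) (nat_lit 522) (nat_lit 5) (nat_lit 522) (nat_lit 3) (nat_lit 545) (nat_lit 3) (nat_lit 448) (nat_lit 448) (nat_lit 244)) (XT.nd (nat_lit 78) (nat_lit 0) (nat_lit 0) (XT.lf (nat_lit 0) (nat_lit 12205959108) (nat_lit 1748) (nat_lit 1997848260) (nat_lit 1824) (nat_lit 1732143409) (nat_lit 522) (nat_lit 5) (nat_lit 545) (nat_lit 3) (nat_lit 546) (nat_lit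 5) (nat_lit 449) (nat_lit 448) (nat_lit 243)) (XT.lf (nat_lit 76) (nat_lit 6078981986) (nat_lit 0) (nat_lit 6605181788) (nat_lit 1824) (nat_lit 3405625597) (nat_lit 523) (nat_lit 5) (nat_lit 522) (nat_lit 5) (nat_lit 546) (nat_lit 5) (nat_lit 450) (nat_lit 448) (nat_lit 242)))))) (XT.nd (nat_lit 390) (nat_lit 1672) (nat_lit 0) (XT.nd (nat_lit 156) (nat_lit 0) (nat_lit 76) (XT.nd (nat_lit 78) (nat_lit 0) (nat_lit 0) (XT.lf (nat_lit 0) (nat_lit 13185960823) (nat_lit 1748) (nat_lit 1913362561) (nat_lit 1824) (nat_lit 1147100787) (nat_lit 523) (nat_lit 5) (nat_lit 546) (nat_lit 5) (nat_lit 547) (nat_lit 5) (nat_lit 451) (nat_lit 448) (nat_lit 241)) (XT.lf (nat_lit 76) (nat_lit 6382236964) (nat_lit 0) (nat_lit 7393968949) (nat_lit 1824) (nat_lit 2628417510) (nat_lit 524) (nat_lit 5) (nat_lit 523) (nat_lit 5) (nat_lit 547) (nat_lit 5) (nat_lit 452) (nat_lit 448) (nat_lit 240))) (XT.nd (nat_lit 78) (nat_lit 0) (nat_lit 0) (XT.lf (nat_lit 0)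 (nat_lit 14387561866) (nat_lit 1748) (nat_lit 1703035541) (nat_lit 1824) (nat_lit 475203136) (nat_lit 524) (nat_lit 5) (nat_lit 547) (nat_lit 5) (nat_lit 548) (nat_lit 5) (nat_lit 453) (nat_lit 448) (nat_lit 239)) (XT.nd (nat_lit 78) (nat_lit 0) (nat_lit 0) (XT.lf (nat_lit 76) (nat_lit 6819366094) (nat_lit 0) (nat_lit 8278510562) (nat_lit 1824) (nat_lit 1630589915) (nat_lit 525) (nat_lit 5) (nat_lit 524) (nat_lit 5) (nat_lit 548) (nat_lit 5) (nat_lit 454) (nat_lit 448) (nat_lit 238)) (XT.lf (nat_lit 76) (nat_lit 15531519071) (nat_lit 0) (nat_lit 295899233) (nat_lit 1824) (nat_lit 1066867204) (nat_lit 525) (nat_lit 5) (nat_lit 524) (nat_lit 5) (nat_lit 548) (nat_lit 5) (nat_lit 455) (nat_lit 448) (nat_lit 237))))) (XT.nd (nat_lit 234) (nat_lit 0) (nat_lit 76) (XT.nd (nat_lit 78) (nat_lit 1824) (nat_lit 0) (XT.lf (nat_lit 76) (nat_lit 7396709669) (nat_lit 0) (nat_lit 9267543916) (nat_lit 1824) (nat_lit 397313182) (nat_lit 526) (nat_lit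 5) (nat_lit 525) (nat_lit 5) (nat_lit 549) (nat_lit 5) (nat_lit 456) (nat_lit 448) (nat_lit 236)) (XT.nd (nat_lit 78) (nat_lit 0) (nat_lit 76) (XT.lf (nat_lit 0) (nat_lit 286842674) (nat_lit 1824) (nat_lit 889944635) (nat_lit 1900) (nat_lit 16055270115) (nat_lit 501) (nat_lit 5) (nat_lit 525) (nat_lit 5) (nat_lit 526) (nat_lit 5) (nat_lit 457) (nat_lit 448) (nat_lit 235)) (XT.lf (nat_lit 0) (nat_lit 1072590689) (nat_lit 1824) (nat_lit 9290253137) (nat_lit 1900) (nat_lit 7041196961) (nat_lit 502) (nat_lit 5) (nat_lit 526) (nat_lit 5) (nat_lit 527) (nat_lit 5) (nat_lit 458) (nat_lit 448) (nat_lit 234)))) (XT.nd (nat_lit 78) (nat_lit 0) (nat_lit 76) (XT.lf (nat_lit 0) (nat_lit 1881880892) (nat_lit 1824) (nat_lit 281458590) (nat_lit 1900) (nat_lit 15415967792) (nat_lit 502) (nat_lit 5) (nat_lit 526) (nat_lit 5) (nat_lit 527) (nat_lit 5) (nat_lit 459) (nat_lit 448) (nat_lit 233)) (XT.nd (nat_lit 78) (nat_lit 0) (nat_lit 0) (XT.lf (nat_lit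 0) (nat_lit 2800729556) (nat_lit 1824) (nat_lit 8775706660) (nat_lit 1900) (nat_lit 6179775421) (nat_lit 503) (nat_lit 5) (nat_lit 527) (nat_lit 5) (nat_lit 528) (nat_lit 5) (nat_lit 460) (nat_lit 448) (nat_lit 232)) (XT.lf (nat_lit 76) (nat_lit 482936593) (nat_lit 0) (nat_lit 3268624289) (nat_lit 1900) (nat_lit 14184821092) (nat_lit 504) (nat_lit 5) (nat_lit 503) (nat_lit 5) (nat_lit 528) (nat_lit 5) (nat_lit 461) (nat_lit 448) (nat_lit 231))))))) (XT.nd (nat_lit 780) (nat_lit 6232) (nat_lit 0) (XT.nd (nat_lit 390) (nat_lit 0) (nat_lit 152) (XT.nd (nat_lit 156) (nat_lit 0) (nat_lit 76) (XT.nd (nat_lit 78) (nat_lit 0) (nat_lit 0) (XT.lf (nat_lit 0) (nat_lit 4808825712) (nat_lit 1824) (nat_lit 8111518010) (nat_lit 1900) (nat_lit 5198063659) (nat_lit 504) (nat_lit 5) (nat_lit 528) (nat_lit 5) (nat_lit 529) (nat_lit 5) (nat_lit 462) (nat_lit 448) (nat_lit 230)) (XT.lf (nat_lit 76) (nat_lit 1410111662) (nat_lit 0) (nat_lit 4502377761) (nat_lit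 1900) (nat_lit 12391078800) (nat_lit 505) (nat_lit 5) (nat_lit 504) (nat_lit 5) (nat_lit 529) (nat_lit 5) (nat_lit 463) (nat_lit 448) (nat_lit 229))) (XT.nd (nat_lit 78) (nat_lit 0) (nat_lit 0) (XT.lf (nat_lit 0) (nat_lit 7114079715) (nat_lit 1824) (nat_lit 7290168600) (nat_lit 1900) (nat_lit 4086666901) (nat_lit 505) (nat_lit 5) (nat_lit 529) (nat_lit 5) (nat_lit 530) (nat_lit 5) (nat_lit 464) (nat_lit 448) (nat_lit 228)) (XT.nd (nat_lit 78) (nat_lit 0) (nat_lit 76) (XT.lf (nat_lit 76) (nat_lit 2504214724) (nat_lit 0) (nat_lit 5876214726) (nat_lit 1900) (nat_lit 10300765146) (nat_lit 506) (nat_lit 5) (nat_lit 505) (nat_lit 5) (nat_lit 530) (nat_lit 5) (nat_lit 465) (nat_lit 448) (nat_lit 227)) (XT.lf (nat_lit 0) (nat_lit 9734414861) (nat_lit 1824) (nat_lit 6303728097) (nat_lit 1900) (nat_lit 2835890433) (nat_lit 506) (nat_lit 5) (nat_lit 530) (nat_lit 5) (nat_lit 531) (nat_lit 5) (nat_lit 466) (nat_lit 448) (nat_lit 226))))) (XT.nd (nat_lit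 156) (nat_lit 0) (nat_lit 76) (XT.nd (nat_lit 78) (nat_lit 0) (nat_lit 76) (XT.lf (nat_lit 76) (nat_lit 3773560307) (nat_lit 0) (nat_lit 7400177685) (nat_lit 1900) (nat_lit 7895825809) (nat_lit 507) (nat_lit 5) (nat_lit 506) (nat_lit 5) (nat_lit 531) (nat_lit 5) (nat_lit 467) (nat_lit 448) (nat_lit 225)) (XT.lf (nat_lit 0) (nat_lit 12688511975) (nat_lit 1824) (nat_lit 5143840447) (nat_lit 1900) (nat_lit 1435719108) (nat_lit 507) (nat_lit 5) (nat_lit 531) (nat_lit 5) (nat_lit 532) (nat_lit 5) (nat_lit 468) (nat_lit 448) (nat_lit 224))) (XT.nd (nat_lit 78) (nat_lit 0) (nat_lit 0) (XT.lf (nat_lit 76) (nat_lit 5226903487) (nat_lit 0) (nat_lit 9084646497) (nat_lit 1900) (nat_lit 5157440060) (nat_lit 508) (nat_lit 5) (nat_lit 507) (nat_lit 5) (nat_lit 532) (nat_lit 5) (nat_lit 469) (nat_lit 448) (nat_lit 223)) (XT.nd (nat_lit 78) (nat_lit 0) (nat_lit 76) (XT.lf (nat_lit 76) (nat_lit 15870808417) (nat_lit 0) (nat_lit 125854161) (nat_lit 1900)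 (nat_lit 3676672074) (nat_lit 508) (nat_lit 5) (nat_lit 507) (nat_lit 5) (nat_lit 532) (nat_lit 5) (nat_lit 470) (nat_lit 448) (nat_lit 222)) (XT.lf (nat_lit 76) (nat_lit 6873455276) (nat_lit 0) (nat_lit 10940359788) (nat_lit 1900) (nat_lit 2065984336) (nat_lit 509) (nat_lit 5) (nat_lit 508) (nat_lit 5) (nat_lit 533) (nat_lit 5) (nat_lit 471) (nat_lit 448) (nat_lit 221)))))) (XT.nd (nat_lit 390) (nat_lit 2660) (nat_lit 0) (XT.nd (nat_lit 156) (nat_lit 2052) (nat_lit 0) (XT.nd (nat_lit 78) (nat_lit 1824) (nat_lit 0) (XT.lf (nat_lit 76) (nat_lit 17809678461) (nat_lit 0) (nat_lit 1879243396) (nat_lit 1900) (nat_lit 401039359) (nat_lit 509) (nat_lit 5) (nat_lit 508) (nat_lit 5) (nat_lit 533) (nat_lit 5) (nat_lit 472) (nat_lit 448) (nat_lit 220)) (XT.lf (nat_lit 0) (nat_lit 1380657297) (nat_lit 1900) (nat_lit 11588514608) (nat_lit 76) (nat_lit 7332976602) (nat_lit 484) (nat_lit 5) (nat_lit 509) (nat_lit 5) (nat_lit 485) (nat_lit 5) (nat_lit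 473) (nat_lit 448) (nat_lit 219))) (XT.nd (nat_lit 78) (nat_lit 2052) (nat_lit 0) (XT.lf (nat_lit 0) (nat_lit 3215870342) (nat_lit 1900) (nat_lit 579169471) (nat_lit 76) (nat_lit 16723021664) (nat_lit 484) (nat_lit 5) (nat_lit 509) (nat_lit 5) (nat_lit 485) (nat_lit 5) (nat_lit 474) (nat_lit 448) (nat_lit 218)) (XT.nd (nat_lit 78) (nat_lit 912) (nat_lit 0) (XT.lf (nat_lit 0) (nat_lit 5189902238) (nat_lit 1216) (nat_lit 9985670820) (nat_lit 76) (nat_lit 5560677358) (nat_lit 469) (nat_lit 5) (nat_lit 485) (nat_lit 5) (nat_lit 470) (nat_lit 5) (nat_lit 475) (nat_lit 448) (nat_lit 217)) (XT.lf (nat_lit 0) (nat_lit 1344504589) (nat_lit 912) (nat_lit 5892239935) (nat_lit 988) (nat_lit 13721392015) (nat_lit 457) (nat_lit 5) (nat_lit 469) (nat_lit 5) (nat_lit 470) (nat_lit 5) (nat_lit 476) (nat_lit 448) (nat_lit 216))))) (XT.nd (nat_lit 234) (nat_lit 1748) (nat_lit 0) (XT.nd (nat_lit 78) (nat_lit 912) (nat_lit 0) (XT.lf (nat_lit 0) (nat_lit 9410818343)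 (nat_lit 988) (nat_lit 8174227938) (nat_lit 76) (nat_lit 3597688208) (nat_lit 457) (nat_lit 5) (nat_lit 470) (nat_lit 5) (nat_lit 458) (nat_lit 5) (nat_lit 477) (nat_lit 448) (nat_lit 215)) (XT.nd (nat_lit 78) (nat_lit 0) (nat_lit 0) (XT.lf (nat_lit 0) (nat_lit 3496800754) (nat_lit 912) (nat_lit 8189002903) (nat_lit 988) (nat_lit 9724872142) (nat_lit 445) (nat_lit 5) (nat_lit 457) (nat_lit 5) (nat_lit 458) (nat_lit 5) (nat_lit 478) (nat_lit 448) (nat_lit 214)) (XT.lf (nat_lit 0) (nat_lit 14066327427) (nat_lit 988) (nat_lit 6143508512) (nat_lit 76) (nat_lit 1432139221) (nat_lit 445) (nat_lit 5) (nat_lit 458) (nat_lit 5) (nat_lit 446) (nat_lit 5) (nat_lit 479) (nat_lit 448) (nat_lit 213)))) (XT.nd (nat_lit 78) (nat_lit 912) (nat_lit 0) (XT.lf (nat_lit 0) (nat_lit 5881182790) (nat_lit 836) (nat_lit 10701543361) (nat_lit 912) (nat_lit 5293409067) (nat_lit 434) (nat_lit 5) (nat_lit 445) (nat_lit 5) (nat_lit 446) (nat_lit 5) (nat_lit 480) (nat_lit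 448) (nat_lit 212)) (XT.nd (nat_lit 78) (nat_lit 912) (nat_lit 0) (XT.lf (nat_lit 0) (nat_lit 18225687477) (nat_lit 836) (nat_lit 960895398) (nat_lit 912) (nat_lit 2927653003) (nat_lit 434) (nat_lit 5) (nat_lit 445) (nat_lit 5) (nat_lit 446) (nat_lit 5) (nat_lit 481) (nat_lit 448) (nat_lit 211)) (XT.lf (nat_lit 0) (nat_lit 8509355682) (nat_lit 912) (nat_lit 13442663313) (nat_lit 988) (nat_lit 402889510) (nat_lit 422) (nat_lit 5) (nat_lit 434) (nat_lit 5) (nat_lit 435) (nat_lit 5) (nat_lit 482) (nat_lit 448) (nat_lit 210))))))))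
noncomputable def xc244 : XT := (XT.nd (nat_lit 57876) (nat_lit 0) (nat_lit 2432) (XT.nd (nat_lit 57096) (nat_lit 0) (nat_lit 8512) (XT.nd (nat_lit 56706) (nat_lit 0) (nat_lit 10108) (XT.nd (nat_lit 156) (nat_lit 1596) (nat_lit 0) (XT.nd (nat_lit 78) (nat_lit 836) (nat_lit 0) (XT.lf (nat_lit 0) (nat_lit 2172520789) (nat_lit 988) (nat_lit 1416573236) (nat_lit 76) (nat_lit 19010445620) (nat_lit 421) (nat_lit 5) (nat_lit 434) (nat_lit 5) (nat_lit 422) (nat_lit 5) (nat_lit 483) (nat_lit 448) (nat_lit 209)) (XT.lf (nat_lit 0) (nat_lit 4906642653) (nat_lit 912) (nat_lit 11486094768) (nat_lit 76) (nat_lit 6454020762) (nat_lit 410) (nat_lit 5) (nat_lit 422) (nat_lit 5) (nat_lit 411) (nat_lit 5) (nat_lit 484) (nat_lit 448) (nat_lit 208))) (XT.nd (nat_lit 78) (nat_lit 760) (nat_lit 0) (XT.lf (nat_lit 0) (nat_lit 1303215010) (nat_lit 836) (nat_lit 6430172485) (nat_lit 912) (nat_lit 15364774787) (nat_lit 399) (nat_lit 5) (nat_lit 410) (nat_lit 5)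 (nat_lit 411) (nat_lit 5) (nat_lit 485) (nat_lit 448) (nat_lit 207)) (XT.nd (nat_lit 78) (nat_lit 760) (nat_lit 0) (XT.lf (nat_lit 0) (nat_lit 10714674485) (nat_lit 912) (nat_lit 8877793879) (nat_lit 76) (nat_lit 3760165955) (nat_lit 399) (nat_lit 5) (nat_lit 411) (nat_lit 5) (nat_lit 400) (nat_lit 5) (nat_lit 486) (nat_lit 448) (nat_lit 206)) (XT.lf (nat_lit 0) (nat_lit 4307683091) (nat_lit 760) (nat_lit 9514721827) (nat_lit 836) (nat_lit 9788454524) (nat_lit 389) (nat_lit 5) (nat_lit 399) (nat_lit 5) (nat_lit 400) (nat_lit 5) (nat_lit 487) (nat_lit 448) (nat_lit 205))))) (XT.nd (nat_lit 156) (nat_lit 0) (nat_lit 0) (XT.nd (nat_lit 78) (nat_lit 0) (nat_lit 0) (XT.lf (nat_lit 0) (nat_lit 3144593947) (nat_lit 0) (nat_lit 3144593947) (nat_lit 1748) (nat_lit 1755162684) (nat_lit 522) (nat_lit 5) (nat_lit 522) (nat_lit 3) (nat_lit 545) (nat_lit 3) (nat_lit 449) (nat_lit 449) (nat_lit 242)) (XT.lf (nat_lit 0) (nat_lit 12972861654) (nat_lit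 1748) (nat_lit 1763369839) (nat_lit 1824) (nat_lit 1507982632) (nat_lit 522) (nat_lit 5) (nat_lit 545) (nat_lit 3) (nat_lit 546) (nat_lit 5) (nat_lit 450) (nat_lit 449) (nat_lit 241))) (XT.nd (nat_lit 78) (nat_lit 0) (nat_lit 76) (XT.lf (nat_lit 76) (nat_lit 6473191515) (nat_lit 0) (nat_lit 6978958338) (nat_lit 1824) (nat_lit 2949149249) (nat_lit 523) (nat_lit 5) (nat_lit 522) (nat_lit 5) (nat_lit 546) (nat_lit 5) (nat_lit 451) (nat_lit 449) (nat_lit 240)) (XT.nd (nat_lit 78) (nat_lit 0) (nat_lit 0) (XT.lf (nat_lit 0) (nat_lit 13952360140) (nat_lit 1748) (nat_lit 1672722903) (nat_lit 1824) (nat_lit 936216008) (nat_lit 523) (nat_lit 5) (nat_lit 546) (nat_lit 5) (nat_lit 547) (nat_lit 5) (nat_lit 452) (nat_lit 449) (nat_lit 239)) (XT.lf (nat_lit 76) (nat_lit 6786953698) (nat_lit 0) (nat_lit 7759398897) (nat_lit 1824) (nat_lit 2176470846) (nat_lit 524) (nat_lit 5) (nat_lit 523) (nat_lit 5) (nat_lit 547) (nat_lit 5) (nat_lit 453) (nat_lit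 449) (nat_lit 238)))))) (XT.nd (nat_lit 390) (nat_lit 0) (nat_lit 76) (XT.nd (nat_lit 156) (nat_lit 1748) (nat_lit 0) (XT.nd (nat_lit 78) (nat_lit 0) (nat_lit 0) (XT.lf (nat_lit 0) (nat_lit 15158852399) (nat_lit 1748) (nat_lit 1454373773) (nat_lit 1824) (nat_lit 274219596) (nat_lit 524) (nat_lit 5) (nat_lit 547) (nat_lit 5) (nat_lit 548) (nat_lit 5) (nat_lit 454) (nat_lit 449) (nat_lit 237)) (XT.lf (nat_lit 76) (nat_lit 7236615878) (nat_lit 0) (nat_lit 8639099988) (nat_lit 1824) (nat_lit 1177802402) (nat_lit 525) (nat_lit 5) (nat_lit 524) (nat_lit 5) (nat_lit 548) (nat_lit 5) (nat_lit 455) (nat_lit 449) (nat_lit 236))) (XT.nd (nat_lit 78) (nat_lit 1748) (nat_lit 0) (XT.lf (nat_lit 76) (nat_lit 16117504807) (nat_lit 0) (nat_lit 493012526) (nat_lit 1824) (nat_lit 612322870) (nat_lit 525) (nat_lit 5) (nat_lit 524) (nat_lit 5) (nat_lit 548) (nat_lit 5) (nat_lit 456) (nat_lit 449) (nat_lit 235)) (XT.nd (nat_lit 78) (nat_lit 0) (nat_lit 0)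 (XT.lf (nat_lit 0) (nat_lit 61118719) (nat_lit 1824) (nat_lit 9565349109) (nat_lit 1900) (nat_lit 7767161636) (nat_lit 501) (nat_lit 5) (nat_lit 525) (nat_lit 5) (nat_lit 526) (nat_lit 5) (nat_lit 457) (nat_lit 449) (nat_lit 234)) (XT.lf (nat_lit 0) (nat_lit 744602189) (nat_lit 1824) (nat_lit 623259294) (nat_lit 1900) (nat_lit 16199796635) (nat_lit 501) (nat_lit 5) (nat_lit 525) (nat_lit 5) (nat_lit 526) (nat_lit 5) (nat_lit 458) (nat_lit 449) (nat_lit 233))))) (XT.nd (nat_lit 156) (nat_lit 0) (nat_lit 76) (XT.nd (nat_lit 78) (nat_lit 0) (nat_lit 0) (XT.lf (nat_lit 0) (nat_lit 1537982594) (nat_lit 1824) (nat_lit 9183491396) (nat_lit 1900) (nat_lit 7021768812) (nat_lit 502) (nat_lit 5) (nat_lit 526) (nat_lit 5) (nat_lit 527) (nat_lit 5) (nat_lit 459) (nat_lit 449) (nat_lit 232)) (XT.lf (nat_lit 0) (nat_lit 2354753893) (nat_lit 1824) (nat_lit 257562) (nat_lit 1900) (nat_lit 15567177257) (nat_lit 502) (nat_lit 5) (nat_lit 526) (nat_lit 5)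 (nat_lit 527) (nat_lit 5) (nat_lit 460) (nat_lit 449) (nat_lit 231))) (XT.nd (nat_lit 78) (nat_lit 0) (nat_lit 0) (XT.lf (nat_lit 0) (nat_lit 3284363144) (nat_lit 1824) (nat_lit 8656774206) (nat_lit 1900) (nat_lit 6161646141) (nat_lit 503) (nat_lit 5) (nat_lit 527) (nat_lit 5) (nat_lit 528) (nat_lit 5) (nat_lit 461) (nat_lit 449) (nat_lit 230)) (XT.nd (nat_lit 78) (nat_lit 0) (nat_lit 76) (XT.lf (nat_lit 76) (nat_lit 785104764) (nat_lit 0) (nat_lit 3462620812) (nat_lit 1900) (nat_lit 14038961369) (nat_lit 504) (nat_lit 5) (nat_lit 503) (nat_lit 5) (nat_lit 528) (nat_lit 5) (nat_lit 462) (nat_lit 449) (nat_lit 229)) (XT.lf (nat_lit 0) (nat_lit 5317059444) (nat_lit 1824) (nat_lit 7977898154) (nat_lit 1900) (nat_lit 5177576786) (nat_lit 504) (nat_lit 5) (nat_lit 528) (nat_lit 5) (nat_lit 529) (nat_lit 5) (nat_lit 463) (nat_lit 449) (nat_lit 228))))))) (XT.nd (nat_lit 780) (nat_lit 6308) (nat_lit 0) (XT.nd (nat_lit 390) (nat_lit 0) (nat_lit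 228) (XT.nd (nat_lit 156) (nat_lit 0) (nat_lit 76) (XT.nd (nat_lit 78) (nat_lit 0) (nat_lit 76) (XT.lf (nat_lit 76) (nat_lit 1732217729) (nat_lit 0) (nat_lit 4704407366) (nat_lit 1900) (nat_lit 12224896775) (nat_lit 505) (nat_lit 5) (nat_lit 504) (nat_lit 5) (nat_lit 529) (nat_lit 5) (nat_lit 464) (nat_lit 449) (nat_lit 227)) (XT.lf (nat_lit 0) (nat_lit 7653575841) (nat_lit 1824) (nat_lit 7139159606) (nat_lit 1900) (nat_lit 4060053783) (nat_lit 505) (nat_lit 5) (nat_lit 529) (nat_lit 5) (nat_lit 530) (nat_lit 5) (nat_lit 465) (nat_lit 449) (nat_lit 226))) (XT.nd (nat_lit 78) (nat_lit 0) (nat_lit 76) (XT.lf (nat_lit 76) (nat_lit 2849158671) (nat_lit 0) (nat_lit 6090219804) (nat_lit 1900) (nat_lit 10107613205) (nat_lit 506) (nat_lit 5) (nat_lit 505) (nat_lit 5) (nat_lit 530) (nat_lit 5) (nat_lit 466) (nat_lit 449) (nat_lit 225)) (XT.nd (nat_lit 78) (nat_lit 0) (nat_lit 0) (XT.lf (nat_lit 0) (nat_lit 10312156117) (nat_lit 1824) (nat_lit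 6132437092) (nat_lit 1900) (nat_lit 2799259791) (nat_lit 506) (nat_lit 5) (nat_lit 530) (nat_lit 5) (nat_lit 531) (nat_lit 5) (nat_lit 467) (nat_lit 449) (nat_lit 224)) (XT.lf (nat_lit 76) (nat_lit 4144440728) (nat_lit 0) (nat_lit 7630232133) (nat_lit 1900) (nat_lit 7668733013) (nat_lit 507) (nat_lit 5) (nat_lit 506) (nat_lit 5) (nat_lit 531) (nat_lit 5) (nat_lit 468) (nat_lit 449) (nat_lit 223))))) (XT.nd (nat_lit 156) (nat_lit 0) (nat_lit 0) (XT.nd (nat_lit 78) (nat_lit 0) (nat_lit 0) (XT.lf (nat_lit 0) (nat_lit 13311818862) (nat_lit 1824) (nat_lit 4949176917) (nat_lit 1900) (nat_lit 1385046449) (nat_lit 507) (nat_lit 5) (nat_lit 531) (nat_lit 5) (nat_lit 532) (nat_lit 5) (nat_lit 469) (nat_lit 449) (nat_lit 222)) (XT.lf (nat_lit 76) (nat_lit 5627024394) (nat_lit 0) (nat_lit 9334966541) (nat_lit 1900) (nat_lit 4889094712) (nat_lit 508) (nat_lit 5) (nat_lit 507) (nat_lit 5) (nat_lit 532) (nat_lit 5) (nat_lit 470) (nat_lit 449) (nat_lit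 221))) (XT.nd (nat_lit 78) (nat_lit 0) (nat_lit 76) (XT.lf (nat_lit 76) (nat_lit 16478011680) (nat_lit 0) (nat_lit 195652729) (nat_lit 1900) (nat_lit 3385995565) (nat_lit 508) (nat_lit 5) (nat_lit 507) (nat_lit 5) (nat_lit 532) (nat_lit 5) (nat_lit 471) (nat_lit 449) (nat_lit 220)) (XT.nd (nat_lit 78) (nat_lit 0) (nat_lit 0) (XT.lf (nat_lit 76) (nat_lit 7306333333) (nat_lit 0) (nat_lit 11215314987) (nat_lit 1900) (nat_lit 1748715929) (nat_lit 509) (nat_lit 5) (nat_lit 508) (nat_lit 5) (nat_lit 533) (nat_lit 5) (nat_lit 472) (nat_lit 449) (nat_lit 219)) (XT.lf (nat_lit 76) (nat_lit 18455488650) (nat_lit 0) (nat_lit 1971875326) (nat_lit 1900) (nat_lit 57503192) (nat_lit 509) (nat_lit 5) (nat_lit 508) (nat_lit 5) (nat_lit 533) (nat_lit 5) (nat_lit 473) (nat_lit 449) (nat_lit 218)))))) (XT.nd (nat_lit 390) (nat_lit 2736) (nat_lit 0) (XT.nd (nat_lit 156) (nat_lit 2052) (nat_lit 0) (XT.nd (nat_lit 78) (nat_lit 0) (nat_lit 0) (XT.lf (nat_lit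 0) (nat_lit 1749988542) (nat_lit 1900) (nat_lit 11520829426) (nat_lit 76) (nat_lit 7430539147) (nat_lit 484) (nat_lit 5) (nat_lit 509) (nat_lit 5) (nat_lit 485) (nat_lit 5) (nat_lit 474) (nat_lit 449) (nat_lit 217)) (XT.lf (nat_lit 0) (nat_lit 3615205494) (nat_lit 1900) (nat_lit 297169062) (nat_lit 76) (nat_lit 17009347796) (nat_lit 484) (nat_lit 5) (nat_lit 509) (nat_lit 5) (nat_lit 485) (nat_lit 5) (nat_lit 475) (nat_lit 449) (nat_lit 216))) (XT.nd (nat_lit 78) (nat_lit 912) (nat_lit 0) (XT.lf (nat_lit 0) (nat_lit 5623791451) (nat_lit 1216) (nat_lit 9886873861) (nat_lit 76) (nat_lit 5633708289) (nat_lit 469) (nat_lit 5) (nat_lit 485) (nat_lit 5) (nat_lit 470) (nat_lit 5) (nat_lit 476) (nat_lit 449) (nat_lit 215)) (XT.nd (nat_lit 78) (nat_lit 0) (nat_lit 0) (XT.lf (nat_lit 0) (nat_lit 1667941172) (nat_lit 912) (nat_lit 6039082411) (nat_lit 988) (nat_lit 13663764802) (nat_lit 457) (nat_lit 5) (nat_lit 469) (nat_lit 5) (nat_lit 470) (nat_lit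 5) (nat_lit 477) (nat_lit 449) (nat_lit 214)) (XT.lf (nat_lit 0) (nat_lit 9918011080) (nat_lit 988) (nat_lit 8040412844) (nat_lit 76) (nat_lit 3641585728) (nat_lit 457) (nat_lit 5) (nat_lit 470) (nat_lit 5) (nat_lit 458) (nat_lit 5) (nat_lit 478) (nat_lit 449) (nat_lit 213))))) (XT.nd (nat_lit 234) (nat_lit 988) (nat_lit 0) (XT.nd (nat_lit 78) (nat_lit 836) (nat_lit 0) (XT.lf (nat_lit 0) (nat_lit 3862080504) (nat_lit 912) (nat_lit 8372078725) (nat_lit 988) (nat_lit 9598437296) (nat_lit 445) (nat_lit 5) (nat_lit 457) (nat_lit 5) (nat_lit 458) (nat_lit 5) (nat_lit 479) (nat_lit 449) (nat_lit 212)) (XT.nd (nat_lit 78) (nat_lit 836) (nat_lit 0) (XT.lf (nat_lit 0) (nat_lit 14656001248) (nat_lit 988) (nat_lit 5970533775) (nat_lit 76) (nat_lit 1442112695) (nat_lit 445) (nat_lit 5) (nat_lit 458) (nat_lit 5) (nat_lit 446) (nat_lit 5) (nat_lit 480) (nat_lit 449) (nat_lit 211)) (XT.lf (nat_lit 0) (nat_lit 6292705005) (nat_lit 836) (nat_lit 10925885101)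 (nat_lit 912) (nat_lit 5088983628) (nat_lit 434) (nat_lit 5) (nat_lit 445) (nat_lit 5) (nat_lit 446) (nat_lit 5) (nat_lit 481) (nat_lit 449) (nat_lit 210)))) (XT.nd (nat_lit 78) (nat_lit 988) (nat_lit 0) (XT.lf (nat_lit 0) (nat_lit 18878337069) (nat_lit 836) (nat_lit 990222004) (nat_lit 912) (nat_lit 2681996631) (nat_lit 434) (nat_lit 5) (nat_lit 445) (nat_lit 5) (nat_lit 446) (nat_lit 5) (nat_lit 482) (nat_lit 449) (nat_lit 209)) (XT.nd (nat_lit 78) (nat_lit 76) (nat_lit 0) (XT.lf (nat_lit 0) (nat_lit 8971773856) (nat_lit 912) (nat_lit 13713515139) (nat_lit 988) (nat_lit 110833087) (nat_lit 422) (nat_lit 5) (nat_lit 434) (nat_lit 5) (nat_lit 435) (nat_lit 5) (nat_lit 483) (nat_lit 449) (nat_lit 208)) (XT.lf (nat_lit 0) (nat_lit 2506341951) (nat_lit 988) (nat_lit 1154544786) (nat_lit 76) (nat_lit 19384836285) (nat_lit 421) (nat_lit 5) (nat_lit 434) (nat_lit 5) (nat_lit 422) (nat_lit 5) (nat_lit 484) (nat_lit 449) (nat_lit 207))))))))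
noncomputable def xc245 : XT := (XT.nd (nat_lit 57954) (nat_lit 0) (nat_lit 836) (XT.nd (nat_lit 57174) (nat_lit 0) (nat_lit 7752) (XT.nd (nat_lit 56784) (nat_lit 0) (nat_lit 9348) (XT.nd (nat_lit 156) (nat_lit 0) (nat_lit 0) (XT.nd (nat_lit 78) (nat_lit 836) (nat_lit 0) (XT.lf (nat_lit 0) (nat_lit 5291337849) (nat_lit 912) (nat_lit 11421648345) (nat_lit 76) (nat_lit 6584975906) (nat_lit 410) (nat_lit 5) (nat_lit 422) (nat_lit 5) (nat_lit 411) (nat_lit 5) (nat_lit 485) (nat_lit 449) (nat_lit 206)) (XT.lf (nat_lit 0) (nat_lit 1621512311) (nat_lit 836) (nat_lit 6549383778) (nat_lit 912) (nat_lit 15383572622) (nat_lit 399) (nat_lit 5) (nat_lit 410) (nat_lit 5) (nat_lit 411) (nat_lit 5) (nat_lit 486) (nat_lit 449) (nat_lit 205))) (XT.nd (nat_lit 56472) (nat_lit 0) (nat_lit 9348) (XT.lf (nat_lit 0) (nat_lit 11206322704) (nat_lit 912) (nat_lit 8763360701) (nat_lit 76) (nat_lit 3844456506) (nat_lit 399) (nat_lit 5) (nat_lit 411) (nat_lit 5)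 (nat_lit 400) (nat_lit 5) (nat_lit 487) (nat_lit 449) (nat_lit 204)) (XT.nd (nat_lit 78) (nat_lit 0) (nat_lit 0) (XT.lf (nat_lit 0) (nat_lit 3336036321) (nat_lit 0) (nat_lit 3336036321) (nat_lit 1748) (nat_lit 1528022928) (nat_lit 522) (nat_lit 5) (nat_lit 522) (nat_lit 3) (nat_lit 545) (nat_lit 3) (nat_lit 450) (nat_lit 450) (nat_lit 240)) (XT.lf (nat_lit 0) (nat_lit 13734801936) (nat_lit 1748) (nat_lit 1534858511) (nat_lit 1824) (nat_lit 1289388300) (nat_lit 522) (nat_lit 5) (nat_lit 545) (nat_lit 3) (nat_lit 546) (nat_lit 5) (nat_lit 451) (nat_lit 450) (nat_lit 239))))) (XT.nd (nat_lit 156) (nat_lit 0) (nat_lit 76) (XT.nd (nat_lit 78) (nat_lit 0) (nat_lit 76) (XT.lf (nat_lit 76) (nat_lit 6864698684) (nat_lit 0) (nat_lit 7350825965) (nat_lit 1824) (nat_lit 2503913799) (nat_lit 523) (nat_lit 5) (nat_lit 522) (nat_lit 5) (nat_lit 546) (nat_lit 5) (nat_lit 452) (nat_lit 450) (nat_lit 238)) (XT.lf (nat_lit 0) (nat_lit 14714567763) (nat_lit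 1748) (nat_lit 1438100748) (nat_lit 1824) (nat_lit 730193313) (nat_lit 523) (nat_lit 5) (nat_lit 546) (nat_lit 5) (nat_lit 547) (nat_lit 5) (nat_lit 453) (nat_lit 450) (nat_lit 237))) (XT.nd (nat_lit 78) (nat_lit 0) (nat_lit 76) (XT.lf (nat_lit 76) (nat_lit 7189005724) (nat_lit 0) (nat_lit 8123689690) (nat_lit 1824) (nat_lit 1735076181) (nat_lit 524) (nat_lit 5) (nat_lit 523) (nat_lit 5) (nat_lit 547) (nat_lit 5) (nat_lit 454) (nat_lit 450) (nat_lit 236)) (XT.nd (nat_lit 78) (nat_lit 0) (nat_lit 0) (XT.lf (nat_lit 0) (nat_lit 15926792321) (nat_lit 1748) (nat_lit 1211717228) (nat_lit 1824) (nat_lit 77389876) (nat_lit 524) (nat_lit 5) (nat_lit 547) (nat_lit 5) (nat_lit 548) (nat_lit 5) (nat_lit 455) (nat_lit 450) (nat_lit 235)) (XT.lf (nat_lit 76) (nat_lit 7651304426) (nat_lit 0) (nat_lit 8999328369) (nat_lit 1824) (nat_lit 734807786) (nat_lit 525) (nat_lit 5) (nat_lit 524) (nat_lit 5) (nat_lit 548) (nat_lit 5) (nat_lit 456) (nat_lit 450)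 (nat_lit 234)))))) (XT.nd (nat_lit 390) (nat_lit 0) (nat_lit 152) (XT.nd (nat_lit 156) (nat_lit 0) (nat_lit 0) (XT.nd (nat_lit 78) (nat_lit 1748) (nat_lit 0) (XT.lf (nat_lit 76) (nat_lit 16704517875) (nat_lit 0) (nat_lit 686643739) (nat_lit 1824) (nat_lit 167166716) (nat_lit 525) (nat_lit 5) (nat_lit 524) (nat_lit 5) (nat_lit 548) (nat_lit 5) (nat_lit 457) (nat_lit 450) (nat_lit 233)) (XT.lf (nat_lit 0) (nat_lit 505500566) (nat_lit 1824) (nat_lit 9477749980) (nat_lit 1900) (nat_lit 7749388318) (nat_lit 501) (nat_lit 5) (nat_lit 525) (nat_lit 5) (nat_lit 526) (nat_lit 5) (nat_lit 458) (nat_lit 450) (nat_lit 232))) (XT.nd (nat_lit 78) (nat_lit 0) (nat_lit 76) (XT.lf (nat_lit 0) (nat_lit 1193964304) (nat_lit 1824) (nat_lit 362287116) (nat_lit 1900) (nat_lit 16354070460) (nat_lit 501) (nat_lit 5) (nat_lit 525) (nat_lit 5) (nat_lit 526) (nat_lit 5) (nat_lit 459) (nat_lit 450) (nat_lit 231)) (XT.nd (nat_lit 78) (nat_lit 0) (nat_lit 0) (XT.lf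 (nat_lit 0) (nat_lit 1995443602) (nat_lit 1824) (nat_lit 9085955145) (nat_lit 1900) (nat_lit 7008174884) (nat_lit 502) (nat_lit 5) (nat_lit 526) (nat_lit 5) (nat_lit 527) (nat_lit 5) (nat_lit 460) (nat_lit 450) (nat_lit 230)) (XT.lf (nat_lit 76) (nat_lit 279089834) (nat_lit 0) (nat_lit 2542905837) (nat_lit 1900) (nat_lit 15450233882) (nat_lit 503) (nat_lit 5) (nat_lit 502) (nat_lit 5) (nat_lit 527) (nat_lit 5) (nat_lit 461) (nat_lit 450) (nat_lit 229))))) (XT.nd (nat_lit 156) (nat_lit 0) (nat_lit 76) (XT.nd (nat_lit 78) (nat_lit 0) (nat_lit 0) (XT.lf (nat_lit 0) (nat_lit 3761064436) (nat_lit 1824) (nat_lit 8546896823) (nat_lit 1900) (nat_lit 6148657621) (nat_lit 503) (nat_lit 5) (nat_lit 527) (nat_lit 5) (nat_lit 528) (nat_lit 5) (nat_lit 462) (nat_lit 450) (nat_lit 228)) (XT.lf (nat_lit 76) (nat_lit 1081957800) (nat_lit 0) (nat_lit 3655502636) (nat_lit 1900) (nat_lit 13906864640) (nat_lit 504) (nat_lit 5) (nat_lit 503) (nat_lit 5) (nat_lit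 528) (nat_lit 5) (nat_lit 463) (nat_lit 450) (nat_lit 227))) (XT.nd (nat_lit 78) (nat_lit 0) (nat_lit 0) (XT.lf (nat_lit 0) (nat_lit 5819457167) (nat_lit 1824) (nat_lit 7853094125) (nat_lit 1900) (nat_lit 5161512649) (nat_lit 504) (nat_lit 5) (nat_lit 528) (nat_lit 5) (nat_lit 529) (nat_lit 5) (nat_lit 464) (nat_lit 450) (nat_lit 226)) (XT.nd (nat_lit 78) (nat_lit 0) (nat_lit 76) (XT.lf (nat_lit 76) (nat_lit 2049353273) (nat_lit 0) (nat_lit 4906129164) (nat_lit 1900) (nat_lit 12071467373) (nat_lit 505) (nat_lit 5) (nat_lit 504) (nat_lit 5) (nat_lit 529) (nat_lit 5) (nat_lit 465) (nat_lit 450) (nat_lit 225)) (XT.lf (nat_lit 0) (nat_lit 8188437565) (nat_lit 1824) (nat_lit 6996656019) (nat_lit 1900) (nat_lit 4037115627) (nat_lit 505) (nat_lit 5) (nat_lit 529) (nat_lit 5) (nat_lit 530) (nat_lit 5) (nat_lit 466) (nat_lit 450) (nat_lit 224))))))) (XT.nd (nat_lit 780) (nat_lit 5548) (nat_lit 0) (XT.nd (nat_lit 390) (nat_lit 1672) (nat_lit 0)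 (XT.nd (nat_lit 156) (nat_lit 0) (nat_lit 76) (XT.nd (nat_lit 78) (nat_lit 0) (nat_lit 76) (XT.lf (nat_lit 76) (nat_lit 3189551738) (nat_lit 0) (nat_lit 6304758516) (nat_lit 1900) (nat_lit 9926098375) (nat_lit 506) (nat_lit 5) (nat_lit 505) (nat_lit 5) (nat_lit 530) (nat_lit 5) (nat_lit 467) (nat_lit 450) (nat_lit 223)) (XT.lf (nat_lit 0) (nat_lit 10886577785) (nat_lit 1824) (nat_lit 5969267334) (nat_lit 1900) (nat_lit 2765521369) (nat_lit 506) (nat_lit 5) (nat_lit 530) (nat_lit 5) (nat_lit 531) (nat_lit 5) (nat_lit 468) (nat_lit 450) (nat_lit 222))) (XT.nd (nat_lit 78) (nat_lit 0) (nat_lit 76) (XT.lf (nat_lit 76) (nat_lit 4511267657) (nat_lit 0) (nat_lit 7861701534) (nat_lit 1900) (nat_lit 7452048743) (nat_lit 507) (nat_lit 5) (nat_lit 506) (nat_lit 5) (nat_lit 531) (nat_lit 5) (nat_lit 469) (nat_lit 450) (nat_lit 221)) (XT.nd (nat_lit 78) (nat_lit 0) (nat_lit 0) (XT.lf (nat_lit 0) (nat_lit 13933242329) (nat_lit 1824) (nat_lit 4762173970)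 (nat_lit 1900) (nat_lit 1336443032) (nat_lit 507) (nat_lit 5) (nat_lit 531) (nat_lit 5) (nat_lit 532) (nat_lit 5) (nat_lit 470) (nat_lit 450) (nat_lit 220)) (XT.lf (nat_lit 76) (nat_lit 6023669877) (nat_lit 0) (nat_lit 9587628111) (nat_lit 1900) (nat_lit 4629808027) (nat_lit 508) (nat_lit 5) (nat_lit 507) (nat_lit 5) (nat_lit 532) (nat_lit 5) (nat_lit 471) (nat_lit 450) (nat_lit 219))))) (XT.nd (nat_lit 156) (nat_lit 1824) (nat_lit 0) (XT.nd (nat_lit 78) (nat_lit 0) (nat_lit 76) (XT.lf (nat_lit 76) (nat_lit 17086106223) (nat_lit 0) (nat_lit 264234646) (nat_lit 1900) (nat_lit 3103648242) (nat_lit 508) (nat_lit 5) (nat_lit 507) (nat_lit 5) (nat_lit 532) (nat_lit 5) (nat_lit 472) (nat_lit 450) (nat_lit 218)) (XT.lf (nat_lit 76) (nat_lit 7736397862) (nat_lit 0) (nat_lit 11493588994) (nat_lit 1900) (nat_lit 1439026566) (nat_lit 509) (nat_lit 5) (nat_lit 508) (nat_lit 5) (nat_lit 533) (nat_lit 5) (nat_lit 473) (nat_lit 450) (nat_lit 217)))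 (XT.nd (nat_lit 78) (nat_lit 0) (nat_lit 76) (XT.lf (nat_lit 0) (nat_lit 275589869) (nat_lit 1900) (nat_lit 1786783127) (nat_lit 1976) (nat_lit 18825529653) (nat_lit 483) (nat_lit 5) (nat_lit 508) (nat_lit 5) (nat_lit 509) (nat_lit 5) (nat_lit 474) (nat_lit 450) (nat_lit 216)) (XT.nd (nat_lit 78) (nat_lit 0) (nat_lit 0) (XT.lf (nat_lit 0) (nat_lit 2113437083) (nat_lit 1900) (nat_lit 11463418761) (nat_lit 76) (nat_lit 7531959438) (nat_lit 484) (nat_lit 5) (nat_lit 509) (nat_lit 5) (nat_lit 485) (nat_lit 5) (nat_lit 475) (nat_lit 450) (nat_lit 215)) (XT.lf (nat_lit 0) (nat_lit 4009518201) (nat_lit 1900) (nat_lit 20928861) (nat_lit 76) (nat_lit 17303269565) (nat_lit 484) (nat_lit 5) (nat_lit 509) (nat_lit 5) (nat_lit 485) (nat_lit 5) (nat_lit 476) (nat_lit 450) (nat_lit 214)))))) (XT.nd (nat_lit 390) (nat_lit 2660) (nat_lit 0) (XT.nd (nat_lit 156) (nat_lit 912) (nat_lit 0) (XT.nd (nat_lit 78) (nat_lit 912) (nat_lit 0) (XT.lf (nat_lit 0)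 (nat_lit 6053540606) (nat_lit 1216) (nat_lit 9797692485) (nat_lit 76) (nat_lit 5709682516) (nat_lit 469) (nat_lit 5) (nat_lit 485) (nat_lit 5) (nat_lit 470) (nat_lit 5) (nat_lit 477) (nat_lit 450) (nat_lit 213)) (XT.lf (nat_lit 0) (nat_lit 1986331225) (nat_lit 912) (nat_lit 6187735722) (nat_lit 988) (nat_lit 13617879148) (nat_lit 457) (nat_lit 5) (nat_lit 469) (nat_lit 5) (nat_lit 470) (nat_lit 5) (nat_lit 478) (nat_lit 450) (nat_lit 212))) (XT.nd (nat_lit 78) (nat_lit 912) (nat_lit 0) (XT.lf (nat_lit 0) (nat_lit 10422961429) (nat_lit 988) (nat_lit 7915465955) (nat_lit 76) (nat_lit 3687450658) (nat_lit 457) (nat_lit 5) (nat_lit 470) (nat_lit 5) (nat_lit 458) (nat_lit 5) (nat_lit 479) (nat_lit 450) (nat_lit 211)) (XT.nd (nat_lit 78) (nat_lit 0) (nat_lit 0) (XT.lf (nat_lit 0) (nat_lit 4223197291) (nat_lit 912) (nat_lit 8558066785) (nat_lit 988) (nat_lit 9481935946) (nat_lit 445) (nat_lit 5) (nat_lit 457) (nat_lit 5) (nat_lit 458) (nat_lit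 5) (nat_lit 480) (nat_lit 450) (nat_lit 210)) (XT.lf (nat_lit 0) (nat_lit 15245495044) (nat_lit 988) (nat_lit 5805587561) (nat_lit 76) (nat_lit 1453010591) (nat_lit 445) (nat_lit 5) (nat_lit 458) (nat_lit 5) (nat_lit 446) (nat_lit 5) (nat_lit 481) (nat_lit 450) (nat_lit 209))))) (XT.nd (nat_lit 234) (nat_lit 836) (nat_lit 0) (XT.nd (nat_lit 78) (nat_lit 988) (nat_lit 0) (XT.lf (nat_lit 0) (nat_lit 6701045226) (nat_lit 836) (nat_lit 11154313291) (nat_lit 912) (nat_lit 4892518760) (nat_lit 434) (nat_lit 5) (nat_lit 445) (nat_lit 5) (nat_lit 446) (nat_lit 5) (nat_lit 482) (nat_lit 450) (nat_lit 208)) (XT.nd (nat_lit 78) (nat_lit 988) (nat_lit 0) (XT.lf (nat_lit 0) (nat_lit 19532850987) (nat_lit 836) (nat_lit 1019742609) (nat_lit 912) (nat_lit 2443239955) (nat_lit 434) (nat_lit 5) (nat_lit 445) (nat_lit 5) (nat_lit 446) (nat_lit 5) (nat_lit 483) (nat_lit 450) (nat_lit 207)) (XT.lf (nat_lit 0) (nat_lit 173110121) (nat_lit 988) (nat_lit 13815434614)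 (nat_lit 76) (nat_lit 9257820925) (nat_lit 421) (nat_lit 5) (nat_lit 434) (nat_lit 5) (nat_lit 422) (nat_lit 5) (nat_lit 484) (nat_lit 450) (nat_lit 206)))) (XT.nd (nat_lit 78) (nat_lit 836) (nat_lit 0) (XT.lf (nat_lit 0) (nat_lit 2835564087) (nat_lit 988) (nat_lit 898550797) (nat_lit 76) (nat_lit 19766940693) (nat_lit 421) (nat_lit 5) (nat_lit 434) (nat_lit 5) (nat_lit 422) (nat_lit 5) (nat_lit 485) (nat_lit 450) (nat_lit 205)) (XT.nd (nat_lit 56628) (nat_lit 0) (nat_lit 8512) (XT.lf (nat_lit 0) (nat_lit 5672599383) (nat_lit 912) (nat_lit 11367335909) (nat_lit 76) (nat_lit 6718477354) (nat_lit 410) (nat_lit 5) (nat_lit 422) (nat_lit 5) (nat_lit 411) (nat_lit 5) (nat_lit 486) (nat_lit 450) (nat_lit 204)) (XT.lf (nat_lit 0) (nat_lit 3526315770) (nat_lit 0) (nat_lit 3526315770) (nat_lit 1748) (nat_lit 1306523592) (nat_lit 522) (nat_lit 5) (nat_lit 522) (nat_lit 3) (nat_lit 545) (nat_lit 3) (nat_lit 451) (nat_lit 451) (nat_lit 238))))))))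
noncomputable def xc246 : XT := (XT.nd (nat_lit 1560) (nat_lit 6004) (nat_lit 0) (XT.nd (nat_lit 780) (nat_lit 0) (nat_lit 152) (XT.nd (nat_lit 390) (nat_lit 1672) (nat_lit 0) (XT.nd (nat_lit 156) (nat_lit 0) (nat_lit 76) (XT.nd (nat_lit 78) (nat_lit 0) (nat_lit 0) (XT.lf (nat_lit 0) (nat_lit 14492468994) (nat_lit 1748) (nat_lit 1312019806) (nat_lit 1824) (nat_lit 1076081502) (nat_lit 522) (nat_lit 5) (nat_lit 545) (nat_lit 3) (nat_lit 546) (nat_lit 5) (nat_lit 452) (nat_lit 451) (nat_lit 237)) (XT.lf (nat_lit 76) (nat_lit 7253860535) (nat_lit 0) (nat_lit 7721110900) (nat_lit 1824) (nat_lit 2069353057) (nat_lit 523) (nat_lit 5) (nat_lit 522) (nat_lit 5) (nat_lit 546) (nat_lit 5) (nat_lit 453) (nat_lit 451) (nat_lit 236))) (XT.nd (nat_lit 78) (nat_lit 0) (nat_lit 0) (XT.lf (nat_lit 0) (nat_lit 15473257830) (nat_lit 1748) (nat_lit 1209195891) (nat_lit 1824) (nat_lit 528777365) (nat_lit 523) (nat_lit 5) (nat_lit 546) (nat_lit 5) (nat_lit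 547) (nat_lit 5) (nat_lit 454) (nat_lit 451) (nat_lit 235)) (XT.nd (nat_lit 78) (nat_lit 0) (nat_lit 0) (XT.lf (nat_lit 76) (nat_lit 7588757533) (nat_lit 0) (nat_lit 8487146582) (nat_lit 1824) (nat_lit 1303683816) (nat_lit 524) (nat_lit 5) (nat_lit 523) (nat_lit 5) (nat_lit 547) (nat_lit 5) (nat_lit 455) (nat_lit 451) (nat_lit 234)) (XT.lf (nat_lit 76) (nat_lit 16575748197) (nat_lit 0) (nat_lit 117055538) (nat_lit 1824) (nat_lit 858464168) (nat_lit 524) (nat_lit 5) (nat_lit 523) (nat_lit 5) (nat_lit 547) (nat_lit 5) (nat_lit 456) (nat_lit 451) (nat_lit 233))))) (XT.nd (nat_lit 156) (nat_lit 0) (nat_lit 76) (XT.nd (nat_lit 78) (nat_lit 1824) (nat_lit 0) (XT.lf (nat_lit 76) (nat_lit 8063804016) (nat_lit 0) (nat_lit 9359482547) (nat_lit 1824) (nat_lit 301070008) (nat_lit 525) (nat_lit 5) (nat_lit 524) (nat_lit 5) (nat_lit 548) (nat_lit 5) (nat_lit 457) (nat_lit 451) (nat_lit 232)) (XT.lf (nat_lit 0) (nat_lit 265601358) (nat_lit 1824) (nat_lit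 609627842) (nat_lit 1900) (nat_lit 17025610335) (nat_lit 500) (nat_lit 5) (nat_lit 524) (nat_lit 5) (nat_lit 525) (nat_lit 5) (nat_lit 458) (nat_lit 451) (nat_lit 231))) (XT.nd (nat_lit 78) (nat_lit 0) (nat_lit 0) (XT.lf (nat_lit 0) (nat_lit 941561627) (nat_lit 1824) (nat_lit 9399229133) (nat_lit 1900) (nat_lit 7737981860) (nat_lit 501) (nat_lit 5) (nat_lit 525) (nat_lit 5) (nat_lit 526) (nat_lit 5) (nat_lit 459) (nat_lit 451) (nat_lit 230)) (XT.nd (nat_lit 78) (nat_lit 0) (nat_lit 76) (XT.lf (nat_lit 0) (nat_lit 1635442659) (nat_lit 1824) (nat_lit 106713401) (nat_lit 1900) (nat_lit 16518020277) (nat_lit 501) (nat_lit 5) (nat_lit 525) (nat_lit 5) (nat_lit 526) (nat_lit 5) (nat_lit 460) (nat_lit 451) (nat_lit 229)) (XT.lf (nat_lit 0) (nat_lit 2445484496) (nat_lit 1824) (nat_lit 8997387744) (nat_lit 1900) (nat_lit 7000290223) (nat_lit 502) (nat_lit 5) (nat_lit 526) (nat_lit 5) (nat_lit 527) (nat_lit 5) (nat_lit 461) (nat_lit 451) (nat_lit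 228)))))) (XT.nd (nat_lit 390) (nat_lit 0) (nat_lit 228) (XT.nd (nat_lit 156) (nat_lit 0) (nat_lit 76) (XT.nd (nat_lit 78) (nat_lit 0) (nat_lit 76) (XT.lf (nat_lit 76) (nat_lit 553179934) (nat_lit 0) (nat_lit 2729089202) (nat_lit 1900) (nat_lit 15347328337) (nat_lit 503) (nat_lit 5) (nat_lit 502) (nat_lit 5) (nat_lit 527) (nat_lit 5) (nat_lit 462) (nat_lit 451) (nat_lit 227)) (XT.lf (nat_lit 0) (nat_lit 4231339578) (nat_lit 1824) (nat_lit 8445811626) (nat_lit 1900) (nat_lit 6140698976) (nat_lit 503) (nat_lit 5) (nat_lit 527) (nat_lit 5) (nat_lit 528) (nat_lit 5) (nat_lit 463) (nat_lit 451) (nat_lit 226))) (XT.nd (nat_lit 78) (nat_lit 0) (nat_lit 76) (XT.lf (nat_lit 76) (nat_lit 1373830463) (nat_lit 0) (nat_lit 3847441417) (nat_lit 1900) (nat_lit 13788158453) (nat_lit 504) (nat_lit 5) (nat_lit 503) (nat_lit 5) (nat_lit 528) (nat_lit 5) (nat_lit 464) (nat_lit 451) (nat_lit 225)) (XT.nd (nat_lit 78) (nat_lit 0) (nat_lit 0) (XT.lf (nat_lit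 0) (nat_lit 6316523487) (nat_lit 1824) (nat_lit 7736836138) (nat_lit 1900) (nat_lit 5149772051) (nat_lit 504) (nat_lit 5) (nat_lit 528) (nat_lit 5) (nat_lit 529) (nat_lit 5) (nat_lit 465) (nat_lit 451) (nat_lit 224)) (XT.lf (nat_lit 76) (nat_lit 2361862051) (nat_lit 0) (nat_lit 5107705852) (nat_lit 1900) (nat_lit 11930421387) (nat_lit 505) (nat_lit 5) (nat_lit 504) (nat_lit 5) (nat_lit 529) (nat_lit 5) (nat_lit 466) (nat_lit 451) (nat_lit 223))))) (XT.nd (nat_lit 156) (nat_lit 0) (nat_lit 76) (XT.nd (nat_lit 78) (nat_lit 0) (nat_lit 0) (XT.lf (nat_lit 0) (nat_lit 8719171144) (nat_lit 1824) (nat_lit 6862380393) (nat_lit 1900) (nat_lit 4017762561) (nat_lit 505) (nat_lit 5) (nat_lit 529) (nat_lit 5) (nat_lit 530) (nat_lit 5) (nat_lit 467) (nat_lit 451) (nat_lit 222)) (XT.lf (nat_lit 76) (nat_lit 3525747514) (nat_lit 0) (nat_lit 6519987017) (nat_lit 1900) (nat_lit 9755851510) (nat_lit 506) (nat_lit 5) (nat_lit 505) (nat_lit 5) (nat_lit 530)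 (nat_lit 5) (nat_lit 468) (nat_lit 451) (nat_lit 221))) (XT.nd (nat_lit 78) (nat_lit 0) (nat_lit 0) (XT.lf (nat_lit 0) (nat_lit 11458191065) (nat_lit 1824) (nat_lit 5813932861) (nat_lit 1900) (nat_lit 2734592257) (nat_lit 506) (nat_lit 5) (nat_lit 530) (nat_lit 5) (nat_lit 531) (nat_lit 5) (nat_lit 469) (nat_lit 451) (nat_lit 220)) (XT.nd (nat_lit 78) (nat_lit 0) (nat_lit 76) (XT.lf (nat_lit 76) (nat_lit 4874405462) (nat_lit 0) (nat_lit 8094737909) (nat_lit 1900) (nat_lit 7245400626) (nat_lit 507) (nat_lit 5) (nat_lit 506) (nat_lit 5) (nat_lit 531) (nat_lit 5) (nat_lit 470) (nat_lit 451) (nat_lit 219)) (XT.lf (nat_lit 0) (nat_lit 14553301917) (nat_lit 1824) (nat_lit 4582536168) (nat_lit 1900) (nat_lit 1289830538) (nat_lit 507) (nat_lit 5) (nat_lit 531) (nat_lit 5) (nat_lit 532) (nat_lit 5) (nat_lit 471) (nat_lit 451) (nat_lit 218))))))) (XT.nd (nat_lit 780) (nat_lit 1824) (nat_lit 0) (XT.nd (nat_lit 390) (nat_lit 2888) (nat_lit 0) (XT.nd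 (nat_lit 156) (nat_lit 1824) (nat_lit 0) (XT.nd (nat_lit 78) (nat_lit 0) (nat_lit 0) (XT.lf (nat_lit 76) (nat_lit 6417216126) (nat_lit 0) (nat_lit 9842781519) (nat_lit 1900) (nat_lit 4379201016) (nat_lit 508) (nat_lit 5) (nat_lit 507) (nat_lit 5) (nat_lit 532) (nat_lit 5) (nat_lit 472) (nat_lit 451) (nat_lit 217)) (XT.lf (nat_lit 76) (nat_lit 17695546830) (nat_lit 0) (nat_lit 331677030) (nat_lit 1900) (nat_lit 2829247509) (nat_lit 508) (nat_lit 5) (nat_lit 507) (nat_lit 5) (nat_lit 532) (nat_lit 5) (nat_lit 473) (nat_lit 451) (nat_lit 216))) (XT.nd (nat_lit 78) (nat_lit 1900) (nat_lit 0) (XT.lf (nat_lit 76) (nat_lit 8164038028) (nat_lit 0) (nat_lit 11775332849) (nat_lit 1900) (nat_lit 1136527127) (nat_lit 509) (nat_lit 5) (nat_lit 508) (nat_lit 5) (nat_lit 533) (nat_lit 5) (nat_lit 474) (nat_lit 451) (nat_lit 215)) (XT.nd (nat_lit 78) (nat_lit 0) (nat_lit 76) (XT.lf (nat_lit 0) (nat_lit 601626347) (nat_lit 1900) (nat_lit 1550698196) (nat_lit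 1976) (nat_lit 19146925666) (nat_lit 483) (nat_lit 5) (nat_lit 508) (nat_lit 5) (nat_lit 509) (nat_lit 5) (nat_lit 475) (nat_lit 451) (nat_lit 214)) (XT.lf (nat_lit 0) (nat_lit 2471400528) (nat_lit 1900) (nat_lit 11416036565) (nat_lit 76) (nat_lit 7637240600) (nat_lit 484) (nat_lit 5) (nat_lit 509) (nat_lit 5) (nat_lit 485) (nat_lit 5) (nat_lit 476) (nat_lit 451) (nat_lit 213))))) (XT.nd (nat_lit 156) (nat_lit 1824) (nat_lit 0) (XT.nd (nat_lit 78) (nat_lit 0) (nat_lit 0) (XT.lf (nat_lit 0) (nat_lit 253199365) (nat_lit 1140) (nat_lit 4147657749) (nat_lit 1216) (nat_lit 17353310874) (nat_lit 469) (nat_lit 5) (nat_lit 484) (nat_lit 5) (nat_lit 485) (nat_lit 5) (nat_lit 477) (nat_lit 451) (nat_lit 212)) (XT.lf (nat_lit 0) (nat_lit 6479564634) (nat_lit 1216) (nat_lit 9717868890) (nat_lit 76) (nat_lit 5788601330) (nat_lit 469) (nat_lit 5) (nat_lit 485) (nat_lit 5) (nat_lit 470) (nat_lit 5) (nat_lit 478) (nat_lit 451) (nat_lit 211))) (XT.nd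 (nat_lit 78) (nat_lit 912) (nat_lit 0) (XT.lf (nat_lit 0) (nat_lit 2300020969) (nat_lit 912) (nat_lit 6338279809) (nat_lit 988) (nat_lit 13583469190) (nat_lit 457) (nat_lit 5) (nat_lit 469) (nat_lit 5) (nat_lit 470) (nat_lit 5) (nat_lit 479) (nat_lit 451) (nat_lit 210)) (XT.nd (nat_lit 78) (nat_lit 912) (nat_lit 0) (XT.lf (nat_lit 0) (nat_lit 10926105518) (nat_lit 988) (nat_lit 7799116349) (nat_lit 76) (nat_lit 3735280039) (nat_lit 457) (nat_lit 5) (nat_lit 470) (nat_lit 5) (nat_lit 458) (nat_lit 5) (nat_lit 480) (nat_lit 451) (nat_lit 209)) (XT.lf (nat_lit 0) (nat_lit 4580513196) (nat_lit 912) (nat_lit 8747054424) (nat_lit 988) (nat_lit 9375082838) (nat_lit 445) (nat_lit 5) (nat_lit 457) (nat_lit 5) (nat_lit 458) (nat_lit 5) (nat_lit 481) (nat_lit 451) (nat_lit 208)))))) (XT.nd (nat_lit 57018) (nat_lit 0) (nat_lit 7676) (XT.nd (nat_lit 156) (nat_lit 988) (nat_lit 0) (XT.nd (nat_lit 78) (nat_lit 836) (nat_lit 0) (XT.lf (nat_lit 0) (nat_lit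 15835270162) (nat_lit 988) (nat_lit 5648384348) (nat_lit 76) (nat_lit 1464823246) (nat_lit 445) (nat_lit 5) (nat_lit 458) (nat_lit 5) (nat_lit 446) (nat_lit 5) (nat_lit 482) (nat_lit 451) (nat_lit 207)) (XT.lf (nat_lit 0) (nat_lit 7106582970) (nat_lit 836) (nat_lit 11386925209) (nat_lit 912) (nat_lit 4703705794) (nat_lit 434) (nat_lit 5) (nat_lit 445) (nat_lit 5) (nat_lit 446) (nat_lit 5) (nat_lit 483) (nat_lit 451) (nat_lit 206))) (XT.nd (nat_lit 78) (nat_lit 988) (nat_lit 0) (XT.lf (nat_lit 0) (nat_lit 20189700987) (nat_lit 836) (nat_lit 1049476336) (nat_lit 912) (nat_lit 2211062263) (nat_lit 434) (nat_lit 5) (nat_lit 445) (nat_lit 5) (nat_lit 446) (nat_lit 5) (nat_lit 484) (nat_lit 451) (nat_lit 205)) (XT.nd (nat_lit 78) (nat_lit 0) (nat_lit 0) (XT.lf (nat_lit 0) (nat_lit 450195163) (nat_lit 988) (nat_lit 13818130674) (nat_lit 76) (nat_lit 9437494679) (nat_lit 421) (nat_lit 5) (nat_lit 434) (nat_lit 5) (nat_lit 422) (nat_lit 5) (nat_lit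 485) (nat_lit 451) (nat_lit 204)) (XT.lf (nat_lit 0) (nat_lit 3160533054) (nat_lit 988) (nat_lit 648274134) (nat_lit 76) (nat_lit 20156904346) (nat_lit 421) (nat_lit 5) (nat_lit 434) (nat_lit 5) (nat_lit 422) (nat_lit 5) (nat_lit 486) (nat_lit 451) (nat_lit 203))))) (XT.nd (nat_lit 234) (nat_lit 0) (nat_lit 76) (XT.nd (nat_lit 78) (nat_lit 0) (nat_lit 0) (XT.lf (nat_lit 0) (nat_lit 3715602872) (nat_lit 0) (nat_lit 3715602872) (nat_lit 1748) (nat_lit 1090382059) (nat_lit 522) (nat_lit 5) (nat_lit 522) (nat_lit 3) (nat_lit 545) (nat_lit 3) (nat_lit 452) (nat_lit 452) (nat_lit 236)) (XT.nd (nat_lit 78) (nat_lit 0) (nat_lit 0) (XT.lf (nat_lit 0) (nat_lit 15246535040) (nat_lit 1748) (nat_lit 1094569433) (nat_lit 1824) (nat_lit 867792901) (nat_lit 522) (nat_lit 5) (nat_lit 545) (nat_lit 3) (nat_lit 546) (nat_lit 5) (nat_lit 453) (nat_lit 452) (nat_lit 235)) (XT.lf (nat_lit 76) (nat_lit 7641025285) (nat_lit 0) (nat_lit 8090131750) (nat_lit 1824)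 (nat_lit 1644920223) (nat_lit 523) (nat_lit 5) (nat_lit 522) (nat_lit 5) (nat_lit 546) (nat_lit 5) (nat_lit 454) (nat_lit 452) (nat_lit 234)))) (XT.nd (nat_lit 78) (nat_lit 0) (nat_lit 0) (XT.lf (nat_lit 0) (nat_lit 16229088531) (nat_lit 1748) (nat_lit 985718456) (nat_lit 1824) (nat_lit 331721410) (nat_lit 523) (nat_lit 5) (nat_lit 546) (nat_lit 5) (nat_lit 547) (nat_lit 5) (nat_lit 455) (nat_lit 452) (nat_lit 233)) (XT.nd (nat_lit 78) (nat_lit 0) (nat_lit 0) (XT.lf (nat_lit 76) (nat_lit 7986564686) (nat_lit 0) (nat_lit 8850068193) (nat_lit 1824) (nat_lit 881762597) (nat_lit 524) (nat_lit 5) (nat_lit 523) (nat_lit 5) (nat_lit 547) (nat_lit 5) (nat_lit 456) (nat_lit 452) (nat_lit 232)) (XT.lf (nat_lit 76) (nat_lit 17148471007) (nat_lit 0) (nat_lit 308787511) (nat_lit 1824) (nat_lit 436422770) (nat_lit 524) (nat_lit 5) (nat_lit 523) (nat_lit 5) (nat_lit 547) (nat_lit 5) (nat_lit 457) (nat_lit 452) (nat_lit 231))))))))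
noncomputable def xc247 : XT := (XT.nd (nat_lit 1638) (nat_lit 2660) (nat_lit 0) (XT.nd (nat_lit 780) (nat_lit 2356) (nat_lit 0) (XT.nd (nat_lit 390) (nat_lit 0) (nat_lit 152) (XT.nd (nat_lit 156) (nat_lit 0) (nat_lit 76) (XT.nd (nat_lit 78) (nat_lit 0) (nat_lit 0) (XT.lf (nat_lit 0) (nat_lit 122303933) (nat_lit 1824) (nat_lit 9596719022) (nat_lit 1900) (nat_lit 8351353268) (nat_lit 500) (nat_lit 5) (nat_lit 524) (nat_lit 5) (nat_lit 525) (nat_lit 5) (nat_lit 458) (nat_lit 452) (nat_lit 230)) (XT.lf (nat_lit 0) (nat_lit 687940624) (nat_lit 1824) (nat_lit 371770651) (nat_lit 1900) (nat_lit 17190804506) (nat_lit 500) (nat_lit 5) (nat_lit 524) (nat_lit 5) (nat_lit 525) (nat_lit 5) (nat_lit 459) (nat_lit 452) (nat_lit 229))) (XT.nd (nat_lit 78) (nat_lit 0) (nat_lit 0) (XT.lf (nat_lit 0) (nat_lit 1369803711) (nat_lit 1824) (nat_lit 9329547580) (nat_lit 1900) (nat_lit 7732808564) (nat_lit 501) (nat_lit 5) (nat_lit 525) (nat_lit 5) (nat_lit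 526) (nat_lit 5) (nat_lit 460) (nat_lit 452) (nat_lit 228)) (XT.nd (nat_lit 78) (nat_lit 0) (nat_lit 76) (XT.lf (nat_lit 76) (nat_lit 145676765) (nat_lit 0) (nat_lit 1924803764) (nat_lit 1900) (nat_lit 16546852753) (nat_lit 502) (nat_lit 5) (nat_lit 501) (nat_lit 5) (nat_lit 526) (nat_lit 5) (nat_lit 461) (nat_lit 452) (nat_lit 227)) (XT.lf (nat_lit 0) (nat_lit 2888600282) (nat_lit 1824) (nat_lit 8917544549) (nat_lit 1900) (nat_lit 6997996759) (nat_lit 502) (nat_lit 5) (nat_lit 526) (nat_lit 5) (nat_lit 527) (nat_lit 5) (nat_lit 462) (nat_lit 452) (nat_lit 226))))) (XT.nd (nat_lit 156) (nat_lit 0) (nat_lit 76) (XT.nd (nat_lit 78) (nat_lit 0) (nat_lit 76) (XT.lf (nat_lit 76) (nat_lit 822325331) (nat_lit 0) (nat_lit 2913741391) (nat_lit 1900) (nat_lit 15258359656) (nat_lit 503) (nat_lit 5) (nat_lit 502) (nat_lit 5) (nat_lit 527) (nat_lit 5) (nat_lit 463) (nat_lit 452) (nat_lit 225)) (XT.lf (nat_lit 0) (nat_lit 4695679801) (nat_lit 1824)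 (nat_lit 8353267715) (nat_lit 1900) (nat_lit 6137665399) (nat_lit 503) (nat_lit 5) (nat_lit 527) (nat_lit 5) (nat_lit 528) (nat_lit 5) (nat_lit 464) (nat_lit 452) (nat_lit 224))) (XT.nd (nat_lit 78) (nat_lit 0) (nat_lit 76) (XT.lf (nat_lit 76) (nat_lit 1661047083) (nat_lit 0) (nat_lit 4038604709) (nat_lit 1900) (nat_lit 13682488059) (nat_lit 504) (nat_lit 5) (nat_lit 503) (nat_lit 5) (nat_lit 528) (nat_lit 5) (nat_lit 465) (nat_lit 452) (nat_lit 223)) (XT.nd (nat_lit 78) (nat_lit 0) (nat_lit 0) (XT.lf (nat_lit 0) (nat_lit 6808748975) (nat_lit 1824) (nat_lit 7628866335) (nat_lit 1900) (nat_lit 5142261100) (nat_lit 504) (nat_lit 5) (nat_lit 528) (nat_lit 5) (nat_lit 529) (nat_lit 5) (nat_lit 466) (nat_lit 452) (nat_lit 222)) (XT.lf (nat_lit 76) (nat_lit 2670077485) (nat_lit 0) (nat_lit 5309296825) (nat_lit 1900) (nat_lit 11801406465) (nat_lit 505) (nat_lit 5) (nat_lit 504) (nat_lit 5) (nat_lit 529) (nat_lit 5) (nat_lit 467) (nat_lit 452)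 (nat_lit 221)))))) (XT.nd (nat_lit 390) (nat_lit 2736) (nat_lit 0) (XT.nd (nat_lit 156) (nat_lit 0) (nat_lit 76) (XT.nd (nat_lit 78) (nat_lit 0) (nat_lit 0) (XT.lf (nat_lit 0) (nat_lit 9246269703) (nat_lit 1824) (nat_lit 6736067114) (nat_lit 1900) (nat_lit 4001909260) (nat_lit 505) (nat_lit 5) (nat_lit 529) (nat_lit 5) (nat_lit 530) (nat_lit 5) (nat_lit 468) (nat_lit 452) (nat_lit 220)) (XT.lf (nat_lit 76) (nat_lit 3858089397) (nat_lit 0) (nat_lit 6736058931) (nat_lit 1900) (nat_lit 9596519450) (nat_lit 506) (nat_lit 5) (nat_lit 505) (nat_lit 5) (nat_lit 530) (nat_lit 5) (nat_lit 469) (nat_lit 452) (nat_lit 219))) (XT.nd (nat_lit 78) (nat_lit 0) (nat_lit 0) (XT.lf (nat_lit 0) (nat_lit 12027494952) (nat_lit 1824) (nat_lit 5666159405) (nat_lit 1900) (nat_lit 2706393349) (nat_lit 506) (nat_lit 5) (nat_lit 530) (nat_lit 5) (nat_lit 531) (nat_lit 5) (nat_lit 470) (nat_lit 452) (nat_lit 218)) (XT.nd (nat_lit 78) (nat_lit 0) (nat_lit 76) (XT.lf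 (nat_lit 76) (nat_lit 5234208500) (nat_lit 0) (nat_lit 8329491513) (nat_lit 1900) (nat_lit 7048431388) (nat_lit 507) (nat_lit 5) (nat_lit 506) (nat_lit 5) (nat_lit 531) (nat_lit 5) (nat_lit 471) (nat_lit 452) (nat_lit 217)) (XT.lf (nat_lit 0) (nat_lit 15172505923) (nat_lit 1824) (nat_lit 4409979585) (nat_lit 1900) (nat_lit 1245133728) (nat_lit 507) (nat_lit 5) (nat_lit 531) (nat_lit 5) (nat_lit 532) (nat_lit 5) (nat_lit 472) (nat_lit 452) (nat_lit 216))))) (XT.nd (nat_lit 234) (nat_lit 2888) (nat_lit 0) (XT.nd (nat_lit 78) (nat_lit 0) (nat_lit 0) (XT.lf (nat_lit 76) (nat_lit 6808029549) (nat_lit 0) (nat_lit 10100576063) (nat_lit 1900) (nat_lit 4136908863) (nat_lit 508) (nat_lit 5) (nat_lit 507) (nat_lit 5) (nat_lit 532) (nat_lit 5) (nat_lit 473) (nat_lit 452) (nat_lit 215)) (XT.nd (nat_lit 78) (nat_lit 0) (nat_lit 76) (XT.lf (nat_lit 76) (nat_lit 18306780413) (nat_lit 0) (nat_lit 398054603) (nat_lit 1900) (nat_lit 2562424446) (nat_lit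 508) (nat_lit 5) (nat_lit 507) (nat_lit 5) (nat_lit 532) (nat_lit 5) (nat_lit 474) (nat_lit 452) (nat_lit 214)) (XT.lf (nat_lit 76) (nat_lit 8589633484) (nat_lit 0) (nat_lit 12060697326) (nat_lit 1900) (nat_lit 840841705) (nat_lit 509) (nat_lit 5) (nat_lit 508) (nat_lit 5) (nat_lit 533) (nat_lit 5) (nat_lit 475) (nat_lit 452) (nat_lit 213)))) (XT.nd (nat_lit 78) (nat_lit 1064) (nat_lit 0) (XT.lf (nat_lit 0) (nat_lit 921737190) (nat_lit 1900) (nat_lit 1320446692) (nat_lit 1976) (nat_lit 19476889765) (nat_lit 483) (nat_lit 5) (nat_lit 508) (nat_lit 5) (nat_lit 509) (nat_lit 5) (nat_lit 476) (nat_lit 452) (nat_lit 212)) (XT.nd (nat_lit 78) (nat_lit 1140) (nat_lit 0) (XT.lf (nat_lit 0) (nat_lit 2824264432) (nat_lit 1900) (nat_lit 11378449405) (nat_lit 76) (nat_lit 7746388693) (nat_lit 484) (nat_lit 5) (nat_lit 509) (nat_lit 5) (nat_lit 485) (nat_lit 5) (nat_lit 477) (nat_lit 452) (nat_lit 211)) (XT.lf (nat_lit 0) (nat_lit 522421850) (nat_lit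 1140) (nat_lit 4265653669) (nat_lit 1216) (nat_lit 17395191805) (nat_lit 469) (nat_lit 5) (nat_lit 484) (nat_lit 5) (nat_lit 485) (nat_lit 5) (nat_lit 478) (nat_lit 452) (nat_lit 210))))))) (XT.nd (nat_lit 57564) (nat_lit 0) (nat_lit 5016) (XT.nd (nat_lit 390) (nat_lit 836) (nat_lit 0) (XT.nd (nat_lit 156) (nat_lit 912) (nat_lit 0) (XT.nd (nat_lit 78) (nat_lit 912) (nat_lit 0) (XT.lf (nat_lit 0) (nat_lit 6902267438) (nat_lit 1216) (nat_lit 9647157598) (nat_lit 76) (nat_lit 5870468286) (nat_lit 469) (nat_lit 5) (nat_lit 485) (nat_lit 5) (nat_lit 470) (nat_lit 5) (nat_lit 479) (nat_lit 452) (nat_lit 209)) (XT.lf (nat_lit 0) (nat_lit 2609346186) (nat_lit 912) (nat_lit 6490794514) (nat_lit 988) (nat_lit 13560283190) (nat_lit 457) (nat_lit 5) (nat_lit 469) (nat_lit 5) (nat_lit 470) (nat_lit 5) (nat_lit 480) (nat_lit 452) (nat_lit 208))) (XT.nd (nat_lit 78) (nat_lit 912) (nat_lit 0) (XT.lf (nat_lit 0) (nat_lit 11427869516) (nat_lit 988) (nat_lit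 7691105092) (nat_lit 76) (nat_lit 3785072498) (nat_lit 457) (nat_lit 5) (nat_lit 470) (nat_lit 5) (nat_lit 458) (nat_lit 5) (nat_lit 481) (nat_lit 452) (nat_lit 207)) (XT.nd (nat_lit 78) (nat_lit 0) (nat_lit 0) (XT.lf (nat_lit 0) (nat_lit 4934380244) (nat_lit 912) (nat_lit 8939129598) (nat_lit 988) (nat_lit 9277605807) (nat_lit 445) (nat_lit 5) (nat_lit 457) (nat_lit 5) (nat_lit 458) (nat_lit 5) (nat_lit 482) (nat_lit 452) (nat_lit 206)) (XT.lf (nat_lit 0) (nat_lit 16425779119) (nat_lit 988) (nat_lit 5498650223) (nat_lit 76) (nat_lit 1477541898) (nat_lit 445) (nat_lit 5) (nat_lit 458) (nat_lit 5) (nat_lit 446) (nat_lit 5) (nat_lit 483) (nat_lit 452) (nat_lit 205))))) (XT.nd (nat_lit 56940) (nat_lit 0) (nat_lit 6688) (XT.nd (nat_lit 78) (nat_lit 0) (nat_lit 0) (XT.lf (nat_lit 0) (nat_lit 7509688139) (nat_lit 836) (nat_lit 11623819472) (nat_lit 912) (nat_lit 4522248055) (nat_lit 434) (nat_lit 5) (nat_lit 445) (nat_lit 5) (nat_lit 446) (nat_lit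 5) (nat_lit 484) (nat_lit 452) (nat_lit 204)) (XT.lf (nat_lit 0) (nat_lit 20849351389) (nat_lit 836) (nat_lit 1079442097) (nat_lit 912) (nat_lit 1985154239) (nat_lit 434) (nat_lit 5) (nat_lit 445) (nat_lit 5) (nat_lit 446) (nat_lit 5) (nat_lit 485) (nat_lit 452) (nat_lit 203))) (XT.nd (nat_lit 78) (nat_lit 0) (nat_lit 0) (XT.lf (nat_lit 0) (nat_lit 3904064090) (nat_lit 0) (nat_lit 3904064090) (nat_lit 1748) (nat_lit 879325412) (nat_lit 522) (nat_lit 5) (nat_lit 522) (nat_lit 3) (nat_lit 545) (nat_lit 3) (nat_lit 453) (nat_lit 453) (nat_lit 234)) (XT.nd (nat_lit 78) (nat_lit 0) (nat_lit 0) (XT.lf (nat_lit 0) (nat_lit 15997656308) (nat_lit 1748) (nat_lit 882232862) (nat_lit 1824) (nat_lit 664262340) (nat_lit 522) (nat_lit 5) (nat_lit 545) (nat_lit 3) (nat_lit 546) (nat_lit 5) (nat_lit 454) (nat_lit 453) (nat_lit 233)) (XT.lf (nat_lit 76) (nat_lit 8026532777) (nat_lit 0) (nat_lit 8458199890) (nat_lit 1824) (nat_lit 1230087087) (nat_lit 523)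 (nat_lit 5) (nat_lit 522) (nat_lit 5) (nat_lit 546) (nat_lit 5) (nat_lit 455) (nat_lit 453) (nat_lit 232)))))) (XT.nd (nat_lit 390) (nat_lit 0) (nat_lit 76) (XT.nd (nat_lit 156) (nat_lit 1748) (nat_lit 0) (XT.nd (nat_lit 78) (nat_lit 0) (nat_lit 0) (XT.lf (nat_lit 0) (nat_lit 16982702927) (nat_lit 1748) (nat_lit 767388465) (nat_lit 1824) (nat_lit 138786921) (nat_lit 523) (nat_lit 5) (nat_lit 546) (nat_lit 5) (nat_lit 547) (nat_lit 5) (nat_lit 456) (nat_lit 453) (nat_lit 231)) (XT.lf (nat_lit 76) (nat_lit 8382774259) (nat_lit 0) (nat_lit 9212746872) (nat_lit 1824) (nat_lit 468799142) (nat_lit 524) (nat_lit 5) (nat_lit 523) (nat_lit 5) (nat_lit 547) (nat_lit 5) (nat_lit 457) (nat_lit 453) (nat_lit 230))) (XT.nd (nat_lit 78) (nat_lit 1748) (nat_lit 0) (XT.lf (nat_lit 76) (nat_lit 17723281877) (nat_lit 0) (nat_lit 496999845) (nat_lit 1824) (nat_lit 22995630) (nat_lit 524) (nat_lit 5) (nat_lit 523) (nat_lit 5) (nat_lit 547) (nat_lit 5) (nat_lit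 458) (nat_lit 453) (nat_lit 229)) (XT.nd (nat_lit 78) (nat_lit 0) (nat_lit 0) (XT.lf (nat_lit 0) (nat_lit 533600246) (nat_lit 1824) (nat_lit 9543506591) (nat_lit 1900) (nat_lit 8346499907) (nat_lit 500) (nat_lit 5) (nat_lit 524) (nat_lit 5) (nat_lit 525) (nat_lit 5) (nat_lit 459) (nat_lit 453) (nat_lit 228)) (XT.lf (nat_lit 0) (nat_lit 1102532999) (nat_lit 1824) (nat_lit 138866052) (nat_lit 1900) (nat_lit 17366110374) (nat_lit 500) (nat_lit 5) (nat_lit 524) (nat_lit 5) (nat_lit 525) (nat_lit 5) (nat_lit 460) (nat_lit 453) (nat_lit 227))))) (XT.nd (nat_lit 234) (nat_lit 0) (nat_lit 76) (XT.nd (nat_lit 78) (nat_lit 0) (nat_lit 0) (XT.lf (nat_lit 0) (nat_lit 1790712715) (nat_lit 1824) (nat_lit 9268477887) (nat_lit 1900) (nat_lit 7733742193) (nat_lit 501) (nat_lit 5) (nat_lit 525) (nat_lit 5) (nat_lit 526) (nat_lit 5) (nat_lit 461) (nat_lit 453) (nat_lit 226)) (XT.nd (nat_lit 78) (nat_lit 0) (nat_lit 76) (XT.lf (nat_lit 76) (nat_lit 394621599)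 (nat_lit 0) (nat_lit 2104662928) (nat_lit 1900) (nat_lit 16482647533) (nat_lit 502) (nat_lit 5) (nat_lit 501) (nat_lit 5) (nat_lit 526) (nat_lit 5) (nat_lit 462) (nat_lit 453) (nat_lit 225)) (XT.lf (nat_lit 0) (nat_lit 3325270881) (nat_lit 1824) (nat_lit 8846192490) (nat_lit 1900) (nat_lit 7001183079) (nat_lit 502) (nat_lit 5) (nat_lit 526) (nat_lit 5) (nat_lit 527) (nat_lit 5) (nat_lit 463) (nat_lit 453) (nat_lit 224)))) (XT.nd (nat_lit 78) (nat_lit 0) (nat_lit 76) (XT.lf (nat_lit 76) (nat_lit 1086832005) (nat_lit 0) (nat_lit 3097035831) (nat_lit 1900) (nat_lit 15182985474) (nat_lit 503) (nat_lit 5) (nat_lit 502) (nat_lit 5) (nat_lit 527) (nat_lit 5) (nat_lit 464) (nat_lit 453) (nat_lit 223)) (XT.nd (nat_lit 78) (nat_lit 0) (nat_lit 0) (XT.lf (nat_lit 0) (nat_lit 5154562093) (nat_lit 1824) (nat_lit 8269025743) (nat_lit 1900) (nat_lit 6139457964) (nat_lit 503) (nat_lit 5) (nat_lit 527) (nat_lit 5) (nat_lit 528) (nat_lit 5) (nat_lit 465)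 (nat_lit 453) (nat_lit 222)) (XT.lf (nat_lit 76) (nat_lit 1943922014) (nat_lit 0) (nat_lit 4229156180) (nat_lit 1900) (nat_lit 13589515786) (nat_lit 504) (nat_lit 5) (nat_lit 503) (nat_lit 5) (nat_lit 528) (nat_lit 5) (nat_lit 466) (nat_lit 453) (nat_lit 221))))))))
noncomputable def xc248 : XT := (XT.nd (nat_lit 58422) (nat_lit 0) (nat_lit 4940) (XT.nd (nat_lit 780) (nat_lit 5320) (nat_lit 0) (XT.nd (nat_lit 390) (nat_lit 0) (nat_lit 152) (XT.nd (nat_lit 156) (nat_lit 0) (nat_lit 76) (XT.nd (nat_lit 78) (nat_lit 0) (nat_lit 0) (XT.lf (nat_lit 0) (nat_lit 7296610823) (nat_lit 1824) (nat_lit 7528938351) (nat_lit 1900) (nat_lit 5138891027) (nat_lit 504) (nat_lit 5) (nat_lit 528) (nat_lit 5) (nat_lit 529) (nat_lit 5) (nat_lit 467) (nat_lit 453) (nat_lit 220)) (XT.lf (nat_lit 76) (nat_lit 2974323127) (nat_lit 0) (nat_lit 5511058363) (nat_lit 1900) (nat_lit 11684086507) (nat_lit 505) (nat_lit 5) (nat_lit 504) (nat_lit 5) (nat_lit 529) (nat_lit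 5) (nat_lit 468) (nat_lit 453) (nat_lit 219))) (XT.nd (nat_lit 78) (nat_lit 0) (nat_lit 0) (XT.lf (nat_lit 0) (nat_lit 9770213875) (nat_lit 1824) (nat_lit 6617461960) (nat_lit 1900) (nat_lit 3989474788) (nat_lit 505) (nat_lit 5) (nat_lit 529) (nat_lit 5) (nat_lit 530) (nat_lit 5) (nat_lit 469) (nat_lit 453) (nat_lit 218)) (XT.nd (nat_lit 78) (nat_lit 0) (nat_lit 76) (XT.lf (nat_lit 76) (nat_lit 4186911060) (nat_lit 0) (nat_lit 6953125529) (nat_lit 1900) (nat_lit 9447764440) (nat_lit 506) (nat_lit 5) (nat_lit 505) (nat_lit 5) (nat_lit 530) (nat_lit 5) (nat_lit 470) (nat_lit 453) (nat_lit 217)) (XT.lf (nat_lit 0) (nat_lit 12594976863) (nat_lit 1824) (nat_lit 5525683944) (nat_lit 1900) (nat_lit 2680849212) (nat_lit 506) (nat_lit 5) (nat_lit 530) (nat_lit 5) (nat_lit 531) (nat_lit 5) (nat_lit 471) (nat_lit 453) (nat_lit 216))))) (XT.nd (nat_lit 156) (nat_lit 0) (nat_lit 76) (XT.nd (nat_lit 78) (nat_lit 0) (nat_lit 76) (XT.lf (nat_lit 76)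 (nat_lit 5591021591) (nat_lit 0) (nat_lit 8566110992) (nat_lit 1900) (nat_lit 6860798276) (nat_lit 507) (nat_lit 5) (nat_lit 506) (nat_lit 5) (nat_lit 531) (nat_lit 5) (nat_lit 472) (nat_lit 453) (nat_lit 215)) (XT.lf (nat_lit 0) (nat_lit 15791352012) (nat_lit 1824) (nat_lit 4244231363) (nat_lit 1900) (nat_lit 1202280327) (nat_lit 507) (nat_lit 5) (nat_lit 531) (nat_lit 5) (nat_lit 532) (nat_lit 5) (nat_lit 473) (nat_lit 453) (nat_lit 214))) (XT.nd (nat_lit 78) (nat_lit 0) (nat_lit 0) (XT.lf (nat_lit 76) (nat_lit 7196467245) (nat_lit 0) (nat_lit 10361160165) (nat_lit 1900) (nat_lit 3902580360) (nat_lit 508) (nat_lit 5) (nat_lit 507) (nat_lit 5) (nat_lit 532) (nat_lit 5) (nat_lit 474) (nat_lit 453) (nat_lit 213)) (XT.nd (nat_lit 78) (nat_lit 0) (nat_lit 76) (XT.lf (nat_lit 76) (nat_lit 18920246517) (nat_lit 0) (nat_lit 463439794) (nat_lit 1900) (nat_lit 2302823249) (nat_lit 508) (nat_lit 5) (nat_lit 507) (nat_lit 5) (nat_lit 532) (nat_lit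 5) (nat_lit 475) (nat_lit 453) (nat_lit 212)) (XT.lf (nat_lit 76) (nat_lit 9013554850) (nat_lit 0) (nat_lit 12349833052) (nat_lit 1900) (nat_lit 551607053) (nat_lit 509) (nat_lit 5) (nat_lit 508) (nat_lit 5) (nat_lit 533) (nat_lit 5) (nat_lit 476) (nat_lit 453) (nat_lit 211)))))) (XT.nd (nat_lit 390) (nat_lit 1748) (nat_lit 0) (XT.nd (nat_lit 156) (nat_lit 1976) (nat_lit 0) (XT.nd (nat_lit 78) (nat_lit 0) (nat_lit 76) (XT.lf (nat_lit 0) (nat_lit 1236287194) (nat_lit 1900) (nat_lit 1095735413) (nat_lit 1976) (nat_lit 19815510208) (nat_lit 483) (nat_lit 5) (nat_lit 508) (nat_lit 5) (nat_lit 509) (nat_lit 5) (nat_lit 477) (nat_lit 453) (nat_lit 210)) (XT.lf (nat_lit 0) (nat_lit 3172402828) (nat_lit 1900) (nat_lit 11350436029) (nat_lit 76) (nat_lit 7859412661) (nat_lit 484) (nat_lit 5) (nat_lit 509) (nat_lit 5) (nat_lit 485) (nat_lit 5) (nat_lit 478) (nat_lit 453) (nat_lit 209))) (XT.nd (nat_lit 78) (nat_lit 912) (nat_lit 0) (XT.lf (nat_lit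 0) (nat_lit 786771189) (nat_lit 1140) (nat_lit 4384648753) (nat_lit 1216) (nat_lit 17449761070) (nat_lit 469) (nat_lit 5) (nat_lit 484) (nat_lit 5) (nat_lit 485) (nat_lit 5) (nat_lit 479) (nat_lit 453) (nat_lit 208)) (XT.nd (nat_lit 78) (nat_lit 912) (nat_lit 0) (XT.lf (nat_lit 0) (nat_lit 7322042420) (nat_lit 1216) (nat_lit 9585325019) (nat_lit 76) (nat_lit 5955289156) (nat_lit 469) (nat_lit 5) (nat_lit 485) (nat_lit 5) (nat_lit 470) (nat_lit 5) (nat_lit 480) (nat_lit 453) (nat_lit 207)) (XT.lf (nat_lit 0) (nat_lit 2914632684) (nat_lit 912) (nat_lit 6645359643) (nat_lit 988) (nat_lit 13548083064) (nat_lit 457) (nat_lit 5) (nat_lit 469) (nat_lit 5) (nat_lit 470) (nat_lit 5) (nat_lit 481) (nat_lit 453) (nat_lit 206))))) (XT.nd (nat_lit 156) (nat_lit 836) (nat_lit 0) (XT.nd (nat_lit 78) (nat_lit 912) (nat_lit 0) (XT.lf (nat_lit 0) (nat_lit 11928670166) (nat_lit 988) (nat_lit 7591184802) (nat_lit 76) (nat_lit 3836828215) (nat_lit 457) (nat_lit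 5) (nat_lit 470) (nat_lit 5) (nat_lit 458) (nat_lit 5) (nat_lit 482) (nat_lit 453) (nat_lit 205)) (XT.lf (nat_lit 0) (nat_lit 5285140883) (nat_lit 912) (nat_lit 9134380938) (nat_lit 988) (nat_lit 9189245306) (nat_lit 445) (nat_lit 5) (nat_lit 457) (nat_lit 5) (nat_lit 458) (nat_lit 5) (nat_lit 483) (nat_lit 453) (nat_lit 204))) (XT.nd (nat_lit 78) (nat_lit 836) (nat_lit 0) (XT.lf (nat_lit 0) (nat_lit 17017466129) (nat_lit 988) (nat_lit 5356122448) (nat_lit 76) (nat_lit 1491158660) (nat_lit 445) (nat_lit 5) (nat_lit 458) (nat_lit 5) (nat_lit 446) (nat_lit 5) (nat_lit 484) (nat_lit 453) (nat_lit 203)) (XT.nd (nat_lit 56940) (nat_lit 0) (nat_lit 6688) (XT.lf (nat_lit 0) (nat_lit 7910721493) (nat_lit 836) (nat_lit 11865096092) (nat_lit 912) (nat_lit 4347860399) (nat_lit 434) (nat_lit 5) (nat_lit 445) (nat_lit 5) (nat_lit 446) (nat_lit 5) (nat_lit 485) (nat_lit 453) (nat_lit 202)) (XT.lf (nat_lit 0) (nat_lit 4091861982) (nat_lit 0) (nat_lit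 4091861982) (nat_lit 1748) (nat_lit 673090037) (nat_lit 522) (nat_lit 5) (nat_lit 522) (nat_lit 3) (nat_lit 545) (nat_lit 3) (nat_lit 454) (nat_lit 454) (nat_lit 232))))))) (XT.nd (nat_lit 780) (nat_lit 0) (nat_lit 228) (XT.nd (nat_lit 390) (nat_lit 0) (nat_lit 76) (XT.nd (nat_lit 156) (nat_lit 1748) (nat_lit 0) (XT.nd (nat_lit 78) (nat_lit 0) (nat_lit 0) (XT.lf (nat_lit 0) (nat_lit 16746473878) (nat_lit 1748) (nat_lit 674744918) (nat_lit 1824) (nat_lit 465238456) (nat_lit 522) (nat_lit 5) (nat_lit 545) (nat_lit 3) (nat_lit 546) (nat_lit 5) (nat_lit 455) (nat_lit 454) (nat_lit 231)) (XT.lf (nat_lit 76) (nat_lit 8410714899) (nat_lit 0) (nat_lit 8825619852) (nat_lit 1824) (nat_lit 824343249) (nat_lit 523) (nat_lit 5) (nat_lit 522) (nat_lit 5) (nat_lit 546) (nat_lit 5) (nat_lit 456) (nat_lit 454) (nat_lit 230))) (XT.nd (nat_lit 78) (nat_lit 1748) (nat_lit 0) (XT.lf (nat_lit 76) (nat_lit 17684135750) (nat_lit 0) (nat_lit 50924638) (nat_lit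 1824) (nat_lit 503341423) (nat_lit 523) (nat_lit 5) (nat_lit 522) (nat_lit 5) (nat_lit 546) (nat_lit 5) (nat_lit 457) (nat_lit 454) (nat_lit 229)) (XT.nd (nat_lit 78) (nat_lit 1824) (nat_lit 0) (XT.lf (nat_lit 76) (nat_lit 8777725284) (nat_lit 0) (nat_lit 9575469049) (nat_lit 1824) (nat_lit 64297090) (nat_lit 524) (nat_lit 5) (nat_lit 523) (nat_lit 5) (nat_lit 547) (nat_lit 5) (nat_lit 458) (nat_lit 454) (nat_lit 228)) (XT.lf (nat_lit 0) (nat_lit 377293207) (nat_lit 1824) (nat_lit 302082680) (nat_lit 1900) (nat_lit 17920761235) (nat_lit 499) (nat_lit 5) (nat_lit 523) (nat_lit 5) (nat_lit 524) (nat_lit 5) (nat_lit 459) (nat_lit 454) (nat_lit 227))))) (XT.nd (nat_lit 156) (nat_lit 0) (nat_lit 76) (XT.nd (nat_lit 78) (nat_lit 0) (nat_lit 0) (XT.lf (nat_lit 0) (nat_lit 937246332) (nat_lit 1824) (nat_lit 9498749260) (nat_lit 1900) (nat_lit 8348223805) (nat_lit 500) (nat_lit 5) (nat_lit 524) (nat_lit 5) (nat_lit 525) (nat_lit 5) (nat_lit 460)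 (nat_lit 454) (nat_lit 226)) (XT.lf (nat_lit 76) (nat_lit 90551542) (nat_lit 0) (nat_lit 1419888744) (nat_lit 1900) (nat_lit 17461502195) (nat_lit 501) (nat_lit 5) (nat_lit 500) (nat_lit 5) (nat_lit 525) (nat_lit 5) (nat_lit 461) (nat_lit 454) (nat_lit 225))) (XT.nd (nat_lit 78) (nat_lit 0) (nat_lit 0) (XT.lf (nat_lit 0) (nat_lit 2204759312) (nat_lit 1824) (nat_lit 9215803764) (nat_lit 1900) (nat_lit 7740663727) (nat_lit 501) (nat_lit 5) (nat_lit 525) (nat_lit 5) (nat_lit 526) (nat_lit 5) (nat_lit 462) (nat_lit 454) (nat_lit 224)) (XT.nd (nat_lit 78) (nat_lit 0) (nat_lit 76) (XT.lf (nat_lit 76) (nat_lit 638991635) (nat_lit 0) (nat_lit 2282629975) (nat_lit 1900) (nat_lit 16432502064) (nat_lit 502) (nat_lit 5) (nat_lit 501) (nat_lit 5) (nat_lit 526) (nat_lit 5) (nat_lit 463) (nat_lit 454) (nat_lit 223)) (XT.lf (nat_lit 0) (nat_lit 3755961797) (nat_lit 1824) (nat_lit 8783109659) (nat_lit 1900) (nat_lit 7009744213) (nat_lit 502) (nat_lit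 5) (nat_lit 526) (nat_lit 5) (nat_lit 527) (nat_lit 5) (nat_lit 464) (nat_lit 454) (nat_lit 222)))))) (XT.nd (nat_lit 390) (nat_lit 0) (nat_lit 228) (XT.nd (nat_lit 156) (nat_lit 0) (nat_lit 76) (XT.nd (nat_lit 78) (nat_lit 0) (nat_lit 76) (XT.lf (nat_lit 76) (nat_lit 1346996335) (nat_lit 0) (nat_lit 3279141495) (nat_lit 1900) (nat_lit 15120880693) (nat_lit 503) (nat_lit 5) (nat_lit 502) (nat_lit 5) (nat_lit 527) (nat_lit 5) (nat_lit 465) (nat_lit 454) (nat_lit 221)) (XT.lf (nat_lit 0) (nat_lit 5608449851) (nat_lit 1824) (nat_lit 8192857500) (nat_lit 1900) (nat_lit 6145983434) (nat_lit 503) (nat_lit 5) (nat_lit 527) (nat_lit 5) (nat_lit 528) (nat_lit 5) (nat_lit 466) (nat_lit 454) (nat_lit 220))) (XT.nd (nat_lit 78) (nat_lit 0) (nat_lit 76) (XT.lf (nat_lit 76) (nat_lit 2222760075) (nat_lit 0) (nat_lit 4419255813) (nat_lit 1900) (nat_lit 13508920449) (nat_lit 504) (nat_lit 5) (nat_lit 503) (nat_lit 5) (nat_lit 528) (nat_lit 5) (nat_lit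 467) (nat_lit 454) (nat_lit 219)) (XT.nd (nat_lit 78) (nat_lit 0) (nat_lit 0) (XT.lf (nat_lit 0) (nat_lit 7780573478) (nat_lit 1824) (nat_lit 7436816895) (nat_lit 1900) (nat_lit 5139578022) (nat_lit 504) (nat_lit 5) (nat_lit 528) (nat_lit 5) (nat_lit 529) (nat_lit 5) (nat_lit 468) (nat_lit 454) (nat_lit 218)) (XT.lf (nat_lit 76) (nat_lit 3274913099) (nat_lit 0) (nat_lit 5713143815) (nat_lit 1900) (nat_lit 11578141086) (nat_lit 505) (nat_lit 5) (nat_lit 504) (nat_lit 5) (nat_lit 529) (nat_lit 5) (nat_lit 469) (nat_lit 454) (nat_lit 217))))) (XT.nd (nat_lit 234) (nat_lit 0) (nat_lit 76) (XT.nd (nat_lit 78) (nat_lit 0) (nat_lit 0) (XT.lf (nat_lit 0) (nat_lit 10291472418) (nat_lit 1824) (nat_lit 6506321680) (nat_lit 1900) (nat_lit 3980382452) (nat_lit 505) (nat_lit 5) (nat_lit 529) (nat_lit 5) (nat_lit 530) (nat_lit 5) (nat_lit 470) (nat_lit 454) (nat_lit 216)) (XT.nd (nat_lit 78) (nat_lit 0) (nat_lit 76) (XT.lf (nat_lit 76) (nat_lit 4512536896)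 (nat_lit 0) (nat_lit 7171335886) (nat_lit 1900) (nat_lit 9309263559) (nat_lit 506) (nat_lit 5) (nat_lit 505) (nat_lit 5) (nat_lit 530) (nat_lit 5) (nat_lit 471) (nat_lit 454) (nat_lit 215)) (XT.lf (nat_lit 0) (nat_lit 13161113245) (nat_lit 1824) (nat_lit 5392254286) (nat_lit 1900) (nat_lit 2657887953) (nat_lit 506) (nat_lit 5) (nat_lit 530) (nat_lit 5) (nat_lit 531) (nat_lit 5) (nat_lit 472) (nat_lit 454) (nat_lit 214)))) (XT.nd (nat_lit 78) (nat_lit 0) (nat_lit 76) (XT.lf (nat_lit 76) (nat_lit 5945180470) (nat_lit 0) (nat_lit 8804743523) (nat_lit 1900) (nat_lit 6682172507) (nat_lit 507) (nat_lit 5) (nat_lit 506) (nat_lit 5) (nat_lit 531) (nat_lit 5) (nat_lit 473) (nat_lit 454) (nat_lit 213)) (XT.nd (nat_lit 78) (nat_lit 0) (nat_lit 0) (XT.lf (nat_lit 0) (nat_lit 16410327813) (nat_lit 1824) (nat_lit 4085029279) (nat_lit 1900) (nat_lit 1161200909) (nat_lit 507) (nat_lit 5) (nat_lit 531) (nat_lit 5) (nat_lit 532) (nat_lit 5) (nat_lit 474)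 (nat_lit 454) (nat_lit 212)) (XT.lf (nat_lit 76) (nat_lit 7582877468) (nat_lit 0) (nat_lit 10624681504) (nat_lit 1900) (nat_lit 3675877373) (nat_lit 508) (nat_lit 5) (nat_lit 507) (nat_lit 5) (nat_lit 532) (nat_lit 5) (nat_lit 475) (nat_lit 454) (nat_lit 211))))))))
noncomputable def xc249 : XT := (XT.nd (nat_lit 58578) (nat_lit 0) (nat_lit 912) (XT.nd (nat_lit 57798) (nat_lit 0) (nat_lit 4104) (XT.nd (nat_lit 390) (nat_lit 1824) (nat_lit 0) (XT.nd (nat_lit 156) (nat_lit 2888) (nat_lit 0) (XT.nd (nat_lit 78) (nat_lit 0) (nat_lit 76) (XT.lf (nat_lit 76) (nat_lit 19536377798) (nat_lit 0) (nat_lit 527902841) (nat_lit 1900) (nat_lit 2050100700) (nat_lit 508) (nat_lit 5) (nat_lit 507) (nat_lit 5) (nat_lit 532) (nat_lit 5) (nat_lit 476) (nat_lit 454) (nat_lit 210)) (XT.lf (nat_lit 76) (nat_lit 9436164178) (nat_lit 0) (nat_lit 12642890632) (nat_lit 1900) (nat_lit 268472061) (nat_lit 509) (nat_lit 5) (nat_lit 508) (nat_lit 5) (nat_lit 533) (nat_lit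 5) (nat_lit 477) (nat_lit 454) (nat_lit 209))) (XT.nd (nat_lit 78) (nat_lit 1064) (nat_lit 0) (XT.lf (nat_lit 0) (nat_lit 1545629681) (nat_lit 1900) (nat_lit 876281214) (nat_lit 1976) (nat_lit 20162880242) (nat_lit 483) (nat_lit 5) (nat_lit 508) (nat_lit 5) (nat_lit 509) (nat_lit 5) (nat_lit 478) (nat_lit 454) (nat_lit 208)) (XT.nd (nat_lit 78) (nat_lit 1140) (nat_lit 0) (XT.lf (nat_lit 0) (nat_lit 3516178747) (nat_lit 1900) (nat_lit 11331786960) (nat_lit 76) (nat_lit 7976324284) (nat_lit 484) (nat_lit 5) (nat_lit 509) (nat_lit 5) (nat_lit 485) (nat_lit 5) (nat_lit 479) (nat_lit 454) (nat_lit 207)) (XT.lf (nat_lit 0) (nat_lit 1046548232) (nat_lit 1140) (nat_lit 4504715826) (nat_lit 1216) (nat_lit 17516812260) (nat_lit 469) (nat_lit 5) (nat_lit 484) (nat_lit 5) (nat_lit 485) (nat_lit 5) (nat_lit 480) (nat_lit 454) (nat_lit 206))))) (XT.nd (nat_lit 156) (nat_lit 912) (nat_lit 0) (XT.nd (nat_lit 78) (nat_lit 912) (nat_lit 0) (XT.lf (nat_lit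 0) (nat_lit 7739272998) (nat_lit 1216) (nat_lit 9532149041) (nat_lit 76) (nat_lit 6043071894) (nat_lit 469) (nat_lit 5) (nat_lit 485) (nat_lit 5) (nat_lit 470) (nat_lit 5) (nat_lit 481) (nat_lit 454) (nat_lit 205)) (XT.lf (nat_lit 0) (nat_lit 3216196747) (nat_lit 912) (nat_lit 6802055032) (nat_lit 988) (nat_lit 13546643927) (nat_lit 457) (nat_lit 5) (nat_lit 469) (nat_lit 5) (nat_lit 470) (nat_lit 5) (nat_lit 482) (nat_lit 454) (nat_lit 204))) (XT.nd (nat_lit 78) (nat_lit 912) (nat_lit 0) (XT.lf (nat_lit 0) (nat_lit 12428915292) (nat_lit 988) (nat_lit 7499119233) (nat_lit 76) (nat_lit 3890548887) (nat_lit 457) (nat_lit 5) (nat_lit 470) (nat_lit 5) (nat_lit 458) (nat_lit 5) (nat_lit 483) (nat_lit 454) (nat_lit 203)) (XT.nd (nat_lit 57096) (nat_lit 0) (nat_lit 5852) (XT.lf (nat_lit 0) (nat_lit 5633128431) (nat_lit 912) (nat_lit 9332897804) (nat_lit 988) (nat_lit 9109753955) (nat_lit 445) (nat_lit 5) (nat_lit 457) (nat_lit 5) (nat_lit 458)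 (nat_lit 5) (nat_lit 484) (nat_lit 454) (nat_lit 202)) (XT.lf (nat_lit 0) (nat_lit 4279155401) (nat_lit 0) (nat_lit 4279155401) (nat_lit 1748) (nat_lit 471421231) (nat_lit 522) (nat_lit 5) (nat_lit 522) (nat_lit 3) (nat_lit 545) (nat_lit 3) (nat_lit 455) (nat_lit 455) (nat_lit 230)))))) (XT.nd (nat_lit 390) (nat_lit 0) (nat_lit 76) (XT.nd (nat_lit 156) (nat_lit 1748) (nat_lit 0) (XT.nd (nat_lit 78) (nat_lit 0) (nat_lit 0) (XT.lf (nat_lit 0) (nat_lit 17493614471) (nat_lit 1748) (nat_lit 471849387) (nat_lit 1824) (nat_lit 270478317) (nat_lit 522) (nat_lit 5) (nat_lit 545) (nat_lit 3) (nat_lit 546) (nat_lit 5) (nat_lit 456) (nat_lit 455) (nat_lit 229)) (XT.lf (nat_lit 76) (nat_lit 8793896004) (nat_lit 0) (nat_lit 9192689692) (nat_lit 1824) (nat_lit 427195378) (nat_lit 523) (nat_lit 5) (nat_lit 522) (nat_lit 5) (nat_lit 546) (nat_lit 5) (nat_lit 457) (nat_lit 455) (nat_lit 228))) (XT.nd (nat_lit 78) (nat_lit 1748) (nat_lit 0) (XT.lf (nat_lit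 76) (nat_lit 18248570237) (nat_lit 0) (nat_lit 238764154) (nat_lit 1824) (nat_lit 107884001) (nat_lit 523) (nat_lit 5) (nat_lit 522) (nat_lit 5) (nat_lit 546) (nat_lit 5) (nat_lit 458) (nat_lit 455) (nat_lit 227)) (XT.nd (nat_lit 78) (nat_lit 0) (nat_lit 0) (XT.lf (nat_lit 0) (nat_lit 327866441) (nat_lit 1824) (nat_lit 9608448972) (nat_lit 1900) (nat_lit 8841682569) (nat_lit 499) (nat_lit 5) (nat_lit 523) (nat_lit 5) (nat_lit 524) (nat_lit 5) (nat_lit 459) (nat_lit 455) (nat_lit 226)) (XT.lf (nat_lit 0) (nat_lit 769730582) (nat_lit 1824) (nat_lit 88823664) (nat_lit 1900) (nat_lit 18105887789) (nat_lit 499) (nat_lit 5) (nat_lit 523) (nat_lit 5) (nat_lit 524) (nat_lit 5) (nat_lit 460) (nat_lit 455) (nat_lit 225))))) (XT.nd (nat_lit 156) (nat_lit 0) (nat_lit 76) (XT.nd (nat_lit 78) (nat_lit 0) (nat_lit 0) (XT.lf (nat_lit 0) (nat_lit 1333705677) (nat_lit 1824) (nat_lit 9462246484) (nat_lit 1900) (nat_lit 8356397335) (nat_lit 500) (nat_lit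 5) (nat_lit 524) (nat_lit 5) (nat_lit 525) (nat_lit 5) (nat_lit 461) (nat_lit 455) (nat_lit 224)) (XT.lf (nat_lit 76) (nat_lit 317350348) (nat_lit 0) (nat_lit 1595067767) (nat_lit 1900) (nat_lit 17431527835) (nat_lit 501) (nat_lit 5) (nat_lit 500) (nat_lit 5) (nat_lit 525) (nat_lit 5) (nat_lit 462) (nat_lit 455) (nat_lit 223))) (XT.nd (nat_lit 78) (nat_lit 0) (nat_lit 0) (XT.lf (nat_lit 0) (nat_lit 2612399618) (nat_lit 1824) (nat_lit 9171319685) (nat_lit 1900) (nat_lit 7753461134) (nat_lit 501) (nat_lit 5) (nat_lit 525) (nat_lit 5) (nat_lit 526) (nat_lit 5) (nat_lit 463) (nat_lit 455) (nat_lit 222)) (XT.nd (nat_lit 78) (nat_lit 0) (nat_lit 76) (XT.lf (nat_lit 76) (nat_lit 879066358) (nat_lit 0) (nat_lit 2458880218) (nat_lit 1900) (nat_lit 16396101721) (nat_lit 502) (nat_lit 5) (nat_lit 501) (nat_lit 5) (nat_lit 526) (nat_lit 5) (nat_lit 464) (nat_lit 455) (nat_lit 221)) (XT.lf (nat_lit 0) (nat_lit 4181124765) (nat_lit 1824) (nat_lit 8728084923)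 (nat_lit 1900) (nat_lit 7023581419) (nat_lit 502) (nat_lit 5) (nat_lit 526) (nat_lit 5) (nat_lit 527) (nat_lit 5) (nat_lit 465) (nat_lit 455) (nat_lit 220))))))) (XT.nd (nat_lit 780) (nat_lit 3420) (nat_lit 0) (XT.nd (nat_lit 390) (nat_lit 0) (nat_lit 228) (XT.nd (nat_lit 156) (nat_lit 0) (nat_lit 76) (XT.nd (nat_lit 78) (nat_lit 0) (nat_lit 76) (XT.lf (nat_lit 76) (nat_lit 1603105513) (nat_lit 0) (nat_lit 3460223122) (nat_lit 1900) (nat_lit 15071736898) (nat_lit 503) (nat_lit 5) (nat_lit 502) (nat_lit 5) (nat_lit 527) (nat_lit 5) (nat_lit 466) (nat_lit 455) (nat_lit 219)) (XT.lf (nat_lit 0) (nat_lit 6057793509) (nat_lit 1824) (nat_lit 8124545525) (nat_lit 1900) (nat_lit 6157154074) (nat_lit 503) (nat_lit 5) (nat_lit 527) (nat_lit 5) (nat_lit 528) (nat_lit 5) (nat_lit 467) (nat_lit 455) (nat_lit 218))) (XT.nd (nat_lit 78) (nat_lit 0) (nat_lit 76) (XT.lf (nat_lit 76) (nat_lit 2497856973) (nat_lit 0) (nat_lit 4609060104) (nat_lit 1900)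 (nat_lit 13440396769) (nat_lit 504) (nat_lit 5) (nat_lit 503) (nat_lit 5) (nat_lit 528) (nat_lit 5) (nat_lit 468) (nat_lit 455) (nat_lit 217)) (XT.nd (nat_lit 78) (nat_lit 0) (nat_lit 0) (XT.lf (nat_lit 0) (nat_lit 8261089252) (nat_lit 1824) (nat_lit 7352277357) (nat_lit 1900) (nat_lit 5144243069) (nat_lit 504) (nat_lit 5) (nat_lit 528) (nat_lit 5) (nat_lit 529) (nat_lit 5) (nat_lit 469) (nat_lit 455) (nat_lit 216)) (XT.lf (nat_lit 76) (nat_lit 3572152528) (nat_lit 0) (nat_lit 5915703774) (nat_lit 1900) (nat_lit 11483264894) (nat_lit 505) (nat_lit 5) (nat_lit 504) (nat_lit 5) (nat_lit 529) (nat_lit 5) (nat_lit 470) (nat_lit 455) (nat_lit 215))))) (XT.nd (nat_lit 156) (nat_lit 0) (nat_lit 76) (XT.nd (nat_lit 78) (nat_lit 0) (nat_lit 0) (XT.lf (nat_lit 0) (nat_lit 10810502814) (nat_lit 1824) (nat_lit 6402413589) (nat_lit 1900) (nat_lit 3974559660) (nat_lit 505) (nat_lit 5) (nat_lit 529) (nat_lit 5) (nat_lit 530) (nat_lit 5) (nat_lit 471)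 (nat_lit 455) (nat_lit 214)) (XT.lf (nat_lit 76) (nat_lit 4835282458) (nat_lit 0) (nat_lit 7390837042) (nat_lit 1900) (nat_lit 9180708182) (nat_lit 506) (nat_lit 5) (nat_lit 505) (nat_lit 5) (nat_lit 530) (nat_lit 5) (nat_lit 472) (nat_lit 455) (nat_lit 213))) (XT.nd (nat_lit 78) (nat_lit 0) (nat_lit 0) (XT.lf (nat_lit 0) (nat_lit 13726370154) (nat_lit 1824) (nat_lit 5265628651) (nat_lit 1900) (nat_lit 2637441096) (nat_lit 506) (nat_lit 5) (nat_lit 530) (nat_lit 5) (nat_lit 531) (nat_lit 5) (nat_lit 473) (nat_lit 455) (nat_lit 212)) (XT.nd (nat_lit 78) (nat_lit 0) (nat_lit 76) (XT.lf (nat_lit 76) (nat_lit 6297012229) (nat_lit 0) (nat_lit 9045534964) (nat_lit 1900) (nat_lit 6512238742) (nat_lit 507) (nat_lit 5) (nat_lit 506) (nat_lit 5) (nat_lit 531) (nat_lit 5) (nat_lit 474) (nat_lit 455) (nat_lit 211)) (XT.lf (nat_lit 0) (nat_lit 17029911494) (nat_lit 1824) (nat_lit 3932121337) (nat_lit 1900) (nat_lit 1121828787) (nat_lit 507) (nat_lit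 5) (nat_lit 531) (nat_lit 5) (nat_lit 532) (nat_lit 5) (nat_lit 475) (nat_lit 455) (nat_lit 210)))))) (XT.nd (nat_lit 390) (nat_lit 1976) (nat_lit 0) (XT.nd (nat_lit 156) (nat_lit 1824) (nat_lit 0) (XT.nd (nat_lit 78) (nat_lit 0) (nat_lit 0) (XT.lf (nat_lit 76) (nat_lit 7967600067) (nat_lit 0) (nat_lit 10891287145) (nat_lit 1900) (nat_lit 3456474319) (nat_lit 508) (nat_lit 5) (nat_lit 507) (nat_lit 5) (nat_lit 532) (nat_lit 5) (nat_lit 476) (nat_lit 455) (nat_lit 209)) (XT.lf (nat_lit 76) (nat_lit 20155600501) (nat_lit 0) (nat_lit 591511889) (nat_lit 1900) (nat_lit 1803925653) (nat_lit 508) (nat_lit 5) (nat_lit 507) (nat_lit 5) (nat_lit 532) (nat_lit 5) (nat_lit 477) (nat_lit 455) (nat_lit 208))) (XT.nd (nat_lit 78) (nat_lit 0) (nat_lit 0) (XT.lf (nat_lit 0) (nat_lit 8786000) (nat_lit 1900) (nat_lit 12931175803) (nat_lit 1976) (nat_lit 9848970445) (nat_lit 483) (nat_lit 5) (nat_lit 508) (nat_lit 5) (nat_lit 509) (nat_lit 5) (nat_lit 478)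 (nat_lit 455) (nat_lit 207)) (XT.nd (nat_lit 78) (nat_lit 0) (nat_lit 76) (XT.lf (nat_lit 0) (nat_lit 1850107003) (nat_lit 1900) (nat_lit 661810579) (nat_lit 1976) (nat_lit 20519098083) (nat_lit 483) (nat_lit 5) (nat_lit 508) (nat_lit 5) (nat_lit 509) (nat_lit 5) (nat_lit 479) (nat_lit 455) (nat_lit 206)) (XT.lf (nat_lit 0) (nat_lit 3855944711) (nat_lit 1900) (nat_lit 11322304101) (nat_lit 76) (nat_lit 8097138130) (nat_lit 484) (nat_lit 5) (nat_lit 509) (nat_lit 5) (nat_lit 485) (nat_lit 5) (nat_lit 480) (nat_lit 455) (nat_lit 205))))) (XT.nd (nat_lit 234) (nat_lit 0) (nat_lit 0) (XT.nd (nat_lit 78) (nat_lit 912) (nat_lit 0) (XT.lf (nat_lit 0) (nat_lit 1302044383) (nat_lit 1140) (nat_lit 4625927115) (nat_lit 1216) (nat_lit 17596152703) (nat_lit 469) (nat_lit 5) (nat_lit 484) (nat_lit 5) (nat_lit 485) (nat_lit 5) (nat_lit 481) (nat_lit 455) (nat_lit 204)) (XT.nd (nat_lit 78) (nat_lit 912) (nat_lit 0) (XT.lf (nat_lit 0) (nat_lit 8154333091)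 (nat_lit 1216) (nat_lit 9487418628) (nat_lit 76) (nat_lit 6133826599) (nat_lit 469) (nat_lit 5) (nat_lit 485) (nat_lit 5) (nat_lit 470) (nat_lit 5) (nat_lit 482) (nat_lit 455) (nat_lit 203)) (XT.lf (nat_lit 0) (nat_lit 3514345567) (nat_lit 912) (nat_lit 6960960603) (nat_lit 988) (nat_lit 13555753663) (nat_lit 457) (nat_lit 5) (nat_lit 469) (nat_lit 5) (nat_lit 470) (nat_lit 5) (nat_lit 483) (nat_lit 455) (nat_lit 202)))) (XT.nd (nat_lit 57174) (nat_lit 0) (nat_lit 4940) (XT.lf (nat_lit 0) (nat_lit 12929004288) (nat_lit 988) (nat_lit 7414682870) (nat_lit 76) (nat_lit 3946237709) (nat_lit 457) (nat_lit 5) (nat_lit 470) (nat_lit 5) (nat_lit 458) (nat_lit 5) (nat_lit 484) (nat_lit 455) (nat_lit 201)) (XT.nd (nat_lit 78) (nat_lit 0) (nat_lit 0) (XT.lf (nat_lit 0) (nat_lit 4466099697) (nat_lit 0) (nat_lit 4466099697) (nat_lit 1748) (nat_lit 274072832) (nat_lit 522) (nat_lit 5) (nat_lit 522) (nat_lit 3) (nat_lit 545) (nat_lit 3) (nat_lit 456)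 (nat_lit 456) (nat_lit 228)) (XT.lf (nat_lit 0) (nat_lit 18239691215) (nat_lit 1748) (nat_lit 273298650) (nat_lit 1824) (nat_lit 79747064) (nat_lit 522) (nat_lit 5) (nat_lit 545) (nat_lit 3) (nat_lit 546) (nat_lit 5) (nat_lit 457) (nat_lit 456) (nat_lit 227))))))))
noncomputable def xc250 : XT := (XT.nd (nat_lit 1560) (nat_lit 2204) (nat_lit 0) (XT.nd (nat_lit 780) (nat_lit 0) (nat_lit 380) (XT.nd (nat_lit 390) (nat_lit 0) (nat_lit 152) (XT.nd (nat_lit 156) (nat_lit 0) (nat_lit 76) (XT.nd (nat_lit 78) (nat_lit 1824) (nat_lit 0) (XT.lf (nat_lit 76) (nat_lit 9176393309) (nat_lit 0) (nat_lit 9559701352) (nat_lit 1824) (nat_lit 38166491) (nat_lit 523) (nat_lit 5) (nat_lit 522) (nat_lit 5) (nat_lit 546) (nat_lit 5) (nat_lit 458) (nat_lit 456) (nat_lit 226)) (XT.lf (nat_lit 0) (nat_lit 276066786) (nat_lit 1824) (nat_lit 145186632) (nat_lit 1900) (nat_lit 18538190325) (nat_lit 498) (nat_lit 5) (nat_lit 522) (nat_lit 5) (nat_lit 523) (nat_lit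 5) (nat_lit 459) (nat_lit 456) (nat_lit 225))) (XT.nd (nat_lit 78) (nat_lit 0) (nat_lit 0) (XT.lf (nat_lit 0) (nat_lit 711768387) (nat_lit 1824) (nat_lit 9585617295) (nat_lit 1900) (nat_lit 8848625366) (nat_lit 499) (nat_lit 5) (nat_lit 523) (nat_lit 5) (nat_lit 524) (nat_lit 5) (nat_lit 460) (nat_lit 456) (nat_lit 224)) (XT.nd (nat_lit 78) (nat_lit 0) (nat_lit 76) (XT.lf (nat_lit 76) (nat_lit 121782011) (nat_lit 0) (nat_lit 1034079575) (nat_lit 1900) (nat_lit 18180454562) (nat_lit 500) (nat_lit 5) (nat_lit 499) (nat_lit 5) (nat_lit 524) (nat_lit 5) (nat_lit 461) (nat_lit 456) (nat_lit 223)) (XT.lf (nat_lit 0) (nat_lit 1723427098) (nat_lit 1824) (nat_lit 9433808061) (nat_lit 1900) (nat_lit 8370900381) (nat_lit 500) (nat_lit 5) (nat_lit 524) (nat_lit 5) (nat_lit 525) (nat_lit 5) (nat_lit 462) (nat_lit 456) (nat_lit 222))))) (XT.nd (nat_lit 156) (nat_lit 0) (nat_lit 76) (XT.nd (nat_lit 78) (nat_lit 0) (nat_lit 76) (XT.lf (nat_lit 76) (nat_lit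 539948581) (nat_lit 0) (nat_lit 1768050676) (nat_lit 1900) (nat_lit 17415678957) (nat_lit 501) (nat_lit 5) (nat_lit 500) (nat_lit 5) (nat_lit 525) (nat_lit 5) (nat_lit 463) (nat_lit 456) (nat_lit 221)) (XT.lf (nat_lit 0) (nat_lit 3014075830) (nat_lit 1824) (nat_lit 9134830514) (nat_lit 1900) (nat_lit 7772029138) (nat_lit 501) (nat_lit 5) (nat_lit 525) (nat_lit 5) (nat_lit 526) (nat_lit 5) (nat_lit 464) (nat_lit 456) (nat_lit 220))) (XT.nd (nat_lit 78) (nat_lit 0) (nat_lit 76) (XT.lf (nat_lit 76) (nat_lit 1115116437) (nat_lit 0) (nat_lit 2633584200) (nat_lit 1900) (nat_lit 16373148723) (nat_lit 502) (nat_lit 5) (nat_lit 501) (nat_lit 5) (nat_lit 526) (nat_lit 5) (nat_lit 465) (nat_lit 456) (nat_lit 219)) (XT.nd (nat_lit 78) (nat_lit 0) (nat_lit 0) (XT.lf (nat_lit 0) (nat_lit 4601198368) (nat_lit 1824) (nat_lit 8680917548) (nat_lit 1900) (nat_lit 7042601992) (nat_lit 502) (nat_lit 5) (nat_lit 526) (nat_lit 5) (nat_lit 527) (nat_lit 5) (nat_lit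 466) (nat_lit 456) (nat_lit 218)) (XT.lf (nat_lit 76) (nat_lit 1855437953) (nat_lit 0) (nat_lit 3640441422) (nat_lit 1900) (nat_lit 15035261785) (nat_lit 503) (nat_lit 5) (nat_lit 502) (nat_lit 5) (nat_lit 527) (nat_lit 5) (nat_lit 467) (nat_lit 456) (nat_lit 217)))))) (XT.nd (nat_lit 390) (nat_lit 0) (nat_lit 152) (XT.nd (nat_lit 156) (nat_lit 0) (nat_lit 76) (XT.nd (nat_lit 78) (nat_lit 0) (nat_lit 0) (XT.lf (nat_lit 0) (nat_lit 6503031136) (nat_lit 1824) (nat_lit 8063882721) (nat_lit 1900) (nat_lit 6172887478) (nat_lit 503) (nat_lit 5) (nat_lit 527) (nat_lit 5) (nat_lit 528) (nat_lit 5) (nat_lit 468) (nat_lit 456) (nat_lit 216)) (XT.lf (nat_lit 76) (nat_lit 2769499711) (nat_lit 0) (nat_lit 4798722251) (nat_lit 1900) (nat_lit 13383654831) (nat_lit 504) (nat_lit 5) (nat_lit 503) (nat_lit 5) (nat_lit 528) (nat_lit 5) (nat_lit 469) (nat_lit 456) (nat_lit 215))) (XT.nd (nat_lit 78) (nat_lit 0) (nat_lit 0) (XT.lf (nat_lit 0) (nat_lit 8738598911)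 (nat_lit 1824) (nat_lit 7275105414) (nat_lit 1900) (nat_lit 5152811788) (nat_lit 504) (nat_lit 5) (nat_lit 528) (nat_lit 5) (nat_lit 529) (nat_lit 5) (nat_lit 470) (nat_lit 456) (nat_lit 214)) (XT.nd (nat_lit 78) (nat_lit 0) (nat_lit 76) (XT.lf (nat_lit 76) (nat_lit 3866337954) (nat_lit 0) (nat_lit 6118886248) (nat_lit 1900) (nat_lit 11399167202) (nat_lit 505) (nat_lit 5) (nat_lit 504) (nat_lit 5) (nat_lit 529) (nat_lit 5) (nat_lit 471) (nat_lit 456) (nat_lit 213)) (XT.lf (nat_lit 0) (nat_lit 11327751843) (nat_lit 1824) (nat_lit 6305515182) (nat_lit 1900) (nat_lit 3971937780) (nat_lit 505) (nat_lit 5) (nat_lit 529) (nat_lit 5) (nat_lit 530) (nat_lit 5) (nat_lit 472) (nat_lit 456) (nat_lit 212))))) (XT.nd (nat_lit 156) (nat_lit 0) (nat_lit 76) (XT.nd (nat_lit 78) (nat_lit 0) (nat_lit 76) (XT.lf (nat_lit 76) (nat_lit 5155454873) (nat_lit 0) (nat_lit 7611774159) (nat_lit 1900) (nat_lit 9061803460) (nat_lit 506) (nat_lit 5) (nat_lit 505)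 (nat_lit 5) (nat_lit 530) (nat_lit 5) (nat_lit 473) (nat_lit 456) (nat_lit 211)) (XT.lf (nat_lit 0) (nat_lit 14291203828) (nat_lit 1824) (nat_lit 5145575287) (nat_lit 1900) (nat_lit 2619443458) (nat_lit 506) (nat_lit 5) (nat_lit 530) (nat_lit 5) (nat_lit 531) (nat_lit 5) (nat_lit 474) (nat_lit 456) (nat_lit 210))) (XT.nd (nat_lit 78) (nat_lit 0) (nat_lit 76) (XT.lf (nat_lit 76) (nat_lit 6646835740) (nat_lit 0) (nat_lit 9288629987) (nat_lit 1900) (nat_lit 6350694576) (nat_lit 507) (nat_lit 5) (nat_lit 506) (nat_lit 5) (nat_lit 531) (nat_lit 5) (nat_lit 475) (nat_lit 456) (nat_lit 209)) (XT.nd (nat_lit 78) (nat_lit 0) (nat_lit 0) (XT.lf (nat_lit 0) (nat_lit 17650572320) (nat_lit 1824) (nat_lit 3785265372) (nat_lit 1900) (nat_lit 1084099906) (nat_lit 507) (nat_lit 5) (nat_lit 531) (nat_lit 5) (nat_lit 532) (nat_lit 5) (nat_lit 476) (nat_lit 456) (nat_lit 208)) (XT.lf (nat_lit 76) (nat_lit 8350966918) (nat_lit 0) (nat_lit 11161123664) (nat_lit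 1900) (nat_lit 3244057667) (nat_lit 508) (nat_lit 5) (nat_lit 507) (nat_lit 5) (nat_lit 532) (nat_lit 5) (nat_lit 477) (nat_lit 456) (nat_lit 207))))))) (XT.nd (nat_lit 58032) (nat_lit 0) (nat_lit 2280) (XT.nd (nat_lit 390) (nat_lit 0) (nat_lit 0) (XT.nd (nat_lit 156) (nat_lit 1064) (nat_lit 0) (XT.nd (nat_lit 78) (nat_lit 1824) (nat_lit 0) (XT.lf (nat_lit 76) (nat_lit 20778334913) (nat_lit 0) (nat_lit 654333084) (nat_lit 1900) (nat_lit 1563978541) (nat_lit 508) (nat_lit 5) (nat_lit 507) (nat_lit 5) (nat_lit 532) (nat_lit 5) (nat_lit 478) (nat_lit 456) (nat_lit 206)) (XT.lf (nat_lit 0) (nat_lit 277162434) (nat_lit 1900) (nat_lit 12962352006) (nat_lit 1976) (nat_lit 9999832439) (nat_lit 483) (nat_lit 5) (nat_lit 508) (nat_lit 5) (nat_lit 509) (nat_lit 5) (nat_lit 479) (nat_lit 456) (nat_lit 205))) (XT.nd (nat_lit 78) (nat_lit 1064) (nat_lit 0) (XT.lf (nat_lit 0) (nat_lit 2150051020) (nat_lit 1900) (nat_lit 452059228) (nat_lit 1976) (nat_lit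 20884266892) (nat_lit 483) (nat_lit 5) (nat_lit 508) (nat_lit 5) (nat_lit 509) (nat_lit 5) (nat_lit 480) (nat_lit 456) (nat_lit 204)) (XT.nd (nat_lit 78) (nat_lit 1140) (nat_lit 0) (XT.lf (nat_lit 0) (nat_lit 4192043219) (nat_lit 1900) (nat_lit 11321800358) (nat_lit 76) (nat_lit 8221871512) (nat_lit 484) (nat_lit 5) (nat_lit 509) (nat_lit 5) (nat_lit 485) (nat_lit 5) (nat_lit 481) (nat_lit 456) (nat_lit 203)) (XT.lf (nat_lit 0) (nat_lit 1553542005) (nat_lit 1140) (nat_lit 4748354319) (nat_lit 1216) (nat_lit 17687603053) (nat_lit 469) (nat_lit 5) (nat_lit 484) (nat_lit 5) (nat_lit 485) (nat_lit 5) (nat_lit 482) (nat_lit 456) (nat_lit 202))))) (XT.nd (nat_lit 57408) (nat_lit 0) (nat_lit 2128) (XT.nd (nat_lit 57330) (nat_lit 0) (nat_lit 4028) (XT.lf (nat_lit 0) (nat_lit 8567587605) (nat_lit 1216) (nat_lit 9450933443) (nat_lit 76) (nat_lit 6227565480) (nat_lit 469) (nat_lit 5) (nat_lit 485) (nat_lit 5) (nat_lit 470) (nat_lit 5) (nat_lit 483)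 (nat_lit 456) (nat_lit 201)) (XT.lf (nat_lit 0) (nat_lit 4652846901) (nat_lit 0) (nat_lit 4652846901) (nat_lit 1748) (nat_lit 80806861) (nat_lit 522) (nat_lit 5) (nat_lit 522) (nat_lit 3) (nat_lit 545) (nat_lit 3) (nat_lit 457) (nat_lit 457) (nat_lit 226))) (XT.nd (nat_lit 78) (nat_lit 0) (nat_lit 76) (XT.lf (nat_lit 0) (nat_lit 28667385) (nat_lit 1900) (nat_lit 79747064) (nat_lit 1900) (nat_lit 18848542956) (nat_lit 497) (nat_lit 3) (nat_lit 522) (nat_lit 3) (nat_lit 522) (nat_lit 5) (nat_lit 458) (nat_lit 457) (nat_lit 225)) (XT.nd (nat_lit 78) (nat_lit 0) (nat_lit 0) (XT.lf (nat_lit 0) (nat_lit 338703545) (nat_lit 1824) (nat_lit 9585964576) (nat_lit 1900) (nat_lit 9217540852) (nat_lit 498) (nat_lit 5) (nat_lit 522) (nat_lit 5) (nat_lit 523) (nat_lit 5) (nat_lit 459) (nat_lit 457) (nat_lit 224)) (XT.lf (nat_lit 76) (nat_lit 52209931) (nat_lit 0) (nat_lit 599445403) (nat_lit 1900) (nat_lit 18679575941) (nat_lit 499) (nat_lit 5) (nat_lit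 498) (nat_lit 5) (nat_lit 523) (nat_lit 5) (nat_lit 460) (nat_lit 457) (nat_lit 223)))))) (XT.nd (nat_lit 390) (nat_lit 0) (nat_lit 152) (XT.nd (nat_lit 156) (nat_lit 0) (nat_lit 76) (XT.nd (nat_lit 78) (nat_lit 0) (nat_lit 0) (XT.lf (nat_lit 0) (nat_lit 1088695621) (nat_lit 1824) (nat_lit 9570677722) (nat_lit 1900) (nat_lit 8862304088) (nat_lit 499) (nat_lit 5) (nat_lit 523) (nat_lit 5) (nat_lit 524) (nat_lit 5) (nat_lit 461) (nat_lit 457) (nat_lit 222)) (XT.lf (nat_lit 76) (nat_lit 329510018) (nat_lit 0) (nat_lit 1206381955) (nat_lit 1900) (nat_lit 18180012234) (nat_lit 500) (nat_lit 5) (nat_lit 499) (nat_lit 5) (nat_lit 524) (nat_lit 5) (nat_lit 462) (nat_lit 457) (nat_lit 221))) (XT.nd (nat_lit 78) (nat_lit 0) (nat_lit 0) (XT.lf (nat_lit 0) (nat_lit 2106845378) (nat_lit 1824) (nat_lit 9413253779) (nat_lit 1900) (nat_lit 8391620100) (nat_lit 500) (nat_lit 5) (nat_lit 524) (nat_lit 5) (nat_lit 525) (nat_lit 5) (nat_lit 463) (nat_lit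 457) (nat_lit 220)) (XT.nd (nat_lit 78) (nat_lit 0) (nat_lit 76) (XT.lf (nat_lit 76) (nat_lit 758601480) (nat_lit 0) (nat_lit 1939014873) (nat_lit 1900) (nat_lit 17413666282) (nat_lit 501) (nat_lit 5) (nat_lit 500) (nat_lit 5) (nat_lit 525) (nat_lit 5) (nat_lit 464) (nat_lit 457) (nat_lit 219)) (XT.lf (nat_lit 0) (nat_lit 3410216842) (nat_lit 1824) (nat_lit 9106151148) (nat_lit 1900) (nat_lit 7796269011) (nat_lit 501) (nat_lit 5) (nat_lit 525) (nat_lit 5) (nat_lit 526) (nat_lit 5) (nat_lit 465) (nat_lit 457) (nat_lit 218))))) (XT.nd (nat_lit 234) (nat_lit 0) (nat_lit 152) (XT.nd (nat_lit 78) (nat_lit 0) (nat_lit 76) (XT.lf (nat_lit 76) (nat_lit 1347404110) (nat_lit 0) (nat_lit 2806907919) (nat_lit 1900) (nat_lit 16363361570) (nat_lit 502) (nat_lit 5) (nat_lit 501) (nat_lit 5) (nat_lit 526) (nat_lit 5) (nat_lit 466) (nat_lit 457) (nat_lit 217)) (XT.nd (nat_lit 78) (nat_lit 0) (nat_lit 0) (XT.lf (nat_lit 0) (nat_lit 5016608636) (nat_lit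 1824) (nat_lit 8641416835) (nat_lit 1900) (nat_lit 7066719069) (nat_lit 502) (nat_lit 5) (nat_lit 526) (nat_lit 5) (nat_lit 527) (nat_lit 5) (nat_lit 467) (nat_lit 457) (nat_lit 216)) (XT.lf (nat_lit 76) (nat_lit 2104263677) (nat_lit 0) (nat_lit 3819953286) (nat_lit 1900) (nat_lit 15011178621) (nat_lit 503) (nat_lit 5) (nat_lit 502) (nat_lit 5) (nat_lit 527) (nat_lit 5) (nat_lit 468) (nat_lit 457) (nat_lit 215)))) (XT.nd (nat_lit 78) (nat_lit 0) (nat_lit 0) (XT.lf (nat_lit 0) (nat_lit 6944589026) (nat_lit 1824) (nat_lit 8010671992) (nat_lit 1900) (nat_lit 6193106398) (nat_lit 503) (nat_lit 5) (nat_lit 527) (nat_lit 5) (nat_lit 528) (nat_lit 5) (nat_lit 469) (nat_lit 457) (nat_lit 214)) (XT.nd (nat_lit 78) (nat_lit 0) (nat_lit 76) (XT.lf (nat_lit 76) (nat_lit 3037966981) (nat_lit 0) (nat_lit 4988392337) (nat_lit 1900) (nat_lit 13338419552) (nat_lit 504) (nat_lit 5) (nat_lit 503) (nat_lit 5) (nat_lit 528) (nat_lit 5) (nat_lit 470) (nat_lit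 457) (nat_lit 213)) (XT.lf (nat_lit 0) (nat_lit 9213532245) (nat_lit 1824) (nat_lit 7205096670) (nat_lit 1900) (nat_lit 5165214293) (nat_lit 504) (nat_lit 5) (nat_lit 528) (nat_lit 5) (nat_lit 529) (nat_lit 5) (nat_lit 471) (nat_lit 457) (nat_lit 212))))))))
noncomputable def xc251 : XT := (XT.nd (nat_lit 58968) (nat_lit 0) (nat_lit 1064) (XT.nd (nat_lit 780) (nat_lit 1064) (nat_lit 0) (XT.nd (nat_lit 390) (nat_lit 1596) (nat_lit 0) (XT.nd (nat_lit 156) (nat_lit 0) (nat_lit 76) (XT.nd (nat_lit 78) (nat_lit 0) (nat_lit 76) (XT.lf (nat_lit 76) (nat_lit 4157757730) (nat_lit 0) (nat_lit 6322836829) (nat_lit 1900) (nat_lit 11325571356) (nat_lit 505) (nat_lit 5) (nat_lit 504) (nat_lit 5) (nat_lit 529) (nat_lit 5) (nat_lit 472) (nat_lit 457) (nat_lit 211)) (XT.lf (nat_lit 0) (nat_lit 11843656142) (nat_lit 1824) (nat_lit 6215413760) (nat_lit 1900) (nat_lit 3972452013) (nat_lit 505) (nat_lit 5) (nat_lit 529) (nat_lit 5) (nat_lit 530) (nat_lit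 5) (nat_lit 473) (nat_lit 457) (nat_lit 210))) (XT.nd (nat_lit 78) (nat_lit 0) (nat_lit 76) (XT.lf (nat_lit 76) (nat_lit 5473353250) (nat_lit 0) (nat_lit 7834290664) (nat_lit 1900) (nat_lit 8952267821) (nat_lit 506) (nat_lit 5) (nat_lit 505) (nat_lit 5) (nat_lit 530) (nat_lit 5) (nat_lit 474) (nat_lit 457) (nat_lit 209)) (XT.nd (nat_lit 78) (nat_lit 0) (nat_lit 0) (XT.lf (nat_lit 0) (nat_lit 14856061229) (nat_lit 1824) (nat_lit 5031872090) (nat_lit 1900) (nat_lit 2603833039) (nat_lit 506) (nat_lit 5) (nat_lit 530) (nat_lit 5) (nat_lit 531) (nat_lit 5) (nat_lit 475) (nat_lit 457) (nat_lit 208)) (XT.lf (nat_lit 76) (nat_lit 6994962061) (nat_lit 0) (nat_lit 9534172218) (nat_lit 1900) (nat_lit 6197250046) (nat_lit 507) (nat_lit 5) (nat_lit 506) (nat_lit 5) (nat_lit 531) (nat_lit 5) (nat_lit 476) (nat_lit 457) (nat_lit 207))))) (XT.nd (nat_lit 156) (nat_lit 1824) (nat_lit 0) (XT.nd (nat_lit 78) (nat_lit 0) (nat_lit 0) (XT.lf (nat_lit 0) (nat_lit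 18272771190) (nat_lit 1824) (nat_lit 3644228665) (nat_lit 1900) (nat_lit 1047952747) (nat_lit 507) (nat_lit 5) (nat_lit 531) (nat_lit 5) (nat_lit 532) (nat_lit 5) (nat_lit 477) (nat_lit 457) (nat_lit 206)) (XT.lf (nat_lit 76) (nat_lit 8733302337) (nat_lit 0) (nat_lit 11434337271) (nat_lit 1900) (nat_lit 3038325462) (nat_lit 508) (nat_lit 5) (nat_lit 507) (nat_lit 5) (nat_lit 532) (nat_lit 5) (nat_lit 478) (nat_lit 457) (nat_lit 205))) (XT.nd (nat_lit 78) (nat_lit 1824) (nat_lit 0) (XT.lf (nat_lit 76) (nat_lit 21404995807) (nat_lit 0) (nat_lit 716430661) (nat_lit 1900) (nat_lit 1329950898) (nat_lit 508) (nat_lit 5) (nat_lit 507) (nat_lit 5) (nat_lit 532) (nat_lit 5) (nat_lit 479) (nat_lit 457) (nat_lit 204)) (XT.nd (nat_lit 78) (nat_lit 0) (nat_lit 0) (XT.lf (nat_lit 0) (nat_lit 540491836) (nat_lit 1900) (nat_lit 13002983789) (nat_lit 1976) (nat_lit 10155502468) (nat_lit 483) (nat_lit 5) (nat_lit 508) (nat_lit 5) (nat_lit 509) (nat_lit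 5) (nat_lit 480) (nat_lit 457) (nat_lit 203)) (XT.lf (nat_lit 0) (nat_lit 2445783563) (nat_lit 1900) (nat_lit 246771730) (nat_lit 1976) (nat_lit 21258494759) (nat_lit 483) (nat_lit 5) (nat_lit 508) (nat_lit 5) (nat_lit 509) (nat_lit 5) (nat_lit 481) (nat_lit 457) (nat_lit 202)))))) (XT.nd (nat_lit 57720) (nat_lit 0) (nat_lit 2204) (XT.nd (nat_lit 57486) (nat_lit 0) (nat_lit 2128) (XT.nd (nat_lit 78) (nat_lit 1140) (nat_lit 0) (XT.lf (nat_lit 0) (nat_lit 4524807203) (nat_lit 1900) (nat_lit 11330099279) (nat_lit 76) (nat_lit 8350544448) (nat_lit 484) (nat_lit 5) (nat_lit 509) (nat_lit 5) (nat_lit 485) (nat_lit 5) (nat_lit 482) (nat_lit 457) (nat_lit 201)) (XT.lf (nat_lit 0) (nat_lit 1801314819) (nat_lit 1140) (nat_lit 4872068678) (nat_lit 1216) (nat_lit 17790996883) (nat_lit 469) (nat_lit 5) (nat_lit 484) (nat_lit 5) (nat_lit 485) (nat_lit 5) (nat_lit 483) (nat_lit 457) (nat_lit 200))) (XT.nd (nat_lit 78) (nat_lit 0) (nat_lit 0) (XT.lf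 (nat_lit 0) (nat_lit 107182425) (nat_lit 1900) (nat_lit 4731644232) (nat_lit 1900) (nat_lit 4731644232) (nat_lit 497) (nat_lit 3) (nat_lit 522) (nat_lit 3) (nat_lit 522) (nat_lit 5) (nat_lit 458) (nat_lit 458) (nat_lit 224)) (XT.nd (nat_lit 78) (nat_lit 0) (nat_lit 76) (XT.lf (nat_lit 76) (nat_lit 108606824) (nat_lit 0) (nat_lit 290994806) (nat_lit 1900) (nat_lit 18929087707) (nat_lit 498) (nat_lit 5) (nat_lit 497) (nat_lit 3) (nat_lit 522) (nat_lit 5) (nat_lit 459) (nat_lit 458) (nat_lit 223)) (XT.lf (nat_lit 0) (nat_lit 707956274) (nat_lit 1824) (nat_lit 9581982344) (nat_lit 1900) (nat_lit 9227864962) (nat_lit 498) (nat_lit 5) (nat_lit 522) (nat_lit 5) (nat_lit 523) (nat_lit 5) (nat_lit 460) (nat_lit 458) (nat_lit 222))))) (XT.nd (nat_lit 234) (nat_lit 0) (nat_lit 152) (XT.nd (nat_lit 78) (nat_lit 0) (nat_lit 76) (XT.lf (nat_lit 76) (nat_lit 247668143) (nat_lit 0) (nat_lit 773653795) (nat_lit 1900) (nat_lit 18689401292) (nat_lit 499)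 (nat_lit 5) (nat_lit 498) (nat_lit 5) (nat_lit 523) (nat_lit 5) (nat_lit 461) (nat_lit 458) (nat_lit 221)) (XT.nd (nat_lit 78) (nat_lit 0) (nat_lit 0) (XT.lf (nat_lit 0) (nat_lit 1459077633) (nat_lit 1824) (nat_lit 9563463904) (nat_lit 1900) (nat_lit 8882597282) (nat_lit 499) (nat_lit 5) (nat_lit 523) (nat_lit 5) (nat_lit 524) (nat_lit 5) (nat_lit 462) (nat_lit 458) (nat_lit 220)) (XT.lf (nat_lit 76) (nat_lit 533420832) (nat_lit 0) (nat_lit 1376242763) (nat_lit 1900) (nat_lit 18193697621) (nat_lit 500) (nat_lit 5) (nat_lit 499) (nat_lit 5) (nat_lit 524) (nat_lit 5) (nat_lit 463) (nat_lit 458) (nat_lit 219)))) (XT.nd (nat_lit 78) (nat_lit 0) (nat_lit 0) (XT.lf (nat_lit 0) (nat_lit 2484381880) (nat_lit 1824) (nat_lit 9400413084) (nat_lit 1900) (nat_lit 8418450686) (nat_lit 500) (nat_lit 5) (nat_lit 524) (nat_lit 5) (nat_lit 525) (nat_lit 5) (nat_lit 464) (nat_lit 458) (nat_lit 218)) (XT.nd (nat_lit 78) (nat_lit 0) (nat_lit 76) (XT.lf (nat_lit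 76) (nat_lit 973556216) (nat_lit 0) (nat_lit 2108132718) (nat_lit 1900) (nat_lit 17425216949) (nat_lit 501) (nat_lit 5) (nat_lit 500) (nat_lit 5) (nat_lit 525) (nat_lit 5) (nat_lit 465) (nat_lit 458) (nat_lit 217)) (XT.lf (nat_lit 0) (nat_lit 3801238842) (nat_lit 1824) (nat_lit 9085106182) (nat_lit 1900) (nat_lit 7826088364) (nat_lit 501) (nat_lit 5) (nat_lit 525) (nat_lit 5) (nat_lit 526) (nat_lit 5) (nat_lit 466) (nat_lit 458) (nat_lit 216))))))) (XT.nd (nat_lit 780) (nat_lit 1368) (nat_lit 0) (XT.nd (nat_lit 390) (nat_lit 0) (nat_lit 228) (XT.nd (nat_lit 156) (nat_lit 0) (nat_lit 76) (XT.nd (nat_lit 78) (nat_lit 0) (nat_lit 76) (XT.lf (nat_lit 76) (nat_lit 1576183550) (nat_lit 0) (nat_lit 2979013047) (nat_lit 1900) (nat_lit 16366474508) (nat_lit 502) (nat_lit 5) (nat_lit 501) (nat_lit 5) (nat_lit 526) (nat_lit 5) (nat_lit 467) (nat_lit 458) (nat_lit 215)) (XT.lf (nat_lit 0) (nat_lit 5427769626) (nat_lit 1824) (nat_lit 8609401781) (nat_lit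 1900) (nat_lit 7095851448) (nat_lit 502) (nat_lit 5) (nat_lit 526) (nat_lit 5) (nat_lit 527) (nat_lit 5) (nat_lit 468) (nat_lit 458) (nat_lit 214))) (XT.nd (nat_lit 78) (nat_lit 0) (nat_lit 76) (XT.lf (nat_lit 76) (nat_lit 2349844688) (nat_lit 0) (nat_lit 3998911978) (nat_lit 1900) (nat_lit 14999225722) (nat_lit 503) (nat_lit 5) (nat_lit 502) (nat_lit 5) (nat_lit 527) (nat_lit 5) (nat_lit 469) (nat_lit 458) (nat_lit 213)) (XT.nd (nat_lit 78) (nat_lit 0) (nat_lit 0) (XT.lf (nat_lit 0) (nat_lit 7382882256) (nat_lit 1824) (nat_lit 7964725893) (nat_lit 1900) (nat_lit 6217738587) (nat_lit 503) (nat_lit 5) (nat_lit 527) (nat_lit 5) (nat_lit 528) (nat_lit 5) (nat_lit 470) (nat_lit 458) (nat_lit 212)) (XT.lf (nat_lit 76) (nat_lit 3303529547) (nat_lit 0) (nat_lit 5178217509) (nat_lit 1900) (nat_lit 13304430181) (nat_lit 504) (nat_lit 5) (nat_lit 503) (nat_lit 5) (nat_lit 528) (nat_lit 5) (nat_lit 471) (nat_lit 458) (nat_lit 211))))) (XT.nd (nat_lit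 156) (nat_lit 0) (nat_lit 76) (XT.nd (nat_lit 78) (nat_lit 0) (nat_lit 0) (XT.lf (nat_lit 0) (nat_lit 9686308615) (nat_lit 1824) (nat_lit 7142056301) (nat_lit 1900) (nat_lit 5181385043) (nat_lit 504) (nat_lit 5) (nat_lit 528) (nat_lit 5) (nat_lit 529) (nat_lit 5) (nat_lit 472) (nat_lit 458) (nat_lit 210)) (XT.lf (nat_lit 76) (nat_lit 4446692409) (nat_lit 0) (nat_lit 6527698848) (nat_lit 1900) (nat_lit 11262214280) (nat_lit 505) (nat_lit 5) (nat_lit 504) (nat_lit 5) (nat_lit 529) (nat_lit 5) (nat_lit 473) (nat_lit 458) (nat_lit 209))) (XT.nd (nat_lit 78) (nat_lit 0) (nat_lit 0) (XT.lf (nat_lit 0) (nat_lit 12358642743) (nat_lit 1824) (nat_lit 6131906075) (nat_lit 1900) (nat_lit 3976041266) (nat_lit 505) (nat_lit 5) (nat_lit 529) (nat_lit 5) (nat_lit 530) (nat_lit 5) (nat_lit 474) (nat_lit 458) (nat_lit 208)) (XT.nd (nat_lit 78) (nat_lit 0) (nat_lit 76) (XT.lf (nat_lit 76) (nat_lit 5789269065) (nat_lit 0) (nat_lit 8058528402) (nat_lit 1900)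 (nat_lit 8851832490) (nat_lit 506) (nat_lit 5) (nat_lit 505) (nat_lit 5) (nat_lit 530) (nat_lit 5) (nat_lit 475) (nat_lit 458) (nat_lit 207)) (XT.lf (nat_lit 0) (nat_lit 15421380574) (nat_lit 1824) (nat_lit 4924306242) (nat_lit 1900) (nat_lit 2590550907) (nat_lit 506) (nat_lit 5) (nat_lit 530) (nat_lit 5) (nat_lit 531) (nat_lit 5) (nat_lit 476) (nat_lit 458) (nat_lit 206)))))) (XT.nd (nat_lit 390) (nat_lit 0) (nat_lit 0) (XT.nd (nat_lit 156) (nat_lit 1748) (nat_lit 0) (XT.nd (nat_lit 78) (nat_lit 0) (nat_lit 76) (XT.lf (nat_lit 76) (nat_lit 7341694833) (nat_lit 0) (nat_lit 9782304365) (nat_lit 1900) (nat_lit 6051627168) (nat_lit 507) (nat_lit 5) (nat_lit 506) (nat_lit 5) (nat_lit 531) (nat_lit 5) (nat_lit 477) (nat_lit 458) (nat_lit 205)) (XT.lf (nat_lit 0) (nat_lit 18896961162) (nat_lit 1824) (nat_lit 3508787581) (nat_lit 1900) (nat_lit 1013328220) (nat_lit 507) (nat_lit 5) (nat_lit 531) (nat_lit 5) (nat_lit 532) (nat_lit 5) (nat_lit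 478) (nat_lit 458) (nat_lit 204))) (XT.nd (nat_lit 78) (nat_lit 1824) (nat_lit 0) (XT.lf (nat_lit 76) (nat_lit 9114923478) (nat_lit 0) (nat_lit 11711073934) (nat_lit 1900) (nat_lit 2838986860) (nat_lit 508) (nat_lit 5) (nat_lit 507) (nat_lit 5) (nat_lit 532) (nat_lit 5) (nat_lit 479) (nat_lit 458) (nat_lit 203)) (XT.nd (nat_lit 78) (nat_lit 1824) (nat_lit 0) (XT.lf (nat_lit 76) (nat_lit 22035992874) (nat_lit 0) (nat_lit 777867036) (nat_lit 1900) (nat_lit 1101544904) (nat_lit 508) (nat_lit 5) (nat_lit 507) (nat_lit 5) (nat_lit 532) (nat_lit 5) (nat_lit 480) (nat_lit 458) (nat_lit 202)) (XT.lf (nat_lit 0) (nat_lit 799077676) (nat_lit 1900) (nat_lit 13052917305) (nat_lit 1976) (nat_lit 10316007154) (nat_lit 483) (nat_lit 5) (nat_lit 508) (nat_lit 5) (nat_lit 509) (nat_lit 5) (nat_lit 481) (nat_lit 458) (nat_lit 201))))) (XT.nd (nat_lit 57720) (nat_lit 0) (nat_lit 1140) (XT.nd (nat_lit 57564) (nat_lit 0) (nat_lit 1064) (XT.lf (nat_lit 0)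 (nat_lit 2737616884) (nat_lit 1900) (nat_lit 45701126) (nat_lit 1976) (nat_lit 21641894691) (nat_lit 483) (nat_lit 5) (nat_lit 508) (nat_lit 5) (nat_lit 509) (nat_lit 5) (nat_lit 482) (nat_lit 458) (nat_lit 200)) (XT.nd (nat_lit 78) (nat_lit 0) (nat_lit 0) (XT.lf (nat_lit 0) (nat_lit 290529873) (nat_lit 1900) (nat_lit 4733863179) (nat_lit 1900) (nat_lit 4733863179) (nat_lit 497) (nat_lit 3) (nat_lit 522) (nat_lit 3) (nat_lit 522) (nat_lit 5) (nat_lit 459) (nat_lit 459) (nat_lit 222)) (XT.lf (nat_lit 76) (nat_lit 294390862) (nat_lit 0) (nat_lit 469696497) (nat_lit 1900) (nat_lit 18944045891) (nat_lit 498) (nat_lit 5) (nat_lit 497) (nat_lit 3) (nat_lit 522) (nat_lit 5) (nat_lit 460) (nat_lit 459) (nat_lit 221)))) (XT.nd (nat_lit 78) (nat_lit 0) (nat_lit 0) (XT.lf (nat_lit 0) (nat_lit 1070518569) (nat_lit 1824) (nat_lit 9585519796) (nat_lit 1900) (nat_lit 9245153223) (nat_lit 498) (nat_lit 5) (nat_lit 522) (nat_lit 5) (nat_lit 523) (nat_lit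 5) (nat_lit 461) (nat_lit 459) (nat_lit 220)) (XT.nd (nat_lit 78) (nat_lit 0) (nat_lit 76) (XT.lf (nat_lit 76) (nat_lit 439486187) (nat_lit 0) (nat_lit 945047174) (nat_lit 1900) (nat_lit 18713548634) (nat_lit 499) (nat_lit 5) (nat_lit 498) (nat_lit 5) (nat_lit 523) (nat_lit 5) (nat_lit 462) (nat_lit 459) (nat_lit 219)) (XT.lf (nat_lit 0) (nat_lit 1823330407) (nat_lit 1824) (nat_lit 9563818752) (nat_lit 1900) (nat_lit 8909391011) (nat_lit 499) (nat_lit 5) (nat_lit 523) (nat_lit 5) (nat_lit 524) (nat_lit 5) (nat_lit 463) (nat_lit 459) (nat_lit 218))))))))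
noncomputable def xc252 : XT := (XT.nd (nat_lit 59124) (nat_lit 0) (nat_lit 1064) (XT.nd (nat_lit 780) (nat_lit 1216) (nat_lit 0) (XT.nd (nat_lit 390) (nat_lit 0) (nat_lit 228) (XT.nd (nat_lit 156) (nat_lit 0) (nat_lit 76) (XT.nd (nat_lit 78) (nat_lit 0) (nat_lit 76) (XT.lf (nat_lit 76) (nat_lit 733747662) (nat_lit 0) (nat_lit 1543841791) (nat_lit 1900) (nat_lit 18221244335) (nat_lit 500) (nat_lit 5) (nat_lit 499) (nat_lit 5) (nat_lit 524) (nat_lit 5) (nat_lit 464) (nat_lit 459) (nat_lit 217)) (XT.lf (nat_lit 0) (nat_lit 2856445136) (nat_lit 1824) (nat_lit 9395124757) (nat_lit 1900) (nat_lit 8451293156) (nat_lit 500) (nat_lit 5) (nat_lit 524) (nat_lit 5) (nat_lit 525) (nat_lit 5) (nat_lit 465) (nat_lit 459) (nat_lit 216))) (XT.nd (nat_lit 78) (nat_lit 0) (nat_lit 76) (XT.lf (nat_lit 76) (nat_lit 1185052240) (nat_lit 0) (nat_lit 2275571754) (nat_lit 1900) (nat_lit 17450073981) (nat_lit 501) (nat_lit 5) (nat_lit 500) (nat_lit 5) (nat_lit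 525) (nat_lit 5) (nat_lit 466) (nat_lit 459) (nat_lit 215)) (XT.nd (nat_lit 78) (nat_lit 0) (nat_lit 0) (XT.lf (nat_lit 0) (nat_lit 4187545878) (nat_lit 1824) (nat_lit 9071529577) (nat_lit 1900) (nat_lit 7861400956) (nat_lit 501) (nat_lit 5) (nat_lit 525) (nat_lit 5) (nat_lit 526) (nat_lit 5) (nat_lit 467) (nat_lit 459) (nat_lit 214)) (XT.lf (nat_lit 76) (nat_lit 1801701221) (nat_lit 0) (nat_lit 3150057139) (nat_lit 1900) (nat_lit 16382237010) (nat_lit 502) (nat_lit 5) (nat_lit 501) (nat_lit 5) (nat_lit 526) (nat_lit 5) (nat_lit 468) (nat_lit 459) (nat_lit 213))))) (XT.nd (nat_lit 156) (nat_lit 0) (nat_lit 76) (XT.nd (nat_lit 78) (nat_lit 0) (nat_lit 0) (XT.lf (nat_lit 0) (nat_lit 5835083973) (nat_lit 1824) (nat_lit 8584700744) (nat_lit 1900) (nat_lit 7129923415) (nat_lit 502) (nat_lit 5) (nat_lit 526) (nat_lit 5) (nat_lit 527) (nat_lit 5) (nat_lit 469) (nat_lit 459) (nat_lit 212)) (XT.lf (nat_lit 76) (nat_lit 2592435331) (nat_lit 0)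 (nat_lit 4177467328) (nat_lit 1900) (nat_lit 14999155959) (nat_lit 503) (nat_lit 5) (nat_lit 502) (nat_lit 5) (nat_lit 527) (nat_lit 5) (nat_lit 470) (nat_lit 459) (nat_lit 211))) (XT.nd (nat_lit 78) (nat_lit 0) (nat_lit 0) (XT.lf (nat_lit 0) (nat_lit 7818315227) (nat_lit 1824) (nat_lit 7925866299) (nat_lit 1900) (nat_lit 6246716638) (nat_lit 503) (nat_lit 5) (nat_lit 527) (nat_lit 5) (nat_lit 528) (nat_lit 5) (nat_lit 471) (nat_lit 459) (nat_lit 210)) (XT.nd (nat_lit 78) (nat_lit 0) (nat_lit 76) (XT.lf (nat_lit 76) (nat_lit 3566450604) (nat_lit 0) (nat_lit 5368342148) (nat_lit 1900) (nat_lit 13281439813) (nat_lit 504) (nat_lit 5) (nat_lit 503) (nat_lit 5) (nat_lit 528) (nat_lit 5) (nat_lit 472) (nat_lit 459) (nat_lit 209)) (XT.lf (nat_lit 0) (nat_lit 10157337483) (nat_lit 1824) (nat_lit 7085798712) (nat_lit 1900) (nat_lit 5201262708) (nat_lit 504) (nat_lit 5) (nat_lit 528) (nat_lit 5) (nat_lit 529) (nat_lit 5) (nat_lit 473) (nat_lit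 459) (nat_lit 208)))))) (XT.nd (nat_lit 390) (nat_lit 1596) (nat_lit 0) (XT.nd (nat_lit 156) (nat_lit 0) (nat_lit 76) (XT.nd (nat_lit 78) (nat_lit 0) (nat_lit 76) (XT.lf (nat_lit 76) (nat_lit 4733415112) (nat_lit 0) (nat_lit 6733613534) (nat_lit 1900) (nat_lit 11208846010) (nat_lit 505) (nat_lit 5) (nat_lit 504) (nat_lit 5) (nat_lit 529) (nat_lit 5) (nat_lit 474) (nat_lit 459) (nat_lit 207)) (XT.lf (nat_lit 0) (nat_lit 12873129590) (nat_lit 1824) (nat_lit 6054797983) (nat_lit 1900) (nat_lit 3982648032) (nat_lit 505) (nat_lit 5) (nat_lit 529) (nat_lit 5) (nat_lit 530) (nat_lit 5) (nat_lit 475) (nat_lit 459) (nat_lit 206))) (XT.nd (nat_lit 78) (nat_lit 0) (nat_lit 76) (XT.lf (nat_lit 76) (nat_lit 6103486540) (nat_lit 0) (nat_lit 8284627771) (nat_lit 1900) (nat_lit 8760241027) (nat_lit 506) (nat_lit 5) (nat_lit 505) (nat_lit 5) (nat_lit 530) (nat_lit 5) (nat_lit 476) (nat_lit 459) (nat_lit 205)) (XT.nd (nat_lit 78) (nat_lit 0) (nat_lit 0)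 (XT.lf (nat_lit 0) (nat_lit 15987591846) (nat_lit 1824) (nat_lit 4822673865) (nat_lit 1900) (nat_lit 2579541093) (nat_lit 506) (nat_lit 5) (nat_lit 530) (nat_lit 5) (nat_lit 531) (nat_lit 5) (nat_lit 477) (nat_lit 459) (nat_lit 204)) (XT.lf (nat_lit 76) (nat_lit 7687330663) (nat_lit 0) (nat_lit 10033168352) (nat_lit 1900) (nat_lit 5913559482) (nat_lit 507) (nat_lit 5) (nat_lit 506) (nat_lit 5) (nat_lit 531) (nat_lit 5) (nat_lit 478) (nat_lit 459) (nat_lit 203))))) (XT.nd (nat_lit 156) (nat_lit 1824) (nat_lit 0) (XT.nd (nat_lit 78) (nat_lit 0) (nat_lit 0) (XT.lf (nat_lit 0) (nat_lit 19523587956) (nat_lit 1824) (nat_lit 3378727214) (nat_lit 1900) (nat_lit 980169581) (nat_lit 507) (nat_lit 5) (nat_lit 531) (nat_lit 5) (nat_lit 532) (nat_lit 5) (nat_lit 479) (nat_lit 459) (nat_lit 202)) (XT.lf (nat_lit 76) (nat_lit 9496140723) (nat_lit 0) (nat_lit 11991479493) (nat_lit 1900) (nat_lit 2645761684) (nat_lit 508) (nat_lit 5) (nat_lit 507) (nat_lit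 5) (nat_lit 532) (nat_lit 5) (nat_lit 480) (nat_lit 459) (nat_lit 201))) (XT.nd (nat_lit 78) (nat_lit 1824) (nat_lit 0) (XT.lf (nat_lit 76) (nat_lit 22671731140) (nat_lit 0) (nat_lit 838702887) (nat_lit 1900) (nat_lit 878472946) (nat_lit 508) (nat_lit 5) (nat_lit 507) (nat_lit 5) (nat_lit 532) (nat_lit 5) (nat_lit 481) (nat_lit 459) (nat_lit 200)) (XT.nd (nat_lit 57642) (nat_lit 0) (nat_lit 1064) (XT.lf (nat_lit 0) (nat_lit 1053213788) (nat_lit 1900) (nat_lit 13112008946) (nat_lit 1976) (nat_lit 10481376352) (nat_lit 483) (nat_lit 5) (nat_lit 508) (nat_lit 5) (nat_lit 509) (nat_lit 5) (nat_lit 482) (nat_lit 459) (nat_lit 199)) (XT.lf (nat_lit 0) (nat_lit 470507904) (nat_lit 1900) (nat_lit 4739715052) (nat_lit 1900) (nat_lit 4739715052) (nat_lit 497) (nat_lit 3) (nat_lit 522) (nat_lit 3) (nat_lit 522) (nat_lit 5) (nat_lit 460) (nat_lit 460) (nat_lit 220))))))) (XT.nd (nat_lit 780) (nat_lit 0) (nat_lit 380) (XT.nd (nat_lit 390) (nat_lit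 0) (nat_lit 228) (XT.nd (nat_lit 156) (nat_lit 0) (nat_lit 76) (XT.nd (nat_lit 78) (nat_lit 0) (nat_lit 76) (XT.lf (nat_lit 76) (nat_lit 476760707) (nat_lit 0) (nat_lit 645259010) (nat_lit 1900) (nat_lit 18973423185) (nat_lit 498) (nat_lit 5) (nat_lit 497) (nat_lit 3) (nat_lit 522) (nat_lit 5) (nat_lit 461) (nat_lit 460) (nat_lit 219)) (XT.lf (nat_lit 0) (nat_lit 1426803190) (nat_lit 1824) (nat_lit 9596432234) (nat_lit 1900) (nat_lit 9269282511) (nat_lit 498) (nat_lit 5) (nat_lit 522) (nat_lit 5) (nat_lit 523) (nat_lit 5) (nat_lit 462) (nat_lit 460) (nat_lit 218))) (XT.nd (nat_lit 78) (nat_lit 0) (nat_lit 76) (XT.lf (nat_lit 76) (nat_lit 627884408) (nat_lit 0) (nat_lit 1113813846) (nat_lit 1900) (nat_lit 18751755897) (nat_lit 499) (nat_lit 5) (nat_lit 498) (nat_lit 5) (nat_lit 523) (nat_lit 5) (nat_lit 463) (nat_lit 460) (nat_lit 217)) (XT.nd (nat_lit 78) (nat_lit 0) (nat_lit 0) (XT.lf (nat_lit 0) (nat_lit 2181857014) (nat_lit 1824) (nat_lit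 9571594138) (nat_lit 1900) (nat_lit 8942578623) (nat_lit 499) (nat_lit 5) (nat_lit 523) (nat_lit 5) (nat_lit 524) (nat_lit 5) (nat_lit 464) (nat_lit 460) (nat_lit 216)) (XT.lf (nat_lit 76) (nat_lit 930716362) (nat_lit 0) (nat_lit 1709353548) (nat_lit 1900) (nat_lit 18262401981) (nat_lit 500) (nat_lit 5) (nat_lit 499) (nat_lit 5) (nat_lit 524) (nat_lit 5) (nat_lit 465) (nat_lit 460) (nat_lit 215))))) (XT.nd (nat_lit 156) (nat_lit 0) (nat_lit 76) (XT.nd (nat_lit 78) (nat_lit 0) (nat_lit 0) (XT.lf (nat_lit 0) (nat_lit 3223431420) (nat_lit 1824) (nat_lit 9397236607) (nat_lit 1900) (nat_lit 8490055137) (nat_lit 500) (nat_lit 5) (nat_lit 524) (nat_lit 5) (nat_lit 525) (nat_lit 5) (nat_lit 466) (nat_lit 460) (nat_lit 214)) (XT.lf (nat_lit 76) (nat_lit 1393321624) (nat_lit 0) (nat_lit 2441494937) (nat_lit 1900) (nat_lit 17487995772) (nat_lit 501) (nat_lit 5) (nat_lit 500) (nat_lit 5) (nat_lit 525) (nat_lit 5) (nat_lit 467) (nat_lit 460) (nat_lit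 213))) (XT.nd (nat_lit 78) (nat_lit 0) (nat_lit 0) (XT.lf (nat_lit 0) (nat_lit 4569530416) (nat_lit 1824) (nat_lit 9065264351) (nat_lit 1900) (nat_lit 7902126499) (nat_lit 501) (nat_lit 5) (nat_lit 525) (nat_lit 5) (nat_lit 526) (nat_lit 5) (nat_lit 468) (nat_lit 460) (nat_lit 212)) (XT.nd (nat_lit 78) (nat_lit 0) (nat_lit 76) (XT.lf (nat_lit 76) (nat_lit 2024196222) (nat_lit 0) (nat_lit 3320193837) (nat_lit 1900) (nat_lit 16410413289) (nat_lit 502) (nat_lit 5) (nat_lit 501) (nat_lit 5) (nat_lit 526) (nat_lit 5) (nat_lit 469) (nat_lit 460) (nat_lit 211)) (XT.lf (nat_lit 0) (nat_lit 6238943433) (nat_lit 1824) (nat_lit 8567151129) (nat_lit 1900) (nat_lit 7168864577) (nat_lit 502) (nat_lit 5) (nat_lit 526) (nat_lit 5) (nat_lit 527) (nat_lit 5) (nat_lit 470) (nat_lit 460) (nat_lit 210)))))) (XT.nd (nat_lit 390) (nat_lit 0) (nat_lit 228) (XT.nd (nat_lit 156) (nat_lit 0) (nat_lit 76) (XT.nd (nat_lit 78) (nat_lit 0) (nat_lit 76) (XT.lf (nat_lit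 76) (nat_lit 2832282643) (nat_lit 0) (nat_lit 4355765917) (nat_lit 1900) (nat_lit 15010736274) (nat_lit 503) (nat_lit 5) (nat_lit 502) (nat_lit 5) (nat_lit 527) (nat_lit 5) (nat_lit 471) (nat_lit 460) (nat_lit 209)) (XT.lf (nat_lit 0) (nat_lit 8251282191) (nat_lit 1824) (nat_lit 7893924078) (nat_lit 1900) (nat_lit 6279977845) (nat_lit 503) (nat_lit 5) (nat_lit 527) (nat_lit 5) (nat_lit 528) (nat_lit 5) (nat_lit 472) (nat_lit 460) (nat_lit 208))) (XT.nd (nat_lit 78) (nat_lit 0) (nat_lit 76) (XT.lf (nat_lit 76) (nat_lit 3826986140) (nat_lit 0) (nat_lit 5558908039) (nat_lit 1900) (nat_lit 13269214927) (nat_lit 504) (nat_lit 5) (nat_lit 503) (nat_lit 5) (nat_lit 528) (nat_lit 5) (nat_lit 473) (nat_lit 460) (nat_lit 207)) (XT.nd (nat_lit 78) (nat_lit 0) (nat_lit 0) (XT.lf (nat_lit 0) (nat_lit 10627018926) (nat_lit 1824) (nat_lit 7036147218) (nat_lit 1900) (nat_lit 5224790044) (nat_lit 504) (nat_lit 5) (nat_lit 528) (nat_lit 5) (nat_lit 529)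 (nat_lit 5) (nat_lit 474) (nat_lit 460) (nat_lit 206)) (XT.lf (nat_lit 76) (nat_lit 5018191887) (nat_lit 0) (nat_lit 6940720166) (nat_lit 1900) (nat_lit 11165229240) (nat_lit 505) (nat_lit 5) (nat_lit 504) (nat_lit 5) (nat_lit 529) (nat_lit 5) (nat_lit 475) (nat_lit 460) (nat_lit 205))))) (XT.nd (nat_lit 234) (nat_lit 0) (nat_lit 76) (XT.nd (nat_lit 78) (nat_lit 0) (nat_lit 0) (XT.lf (nat_lit 0) (nat_lit 13387526047) (nat_lit 1824) (nat_lit 5983904118) (nat_lit 1900) (nat_lit 3992218275) (nat_lit 505) (nat_lit 5) (nat_lit 529) (nat_lit 5) (nat_lit 530) (nat_lit 5) (nat_lit 476) (nat_lit 460) (nat_lit 204)) (XT.nd (nat_lit 78) (nat_lit 0) (nat_lit 76) (XT.lf (nat_lit 76) (nat_lit 6416283005) (nat_lit 0) (nat_lit 8512727863) (nat_lit 1900) (nat_lit 8677248892) (nat_lit 506) (nat_lit 5) (nat_lit 505) (nat_lit 5) (nat_lit 530) (nat_lit 5) (nat_lit 477) (nat_lit 460) (nat_lit 203)) (XT.lf (nat_lit 0) (nat_lit 16555117289) (nat_lit 1824) (nat_lit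 4726779685) (nat_lit 1900) (nat_lit 2570750493) (nat_lit 506) (nat_lit 5) (nat_lit 530) (nat_lit 5) (nat_lit 531) (nat_lit 5) (nat_lit 478) (nat_lit 460) (nat_lit 202)))) (XT.nd (nat_lit 78) (nat_lit 0) (nat_lit 76) (XT.lf (nat_lit 76) (nat_lit 8032159488) (nat_lit 0) (nat_lit 10286905441) (nat_lit 1900) (nat_lit 5782791620) (nat_lit 507) (nat_lit 5) (nat_lit 506) (nat_lit 5) (nat_lit 531) (nat_lit 5) (nat_lit 479) (nat_lit 460) (nat_lit 201)) (XT.nd (nat_lit 78) (nat_lit 0) (nat_lit 0) (XT.lf (nat_lit 0) (nat_lit 20153090444) (nat_lit 1824) (nat_lit 3253841052) (nat_lit 1900) (nat_lit 948422336) (nat_lit 507) (nat_lit 5) (nat_lit 531) (nat_lit 5) (nat_lit 532) (nat_lit 5) (nat_lit 480) (nat_lit 460) (nat_lit 200)) (XT.lf (nat_lit 76) (nat_lit 9877258055) (nat_lit 0) (nat_lit 12275699779) (nat_lit 1900) (nat_lit 2458380000) (nat_lit 508) (nat_lit 5) (nat_lit 507) (nat_lit 5) (nat_lit 532) (nat_lit 5) (nat_lit 481) (nat_lit 460) (nat_lit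 199))))))))
noncomputable def xc253 : XT := (XT.nd (nat_lit 59514) (nat_lit 0) (nat_lit 0) (XT.nd (nat_lit 780) (nat_lit 0) (nat_lit 0) (XT.nd (nat_lit 390) (nat_lit 0) (nat_lit 152) (XT.nd (nat_lit 156) (nat_lit 0) (nat_lit 76) (XT.nd (nat_lit 78) (nat_lit 0) (nat_lit 0) (XT.lf (nat_lit 0) (nat_lit 647322363) (nat_lit 1900) (nat_lit 4749133159) (nat_lit 1900) (nat_lit 4749133159) (nat_lit 497) (nat_lit 3) (nat_lit 522) (nat_lit 3) (nat_lit 522) (nat_lit 5) (nat_lit 461) (nat_lit 461) (nat_lit 218)) (XT.lf (nat_lit 76) (nat_lit 655924937) (nat_lit 0) (nat_lit 817880245) (nat_lit 1900) (nat_lit 19016959676) (nat_lit 498) (nat_lit 5) (nat_lit 497) (nat_lit 3) (nat_lit 522) (nat_lit 5) (nat_lit 462) (nat_lit 461) (nat_lit 217))) (XT.nd (nat_lit 78) (nat_lit 0) (nat_lit 0) (XT.lf (nat_lit 0) (nat_lit 1777209929) (nat_lit 1824) (nat_lit 9614583527) (nat_lit 1900) (nat_lit 9300137425) (nat_lit 498) (nat_lit 5) (nat_lit 522) (nat_lit 5) (nat_lit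 523) (nat_lit 5) (nat_lit 463) (nat_lit 461) (nat_lit 216)) (XT.nd (nat_lit 78) (nat_lit 0) (nat_lit 76) (XT.lf (nat_lit 76) (nat_lit 813076176) (nat_lit 0) (nat_lit 1280136382) (nat_lit 1900) (nat_lit 18803777068) (nat_lit 499) (nat_lit 5) (nat_lit 498) (nat_lit 5) (nat_lit 523) (nat_lit 5) (nat_lit 464) (nat_lit 461) (nat_lit 215)) (XT.lf (nat_lit 0) (nat_lit 2535048170) (nat_lit 1824) (nat_lit 9586650598) (nat_lit 1900) (nat_lit 8982060522) (nat_lit 499) (nat_lit 5) (nat_lit 523) (nat_lit 5) (nat_lit 524) (nat_lit 5) (nat_lit 465) (nat_lit 461) (nat_lit 214))))) (XT.nd (nat_lit 156) (nat_lit 0) (nat_lit 76) (XT.nd (nat_lit 78) (nat_lit 0) (nat_lit 76) (XT.lf (nat_lit 76) (nat_lit 1124545747) (nat_lit 0) (nat_lit 1872947503) (nat_lit 1900) (nat_lit 18316935640) (nat_lit 500) (nat_lit 5) (nat_lit 499) (nat_lit 5) (nat_lit 524) (nat_lit 5) (nat_lit 466) (nat_lit 461) (nat_lit 213)) (XT.lf (nat_lit 0) (nat_lit 3585725290) (nat_lit 1824)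 (nat_lit 9406605170) (nat_lit 1900) (nat_lit 8534650662) (nat_lit 500) (nat_lit 5) (nat_lit 524) (nat_lit 5) (nat_lit 525) (nat_lit 5) (nat_lit 467) (nat_lit 461) (nat_lit 212))) (XT.nd (nat_lit 78) (nat_lit 0) (nat_lit 76) (XT.lf (nat_lit 76) (nat_lit 1598589382) (nat_lit 0) (nat_lit 2606060847) (nat_lit 1900) (nat_lit 17538755603) (nat_lit 501) (nat_lit 5) (nat_lit 500) (nat_lit 5) (nat_lit 525) (nat_lit 5) (nat_lit 468) (nat_lit 461) (nat_lit 211)) (XT.nd (nat_lit 78) (nat_lit 0) (nat_lit 0) (XT.lf (nat_lit 0) (nat_lit 4947573870) (nat_lit 1824) (nat_lit 9066162278) (nat_lit 1900) (nat_lit 7948190486) (nat_lit 501) (nat_lit 5) (nat_lit 525) (nat_lit 5) (nat_lit 526) (nat_lit 5) (nat_lit 469) (nat_lit 461) (nat_lit 210)) (XT.lf (nat_lit 76) (nat_lit 2243900616) (nat_lit 0) (nat_lit 3489573064) (nat_lit 1900) (nat_lit 16450781818) (nat_lit 502) (nat_lit 5) (nat_lit 501) (nat_lit 5) (nat_lit 526) (nat_lit 5) (nat_lit 470) (nat_lit 461)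 (nat_lit 209)))))) (XT.nd (nat_lit 390) (nat_lit 380) (nat_lit 0) (XT.nd (nat_lit 156) (nat_lit 0) (nat_lit 76) (XT.nd (nat_lit 78) (nat_lit 0) (nat_lit 0) (XT.lf (nat_lit 0) (nat_lit 6639729395) (nat_lit 1824) (nat_lit 8556599083) (nat_lit 1900) (nat_lit 7212609702) (nat_lit 502) (nat_lit 5) (nat_lit 526) (nat_lit 5) (nat_lit 527) (nat_lit 5) (nat_lit 471) (nat_lit 461) (nat_lit 208)) (XT.lf (nat_lit 76) (nat_lit 3069626687) (nat_lit 0) (nat_lit 4533951248) (nat_lit 1900) (nat_lit 15033747228) (nat_lit 503) (nat_lit 5) (nat_lit 502) (nat_lit 5) (nat_lit 527) (nat_lit 5) (nat_lit 472) (nat_lit 461) (nat_lit 207))) (XT.nd (nat_lit 78) (nat_lit 0) (nat_lit 0) (XT.lf (nat_lit 0) (nat_lit 8682167753) (nat_lit 1824) (nat_lit 7868738789) (nat_lit 1900) (nat_lit 6317464056) (nat_lit 503) (nat_lit 5) (nat_lit 527) (nat_lit 5) (nat_lit 528) (nat_lit 5) (nat_lit 473) (nat_lit 461) (nat_lit 206)) (XT.nd (nat_lit 78) (nat_lit 0) (nat_lit 76) (XT.lf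 (nat_lit 76) (nat_lit 4085385266) (nat_lit 0) (nat_lit 5750054527) (nat_lit 1900) (nat_lit 13267534940) (nat_lit 504) (nat_lit 5) (nat_lit 503) (nat_lit 5) (nat_lit 528) (nat_lit 5) (nat_lit 474) (nat_lit 461) (nat_lit 205)) (XT.lf (nat_lit 0) (nat_lit 11095744132) (nat_lit 1824) (nat_lit 6992933725) (nat_lit 1900) (nat_lit 5251913758) (nat_lit 504) (nat_lit 5) (nat_lit 528) (nat_lit 5) (nat_lit 529) (nat_lit 5) (nat_lit 475) (nat_lit 461) (nat_lit 204))))) (XT.nd (nat_lit 234) (nat_lit 532) (nat_lit 0) (XT.nd (nat_lit 78) (nat_lit 0) (nat_lit 76) (XT.lf (nat_lit 76) (nat_lit 5301282053) (nat_lit 0) (nat_lit 7149156217) (nat_lit 1900) (nat_lit 11131138890) (nat_lit 505) (nat_lit 5) (nat_lit 504) (nat_lit 5) (nat_lit 529) (nat_lit 5) (nat_lit 476) (nat_lit 461) (nat_lit 203)) (XT.nd (nat_lit 78) (nat_lit 0) (nat_lit 0) (XT.lf (nat_lit 0) (nat_lit 13902233377) (nat_lit 1824) (nat_lit 5919047575) (nat_lit 1900) (nat_lit 4004701321) (nat_lit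 505) (nat_lit 5) (nat_lit 529) (nat_lit 5) (nat_lit 530) (nat_lit 5) (nat_lit 477) (nat_lit 461) (nat_lit 202)) (XT.lf (nat_lit 76) (nat_lit 6727929247) (nat_lit 0) (nat_lit 8742966597) (nat_lit 1900) (nat_lit 8602623017) (nat_lit 506) (nat_lit 5) (nat_lit 505) (nat_lit 5) (nat_lit 530) (nat_lit 5) (nat_lit 478) (nat_lit 461) (nat_lit 201)))) (XT.nd (nat_lit 78) (nat_lit 684) (nat_lit 0) (XT.lf (nat_lit 0) (nat_lit 17124371891) (nat_lit 1824) (nat_lit 4636436716) (nat_lit 1900) (nat_lit 2564128765) (nat_lit 506) (nat_lit 5) (nat_lit 530) (nat_lit 5) (nat_lit 531) (nat_lit 5) (nat_lit 479) (nat_lit 461) (nat_lit 200)) (XT.nd (nat_lit 57954) (nat_lit 684) (nat_lit 0) (XT.lf (nat_lit 76) (nat_lit 8376464934) (nat_lit 0) (nat_lit 10543656354) (nat_lit 1900) (nat_lit 5659078890) (nat_lit 507) (nat_lit 5) (nat_lit 506) (nat_lit 5) (nat_lit 531) (nat_lit 5) (nat_lit 480) (nat_lit 461) (nat_lit 199)) (XT.lf (nat_lit 0) (nat_lit 821172598) (nat_lit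 1900) (nat_lit 4762054891) (nat_lit 1900) (nat_lit 4762054891) (nat_lit 497) (nat_lit 3) (nat_lit 522) (nat_lit 3) (nat_lit 522) (nat_lit 5) (nat_lit 462) (nat_lit 462) (nat_lit 216))))))) (XT.nd (nat_lit 780) (nat_lit 0) (nat_lit 0) (XT.nd (nat_lit 390) (nat_lit 0) (nat_lit 228) (XT.nd (nat_lit 156) (nat_lit 0) (nat_lit 76) (XT.nd (nat_lit 78) (nat_lit 0) (nat_lit 76) (XT.lf (nat_lit 76) (nat_lit 832085550) (nat_lit 0) (nat_lit 987751936) (nat_lit 1900) (nat_lit 19074411546) (nat_lit 498) (nat_lit 5) (nat_lit 497) (nat_lit 3) (nat_lit 522) (nat_lit 5) (nat_lit 463) (nat_lit 462) (nat_lit 215)) (XT.lf (nat_lit 0) (nat_lit 2122126171) (nat_lit 1824) (nat_lit 9639845831) (nat_lit 1900) (nat_lit 9337610055) (nat_lit 498) (nat_lit 5) (nat_lit 522) (nat_lit 5) (nat_lit 523) (nat_lit 5) (nat_lit 464) (nat_lit 462) (nat_lit 214))) (XT.nd (nat_lit 78) (nat_lit 0) (nat_lit 76) (XT.lf (nat_lit 76) (nat_lit 995268189) (nat_lit 0) (nat_lit 1444191878)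 (nat_lit 1900) (nat_lit 18869381688) (nat_lit 499) (nat_lit 5) (nat_lit 498) (nat_lit 5) (nat_lit 523) (nat_lit 5) (nat_lit 465) (nat_lit 462) (nat_lit 213)) (XT.nd (nat_lit 78) (nat_lit 0) (nat_lit 0) (XT.lf (nat_lit 0) (nat_lit 2883282789) (nat_lit 1824) (nat_lit 9608857060) (nat_lit 1900) (nat_lit 9027743953) (nat_lit 499) (nat_lit 5) (nat_lit 523) (nat_lit 5) (nat_lit 524) (nat_lit 5) (nat_lit 466) (nat_lit 462) (nat_lit 212)) (XT.lf (nat_lit 76) (nat_lit 1315447906) (nat_lit 0) (nat_lit 2034788309) (nat_lit 1900) (nat_lit 18384625391) (nat_lit 500) (nat_lit 5) (nat_lit 499) (nat_lit 5) (nat_lit 524) (nat_lit 5) (nat_lit 467) (nat_lit 462) (nat_lit 211))))) (XT.nd (nat_lit 156) (nat_lit 0) (nat_lit 76) (XT.nd (nat_lit 78) (nat_lit 0) (nat_lit 0) (XT.lf (nat_lit 0) (nat_lit 3943700120) (nat_lit 1824) (nat_lit 9423095435) (nat_lit 1900) (nat_lit 8584999983) (nat_lit 500) (nat_lit 5) (nat_lit 524) (nat_lit 5) (nat_lit 525) (nat_lit 5)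 (nat_lit 468) (nat_lit 462) (nat_lit 210)) (XT.lf (nat_lit 76) (nat_lit 1801073786) (nat_lit 0) (nat_lit 2769423906) (nat_lit 1900) (nat_lit 17602141169) (nat_lit 501) (nat_lit 5) (nat_lit 500) (nat_lit 5) (nat_lit 525) (nat_lit 5) (nat_lit 469) (nat_lit 462) (nat_lit 209))) (XT.nd (nat_lit 78) (nat_lit 0) (nat_lit 0) (XT.lf (nat_lit 0) (nat_lit 5322047114) (nat_lit 1824) (nat_lit 9074083601) (nat_lit 1900) (nat_lit 7999524017) (nat_lit 501) (nat_lit 5) (nat_lit 525) (nat_lit 5) (nat_lit 526) (nat_lit 5) (nat_lit 470) (nat_lit 462) (nat_lit 208)) (XT.nd (nat_lit 78) (nat_lit 0) (nat_lit 76) (XT.lf (nat_lit 76) (nat_lit 2461039749) (nat_lit 0) (nat_lit 3658341217) (nat_lit 1900) (nat_lit 16503134886) (nat_lit 502) (nat_lit 5) (nat_lit 501) (nat_lit 5) (nat_lit 526) (nat_lit 5) (nat_lit 471) (nat_lit 462) (nat_lit 207)) (XT.lf (nat_lit 0) (nat_lit 7037813385) (nat_lit 1824) (nat_lit 8552899203) (nat_lit 1900) (nat_lit 7261098568) (nat_lit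 502) (nat_lit 5) (nat_lit 526) (nat_lit 5) (nat_lit 527) (nat_lit 5) (nat_lit 472) (nat_lit 462) (nat_lit 206)))))) (XT.nd (nat_lit 390) (nat_lit 380) (nat_lit 0) (XT.nd (nat_lit 156) (nat_lit 0) (nat_lit 76) (XT.nd (nat_lit 78) (nat_lit 0) (nat_lit 76) (XT.lf (nat_lit 76) (nat_lit 3304700873) (nat_lit 0) (nat_lit 4712163926) (nat_lit 1900) (nat_lit 15067982560) (nat_lit 503) (nat_lit 5) (nat_lit 502) (nat_lit 5) (nat_lit 527) (nat_lit 5) (nat_lit 473) (nat_lit 462) (nat_lit 205)) (XT.lf (nat_lit 0) (nat_lit 9111347362) (nat_lit 1824) (nat_lit 7850158384) (nat_lit 1900) (nat_lit 6359121539) (nat_lit 503) (nat_lit 5) (nat_lit 527) (nat_lit 5) (nat_lit 528) (nat_lit 5) (nat_lit 474) (nat_lit 462) (nat_lit 204))) (XT.nd (nat_lit 78) (nat_lit 0) (nat_lit 76) (XT.lf (nat_lit 76) (nat_lit 4341890553) (nat_lit 0) (nat_lit 5941918678) (nat_lit 1900) (nat_lit 13276191785) (nat_lit 504) (nat_lit 5) (nat_lit 503) (nat_lit 5) (nat_lit 528) (nat_lit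 5) (nat_lit 475) (nat_lit 462) (nat_lit 203)) (XT.nd (nat_lit 78) (nat_lit 0) (nat_lit 0) (XT.lf (nat_lit 0) (nat_lit 11563895872) (nat_lit 1824) (nat_lit 6955998439) (nat_lit 1900) (nat_lit 5282584399) (nat_lit 504) (nat_lit 5) (nat_lit 528) (nat_lit 5) (nat_lit 529) (nat_lit 5) (nat_lit 476) (nat_lit 462) (nat_lit 202)) (XT.lf (nat_lit 76) (nat_lit 5582938537) (nat_lit 0) (nat_lit 7359057494) (nat_lit 1900) (nat_lit 11106361692) (nat_lit 505) (nat_lit 5) (nat_lit 504) (nat_lit 5) (nat_lit 529) (nat_lit 5) (nat_lit 477) (nat_lit 462) (nat_lit 201))))) (XT.nd (nat_lit 58188) (nat_lit 608) (nat_lit 0) (XT.nd (nat_lit 78) (nat_lit 0) (nat_lit 0) (XT.lf (nat_lit 0) (nat_lit 14417645220) (nat_lit 1824) (nat_lit 5860059606) (nat_lit 1900) (nat_lit 4020049749) (nat_lit 505) (nat_lit 5) (nat_lit 529) (nat_lit 5) (nat_lit 530) (nat_lit 5) (nat_lit 478) (nat_lit 462) (nat_lit 200)) (XT.nd (nat_lit 78) (nat_lit 0) (nat_lit 76) (XT.lf (nat_lit 76)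 (nat_lit 7038689852) (nat_lit 0) (nat_lit 8975480846) (nat_lit 1900) (nat_lit 8536141401) (nat_lit 506) (nat_lit 5) (nat_lit 505) (nat_lit 5) (nat_lit 530) (nat_lit 5) (nat_lit 479) (nat_lit 462) (nat_lit 199)) (XT.lf (nat_lit 0) (nat_lit 17695763842) (nat_lit 1824) (nat_lit 4551465948) (nat_lit 1900) (nat_lit 2559628240) (nat_lit 506) (nat_lit 5) (nat_lit 530) (nat_lit 5) (nat_lit 531) (nat_lit 5) (nat_lit 480) (nat_lit 462) (nat_lit 198)))) (XT.nd (nat_lit 78) (nat_lit 0) (nat_lit 0) (XT.lf (nat_lit 0) (nat_lit 992251747) (nat_lit 1900) (nat_lit 4778421583) (nat_lit 1900) (nat_lit 4778421583) (nat_lit 497) (nat_lit 3) (nat_lit 522) (nat_lit 3) (nat_lit 522) (nat_lit 5) (nat_lit 463) (nat_lit 463) (nat_lit 214)) (XT.nd (nat_lit 78) (nat_lit 0) (nat_lit 76) (XT.lf (nat_lit 76) (nat_lit 1005438251) (nat_lit 0) (nat_lit 1155059922) (nat_lit 1900) (nat_lit 19145550561) (nat_lit 498) (nat_lit 5) (nat_lit 497) (nat_lit 3) (nat_lit 522) (nat_lit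 5) (nat_lit 464) (nat_lit 463) (nat_lit 213)) (XT.lf (nat_lit 0) (nat_lit 2461927445) (nat_lit 1824) (nat_lit 9672099335) (nat_lit 1900) (nat_lit 9381599743) (nat_lit 498) (nat_lit 5) (nat_lit 522) (nat_lit 5) (nat_lit 523) (nat_lit 5) (nat_lit 465) (nat_lit 463) (nat_lit 212))))))))
noncomputable def xc254 : XT := (XT.nd (nat_lit 59670) (nat_lit 0) (nat_lit 0) (XT.nd (nat_lit 780) (nat_lit 76) (nat_lit 0) (XT.nd (nat_lit 390) (nat_lit 0) (nat_lit 228) (XT.nd (nat_lit 156) (nat_lit 0) (nat_lit 76) (XT.nd (nat_lit 78) (nat_lit 0) (nat_lit 76) (XT.lf (nat_lit 76) (nat_lit 1174660758) (nat_lit 0) (nat_lit 1606152193) (nat_lit 1900) (nat_lit 18948354364) (nat_lit 499) (nat_lit 5) (nat_lit 498) (nat_lit 5) (nat_lit 523) (nat_lit 5) (nat_lit 466) (nat_lit 463) (nat_lit 211)) (XT.lf (nat_lit 0) (nat_lit 3226928506) (nat_lit 1824) (nat_lit 9638090573) (nat_lit 1900) (nat_lit 9079542797) (nat_lit 499) (nat_lit 5) (nat_lit 523) (nat_lit 5) (nat_lit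 524) (nat_lit 5) (nat_lit 467) (nat_lit 463) (nat_lit 210))) (XT.nd (nat_lit 78) (nat_lit 0) (nat_lit 76) (XT.lf (nat_lit 76) (nat_lit 1503628494) (nat_lit 0) (nat_lit 2195036033) (nat_lit 1900) (nat_lit 18465265840) (nat_lit 500) (nat_lit 5) (nat_lit 499) (nat_lit 5) (nat_lit 524) (nat_lit 5) (nat_lit 468) (nat_lit 463) (nat_lit 209)) (XT.nd (nat_lit 78) (nat_lit 0) (nat_lit 0) (XT.lf (nat_lit 0) (nat_lit 4297718609) (nat_lit 1824) (nat_lit 9446580567) (nat_lit 1900) (nat_lit 8641029383) (nat_lit 500) (nat_lit 5) (nat_lit 524) (nat_lit 5) (nat_lit 525) (nat_lit 5) (nat_lit 469) (nat_lit 463) (nat_lit 208)) (XT.lf (nat_lit 76) (nat_lit 2000986665) (nat_lit 0) (nat_lit 2931734570) (nat_lit 1900) (nat_lit 17677954131) (nat_lit 501) (nat_lit 5) (nat_lit 500) (nat_lit 5) (nat_lit 525) (nat_lit 5) (nat_lit 470) (nat_lit 463) (nat_lit 207))))) (XT.nd (nat_lit 156) (nat_lit 0) (nat_lit 76) (XT.nd (nat_lit 78) (nat_lit 0) (nat_lit 0) (XT.lf (nat_lit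 0) (nat_lit 5693310977) (nat_lit 1824) (nat_lit 9088896759) (nat_lit 1900) (nat_lit 8056063632) (nat_lit 501) (nat_lit 5) (nat_lit 525) (nat_lit 5) (nat_lit 526) (nat_lit 5) (nat_lit 471) (nat_lit 463) (nat_lit 206)) (XT.lf (nat_lit 76) (nat_lit 2675832555) (nat_lit 0) (nat_lit 3826641348) (nat_lit 1900) (nat_lit 16567278159) (nat_lit 502) (nat_lit 5) (nat_lit 501) (nat_lit 5) (nat_lit 526) (nat_lit 5) (nat_lit 472) (nat_lit 463) (nat_lit 205))) (XT.nd (nat_lit 78) (nat_lit 0) (nat_lit 0) (XT.lf (nat_lit 0) (nat_lit 7433557544) (nat_lit 1824) (nat_lit 8555914260) (nat_lit 1900) (nat_lit 7314275817) (nat_lit 502) (nat_lit 5) (nat_lit 526) (nat_lit 5) (nat_lit 527) (nat_lit 5) (nat_lit 473) (nat_lit 463) (nat_lit 204)) (XT.nd (nat_lit 78) (nat_lit 0) (nat_lit 76) (XT.lf (nat_lit 76) (nat_lit 3537732272) (nat_lit 0) (nat_lit 4890541820) (nat_lit 1900) (nat_lit 15113248775) (nat_lit 503) (nat_lit 5) (nat_lit 502) (nat_lit 5) (nat_lit 527)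 (nat_lit 5) (nat_lit 474) (nat_lit 463) (nat_lit 203)) (XT.lf (nat_lit 0) (nat_lit 9539187779) (nat_lit 1824) (nat_lit 7838038924) (nat_lit 1900) (nat_lit 6404900857) (nat_lit 503) (nat_lit 5) (nat_lit 527) (nat_lit 5) (nat_lit 528) (nat_lit 5) (nat_lit 475) (nat_lit 463) (nat_lit 202)))))) (XT.nd (nat_lit 58500) (nat_lit 0) (nat_lit 0) (XT.nd (nat_lit 156) (nat_lit 456) (nat_lit 0) (XT.nd (nat_lit 78) (nat_lit 0) (nat_lit 76) (XT.lf (nat_lit 76) (nat_lit 4596738342) (nat_lit 0) (nat_lit 6134635425) (nat_lit 1900) (nat_lit 13294989502) (nat_lit 504) (nat_lit 5) (nat_lit 503) (nat_lit 5) (nat_lit 528) (nat_lit 5) (nat_lit 476) (nat_lit 463) (nat_lit 201)) (XT.lf (nat_lit 0) (nat_lit 12031848970) (nat_lit 1824) (nat_lit 6925189572) (nat_lit 1900) (nat_lit 5316756239) (nat_lit 504) (nat_lit 5) (nat_lit 528) (nat_lit 5) (nat_lit 529) (nat_lit 5) (nat_lit 477) (nat_lit 463) (nat_lit 200))) (XT.nd (nat_lit 78) (nat_lit 532) (nat_lit 0) (XT.lf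 (nat_lit 76) (nat_lit 5863408191) (nat_lit 0) (nat_lit 7570558284) (nat_lit 1900) (nat_lit 11090695792) (nat_lit 505) (nat_lit 5) (nat_lit 504) (nat_lit 5) (nat_lit 529) (nat_lit 5) (nat_lit 478) (nat_lit 463) (nat_lit 199)) (XT.nd (nat_lit 58188) (nat_lit 608) (nat_lit 0) (XT.lf (nat_lit 0) (nat_lit 14934148043) (nat_lit 1824) (nat_lit 5806779328) (nat_lit 1900) (nat_lit 4038219297) (nat_lit 505) (nat_lit 5) (nat_lit 529) (nat_lit 5) (nat_lit 530) (nat_lit 5) (nat_lit 479) (nat_lit 463) (nat_lit 198)) (XT.lf (nat_lit 0) (nat_lit 1160747010) (nat_lit 1900) (nat_lit 4798178398) (nat_lit 1900) (nat_lit 4798178398) (nat_lit 497) (nat_lit 3) (nat_lit 522) (nat_lit 3) (nat_lit 522) (nat_lit 5) (nat_lit 464) (nat_lit 464) (nat_lit 212))))) (XT.nd (nat_lit 156) (nat_lit 0) (nat_lit 76) (XT.nd (nat_lit 78) (nat_lit 0) (nat_lit 76) (XT.lf (nat_lit 76) (nat_lit 1176172727) (nat_lit 0) (nat_lit 1319984407) (nat_lit 1900) (nat_lit 19230163595) (nat_lit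 498) (nat_lit 5) (nat_lit 497) (nat_lit 3) (nat_lit 522) (nat_lit 5) (nat_lit 465) (nat_lit 464) (nat_lit 211)) (XT.lf (nat_lit 0) (nat_lit 2796977942) (nat_lit 1824) (nat_lit 9711232006) (nat_lit 1900) (nat_lit 9432012867) (nat_lit 498) (nat_lit 5) (nat_lit 522) (nat_lit 5) (nat_lit 523) (nat_lit 5) (nat_lit 466) (nat_lit 464) (nat_lit 210))) (XT.nd (nat_lit 78) (nat_lit 0) (nat_lit 76) (XT.lf (nat_lit 76) (nat_lit 1351448096) (nat_lit 0) (nat_lit 1766184193) (nat_lit 1900) (nat_lit 19040494311) (nat_lit 499) (nat_lit 5) (nat_lit 498) (nat_lit 5) (nat_lit 523) (nat_lit 5) (nat_lit 467) (nat_lit 464) (nat_lit 209)) (XT.nd (nat_lit 78) (nat_lit 0) (nat_lit 0) (XT.lf (nat_lit 0) (nat_lit 3566342184) (nat_lit 1824) (nat_lit 9674236057) (nat_lit 1900) (nat_lit 9137377372) (nat_lit 499) (nat_lit 5) (nat_lit 523) (nat_lit 5) (nat_lit 524) (nat_lit 5) (nat_lit 468) (nat_lit 464) (nat_lit 208)) (XT.lf (nat_lit 76) (nat_lit 1689287021) (nat_lit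 0) (nat_lit 2353846362) (nat_lit 1900) (nat_lit 18558665679) (nat_lit 500) (nat_lit 5) (nat_lit 499) (nat_lit 5) (nat_lit 524) (nat_lit 5) (nat_lit 469) (nat_lit 464) (nat_lit 207))))))) (XT.nd (nat_lit 59046) (nat_lit 0) (nat_lit 0) (XT.nd (nat_lit 390) (nat_lit 228) (nat_lit 0) (XT.nd (nat_lit 156) (nat_lit 0) (nat_lit 76) (XT.nd (nat_lit 78) (nat_lit 0) (nat_lit 0) (XT.lf (nat_lit 0) (nat_lit 4648133273) (nat_lit 1824) (nat_lit 9476941650) (nat_lit 1900) (nat_lit 8702671001) (nat_lit 500) (nat_lit 5) (nat_lit 524) (nat_lit 5) (nat_lit 525) (nat_lit 5) (nat_lit 470) (nat_lit 464) (nat_lit 206)) (XT.lf (nat_lit 76) (nat_lit 2198533698) (nat_lit 0) (nat_lit 3093139528) (nat_lit 1900) (nat_lit 17766009696) (nat_lit 501) (nat_lit 5) (nat_lit 500) (nat_lit 5) (nat_lit 525) (nat_lit 5) (nat_lit 471) (nat_lit 464) (nat_lit 205))) (XT.nd (nat_lit 78) (nat_lit 0) (nat_lit 0) (XT.lf (nat_lit 0) (nat_lit 6061716721) (nat_lit 1824) (nat_lit 9110478121)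 (nat_lit 1900) (nat_lit 8117751164) (nat_lit 501) (nat_lit 5) (nat_lit 525) (nat_lit 5) (nat_lit 526) (nat_lit 5) (nat_lit 472) (nat_lit 464) (nat_lit 204)) (XT.nd (nat_lit 78) (nat_lit 0) (nat_lit 76) (XT.lf (nat_lit 76) (nat_lit 2888491854) (nat_lit 0) (nat_lit 3994613339) (nat_lit 1900) (nat_lit 16643030274) (nat_lit 502) (nat_lit 5) (nat_lit 501) (nat_lit 5) (nat_lit 526) (nat_lit 5) (nat_lit 473) (nat_lit 464) (nat_lit 203)) (XT.lf (nat_lit 0) (nat_lit 7827315096) (nat_lit 1824) (nat_lit 8565514929) (nat_lit 1900) (nat_lit 7372090821) (nat_lit 502) (nat_lit 5) (nat_lit 526) (nat_lit 5) (nat_lit 527) (nat_lit 5) (nat_lit 474) (nat_lit 464) (nat_lit 202))))) (XT.nd (nat_lit 156) (nat_lit 380) (nat_lit 0) (XT.nd (nat_lit 78) (nat_lit 0) (nat_lit 76) (XT.lf (nat_lit 76) (nat_lit 3768941917) (nat_lit 0) (nat_lit 5069220222) (nat_lit 1900) (nat_lit 15169364734) (nat_lit 503) (nat_lit 5) (nat_lit 502) (nat_lit 5) (nat_lit 527) (nat_lit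 5) (nat_lit 475) (nat_lit 464) (nat_lit 201)) (XT.lf (nat_lit 0) (nat_lit 9966047534) (nat_lit 1824) (nat_lit 7832244314) (nat_lit 1900) (nat_lit 6454756745) (nat_lit 503) (nat_lit 5) (nat_lit 527) (nat_lit 5) (nat_lit 528) (nat_lit 5) (nat_lit 476) (nat_lit 464) (nat_lit 200))) (XT.nd (nat_lit 78) (nat_lit 456) (nat_lit 0) (XT.lf (nat_lit 76) (nat_lit 4850159055) (nat_lit 0) (nat_lit 6328337719) (nat_lit 1900) (nat_lit 13323743849) (nat_lit 504) (nat_lit 5) (nat_lit 503) (nat_lit 5) (nat_lit 528) (nat_lit 5) (nat_lit 477) (nat_lit 464) (nat_lit 199)) (XT.nd (nat_lit 58344) (nat_lit 532) (nat_lit 0) (XT.lf (nat_lit 0) (nat_lit 12499970744) (nat_lit 1824) (nat_lit 6900363071) (nat_lit 1900) (nat_lit 5354387165) (nat_lit 504) (nat_lit 5) (nat_lit 528) (nat_lit 5) (nat_lit 529) (nat_lit 5) (nat_lit 478) (nat_lit 464) (nat_lit 198)) (XT.lf (nat_lit 0) (nat_lit 1326839909) (nat_lit 1900) (nat_lit 4821274207) (nat_lit 1900) (nat_lit 4821274207)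 (nat_lit 497) (nat_lit 3) (nat_lit 522) (nat_lit 3) (nat_lit 522) (nat_lit 5) (nat_lit 465) (nat_lit 465) (nat_lit 210)))))) (XT.nd (nat_lit 390) (nat_lit 0) (nat_lit 228) (XT.nd (nat_lit 156) (nat_lit 0) (nat_lit 76) (XT.nd (nat_lit 78) (nat_lit 0) (nat_lit 76) (XT.lf (nat_lit 76) (nat_lit 1344472913) (nat_lit 0) (nat_lit 1482700210) (nat_lit 1900) (nat_lit 19328052163) (nat_lit 498) (nat_lit 5) (nat_lit 497) (nat_lit 3) (nat_lit 522) (nat_lit 5) (nat_lit 466) (nat_lit 465) (nat_lit 209)) (XT.lf (nat_lit 0) (nat_lit 3127631022) (nat_lit 1824) (nat_lit 9757139349) (nat_lit 1900) (nat_lit 9488762629) (nat_lit 498) (nat_lit 5) (nat_lit 522) (nat_lit 5) (nat_lit 523) (nat_lit 5) (nat_lit 467) (nat_lit 465) (nat_lit 208))) (XT.nd (nat_lit 78) (nat_lit 0) (nat_lit 76) (XT.lf (nat_lit 76) (nat_lit 1525818584) (nat_lit 0) (nat_lit 1924449972) (nat_lit 1900) (nat_lit 19145614904) (nat_lit 499) (nat_lit 5) (nat_lit 498) (nat_lit 5) (nat_lit 523)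 (nat_lit 5) (nat_lit 468) (nat_lit 465) (nat_lit 207)) (XT.nd (nat_lit 78) (nat_lit 0) (nat_lit 0) (XT.lf (nat_lit 0) (nat_lit 3901870399) (nat_lit 1824) (nat_lit 9717186053) (nat_lit 1900) (nat_lit 9201174245) (nat_lit 499) (nat_lit 5) (nat_lit 523) (nat_lit 5) (nat_lit 524) (nat_lit 5) (nat_lit 469) (nat_lit 465) (nat_lit 206)) (XT.lf (nat_lit 76) (nat_lit 1872617127) (nat_lit 0) (nat_lit 2511370819) (nat_lit 1900) (nat_lit 18664647260) (nat_lit 500) (nat_lit 5) (nat_lit 499) (nat_lit 5) (nat_lit 524) (nat_lit 5) (nat_lit 470) (nat_lit 465) (nat_lit 205))))) (XT.nd (nat_lit 234) (nat_lit 0) (nat_lit 76) (XT.nd (nat_lit 78) (nat_lit 0) (nat_lit 0) (XT.lf (nat_lit 0) (nat_lit 4995286914) (nat_lit 1824) (nat_lit 9514067443) (nat_lit 1900) (nat_lit 8769862666) (nat_lit 500) (nat_lit 5) (nat_lit 524) (nat_lit 5) (nat_lit 525) (nat_lit 5) (nat_lit 471) (nat_lit 465) (nat_lit 204)) (XT.nd (nat_lit 78) (nat_lit 0) (nat_lit 76) (XT.lf (nat_lit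 76) (nat_lit 2393914696) (nat_lit 0) (nat_lit 3253781891) (nat_lit 1900) (nat_lit 17866136196) (nat_lit 501) (nat_lit 5) (nat_lit 500) (nat_lit 5) (nat_lit 525) (nat_lit 5) (nat_lit 472) (nat_lit 465) (nat_lit 203)) (XT.lf (nat_lit 0) (nat_lit 6427606499) (nat_lit 1824) (nat_lit 9138711738) (nat_lit 1900) (nat_lit 8184533579) (nat_lit 501) (nat_lit 5) (nat_lit 525) (nat_lit 5) (nat_lit 526) (nat_lit 5) (nat_lit 473) (nat_lit 465) (nat_lit 202)))) (XT.nd (nat_lit 78) (nat_lit 0) (nat_lit 76) (XT.lf (nat_lit 76) (nat_lit 3099224637) (nat_lit 0) (nat_lit 4162394076) (nat_lit 1900) (nat_lit 16730222436) (nat_lit 502) (nat_lit 5) (nat_lit 501) (nat_lit 5) (nat_lit 526) (nat_lit 5) (nat_lit 474) (nat_lit 465) (nat_lit 201)) (XT.nd (nat_lit 78) (nat_lit 0) (nat_lit 0) (XT.lf (nat_lit 0) (nat_lit 8219430795) (nat_lit 1824) (nat_lit 8581579538) (nat_lit 1900) (nat_lit 7434497542) (nat_lit 502) (nat_lit 5) (nat_lit 526) (nat_lit 5) (nat_lit 527)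 (nat_lit 5) (nat_lit 475) (nat_lit 465) (nat_lit 200)) (XT.lf (nat_lit 76) (nat_lit 3998545092) (nat_lit 0) (nat_lit 5248332006) (nat_lit 1900) (nat_lit 15236161278) (nat_lit 503) (nat_lit 5) (nat_lit 502) (nat_lit 5) (nat_lit 527) (nat_lit 5) (nat_lit 476) (nat_lit 465) (nat_lit 199))))))))
noncomputable def xc255 : XT := (XT.nd (nat_lit 118560) (nat_lit 0) (nat_lit 0) (XT.nd (nat_lit 59202) (nat_lit 0) (nat_lit 0) (XT.nd (nat_lit 58812) (nat_lit 0) (nat_lit 152) (XT.nd (nat_lit 58578) (nat_lit 0) (nat_lit 0) (XT.nd (nat_lit 58500) (nat_lit 456) (nat_lit 0) (XT.lf (nat_lit 0) (nat_lit 10392277366) (nat_lit 1824) (nat_lit 7832646034) (nat_lit 1900) (nat_lit 6508647987) (nat_lit 503) (nat_lit 5) (nat_lit 527) (nat_lit 5) (nat_lit 528) (nat_lit 5) (nat_lit 477) (nat_lit 465) (nat_lit 198)) (XT.lf (nat_lit 0) (nat_lit 1490706541) (nat_lit 1900) (nat_lit 4847661477) (nat_lit 1900) (nat_lit 4847661477) (nat_lit 497) (nat_lit 3) (nat_lit 522)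 (nat_lit 3) (nat_lit 522) (nat_lit 5) (nat_lit 466) (nat_lit 466) (nat_lit 208))) (XT.nd (nat_lit 78) (nat_lit 0) (nat_lit 76) (XT.lf (nat_lit 76) (nat_lit 1510517246) (nat_lit 0) (nat_lit 1643377008) (nat_lit 1900) (nat_lit 19439031984) (nat_lit 498) (nat_lit 5) (nat_lit 497) (nat_lit 3) (nat_lit 522) (nat_lit 5) (nat_lit 467) (nat_lit 466) (nat_lit 207)) (XT.nd (nat_lit 78) (nat_lit 0) (nat_lit 0) (XT.lf (nat_lit 0) (nat_lit 3454229703) (nat_lit 1824) (nat_lit 9809724180) (nat_lit 1900) (nat_lit 9551768856) (nat_lit 498) (nat_lit 5) (nat_lit 522) (nat_lit 5) (nat_lit 523) (nat_lit 5) (nat_lit 468) (nat_lit 466) (nat_lit 206)) (XT.lf (nat_lit 76) (nat_lit 1697955030) (nat_lit 0) (nat_lit 2081107076) (nat_lit 1900) (nat_lit 19263543260) (nat_lit 499) (nat_lit 5) (nat_lit 498) (nat_lit 5) (nat_lit 523) (nat_lit 5) (nat_lit 469) (nat_lit 466) (nat_lit 205))))) (XT.nd (nat_lit 156) (nat_lit 0) (nat_lit 76) (XT.nd (nat_lit 78) (nat_lit 0)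 (nat_lit 0) (XT.lf (nat_lit 0) (nat_lit 4233849918) (nat_lit 1824) (nat_lit 9766840496) (nat_lit 1900) (nat_lit 9270866055) (nat_lit 499) (nat_lit 5) (nat_lit 523) (nat_lit 5) (nat_lit 524) (nat_lit 5) (nat_lit 470) (nat_lit 466) (nat_lit 204)) (XT.lf (nat_lit 76) (nat_lit 2053806844) (nat_lit 0) (nat_lit 2667756952) (nat_lit 1900) (nat_lit 18783046192) (nat_lit 500) (nat_lit 5) (nat_lit 499) (nat_lit 5) (nat_lit 524) (nat_lit 5) (nat_lit 471) (nat_lit 466) (nat_lit 203))) (XT.nd (nat_lit 78) (nat_lit 0) (nat_lit 0) (XT.lf (nat_lit 0) (nat_lit 5339513083) (nat_lit 1824) (nat_lit 9557854135) (nat_lit 1900) (nat_lit 8842547737) (nat_lit 500) (nat_lit 5) (nat_lit 524) (nat_lit 5) (nat_lit 525) (nat_lit 5) (nat_lit 472) (nat_lit 466) (nat_lit 202)) (XT.nd (nat_lit 78) (nat_lit 0) (nat_lit 76) (XT.lf (nat_lit 76) (nat_lit 2587323866) (nat_lit 0) (nat_lit 3413801369) (nat_lit 1900) (nat_lit 17978174709) (nat_lit 501) (nat_lit 5) (nat_lit 500)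 (nat_lit 5) (nat_lit 525) (nat_lit 5) (nat_lit 473) (nat_lit 466) (nat_lit 201)) (XT.lf (nat_lit 0) (nat_lit 6791313804) (nat_lit 1824) (nat_lit 9173489102) (nat_lit 1900) (nat_lit 8256362844) (nat_lit 501) (nat_lit 5) (nat_lit 525) (nat_lit 5) (nat_lit 526) (nat_lit 5) (nat_lit 474) (nat_lit 466) (nat_lit 200)))))) (XT.nd (nat_lit 58890) (nat_lit 0) (nat_lit 76) (XT.nd (nat_lit 156) (nat_lit 304) (nat_lit 0) (XT.nd (nat_lit 78) (nat_lit 0) (nat_lit 76) (XT.lf (nat_lit 76) (nat_lit 3308232337) (nat_lit 0) (nat_lit 4330117611) (nat_lit 1900) (nat_lit 16828698046) (nat_lit 502) (nat_lit 5) (nat_lit 501) (nat_lit 5) (nat_lit 526) (nat_lit 5) (nat_lit 475) (nat_lit 466) (nat_lit 199)) (XT.lf (nat_lit 0) (nat_lit 8610241361) (nat_lit 1824) (nat_lit 8603993818) (nat_lit 1900) (nat_lit 7501454414) (nat_lit 502) (nat_lit 5) (nat_lit 526) (nat_lit 5) (nat_lit 527) (nat_lit 5) (nat_lit 476) (nat_lit 466) (nat_lit 198))) (XT.nd (nat_lit 58578) (nat_lit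 380) (nat_lit 0) (XT.lf (nat_lit 76) (nat_lit 4226751612) (nat_lit 0) (nat_lit 5428007776) (nat_lit 1900) (nat_lit 15313480861) (nat_lit 503) (nat_lit 5) (nat_lit 502) (nat_lit 5) (nat_lit 527) (nat_lit 5) (nat_lit 477) (nat_lit 466) (nat_lit 197)) (XT.nd (nat_lit 78) (nat_lit 0) (nat_lit 0) (XT.lf (nat_lit 0) (nat_lit 1652517820) (nat_lit 1900) (nat_lit 4877296160) (nat_lit 1900) (nat_lit 4877296160) (nat_lit 497) (nat_lit 3) (nat_lit 522) (nat_lit 3) (nat_lit 522) (nat_lit 5) (nat_lit 467) (nat_lit 467) (nat_lit 206)) (XT.lf (nat_lit 76) (nat_lit 1674478912) (nat_lit 0) (nat_lit 1802179568) (nat_lit 1900) (nat_lit 19562932556) (nat_lit 498) (nat_lit 5) (nat_lit 497) (nat_lit 3) (nat_lit 522) (nat_lit 5) (nat_lit 468) (nat_lit 467) (nat_lit 205))))) (XT.nd (nat_lit 234) (nat_lit 0) (nat_lit 76) (XT.nd (nat_lit 78) (nat_lit 0) (nat_lit 0) (XT.lf (nat_lit 0) (nat_lit 3777107128) (nat_lit 1824) (nat_lit 9868896407) (nat_lit 1900) (nat_lit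 9620957802) (nat_lit 498) (nat_lit 5) (nat_lit 522) (nat_lit 5) (nat_lit 523) (nat_lit 5) (nat_lit 469) (nat_lit 467) (nat_lit 204)) (XT.nd (nat_lit 78) (nat_lit 0) (nat_lit 76) (XT.lf (nat_lit 76) (nat_lit 1868034925) (nat_lit 0) (nat_lit 2236308710) (nat_lit 1900) (nat_lit 19394119833) (nat_lit 499) (nat_lit 5) (nat_lit 498) (nat_lit 5) (nat_lit 523) (nat_lit 5) (nat_lit 470) (nat_lit 467) (nat_lit 203)) (XT.lf (nat_lit 0) (nat_lit 4562608145) (nat_lit 1824) (nat_lit 9823106489) (nat_lit 1900) (nat_lit 9346391340) (nat_lit 499) (nat_lit 5) (nat_lit 523) (nat_lit 5) (nat_lit 524) (nat_lit 5) (nat_lit 471) (nat_lit 467) (nat_lit 202)))) (XT.nd (nat_lit 78) (nat_lit 0) (nat_lit 76) (XT.lf (nat_lit 76) (nat_lit 2233038859) (nat_lit 0) (nat_lit 2823148535) (nat_lit 1900) (nat_lit 18913710947) (nat_lit 500) (nat_lit 5) (nat_lit 499) (nat_lit 5) (nat_lit 524) (nat_lit 5) (nat_lit 472) (nat_lit 467) (nat_lit 201)) (XT.nd (nat_lit 78) (nat_lit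 0) (nat_lit 0) (XT.lf (nat_lit 0) (nat_lit 5681136515) (nat_lit 1824) (nat_lit 9608205127) (nat_lit 1900) (nat_lit 8920674949) (nat_lit 500) (nat_lit 5) (nat_lit 524) (nat_lit 5) (nat_lit 525) (nat_lit 5) (nat_lit 473) (nat_lit 467) (nat_lit 200)) (XT.lf (nat_lit 76) (nat_lit 2778950077) (nat_lit 0) (nat_lit 3573334452) (nat_lit 1900) (nat_lit 18101978677) (nat_lit 501) (nat_lit 5) (nat_lit 500) (nat_lit 5) (nat_lit 525) (nat_lit 5) (nat_lit 474) (nat_lit 467) (nat_lit 199))))))) (XT.nd (nat_lit 118248) (nat_lit 0) (nat_lit 0) (XT.nd (nat_lit 59046) (nat_lit 0) (nat_lit 76) (XT.nd (nat_lit 58812) (nat_lit 304) (nat_lit 0) (XT.nd (nat_lit 78) (nat_lit 0) (nat_lit 0) (XT.lf (nat_lit 0) (nat_lit 7153163892) (nat_lit 1824) (nat_lit 9214708912) (nat_lit 1900) (nat_lit 8333195784) (nat_lit 501) (nat_lit 5) (nat_lit 525) (nat_lit 5) (nat_lit 526) (nat_lit 5) (nat_lit 475) (nat_lit 467) (nat_lit 198)) (XT.lf (nat_lit 76) (nat_lit 3515711101)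 (nat_lit 0) (nat_lit 4497915325) (nat_lit 1900) (nat_lit 16938312339) (nat_lit 502) (nat_lit 5) (nat_lit 501) (nat_lit 5) (nat_lit 526) (nat_lit 5) (nat_lit 476) (nat_lit 467) (nat_lit 197))) (XT.nd (nat_lit 78) (nat_lit 0) (nat_lit 0) (XT.lf (nat_lit 0) (nat_lit 1812439715) (nat_lit 1900) (nat_lit 4910137599) (nat_lit 1900) (nat_lit 4910137599) (nat_lit 497) (nat_lit 3) (nat_lit 522) (nat_lit 3) (nat_lit 522) (nat_lit 5) (nat_lit 468) (nat_lit 468) (nat_lit 204)) (XT.nd (nat_lit 78) (nat_lit 0) (nat_lit 76) (XT.lf (nat_lit 76) (nat_lit 1836526085) (nat_lit 0) (nat_lit 1959267968) (nat_lit 1900) (nat_lit 19699596756) (nat_lit 498) (nat_lit 5) (nat_lit 497) (nat_lit 3) (nat_lit 522) (nat_lit 5) (nat_lit 469) (nat_lit 468) (nat_lit 203)) (XT.lf (nat_lit 0) (nat_lit 4096587016) (nat_lit 1824) (nat_lit 9934572820) (nat_lit 1900) (nat_lit 9696261973) (nat_lit 498) (nat_lit 5) (nat_lit 522) (nat_lit 5) (nat_lit 523) (nat_lit 5) (nat_lit 470)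 (nat_lit 468) (nat_lit 202))))) (XT.nd (nat_lit 156) (nat_lit 0) (nat_lit 76) (XT.nd (nat_lit 78) (nat_lit 0) (nat_lit 76) (XT.lf (nat_lit 76) (nat_lit 2036230681) (nat_lit 0) (nat_lit 2390203946) (nat_lit 1900) (nat_lit 19537198027) (nat_lit 499) (nat_lit 5) (nat_lit 498) (nat_lit 5) (nat_lit 523) (nat_lit 5) (nat_lit 471) (nat_lit 468) (nat_lit 201)) (XT.lf (nat_lit 0) (nat_lit 4888463565) (nat_lit 1824) (nat_lit 9885898091) (nat_lit 1900) (nat_lit 9427694372) (nat_lit 499) (nat_lit 5) (nat_lit 523) (nat_lit 5) (nat_lit 524) (nat_lit 5) (nat_lit 472) (nat_lit 468) (nat_lit 200))) (XT.nd (nat_lit 78) (nat_lit 0) (nat_lit 76) (XT.lf (nat_lit 76) (nat_lit 2410490752) (nat_lit 0) (nat_lit 2977685751) (nat_lit 1900) (nat_lit 19056502498) (nat_lit 500) (nat_lit 5) (nat_lit 499) (nat_lit 5) (nat_lit 524) (nat_lit 5) (nat_lit 473) (nat_lit 468) (nat_lit 199)) (XT.nd (nat_lit 78) (nat_lit 0) (nat_lit 0) (XT.lf (nat_lit 0) (nat_lit 6020473557)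 (nat_lit 1824) (nat_lit 9665030812) (nat_lit 1900) (nat_lit 9004198268) (nat_lit 500) (nat_lit 5) (nat_lit 524) (nat_lit 5) (nat_lit 525) (nat_lit 5) (nat_lit 474) (nat_lit 468) (nat_lit 198)) (XT.lf (nat_lit 76) (nat_lit 2968977113) (nat_lit 0) (nat_lit 3732514574) (nat_lit 1900) (nat_lit 18237413555) (nat_lit 501) (nat_lit 5) (nat_lit 500) (nat_lit 5) (nat_lit 525) (nat_lit 5) (nat_lit 475) (nat_lit 468) (nat_lit 197)))))) (XT.nd (nat_lit 390) (nat_lit 0) (nat_lit 0) (XT.nd (nat_lit 156) (nat_lit 0) (nat_lit 76) (XT.nd (nat_lit 78) (nat_lit 0) (nat_lit 0) (XT.lf (nat_lit 0) (nat_lit 1970633471) (nat_lit 1900) (nat_lit 4946148420) (nat_lit 1900) (nat_lit 4946148420) (nat_lit 497) (nat_lit 3) (nat_lit 522) (nat_lit 3) (nat_lit 522) (nat_lit 5) (nat_lit 469) (nat_lit 469) (nat_lit 202)) (XT.lf (nat_lit 76) (nat_lit 1996822153) (nat_lit 0) (nat_lit 2114797820) (nat_lit 1900) (nat_lit 19848880452) (nat_lit 498) (nat_lit 5) (nat_lit 497)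 (nat_lit 3) (nat_lit 522) (nat_lit 5) (nat_lit 470) (nat_lit 469) (nat_lit 201))) (XT.nd (nat_lit 78) (nat_lit 0) (nat_lit 0) (XT.lf (nat_lit 0) (nat_lit 4412984102) (nat_lit 1824) (nat_lit 10006676892) (nat_lit 1900) (nat_lit 9777619945) (nat_lit 498) (nat_lit 5) (nat_lit 522) (nat_lit 5) (nat_lit 523) (nat_lit 5) (nat_lit 471) (nat_lit 469) (nat_lit 200)) (XT.nd (nat_lit 78) (nat_lit 0) (nat_lit 76) (XT.lf (nat_lit 76) (nat_lit 2202709868) (nat_lit 0) (nat_lit 2542937920) (nat_lit 1900) (nat_lit 19692643830) (nat_lit 499) (nat_lit 5) (nat_lit 498) (nat_lit 5) (nat_lit 523) (nat_lit 5) (nat_lit 472) (nat_lit 469) (nat_lit 199)) (XT.lf (nat_lit 0) (nat_lit 5211726163) (nat_lit 1824) (nat_lit 9955136114) (nat_lit 1900) (nat_lit 9514725005) (nat_lit 499) (nat_lit 5) (nat_lit 523) (nat_lit 5) (nat_lit 524) (nat_lit 5) (nat_lit 473) (nat_lit 469) (nat_lit 198))))) (XT.nd (nat_lit 59202) (nat_lit 0) (nat_lit 0) (XT.nd (nat_lit 59046) (nat_lit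 152) (nat_lit 0) (XT.lf (nat_lit 76) (nat_lit 2586335243) (nat_lit 0) (nat_lit 3131505369) (nat_lit 1900) (nat_lit 19211293958) (nat_lit 500) (nat_lit 5) (nat_lit 499) (nat_lit 5) (nat_lit 524) (nat_lit 5) (nat_lit 474) (nat_lit 469) (nat_lit 197)) (XT.nd (nat_lit 78) (nat_lit 0) (nat_lit 0) (XT.lf (nat_lit 0) (nat_lit 2127255831) (nat_lit 1900) (nat_lit 4985294447) (nat_lit 1900) (nat_lit 4985294447) (nat_lit 497) (nat_lit 3) (nat_lit 522) (nat_lit 3) (nat_lit 522) (nat_lit 5) (nat_lit 470) (nat_lit 470) (nat_lit 200)) (XT.lf (nat_lit 76) (nat_lit 2155525941) (nat_lit 0) (nat_lit 2268920469) (nat_lit 1900) (nat_lit 20010652142) (nat_lit 498) (nat_lit 5) (nat_lit 497) (nat_lit 3) (nat_lit 522) (nat_lit 5) (nat_lit 471) (nat_lit 470) (nat_lit 199)))) (XT.nd (nat_lit 78) (nat_lit 76) (nat_lit 0) (XT.lf (nat_lit 0) (nat_lit 4726604554) (nat_lit 1824) (nat_lit 10085138587) (nat_lit 1900) (nat_lit 9864976201) (nat_lit 498) (nat_lit 5) (nat_lit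 522) (nat_lit 5) (nat_lit 523) (nat_lit 5) (nat_lit 472) (nat_lit 470) (nat_lit 198)) (XT.nd (nat_lit 59280) (nat_lit 76) (nat_lit 0) (XT.lf (nat_lit 76) (nat_lit 2367635435) (nat_lit 0) (nat_lit 2694652017) (nat_lit 1900) (nat_lit 19860335464) (nat_lit 499) (nat_lit 5) (nat_lit 498) (nat_lit 5) (nat_lit 523) (nat_lit 5) (nat_lit 473) (nat_lit 470) (nat_lit 197)) (XT.lf (nat_lit 76) (nat_lit 2312791925) (nat_lit 0) (nat_lit 2421783205) (nat_lit 1900) (nat_lit 20184792597) (nat_lit 498) (nat_lit 5) (nat_lit 497) (nat_lit 3) (nat_lit 522) (nat_lit 5) (nat_lit 472) (nat_lit 471) (nat_lit 197))))))))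
noncomputable def ec0 : XT := (XT.nd (nat_lit 177840) (nat_lit 0) (nat_lit 0) (XT.nd (nat_lit 118482) (nat_lit 0) (nat_lit 0) (XT.nd (nat_lit 59280) (nat_lit 0) (nat_lit 0) (XT.nd (nat_lit 156) (nat_lit 0) (nat_lit 0) (XT.nd (nat_lit 78) (nat_lit 0) (nat_lit 0) (XT.lf (nat_lit 1900) (nat_lit 344016692) (nat_lit 0) (nat_lit 346893471) (nat_lit 1900) (nat_lit 344016692) (nat_lit 522) (nat_lit 1) (nat_lit 497) (nat_lit 0) (nat_lit 522) (nat_lit 0) (nat_lit 448) (nat_lit 346) (nat_lit 346)) (XT.lf (nat_lit 1900) (nat_lit 1360293723) (nat_lit 76) (nat_lit 344611277) (nat_lit 0) (nat_lit 344611277) (nat_lit 522) (nat_lit 1) (nat_lit 498) (nat_lit 1) (nat_lit 497) (nat_lit 0) (nat_lit 449) (nat_lit 346) (nat_lit 345))) (XT.nd (nat_lit 59046) (nat_lit 76) (nat_lit 0) (XT.lf (nat_lit 1900) (nat_lit 667910693) (nat_lit 0) (nat_lit 693579594) (nat_lit 1824) (nat_lit 667910693) (nat_lit 523) (nat_lit 1) (nat_lit 498) (nat_lit 1) (nat_lit 522) (nat_lit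 1) (nat_lit 450) (nat_lit 346) (nat_lit 344)) (XT.lf (nat_lit 1900) (nat_lit 350897025) (nat_lit 0) (nat_lit 353831341) (nat_lit 1900) (nat_lit 350897025) (nat_lit 522) (nat_lit 1) (nat_lit 497) (nat_lit 0) (nat_lit 522) (nat_lit 0) (nat_lit 446) (nat_lit 347) (nat_lit 347)))) (XT.nd (nat_lit 156) (nat_lit 0) (nat_lit 0) (XT.nd (nat_lit 78) (nat_lit 0) (nat_lit 76) (XT.lf (nat_lit 1900) (nat_lit 1387499598) (nat_lit 76) (nat_lit 351503503) (nat_lit 0) (nat_lit 351503503) (nat_lit 522) (nat_lit 1) (nat_lit 498) (nat_lit 1) (nat_lit 497) (nat_lit 0) (nat_lit 447) (nat_lit 347) (nat_lit 346)) (XT.lf (nat_lit 1900) (nat_lit 681268907) (nat_lit 0) (nat_lit 707451186) (nat_lit 1824) (nat_lit 681268907) (nat_lit 523) (nat_lit 1) (nat_lit 498) (nat_lit 1) (nat_lit 522) (nat_lit 1) (nat_lit 448) (nat_lit 347) (nat_lit 345))) (XT.nd (nat_lit 78) (nat_lit 76) (nat_lit 0) (XT.lf (nat_lit 1900) (nat_lit 1333411193) (nat_lit 76) (nat_lit 358185624)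 (nat_lit 0) (nat_lit 358185624) (nat_lit 523) (nat_lit 1) (nat_lit 499) (nat_lit 1) (nat_lit 498) (nat_lit 1) (nat_lit 449) (nat_lit 347) (nat_lit 344)) (XT.nd (nat_lit 58890) (nat_lit 152) (nat_lit 0) (XT.lf (nat_lit 1900) (nat_lit 648012572) (nat_lit 0) (nat_lit 733773798) (nat_lit 1824) (nat_lit 648012572) (nat_lit 524) (nat_lit 1) (nat_lit 499) (nat_lit 1) (nat_lit 523) (nat_lit 1) (nat_lit 450) (nat_lit 347) (nat_lit 343)) (XT.lf (nat_lit 1900) (nat_lit 357914966) (nat_lit 0) (nat_lit 360907967) (nat_lit 1900) (nat_lit 357914966) (nat_lit 522) (nat_lit 1) (nat_lit 497) (nat_lit 0) (nat_lit 522) (nat_lit 0) (nat_lit 444) (nat_lit 348) (nat_lit 348)))))) (XT.nd (nat_lit 312) (nat_lit 0) (nat_lit 0) (XT.nd (nat_lit 156) (nat_lit 0) (nat_lit 76) (XT.nd (nat_lit 78) (nat_lit 0) (nat_lit 76) (XT.lf (nat_lit 1900) (nat_lit 1415249590) (nat_lit 76) (nat_lit 358533573) (nat_lit 0) (nat_lit 358533573) (nat_lit 522) (nat_lit 1) (nat_lit 498)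 (nat_lit 1) (nat_lit 497) (nat_lit 0) (nat_lit 445) (nat_lit 348) (nat_lit 347)) (XT.lf (nat_lit 1900) (nat_lit 694894285) (nat_lit 0) (nat_lit 721600210) (nat_lit 1824) (nat_lit 694894285) (nat_lit 523) (nat_lit 1) (nat_lit 498) (nat_lit 1) (nat_lit 522) (nat_lit 1) (nat_lit 446) (nat_lit 348) (nat_lit 346))) (XT.nd (nat_lit 78) (nat_lit 0) (nat_lit 76) (XT.lf (nat_lit 1900) (nat_lit 1360079417) (nat_lit 76) (nat_lit 365349337) (nat_lit 0) (nat_lit 365349337) (nat_lit 523) (nat_lit 1) (nat_lit 499) (nat_lit 1) (nat_lit 498) (nat_lit 1) (nat_lit 447) (nat_lit 348) (nat_lit 345)) (XT.lf (nat_lit 1900) (nat_lit 660972823) (nat_lit 0) (nat_lit 748449274) (nat_lit 1824) (nat_lit 660972823) (nat_lit 524) (nat_lit 1) (nat_lit 499) (nat_lit 1) (nat_lit 523) (nat_lit 1) (nat_lit 448) (nat_lit 348) (nat_lit 344)))) (XT.nd (nat_lit 58812) (nat_lit 152) (nat_lit 0) (XT.nd (nat_lit 78) (nat_lit 0) (nat_lit 76) (XT.lf (nat_lit 1900) (nat_lit 1279635590)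 (nat_lit 76) (nat_lit 385339641) (nat_lit 0) (nat_lit 385339641) (nat_lit 524) (nat_lit 1) (nat_lit 500) (nat_lit 1) (nat_lit 499) (nat_lit 1) (nat_lit 449) (nat_lit 348) (nat_lit 343)) (XT.lf (nat_lit 1900) (nat_lit 614840367) (nat_lit 0) (nat_lit 800781652) (nat_lit 1824) (nat_lit 614840367) (nat_lit 525) (nat_lit 1) (nat_lit 500) (nat_lit 1) (nat_lit 524) (nat_lit 1) (nat_lit 450) (nat_lit 348) (nat_lit 342))) (XT.nd (nat_lit 78) (nat_lit 0) (nat_lit 0) (XT.lf (nat_lit 1900) (nat_lit 365073265) (nat_lit 0) (nat_lit 368126127) (nat_lit 1900) (nat_lit 365073265) (nat_lit 522) (nat_lit 1) (nat_lit 497) (nat_lit 0) (nat_lit 522) (nat_lit 0) (nat_lit 442) (nat_lit 349) (nat_lit 349)) (XT.nd (nat_lit 78) (nat_lit 0) (nat_lit 76) (XT.lf (nat_lit 1900) (nat_lit 1443554581) (nat_lit 76) (nat_lit 365704244) (nat_lit 0) (nat_lit 365704244) (nat_lit 522) (nat_lit 1) (nat_lit 498) (nat_lit 1) (nat_lit 497) (nat_lit 0) (nat_lit 443) (nat_lit 349)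 (nat_lit 348)) (XT.lf (nat_lit 1900) (nat_lit 708792171) (nat_lit 0) (nat_lit 736032214) (nat_lit 1824) (nat_lit 708792171) (nat_lit 523) (nat_lit 1) (nat_lit 498) (nat_lit 1) (nat_lit 522) (nat_lit 1) (nat_lit 444) (nat_lit 349) (nat_lit 347))))))) (XT.nd (nat_lit 59202) (nat_lit 0) (nat_lit 0) (XT.nd (nat_lit 312) (nat_lit 76) (nat_lit 0) (XT.nd (nat_lit 156) (nat_lit 0) (nat_lit 76) (XT.nd (nat_lit 78) (nat_lit 0) (nat_lit 76) (XT.lf (nat_lit 1900) (nat_lit 1387281005) (nat_lit 76) (nat_lit 372656323) (nat_lit 0) (nat_lit 372656323) (nat_lit 523) (nat_lit 1) (nat_lit 499) (nat_lit 1) (nat_lit 498) (nat_lit 1) (nat_lit 445) (nat_lit 349) (nat_lit 346)) (XT.lf (nat_lit 1900) (nat_lit 674192280) (nat_lit 0) (nat_lit 763418260) (nat_lit 1824) (nat_lit 674192280) (nat_lit 524) (nat_lit 1) (nat_lit 499) (nat_lit 1) (nat_lit 523) (nat_lit 1) (nat_lit 446) (nat_lit 349) (nat_lit 345))) (XT.nd (nat_lit 78) (nat_lit 0) (nat_lit 76) (XT.lf (nat_lit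 1900) (nat_lit 1305228302) (nat_lit 76) (nat_lit 393046434) (nat_lit 0) (nat_lit 393046434) (nat_lit 524) (nat_lit 1) (nat_lit 500) (nat_lit 1) (nat_lit 499) (nat_lit 1) (nat_lit 447) (nat_lit 349) (nat_lit 344)) (XT.lf (nat_lit 1900) (nat_lit 627137174) (nat_lit 0) (nat_lit 816797285) (nat_lit 1824) (nat_lit 627137174) (nat_lit 525) (nat_lit 1) (nat_lit 500) (nat_lit 1) (nat_lit 524) (nat_lit 1) (nat_lit 448) (nat_lit 349) (nat_lit 343)))) (XT.nd (nat_lit 58656) (nat_lit 228) (nat_lit 0) (XT.nd (nat_lit 78) (nat_lit 0) (nat_lit 76) (XT.lf (nat_lit 1900) (nat_lit 1198945827) (nat_lit 76) (nat_lit 426083977) (nat_lit 0) (nat_lit 426083977) (nat_lit 525) (nat_lit 1) (nat_lit 501) (nat_lit 1) (nat_lit 500) (nat_lit 1) (nat_lit 449) (nat_lit 349) (nat_lit 342)) (XT.lf (nat_lit 1900) (nat_lit 568381069) (nat_lit 0) (nat_lit 894629433) (nat_lit 1824) (nat_lit 568381069) (nat_lit 526) (nat_lit 1) (nat_lit 501) (nat_lit 1) (nat_lit 525) (nat_lit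 1) (nat_lit 450) (nat_lit 349) (nat_lit 341))) (XT.nd (nat_lit 78) (nat_lit 0) (nat_lit 0) (XT.lf (nat_lit 1900) (nat_lit 372374731) (nat_lit 0) (nat_lit 375488649) (nat_lit 1900) (nat_lit 372374731) (nat_lit 522) (nat_lit 1) (nat_lit 497) (nat_lit 0) (nat_lit 522) (nat_lit 0) (nat_lit 440) (nat_lit 350) (nat_lit 350)) (XT.nd (nat_lit 78) (nat_lit 0) (nat_lit 76) (XT.lf (nat_lit 1900) (nat_lit 1472425673) (nat_lit 76) (nat_lit 373018329) (nat_lit 0) (nat_lit 373018329) (nat_lit 522) (nat_lit 1) (nat_lit 498) (nat_lit 1) (nat_lit 497) (nat_lit 0) (nat_lit 441) (nat_lit 350) (nat_lit 349)) (XT.lf (nat_lit 1900) (nat_lit 722968014) (nat_lit 0) (nat_lit 750752858) (nat_lit 1824) (nat_lit 722968014) (nat_lit 523) (nat_lit 1) (nat_lit 498) (nat_lit 1) (nat_lit 522) (nat_lit 1) (nat_lit 442) (nat_lit 350) (nat_lit 348)))))) (XT.nd (nat_lit 312) (nat_lit 76) (nat_lit 0) (XT.nd (nat_lit 156) (nat_lit 0) (nat_lit 76) (XT.nd (nat_lit 78) (nat_lit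 0) (nat_lit 76) (XT.lf (nat_lit 1900) (nat_lit 1415026625) (nat_lit 76) (nat_lit 380109450) (nat_lit 0) (nat_lit 380109450) (nat_lit 523) (nat_lit 1) (nat_lit 499) (nat_lit 1) (nat_lit 498) (nat_lit 1) (nat_lit 443) (nat_lit 350) (nat_lit 347)) (XT.lf (nat_lit 1900) (nat_lit 687676126) (nat_lit 0) (nat_lit 778686625) (nat_lit 1824) (nat_lit 687676126) (nat_lit 524) (nat_lit 1) (nat_lit 499) (nat_lit 1) (nat_lit 523) (nat_lit 1) (nat_lit 444) (nat_lit 350) (nat_lit 346))) (XT.nd (nat_lit 78) (nat_lit 0) (nat_lit 76) (XT.lf (nat_lit 1900) (nat_lit 1331332868) (nat_lit 76) (nat_lit 400907363) (nat_lit 0) (nat_lit 400907363) (nat_lit 524) (nat_lit 1) (nat_lit 500) (nat_lit 1) (nat_lit 499) (nat_lit 1) (nat_lit 445) (nat_lit 350) (nat_lit 345)) (XT.lf (nat_lit 1900) (nat_lit 639679918) (nat_lit 0) (nat_lit 833133231) (nat_lit 1824) (nat_lit 639679918) (nat_lit 525) (nat_lit 1) (nat_lit 500) (nat_lit 1) (nat_lit 524) (nat_lit 1) (nat_lit 446)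 (nat_lit 350) (nat_lit 344)))) (XT.nd (nat_lit 156) (nat_lit 228) (nat_lit 0) (XT.nd (nat_lit 78) (nat_lit 0) (nat_lit 76) (XT.lf (nat_lit 1900) (nat_lit 1222924744) (nat_lit 76) (nat_lit 434605657) (nat_lit 0) (nat_lit 434605657) (nat_lit 525) (nat_lit 1) (nat_lit 501) (nat_lit 1) (nat_lit 500) (nat_lit 1) (nat_lit 447) (nat_lit 350) (nat_lit 343)) (XT.lf (nat_lit 1900) (nat_lit 579748691) (nat_lit 0) (nat_lit 912522022) (nat_lit 1824) (nat_lit 579748691) (nat_lit 526) (nat_lit 1) (nat_lit 501) (nat_lit 1) (nat_lit 525) (nat_lit 1) (nat_lit 448) (nat_lit 350) (nat_lit 342))) (XT.nd (nat_lit 58500) (nat_lit 304) (nat_lit 0) (XT.lf (nat_lit 1900) (nat_lit 1091310260) (nat_lit 76) (nat_lit 480434610) (nat_lit 0) (nat_lit 480434610) (nat_lit 526) (nat_lit 1) (nat_lit 502) (nat_lit 1) (nat_lit 501) (nat_lit 1) (nat_lit 449) (nat_lit 350) (nat_lit 341)) (XT.nd (nat_lit 78) (nat_lit 0) (nat_lit 0) (XT.lf (nat_lit 1900) (nat_lit 379822225) (nat_lit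 0) (nat_lit 382998422) (nat_lit 1900) (nat_lit 379822225) (nat_lit 522) (nat_lit 1) (nat_lit 497) (nat_lit 0) (nat_lit 522) (nat_lit 0) (nat_lit 438) (nat_lit 351) (nat_lit 351)) (XT.lf (nat_lit 1900) (nat_lit 1501874186) (nat_lit 76) (nat_lit 380478696) (nat_lit 0) (nat_lit 380478696) (nat_lit 522) (nat_lit 1) (nat_lit 498) (nat_lit 1) (nat_lit 497) (nat_lit 0) (nat_lit 439) (nat_lit 351) (nat_lit 350))))))))
noncomputable def ec1 : XT := (XT.nd (nat_lit 59670) (nat_lit 0) (nat_lit 0) (XT.nd (nat_lit 702) (nat_lit 76) (nat_lit 0) (XT.nd (nat_lit 312) (nat_lit 0) (nat_lit 152) (XT.nd (nat_lit 156) (nat_lit 0) (nat_lit 76) (XT.nd (nat_lit 78) (nat_lit 0) (nat_lit 0) (XT.lf (nat_lit 1900) (nat_lit 737427374) (nat_lit 0) (nat_lit 765767915) (nat_lit 1824) (nat_lit 737427374) (nat_lit 523) (nat_lit 1) (nat_lit 498) (nat_lit 1) (nat_lit 522) (nat_lit 1) (nat_lit 440) (nat_lit 351) (nat_lit 349)) (XT.lf (nat_lit 1900) (nat_lit 1443327158) (nat_lit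 76) (nat_lit 387711639) (nat_lit 0) (nat_lit 387711639) (nat_lit 523) (nat_lit 1) (nat_lit 499) (nat_lit 1) (nat_lit 498) (nat_lit 1) (nat_lit 441) (nat_lit 351) (nat_lit 348))) (XT.nd (nat_lit 78) (nat_lit 0) (nat_lit 0) (XT.lf (nat_lit 1900) (nat_lit 701429648) (nat_lit 0) (nat_lit 794260358) (nat_lit 1824) (nat_lit 701429648) (nat_lit 524) (nat_lit 1) (nat_lit 499) (nat_lit 1) (nat_lit 523) (nat_lit 1) (nat_lit 442) (nat_lit 351) (nat_lit 347)) (XT.lf (nat_lit 1900) (nat_lit 1357959526) (nat_lit 76) (nat_lit 408925510) (nat_lit 0) (nat_lit 408925510) (nat_lit 524) (nat_lit 1) (nat_lit 500) (nat_lit 1) (nat_lit 499) (nat_lit 1) (nat_lit 443) (nat_lit 351) (nat_lit 346)))) (XT.nd (nat_lit 156) (nat_lit 0) (nat_lit 76) (XT.nd (nat_lit 78) (nat_lit 0) (nat_lit 0) (XT.lf (nat_lit 1900) (nat_lit 652473516) (nat_lit 0) (nat_lit 849795896) (nat_lit 1824) (nat_lit 652473516) (nat_lit 525) (nat_lit 1) (nat_lit 500) (nat_lit 1) (nat_lit 524)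 (nat_lit 1) (nat_lit 444) (nat_lit 351) (nat_lit 345)) (XT.lf (nat_lit 1900) (nat_lit 1247383239) (nat_lit 76) (nat_lit 443297770) (nat_lit 0) (nat_lit 443297770) (nat_lit 525) (nat_lit 1) (nat_lit 501) (nat_lit 1) (nat_lit 500) (nat_lit 1) (nat_lit 445) (nat_lit 351) (nat_lit 344))) (XT.nd (nat_lit 78) (nat_lit 0) (nat_lit 0) (XT.lf (nat_lit 1900) (nat_lit 591343665) (nat_lit 0) (nat_lit 930772463) (nat_lit 1824) (nat_lit 591343665) (nat_lit 526) (nat_lit 1) (nat_lit 501) (nat_lit 1) (nat_lit 525) (nat_lit 1) (nat_lit 446) (nat_lit 351) (nat_lit 343)) (XT.nd (nat_lit 78) (nat_lit 0) (nat_lit 76) (XT.lf (nat_lit 1900) (nat_lit 1113136465) (nat_lit 76) (nat_lit 490043302) (nat_lit 0) (nat_lit 490043302) (nat_lit 526) (nat_lit 1) (nat_lit 502) (nat_lit 1) (nat_lit 501) (nat_lit 1) (nat_lit 447) (nat_lit 351) (nat_lit 342)) (XT.lf (nat_lit 1900) (nat_lit 518788789) (nat_lit 0) (nat_lit 1035661024) (nat_lit 1824) (nat_lit 518788789) (nat_lit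 527) (nat_lit 1) (nat_lit 502) (nat_lit 1) (nat_lit 526) (nat_lit 1) (nat_lit 448) (nat_lit 351) (nat_lit 341)))))) (XT.nd (nat_lit 58578) (nat_lit 0) (nat_lit 76) (XT.nd (nat_lit 58422) (nat_lit 0) (nat_lit 0) (XT.nd (nat_lit 58344) (nat_lit 380) (nat_lit 0) (XT.lf (nat_lit 1900) (nat_lit 956686679) (nat_lit 76) (nat_lit 548412854) (nat_lit 0) (nat_lit 548412854) (nat_lit 527) (nat_lit 1) (nat_lit 503) (nat_lit 1) (nat_lit 502) (nat_lit 1) (nat_lit 449) (nat_lit 351) (nat_lit 340)) (XT.lf (nat_lit 1900) (nat_lit 387418670) (nat_lit 0) (nat_lit 390658391) (nat_lit 1900) (nat_lit 387418670) (nat_lit 522) (nat_lit 1) (nat_lit 497) (nat_lit 0) (nat_lit 522) (nat_lit 0) (nat_lit 436) (nat_lit 352) (nat_lit 352))) (XT.nd (nat_lit 78) (nat_lit 0) (nat_lit 76) (XT.lf (nat_lit 1900) (nat_lit 1531911670) (nat_lit 76) (nat_lit 388088270) (nat_lit 0) (nat_lit 388088270) (nat_lit 522) (nat_lit 1) (nat_lit 498) (nat_lit 1) (nat_lit 497) (nat_lit 0)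 (nat_lit 437) (nat_lit 352) (nat_lit 351)) (XT.lf (nat_lit 1900) (nat_lit 752175922) (nat_lit 0) (nat_lit 781083274) (nat_lit 1824) (nat_lit 752175922) (nat_lit 523) (nat_lit 1) (nat_lit 498) (nat_lit 1) (nat_lit 522) (nat_lit 1) (nat_lit 438) (nat_lit 352) (nat_lit 350)))) (XT.nd (nat_lit 156) (nat_lit 0) (nat_lit 76) (XT.nd (nat_lit 78) (nat_lit 0) (nat_lit 76) (XT.lf (nat_lit 1900) (nat_lit 1472193701) (nat_lit 76) (nat_lit 395465872) (nat_lit 0) (nat_lit 395465872) (nat_lit 523) (nat_lit 1) (nat_lit 499) (nat_lit 1) (nat_lit 498) (nat_lit 1) (nat_lit 439) (nat_lit 352) (nat_lit 349)) (XT.lf (nat_lit 1900) (nat_lit 715458241) (nat_lit 0) (nat_lit 810145565) (nat_lit 1824) (nat_lit 715458241) (nat_lit 524) (nat_lit 1) (nat_lit 499) (nat_lit 1) (nat_lit 523) (nat_lit 1) (nat_lit 440) (nat_lit 352) (nat_lit 348))) (XT.nd (nat_lit 78) (nat_lit 0) (nat_lit 76) (XT.lf (nat_lit 1900) (nat_lit 1385118716) (nat_lit 76) (nat_lit 417104020) (nat_lit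 0) (nat_lit 417104020) (nat_lit 524) (nat_lit 1) (nat_lit 500) (nat_lit 1) (nat_lit 499) (nat_lit 1) (nat_lit 441) (nat_lit 352) (nat_lit 347)) (XT.nd (nat_lit 78) (nat_lit 0) (nat_lit 0) (XT.lf (nat_lit 1900) (nat_lit 665522987) (nat_lit 0) (nat_lit 866791814) (nat_lit 1824) (nat_lit 665522987) (nat_lit 525) (nat_lit 1) (nat_lit 500) (nat_lit 1) (nat_lit 524) (nat_lit 1) (nat_lit 442) (nat_lit 352) (nat_lit 346)) (XT.lf (nat_lit 1900) (nat_lit 1272330903) (nat_lit 76) (nat_lit 452163725) (nat_lit 0) (nat_lit 452163725) (nat_lit 525) (nat_lit 1) (nat_lit 501) (nat_lit 1) (nat_lit 500) (nat_lit 1) (nat_lit 443) (nat_lit 352) (nat_lit 345))))))) (XT.nd (nat_lit 58812) (nat_lit 0) (nat_lit 76) (XT.nd (nat_lit 312) (nat_lit 304) (nat_lit 0) (XT.nd (nat_lit 156) (nat_lit 0) (nat_lit 76) (XT.nd (nat_lit 78) (nat_lit 0) (nat_lit 0) (XT.lf (nat_lit 1900) (nat_lit 603170538) (nat_lit 0) (nat_lit 949387912) (nat_lit 1824) (nat_lit 603170538) (nat_lit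 526) (nat_lit 1) (nat_lit 501) (nat_lit 1) (nat_lit 525) (nat_lit 1) (nat_lit 444) (nat_lit 352) (nat_lit 344)) (XT.lf (nat_lit 1900) (nat_lit 1135399195) (nat_lit 76) (nat_lit 499844168) (nat_lit 0) (nat_lit 499844168) (nat_lit 526) (nat_lit 1) (nat_lit 502) (nat_lit 1) (nat_lit 501) (nat_lit 1) (nat_lit 445) (nat_lit 352) (nat_lit 343))) (XT.nd (nat_lit 78) (nat_lit 0) (nat_lit 0) (XT.lf (nat_lit 1900) (nat_lit 529164565) (nat_lit 0) (nat_lit 1056374244) (nat_lit 1824) (nat_lit 529164565) (nat_lit 527) (nat_lit 1) (nat_lit 502) (nat_lit 1) (nat_lit 526) (nat_lit 1) (nat_lit 446) (nat_lit 352) (nat_lit 342)) (XT.lf (nat_lit 1900) (nat_lit 975820413) (nat_lit 76) (nat_lit 559381111) (nat_lit 0) (nat_lit 559381111) (nat_lit 527) (nat_lit 1) (nat_lit 503) (nat_lit 1) (nat_lit 502) (nat_lit 1) (nat_lit 447) (nat_lit 352) (nat_lit 341)))) (XT.nd (nat_lit 58266) (nat_lit 456) (nat_lit 0) (XT.nd (nat_lit 78) (nat_lit 0) (nat_lit 0) (XT.lf (nat_lit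 1900) (nat_lit 444233563) (nat_lit 0) (nat_lit 1186262580) (nat_lit 1824) (nat_lit 444233563) (nat_lit 528) (nat_lit 1) (nat_lit 503) (nat_lit 1) (nat_lit 527) (nat_lit 1) (nat_lit 448) (nat_lit 352) (nat_lit 340)) (XT.lf (nat_lit 1900) (nat_lit 795022291) (nat_lit 76) (nat_lit 630045367) (nat_lit 0) (nat_lit 630045367) (nat_lit 528) (nat_lit 1) (nat_lit 504) (nat_lit 1) (nat_lit 503) (nat_lit 1) (nat_lit 449) (nat_lit 352) (nat_lit 339))) (XT.nd (nat_lit 78) (nat_lit 0) (nat_lit 0) (XT.lf (nat_lit 1900) (nat_lit 395167043) (nat_lit 0) (nat_lit 398471559) (nat_lit 1900) (nat_lit 395167043) (nat_lit 522) (nat_lit 1) (nat_lit 497) (nat_lit 0) (nat_lit 522) (nat_lit 0) (nat_lit 434) (nat_lit 353) (nat_lit 353)) (XT.nd (nat_lit 78) (nat_lit 0) (nat_lit 76) (XT.lf (nat_lit 1900) (nat_lit 1562549904) (nat_lit 76) (nat_lit 395850035) (nat_lit 0) (nat_lit 395850035) (nat_lit 522) (nat_lit 1) (nat_lit 498) (nat_lit 1) (nat_lit 497) (nat_lit 0)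 (nat_lit 435) (nat_lit 353) (nat_lit 352)) (XT.lf (nat_lit 1900) (nat_lit 767219440) (nat_lit 0) (nat_lit 796704939) (nat_lit 1824) (nat_lit 767219440) (nat_lit 523) (nat_lit 1) (nat_lit 498) (nat_lit 1) (nat_lit 522) (nat_lit 1) (nat_lit 436) (nat_lit 353) (nat_lit 351)))))) (XT.nd (nat_lit 390) (nat_lit 0) (nat_lit 228) (XT.nd (nat_lit 156) (nat_lit 0) (nat_lit 76) (XT.nd (nat_lit 78) (nat_lit 0) (nat_lit 76) (XT.lf (nat_lit 1900) (nat_lit 1501637575) (nat_lit 76) (nat_lit 403375189) (nat_lit 0) (nat_lit 403375189) (nat_lit 523) (nat_lit 1) (nat_lit 499) (nat_lit 1) (nat_lit 498) (nat_lit 1) (nat_lit 437) (nat_lit 353) (nat_lit 350)) (XT.lf (nat_lit 1900) (nat_lit 729767406) (nat_lit 0) (nat_lit 826348476) (nat_lit 1824) (nat_lit 729767406) (nat_lit 524) (nat_lit 1) (nat_lit 499) (nat_lit 1) (nat_lit 523) (nat_lit 1) (nat_lit 438) (nat_lit 353) (nat_lit 349))) (XT.nd (nat_lit 78) (nat_lit 0) (nat_lit 76) (XT.lf (nat_lit 1900) (nat_lit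 1412821091) (nat_lit 76) (nat_lit 425446101) (nat_lit 0) (nat_lit 425446101) (nat_lit 524) (nat_lit 1) (nat_lit 500) (nat_lit 1) (nat_lit 499) (nat_lit 1) (nat_lit 439) (nat_lit 353) (nat_lit 348)) (XT.nd (nat_lit 78) (nat_lit 0) (nat_lit 0) (XT.lf (nat_lit 1900) (nat_lit 678833446) (nat_lit 0) (nat_lit 884127650) (nat_lit 1824) (nat_lit 678833446) (nat_lit 525) (nat_lit 1) (nat_lit 500) (nat_lit 1) (nat_lit 524) (nat_lit 1) (nat_lit 440) (nat_lit 353) (nat_lit 347)) (XT.lf (nat_lit 1900) (nat_lit 1297777522) (nat_lit 76) (nat_lit 461207000) (nat_lit 0) (nat_lit 461207000) (nat_lit 525) (nat_lit 1) (nat_lit 501) (nat_lit 1) (nat_lit 500) (nat_lit 1) (nat_lit 441) (nat_lit 353) (nat_lit 346))))) (XT.nd (nat_lit 156) (nat_lit 0) (nat_lit 76) (XT.nd (nat_lit 78) (nat_lit 0) (nat_lit 0) (XT.lf (nat_lit 1900) (nat_lit 615233949) (nat_lit 0) (nat_lit 968375670) (nat_lit 1824) (nat_lit 615233949) (nat_lit 526) (nat_lit 1) (nat_lit 501) (nat_lit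 1) (nat_lit 525) (nat_lit 1) (nat_lit 442) (nat_lit 353) (nat_lit 345)) (XT.lf (nat_lit 1900) (nat_lit 1158107179) (nat_lit 76) (nat_lit 509841052) (nat_lit 0) (nat_lit 509841052) (nat_lit 526) (nat_lit 1) (nat_lit 502) (nat_lit 1) (nat_lit 501) (nat_lit 1) (nat_lit 443) (nat_lit 353) (nat_lit 344))) (XT.nd (nat_lit 78) (nat_lit 0) (nat_lit 0) (XT.lf (nat_lit 1900) (nat_lit 539747856) (nat_lit 0) (nat_lit 1077501729) (nat_lit 1824) (nat_lit 539747856) (nat_lit 527) (nat_lit 1) (nat_lit 502) (nat_lit 1) (nat_lit 526) (nat_lit 1) (nat_lit 444) (nat_lit 353) (nat_lit 343)) (XT.nd (nat_lit 78) (nat_lit 0) (nat_lit 76) (XT.lf (nat_lit 1900) (nat_lit 995336821) (nat_lit 76) (nat_lit 570568733) (nat_lit 0) (nat_lit 570568733) (nat_lit 527) (nat_lit 1) (nat_lit 503) (nat_lit 1) (nat_lit 502) (nat_lit 1) (nat_lit 445) (nat_lit 353) (nat_lit 342)) (XT.lf (nat_lit 1900) (nat_lit 453118234) (nat_lit 0) (nat_lit 1209987832) (nat_lit 1824) (nat_lit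 453118234) (nat_lit 528) (nat_lit 1) (nat_lit 503) (nat_lit 1) (nat_lit 527) (nat_lit 1) (nat_lit 446) (nat_lit 353) (nat_lit 341))))))))
noncomputable def ec2 : XT := (XT.nd (nat_lit 59358) (nat_lit 0) (nat_lit 0) (XT.nd (nat_lit 58656) (nat_lit 0) (nat_lit 228) (XT.nd (nat_lit 58266) (nat_lit 0) (nat_lit 0) (XT.nd (nat_lit 156) (nat_lit 456) (nat_lit 0) (XT.nd (nat_lit 78) (nat_lit 0) (nat_lit 76) (XT.lf (nat_lit 1900) (nat_lit 810922737) (nat_lit 76) (nat_lit 642646274) (nat_lit 0) (nat_lit 642646274) (nat_lit 528) (nat_lit 1) (nat_lit 504) (nat_lit 1) (nat_lit 503) (nat_lit 1) (nat_lit 447) (nat_lit 353) (nat_lit 340)) (XT.lf (nat_lit 1900) (nat_lit 356053776) (nat_lit 0) (nat_lit 1364385751) (nat_lit 1824) (nat_lit 356053776) (nat_lit 529) (nat_lit 1) (nat_lit 504) (nat_lit 1) (nat_lit 528) (nat_lit 1) (nat_lit 448) (nat_lit 353) (nat_lit 339))) (XT.nd (nat_lit 58032) (nat_lit 532) (nat_lit 0) (XT.lf (nat_lit 1900) (nat_lit 606253697)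 (nat_lit 76) (nat_lit 725364162) (nat_lit 0) (nat_lit 725364162) (nat_lit 529) (nat_lit 1) (nat_lit 505) (nat_lit 1) (nat_lit 504) (nat_lit 1) (nat_lit 449) (nat_lit 353) (nat_lit 338)) (XT.lf (nat_lit 1900) (nat_lit 403070384) (nat_lit 0) (nat_lit 406440990) (nat_lit 1900) (nat_lit 403070384) (nat_lit 522) (nat_lit 1) (nat_lit 497) (nat_lit 0) (nat_lit 522) (nat_lit 0) (nat_lit 432) (nat_lit 354) (nat_lit 354)))) (XT.nd (nat_lit 156) (nat_lit 0) (nat_lit 76) (XT.nd (nat_lit 78) (nat_lit 0) (nat_lit 76) (XT.lf (nat_lit 1900) (nat_lit 1593800902) (nat_lit 76) (nat_lit 403767036) (nat_lit 0) (nat_lit 403767036) (nat_lit 522) (nat_lit 1) (nat_lit 498) (nat_lit 1) (nat_lit 497) (nat_lit 0) (nat_lit 433) (nat_lit 354) (nat_lit 353)) (XT.lf (nat_lit 1900) (nat_lit 782563829) (nat_lit 0) (nat_lit 812639038) (nat_lit 1824) (nat_lit 782563829) (nat_lit 523) (nat_lit 1) (nat_lit 498) (nat_lit 1) (nat_lit 522) (nat_lit 1) (nat_lit 434) (nat_lit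 354) (nat_lit 352))) (XT.nd (nat_lit 78) (nat_lit 0) (nat_lit 76) (XT.lf (nat_lit 1900) (nat_lit 1531670327) (nat_lit 76) (nat_lit 411442693) (nat_lit 0) (nat_lit 411442693) (nat_lit 523) (nat_lit 1) (nat_lit 499) (nat_lit 1) (nat_lit 498) (nat_lit 1) (nat_lit 435) (nat_lit 354) (nat_lit 351)) (XT.nd (nat_lit 78) (nat_lit 0) (nat_lit 0) (XT.lf (nat_lit 1900) (nat_lit 744362754) (nat_lit 0) (nat_lit 842875446) (nat_lit 1824) (nat_lit 744362754) (nat_lit 524) (nat_lit 1) (nat_lit 499) (nat_lit 1) (nat_lit 523) (nat_lit 1) (nat_lit 436) (nat_lit 354) (nat_lit 350)) (XT.lf (nat_lit 1900) (nat_lit 1441077512) (nat_lit 76) (nat_lit 433955023) (nat_lit 0) (nat_lit 433955023) (nat_lit 524) (nat_lit 1) (nat_lit 500) (nat_lit 1) (nat_lit 499) (nat_lit 1) (nat_lit 437) (nat_lit 354) (nat_lit 349)))))) (XT.nd (nat_lit 312) (nat_lit 0) (nat_lit 152) (XT.nd (nat_lit 156) (nat_lit 0) (nat_lit 76) (XT.nd (nat_lit 78) (nat_lit 0) (nat_lit 0) (XT.lf (nat_lit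 1900) (nat_lit 692410115) (nat_lit 0) (nat_lit 901810203) (nat_lit 1824) (nat_lit 692410115) (nat_lit 525) (nat_lit 1) (nat_lit 500) (nat_lit 1) (nat_lit 524) (nat_lit 1) (nat_lit 438) (nat_lit 354) (nat_lit 348)) (XT.lf (nat_lit 1900) (nat_lit 1323733072) (nat_lit 76) (nat_lit 470431140) (nat_lit 0) (nat_lit 470431140) (nat_lit 525) (nat_lit 1) (nat_lit 501) (nat_lit 1) (nat_lit 500) (nat_lit 1) (nat_lit 439) (nat_lit 354) (nat_lit 347))) (XT.nd (nat_lit 78) (nat_lit 0) (nat_lit 0) (XT.lf (nat_lit 1900) (nat_lit 627538628) (nat_lit 0) (nat_lit 987743184) (nat_lit 1824) (nat_lit 627538628) (nat_lit 526) (nat_lit 1) (nat_lit 501) (nat_lit 1) (nat_lit 525) (nat_lit 1) (nat_lit 440) (nat_lit 354) (nat_lit 346)) (XT.lf (nat_lit 1900) (nat_lit 1181269322) (nat_lit 76) (nat_lit 520037873) (nat_lit 0) (nat_lit 520037873) (nat_lit 526) (nat_lit 1) (nat_lit 502) (nat_lit 1) (nat_lit 501) (nat_lit 1) (nat_lit 441) (nat_lit 354) (nat_lit 345))))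 (XT.nd (nat_lit 156) (nat_lit 0) (nat_lit 76) (XT.nd (nat_lit 78) (nat_lit 0) (nat_lit 0) (XT.lf (nat_lit 1900) (nat_lit 550542813) (nat_lit 0) (nat_lit 1099051764) (nat_lit 1824) (nat_lit 550542813) (nat_lit 527) (nat_lit 1) (nat_lit 502) (nat_lit 1) (nat_lit 526) (nat_lit 1) (nat_lit 442) (nat_lit 354) (nat_lit 344)) (XT.lf (nat_lit 1900) (nat_lit 1015243557) (nat_lit 76) (nat_lit 581980108) (nat_lit 0) (nat_lit 581980108) (nat_lit 527) (nat_lit 1) (nat_lit 503) (nat_lit 1) (nat_lit 502) (nat_lit 1) (nat_lit 443) (nat_lit 354) (nat_lit 343))) (XT.nd (nat_lit 78) (nat_lit 0) (nat_lit 0) (XT.lf (nat_lit 1900) (nat_lit 462180599) (nat_lit 0) (nat_lit 1234187589) (nat_lit 1824) (nat_lit 462180599) (nat_lit 528) (nat_lit 1) (nat_lit 503) (nat_lit 1) (nat_lit 527) (nat_lit 1) (nat_lit 444) (nat_lit 354) (nat_lit 342)) (XT.nd (nat_lit 78) (nat_lit 0) (nat_lit 76) (XT.lf (nat_lit 1900) (nat_lit 827141191) (nat_lit 76) (nat_lit 655499200) (nat_lit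 0) (nat_lit 655499200) (nat_lit 528) (nat_lit 1) (nat_lit 504) (nat_lit 1) (nat_lit 503) (nat_lit 1) (nat_lit 445) (nat_lit 354) (nat_lit 341)) (XT.lf (nat_lit 1900) (nat_lit 363174851) (nat_lit 0) (nat_lit 1391673466) (nat_lit 1824) (nat_lit 363174851) (nat_lit 529) (nat_lit 1) (nat_lit 504) (nat_lit 1) (nat_lit 528) (nat_lit 1) (nat_lit 446) (nat_lit 354) (nat_lit 340))))))) (XT.nd (nat_lit 58500) (nat_lit 0) (nat_lit 228) (XT.nd (nat_lit 58110) (nat_lit 0) (nat_lit 0) (XT.nd (nat_lit 156) (nat_lit 532) (nat_lit 0) (XT.nd (nat_lit 78) (nat_lit 0) (nat_lit 76) (XT.lf (nat_lit 1900) (nat_lit 618378771) (nat_lit 76) (nat_lit 739871445) (nat_lit 0) (nat_lit 739871445) (nat_lit 529) (nat_lit 1) (nat_lit 505) (nat_lit 1) (nat_lit 504) (nat_lit 1) (nat_lit 447) (nat_lit 354) (nat_lit 339)) (XT.lf (nat_lit 1900) (nat_lit 254214846) (nat_lit 0) (nat_lit 1570100388) (nat_lit 1824) (nat_lit 254214846) (nat_lit 530) (nat_lit 1) (nat_lit 505) (nat_lit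 1) (nat_lit 529) (nat_lit 1) (nat_lit 448) (nat_lit 354) (nat_lit 338))) (XT.nd (nat_lit 57876) (nat_lit 608) (nat_lit 0) (XT.lf (nat_lit 1900) (nat_lit 390306871) (nat_lit 76) (nat_lit 834406618) (nat_lit 0) (nat_lit 834406618) (nat_lit 530) (nat_lit 1) (nat_lit 506) (nat_lit 1) (nat_lit 505) (nat_lit 1) (nat_lit 449) (nat_lit 354) (nat_lit 337)) (XT.lf (nat_lit 1900) (nat_lit 411131792) (nat_lit 0) (nat_lit 414569810) (nat_lit 1900) (nat_lit 411131792) (nat_lit 522) (nat_lit 1) (nat_lit 497) (nat_lit 0) (nat_lit 522) (nat_lit 0) (nat_lit 430) (nat_lit 355) (nat_lit 355)))) (XT.nd (nat_lit 156) (nat_lit 0) (nat_lit 76) (XT.nd (nat_lit 78) (nat_lit 0) (nat_lit 76) (XT.lf (nat_lit 1900) (nat_lit 1625676920) (nat_lit 76) (nat_lit 411842377) (nat_lit 0) (nat_lit 411842377) (nat_lit 522) (nat_lit 1) (nat_lit 498) (nat_lit 1) (nat_lit 497) (nat_lit 0) (nat_lit 431) (nat_lit 355) (nat_lit 354)) (XT.lf (nat_lit 1900) (nat_lit 798215106) (nat_lit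 0) (nat_lit 828891819) (nat_lit 1824) (nat_lit 798215106) (nat_lit 523) (nat_lit 1) (nat_lit 498) (nat_lit 1) (nat_lit 522) (nat_lit 1) (nat_lit 432) (nat_lit 355) (nat_lit 353))) (XT.nd (nat_lit 78) (nat_lit 0) (nat_lit 76) (XT.lf (nat_lit 1900) (nat_lit 1562303733) (nat_lit 76) (nat_lit 419671547) (nat_lit 0) (nat_lit 419671547) (nat_lit 523) (nat_lit 1) (nat_lit 499) (nat_lit 1) (nat_lit 498) (nat_lit 1) (nat_lit 433) (nat_lit 355) (nat_lit 352)) (XT.nd (nat_lit 78) (nat_lit 0) (nat_lit 0) (XT.lf (nat_lit 1900) (nat_lit 759250009) (nat_lit 0) (nat_lit 859732954) (nat_lit 1824) (nat_lit 759250009) (nat_lit 524) (nat_lit 1) (nat_lit 499) (nat_lit 1) (nat_lit 523) (nat_lit 1) (nat_lit 434) (nat_lit 355) (nat_lit 351)) (XT.lf (nat_lit 1900) (nat_lit 1469899063) (nat_lit 76) (nat_lit 442634123) (nat_lit 0) (nat_lit 442634123) (nat_lit 524) (nat_lit 1) (nat_lit 500) (nat_lit 1) (nat_lit 499) (nat_lit 1) (nat_lit 435) (nat_lit 355) (nat_lit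 350)))))) (XT.nd (nat_lit 312) (nat_lit 0) (nat_lit 152) (XT.nd (nat_lit 156) (nat_lit 0) (nat_lit 76) (XT.nd (nat_lit 78) (nat_lit 0) (nat_lit 0) (XT.lf (nat_lit 1900) (nat_lit 706258318) (nat_lit 0) (nat_lit 919846407) (nat_lit 1824) (nat_lit 706258318) (nat_lit 525) (nat_lit 1) (nat_lit 500) (nat_lit 1) (nat_lit 524) (nat_lit 1) (nat_lit 436) (nat_lit 355) (nat_lit 349)) (XT.lf (nat_lit 1900) (nat_lit 1350207733) (nat_lit 76) (nat_lit 479839763) (nat_lit 0) (nat_lit 479839763) (nat_lit 525) (nat_lit 1) (nat_lit 501) (nat_lit 1) (nat_lit 500) (nat_lit 1) (nat_lit 437) (nat_lit 355) (nat_lit 348))) (XT.nd (nat_lit 78) (nat_lit 0) (nat_lit 0) (XT.lf (nat_lit 1900) (nat_lit 640089400) (nat_lit 0) (nat_lit 1007498047) (nat_lit 1824) (nat_lit 640089400) (nat_lit 526) (nat_lit 1) (nat_lit 501) (nat_lit 1) (nat_lit 525) (nat_lit 1) (nat_lit 438) (nat_lit 355) (nat_lit 347)) (XT.lf (nat_lit 1900) (nat_lit 1204894709) (nat_lit 76) (nat_lit 530438630)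 (nat_lit 0) (nat_lit 530438630) (nat_lit 526) (nat_lit 1) (nat_lit 502) (nat_lit 1) (nat_lit 501) (nat_lit 1) (nat_lit 439) (nat_lit 355) (nat_lit 346)))) (XT.nd (nat_lit 156) (nat_lit 0) (nat_lit 76) (XT.nd (nat_lit 78) (nat_lit 0) (nat_lit 0) (XT.lf (nat_lit 1900) (nat_lit 561553670) (nat_lit 0) (nat_lit 1121032799) (nat_lit 1824) (nat_lit 561553670) (nat_lit 527) (nat_lit 1) (nat_lit 502) (nat_lit 1) (nat_lit 526) (nat_lit 1) (nat_lit 440) (nat_lit 355) (nat_lit 345)) (XT.lf (nat_lit 1900) (nat_lit 1035548429) (nat_lit 76) (nat_lit 593619710) (nat_lit 0) (nat_lit 593619710) (nat_lit 527) (nat_lit 1) (nat_lit 503) (nat_lit 1) (nat_lit 502) (nat_lit 1) (nat_lit 441) (nat_lit 355) (nat_lit 344))) (XT.nd (nat_lit 78) (nat_lit 0) (nat_lit 0) (XT.lf (nat_lit 1900) (nat_lit 471424211) (nat_lit 0) (nat_lit 1258871340) (nat_lit 1824) (nat_lit 471424211) (nat_lit 528) (nat_lit 1) (nat_lit 503) (nat_lit 1) (nat_lit 527) (nat_lit 1) (nat_lit 442)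 (nat_lit 355) (nat_lit 343)) (XT.nd (nat_lit 78) (nat_lit 0) (nat_lit 76) (XT.lf (nat_lit 1900) (nat_lit 843684015) (nat_lit 76) (nat_lit 668609184) (nat_lit 0) (nat_lit 668609184) (nat_lit 528) (nat_lit 1) (nat_lit 504) (nat_lit 1) (nat_lit 503) (nat_lit 1) (nat_lit 443) (nat_lit 355) (nat_lit 342)) (XT.lf (nat_lit 1900) (nat_lit 370438348) (nat_lit 0) (nat_lit 1419506936) (nat_lit 1824) (nat_lit 370438348) (nat_lit 529) (nat_lit 1) (nat_lit 504) (nat_lit 1) (nat_lit 528) (nat_lit 1) (nat_lit 444) (nat_lit 355) (nat_lit 341))))))))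
noncomputable def ec3 : XT := (XT.nd (nat_lit 59046) (nat_lit 1140) (nat_lit 0) (XT.nd (nat_lit 58344) (nat_lit 0) (nat_lit 152) (XT.nd (nat_lit 312) (nat_lit 532) (nat_lit 0) (XT.nd (nat_lit 156) (nat_lit 0) (nat_lit 76) (XT.nd (nat_lit 78) (nat_lit 0) (nat_lit 76) (XT.lf (nat_lit 1900) (nat_lit 630746346) (nat_lit 76) (nat_lit 754668874) (nat_lit 0) (nat_lit 754668874) (nat_lit 529) (nat_lit 1) (nat_lit 505) (nat_lit 1) (nat_lit 504) (nat_lit 1) (nat_lit 445) (nat_lit 355) (nat_lit 340)) (XT.lf (nat_lit 1900) (nat_lit 259299143) (nat_lit 0) (nat_lit 1601502396) (nat_lit 1824) (nat_lit 259299143) (nat_lit 530) (nat_lit 1) (nat_lit 505) (nat_lit 1) (nat_lit 529) (nat_lit 1) (nat_lit 446) (nat_lit 355) (nat_lit 339))) (XT.nd (nat_lit 78) (nat_lit 0) (nat_lit 76) (XT.lf (nat_lit 1900) (nat_lit 398113009) (nat_lit 76) (nat_lit 851094751) (nat_lit 0) (nat_lit 851094751) (nat_lit 530) (nat_lit 1) (nat_lit 506) (nat_lit 1) (nat_lit 505) (nat_lit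 1) (nat_lit 447) (nat_lit 355) (nat_lit 338)) (XT.lf (nat_lit 1900) (nat_lit 138676838) (nat_lit 0) (nat_lit 1803487164) (nat_lit 1824) (nat_lit 138676838) (nat_lit 531) (nat_lit 1) (nat_lit 506) (nat_lit 1) (nat_lit 530) (nat_lit 1) (nat_lit 448) (nat_lit 355) (nat_lit 337)))) (XT.nd (nat_lit 57798) (nat_lit 0) (nat_lit 0) (XT.nd (nat_lit 57720) (nat_lit 684) (nat_lit 0) (XT.lf (nat_lit 1900) (nat_lit 147097128) (nat_lit 76) (nat_lit 957215498) (nat_lit 0) (nat_lit 957215498) (nat_lit 531) (nat_lit 1) (nat_lit 507) (nat_lit 1) (nat_lit 506) (nat_lit 1) (nat_lit 449) (nat_lit 355) (nat_lit 336)) (XT.lf (nat_lit 1900) (nat_lit 419354427) (nat_lit 0) (nat_lit 422861206) (nat_lit 1900) (nat_lit 419354427) (nat_lit 522) (nat_lit 1) (nat_lit 497) (nat_lit 0) (nat_lit 522) (nat_lit 0) (nat_lit 428) (nat_lit 356) (nat_lit 356))) (XT.nd (nat_lit 78) (nat_lit 0) (nat_lit 76) (XT.lf (nat_lit 1900) (nat_lit 1658190458) (nat_lit 76) (nat_lit 420079224)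 (nat_lit 0) (nat_lit 420079224) (nat_lit 522) (nat_lit 1) (nat_lit 498) (nat_lit 1) (nat_lit 497) (nat_lit 0) (nat_lit 429) (nat_lit 356) (nat_lit 355)) (XT.nd (nat_lit 78) (nat_lit 0) (nat_lit 0) (XT.lf (nat_lit 1900) (nat_lit 814179408) (nat_lit 0) (nat_lit 845469655) (nat_lit 1824) (nat_lit 814179408) (nat_lit 523) (nat_lit 1) (nat_lit 498) (nat_lit 1) (nat_lit 522) (nat_lit 1) (nat_lit 430) (nat_lit 356) (nat_lit 354)) (XT.lf (nat_lit 1900) (nat_lit 1593549808) (nat_lit 76) (nat_lit 428064978) (nat_lit 0) (nat_lit 428064978) (nat_lit 523) (nat_lit 1) (nat_lit 499) (nat_lit 1) (nat_lit 498) (nat_lit 1) (nat_lit 431) (nat_lit 356) (nat_lit 353)))))) (XT.nd (nat_lit 312) (nat_lit 0) (nat_lit 152) (XT.nd (nat_lit 156) (nat_lit 0) (nat_lit 76) (XT.nd (nat_lit 78) (nat_lit 0) (nat_lit 0) (XT.lf (nat_lit 1900) (nat_lit 774435009) (nat_lit 0) (nat_lit 876927614) (nat_lit 1824) (nat_lit 774435009) (nat_lit 524) (nat_lit 1) (nat_lit 499) (nat_lit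 1) (nat_lit 523) (nat_lit 1) (nat_lit 432) (nat_lit 356) (nat_lit 352)) (XT.lf (nat_lit 1900) (nat_lit 1499297044) (nat_lit 76) (nat_lit 451486806) (nat_lit 0) (nat_lit 451486806) (nat_lit 524) (nat_lit 1) (nat_lit 500) (nat_lit 1) (nat_lit 499) (nat_lit 1) (nat_lit 433) (nat_lit 356) (nat_lit 351))) (XT.nd (nat_lit 78) (nat_lit 0) (nat_lit 0) (XT.lf (nat_lit 1900) (nat_lit 720383484) (nat_lit 0) (nat_lit 938243335) (nat_lit 1824) (nat_lit 720383484) (nat_lit 525) (nat_lit 1) (nat_lit 500) (nat_lit 1) (nat_lit 524) (nat_lit 1) (nat_lit 434) (nat_lit 356) (nat_lit 350)) (XT.lf (nat_lit 1900) (nat_lit 1377211888) (nat_lit 76) (nat_lit 489436558) (nat_lit 0) (nat_lit 489436558) (nat_lit 525) (nat_lit 1) (nat_lit 501) (nat_lit 1) (nat_lit 500) (nat_lit 1) (nat_lit 435) (nat_lit 356) (nat_lit 349)))) (XT.nd (nat_lit 156) (nat_lit 0) (nat_lit 76) (XT.nd (nat_lit 78) (nat_lit 0) (nat_lit 0) (XT.lf (nat_lit 1900) (nat_lit 652891188) (nat_lit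 0) (nat_lit 1027648008) (nat_lit 1824) (nat_lit 652891188) (nat_lit 526) (nat_lit 1) (nat_lit 501) (nat_lit 1) (nat_lit 525) (nat_lit 1) (nat_lit 436) (nat_lit 356) (nat_lit 348)) (XT.lf (nat_lit 1900) (nat_lit 1228992603) (nat_lit 76) (nat_lit 541047403) (nat_lit 0) (nat_lit 541047403) (nat_lit 526) (nat_lit 1) (nat_lit 502) (nat_lit 1) (nat_lit 501) (nat_lit 1) (nat_lit 437) (nat_lit 356) (nat_lit 347))) (XT.nd (nat_lit 78) (nat_lit 0) (nat_lit 0) (XT.lf (nat_lit 1900) (nat_lit 572784743) (nat_lit 0) (nat_lit 1143453455) (nat_lit 1824) (nat_lit 572784743) (nat_lit 527) (nat_lit 1) (nat_lit 502) (nat_lit 1) (nat_lit 526) (nat_lit 1) (nat_lit 438) (nat_lit 356) (nat_lit 346)) (XT.nd (nat_lit 78) (nat_lit 0) (nat_lit 76) (XT.lf (nat_lit 1900) (nat_lit 1056259397) (nat_lit 76) (nat_lit 605492104) (nat_lit 0) (nat_lit 605492104) (nat_lit 527) (nat_lit 1) (nat_lit 503) (nat_lit 1) (nat_lit 502) (nat_lit 1) (nat_lit 439) (nat_lit 356) (nat_lit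 345)) (XT.lf (nat_lit 1900) (nat_lit 480852695) (nat_lit 0) (nat_lit 1284048767) (nat_lit 1824) (nat_lit 480852695) (nat_lit 528) (nat_lit 1) (nat_lit 503) (nat_lit 1) (nat_lit 527) (nat_lit 1) (nat_lit 440) (nat_lit 356) (nat_lit 344))))))) (XT.nd (nat_lit 58188) (nat_lit 0) (nat_lit 1140) (XT.nd (nat_lit 312) (nat_lit 1596) (nat_lit 0) (XT.nd (nat_lit 156) (nat_lit 0) (nat_lit 76) (XT.nd (nat_lit 78) (nat_lit 0) (nat_lit 76) (XT.lf (nat_lit 1900) (nat_lit 860557695) (nat_lit 76) (nat_lit 681981367) (nat_lit 0) (nat_lit 681981367) (nat_lit 528) (nat_lit 1) (nat_lit 504) (nat_lit 1) (nat_lit 503) (nat_lit 1) (nat_lit 441) (nat_lit 356) (nat_lit 343)) (XT.lf (nat_lit 1900) (nat_lit 377847115) (nat_lit 0) (nat_lit 1447897074) (nat_lit 1824) (nat_lit 377847115) (nat_lit 529) (nat_lit 1) (nat_lit 504) (nat_lit 1) (nat_lit 528) (nat_lit 1) (nat_lit 442) (nat_lit 356) (nat_lit 342))) (XT.nd (nat_lit 78) (nat_lit 0) (nat_lit 76) (XT.lf (nat_lit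 1900) (nat_lit 643361273) (nat_lit 76) (nat_lit 769762251) (nat_lit 0) (nat_lit 769762251) (nat_lit 529) (nat_lit 1) (nat_lit 505) (nat_lit 1) (nat_lit 504) (nat_lit 1) (nat_lit 443) (nat_lit 356) (nat_lit 341)) (XT.lf (nat_lit 1900) (nat_lit 264485126) (nat_lit 0) (nat_lit 1633532444) (nat_lit 1824) (nat_lit 264485126) (nat_lit 530) (nat_lit 1) (nat_lit 505) (nat_lit 1) (nat_lit 529) (nat_lit 1) (nat_lit 444) (nat_lit 356) (nat_lit 340)))) (XT.nd (nat_lit 156) (nat_lit 1748) (nat_lit 0) (XT.nd (nat_lit 78) (nat_lit 0) (nat_lit 76) (XT.lf (nat_lit 1900) (nat_lit 406075269) (nat_lit 76) (nat_lit 868116646) (nat_lit 0) (nat_lit 868116646) (nat_lit 530) (nat_lit 1) (nat_lit 506) (nat_lit 1) (nat_lit 505) (nat_lit 1) (nat_lit 445) (nat_lit 356) (nat_lit 339)) (XT.lf (nat_lit 1900) (nat_lit 141450375) (nat_lit 0) (nat_lit 1839556908) (nat_lit 1824) (nat_lit 141450375) (nat_lit 531) (nat_lit 1) (nat_lit 506) (nat_lit 1) (nat_lit 530) (nat_lit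 1) (nat_lit 446) (nat_lit 356) (nat_lit 338))) (XT.nd (nat_lit 78) (nat_lit 1824) (nat_lit 0) (XT.lf (nat_lit 1900) (nat_lit 150039071) (nat_lit 76) (nat_lit 976359808) (nat_lit 0) (nat_lit 976359808) (nat_lit 531) (nat_lit 1) (nat_lit 507) (nat_lit 1) (nat_lit 506) (nat_lit 1) (nat_lit 447) (nat_lit 356) (nat_lit 337)) (XT.nd (nat_lit 78) (nat_lit 1900) (nat_lit 0) (XT.lf (nat_lit 1900) (nat_lit 9394443) (nat_lit 0) (nat_lit 2064637603) (nat_lit 1824) (nat_lit 9394443) (nat_lit 532) (nat_lit 1) (nat_lit 507) (nat_lit 1) (nat_lit 531) (nat_lit 1) (nat_lit 448) (nat_lit 356) (nat_lit 336)) (XT.lf (nat_lit 1976) (nat_lit 971169710) (nat_lit 0) (nat_lit 121851564) (nat_lit 1900) (nat_lit 971169710) (nat_lit 508) (nat_lit 1) (nat_lit 482) (nat_lit 1) (nat_lit 507) (nat_lit 1) (nat_lit 449) (nat_lit 356) (nat_lit 335)))))) (XT.nd (nat_lit 390) (nat_lit 0) (nat_lit 152) (XT.nd (nat_lit 156) (nat_lit 0) (nat_lit 76) (XT.nd (nat_lit 78) (nat_lit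 0) (nat_lit 0) (XT.lf (nat_lit 1900) (nat_lit 427741516) (nat_lit 0) (nat_lit 431318430) (nat_lit 1900) (nat_lit 427741516) (nat_lit 522) (nat_lit 1) (nat_lit 497) (nat_lit 0) (nat_lit 522) (nat_lit 0) (nat_lit 426) (nat_lit 357) (nat_lit 357)) (XT.lf (nat_lit 1900) (nat_lit 1691354267) (nat_lit 76) (nat_lit 428480809) (nat_lit 0) (nat_lit 428480809) (nat_lit 522) (nat_lit 1) (nat_lit 498) (nat_lit 1) (nat_lit 497) (nat_lit 0) (nat_lit 427) (nat_lit 357) (nat_lit 356))) (XT.nd (nat_lit 78) (nat_lit 0) (nat_lit 0) (XT.lf (nat_lit 1900) (nat_lit 830462996) (nat_lit 0) (nat_lit 862379048) (nat_lit 1824) (nat_lit 830462996) (nat_lit 523) (nat_lit 1) (nat_lit 498) (nat_lit 1) (nat_lit 522) (nat_lit 1) (nat_lit 428) (nat_lit 357) (nat_lit 355)) (XT.nd (nat_lit 78) (nat_lit 0) (nat_lit 76) (XT.lf (nat_lit 1900) (nat_lit 1625420804) (nat_lit 76) (nat_lit 436626277) (nat_lit 0) (nat_lit 436626277) (nat_lit 523) (nat_lit 1) (nat_lit 499) (nat_lit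 1) (nat_lit 498) (nat_lit 1) (nat_lit 429) (nat_lit 357) (nat_lit 354)) (XT.lf (nat_lit 1900) (nat_lit 789923709) (nat_lit 0) (nat_lit 894466166) (nat_lit 1824) (nat_lit 789923709) (nat_lit 524) (nat_lit 1) (nat_lit 499) (nat_lit 1) (nat_lit 523) (nat_lit 1) (nat_lit 430) (nat_lit 357) (nat_lit 353))))) (XT.nd (nat_lit 156) (nat_lit 0) (nat_lit 76) (XT.nd (nat_lit 78) (nat_lit 0) (nat_lit 76) (XT.lf (nat_lit 1900) (nat_lit 1529282985) (nat_lit 76) (nat_lit 460516542) (nat_lit 0) (nat_lit 460516542) (nat_lit 524) (nat_lit 1) (nat_lit 500) (nat_lit 1) (nat_lit 499) (nat_lit 1) (nat_lit 431) (nat_lit 357) (nat_lit 352)) (XT.lf (nat_lit 1900) (nat_lit 734791154) (nat_lit 0) (nat_lit 957008202) (nat_lit 1824) (nat_lit 734791154) (nat_lit 525) (nat_lit 1) (nat_lit 500) (nat_lit 1) (nat_lit 524) (nat_lit 1) (nat_lit 432) (nat_lit 357) (nat_lit 351))) (XT.nd (nat_lit 78) (nat_lit 0) (nat_lit 76) (XT.lf (nat_lit 1900) (nat_lit 1404756126) (nat_lit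 76) (nat_lit 499225289) (nat_lit 0) (nat_lit 499225289) (nat_lit 525) (nat_lit 1) (nat_lit 501) (nat_lit 1) (nat_lit 500) (nat_lit 1) (nat_lit 433) (nat_lit 357) (nat_lit 350)) (XT.nd (nat_lit 78) (nat_lit 0) (nat_lit 0) (XT.lf (nat_lit 1900) (nat_lit 665949012) (nat_lit 0) (nat_lit 1048200968) (nat_lit 1824) (nat_lit 665949012) (nat_lit 526) (nat_lit 1) (nat_lit 501) (nat_lit 1) (nat_lit 525) (nat_lit 1) (nat_lit 434) (nat_lit 357) (nat_lit 349)) (XT.lf (nat_lit 1900) (nat_lit 1253572455) (nat_lit 76) (nat_lit 551868351) (nat_lit 0) (nat_lit 551868351) (nat_lit 526) (nat_lit 1) (nat_lit 502) (nat_lit 1) (nat_lit 501) (nat_lit 1) (nat_lit 435) (nat_lit 357) (nat_lit 348))))))))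
noncomputable def ec4 : XT := (XT.nd (nat_lit 58734) (nat_lit 0) (nat_lit 0) (XT.nd (nat_lit 702) (nat_lit 1520) (nat_lit 0) (XT.nd (nat_lit 312) (nat_lit 0) (nat_lit 152) (XT.nd (nat_lit 156) (nat_lit 0) (nat_lit 76) (XT.nd (nat_lit 78) (nat_lit 0) (nat_lit 0) (XT.lf (nat_lit 1900) (nat_lit 584240438) (nat_lit 0) (nat_lit 1166322524) (nat_lit 1824) (nat_lit 584240438) (nat_lit 527) (nat_lit 1) (nat_lit 502) (nat_lit 1) (nat_lit 526) (nat_lit 1) (nat_lit 436) (nat_lit 357) (nat_lit 347)) (XT.lf (nat_lit 1900) (nat_lit 1077384585) (nat_lit 76) (nat_lit 617601946) (nat_lit 0) (nat_lit 617601946) (nat_lit 527) (nat_lit 1) (nat_lit 503) (nat_lit 1) (nat_lit 502) (nat_lit 1) (nat_lit 437) (nat_lit 357) (nat_lit 346))) (XT.nd (nat_lit 78) (nat_lit 0) (nat_lit 0) (XT.lf (nat_lit 1900) (nat_lit 490469749) (nat_lit 0) (nat_lit 1309729743) (nat_lit 1824) (nat_lit 490469749) (nat_lit 528) (nat_lit 1) (nat_lit 503) (nat_lit 1) (nat_lit 527) (nat_lit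 1) (nat_lit 438) (nat_lit 357) (nat_lit 345)) (XT.lf (nat_lit 1900) (nat_lit 877768849) (nat_lit 76) (nat_lit 695620995) (nat_lit 0) (nat_lit 695620995) (nat_lit 528) (nat_lit 1) (nat_lit 504) (nat_lit 1) (nat_lit 503) (nat_lit 1) (nat_lit 439) (nat_lit 357) (nat_lit 344)))) (XT.nd (nat_lit 156) (nat_lit 0) (nat_lit 76) (XT.nd (nat_lit 78) (nat_lit 0) (nat_lit 0) (XT.lf (nat_lit 1900) (nat_lit 385404057) (nat_lit 0) (nat_lit 1476855016) (nat_lit 1824) (nat_lit 385404057) (nat_lit 529) (nat_lit 1) (nat_lit 504) (nat_lit 1) (nat_lit 528) (nat_lit 1) (nat_lit 440) (nat_lit 357) (nat_lit 343)) (XT.lf (nat_lit 1900) (nat_lit 656228499) (nat_lit 76) (nat_lit 785157496) (nat_lit 0) (nat_lit 785157496) (nat_lit 529) (nat_lit 1) (nat_lit 505) (nat_lit 1) (nat_lit 504) (nat_lit 1) (nat_lit 441) (nat_lit 357) (nat_lit 342))) (XT.nd (nat_lit 78) (nat_lit 0) (nat_lit 0) (XT.lf (nat_lit 1900) (nat_lit 269774829) (nat_lit 0) (nat_lit 1666203093) (nat_lit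 1824) (nat_lit 269774829) (nat_lit 530) (nat_lit 1) (nat_lit 505) (nat_lit 1) (nat_lit 529) (nat_lit 1) (nat_lit 442) (nat_lit 357) (nat_lit 341)) (XT.nd (nat_lit 78) (nat_lit 0) (nat_lit 76) (XT.lf (nat_lit 1900) (nat_lit 414196774) (nat_lit 76) (nat_lit 885478979) (nat_lit 0) (nat_lit 885478979) (nat_lit 530) (nat_lit 1) (nat_lit 506) (nat_lit 1) (nat_lit 505) (nat_lit 1) (nat_lit 443) (nat_lit 357) (nat_lit 340)) (XT.lf (nat_lit 1900) (nat_lit 144279383) (nat_lit 0) (nat_lit 1876348046) (nat_lit 1824) (nat_lit 144279383) (nat_lit 531) (nat_lit 1) (nat_lit 506) (nat_lit 1) (nat_lit 530) (nat_lit 1) (nat_lit 444) (nat_lit 357) (nat_lit 339)))))) (XT.nd (nat_lit 312) (nat_lit 0) (nat_lit 76) (XT.nd (nat_lit 156) (nat_lit 1824) (nat_lit 0) (XT.nd (nat_lit 78) (nat_lit 0) (nat_lit 76) (XT.lf (nat_lit 1900) (nat_lit 153039852) (nat_lit 76) (nat_lit 995887005) (nat_lit 0) (nat_lit 995887005) (nat_lit 531) (nat_lit 1) (nat_lit 507) (nat_lit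 1) (nat_lit 506) (nat_lit 1) (nat_lit 445) (nat_lit 357) (nat_lit 338)) (XT.lf (nat_lit 1900) (nat_lit 9582332) (nat_lit 0) (nat_lit 2105930355) (nat_lit 1824) (nat_lit 9582332) (nat_lit 532) (nat_lit 1) (nat_lit 507) (nat_lit 1) (nat_lit 531) (nat_lit 1) (nat_lit 446) (nat_lit 357) (nat_lit 337))) (XT.nd (nat_lit 78) (nat_lit 0) (nat_lit 0) (XT.lf (nat_lit 1976) (nat_lit 990593104) (nat_lit 0) (nat_lit 124288595) (nat_lit 1900) (nat_lit 990593104) (nat_lit 508) (nat_lit 1) (nat_lit 482) (nat_lit 1) (nat_lit 507) (nat_lit 1) (nat_lit 447) (nat_lit 357) (nat_lit 336)) (XT.lf (nat_lit 1976) (nat_lit 1820611279) (nat_lit 76) (nat_lit 132803545) (nat_lit 0) (nat_lit 132803545) (nat_lit 508) (nat_lit 1) (nat_lit 483) (nat_lit 1) (nat_lit 482) (nat_lit 1) (nat_lit 448) (nat_lit 357) (nat_lit 335)))) (XT.nd (nat_lit 57486) (nat_lit 0) (nat_lit 1064) (XT.nd (nat_lit 57408) (nat_lit 0) (nat_lit 1064) (XT.lf (nat_lit 1976) (nat_lit 825563925) (nat_lit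 0) (nat_lit 415975250) (nat_lit 1900) (nat_lit 825563925) (nat_lit 509) (nat_lit 1) (nat_lit 483) (nat_lit 1) (nat_lit 508) (nat_lit 1) (nat_lit 449) (nat_lit 357) (nat_lit 334)) (XT.lf (nat_lit 1900) (nat_lit 436296346) (nat_lit 0) (nat_lit 439944799) (nat_lit 1900) (nat_lit 436296346) (nat_lit 522) (nat_lit 1) (nat_lit 497) (nat_lit 0) (nat_lit 522) (nat_lit 0) (nat_lit 424) (nat_lit 358) (nat_lit 358))) (XT.nd (nat_lit 78) (nat_lit 0) (nat_lit 76) (XT.lf (nat_lit 1900) (nat_lit 1725181353) (nat_lit 76) (nat_lit 437050425) (nat_lit 0) (nat_lit 437050425) (nat_lit 522) (nat_lit 1) (nat_lit 498) (nat_lit 1) (nat_lit 497) (nat_lit 0) (nat_lit 425) (nat_lit 358) (nat_lit 357)) (XT.nd (nat_lit 78) (nat_lit 0) (nat_lit 0) (XT.lf (nat_lit 1900) (nat_lit 847072256) (nat_lit 0) (nat_lit 879626629) (nat_lit 1824) (nat_lit 847072256) (nat_lit 523) (nat_lit 1) (nat_lit 498) (nat_lit 1) (nat_lit 522) (nat_lit 1) (nat_lit 426) (nat_lit 358) (nat_lit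 356)) (XT.lf (nat_lit 1900) (nat_lit 1657929220) (nat_lit 76) (nat_lit 445358803) (nat_lit 0) (nat_lit 445358803) (nat_lit 523) (nat_lit 1) (nat_lit 499) (nat_lit 1) (nat_lit 498) (nat_lit 1) (nat_lit 427) (nat_lit 358) (nat_lit 355))))))) (XT.nd (nat_lit 702) (nat_lit 1292) (nat_lit 0) (XT.nd (nat_lit 312) (nat_lit 0) (nat_lit 152) (XT.nd (nat_lit 156) (nat_lit 0) (nat_lit 76) (XT.nd (nat_lit 78) (nat_lit 0) (nat_lit 0) (XT.lf (nat_lit 1900) (nat_lit 805722184) (nat_lit 0) (nat_lit 912355489) (nat_lit 1824) (nat_lit 805722184) (nat_lit 524) (nat_lit 1) (nat_lit 499) (nat_lit 1) (nat_lit 523) (nat_lit 1) (nat_lit 428) (nat_lit 358) (nat_lit 354)) (XT.lf (nat_lit 1900) (nat_lit 1559868645) (nat_lit 76) (nat_lit 469726873) (nat_lit 0) (nat_lit 469726873) (nat_lit 524) (nat_lit 1) (nat_lit 500) (nat_lit 1) (nat_lit 499) (nat_lit 1) (nat_lit 429) (nat_lit 358) (nat_lit 353))) (XT.nd (nat_lit 78) (nat_lit 0) (nat_lit 0) (XT.lf (nat_lit 1900)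 (nat_lit 749486977) (nat_lit 0) (nat_lit 976148366) (nat_lit 1824) (nat_lit 749486977) (nat_lit 525) (nat_lit 1) (nat_lit 500) (nat_lit 1) (nat_lit 524) (nat_lit 1) (nat_lit 430) (nat_lit 358) (nat_lit 352)) (XT.lf (nat_lit 1900) (nat_lit 1432851248) (nat_lit 76) (nat_lit 509209795) (nat_lit 0) (nat_lit 509209795) (nat_lit 525) (nat_lit 1) (nat_lit 501) (nat_lit 1) (nat_lit 500) (nat_lit 1) (nat_lit 431) (nat_lit 358) (nat_lit 351)))) (XT.nd (nat_lit 156) (nat_lit 0) (nat_lit 76) (XT.nd (nat_lit 78) (nat_lit 0) (nat_lit 0) (XT.lf (nat_lit 1900) (nat_lit 679267992) (nat_lit 0) (nat_lit 1069164988) (nat_lit 1824) (nat_lit 679267992) (nat_lit 526) (nat_lit 1) (nat_lit 501) (nat_lit 1) (nat_lit 525) (nat_lit 1) (nat_lit 432) (nat_lit 358) (nat_lit 350)) (XT.lf (nat_lit 1900) (nat_lit 1278643904) (nat_lit 76) (nat_lit 562905718) (nat_lit 0) (nat_lit 562905718) (nat_lit 526) (nat_lit 1) (nat_lit 502) (nat_lit 1) (nat_lit 501) (nat_lit 1) (nat_lit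 433) (nat_lit 358) (nat_lit 349))) (XT.nd (nat_lit 78) (nat_lit 0) (nat_lit 0) (XT.lf (nat_lit 1900) (nat_lit 595925247) (nat_lit 0) (nat_lit 1189648975) (nat_lit 1824) (nat_lit 595925247) (nat_lit 527) (nat_lit 1) (nat_lit 502) (nat_lit 1) (nat_lit 526) (nat_lit 1) (nat_lit 434) (nat_lit 358) (nat_lit 348)) (XT.nd (nat_lit 78) (nat_lit 0) (nat_lit 76) (XT.lf (nat_lit 1900) (nat_lit 1098932277) (nat_lit 76) (nat_lit 629953985) (nat_lit 0) (nat_lit 629953985) (nat_lit 527) (nat_lit 1) (nat_lit 503) (nat_lit 1) (nat_lit 502) (nat_lit 1) (nat_lit 435) (nat_lit 358) (nat_lit 347)) (XT.lf (nat_lit 1900) (nat_lit 500279144) (nat_lit 0) (nat_lit 1335924338) (nat_lit 1824) (nat_lit 500279144) (nat_lit 528) (nat_lit 1) (nat_lit 503) (nat_lit 1) (nat_lit 527) (nat_lit 1) (nat_lit 436) (nat_lit 358) (nat_lit 346)))))) (XT.nd (nat_lit 312) (nat_lit 1596) (nat_lit 0) (XT.nd (nat_lit 156) (nat_lit 0) (nat_lit 76) (XT.nd (nat_lit 78) (nat_lit 0) (nat_lit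 76) (XT.lf (nat_lit 1900) (nat_lit 895324226) (nat_lit 76) (nat_lit 709533415) (nat_lit 0) (nat_lit 709533415) (nat_lit 528) (nat_lit 1) (nat_lit 504) (nat_lit 1) (nat_lit 503) (nat_lit 1) (nat_lit 437) (nat_lit 358) (nat_lit 345)) (XT.lf (nat_lit 1900) (nat_lit 393112138) (nat_lit 0) (nat_lit 1506392116) (nat_lit 1824) (nat_lit 393112138) (nat_lit 529) (nat_lit 1) (nat_lit 504) (nat_lit 1) (nat_lit 528) (nat_lit 1) (nat_lit 438) (nat_lit 358) (nat_lit 344))) (XT.nd (nat_lit 78) (nat_lit 0) (nat_lit 76) (XT.lf (nat_lit 1900) (nat_lit 669353069) (nat_lit 76) (nat_lit 800860646) (nat_lit 0) (nat_lit 800860646) (nat_lit 529) (nat_lit 1) (nat_lit 505) (nat_lit 1) (nat_lit 504) (nat_lit 1) (nat_lit 439) (nat_lit 358) (nat_lit 343)) (XT.lf (nat_lit 1900) (nat_lit 275170325) (nat_lit 0) (nat_lit 1699527155) (nat_lit 1824) (nat_lit 275170325) (nat_lit 530) (nat_lit 1) (nat_lit 505) (nat_lit 1) (nat_lit 529) (nat_lit 1) (nat_lit 440) (nat_lit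 358) (nat_lit 342)))) (XT.nd (nat_lit 156) (nat_lit 1748) (nat_lit 0) (XT.nd (nat_lit 78) (nat_lit 0) (nat_lit 76) (XT.lf (nat_lit 1900) (nat_lit 422480710) (nat_lit 76) (nat_lit 903188558) (nat_lit 0) (nat_lit 903188558) (nat_lit 530) (nat_lit 1) (nat_lit 506) (nat_lit 1) (nat_lit 505) (nat_lit 1) (nat_lit 441) (nat_lit 358) (nat_lit 341)) (XT.lf (nat_lit 1900) (nat_lit 147164970) (nat_lit 0) (nat_lit 1913875007) (nat_lit 1824) (nat_lit 147164970) (nat_lit 531) (nat_lit 1) (nat_lit 506) (nat_lit 1) (nat_lit 530) (nat_lit 1) (nat_lit 442) (nat_lit 358) (nat_lit 340))) (XT.nd (nat_lit 78) (nat_lit 1824) (nat_lit 0) (XT.lf (nat_lit 1900) (nat_lit 156100649) (nat_lit 76) (nat_lit 1015804745) (nat_lit 0) (nat_lit 1015804745) (nat_lit 531) (nat_lit 1) (nat_lit 507) (nat_lit 1) (nat_lit 506) (nat_lit 1) (nat_lit 443) (nat_lit 358) (nat_lit 339)) (XT.nd (nat_lit 78) (nat_lit 1900) (nat_lit 0) (XT.lf (nat_lit 1900) (nat_lit 9773978) (nat_lit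 0) (nat_lit 2148048962) (nat_lit 1824) (nat_lit 9773978) (nat_lit 532) (nat_lit 1) (nat_lit 507) (nat_lit 1) (nat_lit 531) (nat_lit 1) (nat_lit 444) (nat_lit 358) (nat_lit 338)) (XT.lf (nat_lit 1976) (nat_lit 1010404966) (nat_lit 0) (nat_lit 126774367) (nat_lit 1900) (nat_lit 1010404966) (nat_lit 508) (nat_lit 1) (nat_lit 482) (nat_lit 1) (nat_lit 507) (nat_lit 1) (nat_lit 445) (nat_lit 358) (nat_lit 337))))))))
noncomputable def ec5 : XT := (XT.nd (nat_lit 58578) (nat_lit 988) (nat_lit 0) (XT.nd (nat_lit 57876) (nat_lit 0) (nat_lit 1292) (XT.nd (nat_lit 57486) (nat_lit 0) (nat_lit 1140) (XT.nd (nat_lit 156) (nat_lit 0) (nat_lit 76) (XT.nd (nat_lit 78) (nat_lit 0) (nat_lit 76) (XT.lf (nat_lit 1976) (nat_lit 1857023505) (nat_lit 76) (nat_lit 135459616) (nat_lit 0) (nat_lit 135459616) (nat_lit 508) (nat_lit 1) (nat_lit 483) (nat_lit 1) (nat_lit 482) (nat_lit 1) (nat_lit 446) (nat_lit 358) (nat_lit 336)) (XT.lf (nat_lit 1976) (nat_lit 842075203)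 (nat_lit 0) (nat_lit 424294755) (nat_lit 1900) (nat_lit 842075203) (nat_lit 509) (nat_lit 1) (nat_lit 483) (nat_lit 1) (nat_lit 508) (nat_lit 1) (nat_lit 447) (nat_lit 358) (nat_lit 335))) (XT.nd (nat_lit 78) (nat_lit 0) (nat_lit 76) (XT.lf (nat_lit 1976) (nat_lit 1511875564) (nat_lit 76) (nat_lit 288699797) (nat_lit 0) (nat_lit 288699797) (nat_lit 509) (nat_lit 1) (nat_lit 484) (nat_lit 1) (nat_lit 483) (nat_lit 1) (nat_lit 448) (nat_lit 358) (nat_lit 334)) (XT.lf (nat_lit 76) (nat_lit 666483119) (nat_lit 0) (nat_lit 737318477) (nat_lit 1900) (nat_lit 666483119) (nat_lit 485) (nat_lit 1) (nat_lit 484) (nat_lit 1) (nat_lit 509) (nat_lit 1) (nat_lit 449) (nat_lit 358) (nat_lit 333)))) (XT.nd (nat_lit 156) (nat_lit 0) (nat_lit 76) (XT.nd (nat_lit 78) (nat_lit 0) (nat_lit 0) (XT.lf (nat_lit 1900) (nat_lit 445022273) (nat_lit 0) (nat_lit 448743695) (nat_lit 1900) (nat_lit 445022273) (nat_lit 522) (nat_lit 1) (nat_lit 497) (nat_lit 0) (nat_lit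 522) (nat_lit 0) (nat_lit 422) (nat_lit 359) (nat_lit 359)) (XT.lf (nat_lit 1900) (nat_lit 1759684980) (nat_lit 76) (nat_lit 445791433) (nat_lit 0) (nat_lit 445791433) (nat_lit 522) (nat_lit 1) (nat_lit 498) (nat_lit 1) (nat_lit 497) (nat_lit 0) (nat_lit 423) (nat_lit 359) (nat_lit 358))) (XT.nd (nat_lit 78) (nat_lit 0) (nat_lit 0) (XT.lf (nat_lit 1900) (nat_lit 864013701) (nat_lit 0) (nat_lit 897219162) (nat_lit 1824) (nat_lit 864013701) (nat_lit 523) (nat_lit 1) (nat_lit 498) (nat_lit 1) (nat_lit 522) (nat_lit 1) (nat_lit 424) (nat_lit 359) (nat_lit 357)) (XT.nd (nat_lit 78) (nat_lit 0) (nat_lit 76) (XT.lf (nat_lit 1900) (nat_lit 1691087804) (nat_lit 76) (nat_lit 454265979) (nat_lit 0) (nat_lit 454265979) (nat_lit 523) (nat_lit 1) (nat_lit 499) (nat_lit 1) (nat_lit 498) (nat_lit 1) (nat_lit 425) (nat_lit 359) (nat_lit 356)) (XT.lf (nat_lit 1900) (nat_lit 821836627) (nat_lit 0) (nat_lit 930602599) (nat_lit 1824) (nat_lit 821836627) (nat_lit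 524) (nat_lit 1) (nat_lit 499) (nat_lit 1) (nat_lit 523) (nat_lit 1) (nat_lit 426) (nat_lit 359) (nat_lit 355)))))) (XT.nd (nat_lit 312) (nat_lit 0) (nat_lit 152) (XT.nd (nat_lit 156) (nat_lit 0) (nat_lit 76) (XT.nd (nat_lit 78) (nat_lit 0) (nat_lit 76) (XT.lf (nat_lit 1900) (nat_lit 1591066017) (nat_lit 76) (nat_lit 479121410) (nat_lit 0) (nat_lit 479121410) (nat_lit 524) (nat_lit 1) (nat_lit 500) (nat_lit 1) (nat_lit 499) (nat_lit 1) (nat_lit 427) (nat_lit 359) (nat_lit 354)) (XT.lf (nat_lit 1900) (nat_lit 764476716) (nat_lit 0) (nat_lit 995671333) (nat_lit 1824) (nat_lit 764476716) (nat_lit 525) (nat_lit 1) (nat_lit 500) (nat_lit 1) (nat_lit 524) (nat_lit 1) (nat_lit 428) (nat_lit 359) (nat_lit 353))) (XT.nd (nat_lit 78) (nat_lit 0) (nat_lit 76) (XT.lf (nat_lit 1900) (nat_lit 1461508273) (nat_lit 76) (nat_lit 519393991) (nat_lit 0) (nat_lit 519393991) (nat_lit 525) (nat_lit 1) (nat_lit 501) (nat_lit 1) (nat_lit 500) (nat_lit 1) (nat_lit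 429) (nat_lit 359) (nat_lit 352)) (XT.lf (nat_lit 1900) (nat_lit 692853352) (nat_lit 0) (nat_lit 1090548287) (nat_lit 1824) (nat_lit 692853352) (nat_lit 526) (nat_lit 1) (nat_lit 501) (nat_lit 1) (nat_lit 525) (nat_lit 1) (nat_lit 430) (nat_lit 359) (nat_lit 351)))) (XT.nd (nat_lit 156) (nat_lit 0) (nat_lit 76) (XT.nd (nat_lit 78) (nat_lit 0) (nat_lit 76) (XT.lf (nat_lit 1900) (nat_lit 1304216782) (nat_lit 76) (nat_lit 574163832) (nat_lit 0) (nat_lit 574163832) (nat_lit 526) (nat_lit 1) (nat_lit 502) (nat_lit 1) (nat_lit 501) (nat_lit 1) (nat_lit 431) (nat_lit 359) (nat_lit 350)) (XT.lf (nat_lit 1900) (nat_lit 607843751) (nat_lit 0) (nat_lit 1213441954) (nat_lit 1824) (nat_lit 607843751) (nat_lit 527) (nat_lit 1) (nat_lit 502) (nat_lit 1) (nat_lit 526) (nat_lit 1) (nat_lit 432) (nat_lit 359) (nat_lit 349))) (XT.nd (nat_lit 78) (nat_lit 0) (nat_lit 76) (XT.lf (nat_lit 1900) (nat_lit 1120910922) (nat_lit 76) (nat_lit 642553065) (nat_lit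 0) (nat_lit 642553065) (nat_lit 527) (nat_lit 1) (nat_lit 503) (nat_lit 1) (nat_lit 502) (nat_lit 1) (nat_lit 433) (nat_lit 359) (nat_lit 348)) (XT.nd (nat_lit 78) (nat_lit 0) (nat_lit 0) (XT.lf (nat_lit 1900) (nat_lit 510284727) (nat_lit 0) (nat_lit 1362642824) (nat_lit 1824) (nat_lit 510284727) (nat_lit 528) (nat_lit 1) (nat_lit 503) (nat_lit 1) (nat_lit 527) (nat_lit 1) (nat_lit 434) (nat_lit 359) (nat_lit 347)) (XT.lf (nat_lit 1900) (nat_lit 913230711) (nat_lit 76) (nat_lit 723724083) (nat_lit 0) (nat_lit 723724083) (nat_lit 528) (nat_lit 1) (nat_lit 504) (nat_lit 1) (nat_lit 503) (nat_lit 1) (nat_lit 435) (nat_lit 359) (nat_lit 346))))))) (XT.nd (nat_lit 702) (nat_lit 988) (nat_lit 0) (XT.nd (nat_lit 312) (nat_lit 1672) (nat_lit 0) (XT.nd (nat_lit 156) (nat_lit 0) (nat_lit 76) (XT.nd (nat_lit 78) (nat_lit 0) (nat_lit 0) (XT.lf (nat_lit 1900) (nat_lit 400974381) (nat_lit 0) (nat_lit 1536519958) (nat_lit 1824) (nat_lit 400974381) (nat_lit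 529) (nat_lit 1) (nat_lit 504) (nat_lit 1) (nat_lit 528) (nat_lit 1) (nat_lit 436) (nat_lit 359) (nat_lit 345)) (XT.lf (nat_lit 1900) (nat_lit 682740130) (nat_lit 76) (nat_lit 816877859) (nat_lit 0) (nat_lit 816877859) (nat_lit 529) (nat_lit 1) (nat_lit 505) (nat_lit 1) (nat_lit 504) (nat_lit 1) (nat_lit 437) (nat_lit 359) (nat_lit 344))) (XT.nd (nat_lit 78) (nat_lit 0) (nat_lit 0) (XT.lf (nat_lit 1900) (nat_lit 280673732) (nat_lit 0) (nat_lit 1733517698) (nat_lit 1824) (nat_lit 280673732) (nat_lit 530) (nat_lit 1) (nat_lit 505) (nat_lit 1) (nat_lit 529) (nat_lit 1) (nat_lit 438) (nat_lit 359) (nat_lit 343)) (XT.lf (nat_lit 1900) (nat_lit 430930324) (nat_lit 76) (nat_lit 921252329) (nat_lit 0) (nat_lit 921252329) (nat_lit 530) (nat_lit 1) (nat_lit 506) (nat_lit 1) (nat_lit 505) (nat_lit 1) (nat_lit 439) (nat_lit 359) (nat_lit 342)))) (XT.nd (nat_lit 156) (nat_lit 1824) (nat_lit 0) (XT.nd (nat_lit 78) (nat_lit 0) (nat_lit 0) (XT.lf (nat_lit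 1900) (nat_lit 150108270) (nat_lit 0) (nat_lit 1952152507) (nat_lit 1824) (nat_lit 150108270) (nat_lit 531) (nat_lit 1) (nat_lit 506) (nat_lit 1) (nat_lit 530) (nat_lit 1) (nat_lit 440) (nat_lit 359) (nat_lit 341)) (XT.lf (nat_lit 1900) (nat_lit 159222662) (nat_lit 76) (nat_lit 1036120840) (nat_lit 0) (nat_lit 1036120840) (nat_lit 531) (nat_lit 1) (nat_lit 507) (nat_lit 1) (nat_lit 506) (nat_lit 1) (nat_lit 441) (nat_lit 359) (nat_lit 340))) (XT.nd (nat_lit 78) (nat_lit 1900) (nat_lit 0) (XT.lf (nat_lit 1900) (nat_lit 9969458) (nat_lit 0) (nat_lit 2191009942) (nat_lit 1824) (nat_lit 9969458) (nat_lit 532) (nat_lit 1) (nat_lit 507) (nat_lit 1) (nat_lit 531) (nat_lit 1) (nat_lit 442) (nat_lit 359) (nat_lit 339)) (XT.nd (nat_lit 78) (nat_lit 0) (nat_lit 0) (XT.lf (nat_lit 1976) (nat_lit 1030613065) (nat_lit 0) (nat_lit 129309854) (nat_lit 1900) (nat_lit 1030613065) (nat_lit 508) (nat_lit 1) (nat_lit 482) (nat_lit 1) (nat_lit 507) (nat_lit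 1) (nat_lit 443) (nat_lit 359) (nat_lit 338)) (XT.lf (nat_lit 1976) (nat_lit 1894163975) (nat_lit 76) (nat_lit 138168808) (nat_lit 0) (nat_lit 138168808) (nat_lit 508) (nat_lit 1) (nat_lit 483) (nat_lit 1) (nat_lit 482) (nat_lit 1) (nat_lit 444) (nat_lit 359) (nat_lit 337)))))) (XT.nd (nat_lit 57408) (nat_lit 0) (nat_lit 2128) (XT.nd (nat_lit 156) (nat_lit 1064) (nat_lit 0) (XT.nd (nat_lit 78) (nat_lit 0) (nat_lit 0) (XT.lf (nat_lit 1976) (nat_lit 858916707) (nat_lit 0) (nat_lit 432780650) (nat_lit 1900) (nat_lit 858916707) (nat_lit 509) (nat_lit 1) (nat_lit 483) (nat_lit 1) (nat_lit 508) (nat_lit 1) (nat_lit 445) (nat_lit 359) (nat_lit 336)) (XT.lf (nat_lit 1976) (nat_lit 1542113076) (nat_lit 76) (nat_lit 294473793) (nat_lit 0) (nat_lit 294473793) (nat_lit 509) (nat_lit 1) (nat_lit 484) (nat_lit 1) (nat_lit 483) (nat_lit 1) (nat_lit 446) (nat_lit 359) (nat_lit 335))) (XT.nd (nat_lit 78) (nat_lit 1140) (nat_lit 0) (XT.lf (nat_lit 76)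 (nat_lit 679812782) (nat_lit 0) (nat_lit 752064846) (nat_lit 1900) (nat_lit 679812782) (nat_lit 485) (nat_lit 1) (nat_lit 484) (nat_lit 1) (nat_lit 509) (nat_lit 1) (nat_lit 447) (nat_lit 359) (nat_lit 334)) (XT.nd (nat_lit 78) (nat_lit 0) (nat_lit 0) (XT.lf (nat_lit 1216) (nat_lit 1175768443) (nat_lit 0) (nat_lit 458417254) (nat_lit 1140) (nat_lit 458417254) (nat_lit 485) (nat_lit 1) (nat_lit 469) (nat_lit 1) (nat_lit 484) (nat_lit 1) (nat_lit 448) (nat_lit 359) (nat_lit 333)) (XT.lf (nat_lit 76) (nat_lit 493864909) (nat_lit 0) (nat_lit 1086007261) (nat_lit 1216) (nat_lit 493864909) (nat_lit 470) (nat_lit 1) (nat_lit 469) (nat_lit 1) (nat_lit 485) (nat_lit 1) (nat_lit 449) (nat_lit 359) (nat_lit 332))))) (XT.nd (nat_lit 156) (nat_lit 0) (nat_lit 76) (XT.nd (nat_lit 78) (nat_lit 0) (nat_lit 0) (XT.lf (nat_lit 1900) (nat_lit 453922719) (nat_lit 0) (nat_lit 457718568) (nat_lit 1900) (nat_lit 453922719) (nat_lit 522) (nat_lit 1) (nat_lit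 497) (nat_lit 0) (nat_lit 522) (nat_lit 0) (nat_lit 420) (nat_lit 360) (nat_lit 360)) (XT.lf (nat_lit 1900) (nat_lit 1794878679) (nat_lit 76) (nat_lit 454707262) (nat_lit 0) (nat_lit 454707262) (nat_lit 522) (nat_lit 1) (nat_lit 498) (nat_lit 1) (nat_lit 497) (nat_lit 0) (nat_lit 421) (nat_lit 360) (nat_lit 359))) (XT.nd (nat_lit 78) (nat_lit 0) (nat_lit 0) (XT.lf (nat_lit 1900) (nat_lit 881293975) (nat_lit 0) (nat_lit 915163545) (nat_lit 1824) (nat_lit 881293975) (nat_lit 523) (nat_lit 1) (nat_lit 498) (nat_lit 1) (nat_lit 522) (nat_lit 1) (nat_lit 422) (nat_lit 360) (nat_lit 358)) (XT.nd (nat_lit 78) (nat_lit 0) (nat_lit 76) (XT.lf (nat_lit 1900) (nat_lit 1724909560) (nat_lit 76) (nat_lit 463351299) (nat_lit 0) (nat_lit 463351299) (nat_lit 523) (nat_lit 1) (nat_lit 499) (nat_lit 1) (nat_lit 498) (nat_lit 1) (nat_lit 423) (nat_lit 360) (nat_lit 357)) (XT.lf (nat_lit 1900) (nat_lit 838273360) (nat_lit 0) (nat_lit 949214651) (nat_lit 1824)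 (nat_lit 838273360) (nat_lit 524) (nat_lit 1) (nat_lit 499) (nat_lit 1) (nat_lit 523) (nat_lit 1) (nat_lit 424) (nat_lit 360) (nat_lit 356))))))))
noncomputable def ec6 : XT := (XT.nd (nat_lit 1404) (nat_lit 1900) (nat_lit 0) (XT.nd (nat_lit 702) (nat_lit 1292) (nat_lit 0) (XT.nd (nat_lit 312) (nat_lit 0) (nat_lit 152) (XT.nd (nat_lit 156) (nat_lit 0) (nat_lit 76) (XT.nd (nat_lit 78) (nat_lit 0) (nat_lit 76) (XT.lf (nat_lit 1900) (nat_lit 1622887338) (nat_lit 76) (nat_lit 488703838) (nat_lit 0) (nat_lit 488703838) (nat_lit 524) (nat_lit 1) (nat_lit 500) (nat_lit 1) (nat_lit 499) (nat_lit 1) (nat_lit 425) (nat_lit 360) (nat_lit 355)) (XT.lf (nat_lit 1900) (nat_lit 779766251) (nat_lit 0) (nat_lit 1015584760) (nat_lit 1824) (nat_lit 779766251) (nat_lit 525) (nat_lit 1) (nat_lit 500) (nat_lit 1) (nat_lit 524) (nat_lit 1) (nat_lit 426) (nat_lit 360) (nat_lit 354))) (XT.nd (nat_lit 78) (nat_lit 0) (nat_lit 76) (XT.lf (nat_lit 1900) (nat_lit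 1490738439) (nat_lit 76) (nat_lit 529781871) (nat_lit 0) (nat_lit 529781871) (nat_lit 525) (nat_lit 1) (nat_lit 501) (nat_lit 1) (nat_lit 500) (nat_lit 1) (nat_lit 427) (nat_lit 360) (nat_lit 353)) (XT.lf (nat_lit 1900) (nat_lit 706710419) (nat_lit 0) (nat_lit 1112359253) (nat_lit 1824) (nat_lit 706710419) (nat_lit 526) (nat_lit 1) (nat_lit 501) (nat_lit 1) (nat_lit 525) (nat_lit 1) (nat_lit 428) (nat_lit 360) (nat_lit 352)))) (XT.nd (nat_lit 156) (nat_lit 0) (nat_lit 76) (XT.nd (nat_lit 78) (nat_lit 0) (nat_lit 76) (XT.lf (nat_lit 1900) (nat_lit 1330301118) (nat_lit 76) (nat_lit 585647109) (nat_lit 0) (nat_lit 585647109) (nat_lit 526) (nat_lit 1) (nat_lit 502) (nat_lit 1) (nat_lit 501) (nat_lit 1) (nat_lit 429) (nat_lit 360) (nat_lit 351)) (XT.lf (nat_lit 1900) (nat_lit 620000627) (nat_lit 0) (nat_lit 1237710793) (nat_lit 1824) (nat_lit 620000627) (nat_lit 527) (nat_lit 1) (nat_lit 502) (nat_lit 1) (nat_lit 526) (nat_lit 1) (nat_lit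 430) (nat_lit 360) (nat_lit 350))) (XT.nd (nat_lit 78) (nat_lit 0) (nat_lit 76) (XT.lf (nat_lit 1900) (nat_lit 1143329141) (nat_lit 76) (nat_lit 655404126) (nat_lit 0) (nat_lit 655404126) (nat_lit 527) (nat_lit 1) (nat_lit 503) (nat_lit 1) (nat_lit 502) (nat_lit 1) (nat_lit 431) (nat_lit 360) (nat_lit 349)) (XT.nd (nat_lit 78) (nat_lit 0) (nat_lit 0) (XT.lf (nat_lit 1900) (nat_lit 520490422) (nat_lit 0) (nat_lit 1389895681) (nat_lit 1824) (nat_lit 520490422) (nat_lit 528) (nat_lit 1) (nat_lit 503) (nat_lit 1) (nat_lit 527) (nat_lit 1) (nat_lit 432) (nat_lit 360) (nat_lit 348)) (XT.lf (nat_lit 1900) (nat_lit 931495325) (nat_lit 76) (nat_lit 738198565) (nat_lit 0) (nat_lit 738198565) (nat_lit 528) (nat_lit 1) (nat_lit 504) (nat_lit 1) (nat_lit 503) (nat_lit 1) (nat_lit 433) (nat_lit 360) (nat_lit 347)))))) (XT.nd (nat_lit 312) (nat_lit 1672) (nat_lit 0) (XT.nd (nat_lit 156) (nat_lit 0) (nat_lit 76) (XT.nd (nat_lit 78) (nat_lit 0) (nat_lit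 0) (XT.lf (nat_lit 1900) (nat_lit 408993869) (nat_lit 0) (nat_lit 1567250358) (nat_lit 1824) (nat_lit 408993869) (nat_lit 529) (nat_lit 1) (nat_lit 504) (nat_lit 1) (nat_lit 528) (nat_lit 1) (nat_lit 434) (nat_lit 360) (nat_lit 346)) (XT.lf (nat_lit 1900) (nat_lit 696394933) (nat_lit 76) (nat_lit 833215416) (nat_lit 0) (nat_lit 833215416) (nat_lit 529) (nat_lit 1) (nat_lit 505) (nat_lit 1) (nat_lit 504) (nat_lit 1) (nat_lit 435) (nat_lit 360) (nat_lit 345))) (XT.nd (nat_lit 78) (nat_lit 0) (nat_lit 0) (XT.lf (nat_lit 1900) (nat_lit 286287206) (nat_lit 0) (nat_lit 1768188052) (nat_lit 1824) (nat_lit 286287206) (nat_lit 530) (nat_lit 1) (nat_lit 505) (nat_lit 1) (nat_lit 529) (nat_lit 1) (nat_lit 436) (nat_lit 360) (nat_lit 344)) (XT.lf (nat_lit 1900) (nat_lit 439548931) (nat_lit 76) (nat_lit 939677376) (nat_lit 0) (nat_lit 939677376) (nat_lit 530) (nat_lit 1) (nat_lit 506) (nat_lit 1) (nat_lit 505) (nat_lit 1) (nat_lit 437) (nat_lit 360)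 (nat_lit 343)))) (XT.nd (nat_lit 156) (nat_lit 1824) (nat_lit 0) (XT.nd (nat_lit 78) (nat_lit 0) (nat_lit 0) (XT.lf (nat_lit 1900) (nat_lit 153110435) (nat_lit 0) (nat_lit 1991195557) (nat_lit 1824) (nat_lit 153110435) (nat_lit 531) (nat_lit 1) (nat_lit 506) (nat_lit 1) (nat_lit 530) (nat_lit 1) (nat_lit 438) (nat_lit 360) (nat_lit 342)) (XT.lf (nat_lit 1900) (nat_lit 162407116) (nat_lit 76) (nat_lit 1056843256) (nat_lit 0) (nat_lit 1056843256) (nat_lit 531) (nat_lit 1) (nat_lit 507) (nat_lit 1) (nat_lit 506) (nat_lit 1) (nat_lit 439) (nat_lit 360) (nat_lit 341))) (XT.nd (nat_lit 78) (nat_lit 1900) (nat_lit 0) (XT.lf (nat_lit 1900) (nat_lit 10168847) (nat_lit 0) (nat_lit 2234830141) (nat_lit 1824) (nat_lit 10168847) (nat_lit 532) (nat_lit 1) (nat_lit 507) (nat_lit 1) (nat_lit 531) (nat_lit 1) (nat_lit 440) (nat_lit 360) (nat_lit 340)) (XT.nd (nat_lit 78) (nat_lit 0) (nat_lit 0) (XT.lf (nat_lit 1976) (nat_lit 1051225327) (nat_lit 0) (nat_lit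 131896052) (nat_lit 1900) (nat_lit 1051225327) (nat_lit 508) (nat_lit 1) (nat_lit 482) (nat_lit 1) (nat_lit 507) (nat_lit 1) (nat_lit 441) (nat_lit 360) (nat_lit 339)) (XT.lf (nat_lit 1976) (nat_lit 1932047255) (nat_lit 76) (nat_lit 140932184) (nat_lit 0) (nat_lit 140932184) (nat_lit 508) (nat_lit 1) (nat_lit 483) (nat_lit 1) (nat_lit 482) (nat_lit 1) (nat_lit 442) (nat_lit 360) (nat_lit 338))))))) (XT.nd (nat_lit 57564) (nat_lit 0) (nat_lit 3116) (XT.nd (nat_lit 312) (nat_lit 912) (nat_lit 0) (XT.nd (nat_lit 156) (nat_lit 1064) (nat_lit 0) (XT.nd (nat_lit 78) (nat_lit 0) (nat_lit 0) (XT.lf (nat_lit 1976) (nat_lit 876095041) (nat_lit 0) (nat_lit 441436263) (nat_lit 1900) (nat_lit 876095041) (nat_lit 509) (nat_lit 1) (nat_lit 483) (nat_lit 1) (nat_lit 508) (nat_lit 1) (nat_lit 443) (nat_lit 360) (nat_lit 337)) (XT.lf (nat_lit 1976) (nat_lit 1572955337) (nat_lit 76) (nat_lit 300363269) (nat_lit 0) (nat_lit 300363269) (nat_lit 509) (nat_lit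 1) (nat_lit 484) (nat_lit 1) (nat_lit 483) (nat_lit 1) (nat_lit 444) (nat_lit 360) (nat_lit 336))) (XT.nd (nat_lit 78) (nat_lit 1140) (nat_lit 0) (XT.lf (nat_lit 76) (nat_lit 693409037) (nat_lit 0) (nat_lit 767106143) (nat_lit 1900) (nat_lit 693409037) (nat_lit 485) (nat_lit 1) (nat_lit 484) (nat_lit 1) (nat_lit 509) (nat_lit 1) (nat_lit 445) (nat_lit 360) (nat_lit 335)) (XT.lf (nat_lit 1216) (nat_lit 1199283812) (nat_lit 0) (nat_lit 467585599) (nat_lit 1140) (nat_lit 467585599) (nat_lit 485) (nat_lit 1) (nat_lit 469) (nat_lit 1) (nat_lit 484) (nat_lit 1) (nat_lit 446) (nat_lit 360) (nat_lit 334)))) (XT.nd (nat_lit 156) (nat_lit 0) (nat_lit 0) (XT.nd (nat_lit 78) (nat_lit 912) (nat_lit 0) (XT.lf (nat_lit 76) (nat_lit 503742207) (nat_lit 0) (nat_lit 1107727407) (nat_lit 1216) (nat_lit 503742207) (nat_lit 470) (nat_lit 1) (nat_lit 469) (nat_lit 1) (nat_lit 485) (nat_lit 1) (nat_lit 447) (nat_lit 360) (nat_lit 333)) (XT.lf (nat_lit 988)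 (nat_lit 812158110) (nat_lit 0) (nat_lit 642022472) (nat_lit 912) (nat_lit 642022472) (nat_lit 470) (nat_lit 1) (nat_lit 457) (nat_lit 1) (nat_lit 469) (nat_lit 1) (nat_lit 448) (nat_lit 360) (nat_lit 332))) (XT.nd (nat_lit 56940) (nat_lit 0) (nat_lit 3040) (XT.lf (nat_lit 76) (nat_lit 307641601) (nat_lit 0) (nat_lit 1462178344) (nat_lit 988) (nat_lit 307641601) (nat_lit 458) (nat_lit 1) (nat_lit 457) (nat_lit 1) (nat_lit 470) (nat_lit 1) (nat_lit 449) (nat_lit 360) (nat_lit 331)) (XT.nd (nat_lit 78) (nat_lit 0) (nat_lit 0) (XT.lf (nat_lit 1900) (nat_lit 463001173) (nat_lit 0) (nat_lit 466872940) (nat_lit 1900) (nat_lit 463001173) (nat_lit 522) (nat_lit 1) (nat_lit 497) (nat_lit 0) (nat_lit 522) (nat_lit 0) (nat_lit 418) (nat_lit 361) (nat_lit 361)) (XT.lf (nat_lit 1900) (nat_lit 1830776253) (nat_lit 76) (nat_lit 463801407) (nat_lit 0) (nat_lit 463801407) (nat_lit 522) (nat_lit 1) (nat_lit 498) (nat_lit 1) (nat_lit 497) (nat_lit 0) (nat_lit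 419) (nat_lit 361) (nat_lit 360)))))) (XT.nd (nat_lit 312) (nat_lit 0) (nat_lit 152) (XT.nd (nat_lit 156) (nat_lit 0) (nat_lit 76) (XT.nd (nat_lit 78) (nat_lit 0) (nat_lit 0) (XT.lf (nat_lit 1900) (nat_lit 898919855) (nat_lit 0) (nat_lit 933466816) (nat_lit 1824) (nat_lit 898919855) (nat_lit 523) (nat_lit 1) (nat_lit 498) (nat_lit 1) (nat_lit 522) (nat_lit 1) (nat_lit 420) (nat_lit 361) (nat_lit 359)) (XT.lf (nat_lit 1900) (nat_lit 1759407752) (nat_lit 76) (nat_lit 472618325) (nat_lit 0) (nat_lit 472618325) (nat_lit 523) (nat_lit 1) (nat_lit 499) (nat_lit 1) (nat_lit 498) (nat_lit 1) (nat_lit 421) (nat_lit 361) (nat_lit 358))) (XT.nd (nat_lit 78) (nat_lit 0) (nat_lit 0) (XT.lf (nat_lit 1900) (nat_lit 855038827) (nat_lit 0) (nat_lit 968198944) (nat_lit 1824) (nat_lit 855038827) (nat_lit 524) (nat_lit 1) (nat_lit 499) (nat_lit 1) (nat_lit 523) (nat_lit 1) (nat_lit 422) (nat_lit 361) (nat_lit 357)) (XT.lf (nat_lit 1900) (nat_lit 1655345085)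 (nat_lit 76) (nat_lit 498477915) (nat_lit 0) (nat_lit 498477915) (nat_lit 524) (nat_lit 1) (nat_lit 500) (nat_lit 1) (nat_lit 499) (nat_lit 1) (nat_lit 423) (nat_lit 361) (nat_lit 356)))) (XT.nd (nat_lit 156) (nat_lit 0) (nat_lit 76) (XT.nd (nat_lit 78) (nat_lit 0) (nat_lit 0) (XT.lf (nat_lit 1900) (nat_lit 795361576) (nat_lit 0) (nat_lit 1035896455) (nat_lit 1824) (nat_lit 795361576) (nat_lit 525) (nat_lit 1) (nat_lit 500) (nat_lit 1) (nat_lit 524) (nat_lit 1) (nat_lit 424) (nat_lit 361) (nat_lit 355)) (XT.lf (nat_lit 1900) (nat_lit 1520553208) (nat_lit 76) (nat_lit 540377508) (nat_lit 0) (nat_lit 540377508) (nat_lit 525) (nat_lit 1) (nat_lit 501) (nat_lit 1) (nat_lit 500) (nat_lit 1) (nat_lit 425) (nat_lit 361) (nat_lit 354))) (XT.nd (nat_lit 78) (nat_lit 0) (nat_lit 0) (XT.lf (nat_lit 1900) (nat_lit 720844628) (nat_lit 0) (nat_lit 1134606438) (nat_lit 1824) (nat_lit 720844628) (nat_lit 526) (nat_lit 1) (nat_lit 501) (nat_lit 1) (nat_lit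 525) (nat_lit 1) (nat_lit 426) (nat_lit 361) (nat_lit 353)) (XT.nd (nat_lit 78) (nat_lit 0) (nat_lit 76) (XT.lf (nat_lit 1900) (nat_lit 1356907140) (nat_lit 76) (nat_lit 597360051) (nat_lit 0) (nat_lit 597360051) (nat_lit 526) (nat_lit 1) (nat_lit 502) (nat_lit 1) (nat_lit 501) (nat_lit 1) (nat_lit 427) (nat_lit 361) (nat_lit 352)) (XT.lf (nat_lit 1900) (nat_lit 632400639) (nat_lit 0) (nat_lit 1262465009) (nat_lit 1824) (nat_lit 632400639) (nat_lit 527) (nat_lit 1) (nat_lit 502) (nat_lit 1) (nat_lit 526) (nat_lit 1) (nat_lit 428) (nat_lit 361) (nat_lit 351))))))))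
noncomputable def ec7 : XT := (XT.nd (nat_lit 1404) (nat_lit 912) (nat_lit 0) (XT.nd (nat_lit 702) (nat_lit 3420) (nat_lit 0) (XT.nd (nat_lit 312) (nat_lit 0) (nat_lit 152) (XT.nd (nat_lit 156) (nat_lit 0) (nat_lit 76) (XT.nd (nat_lit 78) (nat_lit 0) (nat_lit 76) (XT.lf (nat_lit 1900) (nat_lit 1166195724) (nat_lit 76) (nat_lit 668512209) (nat_lit 0) (nat_lit 668512209) (nat_lit 527) (nat_lit 1) (nat_lit 503) (nat_lit 1) (nat_lit 502) (nat_lit 1) (nat_lit 429) (nat_lit 361) (nat_lit 350)) (XT.lf (nat_lit 1900) (nat_lit 530900230) (nat_lit 0) (nat_lit 1417693594) (nat_lit 1824) (nat_lit 530900230) (nat_lit 528) (nat_lit 1) (nat_lit 503) (nat_lit 1) (nat_lit 527) (nat_lit 1) (nat_lit 430) (nat_lit 361) (nat_lit 349))) (XT.nd (nat_lit 78) (nat_lit 0) (nat_lit 76) (XT.lf (nat_lit 1900) (nat_lit 950125232) (nat_lit 76) (nat_lit 752962536) (nat_lit 0) (nat_lit 752962536) (nat_lit 528) (nat_lit 1) (nat_lit 504) (nat_lit 1) (nat_lit 503) (nat_lit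 1) (nat_lit 431) (nat_lit 361) (nat_lit 348)) (XT.lf (nat_lit 1900) (nat_lit 417173746) (nat_lit 0) (nat_lit 1598595365) (nat_lit 1824) (nat_lit 417173746) (nat_lit 529) (nat_lit 1) (nat_lit 504) (nat_lit 1) (nat_lit 528) (nat_lit 1) (nat_lit 432) (nat_lit 361) (nat_lit 347)))) (XT.nd (nat_lit 156) (nat_lit 0) (nat_lit 76) (XT.nd (nat_lit 78) (nat_lit 0) (nat_lit 76) (XT.lf (nat_lit 1900) (nat_lit 710322832) (nat_lit 76) (nat_lit 849879725) (nat_lit 0) (nat_lit 849879725) (nat_lit 529) (nat_lit 1) (nat_lit 505) (nat_lit 1) (nat_lit 504) (nat_lit 1) (nat_lit 433) (nat_lit 361) (nat_lit 346)) (XT.lf (nat_lit 1900) (nat_lit 292012950) (nat_lit 0) (nat_lit 1803551813) (nat_lit 1824) (nat_lit 292012950) (nat_lit 530) (nat_lit 1) (nat_lit 505) (nat_lit 1) (nat_lit 529) (nat_lit 1) (nat_lit 434) (nat_lit 361) (nat_lit 345))) (XT.nd (nat_lit 78) (nat_lit 0) (nat_lit 76) (XT.lf (nat_lit 1900) (nat_lit 448339909) (nat_lit 76) (nat_lit 958470923)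 (nat_lit 0) (nat_lit 958470923) (nat_lit 530) (nat_lit 1) (nat_lit 506) (nat_lit 1) (nat_lit 505) (nat_lit 1) (nat_lit 435) (nat_lit 361) (nat_lit 344)) (XT.nd (nat_lit 78) (nat_lit 0) (nat_lit 0) (XT.lf (nat_lit 1900) (nat_lit 156172644) (nat_lit 0) (nat_lit 2031019468) (nat_lit 1824) (nat_lit 156172644) (nat_lit 531) (nat_lit 1) (nat_lit 506) (nat_lit 1) (nat_lit 530) (nat_lit 1) (nat_lit 436) (nat_lit 361) (nat_lit 343)) (XT.lf (nat_lit 1900) (nat_lit 165655258) (nat_lit 76) (nat_lit 1077980121) (nat_lit 0) (nat_lit 1077980121) (nat_lit 531) (nat_lit 1) (nat_lit 507) (nat_lit 1) (nat_lit 506) (nat_lit 1) (nat_lit 437) (nat_lit 361) (nat_lit 342)))))) (XT.nd (nat_lit 312) (nat_lit 1900) (nat_lit 0) (XT.nd (nat_lit 156) (nat_lit 0) (nat_lit 0) (XT.nd (nat_lit 78) (nat_lit 1900) (nat_lit 0) (XT.lf (nat_lit 1900) (nat_lit 10372224) (nat_lit 0) (nat_lit 2279526743) (nat_lit 1824) (nat_lit 10372224) (nat_lit 532) (nat_lit 1) (nat_lit 507)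 (nat_lit 1) (nat_lit 531) (nat_lit 1) (nat_lit 438) (nat_lit 361) (nat_lit 341)) (XT.lf (nat_lit 1976) (nat_lit 1072249833) (nat_lit 0) (nat_lit 134533973) (nat_lit 1900) (nat_lit 1072249833) (nat_lit 508) (nat_lit 1) (nat_lit 482) (nat_lit 1) (nat_lit 507) (nat_lit 1) (nat_lit 439) (nat_lit 361) (nat_lit 340))) (XT.nd (nat_lit 78) (nat_lit 0) (nat_lit 76) (XT.lf (nat_lit 1976) (nat_lit 1970688200) (nat_lit 76) (nat_lit 143750828) (nat_lit 0) (nat_lit 143750828) (nat_lit 508) (nat_lit 1) (nat_lit 483) (nat_lit 1) (nat_lit 482) (nat_lit 1) (nat_lit 440) (nat_lit 361) (nat_lit 339)) (XT.lf (nat_lit 1976) (nat_lit 893616942) (nat_lit 0) (nat_lit 450264988) (nat_lit 1900) (nat_lit 893616942) (nat_lit 509) (nat_lit 1) (nat_lit 483) (nat_lit 1) (nat_lit 508) (nat_lit 1) (nat_lit 441) (nat_lit 361) (nat_lit 338)))) (XT.nd (nat_lit 156) (nat_lit 1976) (nat_lit 0) (XT.nd (nat_lit 78) (nat_lit 0) (nat_lit 76) (XT.lf (nat_lit 1976) (nat_lit 1604414444)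 (nat_lit 76) (nat_lit 306370534) (nat_lit 0) (nat_lit 306370534) (nat_lit 509) (nat_lit 1) (nat_lit 484) (nat_lit 1) (nat_lit 483) (nat_lit 1) (nat_lit 442) (nat_lit 361) (nat_lit 337)) (XT.lf (nat_lit 76) (nat_lit 707277218) (nat_lit 0) (nat_lit 782448266) (nat_lit 1900) (nat_lit 707277218) (nat_lit 485) (nat_lit 1) (nat_lit 484) (nat_lit 1) (nat_lit 509) (nat_lit 1) (nat_lit 443) (nat_lit 361) (nat_lit 336))) (XT.nd (nat_lit 78) (nat_lit 912) (nat_lit 0) (XT.lf (nat_lit 1216) (nat_lit 1223269489) (nat_lit 0) (nat_lit 476937311) (nat_lit 1140) (nat_lit 476937311) (nat_lit 485) (nat_lit 1) (nat_lit 469) (nat_lit 1) (nat_lit 484) (nat_lit 1) (nat_lit 444) (nat_lit 361) (nat_lit 335)) (XT.nd (nat_lit 78) (nat_lit 912) (nat_lit 0) (XT.lf (nat_lit 76) (nat_lit 513817051) (nat_lit 0) (nat_lit 1129881955) (nat_lit 1216) (nat_lit 513817051) (nat_lit 470) (nat_lit 1) (nat_lit 469) (nat_lit 1) (nat_lit 485) (nat_lit 1) (nat_lit 445) (nat_lit 361)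 (nat_lit 334)) (XT.lf (nat_lit 988) (nat_lit 828401272) (nat_lit 0) (nat_lit 654862921) (nat_lit 912) (nat_lit 654862921) (nat_lit 470) (nat_lit 1) (nat_lit 457) (nat_lit 1) (nat_lit 469) (nat_lit 1) (nat_lit 446) (nat_lit 361) (nat_lit 333))))))) (XT.nd (nat_lit 57408) (nat_lit 0) (nat_lit 4180) (XT.nd (nat_lit 57018) (nat_lit 0) (nat_lit 3952) (XT.nd (nat_lit 156) (nat_lit 0) (nat_lit 0) (XT.nd (nat_lit 78) (nat_lit 912) (nat_lit 0) (XT.lf (nat_lit 76) (nat_lit 313794433) (nat_lit 0) (nat_lit 1491421911) (nat_lit 988) (nat_lit 313794433) (nat_lit 458) (nat_lit 1) (nat_lit 457) (nat_lit 1) (nat_lit 470) (nat_lit 1) (nat_lit 447) (nat_lit 361) (nat_lit 332)) (XT.lf (nat_lit 988) (nat_lit 420901972) (nat_lit 0) (nat_lit 839587453) (nat_lit 912) (nat_lit 839587453) (nat_lit 458) (nat_lit 1) (nat_lit 445) (nat_lit 1) (nat_lit 457) (nat_lit 1) (nat_lit 448) (nat_lit 361) (nat_lit 331))) (XT.nd (nat_lit 56784) (nat_lit 0) (nat_lit 3952) (XT.lf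 (nat_lit 76) (nat_lit 107740165) (nat_lit 0) (nat_lit 1865979243) (nat_lit 988) (nat_lit 107740165) (nat_lit 446) (nat_lit 1) (nat_lit 445) (nat_lit 1) (nat_lit 458) (nat_lit 1) (nat_lit 449) (nat_lit 361) (nat_lit 330)) (XT.lf (nat_lit 1900) (nat_lit 472261197) (nat_lit 0) (nat_lit 476210399) (nat_lit 1900) (nat_lit 472261197) (nat_lit 522) (nat_lit 1) (nat_lit 497) (nat_lit 0) (nat_lit 522) (nat_lit 0) (nat_lit 416) (nat_lit 362) (nat_lit 362)))) (XT.nd (nat_lit 156) (nat_lit 0) (nat_lit 76) (XT.nd (nat_lit 78) (nat_lit 0) (nat_lit 76) (XT.lf (nat_lit 1900) (nat_lit 1867391778) (nat_lit 76) (nat_lit 473077435) (nat_lit 0) (nat_lit 473077435) (nat_lit 522) (nat_lit 1) (nat_lit 498) (nat_lit 1) (nat_lit 497) (nat_lit 0) (nat_lit 417) (nat_lit 362) (nat_lit 361)) (XT.lf (nat_lit 1900) (nat_lit 916898252) (nat_lit 0) (nat_lit 952136152) (nat_lit 1824) (nat_lit 916898252) (nat_lit 523) (nat_lit 1) (nat_lit 498) (nat_lit 1) (nat_lit 522)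 (nat_lit 1) (nat_lit 418) (nat_lit 362) (nat_lit 360))) (XT.nd (nat_lit 78) (nat_lit 0) (nat_lit 76) (XT.lf (nat_lit 1900) (nat_lit 1794595907) (nat_lit 76) (nat_lit 482070691) (nat_lit 0) (nat_lit 482070691) (nat_lit 523) (nat_lit 1) (nat_lit 499) (nat_lit 1) (nat_lit 498) (nat_lit 1) (nat_lit 419) (nat_lit 362) (nat_lit 359)) (XT.nd (nat_lit 78) (nat_lit 0) (nat_lit 0) (XT.lf (nat_lit 1900) (nat_lit 872139604) (nat_lit 0) (nat_lit 987562923) (nat_lit 1824) (nat_lit 872139604) (nat_lit 524) (nat_lit 1) (nat_lit 499) (nat_lit 1) (nat_lit 523) (nat_lit 1) (nat_lit 420) (nat_lit 362) (nat_lit 358)) (XT.lf (nat_lit 1900) (nat_lit 1688451986) (nat_lit 76) (nat_lit 508447473) (nat_lit 0) (nat_lit 508447473) (nat_lit 524) (nat_lit 1) (nat_lit 500) (nat_lit 1) (nat_lit 499) (nat_lit 1) (nat_lit 421) (nat_lit 362) (nat_lit 357)))))) (XT.nd (nat_lit 390) (nat_lit 0) (nat_lit 152) (XT.nd (nat_lit 156) (nat_lit 0) (nat_lit 76) (XT.nd (nat_lit 78)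 (nat_lit 0) (nat_lit 0) (XT.lf (nat_lit 1900) (nat_lit 811268807) (nat_lit 0) (nat_lit 1056614384) (nat_lit 1824) (nat_lit 811268807) (nat_lit 525) (nat_lit 1) (nat_lit 500) (nat_lit 1) (nat_lit 524) (nat_lit 1) (nat_lit 422) (nat_lit 362) (nat_lit 356)) (XT.lf (nat_lit 1900) (nat_lit 1550964272) (nat_lit 76) (nat_lit 551185058) (nat_lit 0) (nat_lit 551185058) (nat_lit 525) (nat_lit 1) (nat_lit 501) (nat_lit 1) (nat_lit 500) (nat_lit 1) (nat_lit 423) (nat_lit 362) (nat_lit 355))) (XT.nd (nat_lit 78) (nat_lit 0) (nat_lit 0) (XT.lf (nat_lit 1900) (nat_lit 735261520) (nat_lit 0) (nat_lit 1157298567) (nat_lit 1824) (nat_lit 735261520) (nat_lit 526) (nat_lit 1) (nat_lit 501) (nat_lit 1) (nat_lit 525) (nat_lit 1) (nat_lit 424) (nat_lit 362) (nat_lit 354)) (XT.nd (nat_lit 78) (nat_lit 0) (nat_lit 76) (XT.lf (nat_lit 1900) (nat_lit 1384045283) (nat_lit 76) (nat_lit 609307252) (nat_lit 0) (nat_lit 609307252) (nat_lit 526) (nat_lit 1) (nat_lit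 502) (nat_lit 1) (nat_lit 501) (nat_lit 1) (nat_lit 425) (nat_lit 362) (nat_lit 353)) (XT.lf (nat_lit 1900) (nat_lit 645048652) (nat_lit 0) (nat_lit 1287714309) (nat_lit 1824) (nat_lit 645048652) (nat_lit 527) (nat_lit 1) (nat_lit 502) (nat_lit 1) (nat_lit 526) (nat_lit 1) (nat_lit 426) (nat_lit 362) (nat_lit 352))))) (XT.nd (nat_lit 156) (nat_lit 0) (nat_lit 76) (XT.nd (nat_lit 78) (nat_lit 0) (nat_lit 76) (XT.lf (nat_lit 1900) (nat_lit 1189519638) (nat_lit 76) (nat_lit 681882453) (nat_lit 0) (nat_lit 681882453) (nat_lit 527) (nat_lit 1) (nat_lit 503) (nat_lit 1) (nat_lit 502) (nat_lit 1) (nat_lit 427) (nat_lit 362) (nat_lit 351)) (XT.lf (nat_lit 1900) (nat_lit 541518235) (nat_lit 0) (nat_lit 1446047466) (nat_lit 1824) (nat_lit 541518235) (nat_lit 528) (nat_lit 1) (nat_lit 503) (nat_lit 1) (nat_lit 527) (nat_lit 1) (nat_lit 428) (nat_lit 362) (nat_lit 350))) (XT.nd (nat_lit 78) (nat_lit 0) (nat_lit 76) (XT.lf (nat_lit 1900) (nat_lit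 969127736) (nat_lit 76) (nat_lit 768021787) (nat_lit 0) (nat_lit 768021787) (nat_lit 528) (nat_lit 1) (nat_lit 504) (nat_lit 1) (nat_lit 503) (nat_lit 1) (nat_lit 429) (nat_lit 362) (nat_lit 349)) (XT.nd (nat_lit 78) (nat_lit 0) (nat_lit 0) (XT.lf (nat_lit 1900) (nat_lit 425517221) (nat_lit 0) (nat_lit 1630567272) (nat_lit 1824) (nat_lit 425517221) (nat_lit 529) (nat_lit 1) (nat_lit 504) (nat_lit 1) (nat_lit 528) (nat_lit 1) (nat_lit 430) (nat_lit 362) (nat_lit 348)) (XT.lf (nat_lit 1900) (nat_lit 724529288) (nat_lit 76) (nat_lit 866877319) (nat_lit 0) (nat_lit 866877319) (nat_lit 529) (nat_lit 1) (nat_lit 505) (nat_lit 1) (nat_lit 504) (nat_lit 1) (nat_lit 431) (nat_lit 362) (nat_lit 347))))))))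
noncomputable def ec8 : XT := (XT.nd (nat_lit 57954) (nat_lit 0) (nat_lit 5776) (XT.nd (nat_lit 702) (nat_lit 4636) (nat_lit 0) (XT.nd (nat_lit 312) (nat_lit 1748) (nat_lit 0) (XT.nd (nat_lit 156) (nat_lit 0) (nat_lit 76) (XT.nd (nat_lit 78) (nat_lit 0) (nat_lit 0) (XT.lf (nat_lit 1900) (nat_lit 297853209) (nat_lit 0) (nat_lit 1839622849) (nat_lit 1824) (nat_lit 297853209) (nat_lit 530) (nat_lit 1) (nat_lit 505) (nat_lit 1) (nat_lit 529) (nat_lit 1) (nat_lit 432) (nat_lit 362) (nat_lit 346)) (XT.lf (nat_lit 1900) (nat_lit 457306707) (nat_lit 76) (nat_lit 977640342) (nat_lit 0) (nat_lit 977640342) (nat_lit 530) (nat_lit 1) (nat_lit 506) (nat_lit 1) (nat_lit 505) (nat_lit 1) (nat_lit 433) (nat_lit 362) (nat_lit 345))) (XT.nd (nat_lit 78) (nat_lit 0) (nat_lit 0) (XT.lf (nat_lit 1900) (nat_lit 159296097) (nat_lit 0) (nat_lit 2071639857) (nat_lit 1824) (nat_lit 159296097) (nat_lit 531) (nat_lit 1) (nat_lit 506) (nat_lit 1) (nat_lit 530) (nat_lit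 1) (nat_lit 434) (nat_lit 362) (nat_lit 344)) (XT.lf (nat_lit 1900) (nat_lit 168968363) (nat_lit 76) (nat_lit 1099539724) (nat_lit 0) (nat_lit 1099539724) (nat_lit 531) (nat_lit 1) (nat_lit 507) (nat_lit 1) (nat_lit 506) (nat_lit 1) (nat_lit 435) (nat_lit 362) (nat_lit 343)))) (XT.nd (nat_lit 156) (nat_lit 0) (nat_lit 0) (XT.nd (nat_lit 78) (nat_lit 1900) (nat_lit 0) (XT.lf (nat_lit 1900) (nat_lit 10579668) (nat_lit 0) (nat_lit 2325117278) (nat_lit 1824) (nat_lit 10579668) (nat_lit 532) (nat_lit 1) (nat_lit 507) (nat_lit 1) (nat_lit 531) (nat_lit 1) (nat_lit 436) (nat_lit 362) (nat_lit 342)) (XT.lf (nat_lit 1976) (nat_lit 1093694830) (nat_lit 0) (nat_lit 137224652) (nat_lit 1900) (nat_lit 1093694830) (nat_lit 508) (nat_lit 1) (nat_lit 482) (nat_lit 1) (nat_lit 507) (nat_lit 1) (nat_lit 437) (nat_lit 362) (nat_lit 341))) (XT.nd (nat_lit 78) (nat_lit 0) (nat_lit 76) (XT.lf (nat_lit 1976) (nat_lit 2010101964) (nat_lit 76) (nat_lit 146625844)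 (nat_lit 0) (nat_lit 146625844) (nat_lit 508) (nat_lit 1) (nat_lit 483) (nat_lit 1) (nat_lit 482) (nat_lit 1) (nat_lit 438) (nat_lit 362) (nat_lit 340)) (XT.nd (nat_lit 78) (nat_lit 0) (nat_lit 0) (XT.lf (nat_lit 1976) (nat_lit 911489281) (nat_lit 0) (nat_lit 459270288) (nat_lit 1900) (nat_lit 911489281) (nat_lit 509) (nat_lit 1) (nat_lit 483) (nat_lit 1) (nat_lit 508) (nat_lit 1) (nat_lit 439) (nat_lit 362) (nat_lit 339)) (XT.lf (nat_lit 1976) (nat_lit 1636502733) (nat_lit 76) (nat_lit 312497945) (nat_lit 0) (nat_lit 312497945) (nat_lit 509) (nat_lit 1) (nat_lit 484) (nat_lit 1) (nat_lit 483) (nat_lit 1) (nat_lit 440) (nat_lit 362) (nat_lit 338)))))) (XT.nd (nat_lit 312) (nat_lit 2736) (nat_lit 0) (XT.nd (nat_lit 156) (nat_lit 912) (nat_lit 0) (XT.nd (nat_lit 78) (nat_lit 1140) (nat_lit 0) (XT.lf (nat_lit 76) (nat_lit 721422762) (nat_lit 0) (nat_lit 798097231) (nat_lit 1900) (nat_lit 721422762) (nat_lit 485) (nat_lit 1) (nat_lit 484)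 (nat_lit 1) (nat_lit 509) (nat_lit 1) (nat_lit 441) (nat_lit 362) (nat_lit 337)) (XT.lf (nat_lit 1216) (nat_lit 1247734878) (nat_lit 0) (nat_lit 486476057) (nat_lit 1140) (nat_lit 486476057) (nat_lit 485) (nat_lit 1) (nat_lit 469) (nat_lit 1) (nat_lit 484) (nat_lit 1) (nat_lit 442) (nat_lit 362) (nat_lit 336))) (XT.nd (nat_lit 78) (nat_lit 912) (nat_lit 0) (XT.lf (nat_lit 76) (nat_lit 524093393) (nat_lit 0) (nat_lit 1152479594) (nat_lit 1216) (nat_lit 524093393) (nat_lit 470) (nat_lit 1) (nat_lit 469) (nat_lit 1) (nat_lit 485) (nat_lit 1) (nat_lit 443) (nat_lit 362) (nat_lit 335)) (XT.lf (nat_lit 988) (nat_lit 844969298) (nat_lit 0) (nat_lit 667960180) (nat_lit 912) (nat_lit 667960180) (nat_lit 470) (nat_lit 1) (nat_lit 457) (nat_lit 1) (nat_lit 469) (nat_lit 1) (nat_lit 444) (nat_lit 362) (nat_lit 334)))) (XT.nd (nat_lit 156) (nat_lit 1824) (nat_lit 0) (XT.nd (nat_lit 78) (nat_lit 912) (nat_lit 0) (XT.lf (nat_lit 76) (nat_lit 320070321)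 (nat_lit 0) (nat_lit 1521250349) (nat_lit 988) (nat_lit 320070321) (nat_lit 458) (nat_lit 1) (nat_lit 457) (nat_lit 1) (nat_lit 470) (nat_lit 1) (nat_lit 445) (nat_lit 362) (nat_lit 333)) (XT.lf (nat_lit 988) (nat_lit 429320011) (nat_lit 0) (nat_lit 856379202) (nat_lit 912) (nat_lit 856379202) (nat_lit 458) (nat_lit 1) (nat_lit 445) (nat_lit 1) (nat_lit 457) (nat_lit 1) (nat_lit 446) (nat_lit 362) (nat_lit 332))) (XT.nd (nat_lit 78) (nat_lit 1824) (nat_lit 0) (XT.lf (nat_lit 76) (nat_lit 109894969) (nat_lit 0) (nat_lit 1903298828) (nat_lit 988) (nat_lit 109894969) (nat_lit 446) (nat_lit 1) (nat_lit 445) (nat_lit 1) (nat_lit 458) (nat_lit 1) (nat_lit 447) (nat_lit 362) (nat_lit 331)) (XT.nd (nat_lit 78) (nat_lit 988) (nat_lit 0) (XT.lf (nat_lit 912) (nat_lit 1846595) (nat_lit 0) (nat_lit 1051189673) (nat_lit 836) (nat_lit 1051189673) (nat_lit 446) (nat_lit 1) (nat_lit 434) (nat_lit 1) (nat_lit 445) (nat_lit 1) (nat_lit 448) (nat_lit 362)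 (nat_lit 330)) (XT.lf (nat_lit 988) (nat_lit 1875235612) (nat_lit 0) (nat_lit 105220961) (nat_lit 912) (nat_lit 105220961) (nat_lit 434) (nat_lit 1) (nat_lit 421) (nat_lit 1) (nat_lit 433) (nat_lit 1) (nat_lit 449) (nat_lit 362) (nat_lit 329))))))) (XT.nd (nat_lit 702) (nat_lit 0) (nat_lit 304) (XT.nd (nat_lit 312) (nat_lit 0) (nat_lit 152) (XT.nd (nat_lit 156) (nat_lit 0) (nat_lit 76) (XT.nd (nat_lit 78) (nat_lit 0) (nat_lit 0) (XT.lf (nat_lit 1900) (nat_lit 481706421) (nat_lit 0) (nat_lit 485734607) (nat_lit 1900) (nat_lit 481706421) (nat_lit 522) (nat_lit 1) (nat_lit 497) (nat_lit 0) (nat_lit 522) (nat_lit 0) (nat_lit 414) (nat_lit 363) (nat_lit 363)) (XT.lf (nat_lit 1900) (nat_lit 1904739614) (nat_lit 76) (nat_lit 482538984) (nat_lit 0) (nat_lit 482538984) (nat_lit 522) (nat_lit 1) (nat_lit 498) (nat_lit 1) (nat_lit 497) (nat_lit 0) (nat_lit 415) (nat_lit 363) (nat_lit 362))) (XT.nd (nat_lit 78) (nat_lit 0) (nat_lit 0) (XT.lf (nat_lit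 1900) (nat_lit 935236217) (nat_lit 0) (nat_lit 971178875) (nat_lit 1824) (nat_lit 935236217) (nat_lit 523) (nat_lit 1) (nat_lit 498) (nat_lit 1) (nat_lit 522) (nat_lit 1) (nat_lit 416) (nat_lit 363) (nat_lit 361)) (XT.lf (nat_lit 1900) (nat_lit 1830487825) (nat_lit 76) (nat_lit 491712105) (nat_lit 0) (nat_lit 491712105) (nat_lit 523) (nat_lit 1) (nat_lit 499) (nat_lit 1) (nat_lit 498) (nat_lit 1) (nat_lit 417) (nat_lit 363) (nat_lit 360)))) (XT.nd (nat_lit 156) (nat_lit 0) (nat_lit 76) (XT.nd (nat_lit 78) (nat_lit 0) (nat_lit 0) (XT.lf (nat_lit 1900) (nat_lit 889582396) (nat_lit 0) (nat_lit 1007314181) (nat_lit 1824) (nat_lit 889582396) (nat_lit 524) (nat_lit 1) (nat_lit 499) (nat_lit 1) (nat_lit 523) (nat_lit 1) (nat_lit 418) (nat_lit 363) (nat_lit 359)) (XT.lf (nat_lit 1900) (nat_lit 1722221026) (nat_lit 76) (nat_lit 518616423) (nat_lit 0) (nat_lit 518616423) (nat_lit 524) (nat_lit 1) (nat_lit 500) (nat_lit 1) (nat_lit 499) (nat_lit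 1) (nat_lit 419) (nat_lit 363) (nat_lit 358))) (XT.nd (nat_lit 78) (nat_lit 0) (nat_lit 0) (XT.lf (nat_lit 1900) (nat_lit 827494183) (nat_lit 0) (nat_lit 1077746672) (nat_lit 1824) (nat_lit 827494183) (nat_lit 525) (nat_lit 1) (nat_lit 500) (nat_lit 1) (nat_lit 524) (nat_lit 1) (nat_lit 420) (nat_lit 363) (nat_lit 357)) (XT.nd (nat_lit 78) (nat_lit 0) (nat_lit 76) (XT.lf (nat_lit 1900) (nat_lit 1581983557) (nat_lit 76) (nat_lit 562208759) (nat_lit 0) (nat_lit 562208759) (nat_lit 525) (nat_lit 1) (nat_lit 501) (nat_lit 1) (nat_lit 500) (nat_lit 1) (nat_lit 421) (nat_lit 363) (nat_lit 356)) (XT.lf (nat_lit 1900) (nat_lit 749966751) (nat_lit 0) (nat_lit 1180444538) (nat_lit 1824) (nat_lit 749966751) (nat_lit 526) (nat_lit 1) (nat_lit 501) (nat_lit 1) (nat_lit 525) (nat_lit 1) (nat_lit 422) (nat_lit 363) (nat_lit 355)))))) (XT.nd (nat_lit 312) (nat_lit 0) (nat_lit 152) (XT.nd (nat_lit 156) (nat_lit 0) (nat_lit 76) (XT.nd (nat_lit 78) (nat_lit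 0) (nat_lit 76) (XT.lf (nat_lit 1900) (nat_lit 1411726188) (nat_lit 76) (nat_lit 621493397) (nat_lit 0) (nat_lit 621493397) (nat_lit 526) (nat_lit 1) (nat_lit 502) (nat_lit 1) (nat_lit 501) (nat_lit 1) (nat_lit 423) (nat_lit 363) (nat_lit 354)) (XT.lf (nat_lit 1900) (nat_lit 657949625) (nat_lit 0) (nat_lit 1313468596) (nat_lit 1824) (nat_lit 657949625) (nat_lit 527) (nat_lit 1) (nat_lit 502) (nat_lit 1) (nat_lit 526) (nat_lit 1) (nat_lit 424) (nat_lit 363) (nat_lit 353))) (XT.nd (nat_lit 78) (nat_lit 0) (nat_lit 76) (XT.lf (nat_lit 1900) (nat_lit 1213310031) (nat_lit 76) (nat_lit 695520102) (nat_lit 0) (nat_lit 695520102) (nat_lit 527) (nat_lit 1) (nat_lit 503) (nat_lit 1) (nat_lit 502) (nat_lit 1) (nat_lit 425) (nat_lit 363) (nat_lit 352)) (XT.lf (nat_lit 1900) (nat_lit 552348599) (nat_lit 0) (nat_lit 1474968416) (nat_lit 1824) (nat_lit 552348599) (nat_lit 528) (nat_lit 1) (nat_lit 503) (nat_lit 1) (nat_lit 527) (nat_lit 1) (nat_lit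 426) (nat_lit 363) (nat_lit 351)))) (XT.nd (nat_lit 156) (nat_lit 0) (nat_lit 76) (XT.nd (nat_lit 78) (nat_lit 0) (nat_lit 76) (XT.lf (nat_lit 1900) (nat_lit 988510291) (nat_lit 76) (nat_lit 783382222) (nat_lit 0) (nat_lit 783382222) (nat_lit 528) (nat_lit 1) (nat_lit 504) (nat_lit 1) (nat_lit 503) (nat_lit 1) (nat_lit 427) (nat_lit 363) (nat_lit 350)) (XT.lf (nat_lit 1900) (nat_lit 434027566) (nat_lit 0) (nat_lit 1663178617) (nat_lit 1824) (nat_lit 434027566) (nat_lit 529) (nat_lit 1) (nat_lit 504) (nat_lit 1) (nat_lit 528) (nat_lit 1) (nat_lit 428) (nat_lit 363) (nat_lit 349))) (XT.nd (nat_lit 78) (nat_lit 0) (nat_lit 76) (XT.lf (nat_lit 1900) (nat_lit 739019874) (nat_lit 76) (nat_lit 884214866) (nat_lit 0) (nat_lit 884214866) (nat_lit 529) (nat_lit 1) (nat_lit 505) (nat_lit 1) (nat_lit 504) (nat_lit 1) (nat_lit 429) (nat_lit 363) (nat_lit 348)) (XT.nd (nat_lit 78) (nat_lit 0) (nat_lit 0) (XT.lf (nat_lit 1900) (nat_lit 303810274) (nat_lit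 0) (nat_lit 1876415306) (nat_lit 1824) (nat_lit 303810274) (nat_lit 530) (nat_lit 1) (nat_lit 505) (nat_lit 1) (nat_lit 529) (nat_lit 1) (nat_lit 430) (nat_lit 363) (nat_lit 347)) (XT.lf (nat_lit 1900) (nat_lit 466452842) (nat_lit 76) (nat_lit 997193149) (nat_lit 0) (nat_lit 997193149) (nat_lit 530) (nat_lit 1) (nat_lit 506) (nat_lit 1) (nat_lit 505) (nat_lit 1) (nat_lit 431) (nat_lit 363) (nat_lit 346))))))))
noncomputable def ec9 : XT := (XT.nd (nat_lit 57798) (nat_lit 0) (nat_lit 6612) (XT.nd (nat_lit 702) (nat_lit 4484) (nat_lit 0) (XT.nd (nat_lit 312) (nat_lit 988) (nat_lit 0) (XT.nd (nat_lit 156) (nat_lit 1824) (nat_lit 0) (XT.nd (nat_lit 78) (nat_lit 0) (nat_lit 0) (XT.lf (nat_lit 1900) (nat_lit 162482019) (nat_lit 0) (nat_lit 2113072655) (nat_lit 1824) (nat_lit 162482019) (nat_lit 531) (nat_lit 1) (nat_lit 506) (nat_lit 1) (nat_lit 530) (nat_lit 1) (nat_lit 432) (nat_lit 363) (nat_lit 345)) (XT.lf (nat_lit 1900) (nat_lit 172347731)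 (nat_lit 76) (nat_lit 1121530518) (nat_lit 0) (nat_lit 1121530518) (nat_lit 531) (nat_lit 1) (nat_lit 507) (nat_lit 1) (nat_lit 506) (nat_lit 1) (nat_lit 433) (nat_lit 363) (nat_lit 344))) (XT.nd (nat_lit 78) (nat_lit 1900) (nat_lit 0) (XT.lf (nat_lit 1900) (nat_lit 10791262) (nat_lit 0) (nat_lit 2371619624) (nat_lit 1824) (nat_lit 10791262) (nat_lit 532) (nat_lit 1) (nat_lit 507) (nat_lit 1) (nat_lit 531) (nat_lit 1) (nat_lit 434) (nat_lit 363) (nat_lit 343)) (XT.lf (nat_lit 1976) (nat_lit 1115568727) (nat_lit 0) (nat_lit 139969145) (nat_lit 1900) (nat_lit 1115568727) (nat_lit 508) (nat_lit 1) (nat_lit 482) (nat_lit 1) (nat_lit 507) (nat_lit 1) (nat_lit 435) (nat_lit 363) (nat_lit 342)))) (XT.nd (nat_lit 156) (nat_lit 988) (nat_lit 0) (XT.nd (nat_lit 78) (nat_lit 0) (nat_lit 76) (XT.lf (nat_lit 1976) (nat_lit 2050304003) (nat_lit 76) (nat_lit 149558361) (nat_lit 0) (nat_lit 149558361) (nat_lit 508) (nat_lit 1) (nat_lit 483) (nat_lit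 1) (nat_lit 482) (nat_lit 1) (nat_lit 436) (nat_lit 363) (nat_lit 341)) (XT.lf (nat_lit 1976) (nat_lit 929719067) (nat_lit 0) (nat_lit 468455694) (nat_lit 1900) (nat_lit 929719067) (nat_lit 509) (nat_lit 1) (nat_lit 483) (nat_lit 1) (nat_lit 508) (nat_lit 1) (nat_lit 437) (nat_lit 363) (nat_lit 340))) (XT.nd (nat_lit 78) (nat_lit 1064) (nat_lit 0) (XT.lf (nat_lit 1976) (nat_lit 1669232787) (nat_lit 76) (nat_lit 318747904) (nat_lit 0) (nat_lit 318747904) (nat_lit 509) (nat_lit 1) (nat_lit 484) (nat_lit 1) (nat_lit 483) (nat_lit 1) (nat_lit 438) (nat_lit 363) (nat_lit 339)) (XT.nd (nat_lit 78) (nat_lit 1140) (nat_lit 0) (XT.lf (nat_lit 76) (nat_lit 735851218) (nat_lit 0) (nat_lit 814059176) (nat_lit 1900) (nat_lit 735851218) (nat_lit 485) (nat_lit 1) (nat_lit 484) (nat_lit 1) (nat_lit 509) (nat_lit 1) (nat_lit 439) (nat_lit 363) (nat_lit 338)) (XT.lf (nat_lit 1216) (nat_lit 1272689576) (nat_lit 0) (nat_lit 496205578) (nat_lit 1140) (nat_lit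 496205578) (nat_lit 485) (nat_lit 1) (nat_lit 469) (nat_lit 1) (nat_lit 484) (nat_lit 1) (nat_lit 440) (nat_lit 363) (nat_lit 337)))))) (XT.nd (nat_lit 312) (nat_lit 2660) (nat_lit 0) (XT.nd (nat_lit 156) (nat_lit 912) (nat_lit 0) (XT.nd (nat_lit 78) (nat_lit 912) (nat_lit 0) (XT.lf (nat_lit 76) (nat_lit 534575260) (nat_lit 0) (nat_lit 1175529186) (nat_lit 1216) (nat_lit 534575260) (nat_lit 470) (nat_lit 1) (nat_lit 469) (nat_lit 1) (nat_lit 485) (nat_lit 1) (nat_lit 441) (nat_lit 363) (nat_lit 336)) (XT.lf (nat_lit 988) (nat_lit 861868684) (nat_lit 0) (nat_lit 681319383) (nat_lit 912) (nat_lit 681319383) (nat_lit 470) (nat_lit 1) (nat_lit 457) (nat_lit 1) (nat_lit 469) (nat_lit 1) (nat_lit 442) (nat_lit 363) (nat_lit 335))) (XT.nd (nat_lit 78) (nat_lit 912) (nat_lit 0) (XT.lf (nat_lit 76) (nat_lit 326471728) (nat_lit 0) (nat_lit 1551675356) (nat_lit 988) (nat_lit 326471728) (nat_lit 458) (nat_lit 1) (nat_lit 457) (nat_lit 1) (nat_lit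 470) (nat_lit 1) (nat_lit 443) (nat_lit 363) (nat_lit 334)) (XT.lf (nat_lit 988) (nat_lit 437906411) (nat_lit 0) (nat_lit 873506786) (nat_lit 912) (nat_lit 873506786) (nat_lit 458) (nat_lit 1) (nat_lit 445) (nat_lit 1) (nat_lit 457) (nat_lit 1) (nat_lit 444) (nat_lit 363) (nat_lit 333)))) (XT.nd (nat_lit 156) (nat_lit 1824) (nat_lit 0) (XT.nd (nat_lit 78) (nat_lit 836) (nat_lit 0) (XT.lf (nat_lit 76) (nat_lit 112092868) (nat_lit 0) (nat_lit 1941364805) (nat_lit 988) (nat_lit 112092868) (nat_lit 446) (nat_lit 1) (nat_lit 445) (nat_lit 1) (nat_lit 458) (nat_lit 1) (nat_lit 445) (nat_lit 363) (nat_lit 332)) (XT.lf (nat_lit 912) (nat_lit 1883527) (nat_lit 0) (nat_lit 1072213466) (nat_lit 836) (nat_lit 1072213466) (nat_lit 446) (nat_lit 1) (nat_lit 434) (nat_lit 1) (nat_lit 445) (nat_lit 1) (nat_lit 446) (nat_lit 363) (nat_lit 331))) (XT.nd (nat_lit 78) (nat_lit 836) (nat_lit 0) (XT.lf (nat_lit 988) (nat_lit 1912740324) (nat_lit 0) (nat_lit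 107325380) (nat_lit 912) (nat_lit 107325380) (nat_lit 434) (nat_lit 1) (nat_lit 421) (nat_lit 1) (nat_lit 433) (nat_lit 1) (nat_lit 447) (nat_lit 363) (nat_lit 330)) (XT.nd (nat_lit 78) (nat_lit 836) (nat_lit 0) (XT.lf (nat_lit 76) (nat_lit 834630112) (nat_lit 0) (nat_lit 439333840) (nat_lit 988) (nat_lit 834630112) (nat_lit 422) (nat_lit 1) (nat_lit 421) (nat_lit 1) (nat_lit 434) (nat_lit 1) (nat_lit 448) (nat_lit 363) (nat_lit 329)) (XT.lf (nat_lit 912) (nat_lit 1427663889) (nat_lit 0) (nat_lit 331222524) (nat_lit 836) (nat_lit 331222524) (nat_lit 422) (nat_lit 1) (nat_lit 410) (nat_lit 1) (nat_lit 421) (nat_lit 1) (nat_lit 449) (nat_lit 363) (nat_lit 328))))))) (XT.nd (nat_lit 702) (nat_lit 0) (nat_lit 304) (XT.nd (nat_lit 312) (nat_lit 0) (nat_lit 152) (XT.nd (nat_lit 156) (nat_lit 0) (nat_lit 76) (XT.nd (nat_lit 78) (nat_lit 0) (nat_lit 0) (XT.lf (nat_lit 1900) (nat_lit 491340549) (nat_lit 0) (nat_lit 495449299) (nat_lit 1900) (nat_lit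 491340549) (nat_lit 522) (nat_lit 1) (nat_lit 497) (nat_lit 0) (nat_lit 522) (nat_lit 0) (nat_lit 412) (nat_lit 364) (nat_lit 364)) (XT.lf (nat_lit 1900) (nat_lit 1942834406) (nat_lit 76) (nat_lit 492189764) (nat_lit 0) (nat_lit 492189764) (nat_lit 522) (nat_lit 1) (nat_lit 498) (nat_lit 1) (nat_lit 497) (nat_lit 0) (nat_lit 413) (nat_lit 364) (nat_lit 363))) (XT.nd (nat_lit 78) (nat_lit 0) (nat_lit 0) (XT.lf (nat_lit 1900) (nat_lit 953940941) (nat_lit 0) (nat_lit 990602453) (nat_lit 1824) (nat_lit 953940941) (nat_lit 523) (nat_lit 1) (nat_lit 498) (nat_lit 1) (nat_lit 522) (nat_lit 1) (nat_lit 414) (nat_lit 364) (nat_lit 362)) (XT.lf (nat_lit 1900) (nat_lit 1867097581) (nat_lit 76) (nat_lit 501546347) (nat_lit 0) (nat_lit 501546347) (nat_lit 523) (nat_lit 1) (nat_lit 499) (nat_lit 1) (nat_lit 498) (nat_lit 1) (nat_lit 415) (nat_lit 364) (nat_lit 361)))) (XT.nd (nat_lit 156) (nat_lit 0) (nat_lit 76) (XT.nd (nat_lit 78) (nat_lit 0) (nat_lit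 0) (XT.lf (nat_lit 1900) (nat_lit 907374044) (nat_lit 0) (nat_lit 1027460465) (nat_lit 1824) (nat_lit 907374044) (nat_lit 524) (nat_lit 1) (nat_lit 499) (nat_lit 1) (nat_lit 523) (nat_lit 1) (nat_lit 416) (nat_lit 364) (nat_lit 360)) (XT.lf (nat_lit 1900) (nat_lit 1756665447) (nat_lit 76) (nat_lit 528988751) (nat_lit 0) (nat_lit 528988751) (nat_lit 524) (nat_lit 1) (nat_lit 500) (nat_lit 1) (nat_lit 499) (nat_lit 1) (nat_lit 417) (nat_lit 364) (nat_lit 359))) (XT.nd (nat_lit 78) (nat_lit 0) (nat_lit 0) (XT.lf (nat_lit 1900) (nat_lit 844044067) (nat_lit 0) (nat_lit 1099301605) (nat_lit 1824) (nat_lit 844044067) (nat_lit 525) (nat_lit 1) (nat_lit 500) (nat_lit 1) (nat_lit 524) (nat_lit 1) (nat_lit 418) (nat_lit 364) (nat_lit 358)) (XT.nd (nat_lit 78) (nat_lit 0) (nat_lit 76) (XT.lf (nat_lit 1900) (nat_lit 1613623228) (nat_lit 76) (nat_lit 573452935) (nat_lit 0) (nat_lit 573452935) (nat_lit 525) (nat_lit 1) (nat_lit 501) (nat_lit 1) (nat_lit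 500) (nat_lit 1) (nat_lit 419) (nat_lit 364) (nat_lit 357)) (XT.lf (nat_lit 1900) (nat_lit 764966086) (nat_lit 0) (nat_lit 1204053429) (nat_lit 1824) (nat_lit 764966086) (nat_lit 526) (nat_lit 1) (nat_lit 501) (nat_lit 1) (nat_lit 525) (nat_lit 1) (nat_lit 420) (nat_lit 364) (nat_lit 356)))))) (XT.nd (nat_lit 390) (nat_lit 0) (nat_lit 228) (XT.nd (nat_lit 156) (nat_lit 0) (nat_lit 76) (XT.nd (nat_lit 78) (nat_lit 0) (nat_lit 76) (XT.lf (nat_lit 1900) (nat_lit 1439960712) (nat_lit 76) (nat_lit 633923265) (nat_lit 0) (nat_lit 633923265) (nat_lit 526) (nat_lit 1) (nat_lit 502) (nat_lit 1) (nat_lit 501) (nat_lit 1) (nat_lit 421) (nat_lit 364) (nat_lit 355)) (XT.lf (nat_lit 1900) (nat_lit 671108617) (nat_lit 0) (nat_lit 1339737968) (nat_lit 1824) (nat_lit 671108617) (nat_lit 527) (nat_lit 1) (nat_lit 502) (nat_lit 1) (nat_lit 526) (nat_lit 1) (nat_lit 422) (nat_lit 364) (nat_lit 354))) (XT.nd (nat_lit 78) (nat_lit 0) (nat_lit 76) (XT.lf (nat_lit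 1900) (nat_lit 1237576232) (nat_lit 76) (nat_lit 709430504) (nat_lit 0) (nat_lit 709430504) (nat_lit 527) (nat_lit 1) (nat_lit 503) (nat_lit 1) (nat_lit 502) (nat_lit 1) (nat_lit 423) (nat_lit 364) (nat_lit 353)) (XT.nd (nat_lit 78) (nat_lit 0) (nat_lit 0) (XT.lf (nat_lit 1900) (nat_lit 563395571) (nat_lit 0) (nat_lit 1504467784) (nat_lit 1824) (nat_lit 563395571) (nat_lit 528) (nat_lit 1) (nat_lit 503) (nat_lit 1) (nat_lit 527) (nat_lit 1) (nat_lit 424) (nat_lit 364) (nat_lit 352)) (XT.lf (nat_lit 1900) (nat_lit 1008280497) (nat_lit 76) (nat_lit 799049867) (nat_lit 0) (nat_lit 799049867) (nat_lit 528) (nat_lit 1) (nat_lit 504) (nat_lit 1) (nat_lit 503) (nat_lit 1) (nat_lit 425) (nat_lit 364) (nat_lit 351))))) (XT.nd (nat_lit 156) (nat_lit 0) (nat_lit 76) (XT.nd (nat_lit 78) (nat_lit 0) (nat_lit 0) (XT.lf (nat_lit 1900) (nat_lit 442708117) (nat_lit 0) (nat_lit 1696442190) (nat_lit 1824) (nat_lit 442708117) (nat_lit 529) (nat_lit 1) (nat_lit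 504) (nat_lit 1) (nat_lit 528) (nat_lit 1) (nat_lit 426) (nat_lit 364) (nat_lit 350)) (XT.lf (nat_lit 1900) (nat_lit 753800271) (nat_lit 76) (nat_lit 901899163) (nat_lit 0) (nat_lit 901899163) (nat_lit 529) (nat_lit 1) (nat_lit 505) (nat_lit 1) (nat_lit 504) (nat_lit 1) (nat_lit 427) (nat_lit 364) (nat_lit 349))) (XT.nd (nat_lit 78) (nat_lit 0) (nat_lit 0) (XT.lf (nat_lit 1900) (nat_lit 309886479) (nat_lit 0) (nat_lit 1913943612) (nat_lit 1824) (nat_lit 309886479) (nat_lit 530) (nat_lit 1) (nat_lit 505) (nat_lit 1) (nat_lit 529) (nat_lit 1) (nat_lit 428) (nat_lit 364) (nat_lit 348)) (XT.nd (nat_lit 78) (nat_lit 0) (nat_lit 76) (XT.lf (nat_lit 1900) (nat_lit 475781898) (nat_lit 76) (nat_lit 1017137012) (nat_lit 0) (nat_lit 1017137012) (nat_lit 530) (nat_lit 1) (nat_lit 506) (nat_lit 1) (nat_lit 505) (nat_lit 1) (nat_lit 429) (nat_lit 364) (nat_lit 347)) (XT.lf (nat_lit 1900) (nat_lit 165731659) (nat_lit 0) (nat_lit 2155334108) (nat_lit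 1824) (nat_lit 165731659) (nat_lit 531) (nat_lit 1) (nat_lit 506) (nat_lit 1) (nat_lit 530) (nat_lit 1) (nat_lit 430) (nat_lit 364) (nat_lit 346))))))))
noncomputable def ec10 : XT := (XT.nd (nat_lit 1404) (nat_lit 836) (nat_lit 0) (XT.nd (nat_lit 702) (nat_lit 4484) (nat_lit 0) (XT.nd (nat_lit 312) (nat_lit 988) (nat_lit 0) (XT.nd (nat_lit 156) (nat_lit 1824) (nat_lit 0) (XT.nd (nat_lit 78) (nat_lit 0) (nat_lit 76) (XT.lf (nat_lit 1900) (nat_lit 175794685) (nat_lit 76) (nat_lit 1143961129) (nat_lit 0) (nat_lit 1143961129) (nat_lit 531) (nat_lit 1) (nat_lit 507) (nat_lit 1) (nat_lit 506) (nat_lit 1) (nat_lit 431) (nat_lit 364) (nat_lit 345)) (XT.lf (nat_lit 1900) (nat_lit 11007087) (nat_lit 0) (nat_lit 2419052016) (nat_lit 1824) (nat_lit 11007087) (nat_lit 532) (nat_lit 1) (nat_lit 507) (nat_lit 1) (nat_lit 531) (nat_lit 1) (nat_lit 432) (nat_lit 364) (nat_lit 344))) (XT.nd (nat_lit 78) (nat_lit 0) (nat_lit 0) (XT.lf (nat_lit 1976) (nat_lit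 1137880101) (nat_lit 0) (nat_lit 142768528) (nat_lit 1900) (nat_lit 1137880101) (nat_lit 508) (nat_lit 1) (nat_lit 482) (nat_lit 1) (nat_lit 507) (nat_lit 1) (nat_lit 433) (nat_lit 364) (nat_lit 343)) (XT.lf (nat_lit 1976) (nat_lit 2091310083) (nat_lit 76) (nat_lit 152549529) (nat_lit 0) (nat_lit 152549529) (nat_lit 508) (nat_lit 1) (nat_lit 483) (nat_lit 1) (nat_lit 482) (nat_lit 1) (nat_lit 434) (nat_lit 364) (nat_lit 342)))) (XT.nd (nat_lit 156) (nat_lit 1064) (nat_lit 0) (XT.nd (nat_lit 78) (nat_lit 0) (nat_lit 0) (XT.lf (nat_lit 1976) (nat_lit 948313448) (nat_lit 0) (nat_lit 477824808) (nat_lit 1900) (nat_lit 948313448) (nat_lit 509) (nat_lit 1) (nat_lit 483) (nat_lit 1) (nat_lit 508) (nat_lit 1) (nat_lit 435) (nat_lit 364) (nat_lit 341)) (XT.lf (nat_lit 1976) (nat_lit 1702617443) (nat_lit 76) (nat_lit 325122862) (nat_lit 0) (nat_lit 325122862) (nat_lit 509) (nat_lit 1) (nat_lit 484) (nat_lit 1) (nat_lit 483) (nat_lit 1) (nat_lit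 436) (nat_lit 364) (nat_lit 340))) (XT.nd (nat_lit 78) (nat_lit 1140) (nat_lit 0) (XT.lf (nat_lit 76) (nat_lit 750568242) (nat_lit 0) (nat_lit 830340360) (nat_lit 1900) (nat_lit 750568242) (nat_lit 485) (nat_lit 1) (nat_lit 484) (nat_lit 1) (nat_lit 509) (nat_lit 1) (nat_lit 437) (nat_lit 364) (nat_lit 339)) (XT.nd (nat_lit 78) (nat_lit 0) (nat_lit 0) (XT.lf (nat_lit 1216) (nat_lit 1298143368) (nat_lit 0) (nat_lit 506129690) (nat_lit 1140) (nat_lit 506129690) (nat_lit 485) (nat_lit 1) (nat_lit 469) (nat_lit 1) (nat_lit 484) (nat_lit 1) (nat_lit 438) (nat_lit 364) (nat_lit 338)) (XT.lf (nat_lit 76) (nat_lit 545266766) (nat_lit 0) (nat_lit 1199039769) (nat_lit 1216) (nat_lit 545266766) (nat_lit 470) (nat_lit 1) (nat_lit 469) (nat_lit 1) (nat_lit 485) (nat_lit 1) (nat_lit 439) (nat_lit 364) (nat_lit 337)))))) (XT.nd (nat_lit 312) (nat_lit 2660) (nat_lit 0) (XT.nd (nat_lit 156) (nat_lit 912) (nat_lit 0) (XT.nd (nat_lit 78) (nat_lit 0) (nat_lit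 0) (XT.lf (nat_lit 988) (nat_lit 879106057) (nat_lit 0) (nat_lit 694945771) (nat_lit 912) (nat_lit 694945771) (nat_lit 470) (nat_lit 1) (nat_lit 457) (nat_lit 1) (nat_lit 469) (nat_lit 1) (nat_lit 440) (nat_lit 364) (nat_lit 336)) (XT.lf (nat_lit 76) (nat_lit 333001162) (nat_lit 0) (nat_lit 1582708863) (nat_lit 988) (nat_lit 333001162) (nat_lit 458) (nat_lit 1) (nat_lit 457) (nat_lit 1) (nat_lit 470) (nat_lit 1) (nat_lit 441) (nat_lit 364) (nat_lit 335))) (XT.nd (nat_lit 78) (nat_lit 0) (nat_lit 0) (XT.lf (nat_lit 988) (nat_lit 446664540) (nat_lit 0) (nat_lit 890976921) (nat_lit 912) (nat_lit 890976921) (nat_lit 458) (nat_lit 1) (nat_lit 445) (nat_lit 1) (nat_lit 457) (nat_lit 1) (nat_lit 442) (nat_lit 364) (nat_lit 334)) (XT.lf (nat_lit 76) (nat_lit 114334726) (nat_lit 0) (nat_lit 1980192101) (nat_lit 988) (nat_lit 114334726) (nat_lit 446) (nat_lit 1) (nat_lit 445) (nat_lit 1) (nat_lit 458) (nat_lit 1) (nat_lit 443) (nat_lit 364) (nat_lit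 333)))) (XT.nd (nat_lit 156) (nat_lit 836) (nat_lit 0) (XT.nd (nat_lit 78) (nat_lit 988) (nat_lit 0) (XT.lf (nat_lit 912) (nat_lit 1921197) (nat_lit 0) (nat_lit 1093657735) (nat_lit 836) (nat_lit 1093657735) (nat_lit 446) (nat_lit 1) (nat_lit 434) (nat_lit 1) (nat_lit 445) (nat_lit 1) (nat_lit 444) (nat_lit 364) (nat_lit 332)) (XT.lf (nat_lit 988) (nat_lit 1950995131) (nat_lit 0) (nat_lit 109471888) (nat_lit 912) (nat_lit 109471888) (nat_lit 434) (nat_lit 1) (nat_lit 421) (nat_lit 1) (nat_lit 433) (nat_lit 1) (nat_lit 445) (nat_lit 364) (nat_lit 331))) (XT.nd (nat_lit 78) (nat_lit 836) (nat_lit 0) (XT.lf (nat_lit 76) (nat_lit 851322714) (nat_lit 0) (nat_lit 448120517) (nat_lit 988) (nat_lit 851322714) (nat_lit 422) (nat_lit 1) (nat_lit 421) (nat_lit 1) (nat_lit 434) (nat_lit 1) (nat_lit 446) (nat_lit 364) (nat_lit 330)) (XT.nd (nat_lit 78) (nat_lit 0) (nat_lit 0) (XT.lf (nat_lit 912) (nat_lit 1456217167) (nat_lit 0) (nat_lit 337846974)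 (nat_lit 836) (nat_lit 337846974) (nat_lit 422) (nat_lit 1) (nat_lit 410) (nat_lit 1) (nat_lit 421) (nat_lit 1) (nat_lit 447) (nat_lit 364) (nat_lit 329)) (XT.lf (nat_lit 76) (nat_lit 602488505) (nat_lit 0) (nat_lit 908259886) (nat_lit 912) (nat_lit 602488505) (nat_lit 411) (nat_lit 1) (nat_lit 410) (nat_lit 1) (nat_lit 422) (nat_lit 1) (nat_lit 448) (nat_lit 364) (nat_lit 328))))))) (XT.nd (nat_lit 56940) (nat_lit 0) (nat_lit 7752) (XT.nd (nat_lit 56550) (nat_lit 0) (nat_lit 7524) (XT.nd (nat_lit 56394) (nat_lit 0) (nat_lit 7448) (XT.nd (nat_lit 56316) (nat_lit 0) (nat_lit 7448) (XT.lf (nat_lit 912) (nat_lit 952687736) (nat_lit 0) (nat_lit 571061968) (nat_lit 836) (nat_lit 571061968) (nat_lit 411) (nat_lit 1) (nat_lit 399) (nat_lit 1) (nat_lit 410) (nat_lit 1) (nat_lit 449) (nat_lit 364) (nat_lit 327)) (XT.lf (nat_lit 1900) (nat_lit 501167360) (nat_lit 0) (nat_lit 505358285) (nat_lit 1900) (nat_lit 501167360) (nat_lit 522) (nat_lit 1)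 (nat_lit 497) (nat_lit 0) (nat_lit 522) (nat_lit 0) (nat_lit 410) (nat_lit 365) (nat_lit 365))) (XT.nd (nat_lit 78) (nat_lit 0) (nat_lit 76) (XT.lf (nat_lit 1900) (nat_lit 1981691094) (nat_lit 76) (nat_lit 502033559) (nat_lit 0) (nat_lit 502033559) (nat_lit 522) (nat_lit 1) (nat_lit 498) (nat_lit 1) (nat_lit 497) (nat_lit 0) (nat_lit 411) (nat_lit 365) (nat_lit 364)) (XT.lf (nat_lit 1900) (nat_lit 973019760) (nat_lit 0) (nat_lit 1010414502) (nat_lit 1824) (nat_lit 973019760) (nat_lit 523) (nat_lit 1) (nat_lit 498) (nat_lit 1) (nat_lit 522) (nat_lit 1) (nat_lit 412) (nat_lit 365) (nat_lit 363)))) (XT.nd (nat_lit 156) (nat_lit 0) (nat_lit 76) (XT.nd (nat_lit 78) (nat_lit 0) (nat_lit 76) (XT.lf (nat_lit 1900) (nat_lit 1904439533) (nat_lit 76) (nat_lit 511577274) (nat_lit 0) (nat_lit 511577274) (nat_lit 523) (nat_lit 1) (nat_lit 499) (nat_lit 1) (nat_lit 498) (nat_lit 1) (nat_lit 413) (nat_lit 365) (nat_lit 362)) (XT.lf (nat_lit 1900) (nat_lit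 925521525) (nat_lit 0) (nat_lit 1048009674) (nat_lit 1824) (nat_lit 925521525) (nat_lit 524) (nat_lit 1) (nat_lit 499) (nat_lit 1) (nat_lit 523) (nat_lit 1) (nat_lit 414) (nat_lit 365) (nat_lit 361))) (XT.nd (nat_lit 78) (nat_lit 0) (nat_lit 76) (XT.lf (nat_lit 1900) (nat_lit 1791798755) (nat_lit 76) (nat_lit 539568526) (nat_lit 0) (nat_lit 539568526) (nat_lit 524) (nat_lit 1) (nat_lit 500) (nat_lit 1) (nat_lit 499) (nat_lit 1) (nat_lit 415) (nat_lit 365) (nat_lit 360)) (XT.nd (nat_lit 78) (nat_lit 0) (nat_lit 0) (XT.lf (nat_lit 1900) (nat_lit 860924948) (nat_lit 0) (nat_lit 1121287637) (nat_lit 1824) (nat_lit 860924948) (nat_lit 525) (nat_lit 1) (nat_lit 500) (nat_lit 1) (nat_lit 524) (nat_lit 1) (nat_lit 416) (nat_lit 365) (nat_lit 359)) (XT.lf (nat_lit 1900) (nat_lit 1645895693) (nat_lit 76) (nat_lit 584921993) (nat_lit 0) (nat_lit 584921993) (nat_lit 525) (nat_lit 1) (nat_lit 501) (nat_lit 1) (nat_lit 500) (nat_lit 1) (nat_lit 417)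 (nat_lit 365) (nat_lit 358)))))) (XT.nd (nat_lit 312) (nat_lit 0) (nat_lit 152) (XT.nd (nat_lit 156) (nat_lit 0) (nat_lit 76) (XT.nd (nat_lit 78) (nat_lit 0) (nat_lit 0) (XT.lf (nat_lit 1900) (nat_lit 780265407) (nat_lit 0) (nat_lit 1228134498) (nat_lit 1824) (nat_lit 780265407) (nat_lit 526) (nat_lit 1) (nat_lit 501) (nat_lit 1) (nat_lit 525) (nat_lit 1) (nat_lit 418) (nat_lit 365) (nat_lit 357)) (XT.lf (nat_lit 1900) (nat_lit 1468759927) (nat_lit 76) (nat_lit 646601731) (nat_lit 0) (nat_lit 646601731) (nat_lit 526) (nat_lit 1) (nat_lit 502) (nat_lit 1) (nat_lit 501) (nat_lit 1) (nat_lit 419) (nat_lit 365) (nat_lit 356))) (XT.nd (nat_lit 78) (nat_lit 0) (nat_lit 0) (XT.lf (nat_lit 1900) (nat_lit 684530790) (nat_lit 0) (nat_lit 1366532727) (nat_lit 1824) (nat_lit 684530790) (nat_lit 527) (nat_lit 1) (nat_lit 502) (nat_lit 1) (nat_lit 526) (nat_lit 1) (nat_lit 420) (nat_lit 365) (nat_lit 355)) (XT.lf (nat_lit 1900) (nat_lit 1262327756)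 (nat_lit 76) (nat_lit 723619114) (nat_lit 0) (nat_lit 723619114) (nat_lit 527) (nat_lit 1) (nat_lit 503) (nat_lit 1) (nat_lit 502) (nat_lit 1) (nat_lit 421) (nat_lit 365) (nat_lit 354)))) (XT.nd (nat_lit 156) (nat_lit 0) (nat_lit 76) (XT.nd (nat_lit 78) (nat_lit 0) (nat_lit 0) (XT.lf (nat_lit 1900) (nat_lit 574663483) (nat_lit 0) (nat_lit 1534557140) (nat_lit 1824) (nat_lit 574663483) (nat_lit 528) (nat_lit 1) (nat_lit 503) (nat_lit 1) (nat_lit 527) (nat_lit 1) (nat_lit 422) (nat_lit 365) (nat_lit 353)) (XT.lf (nat_lit 1900) (nat_lit 1028446107) (nat_lit 76) (nat_lit 815030864) (nat_lit 0) (nat_lit 815030864) (nat_lit 528) (nat_lit 1) (nat_lit 504) (nat_lit 1) (nat_lit 503) (nat_lit 1) (nat_lit 423) (nat_lit 365) (nat_lit 352))) (XT.nd (nat_lit 78) (nat_lit 0) (nat_lit 0) (XT.lf (nat_lit 1900) (nat_lit 451562279) (nat_lit 0) (nat_lit 1730371034) (nat_lit 1824) (nat_lit 451562279) (nat_lit 529) (nat_lit 1) (nat_lit 504) (nat_lit 1) (nat_lit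 528) (nat_lit 1) (nat_lit 424) (nat_lit 365) (nat_lit 351)) (XT.nd (nat_lit 78) (nat_lit 0) (nat_lit 76) (XT.lf (nat_lit 1900) (nat_lit 768876277) (nat_lit 76) (nat_lit 919937146) (nat_lit 0) (nat_lit 919937146) (nat_lit 529) (nat_lit 1) (nat_lit 505) (nat_lit 1) (nat_lit 504) (nat_lit 1) (nat_lit 425) (nat_lit 365) (nat_lit 350)) (XT.lf (nat_lit 1900) (nat_lit 316084209) (nat_lit 0) (nat_lit 1952222485) (nat_lit 1824) (nat_lit 316084209) (nat_lit 530) (nat_lit 1) (nat_lit 505) (nat_lit 1) (nat_lit 529) (nat_lit 1) (nat_lit 426) (nat_lit 365) (nat_lit 349))))))))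
noncomputable def ec11 : XT := (XT.nd (nat_lit 1404) (nat_lit 2432) (nat_lit 0) (XT.nd (nat_lit 702) (nat_lit 4636) (nat_lit 0) (XT.nd (nat_lit 312) (nat_lit 1748) (nat_lit 0) (XT.nd (nat_lit 156) (nat_lit 0) (nat_lit 76) (XT.nd (nat_lit 78) (nat_lit 0) (nat_lit 76) (XT.lf (nat_lit 1900) (nat_lit 485297536) (nat_lit 76) (nat_lit 1037479752) (nat_lit 0) (nat_lit 1037479752) (nat_lit 530) (nat_lit 1) (nat_lit 506) (nat_lit 1) (nat_lit 505) (nat_lit 1) (nat_lit 427) (nat_lit 365) (nat_lit 348)) (XT.lf (nat_lit 1900) (nat_lit 169046292) (nat_lit 0) (nat_lit 2198440790) (nat_lit 1824) (nat_lit 169046292) (nat_lit 531) (nat_lit 1) (nat_lit 506) (nat_lit 1) (nat_lit 530) (nat_lit 1) (nat_lit 428) (nat_lit 365) (nat_lit 347))) (XT.nd (nat_lit 78) (nat_lit 0) (nat_lit 76) (XT.lf (nat_lit 1900) (nat_lit 179310579) (nat_lit 76) (nat_lit 1166840351) (nat_lit 0) (nat_lit 1166840351) (nat_lit 531) (nat_lit 1) (nat_lit 507) (nat_lit 1) (nat_lit 506)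 (nat_lit 1) (nat_lit 429) (nat_lit 365) (nat_lit 346)) (XT.lf (nat_lit 1900) (nat_lit 11227229) (nat_lit 0) (nat_lit 2467433057) (nat_lit 1824) (nat_lit 11227229) (nat_lit 532) (nat_lit 1) (nat_lit 507) (nat_lit 1) (nat_lit 531) (nat_lit 1) (nat_lit 430) (nat_lit 365) (nat_lit 345)))) (XT.nd (nat_lit 156) (nat_lit 0) (nat_lit 76) (XT.nd (nat_lit 78) (nat_lit 0) (nat_lit 0) (XT.lf (nat_lit 1976) (nat_lit 1160637703) (nat_lit 0) (nat_lit 145623899) (nat_lit 1900) (nat_lit 1160637703) (nat_lit 508) (nat_lit 1) (nat_lit 482) (nat_lit 1) (nat_lit 507) (nat_lit 1) (nat_lit 431) (nat_lit 365) (nat_lit 344)) (XT.lf (nat_lit 1976) (nat_lit 2133136285) (nat_lit 76) (nat_lit 155600519) (nat_lit 0) (nat_lit 155600519) (nat_lit 508) (nat_lit 1) (nat_lit 483) (nat_lit 1) (nat_lit 482) (nat_lit 1) (nat_lit 432) (nat_lit 365) (nat_lit 343))) (XT.nd (nat_lit 78) (nat_lit 0) (nat_lit 0) (XT.lf (nat_lit 1976) (nat_lit 967279717) (nat_lit 0) (nat_lit 487381304)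 (nat_lit 1900) (nat_lit 967279717) (nat_lit 509) (nat_lit 1) (nat_lit 483) (nat_lit 1) (nat_lit 508) (nat_lit 1) (nat_lit 433) (nat_lit 365) (nat_lit 342)) (XT.nd (nat_lit 78) (nat_lit 0) (nat_lit 76) (XT.lf (nat_lit 1976) (nat_lit 1736669792) (nat_lit 76) (nat_lit 331625319) (nat_lit 0) (nat_lit 331625319) (nat_lit 509) (nat_lit 1) (nat_lit 484) (nat_lit 1) (nat_lit 483) (nat_lit 1) (nat_lit 434) (nat_lit 365) (nat_lit 341)) (XT.lf (nat_lit 76) (nat_lit 765579607) (nat_lit 0) (nat_lit 846947167) (nat_lit 1900) (nat_lit 765579607) (nat_lit 485) (nat_lit 1) (nat_lit 484) (nat_lit 1) (nat_lit 509) (nat_lit 1) (nat_lit 435) (nat_lit 365) (nat_lit 340)))))) (XT.nd (nat_lit 312) (nat_lit 2736) (nat_lit 0) (XT.nd (nat_lit 156) (nat_lit 912) (nat_lit 0) (XT.nd (nat_lit 78) (nat_lit 0) (nat_lit 0) (XT.lf (nat_lit 1216) (nat_lit 1324106235) (nat_lit 0) (nat_lit 516252284) (nat_lit 1140) (nat_lit 516252284) (nat_lit 485) (nat_lit 1) (nat_lit 469)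 (nat_lit 1) (nat_lit 484) (nat_lit 1) (nat_lit 436) (nat_lit 365) (nat_lit 339)) (XT.lf (nat_lit 76) (nat_lit 556172101) (nat_lit 0) (nat_lit 1223020565) (nat_lit 1216) (nat_lit 556172101) (nat_lit 470) (nat_lit 1) (nat_lit 469) (nat_lit 1) (nat_lit 485) (nat_lit 1) (nat_lit 437) (nat_lit 365) (nat_lit 338))) (XT.nd (nat_lit 78) (nat_lit 0) (nat_lit 0) (XT.lf (nat_lit 988) (nat_lit 896688179) (nat_lit 0) (nat_lit 708844686) (nat_lit 912) (nat_lit 708844686) (nat_lit 470) (nat_lit 1) (nat_lit 457) (nat_lit 1) (nat_lit 469) (nat_lit 1) (nat_lit 438) (nat_lit 365) (nat_lit 337)) (XT.lf (nat_lit 76) (nat_lit 339661186) (nat_lit 0) (nat_lit 1614363041) (nat_lit 988) (nat_lit 339661186) (nat_lit 458) (nat_lit 1) (nat_lit 457) (nat_lit 1) (nat_lit 470) (nat_lit 1) (nat_lit 439) (nat_lit 365) (nat_lit 336)))) (XT.nd (nat_lit 156) (nat_lit 1824) (nat_lit 0) (XT.nd (nat_lit 78) (nat_lit 0) (nat_lit 0) (XT.lf (nat_lit 988) (nat_lit 455597830) (nat_lit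 0) (nat_lit 908796460) (nat_lit 912) (nat_lit 908796460) (nat_lit 458) (nat_lit 1) (nat_lit 445) (nat_lit 1) (nat_lit 457) (nat_lit 1) (nat_lit 440) (nat_lit 365) (nat_lit 335)) (XT.lf (nat_lit 76) (nat_lit 116621420) (nat_lit 0) (nat_lit 2019795943) (nat_lit 988) (nat_lit 116621420) (nat_lit 446) (nat_lit 1) (nat_lit 445) (nat_lit 1) (nat_lit 458) (nat_lit 1) (nat_lit 441) (nat_lit 365) (nat_lit 334))) (XT.nd (nat_lit 78) (nat_lit 988) (nat_lit 0) (XT.lf (nat_lit 912) (nat_lit 1959621) (nat_lit 0) (nat_lit 1115530890) (nat_lit 836) (nat_lit 1115530890) (nat_lit 446) (nat_lit 1) (nat_lit 434) (nat_lit 1) (nat_lit 445) (nat_lit 1) (nat_lit 442) (nat_lit 365) (nat_lit 333)) (XT.nd (nat_lit 78) (nat_lit 0) (nat_lit 0) (XT.lf (nat_lit 988) (nat_lit 1990015033) (nat_lit 0) (nat_lit 111661326) (nat_lit 912) (nat_lit 111661326) (nat_lit 434) (nat_lit 1) (nat_lit 421) (nat_lit 1) (nat_lit 433) (nat_lit 1) (nat_lit 443) (nat_lit 365) (nat_lit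 332)) (XT.lf (nat_lit 76) (nat_lit 868349168) (nat_lit 0) (nat_lit 457082927) (nat_lit 988) (nat_lit 868349168) (nat_lit 422) (nat_lit 1) (nat_lit 421) (nat_lit 1) (nat_lit 434) (nat_lit 1) (nat_lit 444) (nat_lit 365) (nat_lit 331))))))) (XT.nd (nat_lit 56784) (nat_lit 0) (nat_lit 8360) (XT.nd (nat_lit 312) (nat_lit 760) (nat_lit 0) (XT.nd (nat_lit 156) (nat_lit 836) (nat_lit 0) (XT.nd (nat_lit 78) (nat_lit 0) (nat_lit 0) (XT.lf (nat_lit 912) (nat_lit 1485341510) (nat_lit 0) (nat_lit 344603914) (nat_lit 836) (nat_lit 344603914) (nat_lit 422) (nat_lit 1) (nat_lit 410) (nat_lit 1) (nat_lit 421) (nat_lit 1) (nat_lit 445) (nat_lit 365) (nat_lit 330)) (XT.lf (nat_lit 76) (nat_lit 614538275) (nat_lit 0) (nat_lit 926425084) (nat_lit 912) (nat_lit 614538275) (nat_lit 411) (nat_lit 1) (nat_lit 410) (nat_lit 1) (nat_lit 422) (nat_lit 1) (nat_lit 446) (nat_lit 365) (nat_lit 329))) (XT.nd (nat_lit 78) (nat_lit 0) (nat_lit 0) (XT.lf (nat_lit 912)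 (nat_lit 971741491) (nat_lit 0) (nat_lit 582483207) (nat_lit 836) (nat_lit 582483207) (nat_lit 411) (nat_lit 1) (nat_lit 399) (nat_lit 1) (nat_lit 410) (nat_lit 1) (nat_lit 447) (nat_lit 365) (nat_lit 328)) (XT.lf (nat_lit 76) (nat_lit 356508421) (nat_lit 0) (nat_lit 1405139654) (nat_lit 912) (nat_lit 356508421) (nat_lit 400) (nat_lit 1) (nat_lit 399) (nat_lit 1) (nat_lit 411) (nat_lit 1) (nat_lit 448) (nat_lit 365) (nat_lit 327)))) (XT.nd (nat_lit 56238) (nat_lit 0) (nat_lit 8208) (XT.nd (nat_lit 56160) (nat_lit 0) (nat_lit 8208) (XT.lf (nat_lit 836) (nat_lit 450120888) (nat_lit 0) (nat_lit 824833346) (nat_lit 760) (nat_lit 824833346) (nat_lit 400) (nat_lit 1) (nat_lit 389) (nat_lit 1) (nat_lit 399) (nat_lit 1) (nat_lit 449) (nat_lit 365) (nat_lit 326)) (XT.lf (nat_lit 1900) (nat_lit 511190707) (nat_lit 0) (nat_lit 515465450) (nat_lit 1900) (nat_lit 511190707) (nat_lit 522) (nat_lit 1) (nat_lit 497) (nat_lit 0) (nat_lit 522) (nat_lit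 0) (nat_lit 408) (nat_lit 366) (nat_lit 366))) (XT.nd (nat_lit 78) (nat_lit 0) (nat_lit 76) (XT.lf (nat_lit 1900) (nat_lit 2021324916) (nat_lit 76) (nat_lit 512074230) (nat_lit 0) (nat_lit 512074230) (nat_lit 522) (nat_lit 1) (nat_lit 498) (nat_lit 1) (nat_lit 497) (nat_lit 0) (nat_lit 409) (nat_lit 366) (nat_lit 365)) (XT.nd (nat_lit 78) (nat_lit 0) (nat_lit 0) (XT.lf (nat_lit 1900) (nat_lit 992480155) (nat_lit 0) (nat_lit 1030622792) (nat_lit 1824) (nat_lit 992480155) (nat_lit 523) (nat_lit 1) (nat_lit 498) (nat_lit 1) (nat_lit 522) (nat_lit 1) (nat_lit 410) (nat_lit 366) (nat_lit 364)) (XT.lf (nat_lit 1900) (nat_lit 1942528324) (nat_lit 76) (nat_lit 521808819) (nat_lit 0) (nat_lit 521808819) (nat_lit 523) (nat_lit 1) (nat_lit 499) (nat_lit 1) (nat_lit 498) (nat_lit 1) (nat_lit 411) (nat_lit 366) (nat_lit 363)))))) (XT.nd (nat_lit 390) (nat_lit 0) (nat_lit 152) (XT.nd (nat_lit 156) (nat_lit 0) (nat_lit 76) (XT.nd (nat_lit 78) (nat_lit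 0) (nat_lit 0) (XT.lf (nat_lit 1900) (nat_lit 944031955) (nat_lit 0) (nat_lit 1068969868) (nat_lit 1824) (nat_lit 944031955) (nat_lit 524) (nat_lit 1) (nat_lit 499) (nat_lit 1) (nat_lit 523) (nat_lit 1) (nat_lit 412) (nat_lit 366) (nat_lit 362)) (XT.lf (nat_lit 1900) (nat_lit 1827634731) (nat_lit 76) (nat_lit 550359897) (nat_lit 0) (nat_lit 550359897) (nat_lit 524) (nat_lit 1) (nat_lit 500) (nat_lit 1) (nat_lit 499) (nat_lit 1) (nat_lit 413) (nat_lit 366) (nat_lit 361))) (XT.nd (nat_lit 78) (nat_lit 0) (nat_lit 0) (XT.lf (nat_lit 1900) (nat_lit 878143447) (nat_lit 0) (nat_lit 1143713390) (nat_lit 1824) (nat_lit 878143447) (nat_lit 525) (nat_lit 1) (nat_lit 500) (nat_lit 1) (nat_lit 524) (nat_lit 1) (nat_lit 414) (nat_lit 366) (nat_lit 360)) (XT.nd (nat_lit 78) (nat_lit 0) (nat_lit 76) (XT.lf (nat_lit 1900) (nat_lit 1678813607) (nat_lit 76) (nat_lit 596620433) (nat_lit 0) (nat_lit 596620433) (nat_lit 525) (nat_lit 1) (nat_lit 501) (nat_lit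 1) (nat_lit 500) (nat_lit 1) (nat_lit 415) (nat_lit 366) (nat_lit 359)) (XT.lf (nat_lit 1900) (nat_lit 795870716) (nat_lit 0) (nat_lit 1252697188) (nat_lit 1824) (nat_lit 795870716) (nat_lit 526) (nat_lit 1) (nat_lit 501) (nat_lit 1) (nat_lit 525) (nat_lit 1) (nat_lit 416) (nat_lit 366) (nat_lit 358))))) (XT.nd (nat_lit 156) (nat_lit 0) (nat_lit 76) (XT.nd (nat_lit 78) (nat_lit 0) (nat_lit 76) (XT.lf (nat_lit 1900) (nat_lit 1498135125) (nat_lit 76) (nat_lit 659533765) (nat_lit 0) (nat_lit 659533765) (nat_lit 526) (nat_lit 1) (nat_lit 502) (nat_lit 1) (nat_lit 501) (nat_lit 1) (nat_lit 417) (nat_lit 366) (nat_lit 357)) (XT.lf (nat_lit 1900) (nat_lit 698221406) (nat_lit 0) (nat_lit 1393863381) (nat_lit 1824) (nat_lit 698221406) (nat_lit 527) (nat_lit 1) (nat_lit 502) (nat_lit 1) (nat_lit 526) (nat_lit 1) (nat_lit 418) (nat_lit 366) (nat_lit 356))) (XT.nd (nat_lit 78) (nat_lit 0) (nat_lit 76) (XT.lf (nat_lit 1900) (nat_lit 1287574311) (nat_lit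 76) (nat_lit 738091497) (nat_lit 0) (nat_lit 738091497) (nat_lit 527) (nat_lit 1) (nat_lit 503) (nat_lit 1) (nat_lit 502) (nat_lit 1) (nat_lit 419) (nat_lit 366) (nat_lit 355)) (XT.nd (nat_lit 78) (nat_lit 0) (nat_lit 0) (XT.lf (nat_lit 1900) (nat_lit 586156752) (nat_lit 0) (nat_lit 1565248282) (nat_lit 1824) (nat_lit 586156752) (nat_lit 528) (nat_lit 1) (nat_lit 503) (nat_lit 1) (nat_lit 527) (nat_lit 1) (nat_lit 420) (nat_lit 366) (nat_lit 354)) (XT.lf (nat_lit 1900) (nat_lit 1049015029) (nat_lit 76) (nat_lit 831331482) (nat_lit 0) (nat_lit 831331482) (nat_lit 528) (nat_lit 1) (nat_lit 504) (nat_lit 1) (nat_lit 503) (nat_lit 1) (nat_lit 421) (nat_lit 366) (nat_lit 353))))))))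
noncomputable def ec12 : XT := (XT.nd (nat_lit 1404) (nat_lit 4256) (nat_lit 0) (XT.nd (nat_lit 702) (nat_lit 2812) (nat_lit 0) (XT.nd (nat_lit 312) (nat_lit 1672) (nat_lit 0) (XT.nd (nat_lit 156) (nat_lit 0) (nat_lit 76) (XT.nd (nat_lit 78) (nat_lit 0) (nat_lit 0) (XT.lf (nat_lit 1900) (nat_lit 460593525) (nat_lit 0) (nat_lit 1764978454) (nat_lit 1824) (nat_lit 460593525) (nat_lit 529) (nat_lit 1) (nat_lit 504) (nat_lit 1) (nat_lit 528) (nat_lit 1) (nat_lit 422) (nat_lit 366) (nat_lit 352)) (XT.lf (nat_lit 1900) (nat_lit 784253802) (nat_lit 76) (nat_lit 938335889) (nat_lit 0) (nat_lit 938335889) (nat_lit 529) (nat_lit 1) (nat_lit 505) (nat_lit 1) (nat_lit 504) (nat_lit 1) (nat_lit 423) (nat_lit 366) (nat_lit 351))) (XT.nd (nat_lit 78) (nat_lit 0) (nat_lit 0) (XT.lf (nat_lit 1900) (nat_lit 322405893) (nat_lit 0) (nat_lit 1991266934) (nat_lit 1824) (nat_lit 322405893) (nat_lit 530) (nat_lit 1) (nat_lit 505) (nat_lit 1) (nat_lit 529) (nat_lit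 1) (nat_lit 424) (nat_lit 366) (nat_lit 350)) (XT.lf (nat_lit 1900) (nat_lit 495003487) (nat_lit 76) (nat_lit 1058229347) (nat_lit 0) (nat_lit 1058229347) (nat_lit 530) (nat_lit 1) (nat_lit 506) (nat_lit 1) (nat_lit 505) (nat_lit 1) (nat_lit 425) (nat_lit 366) (nat_lit 349)))) (XT.nd (nat_lit 156) (nat_lit 1824) (nat_lit 0) (XT.nd (nat_lit 78) (nat_lit 0) (nat_lit 0) (XT.lf (nat_lit 1900) (nat_lit 172427218) (nat_lit 0) (nat_lit 2242409606) (nat_lit 1824) (nat_lit 172427218) (nat_lit 531) (nat_lit 1) (nat_lit 506) (nat_lit 1) (nat_lit 530) (nat_lit 1) (nat_lit 426) (nat_lit 366) (nat_lit 348)) (XT.lf (nat_lit 1900) (nat_lit 182896790) (nat_lit 76) (nat_lit 1190177158) (nat_lit 0) (nat_lit 1190177158) (nat_lit 531) (nat_lit 1) (nat_lit 507) (nat_lit 1) (nat_lit 506) (nat_lit 1) (nat_lit 427) (nat_lit 366) (nat_lit 347))) (XT.nd (nat_lit 78) (nat_lit 1900) (nat_lit 0) (XT.lf (nat_lit 1900) (nat_lit 11451773) (nat_lit 0) (nat_lit 2516781718)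 (nat_lit 1824) (nat_lit 11451773) (nat_lit 532) (nat_lit 1) (nat_lit 507) (nat_lit 1) (nat_lit 531) (nat_lit 1) (nat_lit 428) (nat_lit 366) (nat_lit 346)) (XT.nd (nat_lit 78) (nat_lit 0) (nat_lit 0) (XT.lf (nat_lit 1976) (nat_lit 1183850457) (nat_lit 0) (nat_lit 148536377) (nat_lit 1900) (nat_lit 1183850457) (nat_lit 508) (nat_lit 1) (nat_lit 482) (nat_lit 1) (nat_lit 507) (nat_lit 1) (nat_lit 429) (nat_lit 366) (nat_lit 345)) (XT.lf (nat_lit 1976) (nat_lit 2175799010) (nat_lit 76) (nat_lit 158712529) (nat_lit 0) (nat_lit 158712529) (nat_lit 508) (nat_lit 1) (nat_lit 483) (nat_lit 1) (nat_lit 482) (nat_lit 1) (nat_lit 430) (nat_lit 366) (nat_lit 344)))))) (XT.nd (nat_lit 312) (nat_lit 1824) (nat_lit 0) (XT.nd (nat_lit 156) (nat_lit 1064) (nat_lit 0) (XT.nd (nat_lit 78) (nat_lit 0) (nat_lit 0) (XT.lf (nat_lit 1976) (nat_lit 986625311) (nat_lit 0) (nat_lit 497128930) (nat_lit 1900) (nat_lit 986625311) (nat_lit 509) (nat_lit 1) (nat_lit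 483) (nat_lit 1) (nat_lit 508) (nat_lit 1) (nat_lit 431) (nat_lit 366) (nat_lit 343)) (XT.lf (nat_lit 1976) (nat_lit 1771403188) (nat_lit 76) (nat_lit 338257825) (nat_lit 0) (nat_lit 338257825) (nat_lit 509) (nat_lit 1) (nat_lit 484) (nat_lit 1) (nat_lit 483) (nat_lit 1) (nat_lit 432) (nat_lit 366) (nat_lit 342))) (XT.nd (nat_lit 78) (nat_lit 1140) (nat_lit 0) (XT.lf (nat_lit 76) (nat_lit 780891199) (nat_lit 0) (nat_lit 863886110) (nat_lit 1900) (nat_lit 780891199) (nat_lit 485) (nat_lit 1) (nat_lit 484) (nat_lit 1) (nat_lit 509) (nat_lit 1) (nat_lit 433) (nat_lit 366) (nat_lit 341)) (XT.lf (nat_lit 1216) (nat_lit 1350588360) (nat_lit 0) (nat_lit 526577329) (nat_lit 1140) (nat_lit 526577329) (nat_lit 485) (nat_lit 1) (nat_lit 469) (nat_lit 1) (nat_lit 484) (nat_lit 1) (nat_lit 434) (nat_lit 366) (nat_lit 340)))) (XT.nd (nat_lit 156) (nat_lit 912) (nat_lit 0) (XT.nd (nat_lit 78) (nat_lit 912) (nat_lit 0) (XT.lf (nat_lit 76) (nat_lit 567295543)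 (nat_lit 0) (nat_lit 1247480976) (nat_lit 1216) (nat_lit 567295543) (nat_lit 470) (nat_lit 1) (nat_lit 469) (nat_lit 1) (nat_lit 485) (nat_lit 1) (nat_lit 435) (nat_lit 366) (nat_lit 339)) (XT.lf (nat_lit 988) (nat_lit 914621942) (nat_lit 0) (nat_lit 723021580) (nat_lit 912) (nat_lit 723021580) (nat_lit 470) (nat_lit 1) (nat_lit 457) (nat_lit 1) (nat_lit 469) (nat_lit 1) (nat_lit 436) (nat_lit 366) (nat_lit 338))) (XT.nd (nat_lit 78) (nat_lit 912) (nat_lit 0) (XT.lf (nat_lit 76) (nat_lit 346454409) (nat_lit 0) (nat_lit 1646650302) (nat_lit 988) (nat_lit 346454409) (nat_lit 458) (nat_lit 1) (nat_lit 457) (nat_lit 1) (nat_lit 470) (nat_lit 1) (nat_lit 437) (nat_lit 366) (nat_lit 337)) (XT.nd (nat_lit 78) (nat_lit 0) (nat_lit 0) (XT.lf (nat_lit 988) (nat_lit 464709787) (nat_lit 0) (nat_lit 926972389) (nat_lit 912) (nat_lit 926972389) (nat_lit 458) (nat_lit 1) (nat_lit 445) (nat_lit 1) (nat_lit 457) (nat_lit 1) (nat_lit 438) (nat_lit 366)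 (nat_lit 336)) (XT.lf (nat_lit 76) (nat_lit 118953848) (nat_lit 0) (nat_lit 2060191862) (nat_lit 988) (nat_lit 118953848) (nat_lit 446) (nat_lit 1) (nat_lit 445) (nat_lit 1) (nat_lit 458) (nat_lit 1) (nat_lit 439) (nat_lit 366) (nat_lit 335))))))) (XT.nd (nat_lit 56706) (nat_lit 0) (nat_lit 8208) (XT.nd (nat_lit 312) (nat_lit 1596) (nat_lit 0) (XT.nd (nat_lit 156) (nat_lit 836) (nat_lit 0) (XT.nd (nat_lit 78) (nat_lit 988) (nat_lit 0) (XT.lf (nat_lit 912) (nat_lit 1998814) (nat_lit 0) (nat_lit 1137841508) (nat_lit 836) (nat_lit 1137841508) (nat_lit 446) (nat_lit 1) (nat_lit 434) (nat_lit 1) (nat_lit 445) (nat_lit 1) (nat_lit 440) (nat_lit 366) (nat_lit 334)) (XT.lf (nat_lit 988) (nat_lit 2029815334) (nat_lit 0) (nat_lit 113894552) (nat_lit 912) (nat_lit 113894552) (nat_lit 434) (nat_lit 1) (nat_lit 421) (nat_lit 1) (nat_lit 433) (nat_lit 1) (nat_lit 441) (nat_lit 366) (nat_lit 333))) (XT.nd (nat_lit 78) (nat_lit 836) (nat_lit 0) (XT.lf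 (nat_lit 76) (nat_lit 885716152) (nat_lit 0) (nat_lit 466224585) (nat_lit 988) (nat_lit 885716152) (nat_lit 422) (nat_lit 1) (nat_lit 421) (nat_lit 1) (nat_lit 434) (nat_lit 1) (nat_lit 442) (nat_lit 366) (nat_lit 332)) (XT.lf (nat_lit 912) (nat_lit 1515048340) (nat_lit 0) (nat_lit 351495992) (nat_lit 836) (nat_lit 351495992) (nat_lit 422) (nat_lit 1) (nat_lit 410) (nat_lit 1) (nat_lit 421) (nat_lit 1) (nat_lit 443) (nat_lit 366) (nat_lit 331)))) (XT.nd (nat_lit 156) (nat_lit 760) (nat_lit 0) (XT.nd (nat_lit 78) (nat_lit 836) (nat_lit 0) (XT.lf (nat_lit 76) (nat_lit 626829040) (nat_lit 0) (nat_lit 944953585) (nat_lit 912) (nat_lit 626829040) (nat_lit 411) (nat_lit 1) (nat_lit 410) (nat_lit 1) (nat_lit 422) (nat_lit 1) (nat_lit 444) (nat_lit 366) (nat_lit 330)) (XT.lf (nat_lit 912) (nat_lit 991176321) (nat_lit 0) (nat_lit 594132871) (nat_lit 836) (nat_lit 594132871) (nat_lit 411) (nat_lit 1) (nat_lit 399) (nat_lit 1) (nat_lit 410) (nat_lit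 1) (nat_lit 445) (nat_lit 366) (nat_lit 329))) (XT.nd (nat_lit 78) (nat_lit 760) (nat_lit 0) (XT.lf (nat_lit 76) (nat_lit 363638590) (nat_lit 0) (nat_lit 1433242447) (nat_lit 912) (nat_lit 363638590) (nat_lit 400) (nat_lit 1) (nat_lit 399) (nat_lit 1) (nat_lit 411) (nat_lit 1) (nat_lit 446) (nat_lit 366) (nat_lit 328)) (XT.nd (nat_lit 78) (nat_lit 0) (nat_lit 0) (XT.lf (nat_lit 836) (nat_lit 459123306) (nat_lit 0) (nat_lit 841330013) (nat_lit 760) (nat_lit 841330013) (nat_lit 400) (nat_lit 1) (nat_lit 389) (nat_lit 1) (nat_lit 399) (nat_lit 1) (nat_lit 447) (nat_lit 366) (nat_lit 327)) (XT.lf (nat_lit 76) (nat_lit 96593399) (nat_lit 0) (nat_lit 1930167999) (nat_lit 836) (nat_lit 96593399) (nat_lit 390) (nat_lit 1) (nat_lit 389) (nat_lit 1) (nat_lit 400) (nat_lit 1) (nat_lit 448) (nat_lit 366) (nat_lit 326)))))) (XT.nd (nat_lit 312) (nat_lit 0) (nat_lit 152) (XT.nd (nat_lit 156) (nat_lit 0) (nat_lit 76) (XT.nd (nat_lit 78) (nat_lit 0)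 (nat_lit 0) (XT.lf (nat_lit 1900) (nat_lit 521414521) (nat_lit 0) (nat_lit 525774759) (nat_lit 1900) (nat_lit 521414521) (nat_lit 522) (nat_lit 1) (nat_lit 497) (nat_lit 0) (nat_lit 522) (nat_lit 0) (nat_lit 406) (nat_lit 367) (nat_lit 367)) (XT.lf (nat_lit 1900) (nat_lit 2061751414) (nat_lit 76) (nat_lit 522315715) (nat_lit 0) (nat_lit 522315715) (nat_lit 522) (nat_lit 1) (nat_lit 498) (nat_lit 1) (nat_lit 497) (nat_lit 0) (nat_lit 407) (nat_lit 367) (nat_lit 366))) (XT.nd (nat_lit 78) (nat_lit 0) (nat_lit 0) (XT.lf (nat_lit 1900) (nat_lit 1012329758) (nat_lit 0) (nat_lit 1051235248) (nat_lit 1824) (nat_lit 1012329758) (nat_lit 523) (nat_lit 1) (nat_lit 498) (nat_lit 1) (nat_lit 522) (nat_lit 1) (nat_lit 408) (nat_lit 367) (nat_lit 365)) (XT.lf (nat_lit 1900) (nat_lit 1981378890) (nat_lit 76) (nat_lit 532244996) (nat_lit 0) (nat_lit 532244996) (nat_lit 523) (nat_lit 1) (nat_lit 499) (nat_lit 1) (nat_lit 498) (nat_lit 1) (nat_lit 409)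 (nat_lit 367) (nat_lit 364)))) (XT.nd (nat_lit 156) (nat_lit 0) (nat_lit 76) (XT.nd (nat_lit 78) (nat_lit 0) (nat_lit 0) (XT.lf (nat_lit 1900) (nat_lit 962912594) (nat_lit 0) (nat_lit 1090349265) (nat_lit 1824) (nat_lit 962912594) (nat_lit 524) (nat_lit 1) (nat_lit 499) (nat_lit 1) (nat_lit 523) (nat_lit 1) (nat_lit 410) (nat_lit 367) (nat_lit 363)) (XT.lf (nat_lit 1900) (nat_lit 1864187425) (nat_lit 76) (nat_lit 561367095) (nat_lit 0) (nat_lit 561367095) (nat_lit 524) (nat_lit 1) (nat_lit 500) (nat_lit 1) (nat_lit 499) (nat_lit 1) (nat_lit 411) (nat_lit 367) (nat_lit 362))) (XT.nd (nat_lit 78) (nat_lit 0) (nat_lit 0) (XT.lf (nat_lit 1900) (nat_lit 895706316) (nat_lit 0) (nat_lit 1166587658) (nat_lit 1824) (nat_lit 895706316) (nat_lit 525) (nat_lit 1) (nat_lit 500) (nat_lit 1) (nat_lit 524) (nat_lit 1) (nat_lit 412) (nat_lit 367) (nat_lit 361)) (XT.nd (nat_lit 78) (nat_lit 0) (nat_lit 76) (XT.lf (nat_lit 1900) (nat_lit 1712389879) (nat_lit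 76) (nat_lit 608552842) (nat_lit 0) (nat_lit 608552842) (nat_lit 525) (nat_lit 1) (nat_lit 501) (nat_lit 1) (nat_lit 500) (nat_lit 1) (nat_lit 413) (nat_lit 367) (nat_lit 360)) (XT.lf (nat_lit 1900) (nat_lit 811788130) (nat_lit 0) (nat_lit 1277751132) (nat_lit 1824) (nat_lit 811788130) (nat_lit 526) (nat_lit 1) (nat_lit 501) (nat_lit 1) (nat_lit 525) (nat_lit 1) (nat_lit 414) (nat_lit 367) (nat_lit 359))))))))
noncomputable def ec13 : XT := (XT.nd (nat_lit 1404) (nat_lit 7676) (nat_lit 0) (XT.nd (nat_lit 702) (nat_lit 2432) (nat_lit 0) (XT.nd (nat_lit 312) (nat_lit 0) (nat_lit 152) (XT.nd (nat_lit 156) (nat_lit 0) (nat_lit 76) (XT.nd (nat_lit 78) (nat_lit 0) (nat_lit 76) (XT.lf (nat_lit 1900) (nat_lit 1528097828) (nat_lit 76) (nat_lit 672724440) (nat_lit 0) (nat_lit 672724440) (nat_lit 526) (nat_lit 1) (nat_lit 502) (nat_lit 1) (nat_lit 501) (nat_lit 1) (nat_lit 415) (nat_lit 367) (nat_lit 358)) (XT.lf (nat_lit 1900) (nat_lit 712185834)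 (nat_lit 0) (nat_lit 1421740649) (nat_lit 1824) (nat_lit 712185834) (nat_lit 527) (nat_lit 1) (nat_lit 502) (nat_lit 1) (nat_lit 526) (nat_lit 1) (nat_lit 416) (nat_lit 367) (nat_lit 357))) (XT.nd (nat_lit 78) (nat_lit 0) (nat_lit 76) (XT.lf (nat_lit 1900) (nat_lit 1313325798) (nat_lit 76) (nat_lit 752853327) (nat_lit 0) (nat_lit 752853327) (nat_lit 527) (nat_lit 1) (nat_lit 503) (nat_lit 1) (nat_lit 502) (nat_lit 1) (nat_lit 417) (nat_lit 367) (nat_lit 356)) (XT.lf (nat_lit 1900) (nat_lit 597879887) (nat_lit 0) (nat_lit 1596553248) (nat_lit 1824) (nat_lit 597879887) (nat_lit 528) (nat_lit 1) (nat_lit 503) (nat_lit 1) (nat_lit 527) (nat_lit 1) (nat_lit 418) (nat_lit 367) (nat_lit 355)))) (XT.nd (nat_lit 156) (nat_lit 0) (nat_lit 76) (XT.nd (nat_lit 78) (nat_lit 0) (nat_lit 76) (XT.lf (nat_lit 1900) (nat_lit 1069995330) (nat_lit 76) (nat_lit 847958111) (nat_lit 0) (nat_lit 847958111) (nat_lit 528) (nat_lit 1) (nat_lit 504) (nat_lit 1)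 (nat_lit 503) (nat_lit 1) (nat_lit 419) (nat_lit 367) (nat_lit 354)) (XT.lf (nat_lit 1900) (nat_lit 469805395) (nat_lit 0) (nat_lit 1800278023) (nat_lit 1824) (nat_lit 469805395) (nat_lit 529) (nat_lit 1) (nat_lit 504) (nat_lit 1) (nat_lit 528) (nat_lit 1) (nat_lit 420) (nat_lit 367) (nat_lit 353))) (XT.nd (nat_lit 78) (nat_lit 0) (nat_lit 76) (XT.lf (nat_lit 1900) (nat_lit 799938878) (nat_lit 76) (nat_lit 957102607) (nat_lit 0) (nat_lit 957102607) (nat_lit 529) (nat_lit 1) (nat_lit 505) (nat_lit 1) (nat_lit 504) (nat_lit 1) (nat_lit 421) (nat_lit 367) (nat_lit 352)) (XT.nd (nat_lit 78) (nat_lit 0) (nat_lit 0) (XT.lf (nat_lit 1900) (nat_lit 328854011) (nat_lit 0) (nat_lit 2031092273) (nat_lit 1824) (nat_lit 328854011) (nat_lit 530) (nat_lit 1) (nat_lit 505) (nat_lit 1) (nat_lit 529) (nat_lit 1) (nat_lit 422) (nat_lit 367) (nat_lit 351)) (XT.lf (nat_lit 1900) (nat_lit 504903557) (nat_lit 76) (nat_lit 1079393934) (nat_lit 0) (nat_lit 1079393934)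 (nat_lit 530) (nat_lit 1) (nat_lit 506) (nat_lit 1) (nat_lit 505) (nat_lit 1) (nat_lit 423) (nat_lit 367) (nat_lit 350)))))) (XT.nd (nat_lit 312) (nat_lit 988) (nat_lit 0) (XT.nd (nat_lit 156) (nat_lit 1824) (nat_lit 0) (XT.nd (nat_lit 78) (nat_lit 0) (nat_lit 0) (XT.lf (nat_lit 1900) (nat_lit 175875762) (nat_lit 0) (nat_lit 2287257798) (nat_lit 1824) (nat_lit 175875762) (nat_lit 531) (nat_lit 1) (nat_lit 506) (nat_lit 1) (nat_lit 530) (nat_lit 1) (nat_lit 424) (nat_lit 367) (nat_lit 349)) (XT.lf (nat_lit 1900) (nat_lit 186554726) (nat_lit 76) (nat_lit 1213980702) (nat_lit 0) (nat_lit 1213980702) (nat_lit 531) (nat_lit 1) (nat_lit 507) (nat_lit 1) (nat_lit 506) (nat_lit 1) (nat_lit 425) (nat_lit 367) (nat_lit 348))) (XT.nd (nat_lit 78) (nat_lit 1900) (nat_lit 0) (XT.lf (nat_lit 1900) (nat_lit 11680809) (nat_lit 0) (nat_lit 2567117352) (nat_lit 1824) (nat_lit 11680809) (nat_lit 532) (nat_lit 1) (nat_lit 507) (nat_lit 1) (nat_lit 531) (nat_lit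 1) (nat_lit 426) (nat_lit 367) (nat_lit 347)) (XT.lf (nat_lit 1976) (nat_lit 1207527466) (nat_lit 0) (nat_lit 151507104) (nat_lit 1900) (nat_lit 1207527466) (nat_lit 508) (nat_lit 1) (nat_lit 482) (nat_lit 1) (nat_lit 507) (nat_lit 1) (nat_lit 427) (nat_lit 367) (nat_lit 346)))) (XT.nd (nat_lit 156) (nat_lit 988) (nat_lit 0) (XT.nd (nat_lit 78) (nat_lit 0) (nat_lit 76) (XT.lf (nat_lit 1976) (nat_lit 2219314991) (nat_lit 76) (nat_lit 161886780) (nat_lit 0) (nat_lit 161886780) (nat_lit 508) (nat_lit 1) (nat_lit 483) (nat_lit 1) (nat_lit 482) (nat_lit 1) (nat_lit 428) (nat_lit 367) (nat_lit 345)) (XT.lf (nat_lit 1976) (nat_lit 1006357818) (nat_lit 0) (nat_lit 507071509) (nat_lit 1900) (nat_lit 1006357818) (nat_lit 509) (nat_lit 1) (nat_lit 483) (nat_lit 1) (nat_lit 508) (nat_lit 1) (nat_lit 429) (nat_lit 367) (nat_lit 344))) (XT.nd (nat_lit 78) (nat_lit 1064) (nat_lit 0) (XT.lf (nat_lit 1976) (nat_lit 1806831252) (nat_lit 76) (nat_lit 345022982)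 (nat_lit 0) (nat_lit 345022982) (nat_lit 509) (nat_lit 1) (nat_lit 484) (nat_lit 1) (nat_lit 483) (nat_lit 1) (nat_lit 430) (nat_lit 367) (nat_lit 343)) (XT.nd (nat_lit 78) (nat_lit 1140) (nat_lit 0) (XT.lf (nat_lit 76) (nat_lit 796509023) (nat_lit 0) (nat_lit 881163832) (nat_lit 1900) (nat_lit 796509023) (nat_lit 485) (nat_lit 1) (nat_lit 484) (nat_lit 1) (nat_lit 509) (nat_lit 1) (nat_lit 431) (nat_lit 367) (nat_lit 342)) (XT.lf (nat_lit 1216) (nat_lit 1377600127) (nat_lit 0) (nat_lit 537108876) (nat_lit 1140) (nat_lit 537108876) (nat_lit 485) (nat_lit 1) (nat_lit 469) (nat_lit 1) (nat_lit 484) (nat_lit 1) (nat_lit 432) (nat_lit 367) (nat_lit 341))))))) (XT.nd (nat_lit 702) (nat_lit 3192) (nat_lit 0) (XT.nd (nat_lit 312) (nat_lit 2660) (nat_lit 0) (XT.nd (nat_lit 156) (nat_lit 912) (nat_lit 0) (XT.nd (nat_lit 78) (nat_lit 912) (nat_lit 0) (XT.lf (nat_lit 76) (nat_lit 578641454) (nat_lit 0) (nat_lit 1272430596) (nat_lit 1216) (nat_lit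 578641454) (nat_lit 470) (nat_lit 1) (nat_lit 469) (nat_lit 1) (nat_lit 485) (nat_lit 1) (nat_lit 433) (nat_lit 367) (nat_lit 340)) (XT.lf (nat_lit 988) (nat_lit 932914381) (nat_lit 0) (nat_lit 737482012) (nat_lit 912) (nat_lit 737482012) (nat_lit 470) (nat_lit 1) (nat_lit 457) (nat_lit 1) (nat_lit 469) (nat_lit 1) (nat_lit 434) (nat_lit 367) (nat_lit 339))) (XT.nd (nat_lit 78) (nat_lit 912) (nat_lit 0) (XT.lf (nat_lit 76) (nat_lit 353383498) (nat_lit 0) (nat_lit 1679583308) (nat_lit 988) (nat_lit 353383498) (nat_lit 458) (nat_lit 1) (nat_lit 457) (nat_lit 1) (nat_lit 470) (nat_lit 1) (nat_lit 435) (nat_lit 367) (nat_lit 338)) (XT.lf (nat_lit 988) (nat_lit 474003983) (nat_lit 0) (nat_lit 945511837) (nat_lit 912) (nat_lit 945511837) (nat_lit 458) (nat_lit 1) (nat_lit 445) (nat_lit 1) (nat_lit 457) (nat_lit 1) (nat_lit 436) (nat_lit 367) (nat_lit 337)))) (XT.nd (nat_lit 156) (nat_lit 1824) (nat_lit 0) (XT.nd (nat_lit 78) (nat_lit 836) (nat_lit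 0) (XT.lf (nat_lit 76) (nat_lit 121332925) (nat_lit 0) (nat_lit 2101395699) (nat_lit 988) (nat_lit 121332925) (nat_lit 446) (nat_lit 1) (nat_lit 445) (nat_lit 1) (nat_lit 458) (nat_lit 1) (nat_lit 437) (nat_lit 367) (nat_lit 336)) (XT.lf (nat_lit 912) (nat_lit 2038790) (nat_lit 0) (nat_lit 1160598338) (nat_lit 836) (nat_lit 1160598338) (nat_lit 446) (nat_lit 1) (nat_lit 434) (nat_lit 1) (nat_lit 445) (nat_lit 1) (nat_lit 438) (nat_lit 367) (nat_lit 335))) (XT.nd (nat_lit 78) (nat_lit 836) (nat_lit 0) (XT.lf (nat_lit 988) (nat_lit 2070411641) (nat_lit 0) (nat_lit 116172443) (nat_lit 912) (nat_lit 116172443) (nat_lit 434) (nat_lit 1) (nat_lit 421) (nat_lit 1) (nat_lit 433) (nat_lit 1) (nat_lit 439) (nat_lit 367) (nat_lit 334)) (XT.nd (nat_lit 78) (nat_lit 836) (nat_lit 0) (XT.lf (nat_lit 76) (nat_lit 903430475) (nat_lit 0) (nat_lit 475549077) (nat_lit 988) (nat_lit 903430475) (nat_lit 422) (nat_lit 1) (nat_lit 421) (nat_lit 1) (nat_lit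 434) (nat_lit 1) (nat_lit 440) (nat_lit 367) (nat_lit 333)) (XT.lf (nat_lit 912) (nat_lit 1545349307) (nat_lit 0) (nat_lit 358525912) (nat_lit 836) (nat_lit 358525912) (nat_lit 422) (nat_lit 1) (nat_lit 410) (nat_lit 1) (nat_lit 421) (nat_lit 1) (nat_lit 441) (nat_lit 367) (nat_lit 332)))))) (XT.nd (nat_lit 390) (nat_lit 1596) (nat_lit 0) (XT.nd (nat_lit 156) (nat_lit 760) (nat_lit 0) (XT.nd (nat_lit 78) (nat_lit 836) (nat_lit 0) (XT.lf (nat_lit 76) (nat_lit 639365621) (nat_lit 0) (nat_lit 963852657) (nat_lit 912) (nat_lit 639365621) (nat_lit 411) (nat_lit 1) (nat_lit 410) (nat_lit 1) (nat_lit 422) (nat_lit 1) (nat_lit 442) (nat_lit 367) (nat_lit 331)) (XT.lf (nat_lit 912) (nat_lit 1010999847) (nat_lit 0) (nat_lit 606015528) (nat_lit 836) (nat_lit 606015528) (nat_lit 411) (nat_lit 1) (nat_lit 399) (nat_lit 1) (nat_lit 410) (nat_lit 1) (nat_lit 443) (nat_lit 367) (nat_lit 330))) (XT.nd (nat_lit 78) (nat_lit 760) (nat_lit 0) (XT.lf (nat_lit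 76) (nat_lit 370911362) (nat_lit 0) (nat_lit 1461907296) (nat_lit 912) (nat_lit 370911362) (nat_lit 400) (nat_lit 1) (nat_lit 399) (nat_lit 1) (nat_lit 411) (nat_lit 1) (nat_lit 444) (nat_lit 367) (nat_lit 329)) (XT.nd (nat_lit 78) (nat_lit 0) (nat_lit 0) (XT.lf (nat_lit 836) (nat_lit 468305772) (nat_lit 0) (nat_lit 858156613) (nat_lit 760) (nat_lit 858156613) (nat_lit 400) (nat_lit 1) (nat_lit 389) (nat_lit 1) (nat_lit 399) (nat_lit 1) (nat_lit 445) (nat_lit 367) (nat_lit 328)) (XT.lf (nat_lit 76) (nat_lit 98525267) (nat_lit 0) (nat_lit 1968771359) (nat_lit 836) (nat_lit 98525267) (nat_lit 390) (nat_lit 1) (nat_lit 389) (nat_lit 1) (nat_lit 400) (nat_lit 1) (nat_lit 446) (nat_lit 367) (nat_lit 327))))) (XT.nd (nat_lit 56004) (nat_lit 0) (nat_lit 9804) (XT.nd (nat_lit 78) (nat_lit 760) (nat_lit 0) (XT.lf (nat_lit 76) (nat_lit 1033181837) (nat_lit 0) (nat_lit 80765089) (nat_lit 836) (nat_lit 1033181837) (nat_lit 379) (nat_lit 1) (nat_lit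 378) (nat_lit 1) (nat_lit 389) (nat_lit 1) (nat_lit 447) (nat_lit 367) (nat_lit 326)) (XT.lf (nat_lit 836) (nat_lit 1776358091) (nat_lit 0) (nat_lit 176191656) (nat_lit 760) (nat_lit 176191656) (nat_lit 379) (nat_lit 1) (nat_lit 368) (nat_lit 1) (nat_lit 378) (nat_lit 1) (nat_lit 448) (nat_lit 367) (nat_lit 325))) (XT.nd (nat_lit 78) (nat_lit 0) (nat_lit 0) (XT.lf (nat_lit 1900) (nat_lit 531842812) (nat_lit 0) (nat_lit 536290255) (nat_lit 1900) (nat_lit 531842812) (nat_lit 522) (nat_lit 1) (nat_lit 497) (nat_lit 0) (nat_lit 522) (nat_lit 0) (nat_lit 404) (nat_lit 368) (nat_lit 368)) (XT.nd (nat_lit 78) (nat_lit 0) (nat_lit 76) (XT.lf (nat_lit 1900) (nat_lit 2102986442) (nat_lit 76) (nat_lit 532762029) (nat_lit 0) (nat_lit 532762029) (nat_lit 522) (nat_lit 1) (nat_lit 498) (nat_lit 1) (nat_lit 497) (nat_lit 0) (nat_lit 405) (nat_lit 368) (nat_lit 367)) (XT.lf (nat_lit 1900) (nat_lit 1032576353) (nat_lit 0) (nat_lit 1072259953) (nat_lit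 1824) (nat_lit 1032576353) (nat_lit 523) (nat_lit 1) (nat_lit 498) (nat_lit 1) (nat_lit 522) (nat_lit 1) (nat_lit 406) (nat_lit 368) (nat_lit 366))))))))
noncomputable def ec14 : XT := (XT.nd (nat_lit 1404) (nat_lit 8284) (nat_lit 0) (XT.nd (nat_lit 702) (nat_lit 0) (nat_lit 380) (XT.nd (nat_lit 312) (nat_lit 0) (nat_lit 152) (XT.nd (nat_lit 156) (nat_lit 0) (nat_lit 76) (XT.nd (nat_lit 78) (nat_lit 0) (nat_lit 76) (XT.lf (nat_lit 1900) (nat_lit 2021006468) (nat_lit 76) (nat_lit 542889896) (nat_lit 0) (nat_lit 542889896) (nat_lit 523) (nat_lit 1) (nat_lit 499) (nat_lit 1) (nat_lit 498) (nat_lit 1) (nat_lit 407) (nat_lit 368) (nat_lit 365)) (XT.lf (nat_lit 1900) (nat_lit 982170846) (nat_lit 0) (nat_lit 1112156250) (nat_lit 1824) (nat_lit 982170846) (nat_lit 524) (nat_lit 1) (nat_lit 499) (nat_lit 1) (nat_lit 523) (nat_lit 1) (nat_lit 408) (nat_lit 368) (nat_lit 364))) (XT.nd (nat_lit 78) (nat_lit 0) (nat_lit 76) (XT.lf (nat_lit 1900) (nat_lit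 1901471174) (nat_lit 76) (nat_lit 572594437) (nat_lit 0) (nat_lit 572594437) (nat_lit 524) (nat_lit 1) (nat_lit 500) (nat_lit 1) (nat_lit 499) (nat_lit 1) (nat_lit 409) (nat_lit 368) (nat_lit 363)) (XT.lf (nat_lit 1900) (nat_lit 913620443) (nat_lit 0) (nat_lit 1189919411) (nat_lit 1824) (nat_lit 913620443) (nat_lit 525) (nat_lit 1) (nat_lit 500) (nat_lit 1) (nat_lit 524) (nat_lit 1) (nat_lit 410) (nat_lit 368) (nat_lit 362)))) (XT.nd (nat_lit 156) (nat_lit 0) (nat_lit 76) (XT.nd (nat_lit 78) (nat_lit 0) (nat_lit 76) (XT.lf (nat_lit 1900) (nat_lit 1746637677) (nat_lit 76) (nat_lit 620723899) (nat_lit 0) (nat_lit 620723899) (nat_lit 525) (nat_lit 1) (nat_lit 501) (nat_lit 1) (nat_lit 500) (nat_lit 1) (nat_lit 411) (nat_lit 368) (nat_lit 361)) (XT.lf (nat_lit 1900) (nat_lit 828023892) (nat_lit 0) (nat_lit 1303306154) (nat_lit 1824) (nat_lit 828023892) (nat_lit 526) (nat_lit 1) (nat_lit 501) (nat_lit 1) (nat_lit 525) (nat_lit 1) (nat_lit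 412) (nat_lit 368) (nat_lit 360))) (XT.nd (nat_lit 78) (nat_lit 0) (nat_lit 76) (XT.lf (nat_lit 1900) (nat_lit 1558659784) (nat_lit 76) (nat_lit 686178929) (nat_lit 0) (nat_lit 686178929) (nat_lit 526) (nat_lit 1) (nat_lit 502) (nat_lit 1) (nat_lit 501) (nat_lit 1) (nat_lit 413) (nat_lit 368) (nat_lit 359)) (XT.nd (nat_lit 78) (nat_lit 0) (nat_lit 0) (XT.lf (nat_lit 1900) (nat_lit 726429550) (nat_lit 0) (nat_lit 1450175462) (nat_lit 1824) (nat_lit 726429550) (nat_lit 527) (nat_lit 1) (nat_lit 502) (nat_lit 1) (nat_lit 526) (nat_lit 1) (nat_lit 414) (nat_lit 368) (nat_lit 358)) (XT.lf (nat_lit 1900) (nat_lit 1339592313) (nat_lit 76) (nat_lit 767910393) (nat_lit 0) (nat_lit 767910393) (nat_lit 527) (nat_lit 1) (nat_lit 503) (nat_lit 1) (nat_lit 502) (nat_lit 1) (nat_lit 415) (nat_lit 368) (nat_lit 357)))))) (XT.nd (nat_lit 312) (nat_lit 0) (nat_lit 152) (XT.nd (nat_lit 156) (nat_lit 0) (nat_lit 76) (XT.nd (nat_lit 78) (nat_lit 0) (nat_lit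 0) (XT.lf (nat_lit 1900) (nat_lit 609837485) (nat_lit 0) (nat_lit 1628484313) (nat_lit 1824) (nat_lit 609837485) (nat_lit 528) (nat_lit 1) (nat_lit 503) (nat_lit 1) (nat_lit 527) (nat_lit 1) (nat_lit 416) (nat_lit 368) (nat_lit 356)) (XT.lf (nat_lit 1900) (nat_lit 1091395236) (nat_lit 76) (nat_lit 864917273) (nat_lit 0) (nat_lit 864917273) (nat_lit 528) (nat_lit 1) (nat_lit 504) (nat_lit 1) (nat_lit 503) (nat_lit 1) (nat_lit 417) (nat_lit 368) (nat_lit 355))) (XT.nd (nat_lit 78) (nat_lit 0) (nat_lit 0) (XT.lf (nat_lit 1900) (nat_lit 479201503) (nat_lit 0) (nat_lit 1836283584) (nat_lit 1824) (nat_lit 479201503) (nat_lit 529) (nat_lit 1) (nat_lit 504) (nat_lit 1) (nat_lit 528) (nat_lit 1) (nat_lit 418) (nat_lit 368) (nat_lit 354)) (XT.lf (nat_lit 1900) (nat_lit 815937656) (nat_lit 76) (nat_lit 976244659) (nat_lit 0) (nat_lit 976244659) (nat_lit 529) (nat_lit 1) (nat_lit 505) (nat_lit 1) (nat_lit 504) (nat_lit 1) (nat_lit 419) (nat_lit 368)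 (nat_lit 353)))) (XT.nd (nat_lit 156) (nat_lit 0) (nat_lit 76) (XT.nd (nat_lit 78) (nat_lit 0) (nat_lit 0) (XT.lf (nat_lit 1900) (nat_lit 335431091) (nat_lit 0) (nat_lit 2071714118) (nat_lit 1824) (nat_lit 335431091) (nat_lit 530) (nat_lit 1) (nat_lit 505) (nat_lit 1) (nat_lit 529) (nat_lit 1) (nat_lit 420) (nat_lit 368) (nat_lit 352)) (XT.lf (nat_lit 1900) (nat_lit 515001628) (nat_lit 76) (nat_lit 1100981813) (nat_lit 0) (nat_lit 1100981813) (nat_lit 530) (nat_lit 1) (nat_lit 506) (nat_lit 1) (nat_lit 505) (nat_lit 1) (nat_lit 421) (nat_lit 368) (nat_lit 351))) (XT.nd (nat_lit 78) (nat_lit 0) (nat_lit 0) (XT.lf (nat_lit 1900) (nat_lit 179393278) (nat_lit 0) (nat_lit 2333002954) (nat_lit 1824) (nat_lit 179393278) (nat_lit 531) (nat_lit 1) (nat_lit 506) (nat_lit 1) (nat_lit 530) (nat_lit 1) (nat_lit 422) (nat_lit 368) (nat_lit 350)) (XT.nd (nat_lit 78) (nat_lit 0) (nat_lit 76) (XT.lf (nat_lit 1900) (nat_lit 190285821) (nat_lit 76) (nat_lit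 1238260316) (nat_lit 0) (nat_lit 1238260316) (nat_lit 531) (nat_lit 1) (nat_lit 507) (nat_lit 1) (nat_lit 506) (nat_lit 1) (nat_lit 423) (nat_lit 368) (nat_lit 349)) (XT.lf (nat_lit 1900) (nat_lit 11914425) (nat_lit 0) (nat_lit 2618459699) (nat_lit 1824) (nat_lit 11914425) (nat_lit 532) (nat_lit 1) (nat_lit 507) (nat_lit 1) (nat_lit 531) (nat_lit 1) (nat_lit 424) (nat_lit 368) (nat_lit 348))))))) (XT.nd (nat_lit 702) (nat_lit 5168) (nat_lit 0) (XT.nd (nat_lit 312) (nat_lit 1900) (nat_lit 0) (XT.nd (nat_lit 156) (nat_lit 0) (nat_lit 76) (XT.nd (nat_lit 78) (nat_lit 0) (nat_lit 0) (XT.lf (nat_lit 1976) (nat_lit 1231678016) (nat_lit 0) (nat_lit 154537246) (nat_lit 1900) (nat_lit 1231678016) (nat_lit 508) (nat_lit 1) (nat_lit 482) (nat_lit 1) (nat_lit 507) (nat_lit 1) (nat_lit 425) (nat_lit 368) (nat_lit 347)) (XT.lf (nat_lit 1976) (nat_lit 2263701290) (nat_lit 76) (nat_lit 165124516) (nat_lit 0) (nat_lit 165124516) (nat_lit 508) (nat_lit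 1) (nat_lit 483) (nat_lit 1) (nat_lit 482) (nat_lit 1) (nat_lit 426) (nat_lit 368) (nat_lit 346))) (XT.nd (nat_lit 78) (nat_lit 0) (nat_lit 0) (XT.lf (nat_lit 1976) (nat_lit 1026484974) (nat_lit 0) (nat_lit 517212939) (nat_lit 1900) (nat_lit 1026484974) (nat_lit 509) (nat_lit 1) (nat_lit 483) (nat_lit 1) (nat_lit 508) (nat_lit 1) (nat_lit 427) (nat_lit 368) (nat_lit 345)) (XT.lf (nat_lit 1976) (nat_lit 1842967877) (nat_lit 76) (nat_lit 351923442) (nat_lit 0) (nat_lit 351923442) (nat_lit 509) (nat_lit 1) (nat_lit 484) (nat_lit 1) (nat_lit 483) (nat_lit 1) (nat_lit 428) (nat_lit 368) (nat_lit 344)))) (XT.nd (nat_lit 156) (nat_lit 912) (nat_lit 0) (XT.nd (nat_lit 78) (nat_lit 1140) (nat_lit 0) (XT.lf (nat_lit 76) (nat_lit 812439204) (nat_lit 0) (nat_lit 898787109) (nat_lit 1900) (nat_lit 812439204) (nat_lit 485) (nat_lit 1) (nat_lit 484) (nat_lit 1) (nat_lit 509) (nat_lit 1) (nat_lit 429) (nat_lit 368) (nat_lit 343)) (XT.lf (nat_lit 1216)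 (nat_lit 1405152129) (nat_lit 0) (nat_lit 547851054) (nat_lit 1140) (nat_lit 547851054) (nat_lit 485) (nat_lit 1) (nat_lit 469) (nat_lit 1) (nat_lit 484) (nat_lit 1) (nat_lit 430) (nat_lit 368) (nat_lit 342))) (XT.nd (nat_lit 78) (nat_lit 912) (nat_lit 0) (XT.lf (nat_lit 76) (nat_lit 590214283) (nat_lit 0) (nat_lit 1297879208) (nat_lit 1216) (nat_lit 590214283) (nat_lit 470) (nat_lit 1) (nat_lit 469) (nat_lit 1) (nat_lit 485) (nat_lit 1) (nat_lit 431) (nat_lit 368) (nat_lit 341)) (XT.nd (nat_lit 78) (nat_lit 0) (nat_lit 0) (XT.lf (nat_lit 988) (nat_lit 951572669) (nat_lit 0) (nat_lit 752231652) (nat_lit 912) (nat_lit 752231652) (nat_lit 470) (nat_lit 1) (nat_lit 457) (nat_lit 1) (nat_lit 469) (nat_lit 1) (nat_lit 432) (nat_lit 368) (nat_lit 340)) (XT.lf (nat_lit 76) (nat_lit 360451168) (nat_lit 0) (nat_lit 1713174974) (nat_lit 988) (nat_lit 360451168) (nat_lit 458) (nat_lit 1) (nat_lit 457) (nat_lit 1) (nat_lit 470) (nat_lit 1) (nat_lit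 433) (nat_lit 368) (nat_lit 339)))))) (XT.nd (nat_lit 390) (nat_lit 2432) (nat_lit 0) (XT.nd (nat_lit 156) (nat_lit 1824) (nat_lit 0) (XT.nd (nat_lit 78) (nat_lit 0) (nat_lit 0) (XT.lf (nat_lit 988) (nat_lit 483484063) (nat_lit 0) (nat_lit 964422074) (nat_lit 912) (nat_lit 964422074) (nat_lit 458) (nat_lit 1) (nat_lit 445) (nat_lit 1) (nat_lit 457) (nat_lit 1) (nat_lit 434) (nat_lit 368) (nat_lit 338)) (XT.lf (nat_lit 76) (nat_lit 123759584) (nat_lit 0) (nat_lit 2143423613) (nat_lit 988) (nat_lit 123759584) (nat_lit 446) (nat_lit 1) (nat_lit 445) (nat_lit 1) (nat_lit 458) (nat_lit 1) (nat_lit 435) (nat_lit 368) (nat_lit 337))) (XT.nd (nat_lit 78) (nat_lit 988) (nat_lit 0) (XT.lf (nat_lit 912) (nat_lit 2079566) (nat_lit 0) (nat_lit 1183810305) (nat_lit 836) (nat_lit 1183810305) (nat_lit 446) (nat_lit 1) (nat_lit 434) (nat_lit 1) (nat_lit 445) (nat_lit 1) (nat_lit 436) (nat_lit 368) (nat_lit 336)) (XT.nd (nat_lit 78) (nat_lit 0) (nat_lit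 0) (XT.lf (nat_lit 988) (nat_lit 2111819873) (nat_lit 0) (nat_lit 118495892) (nat_lit 912) (nat_lit 118495892) (nat_lit 434) (nat_lit 1) (nat_lit 421) (nat_lit 1) (nat_lit 433) (nat_lit 1) (nat_lit 437) (nat_lit 368) (nat_lit 335)) (XT.lf (nat_lit 76) (nat_lit 921499084) (nat_lit 0) (nat_lit 485060059) (nat_lit 988) (nat_lit 921499084) (nat_lit 422) (nat_lit 1) (nat_lit 421) (nat_lit 1) (nat_lit 434) (nat_lit 1) (nat_lit 438) (nat_lit 368) (nat_lit 334))))) (XT.nd (nat_lit 156) (nat_lit 1596) (nat_lit 0) (XT.nd (nat_lit 78) (nat_lit 0) (nat_lit 0) (XT.lf (nat_lit 912) (nat_lit 1576256293) (nat_lit 0) (nat_lit 365696430) (nat_lit 836) (nat_lit 365696430) (nat_lit 422) (nat_lit 1) (nat_lit 410) (nat_lit 1) (nat_lit 421) (nat_lit 1) (nat_lit 439) (nat_lit 368) (nat_lit 333)) (XT.lf (nat_lit 76) (nat_lit 652152933) (nat_lit 0) (nat_lit 983129710) (nat_lit 912) (nat_lit 652152933) (nat_lit 411) (nat_lit 1) (nat_lit 410) (nat_lit 1) (nat_lit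 422) (nat_lit 1) (nat_lit 440) (nat_lit 368) (nat_lit 332))) (XT.nd (nat_lit 78) (nat_lit 760) (nat_lit 0) (XT.lf (nat_lit 912) (nat_lit 1031219844) (nat_lit 0) (nat_lit 618135839) (nat_lit 836) (nat_lit 618135839) (nat_lit 411) (nat_lit 1) (nat_lit 399) (nat_lit 1) (nat_lit 410) (nat_lit 1) (nat_lit 441) (nat_lit 368) (nat_lit 331)) (XT.nd (nat_lit 78) (nat_lit 760) (nat_lit 0) (XT.lf (nat_lit 76) (nat_lit 378329589) (nat_lit 0) (nat_lit 1491145442) (nat_lit 912) (nat_lit 378329589) (nat_lit 400) (nat_lit 1) (nat_lit 399) (nat_lit 1) (nat_lit 411) (nat_lit 1) (nat_lit 442) (nat_lit 368) (nat_lit 330)) (XT.lf (nat_lit 836) (nat_lit 477671887) (nat_lit 0) (nat_lit 875319746) (nat_lit 760) (nat_lit 875319746) (nat_lit 400) (nat_lit 1) (nat_lit 389) (nat_lit 1) (nat_lit 399) (nat_lit 1) (nat_lit 443) (nat_lit 368) (nat_lit 329))))))))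
noncomputable def ec15 : XT := (XT.nd (nat_lit 57096) (nat_lit 0) (nat_lit 6612) (XT.nd (nat_lit 56394) (nat_lit 0) (nat_lit 10716) (XT.nd (nat_lit 312) (nat_lit 760) (nat_lit 0) (XT.nd (nat_lit 156) (nat_lit 760) (nat_lit 0) (XT.nd (nat_lit 78) (nat_lit 836) (nat_lit 0) (XT.lf (nat_lit 76) (nat_lit 100495773) (nat_lit 0) (nat_lit 2008146786) (nat_lit 836) (nat_lit 100495773) (nat_lit 390) (nat_lit 1) (nat_lit 389) (nat_lit 1) (nat_lit 400) (nat_lit 1) (nat_lit 444) (nat_lit 368) (nat_lit 328)) (XT.lf (nat_lit 76) (nat_lit 1053845473) (nat_lit 0) (nat_lit 82380390) (nat_lit 836) (nat_lit 1053845473) (nat_lit 379) (nat_lit 1) (nat_lit 378) (nat_lit 1) (nat_lit 389) (nat_lit 1) (nat_lit 445) (nat_lit 368) (nat_lit 327))) (XT.nd (nat_lit 78) (nat_lit 0) (nat_lit 0) (XT.lf (nat_lit 836) (nat_lit 1811885253) (nat_lit 0) (nat_lit 179715489) (nat_lit 760) (nat_lit 179715489) (nat_lit 379) (nat_lit 1) (nat_lit 368) (nat_lit 1) (nat_lit 378) (nat_lit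 1) (nat_lit 446) (nat_lit 368) (nat_lit 326)) (XT.lf (nat_lit 76) (nat_lit 754940215) (nat_lit 0) (nat_lit 642813164) (nat_lit 836) (nat_lit 754940215) (nat_lit 369) (nat_lit 1) (nat_lit 368) (nat_lit 1) (nat_lit 379) (nat_lit 1) (nat_lit 447) (nat_lit 368) (nat_lit 325)))) (XT.nd (nat_lit 55848) (nat_lit 0) (nat_lit 10564) (XT.nd (nat_lit 55770) (nat_lit 0) (nat_lit 10564) (XT.lf (nat_lit 836) (nat_lit 1209568237) (nat_lit 0) (nat_lit 462392474) (nat_lit 760) (nat_lit 462392474) (nat_lit 369) (nat_lit 1) (nat_lit 358) (nat_lit 1) (nat_lit 368) (nat_lit 1) (nat_lit 448) (nat_lit 368) (nat_lit 324)) (XT.lf (nat_lit 1900) (nat_lit 542479668) (nat_lit 0) (nat_lit 547016060) (nat_lit 1900) (nat_lit 542479668) (nat_lit 522) (nat_lit 1) (nat_lit 497) (nat_lit 0) (nat_lit 522) (nat_lit 0) (nat_lit 402) (nat_lit 369) (nat_lit 369))) (XT.nd (nat_lit 78) (nat_lit 0) (nat_lit 76) (XT.lf (nat_lit 1900) (nat_lit 2145046171) (nat_lit 76) (nat_lit 543417270)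 (nat_lit 0) (nat_lit 543417270) (nat_lit 522) (nat_lit 1) (nat_lit 498) (nat_lit 1) (nat_lit 497) (nat_lit 0) (nat_lit 403) (nat_lit 369) (nat_lit 368)) (XT.nd (nat_lit 78) (nat_lit 0) (nat_lit 0) (XT.lf (nat_lit 1900) (nat_lit 1053227880) (nat_lit 0) (nat_lit 1093705152) (nat_lit 1824) (nat_lit 1053227880) (nat_lit 523) (nat_lit 1) (nat_lit 498) (nat_lit 1) (nat_lit 522) (nat_lit 1) (nat_lit 404) (nat_lit 369) (nat_lit 367)) (XT.lf (nat_lit 1900) (nat_lit 2061426597) (nat_lit 76) (nat_lit 553747694) (nat_lit 0) (nat_lit 553747694) (nat_lit 523) (nat_lit 1) (nat_lit 499) (nat_lit 1) (nat_lit 498) (nat_lit 1) (nat_lit 405) (nat_lit 369) (nat_lit 366)))))) (XT.nd (nat_lit 312) (nat_lit 0) (nat_lit 152) (XT.nd (nat_lit 156) (nat_lit 0) (nat_lit 76) (XT.nd (nat_lit 78) (nat_lit 0) (nat_lit 0) (XT.lf (nat_lit 1900) (nat_lit 1001814263) (nat_lit 0) (nat_lit 1134399376) (nat_lit 1824) (nat_lit 1001814263) (nat_lit 524) (nat_lit 1) (nat_lit 499)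 (nat_lit 1) (nat_lit 523) (nat_lit 1) (nat_lit 406) (nat_lit 369) (nat_lit 365)) (XT.lf (nat_lit 1900) (nat_lit 1939500597) (nat_lit 76) (nat_lit 584046326) (nat_lit 0) (nat_lit 584046326) (nat_lit 524) (nat_lit 1) (nat_lit 500) (nat_lit 1) (nat_lit 499) (nat_lit 1) (nat_lit 407) (nat_lit 369) (nat_lit 364))) (XT.nd (nat_lit 78) (nat_lit 0) (nat_lit 0) (XT.lf (nat_lit 1900) (nat_lit 931892852) (nat_lit 0) (nat_lit 1213717799) (nat_lit 1824) (nat_lit 931892852) (nat_lit 525) (nat_lit 1) (nat_lit 500) (nat_lit 1) (nat_lit 524) (nat_lit 1) (nat_lit 408) (nat_lit 369) (nat_lit 363)) (XT.lf (nat_lit 1900) (nat_lit 1781570430) (nat_lit 76) (nat_lit 633138377) (nat_lit 0) (nat_lit 633138377) (nat_lit 525) (nat_lit 1) (nat_lit 501) (nat_lit 1) (nat_lit 500) (nat_lit 1) (nat_lit 409) (nat_lit 369) (nat_lit 362)))) (XT.nd (nat_lit 156) (nat_lit 0) (nat_lit 76) (XT.nd (nat_lit 78) (nat_lit 0) (nat_lit 0) (XT.lf (nat_lit 1900) (nat_lit 844584370)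 (nat_lit 0) (nat_lit 1329372277) (nat_lit 1824) (nat_lit 844584370) (nat_lit 526) (nat_lit 1) (nat_lit 501) (nat_lit 1) (nat_lit 525) (nat_lit 1) (nat_lit 410) (nat_lit 369) (nat_lit 361)) (XT.lf (nat_lit 1900) (nat_lit 1589832980) (nat_lit 76) (nat_lit 699902508) (nat_lit 0) (nat_lit 699902508) (nat_lit 526) (nat_lit 1) (nat_lit 502) (nat_lit 1) (nat_lit 501) (nat_lit 1) (nat_lit 411) (nat_lit 369) (nat_lit 360))) (XT.nd (nat_lit 78) (nat_lit 0) (nat_lit 0) (XT.lf (nat_lit 1900) (nat_lit 740958141) (nat_lit 0) (nat_lit 1479178971) (nat_lit 1824) (nat_lit 740958141) (nat_lit 527) (nat_lit 1) (nat_lit 502) (nat_lit 1) (nat_lit 526) (nat_lit 1) (nat_lit 412) (nat_lit 369) (nat_lit 359)) (XT.nd (nat_lit 78) (nat_lit 0) (nat_lit 76) (XT.lf (nat_lit 1900) (nat_lit 1366384160) (nat_lit 76) (nat_lit 783268601) (nat_lit 0) (nat_lit 783268601) (nat_lit 527) (nat_lit 1) (nat_lit 503) (nat_lit 1) (nat_lit 502) (nat_lit 1) (nat_lit 413) (nat_lit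 369) (nat_lit 358)) (XT.lf (nat_lit 1900) (nat_lit 622034235) (nat_lit 0) (nat_lit 1661053999) (nat_lit 1824) (nat_lit 622034235) (nat_lit 528) (nat_lit 1) (nat_lit 503) (nat_lit 1) (nat_lit 527) (nat_lit 1) (nat_lit 414) (nat_lit 369) (nat_lit 357))))))) (XT.nd (nat_lit 702) (nat_lit 2812) (nat_lit 0) (XT.nd (nat_lit 312) (nat_lit 1596) (nat_lit 0) (XT.nd (nat_lit 156) (nat_lit 0) (nat_lit 76) (XT.nd (nat_lit 78) (nat_lit 0) (nat_lit 76) (XT.lf (nat_lit 1900) (nat_lit 1113223141) (nat_lit 76) (nat_lit 882215619) (nat_lit 0) (nat_lit 882215619) (nat_lit 528) (nat_lit 1) (nat_lit 504) (nat_lit 1) (nat_lit 503) (nat_lit 1) (nat_lit 415) (nat_lit 369) (nat_lit 356)) (XT.lf (nat_lit 1900) (nat_lit 488785533) (nat_lit 0) (nat_lit 1873009256) (nat_lit 1824) (nat_lit 488785533) (nat_lit 529) (nat_lit 1) (nat_lit 504) (nat_lit 1) (nat_lit 528) (nat_lit 1) (nat_lit 416) (nat_lit 369) (nat_lit 355))) (XT.nd (nat_lit 78) (nat_lit 0) (nat_lit 76)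 (XT.lf (nat_lit 1900) (nat_lit 832256409) (nat_lit 76) (nat_lit 995769552) (nat_lit 0) (nat_lit 995769552) (nat_lit 529) (nat_lit 1) (nat_lit 505) (nat_lit 1) (nat_lit 504) (nat_lit 1) (nat_lit 417) (nat_lit 369) (nat_lit 354)) (XT.lf (nat_lit 1900) (nat_lit 342139713) (nat_lit 0) (nat_lit 2113148401) (nat_lit 1824) (nat_lit 342139713) (nat_lit 530) (nat_lit 1) (nat_lit 505) (nat_lit 1) (nat_lit 529) (nat_lit 1) (nat_lit 418) (nat_lit 369) (nat_lit 353)))) (XT.nd (nat_lit 156) (nat_lit 1748) (nat_lit 0) (XT.nd (nat_lit 78) (nat_lit 0) (nat_lit 76) (XT.lf (nat_lit 1900) (nat_lit 525301661) (nat_lit 76) (nat_lit 1123001449) (nat_lit 0) (nat_lit 1123001449) (nat_lit 530) (nat_lit 1) (nat_lit 506) (nat_lit 1) (nat_lit 505) (nat_lit 1) (nat_lit 419) (nat_lit 369) (nat_lit 352)) (XT.lf (nat_lit 1900) (nat_lit 182981143) (nat_lit 0) (nat_lit 2379663013) (nat_lit 1824) (nat_lit 182981143) (nat_lit 531) (nat_lit 1) (nat_lit 506) (nat_lit 1) (nat_lit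 530) (nat_lit 1) (nat_lit 420) (nat_lit 369) (nat_lit 351))) (XT.nd (nat_lit 78) (nat_lit 1824) (nat_lit 0) (XT.lf (nat_lit 1900) (nat_lit 194091537) (nat_lit 76) (nat_lit 1263025522) (nat_lit 0) (nat_lit 1263025522) (nat_lit 531) (nat_lit 1) (nat_lit 507) (nat_lit 1) (nat_lit 506) (nat_lit 1) (nat_lit 421) (nat_lit 369) (nat_lit 350)) (XT.nd (nat_lit 78) (nat_lit 1900) (nat_lit 0) (XT.lf (nat_lit 1900) (nat_lit 12152714) (nat_lit 0) (nat_lit 2670828893) (nat_lit 1824) (nat_lit 12152714) (nat_lit 532) (nat_lit 1) (nat_lit 507) (nat_lit 1) (nat_lit 531) (nat_lit 1) (nat_lit 422) (nat_lit 369) (nat_lit 349)) (XT.lf (nat_lit 1976) (nat_lit 1256311576) (nat_lit 0) (nat_lit 157627991) (nat_lit 1900) (nat_lit 1256311576) (nat_lit 508) (nat_lit 1) (nat_lit 482) (nat_lit 1) (nat_lit 507) (nat_lit 1) (nat_lit 423) (nat_lit 369) (nat_lit 348)))))) (XT.nd (nat_lit 390) (nat_lit 1824) (nat_lit 0) (XT.nd (nat_lit 156) (nat_lit 988) (nat_lit 0) (XT.nd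 (nat_lit 78) (nat_lit 0) (nat_lit 76) (XT.lf (nat_lit 1976) (nat_lit 2308975316) (nat_lit 76) (nat_lit 168427006) (nat_lit 0) (nat_lit 168427006) (nat_lit 508) (nat_lit 1) (nat_lit 483) (nat_lit 1) (nat_lit 482) (nat_lit 1) (nat_lit 424) (nat_lit 369) (nat_lit 347)) (XT.lf (nat_lit 1976) (nat_lit 1047014673) (nat_lit 0) (nat_lit 527557198) (nat_lit 1900) (nat_lit 1047014673) (nat_lit 509) (nat_lit 1) (nat_lit 483) (nat_lit 1) (nat_lit 508) (nat_lit 1) (nat_lit 425) (nat_lit 369) (nat_lit 346))) (XT.nd (nat_lit 78) (nat_lit 1064) (nat_lit 0) (XT.lf (nat_lit 1976) (nat_lit 1879827234) (nat_lit 76) (nat_lit 358961910) (nat_lit 0) (nat_lit 358961910) (nat_lit 509) (nat_lit 1) (nat_lit 484) (nat_lit 1) (nat_lit 483) (nat_lit 1) (nat_lit 426) (nat_lit 369) (nat_lit 345)) (XT.nd (nat_lit 78) (nat_lit 1140) (nat_lit 0) (XT.lf (nat_lit 76) (nat_lit 828687988) (nat_lit 0) (nat_lit 916762851) (nat_lit 1900) (nat_lit 828687988) (nat_lit 485) (nat_lit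 1) (nat_lit 484) (nat_lit 1) (nat_lit 509) (nat_lit 1) (nat_lit 427) (nat_lit 369) (nat_lit 344)) (XT.lf (nat_lit 1216) (nat_lit 1433255172) (nat_lit 0) (nat_lit 558808075) (nat_lit 1140) (nat_lit 558808075) (nat_lit 485) (nat_lit 1) (nat_lit 469) (nat_lit 1) (nat_lit 484) (nat_lit 1) (nat_lit 428) (nat_lit 369) (nat_lit 343))))) (XT.nd (nat_lit 156) (nat_lit 912) (nat_lit 0) (XT.nd (nat_lit 78) (nat_lit 912) (nat_lit 0) (XT.lf (nat_lit 76) (nat_lit 602018569) (nat_lit 0) (nat_lit 1323836792) (nat_lit 1216) (nat_lit 602018569) (nat_lit 470) (nat_lit 1) (nat_lit 469) (nat_lit 1) (nat_lit 485) (nat_lit 1) (nat_lit 429) (nat_lit 369) (nat_lit 342)) (XT.lf (nat_lit 988) (nat_lit 970604122) (nat_lit 0) (nat_lit 767276285) (nat_lit 912) (nat_lit 767276285) (nat_lit 470) (nat_lit 1) (nat_lit 457) (nat_lit 1) (nat_lit 469) (nat_lit 1) (nat_lit 430) (nat_lit 369) (nat_lit 341))) (XT.nd (nat_lit 78) (nat_lit 912) (nat_lit 0) (XT.lf (nat_lit 76)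 (nat_lit 367660191) (nat_lit 0) (nat_lit 1747438473) (nat_lit 988) (nat_lit 367660191) (nat_lit 458) (nat_lit 1) (nat_lit 457) (nat_lit 1) (nat_lit 470) (nat_lit 1) (nat_lit 431) (nat_lit 369) (nat_lit 340)) (XT.nd (nat_lit 78) (nat_lit 0) (nat_lit 0) (XT.lf (nat_lit 988) (nat_lit 493153744) (nat_lit 0) (nat_lit 983710515) (nat_lit 912) (nat_lit 983710515) (nat_lit 458) (nat_lit 1) (nat_lit 445) (nat_lit 1) (nat_lit 457) (nat_lit 1) (nat_lit 432) (nat_lit 369) (nat_lit 339)) (XT.lf (nat_lit 76) (nat_lit 126234776) (nat_lit 0) (nat_lit 2186292085) (nat_lit 988) (nat_lit 126234776) (nat_lit 446) (nat_lit 1) (nat_lit 445) (nat_lit 1) (nat_lit 458) (nat_lit 1) (nat_lit 433) (nat_lit 369) (nat_lit 338))))))))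
noncomputable def ec16 : XT := (XT.nd (nat_lit 56940) (nat_lit 0) (nat_lit 11324) (XT.nd (nat_lit 702) (nat_lit 3040) (nat_lit 0) (XT.nd (nat_lit 312) (nat_lit 1596) (nat_lit 0) (XT.nd (nat_lit 156) (nat_lit 836) (nat_lit 0) (XT.nd (nat_lit 78) (nat_lit 988) (nat_lit 0) (XT.lf (nat_lit 912) (nat_lit 2121157) (nat_lit 0) (nat_lit 1207486511) (nat_lit 836) (nat_lit 1207486511) (nat_lit 446) (nat_lit 1) (nat_lit 434) (nat_lit 1) (nat_lit 445) (nat_lit 1) (nat_lit 434) (nat_lit 369) (nat_lit 337)) (XT.lf (nat_lit 988) (nat_lit 2154056271) (nat_lit 0) (nat_lit 120865810) (nat_lit 912) (nat_lit 120865810) (nat_lit 434) (nat_lit 1) (nat_lit 421) (nat_lit 1) (nat_lit 433) (nat_lit 1) (nat_lit 435) (nat_lit 369) (nat_lit 336))) (XT.nd (nat_lit 78) (nat_lit 836) (nat_lit 0) (XT.lf (nat_lit 76) (nat_lit 939929066) (nat_lit 0) (nat_lit 494761260) (nat_lit 988) (nat_lit 939929066) (nat_lit 422) (nat_lit 1) (nat_lit 421) (nat_lit 1) (nat_lit 434) (nat_lit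 1) (nat_lit 436) (nat_lit 369) (nat_lit 335)) (XT.lf (nat_lit 912) (nat_lit 1607781419) (nat_lit 0) (nat_lit 373010359) (nat_lit 836) (nat_lit 373010359) (nat_lit 422) (nat_lit 1) (nat_lit 410) (nat_lit 1) (nat_lit 421) (nat_lit 1) (nat_lit 437) (nat_lit 369) (nat_lit 334)))) (XT.nd (nat_lit 156) (nat_lit 760) (nat_lit 0) (XT.nd (nat_lit 78) (nat_lit 836) (nat_lit 0) (XT.lf (nat_lit 76) (nat_lit 665195992) (nat_lit 0) (nat_lit 1002792305) (nat_lit 912) (nat_lit 665195992) (nat_lit 411) (nat_lit 1) (nat_lit 410) (nat_lit 1) (nat_lit 422) (nat_lit 1) (nat_lit 438) (nat_lit 369) (nat_lit 333)) (XT.lf (nat_lit 912) (nat_lit 1051844241) (nat_lit 0) (nat_lit 630498556) (nat_lit 836) (nat_lit 630498556) (nat_lit 411) (nat_lit 1) (nat_lit 399) (nat_lit 1) (nat_lit 410) (nat_lit 1) (nat_lit 439) (nat_lit 369) (nat_lit 332))) (XT.nd (nat_lit 78) (nat_lit 760) (nat_lit 0) (XT.lf (nat_lit 76) (nat_lit 385896181) (nat_lit 0) (nat_lit 1520968351) (nat_lit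 912) (nat_lit 385896181) (nat_lit 400) (nat_lit 1) (nat_lit 399) (nat_lit 1) (nat_lit 411) (nat_lit 1) (nat_lit 440) (nat_lit 369) (nat_lit 331)) (XT.nd (nat_lit 78) (nat_lit 0) (nat_lit 0) (XT.lf (nat_lit 836) (nat_lit 487225325) (nat_lit 0) (nat_lit 892826141) (nat_lit 760) (nat_lit 892826141) (nat_lit 400) (nat_lit 1) (nat_lit 389) (nat_lit 1) (nat_lit 399) (nat_lit 1) (nat_lit 441) (nat_lit 369) (nat_lit 330)) (XT.lf (nat_lit 76) (nat_lit 102505688) (nat_lit 0) (nat_lit 2048309722) (nat_lit 836) (nat_lit 102505688) (nat_lit 390) (nat_lit 1) (nat_lit 389) (nat_lit 1) (nat_lit 400) (nat_lit 1) (nat_lit 442) (nat_lit 369) (nat_lit 329)))))) (XT.nd (nat_lit 312) (nat_lit 684) (nat_lit 0) (XT.nd (nat_lit 156) (nat_lit 760) (nat_lit 0) (XT.nd (nat_lit 78) (nat_lit 760) (nat_lit 0) (XT.lf (nat_lit 76) (nat_lit 1074922383) (nat_lit 0) (nat_lit 84027998) (nat_lit 836) (nat_lit 1074922383) (nat_lit 379) (nat_lit 1) (nat_lit 378) (nat_lit 1)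 (nat_lit 389) (nat_lit 1) (nat_lit 443) (nat_lit 369) (nat_lit 328)) (XT.lf (nat_lit 836) (nat_lit 1848122958) (nat_lit 0) (nat_lit 183309799) (nat_lit 760) (nat_lit 183309799) (nat_lit 379) (nat_lit 1) (nat_lit 368) (nat_lit 1) (nat_lit 378) (nat_lit 1) (nat_lit 444) (nat_lit 369) (nat_lit 327))) (XT.nd (nat_lit 78) (nat_lit 760) (nat_lit 0) (XT.lf (nat_lit 76) (nat_lit 770039019) (nat_lit 0) (nat_lit 655669427) (nat_lit 836) (nat_lit 770039019) (nat_lit 369) (nat_lit 1) (nat_lit 368) (nat_lit 1) (nat_lit 379) (nat_lit 1) (nat_lit 445) (nat_lit 369) (nat_lit 326)) (XT.lf (nat_lit 836) (nat_lit 1233759602) (nat_lit 0) (nat_lit 471640323) (nat_lit 760) (nat_lit 471640323) (nat_lit 369) (nat_lit 1) (nat_lit 358) (nat_lit 1) (nat_lit 368) (nat_lit 1) (nat_lit 446) (nat_lit 369) (nat_lit 325)))) (XT.nd (nat_lit 55692) (nat_lit 0) (nat_lit 11248) (XT.nd (nat_lit 78) (nat_lit 684) (nat_lit 0) (XT.lf (nat_lit 76) (nat_lit 462638407) (nat_lit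 0) (nat_lit 1233262816) (nat_lit 836) (nat_lit 462638407) (nat_lit 359) (nat_lit 1) (nat_lit 358) (nat_lit 1) (nat_lit 369) (nat_lit 1) (nat_lit 447) (nat_lit 369) (nat_lit 324)) (XT.lf (nat_lit 760) (nat_lit 614729140) (nat_lit 0) (nat_lit 762756770) (nat_lit 684) (nat_lit 762756770) (nat_lit 359) (nat_lit 1) (nat_lit 349) (nat_lit 1) (nat_lit 358) (nat_lit 1) (nat_lit 448) (nat_lit 369) (nat_lit 323))) (XT.nd (nat_lit 78) (nat_lit 0) (nat_lit 0) (XT.lf (nat_lit 1900) (nat_lit 553329261) (nat_lit 0) (nat_lit 557956381) (nat_lit 1900) (nat_lit 553329261) (nat_lit 522) (nat_lit 1) (nat_lit 497) (nat_lit 0) (nat_lit 522) (nat_lit 0) (nat_lit 400) (nat_lit 370) (nat_lit 370)) (XT.nd (nat_lit 78) (nat_lit 0) (nat_lit 76) (XT.lf (nat_lit 1900) (nat_lit 2187947095) (nat_lit 76) (nat_lit 554285615) (nat_lit 0) (nat_lit 554285615) (nat_lit 522) (nat_lit 1) (nat_lit 498) (nat_lit 1) (nat_lit 497) (nat_lit 0) (nat_lit 401) (nat_lit 370) (nat_lit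 369)) (XT.lf (nat_lit 1900) (nat_lit 1074292438) (nat_lit 0) (nat_lit 1115579255) (nat_lit 1824) (nat_lit 1074292438) (nat_lit 523) (nat_lit 1) (nat_lit 498) (nat_lit 1) (nat_lit 522) (nat_lit 1) (nat_lit 402) (nat_lit 370) (nat_lit 368))))))) (XT.nd (nat_lit 702) (nat_lit 0) (nat_lit 380) (XT.nd (nat_lit 312) (nat_lit 0) (nat_lit 152) (XT.nd (nat_lit 156) (nat_lit 0) (nat_lit 76) (XT.nd (nat_lit 78) (nat_lit 0) (nat_lit 76) (XT.lf (nat_lit 1900) (nat_lit 2102655129) (nat_lit 76) (nat_lit 564822648) (nat_lit 0) (nat_lit 564822648) (nat_lit 523) (nat_lit 1) (nat_lit 499) (nat_lit 1) (nat_lit 498) (nat_lit 1) (nat_lit 403) (nat_lit 370) (nat_lit 367)) (XT.lf (nat_lit 1900) (nat_lit 1021850548) (nat_lit 0) (nat_lit 1157087363) (nat_lit 1824) (nat_lit 1021850548) (nat_lit 524) (nat_lit 1) (nat_lit 499) (nat_lit 1) (nat_lit 523) (nat_lit 1) (nat_lit 404) (nat_lit 370) (nat_lit 366))) (XT.nd (nat_lit 78) (nat_lit 0) (nat_lit 76) (XT.lf (nat_lit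 1900) (nat_lit 1978290609) (nat_lit 76) (nat_lit 595727252) (nat_lit 0) (nat_lit 595727252) (nat_lit 524) (nat_lit 1) (nat_lit 500) (nat_lit 1) (nat_lit 499) (nat_lit 1) (nat_lit 405) (nat_lit 370) (nat_lit 365)) (XT.lf (nat_lit 1900) (nat_lit 950530709) (nat_lit 0) (nat_lit 1237992155) (nat_lit 1824) (nat_lit 950530709) (nat_lit 525) (nat_lit 1) (nat_lit 500) (nat_lit 1) (nat_lit 524) (nat_lit 1) (nat_lit 406) (nat_lit 370) (nat_lit 364)))) (XT.nd (nat_lit 156) (nat_lit 0) (nat_lit 76) (XT.nd (nat_lit 78) (nat_lit 0) (nat_lit 76) (XT.lf (nat_lit 1900) (nat_lit 1817201839) (nat_lit 76) (nat_lit 645801144) (nat_lit 0) (nat_lit 645801144) (nat_lit 525) (nat_lit 1) (nat_lit 501) (nat_lit 1) (nat_lit 500) (nat_lit 1) (nat_lit 407) (nat_lit 370) (nat_lit 363)) (XT.lf (nat_lit 1900) (nat_lit 861476058) (nat_lit 0) (nat_lit 1355959723) (nat_lit 1824) (nat_lit 861476058) (nat_lit 526) (nat_lit 1) (nat_lit 501) (nat_lit 1) (nat_lit 525) (nat_lit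 1) (nat_lit 408) (nat_lit 370) (nat_lit 362))) (XT.nd (nat_lit 78) (nat_lit 0) (nat_lit 76) (XT.lf (nat_lit 1900) (nat_lit 1621629639) (nat_lit 76) (nat_lit 713900558) (nat_lit 0) (nat_lit 713900558) (nat_lit 526) (nat_lit 1) (nat_lit 502) (nat_lit 1) (nat_lit 501) (nat_lit 1) (nat_lit 409) (nat_lit 370) (nat_lit 361)) (XT.nd (nat_lit 78) (nat_lit 0) (nat_lit 0) (XT.lf (nat_lit 1900) (nat_lit 755777304) (nat_lit 0) (nat_lit 1508762551) (nat_lit 1824) (nat_lit 755777304) (nat_lit 527) (nat_lit 1) (nat_lit 502) (nat_lit 1) (nat_lit 526) (nat_lit 1) (nat_lit 410) (nat_lit 370) (nat_lit 360)) (XT.lf (nat_lit 1900) (nat_lit 1393711843) (nat_lit 76) (nat_lit 798933973) (nat_lit 0) (nat_lit 798933973) (nat_lit 527) (nat_lit 1) (nat_lit 503) (nat_lit 1) (nat_lit 502) (nat_lit 1) (nat_lit 411) (nat_lit 370) (nat_lit 359)))))) (XT.nd (nat_lit 312) (nat_lit 0) (nat_lit 152) (XT.nd (nat_lit 156) (nat_lit 0) (nat_lit 76) (XT.nd (nat_lit 78) (nat_lit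 0) (nat_lit 0) (XT.lf (nat_lit 1900) (nat_lit 634474920) (nat_lit 0) (nat_lit 1694275079) (nat_lit 1824) (nat_lit 634474920) (nat_lit 528) (nat_lit 1) (nat_lit 503) (nat_lit 1) (nat_lit 527) (nat_lit 1) (nat_lit 412) (nat_lit 370) (nat_lit 358)) (XT.lf (nat_lit 1900) (nat_lit 1135487604) (nat_lit 76) (nat_lit 899859931) (nat_lit 0) (nat_lit 899859931) (nat_lit 528) (nat_lit 1) (nat_lit 504) (nat_lit 1) (nat_lit 503) (nat_lit 1) (nat_lit 413) (nat_lit 370) (nat_lit 357))) (XT.nd (nat_lit 78) (nat_lit 0) (nat_lit 0) (XT.lf (nat_lit 1900) (nat_lit 498561244) (nat_lit 0) (nat_lit 1910469441) (nat_lit 1824) (nat_lit 498561244) (nat_lit 529) (nat_lit 1) (nat_lit 504) (nat_lit 1) (nat_lit 528) (nat_lit 1) (nat_lit 414) (nat_lit 370) (nat_lit 356)) (XT.lf (nat_lit 1900) (nat_lit 848901537) (nat_lit 76) (nat_lit 1015684943) (nat_lit 0) (nat_lit 1015684943) (nat_lit 529) (nat_lit 1) (nat_lit 505) (nat_lit 1) (nat_lit 504) (nat_lit 1) (nat_lit 415)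 (nat_lit 370) (nat_lit 355)))) (XT.nd (nat_lit 156) (nat_lit 0) (nat_lit 76) (XT.nd (nat_lit 78) (nat_lit 0) (nat_lit 0) (XT.lf (nat_lit 1900) (nat_lit 348982507) (nat_lit 0) (nat_lit 2155411369) (nat_lit 1824) (nat_lit 348982507) (nat_lit 530) (nat_lit 1) (nat_lit 505) (nat_lit 1) (nat_lit 529) (nat_lit 1) (nat_lit 416) (nat_lit 370) (nat_lit 354)) (XT.lf (nat_lit 1900) (nat_lit 535807694) (nat_lit 76) (nat_lit 1145461478) (nat_lit 0) (nat_lit 1145461478) (nat_lit 530) (nat_lit 1) (nat_lit 506) (nat_lit 1) (nat_lit 505) (nat_lit 1) (nat_lit 417) (nat_lit 370) (nat_lit 353))) (XT.nd (nat_lit 78) (nat_lit 0) (nat_lit 0) (XT.lf (nat_lit 1900) (nat_lit 186640766) (nat_lit 0) (nat_lit 2427256273) (nat_lit 1824) (nat_lit 186640766) (nat_lit 531) (nat_lit 1) (nat_lit 506) (nat_lit 1) (nat_lit 530) (nat_lit 1) (nat_lit 418) (nat_lit 370) (nat_lit 352)) (XT.nd (nat_lit 78) (nat_lit 0) (nat_lit 76) (XT.lf (nat_lit 1900) (nat_lit 197973368) (nat_lit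 76) (nat_lit 1288286032) (nat_lit 0) (nat_lit 1288286032) (nat_lit 531) (nat_lit 1) (nat_lit 507) (nat_lit 1) (nat_lit 506) (nat_lit 1) (nat_lit 419) (nat_lit 370) (nat_lit 351)) (XT.lf (nat_lit 1900) (nat_lit 12395768) (nat_lit 0) (nat_lit 2724245471) (nat_lit 1824) (nat_lit 12395768) (nat_lit 532) (nat_lit 1) (nat_lit 507) (nat_lit 1) (nat_lit 531) (nat_lit 1) (nat_lit 420) (nat_lit 370) (nat_lit 350))))))))
noncomputable def ec17 : XT := (XT.nd (nat_lit 1404) (nat_lit 4560) (nat_lit 0) (XT.nd (nat_lit 702) (nat_lit 4408) (nat_lit 0) (XT.nd (nat_lit 312) (nat_lit 1900) (nat_lit 0) (XT.nd (nat_lit 156) (nat_lit 0) (nat_lit 76) (XT.nd (nat_lit 78) (nat_lit 0) (nat_lit 0) (XT.lf (nat_lit 1976) (nat_lit 1281437808) (nat_lit 0) (nat_lit 160780551) (nat_lit 1900) (nat_lit 1281437808) (nat_lit 508) (nat_lit 1) (nat_lit 482) (nat_lit 1) (nat_lit 507) (nat_lit 1) (nat_lit 421) (nat_lit 370) (nat_lit 349)) (XT.lf (nat_lit 1976) (nat_lit 2355154823)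 (nat_lit 76) (nat_lit 171795546) (nat_lit 0) (nat_lit 171795546) (nat_lit 508) (nat_lit 1) (nat_lit 483) (nat_lit 1) (nat_lit 482) (nat_lit 1) (nat_lit 422) (nat_lit 370) (nat_lit 348))) (XT.nd (nat_lit 78) (nat_lit 0) (nat_lit 0) (XT.lf (nat_lit 1976) (nat_lit 1067954967) (nat_lit 0) (nat_lit 538108342) (nat_lit 1900) (nat_lit 1067954967) (nat_lit 509) (nat_lit 1) (nat_lit 483) (nat_lit 1) (nat_lit 508) (nat_lit 1) (nat_lit 423) (nat_lit 370) (nat_lit 347)) (XT.lf (nat_lit 1976) (nat_lit 1917423779) (nat_lit 76) (nat_lit 366141149) (nat_lit 0) (nat_lit 366141149) (nat_lit 509) (nat_lit 1) (nat_lit 484) (nat_lit 1) (nat_lit 483) (nat_lit 1) (nat_lit 424) (nat_lit 370) (nat_lit 346)))) (XT.nd (nat_lit 156) (nat_lit 912) (nat_lit 0) (XT.nd (nat_lit 78) (nat_lit 1140) (nat_lit 0) (XT.lf (nat_lit 76) (nat_lit 845261747) (nat_lit 0) (nat_lit 935098108) (nat_lit 1900) (nat_lit 845261747) (nat_lit 485) (nat_lit 1) (nat_lit 484) (nat_lit 1) (nat_lit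 509) (nat_lit 1) (nat_lit 425) (nat_lit 370) (nat_lit 345)) (XT.lf (nat_lit 1216) (nat_lit 1461920275) (nat_lit 0) (nat_lit 569984236) (nat_lit 1140) (nat_lit 569984236) (nat_lit 485) (nat_lit 1) (nat_lit 469) (nat_lit 1) (nat_lit 484) (nat_lit 1) (nat_lit 426) (nat_lit 370) (nat_lit 344))) (XT.nd (nat_lit 78) (nat_lit 912) (nat_lit 0) (XT.lf (nat_lit 76) (nat_lit 614058940) (nat_lit 0) (nat_lit 1350313528) (nat_lit 1216) (nat_lit 614058940) (nat_lit 470) (nat_lit 1) (nat_lit 469) (nat_lit 1) (nat_lit 485) (nat_lit 1) (nat_lit 427) (nat_lit 370) (nat_lit 343)) (XT.nd (nat_lit 78) (nat_lit 0) (nat_lit 0) (XT.lf (nat_lit 988) (nat_lit 990016204) (nat_lit 0) (nat_lit 782621811) (nat_lit 912) (nat_lit 782621811) (nat_lit 470) (nat_lit 1) (nat_lit 457) (nat_lit 1) (nat_lit 469) (nat_lit 1) (nat_lit 428) (nat_lit 370) (nat_lit 342)) (XT.lf (nat_lit 76) (nat_lit 375013395) (nat_lit 0) (nat_lit 1782387243) (nat_lit 988) (nat_lit 375013395) (nat_lit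 458) (nat_lit 1) (nat_lit 457) (nat_lit 1) (nat_lit 470) (nat_lit 1) (nat_lit 429) (nat_lit 370) (nat_lit 341)))))) (XT.nd (nat_lit 312) (nat_lit 1672) (nat_lit 0) (XT.nd (nat_lit 156) (nat_lit 1824) (nat_lit 0) (XT.nd (nat_lit 78) (nat_lit 0) (nat_lit 0) (XT.lf (nat_lit 988) (nat_lit 503016819) (nat_lit 0) (nat_lit 1003384725) (nat_lit 912) (nat_lit 1003384725) (nat_lit 458) (nat_lit 1) (nat_lit 445) (nat_lit 1) (nat_lit 457) (nat_lit 1) (nat_lit 430) (nat_lit 370) (nat_lit 340)) (XT.lf (nat_lit 76) (nat_lit 128759471) (nat_lit 0) (nat_lit 2230017927) (nat_lit 988) (nat_lit 128759471) (nat_lit 446) (nat_lit 1) (nat_lit 445) (nat_lit 1) (nat_lit 458) (nat_lit 1) (nat_lit 431) (nat_lit 370) (nat_lit 339))) (XT.nd (nat_lit 78) (nat_lit 988) (nat_lit 0) (XT.lf (nat_lit 912) (nat_lit 2163580) (nat_lit 0) (nat_lit 1231636241) (nat_lit 836) (nat_lit 1231636241) (nat_lit 446) (nat_lit 1) (nat_lit 434) (nat_lit 1) (nat_lit 445) (nat_lit 1) (nat_lit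 432) (nat_lit 370) (nat_lit 338)) (XT.lf (nat_lit 988) (nat_lit 2197137396) (nat_lit 0) (nat_lit 123283126) (nat_lit 912) (nat_lit 123283126) (nat_lit 434) (nat_lit 1) (nat_lit 421) (nat_lit 1) (nat_lit 433) (nat_lit 1) (nat_lit 433) (nat_lit 370) (nat_lit 337)))) (XT.nd (nat_lit 156) (nat_lit 836) (nat_lit 0) (XT.nd (nat_lit 78) (nat_lit 836) (nat_lit 0) (XT.lf (nat_lit 76) (nat_lit 958727647) (nat_lit 0) (nat_lit 504656485) (nat_lit 988) (nat_lit 958727647) (nat_lit 422) (nat_lit 1) (nat_lit 421) (nat_lit 1) (nat_lit 434) (nat_lit 1) (nat_lit 434) (nat_lit 370) (nat_lit 336)) (XT.lf (nat_lit 912) (nat_lit 1639937048) (nat_lit 0) (nat_lit 380470566) (nat_lit 836) (nat_lit 380470566) (nat_lit 422) (nat_lit 1) (nat_lit 410) (nat_lit 1) (nat_lit 421) (nat_lit 1) (nat_lit 435) (nat_lit 370) (nat_lit 335))) (XT.nd (nat_lit 78) (nat_lit 836) (nat_lit 0) (XT.lf (nat_lit 76) (nat_lit 678499912) (nat_lit 0) (nat_lit 1022848151) (nat_lit 912)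 (nat_lit 678499912) (nat_lit 411) (nat_lit 1) (nat_lit 410) (nat_lit 1) (nat_lit 422) (nat_lit 1) (nat_lit 436) (nat_lit 370) (nat_lit 334)) (XT.nd (nat_lit 78) (nat_lit 0) (nat_lit 0) (XT.lf (nat_lit 912) (nat_lit 1072881126) (nat_lit 0) (nat_lit 643108527) (nat_lit 836) (nat_lit 643108527) (nat_lit 411) (nat_lit 1) (nat_lit 399) (nat_lit 1) (nat_lit 410) (nat_lit 1) (nat_lit 437) (nat_lit 370) (nat_lit 333)) (XT.lf (nat_lit 76) (nat_lit 393614104) (nat_lit 0) (nat_lit 1551387718) (nat_lit 912) (nat_lit 393614104) (nat_lit 400) (nat_lit 1) (nat_lit 399) (nat_lit 1) (nat_lit 411) (nat_lit 1) (nat_lit 438) (nat_lit 370) (nat_lit 332))))))) (XT.nd (nat_lit 702) (nat_lit 760) (nat_lit 0) (XT.nd (nat_lit 312) (nat_lit 1444) (nat_lit 0) (XT.nd (nat_lit 156) (nat_lit 1596) (nat_lit 0) (XT.nd (nat_lit 78) (nat_lit 0) (nat_lit 0) (XT.lf (nat_lit 836) (nat_lit 496969832) (nat_lit 0) (nat_lit 910682664) (nat_lit 760) (nat_lit 910682664) (nat_lit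 400) (nat_lit 1) (nat_lit 389) (nat_lit 1) (nat_lit 399) (nat_lit 1) (nat_lit 439) (nat_lit 370) (nat_lit 331)) (XT.lf (nat_lit 76) (nat_lit 104555802) (nat_lit 0) (nat_lit 2089275916) (nat_lit 836) (nat_lit 104555802) (nat_lit 390) (nat_lit 1) (nat_lit 389) (nat_lit 1) (nat_lit 400) (nat_lit 1) (nat_lit 440) (nat_lit 370) (nat_lit 330))) (XT.nd (nat_lit 78) (nat_lit 760) (nat_lit 0) (XT.lf (nat_lit 76) (nat_lit 1096420831) (nat_lit 0) (nat_lit 85708558) (nat_lit 836) (nat_lit 1096420831) (nat_lit 379) (nat_lit 1) (nat_lit 378) (nat_lit 1) (nat_lit 389) (nat_lit 1) (nat_lit 441) (nat_lit 370) (nat_lit 329)) (XT.lf (nat_lit 836) (nat_lit 1885085417) (nat_lit 0) (nat_lit 186975995) (nat_lit 760) (nat_lit 186975995) (nat_lit 379) (nat_lit 1) (nat_lit 368) (nat_lit 1) (nat_lit 378) (nat_lit 1) (nat_lit 442) (nat_lit 370) (nat_lit 328)))) (XT.nd (nat_lit 156) (nat_lit 684) (nat_lit 0) (XT.nd (nat_lit 78) (nat_lit 760) (nat_lit 0) (XT.lf (nat_lit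 76) (nat_lit 785439800) (nat_lit 0) (nat_lit 668782816) (nat_lit 836) (nat_lit 785439800) (nat_lit 369) (nat_lit 1) (nat_lit 368) (nat_lit 1) (nat_lit 379) (nat_lit 1) (nat_lit 443) (nat_lit 370) (nat_lit 327)) (XT.lf (nat_lit 836) (nat_lit 1258434794) (nat_lit 0) (nat_lit 481073129) (nat_lit 760) (nat_lit 481073129) (nat_lit 369) (nat_lit 1) (nat_lit 358) (nat_lit 1) (nat_lit 368) (nat_lit 1) (nat_lit 444) (nat_lit 370) (nat_lit 326))) (XT.nd (nat_lit 78) (nat_lit 684) (nat_lit 0) (XT.lf (nat_lit 76) (nat_lit 471891176) (nat_lit 0) (nat_lit 1257928072) (nat_lit 836) (nat_lit 471891176) (nat_lit 359) (nat_lit 1) (nat_lit 358) (nat_lit 1) (nat_lit 369) (nat_lit 1) (nat_lit 445) (nat_lit 370) (nat_lit 325)) (XT.nd (nat_lit 78) (nat_lit 0) (nat_lit 0) (XT.lf (nat_lit 760) (nat_lit 627023722) (nat_lit 0) (nat_lit 778011906) (nat_lit 684) (nat_lit 778011906) (nat_lit 359) (nat_lit 1) (nat_lit 349) (nat_lit 1) (nat_lit 358) (nat_lit 1) (nat_lit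 446) (nat_lit 370) (nat_lit 324)) (XT.lf (nat_lit 76) (nat_lit 156161786) (nat_lit 0) (nat_lit 1852345592) (nat_lit 760) (nat_lit 156161786) (nat_lit 350) (nat_lit 1) (nat_lit 349) (nat_lit 1) (nat_lit 359) (nat_lit 1) (nat_lit 447) (nat_lit 370) (nat_lit 323)))))) (XT.nd (nat_lit 55770) (nat_lit 0) (nat_lit 12160) (XT.nd (nat_lit 55536) (nat_lit 0) (nat_lit 12008) (XT.nd (nat_lit 55458) (nat_lit 0) (nat_lit 12008) (XT.lf (nat_lit 76) (nat_lit 1069064355) (nat_lit 0) (nat_lit 8282402) (nat_lit 760) (nat_lit 1069064355) (nat_lit 340) (nat_lit 1) (nat_lit 339) (nat_lit 1) (nat_lit 349) (nat_lit 1) (nat_lit 448) (nat_lit 370) (nat_lit 322)) (XT.lf (nat_lit 1900) (nat_lit 564395847) (nat_lit 0) (nat_lit 569115509) (nat_lit 1900) (nat_lit 564395847) (nat_lit 522) (nat_lit 1) (nat_lit 497) (nat_lit 0) (nat_lit 522) (nat_lit 0) (nat_lit 398) (nat_lit 371) (nat_lit 371))) (XT.nd (nat_lit 78) (nat_lit 0) (nat_lit 76) (XT.lf (nat_lit 1900) (nat_lit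 2231706037) (nat_lit 76) (nat_lit 565371328) (nat_lit 0) (nat_lit 565371328) (nat_lit 522) (nat_lit 1) (nat_lit 498) (nat_lit 1) (nat_lit 497) (nat_lit 0) (nat_lit 399) (nat_lit 371) (nat_lit 370)) (XT.nd (nat_lit 78) (nat_lit 0) (nat_lit 0) (XT.lf (nat_lit 1900) (nat_lit 1095778287) (nat_lit 0) (nat_lit 1137890840) (nat_lit 1824) (nat_lit 1095778287) (nat_lit 523) (nat_lit 1) (nat_lit 498) (nat_lit 1) (nat_lit 522) (nat_lit 1) (nat_lit 400) (nat_lit 371) (nat_lit 369)) (XT.lf (nat_lit 1900) (nat_lit 2144708232) (nat_lit 76) (nat_lit 576119100) (nat_lit 0) (nat_lit 576119100) (nat_lit 523) (nat_lit 1) (nat_lit 499) (nat_lit 1) (nat_lit 498) (nat_lit 1) (nat_lit 401) (nat_lit 371) (nat_lit 368))))) (XT.nd (nat_lit 156) (nat_lit 0) (nat_lit 76) (XT.nd (nat_lit 78) (nat_lit 0) (nat_lit 0) (XT.lf (nat_lit 1900) (nat_lit 1042287559) (nat_lit 0) (nat_lit 1180229110) (nat_lit 1824) (nat_lit 1042287559) (nat_lit 524) (nat_lit 1) (nat_lit 499)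 (nat_lit 1) (nat_lit 523) (nat_lit 1) (nat_lit 402) (nat_lit 371) (nat_lit 367)) (XT.lf (nat_lit 1900) (nat_lit 2017856421) (nat_lit 76) (nat_lit 607641797) (nat_lit 0) (nat_lit 607641797) (nat_lit 524) (nat_lit 1) (nat_lit 500) (nat_lit 1) (nat_lit 499) (nat_lit 1) (nat_lit 403) (nat_lit 371) (nat_lit 366))) (XT.nd (nat_lit 78) (nat_lit 0) (nat_lit 0) (XT.lf (nat_lit 1900) (nat_lit 969541323) (nat_lit 0) (nat_lit 1262751999) (nat_lit 1824) (nat_lit 969541323) (nat_lit 525) (nat_lit 1) (nat_lit 500) (nat_lit 1) (nat_lit 524) (nat_lit 1) (nat_lit 404) (nat_lit 371) (nat_lit 365)) (XT.nd (nat_lit 78) (nat_lit 0) (nat_lit 76) (XT.lf (nat_lit 1900) (nat_lit 1853545875) (nat_lit 76) (nat_lit 658717167) (nat_lit 0) (nat_lit 658717167) (nat_lit 525) (nat_lit 1) (nat_lit 501) (nat_lit 1) (nat_lit 500) (nat_lit 1) (nat_lit 405) (nat_lit 371) (nat_lit 364)) (XT.lf (nat_lit 1900) (nat_lit 878705579) (nat_lit 0) (nat_lit 1383078917) (nat_lit 1824)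 (nat_lit 878705579) (nat_lit 526) (nat_lit 1) (nat_lit 501) (nat_lit 1) (nat_lit 525) (nat_lit 1) (nat_lit 406) (nat_lit 371) (nat_lit 363))))))))
noncomputable def ec18 : XT := (XT.nd (nat_lit 1404) (nat_lit 8436) (nat_lit 0) (XT.nd (nat_lit 702) (nat_lit 2432) (nat_lit 0) (XT.nd (nat_lit 312) (nat_lit 0) (nat_lit 152) (XT.nd (nat_lit 156) (nat_lit 0) (nat_lit 76) (XT.nd (nat_lit 78) (nat_lit 0) (nat_lit 76) (XT.lf (nat_lit 1900) (nat_lit 1654062232) (nat_lit 76) (nat_lit 728178569) (nat_lit 0) (nat_lit 728178569) (nat_lit 526) (nat_lit 1) (nat_lit 502) (nat_lit 1) (nat_lit 501) (nat_lit 1) (nat_lit 407) (nat_lit 371) (nat_lit 362)) (XT.lf (nat_lit 1900) (nat_lit 770892850) (nat_lit 0) (nat_lit 1538937802) (nat_lit 1824) (nat_lit 770892850) (nat_lit 527) (nat_lit 1) (nat_lit 502) (nat_lit 1) (nat_lit 526) (nat_lit 1) (nat_lit 408) (nat_lit 371) (nat_lit 361))) (XT.nd (nat_lit 78) (nat_lit 0) (nat_lit 76) (XT.lf (nat_lit 1900) (nat_lit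 1421586080) (nat_lit 76) (nat_lit 814912652) (nat_lit 0) (nat_lit 814912652) (nat_lit 527) (nat_lit 1) (nat_lit 503) (nat_lit 1) (nat_lit 502) (nat_lit 1) (nat_lit 409) (nat_lit 371) (nat_lit 360)) (XT.lf (nat_lit 1900) (nat_lit 647164418) (nat_lit 0) (nat_lit 1728160581) (nat_lit 1824) (nat_lit 647164418) (nat_lit 528) (nat_lit 1) (nat_lit 503) (nat_lit 1) (nat_lit 527) (nat_lit 1) (nat_lit 410) (nat_lit 371) (nat_lit 359)))) (XT.nd (nat_lit 156) (nat_lit 0) (nat_lit 76) (XT.nd (nat_lit 78) (nat_lit 0) (nat_lit 76) (XT.lf (nat_lit 1900) (nat_lit 1158197356) (nat_lit 76) (nat_lit 917857130) (nat_lit 0) (nat_lit 917857130) (nat_lit 528) (nat_lit 1) (nat_lit 504) (nat_lit 1) (nat_lit 503) (nat_lit 1) (nat_lit 411) (nat_lit 371) (nat_lit 358)) (XT.lf (nat_lit 1900) (nat_lit 508532469) (nat_lit 0) (nat_lit 1948678830) (nat_lit 1824) (nat_lit 508532469) (nat_lit 529) (nat_lit 1) (nat_lit 504) (nat_lit 1) (nat_lit 528) (nat_lit 1) (nat_lit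 412) (nat_lit 371) (nat_lit 357))) (XT.nd (nat_lit 78) (nat_lit 0) (nat_lit 76) (XT.lf (nat_lit 1900) (nat_lit 865879568) (nat_lit 76) (nat_lit 1035998642) (nat_lit 0) (nat_lit 1035998642) (nat_lit 529) (nat_lit 1) (nat_lit 505) (nat_lit 1) (nat_lit 504) (nat_lit 1) (nat_lit 413) (nat_lit 371) (nat_lit 356)) (XT.nd (nat_lit 78) (nat_lit 0) (nat_lit 0) (XT.lf (nat_lit 1900) (nat_lit 355962157) (nat_lit 0) (nat_lit 2198519596) (nat_lit 1824) (nat_lit 355962157) (nat_lit 530) (nat_lit 1) (nat_lit 505) (nat_lit 1) (nat_lit 529) (nat_lit 1) (nat_lit 414) (nat_lit 371) (nat_lit 355)) (XT.lf (nat_lit 1900) (nat_lit 546523848) (nat_lit 76) (nat_lit 1168370708) (nat_lit 0) (nat_lit 1168370708) (nat_lit 530) (nat_lit 1) (nat_lit 506) (nat_lit 1) (nat_lit 505) (nat_lit 1) (nat_lit 415) (nat_lit 371) (nat_lit 354)))))) (XT.nd (nat_lit 312) (nat_lit 988) (nat_lit 0) (XT.nd (nat_lit 156) (nat_lit 1824) (nat_lit 0) (XT.nd (nat_lit 78) (nat_lit 0) (nat_lit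 0) (XT.lf (nat_lit 1900) (nat_lit 190373581) (nat_lit 0) (nat_lit 2475801399) (nat_lit 1824) (nat_lit 190373581) (nat_lit 531) (nat_lit 1) (nat_lit 506) (nat_lit 1) (nat_lit 530) (nat_lit 1) (nat_lit 416) (nat_lit 371) (nat_lit 353)) (XT.lf (nat_lit 1900) (nat_lit 201932835) (nat_lit 76) (nat_lit 1314051753) (nat_lit 0) (nat_lit 1314051753) (nat_lit 531) (nat_lit 1) (nat_lit 507) (nat_lit 1) (nat_lit 506) (nat_lit 1) (nat_lit 417) (nat_lit 371) (nat_lit 352))) (XT.nd (nat_lit 78) (nat_lit 1900) (nat_lit 0) (XT.lf (nat_lit 1900) (nat_lit 12643683) (nat_lit 0) (nat_lit 2778730381) (nat_lit 1824) (nat_lit 12643683) (nat_lit 532) (nat_lit 1) (nat_lit 507) (nat_lit 1) (nat_lit 531) (nat_lit 1) (nat_lit 418) (nat_lit 371) (nat_lit 351)) (XT.lf (nat_lit 1976) (nat_lit 1307066564) (nat_lit 0) (nat_lit 163996162) (nat_lit 1900) (nat_lit 1307066564) (nat_lit 508) (nat_lit 1) (nat_lit 482) (nat_lit 1) (nat_lit 507) (nat_lit 1) (nat_lit 419) (nat_lit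 371) (nat_lit 350)))) (XT.nd (nat_lit 156) (nat_lit 988) (nat_lit 0) (XT.nd (nat_lit 78) (nat_lit 0) (nat_lit 76) (XT.lf (nat_lit 1976) (nat_lit 2402257919) (nat_lit 76) (nat_lit 175231457) (nat_lit 0) (nat_lit 175231457) (nat_lit 508) (nat_lit 1) (nat_lit 483) (nat_lit 1) (nat_lit 482) (nat_lit 1) (nat_lit 420) (nat_lit 371) (nat_lit 349)) (XT.lf (nat_lit 1976) (nat_lit 1089314066) (nat_lit 0) (nat_lit 548870508) (nat_lit 1900) (nat_lit 1089314066) (nat_lit 509) (nat_lit 1) (nat_lit 483) (nat_lit 1) (nat_lit 508) (nat_lit 1) (nat_lit 421) (nat_lit 371) (nat_lit 348))) (XT.nd (nat_lit 78) (nat_lit 1064) (nat_lit 0) (XT.lf (nat_lit 1976) (nat_lit 1955772255) (nat_lit 76) (nat_lit 373463972) (nat_lit 0) (nat_lit 373463972) (nat_lit 509) (nat_lit 1) (nat_lit 484) (nat_lit 1) (nat_lit 483) (nat_lit 1) (nat_lit 422) (nat_lit 371) (nat_lit 347)) (XT.nd (nat_lit 78) (nat_lit 1140) (nat_lit 0) (XT.lf (nat_lit 76) (nat_lit 862166982) (nat_lit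 0) (nat_lit 953800070) (nat_lit 1900) (nat_lit 862166982) (nat_lit 485) (nat_lit 1) (nat_lit 484) (nat_lit 1) (nat_lit 509) (nat_lit 1) (nat_lit 423) (nat_lit 371) (nat_lit 346)) (XT.lf (nat_lit 1216) (nat_lit 1491158681) (nat_lit 0) (nat_lit 581383921) (nat_lit 1140) (nat_lit 581383921) (nat_lit 485) (nat_lit 1) (nat_lit 469) (nat_lit 1) (nat_lit 484) (nat_lit 1) (nat_lit 424) (nat_lit 371) (nat_lit 345))))))) (XT.nd (nat_lit 702) (nat_lit 3952) (nat_lit 0) (XT.nd (nat_lit 312) (nat_lit 2660) (nat_lit 0) (XT.nd (nat_lit 156) (nat_lit 912) (nat_lit 0) (XT.nd (nat_lit 78) (nat_lit 912) (nat_lit 0) (XT.lf (nat_lit 76) (nat_lit 626340119) (nat_lit 0) (nat_lit 1377319798) (nat_lit 1216) (nat_lit 626340119) (nat_lit 470) (nat_lit 1) (nat_lit 469) (nat_lit 1) (nat_lit 485) (nat_lit 1) (nat_lit 425) (nat_lit 371) (nat_lit 344)) (XT.lf (nat_lit 988) (nat_lit 1009816529) (nat_lit 0) (nat_lit 798274247) (nat_lit 912) (nat_lit 798274247) (nat_lit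 470) (nat_lit 1) (nat_lit 457) (nat_lit 1) (nat_lit 469) (nat_lit 1) (nat_lit 426) (nat_lit 371) (nat_lit 343))) (XT.nd (nat_lit 78) (nat_lit 912) (nat_lit 0) (XT.lf (nat_lit 76) (nat_lit 382513663) (nat_lit 0) (nat_lit 1818034988) (nat_lit 988) (nat_lit 382513663) (nat_lit 458) (nat_lit 1) (nat_lit 457) (nat_lit 1) (nat_lit 470) (nat_lit 1) (nat_lit 427) (nat_lit 371) (nat_lit 342)) (XT.lf (nat_lit 988) (nat_lit 513077155) (nat_lit 0) (nat_lit 1023452420) (nat_lit 912) (nat_lit 1023452420) (nat_lit 458) (nat_lit 1) (nat_lit 445) (nat_lit 1) (nat_lit 457) (nat_lit 1) (nat_lit 428) (nat_lit 371) (nat_lit 341)))) (XT.nd (nat_lit 156) (nat_lit 1824) (nat_lit 0) (XT.nd (nat_lit 78) (nat_lit 836) (nat_lit 0) (XT.lf (nat_lit 76) (nat_lit 131334661) (nat_lit 0) (nat_lit 2274618286) (nat_lit 988) (nat_lit 131334661) (nat_lit 446) (nat_lit 1) (nat_lit 445) (nat_lit 1) (nat_lit 458) (nat_lit 1) (nat_lit 429) (nat_lit 371) (nat_lit 340)) (XT.lf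 (nat_lit 912) (nat_lit 2206852) (nat_lit 0) (nat_lit 1256268966) (nat_lit 836) (nat_lit 1256268966) (nat_lit 446) (nat_lit 1) (nat_lit 434) (nat_lit 1) (nat_lit 445) (nat_lit 1) (nat_lit 430) (nat_lit 371) (nat_lit 339))) (XT.nd (nat_lit 78) (nat_lit 836) (nat_lit 0) (XT.lf (nat_lit 988) (nat_lit 2241080144) (nat_lit 0) (nat_lit 125748789) (nat_lit 912) (nat_lit 125748789) (nat_lit 434) (nat_lit 1) (nat_lit 421) (nat_lit 1) (nat_lit 433) (nat_lit 1) (nat_lit 431) (nat_lit 371) (nat_lit 338)) (XT.nd (nat_lit 78) (nat_lit 836) (nat_lit 0) (XT.lf (nat_lit 76) (nat_lit 977902200) (nat_lit 0) (nat_lit 514749615) (nat_lit 988) (nat_lit 977902200) (nat_lit 422) (nat_lit 1) (nat_lit 421) (nat_lit 1) (nat_lit 434) (nat_lit 1) (nat_lit 432) (nat_lit 371) (nat_lit 337)) (XT.lf (nat_lit 912) (nat_lit 1672735789) (nat_lit 0) (nat_lit 388079978) (nat_lit 836) (nat_lit 388079978) (nat_lit 422) (nat_lit 1) (nat_lit 410) (nat_lit 1) (nat_lit 421) (nat_lit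 1) (nat_lit 433) (nat_lit 371) (nat_lit 336)))))) (XT.nd (nat_lit 312) (nat_lit 2356) (nat_lit 0) (XT.nd (nat_lit 156) (nat_lit 760) (nat_lit 0) (XT.nd (nat_lit 78) (nat_lit 836) (nat_lit 0) (XT.lf (nat_lit 76) (nat_lit 692069910) (nat_lit 0) (nat_lit 1043305114) (nat_lit 912) (nat_lit 692069910) (nat_lit 411) (nat_lit 1) (nat_lit 410) (nat_lit 1) (nat_lit 422) (nat_lit 1) (nat_lit 434) (nat_lit 371) (nat_lit 335)) (XT.lf (nat_lit 912) (nat_lit 1094338748) (nat_lit 0) (nat_lit 655970698) (nat_lit 836) (nat_lit 655970698) (nat_lit 411) (nat_lit 1) (nat_lit 399) (nat_lit 1) (nat_lit 410) (nat_lit 1) (nat_lit 435) (nat_lit 371) (nat_lit 334))) (XT.nd (nat_lit 78) (nat_lit 760) (nat_lit 0) (XT.lf (nat_lit 76) (nat_lit 401486386) (nat_lit 0) (nat_lit 1582415472) (nat_lit 912) (nat_lit 401486386) (nat_lit 400) (nat_lit 1) (nat_lit 399) (nat_lit 1) (nat_lit 411) (nat_lit 1) (nat_lit 436) (nat_lit 371) (nat_lit 333)) (XT.lf (nat_lit 836) (nat_lit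 506909228) (nat_lit 0) (nat_lit 928896317) (nat_lit 760) (nat_lit 928896317) (nat_lit 400) (nat_lit 1) (nat_lit 389) (nat_lit 1) (nat_lit 399) (nat_lit 1) (nat_lit 437) (nat_lit 371) (nat_lit 332)))) (XT.nd (nat_lit 156) (nat_lit 1520) (nat_lit 0) (XT.nd (nat_lit 78) (nat_lit 836) (nat_lit 0) (XT.lf (nat_lit 76) (nat_lit 106646918) (nat_lit 0) (nat_lit 2131061435) (nat_lit 836) (nat_lit 106646918) (nat_lit 390) (nat_lit 1) (nat_lit 389) (nat_lit 1) (nat_lit 400) (nat_lit 1) (nat_lit 438) (nat_lit 371) (nat_lit 331)) (XT.lf (nat_lit 76) (nat_lit 1118349247) (nat_lit 0) (nat_lit 87422729) (nat_lit 836) (nat_lit 1118349247) (nat_lit 379) (nat_lit 1) (nat_lit 378) (nat_lit 1) (nat_lit 389) (nat_lit 1) (nat_lit 439) (nat_lit 371) (nat_lit 330))) (XT.nd (nat_lit 78) (nat_lit 760) (nat_lit 0) (XT.lf (nat_lit 836) (nat_lit 1922787126) (nat_lit 0) (nat_lit 190715515) (nat_lit 760) (nat_lit 190715515) (nat_lit 379) (nat_lit 1) (nat_lit 368) (nat_lit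 1) (nat_lit 378) (nat_lit 1) (nat_lit 440) (nat_lit 371) (nat_lit 329)) (XT.nd (nat_lit 78) (nat_lit 760) (nat_lit 0) (XT.lf (nat_lit 76) (nat_lit 801148596) (nat_lit 0) (nat_lit 682158472) (nat_lit 836) (nat_lit 801148596) (nat_lit 369) (nat_lit 1) (nat_lit 368) (nat_lit 1) (nat_lit 379) (nat_lit 1) (nat_lit 441) (nat_lit 371) (nat_lit 328)) (XT.lf (nat_lit 836) (nat_lit 1283603490) (nat_lit 0) (nat_lit 490694592) (nat_lit 760) (nat_lit 490694592) (nat_lit 369) (nat_lit 1) (nat_lit 358) (nat_lit 1) (nat_lit 368) (nat_lit 1) (nat_lit 442) (nat_lit 371) (nat_lit 327))))))))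
noncomputable def ec19 : XT := (XT.nd (nat_lit 56628) (nat_lit 0) (nat_lit 8740) (XT.nd (nat_lit 55926) (nat_lit 0) (nat_lit 12768) (XT.nd (nat_lit 312) (nat_lit 684) (nat_lit 0) (XT.nd (nat_lit 156) (nat_lit 760) (nat_lit 0) (XT.nd (nat_lit 78) (nat_lit 684) (nat_lit 0) (XT.lf (nat_lit 76) (nat_lit 481328999) (nat_lit 0) (nat_lit 1283086633) (nat_lit 836) (nat_lit 481328999) (nat_lit 359) (nat_lit 1) (nat_lit 358) (nat_lit 1) (nat_lit 369) (nat_lit 1) (nat_lit 443) (nat_lit 371) (nat_lit 326)) (XT.lf (nat_lit 760) (nat_lit 639564197) (nat_lit 0) (nat_lit 793572144) (nat_lit 684) (nat_lit 793572144) (nat_lit 359) (nat_lit 1) (nat_lit 349) (nat_lit 1) (nat_lit 358) (nat_lit 1) (nat_lit 444) (nat_lit 371) (nat_lit 325))) (XT.nd (nat_lit 78) (nat_lit 760) (nat_lit 0) (XT.lf (nat_lit 76) (nat_lit 159285021) (nat_lit 0) (nat_lit 1889392503) (nat_lit 760) (nat_lit 159285021) (nat_lit 350) (nat_lit 1) (nat_lit 349) (nat_lit 1) (nat_lit 359)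 (nat_lit 1) (nat_lit 445) (nat_lit 371) (nat_lit 324)) (XT.lf (nat_lit 76) (nat_lit 1090445642) (nat_lit 0) (nat_lit 8448050) (nat_lit 760) (nat_lit 1090445642) (nat_lit 340) (nat_lit 1) (nat_lit 339) (nat_lit 1) (nat_lit 349) (nat_lit 1) (nat_lit 446) (nat_lit 371) (nat_lit 323)))) (XT.nd (nat_lit 55380) (nat_lit 0) (nat_lit 12692) (XT.nd (nat_lit 78) (nat_lit 0) (nat_lit 0) (XT.lf (nat_lit 760) (nat_lit 1843945054) (nat_lit 0) (nat_lit 163526877) (nat_lit 684) (nat_lit 163526877) (nat_lit 340) (nat_lit 1) (nat_lit 330) (nat_lit 1) (nat_lit 339) (nat_lit 1) (nat_lit 447) (nat_lit 371) (nat_lit 322)) (XT.lf (nat_lit 76) (nat_lit 750697028) (nat_lit 0) (nat_lit 651384402) (nat_lit 760) (nat_lit 750697028) (nat_lit 331) (nat_lit 1) (nat_lit 330) (nat_lit 1) (nat_lit 340) (nat_lit 1) (nat_lit 448) (nat_lit 371) (nat_lit 321))) (XT.nd (nat_lit 78) (nat_lit 0) (nat_lit 0) (XT.lf (nat_lit 1900) (nat_lit 575683764) (nat_lit 0) (nat_lit 580497819)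 (nat_lit 1900) (nat_lit 575683764) (nat_lit 522) (nat_lit 1) (nat_lit 497) (nat_lit 0) (nat_lit 522) (nat_lit 0) (nat_lit 396) (nat_lit 372) (nat_lit 372)) (XT.nd (nat_lit 78) (nat_lit 0) (nat_lit 76) (XT.lf (nat_lit 1900) (nat_lit 2276340157) (nat_lit 76) (nat_lit 576678754) (nat_lit 0) (nat_lit 576678754) (nat_lit 522) (nat_lit 1) (nat_lit 498) (nat_lit 1) (nat_lit 497) (nat_lit 0) (nat_lit 397) (nat_lit 372) (nat_lit 371)) (XT.lf (nat_lit 1900) (nat_lit 1117693853) (nat_lit 0) (nat_lit 1160648657) (nat_lit 1824) (nat_lit 1117693853) (nat_lit 523) (nat_lit 1) (nat_lit 498) (nat_lit 1) (nat_lit 522) (nat_lit 1) (nat_lit 398) (nat_lit 372) (nat_lit 370)))))) (XT.nd (nat_lit 312) (nat_lit 0) (nat_lit 152) (XT.nd (nat_lit 156) (nat_lit 0) (nat_lit 76) (XT.nd (nat_lit 78) (nat_lit 0) (nat_lit 76) (XT.lf (nat_lit 1900) (nat_lit 2187602397) (nat_lit 76) (nat_lit 587641482) (nat_lit 0) (nat_lit 587641482) (nat_lit 523) (nat_lit 1) (nat_lit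 499) (nat_lit 1) (nat_lit 498) (nat_lit 1) (nat_lit 399) (nat_lit 372) (nat_lit 369)) (XT.lf (nat_lit 1900) (nat_lit 1063133310) (nat_lit 0) (nat_lit 1203833693) (nat_lit 1824) (nat_lit 1063133310) (nat_lit 524) (nat_lit 1) (nat_lit 499) (nat_lit 1) (nat_lit 523) (nat_lit 1) (nat_lit 400) (nat_lit 372) (nat_lit 368))) (XT.nd (nat_lit 78) (nat_lit 0) (nat_lit 76) (XT.lf (nat_lit 1900) (nat_lit 2058213550) (nat_lit 76) (nat_lit 619794633) (nat_lit 0) (nat_lit 619794633) (nat_lit 524) (nat_lit 1) (nat_lit 500) (nat_lit 1) (nat_lit 499) (nat_lit 1) (nat_lit 401) (nat_lit 372) (nat_lit 367)) (XT.lf (nat_lit 1900) (nat_lit 988932149) (nat_lit 0) (nat_lit 1288007039) (nat_lit 1824) (nat_lit 988932149) (nat_lit 525) (nat_lit 1) (nat_lit 500) (nat_lit 1) (nat_lit 524) (nat_lit 1) (nat_lit 402) (nat_lit 372) (nat_lit 366)))) (XT.nd (nat_lit 156) (nat_lit 0) (nat_lit 76) (XT.nd (nat_lit 78) (nat_lit 0) (nat_lit 76) (XT.lf (nat_lit 1900) (nat_lit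 1890616793) (nat_lit 76) (nat_lit 671891510) (nat_lit 0) (nat_lit 671891510) (nat_lit 525) (nat_lit 1) (nat_lit 501) (nat_lit 1) (nat_lit 500) (nat_lit 1) (nat_lit 403) (nat_lit 372) (nat_lit 365)) (XT.lf (nat_lit 1900) (nat_lit 896279691) (nat_lit 0) (nat_lit 1410740496) (nat_lit 1824) (nat_lit 896279691) (nat_lit 526) (nat_lit 1) (nat_lit 501) (nat_lit 1) (nat_lit 525) (nat_lit 1) (nat_lit 404) (nat_lit 372) (nat_lit 364))) (XT.nd (nat_lit 78) (nat_lit 0) (nat_lit 76) (XT.lf (nat_lit 1900) (nat_lit 1687143477) (nat_lit 76) (nat_lit 742742141) (nat_lit 0) (nat_lit 742742141) (nat_lit 526) (nat_lit 1) (nat_lit 502) (nat_lit 1) (nat_lit 501) (nat_lit 1) (nat_lit 405) (nat_lit 372) (nat_lit 363)) (XT.nd (nat_lit 78) (nat_lit 0) (nat_lit 0) (XT.lf (nat_lit 1900) (nat_lit 786310707) (nat_lit 0) (nat_lit 1569716558) (nat_lit 1824) (nat_lit 786310707) (nat_lit 527) (nat_lit 1) (nat_lit 502) (nat_lit 1) (nat_lit 526) (nat_lit 1) (nat_lit 406)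 (nat_lit 372) (nat_lit 362)) (XT.lf (nat_lit 1900) (nat_lit 1450017801) (nat_lit 76) (nat_lit 831210906) (nat_lit 0) (nat_lit 831210906) (nat_lit 527) (nat_lit 1) (nat_lit 503) (nat_lit 1) (nat_lit 502) (nat_lit 1) (nat_lit 407) (nat_lit 372) (nat_lit 361))))))) (XT.nd (nat_lit 702) (nat_lit 4408) (nat_lit 0) (XT.nd (nat_lit 312) (nat_lit 0) (nat_lit 152) (XT.nd (nat_lit 156) (nat_lit 0) (nat_lit 76) (XT.nd (nat_lit 78) (nat_lit 0) (nat_lit 0) (XT.lf (nat_lit 1900) (nat_lit 660107706) (nat_lit 0) (nat_lit 1762723793) (nat_lit 1824) (nat_lit 660107706) (nat_lit 528) (nat_lit 1) (nat_lit 503) (nat_lit 1) (nat_lit 527) (nat_lit 1) (nat_lit 408) (nat_lit 372) (nat_lit 360)) (XT.lf (nat_lit 1900) (nat_lit 1181361303) (nat_lit 76) (nat_lit 936214273) (nat_lit 0) (nat_lit 936214273) (nat_lit 528) (nat_lit 1) (nat_lit 504) (nat_lit 1) (nat_lit 503) (nat_lit 1) (nat_lit 409) (nat_lit 372) (nat_lit 359))) (XT.nd (nat_lit 78) (nat_lit 0) (nat_lit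 0) (XT.lf (nat_lit 1900) (nat_lit 518703118) (nat_lit 0) (nat_lit 1987652406) (nat_lit 1824) (nat_lit 518703118) (nat_lit 529) (nat_lit 1) (nat_lit 504) (nat_lit 1) (nat_lit 528) (nat_lit 1) (nat_lit 410) (nat_lit 372) (nat_lit 358)) (XT.lf (nat_lit 1900) (nat_lit 883197160) (nat_lit 76) (nat_lit 1056718615) (nat_lit 0) (nat_lit 1056718615) (nat_lit 529) (nat_lit 1) (nat_lit 505) (nat_lit 1) (nat_lit 504) (nat_lit 1) (nat_lit 411) (nat_lit 372) (nat_lit 357)))) (XT.nd (nat_lit 156) (nat_lit 0) (nat_lit 76) (XT.nd (nat_lit 78) (nat_lit 0) (nat_lit 0) (XT.lf (nat_lit 1900) (nat_lit 363081400) (nat_lit 0) (nat_lit 2242489988) (nat_lit 1824) (nat_lit 363081400) (nat_lit 530) (nat_lit 1) (nat_lit 505) (nat_lit 1) (nat_lit 529) (nat_lit 1) (nat_lit 412) (nat_lit 372) (nat_lit 356)) (XT.lf (nat_lit 1900) (nat_lit 557454325) (nat_lit 76) (nat_lit 1191738122) (nat_lit 0) (nat_lit 1191738122) (nat_lit 530) (nat_lit 1) (nat_lit 506) (nat_lit 1)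 (nat_lit 505) (nat_lit 1) (nat_lit 413) (nat_lit 372) (nat_lit 355))) (XT.nd (nat_lit 78) (nat_lit 0) (nat_lit 0) (XT.lf (nat_lit 1900) (nat_lit 194181053) (nat_lit 0) (nat_lit 2525317427) (nat_lit 1824) (nat_lit 194181053) (nat_lit 531) (nat_lit 1) (nat_lit 506) (nat_lit 1) (nat_lit 530) (nat_lit 1) (nat_lit 414) (nat_lit 372) (nat_lit 354)) (XT.nd (nat_lit 78) (nat_lit 0) (nat_lit 76) (XT.lf (nat_lit 1900) (nat_lit 205971492) (nat_lit 76) (nat_lit 1340332788) (nat_lit 0) (nat_lit 1340332788) (nat_lit 531) (nat_lit 1) (nat_lit 507) (nat_lit 1) (nat_lit 506) (nat_lit 1) (nat_lit 415) (nat_lit 372) (nat_lit 353)) (XT.lf (nat_lit 1900) (nat_lit 12896557) (nat_lit 0) (nat_lit 2834304988) (nat_lit 1824) (nat_lit 12896557) (nat_lit 532) (nat_lit 1) (nat_lit 507) (nat_lit 1) (nat_lit 531) (nat_lit 1) (nat_lit 416) (nat_lit 372) (nat_lit 352)))))) (XT.nd (nat_lit 390) (nat_lit 2812) (nat_lit 0) (XT.nd (nat_lit 156) (nat_lit 0) (nat_lit 76) (XT.nd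 (nat_lit 78) (nat_lit 0) (nat_lit 0) (XT.lf (nat_lit 1976) (nat_lit 1333207895) (nat_lit 0) (nat_lit 167276085) (nat_lit 1900) (nat_lit 1333207895) (nat_lit 508) (nat_lit 1) (nat_lit 482) (nat_lit 1) (nat_lit 507) (nat_lit 1) (nat_lit 417) (nat_lit 372) (nat_lit 351)) (XT.lf (nat_lit 1976) (nat_lit 2450303077) (nat_lit 76) (nat_lit 178736086) (nat_lit 0) (nat_lit 178736086) (nat_lit 508) (nat_lit 1) (nat_lit 483) (nat_lit 1) (nat_lit 482) (nat_lit 1) (nat_lit 418) (nat_lit 372) (nat_lit 350))) (XT.nd (nat_lit 78) (nat_lit 0) (nat_lit 0) (XT.lf (nat_lit 1976) (nat_lit 1111100348) (nat_lit 0) (nat_lit 559847919) (nat_lit 1900) (nat_lit 1111100348) (nat_lit 509) (nat_lit 1) (nat_lit 483) (nat_lit 1) (nat_lit 508) (nat_lit 1) (nat_lit 419) (nat_lit 372) (nat_lit 349)) (XT.nd (nat_lit 78) (nat_lit 0) (nat_lit 76) (XT.lf (nat_lit 1976) (nat_lit 1994887700) (nat_lit 76) (nat_lit 380933251) (nat_lit 0) (nat_lit 380933251) (nat_lit 509) (nat_lit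 1) (nat_lit 484) (nat_lit 1) (nat_lit 483) (nat_lit 1) (nat_lit 420) (nat_lit 372) (nat_lit 348)) (XT.lf (nat_lit 76) (nat_lit 879410322) (nat_lit 0) (nat_lit 972876072) (nat_lit 1900) (nat_lit 879410322) (nat_lit 485) (nat_lit 1) (nat_lit 484) (nat_lit 1) (nat_lit 509) (nat_lit 1) (nat_lit 421) (nat_lit 372) (nat_lit 347))))) (XT.nd (nat_lit 156) (nat_lit 1824) (nat_lit 0) (XT.nd (nat_lit 78) (nat_lit 0) (nat_lit 0) (XT.lf (nat_lit 1216) (nat_lit 1520981855) (nat_lit 0) (nat_lit 593011599) (nat_lit 1140) (nat_lit 593011599) (nat_lit 485) (nat_lit 1) (nat_lit 469) (nat_lit 1) (nat_lit 484) (nat_lit 1) (nat_lit 422) (nat_lit 372) (nat_lit 346)) (XT.lf (nat_lit 76) (nat_lit 638866921) (nat_lit 0) (nat_lit 1404866194) (nat_lit 1216) (nat_lit 638866921) (nat_lit 470) (nat_lit 1) (nat_lit 469) (nat_lit 1) (nat_lit 485) (nat_lit 1) (nat_lit 423) (nat_lit 372) (nat_lit 345))) (XT.nd (nat_lit 78) (nat_lit 912) (nat_lit 0) (XT.lf (nat_lit 988)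 (nat_lit 1030012859) (nat_lit 0) (nat_lit 814239732) (nat_lit 912) (nat_lit 814239732) (nat_lit 470) (nat_lit 1) (nat_lit 457) (nat_lit 1) (nat_lit 469) (nat_lit 1) (nat_lit 424) (nat_lit 372) (nat_lit 344)) (XT.nd (nat_lit 78) (nat_lit 912) (nat_lit 0) (XT.lf (nat_lit 76) (nat_lit 390163936) (nat_lit 0) (nat_lit 1854395687) (nat_lit 988) (nat_lit 390163936) (nat_lit 458) (nat_lit 1) (nat_lit 457) (nat_lit 1) (nat_lit 470) (nat_lit 1) (nat_lit 425) (nat_lit 372) (nat_lit 343)) (XT.lf (nat_lit 988) (nat_lit 523338698) (nat_lit 0) (nat_lit 1043921468) (nat_lit 912) (nat_lit 1043921468) (nat_lit 458) (nat_lit 1) (nat_lit 445) (nat_lit 1) (nat_lit 457) (nat_lit 1) (nat_lit 426) (nat_lit 372) (nat_lit 342))))))))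
noncomputable def ec20 : XT := (XT.nd (nat_lit 1404) (nat_lit 1368) (nat_lit 0) (XT.nd (nat_lit 702) (nat_lit 3800) (nat_lit 0) (XT.nd (nat_lit 312) (nat_lit 2432) (nat_lit 0) (XT.nd (nat_lit 156) (nat_lit 988) (nat_lit 0) (XT.nd (nat_lit 78) (nat_lit 836) (nat_lit 0) (XT.lf (nat_lit 76) (nat_lit 133961354) (nat_lit 0) (nat_lit 2320110651) (nat_lit 988) (nat_lit 133961354) (nat_lit 446) (nat_lit 1) (nat_lit 445) (nat_lit 1) (nat_lit 458) (nat_lit 1) (nat_lit 427) (nat_lit 372) (nat_lit 341)) (XT.lf (nat_lit 912) (nat_lit 2250989) (nat_lit 0) (nat_lit 1281394345) (nat_lit 836) (nat_lit 1281394345) (nat_lit 446) (nat_lit 1) (nat_lit 434) (nat_lit 1) (nat_lit 445) (nat_lit 1) (nat_lit 428) (nat_lit 372) (nat_lit 340))) (XT.nd (nat_lit 78) (nat_lit 0) (nat_lit 0) (XT.lf (nat_lit 988) (nat_lit 2285901747) (nat_lit 0) (nat_lit 128263764) (nat_lit 912) (nat_lit 128263764) (nat_lit 434) (nat_lit 1) (nat_lit 421) (nat_lit 1) (nat_lit 433) (nat_lit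 1) (nat_lit 429) (nat_lit 372) (nat_lit 339)) (XT.lf (nat_lit 76) (nat_lit 997460244) (nat_lit 0) (nat_lit 525044607) (nat_lit 988) (nat_lit 997460244) (nat_lit 422) (nat_lit 1) (nat_lit 421) (nat_lit 1) (nat_lit 434) (nat_lit 1) (nat_lit 430) (nat_lit 372) (nat_lit 338)))) (XT.nd (nat_lit 156) (nat_lit 1596) (nat_lit 0) (XT.nd (nat_lit 78) (nat_lit 0) (nat_lit 0) (XT.lf (nat_lit 912) (nat_lit 1706190504) (nat_lit 0) (nat_lit 395841577) (nat_lit 836) (nat_lit 395841577) (nat_lit 422) (nat_lit 1) (nat_lit 410) (nat_lit 1) (nat_lit 421) (nat_lit 1) (nat_lit 431) (nat_lit 372) (nat_lit 337)) (XT.lf (nat_lit 76) (nat_lit 705911308) (nat_lit 0) (nat_lit 1064171216) (nat_lit 912) (nat_lit 705911308) (nat_lit 411) (nat_lit 1) (nat_lit 410) (nat_lit 1) (nat_lit 422) (nat_lit 1) (nat_lit 432) (nat_lit 372) (nat_lit 336))) (XT.nd (nat_lit 78) (nat_lit 760) (nat_lit 0) (XT.lf (nat_lit 912) (nat_lit 1116225523) (nat_lit 0) (nat_lit 669090111) (nat_lit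 836) (nat_lit 669090111) (nat_lit 411) (nat_lit 1) (nat_lit 399) (nat_lit 1) (nat_lit 410) (nat_lit 1) (nat_lit 433) (nat_lit 372) (nat_lit 335)) (XT.nd (nat_lit 78) (nat_lit 760) (nat_lit 0) (XT.lf (nat_lit 76) (nat_lit 409516114) (nat_lit 0) (nat_lit 1614063782) (nat_lit 912) (nat_lit 409516114) (nat_lit 400) (nat_lit 1) (nat_lit 399) (nat_lit 1) (nat_lit 411) (nat_lit 1) (nat_lit 434) (nat_lit 372) (nat_lit 334)) (XT.lf (nat_lit 836) (nat_lit 517047413) (nat_lit 0) (nat_lit 947474243) (nat_lit 760) (nat_lit 947474243) (nat_lit 400) (nat_lit 1) (nat_lit 389) (nat_lit 1) (nat_lit 399) (nat_lit 1) (nat_lit 435) (nat_lit 372) (nat_lit 333)))))) (XT.nd (nat_lit 312) (nat_lit 2204) (nat_lit 0) (XT.nd (nat_lit 156) (nat_lit 760) (nat_lit 0) (XT.nd (nat_lit 78) (nat_lit 836) (nat_lit 0) (XT.lf (nat_lit 76) (nat_lit 108779856) (nat_lit 0) (nat_lit 2173682663) (nat_lit 836) (nat_lit 108779856) (nat_lit 390) (nat_lit 1) (nat_lit 389) (nat_lit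 1) (nat_lit 400) (nat_lit 1) (nat_lit 436) (nat_lit 372) (nat_lit 332)) (XT.lf (nat_lit 76) (nat_lit 1140716232) (nat_lit 0) (nat_lit 89171184) (nat_lit 836) (nat_lit 1140716232) (nat_lit 379) (nat_lit 1) (nat_lit 378) (nat_lit 1) (nat_lit 389) (nat_lit 1) (nat_lit 437) (nat_lit 372) (nat_lit 331))) (XT.nd (nat_lit 78) (nat_lit 0) (nat_lit 0) (XT.lf (nat_lit 836) (nat_lit 1961242868) (nat_lit 0) (nat_lit 194529825) (nat_lit 760) (nat_lit 194529825) (nat_lit 379) (nat_lit 1) (nat_lit 368) (nat_lit 1) (nat_lit 378) (nat_lit 1) (nat_lit 438) (nat_lit 372) (nat_lit 330)) (XT.lf (nat_lit 76) (nat_lit 817171568) (nat_lit 0) (nat_lit 695801642) (nat_lit 836) (nat_lit 817171568) (nat_lit 369) (nat_lit 1) (nat_lit 368) (nat_lit 1) (nat_lit 379) (nat_lit 1) (nat_lit 439) (nat_lit 372) (nat_lit 329)))) (XT.nd (nat_lit 156) (nat_lit 1444) (nat_lit 0) (XT.nd (nat_lit 78) (nat_lit 0) (nat_lit 0) (XT.lf (nat_lit 836) (nat_lit 1309275560) (nat_lit 0)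 (nat_lit 500508484) (nat_lit 760) (nat_lit 500508484) (nat_lit 369) (nat_lit 1) (nat_lit 358) (nat_lit 1) (nat_lit 368) (nat_lit 1) (nat_lit 440) (nat_lit 372) (nat_lit 328)) (XT.lf (nat_lit 76) (nat_lit 490955579) (nat_lit 0) (nat_lit 1308748366) (nat_lit 836) (nat_lit 490955579) (nat_lit 359) (nat_lit 1) (nat_lit 358) (nat_lit 1) (nat_lit 369) (nat_lit 1) (nat_lit 441) (nat_lit 372) (nat_lit 327))) (XT.nd (nat_lit 78) (nat_lit 760) (nat_lit 0) (XT.lf (nat_lit 760) (nat_lit 652355481) (nat_lit 0) (nat_lit 809443587) (nat_lit 684) (nat_lit 809443587) (nat_lit 359) (nat_lit 1) (nat_lit 349) (nat_lit 1) (nat_lit 358) (nat_lit 1) (nat_lit 442) (nat_lit 372) (nat_lit 326)) (XT.nd (nat_lit 78) (nat_lit 760) (nat_lit 0) (XT.lf (nat_lit 76) (nat_lit 162470722) (nat_lit 0) (nat_lit 1927180354) (nat_lit 760) (nat_lit 162470722) (nat_lit 350) (nat_lit 1) (nat_lit 349) (nat_lit 1) (nat_lit 359) (nat_lit 1) (nat_lit 443) (nat_lit 372) (nat_lit 325))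 (XT.lf (nat_lit 76) (nat_lit 1112254555) (nat_lit 0) (nat_lit 8617011) (nat_lit 760) (nat_lit 1112254555) (nat_lit 340) (nat_lit 1) (nat_lit 339) (nat_lit 1) (nat_lit 349) (nat_lit 1) (nat_lit 444) (nat_lit 372) (nat_lit 324))))))) (XT.nd (nat_lit 55770) (nat_lit 0) (nat_lit 13528) (XT.nd (nat_lit 55380) (nat_lit 0) (nat_lit 13376) (XT.nd (nat_lit 156) (nat_lit 684) (nat_lit 0) (XT.nd (nat_lit 78) (nat_lit 0) (nat_lit 0) (XT.lf (nat_lit 760) (nat_lit 1880823955) (nat_lit 0) (nat_lit 166797414) (nat_lit 684) (nat_lit 166797414) (nat_lit 340) (nat_lit 1) (nat_lit 330) (nat_lit 1) (nat_lit 339) (nat_lit 1) (nat_lit 445) (nat_lit 372) (nat_lit 323)) (XT.lf (nat_lit 76) (nat_lit 765710969) (nat_lit 0) (nat_lit 664412090) (nat_lit 760) (nat_lit 765710969) (nat_lit 331) (nat_lit 1) (nat_lit 330) (nat_lit 1) (nat_lit 340) (nat_lit 1) (nat_lit 446) (nat_lit 372) (nat_lit 322))) (XT.nd (nat_lit 78) (nat_lit 0) (nat_lit 0) (XT.lf (nat_lit 760) (nat_lit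 1184499808) (nat_lit 0) (nat_lit 496514081) (nat_lit 684) (nat_lit 496514081) (nat_lit 331) (nat_lit 1) (nat_lit 321) (nat_lit 1) (nat_lit 330) (nat_lit 1) (nat_lit 447) (nat_lit 372) (nat_lit 321)) (XT.lf (nat_lit 76) (nat_lit 418267851) (nat_lit 0) (nat_lit 1322891339) (nat_lit 760) (nat_lit 418267851) (nat_lit 322) (nat_lit 1) (nat_lit 321) (nat_lit 1) (nat_lit 331) (nat_lit 1) (nat_lit 448) (nat_lit 372) (nat_lit 320)))) (XT.nd (nat_lit 156) (nat_lit 0) (nat_lit 76) (XT.nd (nat_lit 78) (nat_lit 0) (nat_lit 0) (XT.lf (nat_lit 1900) (nat_lit 587197439) (nat_lit 0) (nat_lit 592107775) (nat_lit 1900) (nat_lit 587197439) (nat_lit 522) (nat_lit 1) (nat_lit 497) (nat_lit 0) (nat_lit 522) (nat_lit 0) (nat_lit 394) (nat_lit 373) (nat_lit 373)) (XT.lf (nat_lit 1900) (nat_lit 2321866961) (nat_lit 76) (nat_lit 588212329) (nat_lit 0) (nat_lit 588212329) (nat_lit 522) (nat_lit 1) (nat_lit 498) (nat_lit 1) (nat_lit 497) (nat_lit 0) (nat_lit 395)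 (nat_lit 373) (nat_lit 372))) (XT.nd (nat_lit 78) (nat_lit 0) (nat_lit 0) (XT.lf (nat_lit 1900) (nat_lit 1140047730) (nat_lit 0) (nat_lit 1183861630) (nat_lit 1824) (nat_lit 1140047730) (nat_lit 523) (nat_lit 1) (nat_lit 498) (nat_lit 1) (nat_lit 522) (nat_lit 1) (nat_lit 396) (nat_lit 373) (nat_lit 371)) (XT.nd (nat_lit 78) (nat_lit 0) (nat_lit 76) (XT.lf (nat_lit 1900) (nat_lit 2231354445) (nat_lit 76) (nat_lit 599394312) (nat_lit 0) (nat_lit 599394312) (nat_lit 523) (nat_lit 1) (nat_lit 499) (nat_lit 1) (nat_lit 498) (nat_lit 1) (nat_lit 397) (nat_lit 373) (nat_lit 370)) (XT.lf (nat_lit 1900) (nat_lit 1084395977) (nat_lit 0) (nat_lit 1227910366) (nat_lit 1824) (nat_lit 1084395977) (nat_lit 524) (nat_lit 1) (nat_lit 499) (nat_lit 1) (nat_lit 523) (nat_lit 1) (nat_lit 398) (nat_lit 373) (nat_lit 369)))))) (XT.nd (nat_lit 312) (nat_lit 0) (nat_lit 152) (XT.nd (nat_lit 156) (nat_lit 0) (nat_lit 76) (XT.nd (nat_lit 78) (nat_lit 0) (nat_lit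 76) (XT.lf (nat_lit 1900) (nat_lit 2099377821) (nat_lit 76) (nat_lit 632190526) (nat_lit 0) (nat_lit 632190526) (nat_lit 524) (nat_lit 1) (nat_lit 500) (nat_lit 1) (nat_lit 499) (nat_lit 1) (nat_lit 399) (nat_lit 373) (nat_lit 368)) (XT.lf (nat_lit 1900) (nat_lit 1008710792) (nat_lit 0) (nat_lit 1313767179) (nat_lit 1824) (nat_lit 1008710792) (nat_lit 525) (nat_lit 1) (nat_lit 500) (nat_lit 1) (nat_lit 524) (nat_lit 1) (nat_lit 400) (nat_lit 373) (nat_lit 367))) (XT.nd (nat_lit 78) (nat_lit 0) (nat_lit 76) (XT.lf (nat_lit 1900) (nat_lit 1928429129) (nat_lit 76) (nat_lit 685329341) (nat_lit 0) (nat_lit 685329341) (nat_lit 525) (nat_lit 1) (nat_lit 501) (nat_lit 1) (nat_lit 500) (nat_lit 1) (nat_lit 401) (nat_lit 373) (nat_lit 366)) (XT.lf (nat_lit 1900) (nat_lit 914205284) (nat_lit 0) (nat_lit 1438955306) (nat_lit 1824) (nat_lit 914205284) (nat_lit 526) (nat_lit 1) (nat_lit 501) (nat_lit 1) (nat_lit 525) (nat_lit 1) (nat_lit 402) (nat_lit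 373) (nat_lit 365)))) (XT.nd (nat_lit 156) (nat_lit 0) (nat_lit 76) (XT.nd (nat_lit 78) (nat_lit 0) (nat_lit 76) (XT.lf (nat_lit 1900) (nat_lit 1720886346) (nat_lit 76) (nat_lit 757596983) (nat_lit 0) (nat_lit 757596983) (nat_lit 526) (nat_lit 1) (nat_lit 502) (nat_lit 1) (nat_lit 501) (nat_lit 1) (nat_lit 403) (nat_lit 373) (nat_lit 364)) (XT.lf (nat_lit 1900) (nat_lit 802036921) (nat_lit 0) (nat_lit 1601110889) (nat_lit 1824) (nat_lit 802036921) (nat_lit 527) (nat_lit 1) (nat_lit 502) (nat_lit 1) (nat_lit 526) (nat_lit 1) (nat_lit 404) (nat_lit 373) (nat_lit 363))) (XT.nd (nat_lit 78) (nat_lit 0) (nat_lit 76) (XT.lf (nat_lit 1900) (nat_lit 1479018157) (nat_lit 76) (nat_lit 847835124) (nat_lit 0) (nat_lit 847835124) (nat_lit 527) (nat_lit 1) (nat_lit 503) (nat_lit 1) (nat_lit 502) (nat_lit 1) (nat_lit 405) (nat_lit 373) (nat_lit 362)) (XT.nd (nat_lit 78) (nat_lit 0) (nat_lit 0) (XT.lf (nat_lit 1900) (nat_lit 673309861) (nat_lit 0) (nat_lit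 1797978268) (nat_lit 1824) (nat_lit 673309861) (nat_lit 528) (nat_lit 1) (nat_lit 503) (nat_lit 1) (nat_lit 527) (nat_lit 1) (nat_lit 406) (nat_lit 373) (nat_lit 361)) (XT.lf (nat_lit 1900) (nat_lit 1204988529) (nat_lit 76) (nat_lit 954938558) (nat_lit 0) (nat_lit 954938558) (nat_lit 528) (nat_lit 1) (nat_lit 504) (nat_lit 1) (nat_lit 503) (nat_lit 1) (nat_lit 407) (nat_lit 373) (nat_lit 360))))))))
noncomputable def ec21 : XT := (XT.nd (nat_lit 1404) (nat_lit 8740) (nat_lit 0) (XT.nd (nat_lit 702) (nat_lit 2812) (nat_lit 0) (XT.nd (nat_lit 312) (nat_lit 1672) (nat_lit 0) (XT.nd (nat_lit 156) (nat_lit 0) (nat_lit 76) (XT.nd (nat_lit 78) (nat_lit 0) (nat_lit 0) (XT.lf (nat_lit 1900) (nat_lit 529077181) (nat_lit 0) (nat_lit 2027405454) (nat_lit 1824) (nat_lit 529077181) (nat_lit 529) (nat_lit 1) (nat_lit 504) (nat_lit 1) (nat_lit 528) (nat_lit 1) (nat_lit 408) (nat_lit 373) (nat_lit 359)) (XT.lf (nat_lit 1900) (nat_lit 900861103) (nat_lit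 76) (nat_lit 1077852987) (nat_lit 0) (nat_lit 1077852987) (nat_lit 529) (nat_lit 1) (nat_lit 505) (nat_lit 1) (nat_lit 504) (nat_lit 1) (nat_lit 409) (nat_lit 373) (nat_lit 358))) (XT.nd (nat_lit 78) (nat_lit 0) (nat_lit 0) (XT.lf (nat_lit 1900) (nat_lit 370343028) (nat_lit 0) (nat_lit 2287339788) (nat_lit 1824) (nat_lit 370343028) (nat_lit 530) (nat_lit 1) (nat_lit 505) (nat_lit 1) (nat_lit 529) (nat_lit 1) (nat_lit 410) (nat_lit 373) (nat_lit 357)) (XT.lf (nat_lit 1900) (nat_lit 568603411) (nat_lit 76) (nat_lit 1215572884) (nat_lit 0) (nat_lit 1215572884) (nat_lit 530) (nat_lit 1) (nat_lit 506) (nat_lit 1) (nat_lit 505) (nat_lit 1) (nat_lit 411) (nat_lit 373) (nat_lit 356)))) (XT.nd (nat_lit 156) (nat_lit 1824) (nat_lit 0) (XT.nd (nat_lit 78) (nat_lit 0) (nat_lit 0) (XT.lf (nat_lit 1900) (nat_lit 198064674) (nat_lit 0) (nat_lit 2575823775) (nat_lit 1824) (nat_lit 198064674) (nat_lit 531) (nat_lit 1) (nat_lit 506) (nat_lit 1) (nat_lit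 530) (nat_lit 1) (nat_lit 412) (nat_lit 373) (nat_lit 355)) (XT.lf (nat_lit 1900) (nat_lit 210090922) (nat_lit 76) (nat_lit 1367139444) (nat_lit 0) (nat_lit 1367139444) (nat_lit 531) (nat_lit 1) (nat_lit 507) (nat_lit 1) (nat_lit 506) (nat_lit 1) (nat_lit 413) (nat_lit 373) (nat_lit 354))) (XT.nd (nat_lit 78) (nat_lit 1900) (nat_lit 0) (XT.lf (nat_lit 1900) (nat_lit 13154488) (nat_lit 0) (nat_lit 2890991088) (nat_lit 1824) (nat_lit 13154488) (nat_lit 532) (nat_lit 1) (nat_lit 507) (nat_lit 1) (nat_lit 531) (nat_lit 1) (nat_lit 414) (nat_lit 373) (nat_lit 353)) (XT.nd (nat_lit 78) (nat_lit 0) (nat_lit 0) (XT.lf (nat_lit 1976) (nat_lit 1359872053) (nat_lit 0) (nat_lit 170621607) (nat_lit 1900) (nat_lit 1359872053) (nat_lit 508) (nat_lit 1) (nat_lit 482) (nat_lit 1) (nat_lit 507) (nat_lit 1) (nat_lit 415) (nat_lit 373) (nat_lit 352)) (XT.lf (nat_lit 1976) (nat_lit 2499309139) (nat_lit 76) (nat_lit 182310808) (nat_lit 0) (nat_lit 182310808)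 (nat_lit 508) (nat_lit 1) (nat_lit 483) (nat_lit 1) (nat_lit 482) (nat_lit 1) (nat_lit 416) (nat_lit 373) (nat_lit 351)))))) (XT.nd (nat_lit 312) (nat_lit 1824) (nat_lit 0) (XT.nd (nat_lit 156) (nat_lit 1064) (nat_lit 0) (XT.nd (nat_lit 78) (nat_lit 0) (nat_lit 0) (XT.lf (nat_lit 1976) (nat_lit 1133322355) (nat_lit 0) (nat_lit 571044877) (nat_lit 1900) (nat_lit 1133322355) (nat_lit 509) (nat_lit 1) (nat_lit 483) (nat_lit 1) (nat_lit 508) (nat_lit 1) (nat_lit 417) (nat_lit 373) (nat_lit 350)) (XT.lf (nat_lit 1976) (nat_lit 2034785454) (nat_lit 76) (nat_lit 388551916) (nat_lit 0) (nat_lit 388551916) (nat_lit 509) (nat_lit 1) (nat_lit 484) (nat_lit 1) (nat_lit 483) (nat_lit 1) (nat_lit 418) (nat_lit 373) (nat_lit 349))) (XT.nd (nat_lit 78) (nat_lit 1140) (nat_lit 0) (XT.lf (nat_lit 76) (nat_lit 896998528) (nat_lit 0) (nat_lit 992333593) (nat_lit 1900) (nat_lit 896998528) (nat_lit 485) (nat_lit 1) (nat_lit 484) (nat_lit 1) (nat_lit 509) (nat_lit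 1) (nat_lit 419) (nat_lit 373) (nat_lit 348)) (XT.lf (nat_lit 1216) (nat_lit 1551401492) (nat_lit 0) (nat_lit 604871831) (nat_lit 1140) (nat_lit 604871831) (nat_lit 485) (nat_lit 1) (nat_lit 469) (nat_lit 1) (nat_lit 484) (nat_lit 1) (nat_lit 420) (nat_lit 373) (nat_lit 347)))) (XT.nd (nat_lit 156) (nat_lit 912) (nat_lit 0) (XT.nd (nat_lit 78) (nat_lit 912) (nat_lit 0) (XT.lf (nat_lit 76) (nat_lit 651644260) (nat_lit 0) (nat_lit 1432963518) (nat_lit 1216) (nat_lit 651644260) (nat_lit 470) (nat_lit 1) (nat_lit 469) (nat_lit 1) (nat_lit 485) (nat_lit 1) (nat_lit 421) (nat_lit 373) (nat_lit 346)) (XT.lf (nat_lit 988) (nat_lit 1050613116) (nat_lit 0) (nat_lit 830524527) (nat_lit 912) (nat_lit 830524527) (nat_lit 470) (nat_lit 1) (nat_lit 457) (nat_lit 1) (nat_lit 469) (nat_lit 1) (nat_lit 422) (nat_lit 373) (nat_lit 345))) (XT.nd (nat_lit 78) (nat_lit 912) (nat_lit 0) (XT.lf (nat_lit 76) (nat_lit 397967215) (nat_lit 0) (nat_lit 1891483601)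 (nat_lit 988) (nat_lit 397967215) (nat_lit 458) (nat_lit 1) (nat_lit 457) (nat_lit 1) (nat_lit 470) (nat_lit 1) (nat_lit 423) (nat_lit 373) (nat_lit 344)) (XT.nd (nat_lit 78) (nat_lit 0) (nat_lit 0) (XT.lf (nat_lit 988) (nat_lit 533805472) (nat_lit 0) (nat_lit 1064799898) (nat_lit 912) (nat_lit 1064799898) (nat_lit 458) (nat_lit 1) (nat_lit 445) (nat_lit 1) (nat_lit 457) (nat_lit 1) (nat_lit 424) (nat_lit 373) (nat_lit 343)) (XT.lf (nat_lit 76) (nat_lit 136640581) (nat_lit 0) (nat_lit 2366512865) (nat_lit 988) (nat_lit 136640581) (nat_lit 446) (nat_lit 1) (nat_lit 445) (nat_lit 1) (nat_lit 458) (nat_lit 1) (nat_lit 425) (nat_lit 373) (nat_lit 342))))))) (XT.nd (nat_lit 702) (nat_lit 4484) (nat_lit 0) (XT.nd (nat_lit 312) (nat_lit 1596) (nat_lit 0) (XT.nd (nat_lit 156) (nat_lit 836) (nat_lit 0) (XT.nd (nat_lit 78) (nat_lit 988) (nat_lit 0) (XT.lf (nat_lit 912) (nat_lit 2296009) (nat_lit 0) (nat_lit 1307022232) (nat_lit 836) (nat_lit 1307022232)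 (nat_lit 446) (nat_lit 1) (nat_lit 434) (nat_lit 1) (nat_lit 445) (nat_lit 1) (nat_lit 426) (nat_lit 373) (nat_lit 341)) (XT.lf (nat_lit 988) (nat_lit 2331619782) (nat_lit 0) (nat_lit 130829040) (nat_lit 912) (nat_lit 130829040) (nat_lit 434) (nat_lit 1) (nat_lit 421) (nat_lit 1) (nat_lit 433) (nat_lit 1) (nat_lit 427) (nat_lit 373) (nat_lit 340))) (XT.nd (nat_lit 78) (nat_lit 836) (nat_lit 0) (XT.lf (nat_lit 76) (nat_lit 1017409449) (nat_lit 0) (nat_lit 535545499) (nat_lit 988) (nat_lit 1017409449) (nat_lit 422) (nat_lit 1) (nat_lit 421) (nat_lit 1) (nat_lit 434) (nat_lit 1) (nat_lit 428) (nat_lit 373) (nat_lit 339)) (XT.lf (nat_lit 912) (nat_lit 1740314314) (nat_lit 0) (nat_lit 403758409) (nat_lit 836) (nat_lit 403758409) (nat_lit 422) (nat_lit 1) (nat_lit 410) (nat_lit 1) (nat_lit 421) (nat_lit 1) (nat_lit 429) (nat_lit 373) (nat_lit 338)))) (XT.nd (nat_lit 156) (nat_lit 760) (nat_lit 0) (XT.nd (nat_lit 78) (nat_lit 836) (nat_lit 0)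 (XT.lf (nat_lit 76) (nat_lit 720029535) (nat_lit 0) (nat_lit 1085454640) (nat_lit 912) (nat_lit 720029535) (nat_lit 411) (nat_lit 1) (nat_lit 410) (nat_lit 1) (nat_lit 422) (nat_lit 1) (nat_lit 430) (nat_lit 373) (nat_lit 337)) (XT.lf (nat_lit 912) (nat_lit 1138550034) (nat_lit 0) (nat_lit 682471914) (nat_lit 836) (nat_lit 682471914) (nat_lit 411) (nat_lit 1) (nat_lit 399) (nat_lit 1) (nat_lit 410) (nat_lit 1) (nat_lit 431) (nat_lit 373) (nat_lit 336))) (XT.nd (nat_lit 78) (nat_lit 760) (nat_lit 0) (XT.lf (nat_lit 76) (nat_lit 417706436) (nat_lit 0) (nat_lit 1646345058) (nat_lit 912) (nat_lit 417706436) (nat_lit 400) (nat_lit 1) (nat_lit 399) (nat_lit 1) (nat_lit 411) (nat_lit 1) (nat_lit 432) (nat_lit 373) (nat_lit 335)) (XT.nd (nat_lit 78) (nat_lit 0) (nat_lit 0) (XT.lf (nat_lit 836) (nat_lit 527388361) (nat_lit 0) (nat_lit 966423728) (nat_lit 760) (nat_lit 966423728) (nat_lit 400) (nat_lit 1) (nat_lit 389) (nat_lit 1) (nat_lit 399)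 (nat_lit 1) (nat_lit 433) (nat_lit 373) (nat_lit 334)) (XT.lf (nat_lit 76) (nat_lit 110955453) (nat_lit 0) (nat_lit 2217156317) (nat_lit 836) (nat_lit 110955453) (nat_lit 390) (nat_lit 1) (nat_lit 389) (nat_lit 1) (nat_lit 400) (nat_lit 1) (nat_lit 434) (nat_lit 373) (nat_lit 333)))))) (XT.nd (nat_lit 390) (nat_lit 2128) (nat_lit 0) (XT.nd (nat_lit 156) (nat_lit 760) (nat_lit 0) (XT.nd (nat_lit 78) (nat_lit 760) (nat_lit 0) (XT.lf (nat_lit 76) (nat_lit 1163530557) (nat_lit 0) (nat_lit 90954608) (nat_lit 836) (nat_lit 1163530557) (nat_lit 379) (nat_lit 1) (nat_lit 378) (nat_lit 1) (nat_lit 389) (nat_lit 1) (nat_lit 435) (nat_lit 373) (nat_lit 332)) (XT.lf (nat_lit 836) (nat_lit 2000467726) (nat_lit 0) (nat_lit 198420422) (nat_lit 760) (nat_lit 198420422) (nat_lit 379) (nat_lit 1) (nat_lit 368) (nat_lit 1) (nat_lit 378) (nat_lit 1) (nat_lit 436) (nat_lit 373) (nat_lit 331))) (XT.nd (nat_lit 78) (nat_lit 760) (nat_lit 0) (XT.lf (nat_lit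 76) (nat_lit 833514999) (nat_lit 0) (nat_lit 709717675) (nat_lit 836) (nat_lit 833514999) (nat_lit 369) (nat_lit 1) (nat_lit 368) (nat_lit 1) (nat_lit 379) (nat_lit 1) (nat_lit 437) (nat_lit 373) (nat_lit 330)) (XT.nd (nat_lit 78) (nat_lit 0) (nat_lit 0) (XT.lf (nat_lit 836) (nat_lit 1335461071) (nat_lit 0) (nat_lit 510518654) (nat_lit 760) (nat_lit 510518654) (nat_lit 369) (nat_lit 1) (nat_lit 358) (nat_lit 1) (nat_lit 368) (nat_lit 1) (nat_lit 438) (nat_lit 373) (nat_lit 329)) (XT.lf (nat_lit 76) (nat_lit 500774691) (nat_lit 0) (nat_lit 1334923333) (nat_lit 836) (nat_lit 500774691) (nat_lit 359) (nat_lit 1) (nat_lit 358) (nat_lit 1) (nat_lit 369) (nat_lit 1) (nat_lit 439) (nat_lit 373) (nat_lit 328))))) (XT.nd (nat_lit 156) (nat_lit 1444) (nat_lit 0) (XT.nd (nat_lit 78) (nat_lit 0) (nat_lit 0) (XT.lf (nat_lit 760) (nat_lit 665402591) (nat_lit 0) (nat_lit 825632459) (nat_lit 684) (nat_lit 825632459) (nat_lit 359) (nat_lit 1) (nat_lit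 349) (nat_lit 1) (nat_lit 358) (nat_lit 1) (nat_lit 440) (nat_lit 373) (nat_lit 327)) (XT.lf (nat_lit 76) (nat_lit 165720136) (nat_lit 0) (nat_lit 1965723961) (nat_lit 760) (nat_lit 165720136) (nat_lit 350) (nat_lit 1) (nat_lit 349) (nat_lit 1) (nat_lit 359) (nat_lit 1) (nat_lit 441) (nat_lit 373) (nat_lit 326))) (XT.nd (nat_lit 78) (nat_lit 684) (nat_lit 0) (XT.lf (nat_lit 76) (nat_lit 1134499646) (nat_lit 0) (nat_lit 8789352) (nat_lit 760) (nat_lit 1134499646) (nat_lit 340) (nat_lit 1) (nat_lit 339) (nat_lit 1) (nat_lit 349) (nat_lit 1) (nat_lit 442) (nat_lit 373) (nat_lit 325)) (XT.nd (nat_lit 78) (nat_lit 0) (nat_lit 0) (XT.lf (nat_lit 760) (nat_lit 1918440434) (nat_lit 0) (nat_lit 170133363) (nat_lit 684) (nat_lit 170133363) (nat_lit 340) (nat_lit 1) (nat_lit 330) (nat_lit 1) (nat_lit 339) (nat_lit 1) (nat_lit 443) (nat_lit 373) (nat_lit 324)) (XT.lf (nat_lit 76) (nat_lit 781025188) (nat_lit 0) (nat_lit 677700332) (nat_lit 760) (nat_lit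 781025188) (nat_lit 331) (nat_lit 1) (nat_lit 330) (nat_lit 1) (nat_lit 340) (nat_lit 1) (nat_lit 444) (nat_lit 373) (nat_lit 323))))))))
noncomputable def ec22 : XT := (XT.nd (nat_lit 56316) (nat_lit 0) (nat_lit 9196) (XT.nd (nat_lit 55614) (nat_lit 0) (nat_lit 14136) (XT.nd (nat_lit 55224) (nat_lit 0) (nat_lit 13984) (XT.nd (nat_lit 156) (nat_lit 608) (nat_lit 0) (XT.nd (nat_lit 78) (nat_lit 0) (nat_lit 0) (XT.lf (nat_lit 760) (nat_lit 1208189804) (nat_lit 0) (nat_lit 506444362) (nat_lit 684) (nat_lit 506444362) (nat_lit 331) (nat_lit 1) (nat_lit 321) (nat_lit 1) (nat_lit 330) (nat_lit 1) (nat_lit 445) (nat_lit 373) (nat_lit 322)) (XT.lf (nat_lit 76) (nat_lit 426633208) (nat_lit 0) (nat_lit 1349349166) (nat_lit 760) (nat_lit 426633208) (nat_lit 322) (nat_lit 1) (nat_lit 321) (nat_lit 1) (nat_lit 331) (nat_lit 1) (nat_lit 446) (nat_lit 373) (nat_lit 321))) (XT.nd (nat_lit 78) (nat_lit 0) (nat_lit 0) (XT.lf (nat_lit 684) (nat_lit 496425015)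 (nat_lit 0) (nat_lit 843957788) (nat_lit 608) (nat_lit 843957788) (nat_lit 322) (nat_lit 1) (nat_lit 313) (nat_lit 1) (nat_lit 321) (nat_lit 1) (nat_lit 447) (nat_lit 373) (nat_lit 320)) (XT.lf (nat_lit 76) (nat_lit 71646460) (nat_lit 0) (nat_lit 2023066549) (nat_lit 684) (nat_lit 71646460) (nat_lit 314) (nat_lit 1) (nat_lit 313) (nat_lit 1) (nat_lit 322) (nat_lit 1) (nat_lit 448) (nat_lit 373) (nat_lit 319)))) (XT.nd (nat_lit 156) (nat_lit 0) (nat_lit 76) (XT.nd (nat_lit 78) (nat_lit 0) (nat_lit 0) (XT.lf (nat_lit 1900) (nat_lit 598941388) (nat_lit 0) (nat_lit 603949931) (nat_lit 1900) (nat_lit 598941388) (nat_lit 522) (nat_lit 1) (nat_lit 497) (nat_lit 0) (nat_lit 522) (nat_lit 0) (nat_lit 392) (nat_lit 374) (nat_lit 374)) (XT.lf (nat_lit 1900) (nat_lit 2368304300) (nat_lit 76) (nat_lit 599976576) (nat_lit 0) (nat_lit 599976576) (nat_lit 522) (nat_lit 1) (nat_lit 498) (nat_lit 1) (nat_lit 497) (nat_lit 0) (nat_lit 393) (nat_lit 374)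 (nat_lit 373))) (XT.nd (nat_lit 78) (nat_lit 0) (nat_lit 0) (XT.lf (nat_lit 1900) (nat_lit 1162848684) (nat_lit 0) (nat_lit 1207538863) (nat_lit 1824) (nat_lit 1162848684) (nat_lit 523) (nat_lit 1) (nat_lit 498) (nat_lit 1) (nat_lit 522) (nat_lit 1) (nat_lit 394) (nat_lit 374) (nat_lit 372)) (XT.nd (nat_lit 78) (nat_lit 0) (nat_lit 76) (XT.lf (nat_lit 1900) (nat_lit 2275981533) (nat_lit 76) (nat_lit 611382198) (nat_lit 0) (nat_lit 611382198) (nat_lit 523) (nat_lit 1) (nat_lit 499) (nat_lit 1) (nat_lit 498) (nat_lit 1) (nat_lit 395) (nat_lit 374) (nat_lit 371)) (XT.lf (nat_lit 1900) (nat_lit 1106083896) (nat_lit 0) (nat_lit 1252468574) (nat_lit 1824) (nat_lit 1106083896) (nat_lit 524) (nat_lit 1) (nat_lit 499) (nat_lit 1) (nat_lit 523) (nat_lit 1) (nat_lit 396) (nat_lit 374) (nat_lit 370)))))) (XT.nd (nat_lit 312) (nat_lit 0) (nat_lit 152) (XT.nd (nat_lit 156) (nat_lit 0) (nat_lit 76) (XT.nd (nat_lit 78) (nat_lit 0) (nat_lit 76) (XT.lf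 (nat_lit 1900) (nat_lit 2141365377) (nat_lit 76) (nat_lit 644834336) (nat_lit 0) (nat_lit 644834336) (nat_lit 524) (nat_lit 1) (nat_lit 500) (nat_lit 1) (nat_lit 499) (nat_lit 1) (nat_lit 397) (nat_lit 374) (nat_lit 369)) (XT.lf (nat_lit 1900) (nat_lit 1028885008) (nat_lit 0) (nat_lit 1340042523) (nat_lit 1824) (nat_lit 1028885008) (nat_lit 525) (nat_lit 1) (nat_lit 500) (nat_lit 1) (nat_lit 524) (nat_lit 1) (nat_lit 398) (nat_lit 374) (nat_lit 368))) (XT.nd (nat_lit 78) (nat_lit 0) (nat_lit 76) (XT.lf (nat_lit 1900) (nat_lit 1966997711) (nat_lit 76) (nat_lit 699035927) (nat_lit 0) (nat_lit 699035927) (nat_lit 525) (nat_lit 1) (nat_lit 501) (nat_lit 1) (nat_lit 500) (nat_lit 1) (nat_lit 399) (nat_lit 374) (nat_lit 367)) (XT.lf (nat_lit 1900) (nat_lit 932489390) (nat_lit 0) (nat_lit 1467734412) (nat_lit 1824) (nat_lit 932489390) (nat_lit 526) (nat_lit 1) (nat_lit 501) (nat_lit 1) (nat_lit 525) (nat_lit 1) (nat_lit 400) (nat_lit 374) (nat_lit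 366)))) (XT.nd (nat_lit 156) (nat_lit 0) (nat_lit 76) (XT.nd (nat_lit 78) (nat_lit 0) (nat_lit 76) (XT.lf (nat_lit 1900) (nat_lit 1755304073) (nat_lit 76) (nat_lit 772748923) (nat_lit 0) (nat_lit 772748923) (nat_lit 526) (nat_lit 1) (nat_lit 502) (nat_lit 1) (nat_lit 501) (nat_lit 1) (nat_lit 401) (nat_lit 374) (nat_lit 365)) (XT.lf (nat_lit 1900) (nat_lit 818077660) (nat_lit 0) (nat_lit 1633133107) (nat_lit 1824) (nat_lit 818077660) (nat_lit 527) (nat_lit 1) (nat_lit 502) (nat_lit 1) (nat_lit 526) (nat_lit 1) (nat_lit 402) (nat_lit 374) (nat_lit 364))) (XT.nd (nat_lit 78) (nat_lit 0) (nat_lit 76) (XT.lf (nat_lit 1900) (nat_lit 1508598521) (nat_lit 76) (nat_lit 864791826) (nat_lit 0) (nat_lit 864791826) (nat_lit 527) (nat_lit 1) (nat_lit 503) (nat_lit 1) (nat_lit 502) (nat_lit 1) (nat_lit 403) (nat_lit 374) (nat_lit 363)) (XT.nd (nat_lit 78) (nat_lit 0) (nat_lit 0) (XT.lf (nat_lit 1900) (nat_lit 686776058) (nat_lit 0) (nat_lit 1833937834)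 (nat_lit 1824) (nat_lit 686776058) (nat_lit 528) (nat_lit 1) (nat_lit 503) (nat_lit 1) (nat_lit 527) (nat_lit 1) (nat_lit 404) (nat_lit 374) (nat_lit 362)) (XT.lf (nat_lit 1900) (nat_lit 1229088300) (nat_lit 76) (nat_lit 974037329) (nat_lit 0) (nat_lit 974037329) (nat_lit 528) (nat_lit 1) (nat_lit 504) (nat_lit 1) (nat_lit 503) (nat_lit 1) (nat_lit 405) (nat_lit 374) (nat_lit 361))))))) (XT.nd (nat_lit 702) (nat_lit 3648) (nat_lit 0) (XT.nd (nat_lit 312) (nat_lit 1672) (nat_lit 0) (XT.nd (nat_lit 156) (nat_lit 0) (nat_lit 76) (XT.nd (nat_lit 78) (nat_lit 0) (nat_lit 0) (XT.lf (nat_lit 1900) (nat_lit 539658724) (nat_lit 0) (nat_lit 2067953563) (nat_lit 1824) (nat_lit 539658724) (nat_lit 529) (nat_lit 1) (nat_lit 504) (nat_lit 1) (nat_lit 528) (nat_lit 1) (nat_lit 406) (nat_lit 374) (nat_lit 360)) (XT.lf (nat_lit 1900) (nat_lit 918878325) (nat_lit 76) (nat_lit 1099410047) (nat_lit 0) (nat_lit 1099410047) (nat_lit 529) (nat_lit 1) (nat_lit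 505) (nat_lit 1) (nat_lit 504) (nat_lit 1) (nat_lit 407) (nat_lit 374) (nat_lit 359))) (XT.nd (nat_lit 78) (nat_lit 0) (nat_lit 0) (XT.lf (nat_lit 1900) (nat_lit 377749889) (nat_lit 0) (nat_lit 2333086584) (nat_lit 1824) (nat_lit 377749889) (nat_lit 530) (nat_lit 1) (nat_lit 505) (nat_lit 1) (nat_lit 529) (nat_lit 1) (nat_lit 408) (nat_lit 374) (nat_lit 358)) (XT.lf (nat_lit 1900) (nat_lit 579975479) (nat_lit 76) (nat_lit 1239884342) (nat_lit 0) (nat_lit 1239884342) (nat_lit 530) (nat_lit 1) (nat_lit 506) (nat_lit 1) (nat_lit 505) (nat_lit 1) (nat_lit 409) (nat_lit 374) (nat_lit 357)))) (XT.nd (nat_lit 156) (nat_lit 1824) (nat_lit 0) (XT.nd (nat_lit 78) (nat_lit 0) (nat_lit 0) (XT.lf (nat_lit 1900) (nat_lit 202025968) (nat_lit 0) (nat_lit 2627340251) (nat_lit 1824) (nat_lit 202025968) (nat_lit 531) (nat_lit 1) (nat_lit 506) (nat_lit 1) (nat_lit 530) (nat_lit 1) (nat_lit 410) (nat_lit 374) (nat_lit 356)) (XT.lf (nat_lit 1900) (nat_lit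 214292740) (nat_lit 76) (nat_lit 1394482233) (nat_lit 0) (nat_lit 1394482233) (nat_lit 531) (nat_lit 1) (nat_lit 507) (nat_lit 1) (nat_lit 506) (nat_lit 1) (nat_lit 411) (nat_lit 374) (nat_lit 355))) (XT.nd (nat_lit 78) (nat_lit 1900) (nat_lit 0) (XT.lf (nat_lit 1900) (nat_lit 13417578) (nat_lit 0) (nat_lit 2948810910) (nat_lit 1824) (nat_lit 13417578) (nat_lit 532) (nat_lit 1) (nat_lit 507) (nat_lit 1) (nat_lit 531) (nat_lit 1) (nat_lit 412) (nat_lit 374) (nat_lit 354)) (XT.nd (nat_lit 78) (nat_lit 0) (nat_lit 0) (XT.lf (nat_lit 1976) (nat_lit 1387069494) (nat_lit 0) (nat_lit 174034039) (nat_lit 1900) (nat_lit 1387069494) (nat_lit 508) (nat_lit 1) (nat_lit 482) (nat_lit 1) (nat_lit 507) (nat_lit 1) (nat_lit 413) (nat_lit 374) (nat_lit 353)) (XT.lf (nat_lit 1976) (nat_lit 2549295322) (nat_lit 76) (nat_lit 185957024) (nat_lit 0) (nat_lit 185957024) (nat_lit 508) (nat_lit 1) (nat_lit 483) (nat_lit 1) (nat_lit 482) (nat_lit 1) (nat_lit 414)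 (nat_lit 374) (nat_lit 352)))))) (XT.nd (nat_lit 390) (nat_lit 2660) (nat_lit 0) (XT.nd (nat_lit 156) (nat_lit 1064) (nat_lit 0) (XT.nd (nat_lit 78) (nat_lit 0) (nat_lit 0) (XT.lf (nat_lit 1976) (nat_lit 1155988802) (nat_lit 0) (nat_lit 582465775) (nat_lit 1900) (nat_lit 1155988802) (nat_lit 509) (nat_lit 1) (nat_lit 483) (nat_lit 1) (nat_lit 508) (nat_lit 1) (nat_lit 415) (nat_lit 374) (nat_lit 351)) (XT.lf (nat_lit 1976) (nat_lit 2075481163) (nat_lit 76) (nat_lit 396322954) (nat_lit 0) (nat_lit 396322954) (nat_lit 509) (nat_lit 1) (nat_lit 484) (nat_lit 1) (nat_lit 483) (nat_lit 1) (nat_lit 416) (nat_lit 374) (nat_lit 350))) (XT.nd (nat_lit 78) (nat_lit 1140) (nat_lit 0) (XT.lf (nat_lit 76) (nat_lit 914938499) (nat_lit 0) (nat_lit 1012180265) (nat_lit 1900) (nat_lit 914938499) (nat_lit 485) (nat_lit 1) (nat_lit 484) (nat_lit 1) (nat_lit 509) (nat_lit 1) (nat_lit 417) (nat_lit 374) (nat_lit 349)) (XT.nd (nat_lit 78) (nat_lit 0) (nat_lit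 0) (XT.lf (nat_lit 1216) (nat_lit 1582429521) (nat_lit 0) (nat_lit 616969268) (nat_lit 1140) (nat_lit 616969268) (nat_lit 485) (nat_lit 1) (nat_lit 469) (nat_lit 1) (nat_lit 484) (nat_lit 1) (nat_lit 418) (nat_lit 374) (nat_lit 348)) (XT.lf (nat_lit 76) (nat_lit 664677145) (nat_lit 0) (nat_lit 1461622788) (nat_lit 1216) (nat_lit 664677145) (nat_lit 470) (nat_lit 1) (nat_lit 469) (nat_lit 1) (nat_lit 485) (nat_lit 1) (nat_lit 419) (nat_lit 374) (nat_lit 347))))) (XT.nd (nat_lit 156) (nat_lit 1748) (nat_lit 0) (XT.nd (nat_lit 78) (nat_lit 0) (nat_lit 0) (XT.lf (nat_lit 988) (nat_lit 1071625379) (nat_lit 0) (nat_lit 847135017) (nat_lit 912) (nat_lit 847135017) (nat_lit 470) (nat_lit 1) (nat_lit 457) (nat_lit 1) (nat_lit 469) (nat_lit 1) (nat_lit 420) (nat_lit 374) (nat_lit 346)) (XT.lf (nat_lit 76) (nat_lit 405926559) (nat_lit 0) (nat_lit 1929313273) (nat_lit 988) (nat_lit 405926559) (nat_lit 458) (nat_lit 1) (nat_lit 457) (nat_lit 1) (nat_lit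 470) (nat_lit 1) (nat_lit 421) (nat_lit 374) (nat_lit 345))) (XT.nd (nat_lit 78) (nat_lit 836) (nat_lit 0) (XT.lf (nat_lit 988) (nat_lit 544481582) (nat_lit 0) (nat_lit 1086095896) (nat_lit 912) (nat_lit 1086095896) (nat_lit 458) (nat_lit 1) (nat_lit 445) (nat_lit 1) (nat_lit 457) (nat_lit 1) (nat_lit 422) (nat_lit 374) (nat_lit 344)) (XT.nd (nat_lit 78) (nat_lit 836) (nat_lit 0) (XT.lf (nat_lit 76) (nat_lit 139373393) (nat_lit 0) (nat_lit 2413843122) (nat_lit 988) (nat_lit 139373393) (nat_lit 446) (nat_lit 1) (nat_lit 445) (nat_lit 1) (nat_lit 458) (nat_lit 1) (nat_lit 423) (nat_lit 374) (nat_lit 343)) (XT.lf (nat_lit 912) (nat_lit 2341929) (nat_lit 0) (nat_lit 1333162677) (nat_lit 836) (nat_lit 1333162677) (nat_lit 446) (nat_lit 1) (nat_lit 434) (nat_lit 1) (nat_lit 445) (nat_lit 1) (nat_lit 424) (nat_lit 374) (nat_lit 342))))))))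
noncomputable def ec23 : XT := (XT.nd (nat_lit 1404) (nat_lit 1976) (nat_lit 0) (XT.nd (nat_lit 702) (nat_lit 3648) (nat_lit 0) (XT.nd (nat_lit 312) (nat_lit 2432) (nat_lit 0) (XT.nd (nat_lit 156) (nat_lit 836) (nat_lit 0) (XT.nd (nat_lit 78) (nat_lit 0) (nat_lit 0) (XT.lf (nat_lit 988) (nat_lit 2378252178) (nat_lit 0) (nat_lit 133445621) (nat_lit 912) (nat_lit 133445621) (nat_lit 434) (nat_lit 1) (nat_lit 421) (nat_lit 1) (nat_lit 433) (nat_lit 1) (nat_lit 425) (nat_lit 374) (nat_lit 341)) (XT.lf (nat_lit 76) (nat_lit 1037757638) (nat_lit 0) (nat_lit 546256409) (nat_lit 988) (nat_lit 1037757638) (nat_lit 422) (nat_lit 1) (nat_lit 421) (nat_lit 1) (nat_lit 434) (nat_lit 1) (nat_lit 426) (nat_lit 374) (nat_lit 340))) (XT.nd (nat_lit 78) (nat_lit 0) (nat_lit 0) (XT.lf (nat_lit 912) (nat_lit 1775120601) (nat_lit 0) (nat_lit 411833577) (nat_lit 836) (nat_lit 411833577) (nat_lit 422) (nat_lit 1) (nat_lit 410) (nat_lit 1) (nat_lit 421) (nat_lit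 1) (nat_lit 427) (nat_lit 374) (nat_lit 339)) (XT.lf (nat_lit 76) (nat_lit 734430125) (nat_lit 0) (nat_lit 1107163733) (nat_lit 912) (nat_lit 734430125) (nat_lit 411) (nat_lit 1) (nat_lit 410) (nat_lit 1) (nat_lit 422) (nat_lit 1) (nat_lit 428) (nat_lit 374) (nat_lit 338)))) (XT.nd (nat_lit 156) (nat_lit 1596) (nat_lit 0) (XT.nd (nat_lit 78) (nat_lit 0) (nat_lit 0) (XT.lf (nat_lit 912) (nat_lit 1161321034) (nat_lit 0) (nat_lit 696121352) (nat_lit 836) (nat_lit 696121352) (nat_lit 411) (nat_lit 1) (nat_lit 399) (nat_lit 1) (nat_lit 410) (nat_lit 1) (nat_lit 429) (nat_lit 374) (nat_lit 337)) (XT.lf (nat_lit 76) (nat_lit 426060565) (nat_lit 0) (nat_lit 1679271959) (nat_lit 912) (nat_lit 426060565) (nat_lit 400) (nat_lit 1) (nat_lit 399) (nat_lit 1) (nat_lit 411) (nat_lit 1) (nat_lit 430) (nat_lit 374) (nat_lit 336))) (XT.nd (nat_lit 78) (nat_lit 836) (nat_lit 0) (XT.lf (nat_lit 836) (nat_lit 537936128) (nat_lit 0) (nat_lit 985752203) (nat_lit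 760) (nat_lit 985752203) (nat_lit 400) (nat_lit 1) (nat_lit 389) (nat_lit 1) (nat_lit 399) (nat_lit 1) (nat_lit 431) (nat_lit 374) (nat_lit 335)) (XT.nd (nat_lit 78) (nat_lit 836) (nat_lit 0) (XT.lf (nat_lit 76) (nat_lit 113174562) (nat_lit 0) (nat_lit 2261499443) (nat_lit 836) (nat_lit 113174562) (nat_lit 390) (nat_lit 1) (nat_lit 389) (nat_lit 1) (nat_lit 400) (nat_lit 1) (nat_lit 432) (nat_lit 374) (nat_lit 334)) (XT.lf (nat_lit 76) (nat_lit 1186801168) (nat_lit 0) (nat_lit 92773700) (nat_lit 836) (nat_lit 1186801168) (nat_lit 379) (nat_lit 1) (nat_lit 378) (nat_lit 1) (nat_lit 389) (nat_lit 1) (nat_lit 433) (nat_lit 374) (nat_lit 333)))))) (XT.nd (nat_lit 312) (nat_lit 2128) (nat_lit 0) (XT.nd (nat_lit 156) (nat_lit 760) (nat_lit 0) (XT.nd (nat_lit 78) (nat_lit 0) (nat_lit 0) (XT.lf (nat_lit 836) (nat_lit 2040477080) (nat_lit 0) (nat_lit 202388830) (nat_lit 760) (nat_lit 202388830) (nat_lit 379) (nat_lit 1) (nat_lit 368) (nat_lit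 1) (nat_lit 378) (nat_lit 1) (nat_lit 434) (nat_lit 374) (nat_lit 332)) (XT.lf (nat_lit 76) (nat_lit 850185299) (nat_lit 0) (nat_lit 723912028) (nat_lit 836) (nat_lit 850185299) (nat_lit 369) (nat_lit 1) (nat_lit 368) (nat_lit 1) (nat_lit 379) (nat_lit 1) (nat_lit 435) (nat_lit 374) (nat_lit 331))) (XT.nd (nat_lit 78) (nat_lit 0) (nat_lit 0) (XT.lf (nat_lit 836) (nat_lit 1362170293) (nat_lit 0) (nat_lit 520729027) (nat_lit 760) (nat_lit 520729027) (nat_lit 369) (nat_lit 1) (nat_lit 358) (nat_lit 1) (nat_lit 368) (nat_lit 1) (nat_lit 436) (nat_lit 374) (nat_lit 330)) (XT.lf (nat_lit 76) (nat_lit 510790185) (nat_lit 0) (nat_lit 1361621800) (nat_lit 836) (nat_lit 510790185) (nat_lit 359) (nat_lit 1) (nat_lit 358) (nat_lit 1) (nat_lit 369) (nat_lit 1) (nat_lit 437) (nat_lit 374) (nat_lit 329)))) (XT.nd (nat_lit 156) (nat_lit 1444) (nat_lit 0) (XT.nd (nat_lit 78) (nat_lit 0) (nat_lit 0) (XT.lf (nat_lit 760) (nat_lit 678710642) (nat_lit 0)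 (nat_lit 842145108) (nat_lit 684) (nat_lit 842145108) (nat_lit 359) (nat_lit 1) (nat_lit 349) (nat_lit 1) (nat_lit 358) (nat_lit 1) (nat_lit 438) (nat_lit 374) (nat_lit 328)) (XT.lf (nat_lit 76) (nat_lit 169034539) (nat_lit 0) (nat_lit 2005038440) (nat_lit 760) (nat_lit 169034539) (nat_lit 350) (nat_lit 1) (nat_lit 349) (nat_lit 1) (nat_lit 359) (nat_lit 1) (nat_lit 439) (nat_lit 374) (nat_lit 327))) (XT.nd (nat_lit 78) (nat_lit 684) (nat_lit 0) (XT.lf (nat_lit 76) (nat_lit 1157189639) (nat_lit 0) (nat_lit 8965139) (nat_lit 760) (nat_lit 1157189639) (nat_lit 340) (nat_lit 1) (nat_lit 339) (nat_lit 1) (nat_lit 349) (nat_lit 1) (nat_lit 440) (nat_lit 374) (nat_lit 326)) (XT.nd (nat_lit 78) (nat_lit 0) (nat_lit 0) (XT.lf (nat_lit 760) (nat_lit 1956809243) (nat_lit 0) (nat_lit 173536030) (nat_lit 684) (nat_lit 173536030) (nat_lit 340) (nat_lit 1) (nat_lit 330) (nat_lit 1) (nat_lit 339) (nat_lit 1) (nat_lit 441) (nat_lit 374) (nat_lit 325))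 (XT.lf (nat_lit 76) (nat_lit 796645692) (nat_lit 0) (nat_lit 691254339) (nat_lit 760) (nat_lit 796645692) (nat_lit 331) (nat_lit 1) (nat_lit 330) (nat_lit 1) (nat_lit 340) (nat_lit 1) (nat_lit 442) (nat_lit 374) (nat_lit 324))))))) (XT.nd (nat_lit 55536) (nat_lit 0) (nat_lit 14820) (XT.nd (nat_lit 312) (nat_lit 684) (nat_lit 0) (XT.nd (nat_lit 156) (nat_lit 608) (nat_lit 0) (XT.nd (nat_lit 78) (nat_lit 0) (nat_lit 0) (XT.lf (nat_lit 760) (nat_lit 1232353600) (nat_lit 0) (nat_lit 516573249) (nat_lit 684) (nat_lit 516573249) (nat_lit 331) (nat_lit 1) (nat_lit 321) (nat_lit 1) (nat_lit 330) (nat_lit 1) (nat_lit 443) (nat_lit 374) (nat_lit 323)) (XT.lf (nat_lit 76) (nat_lit 435165872) (nat_lit 0) (nat_lit 1376336149) (nat_lit 760) (nat_lit 435165872) (nat_lit 322) (nat_lit 1) (nat_lit 321) (nat_lit 1) (nat_lit 331) (nat_lit 1) (nat_lit 444) (nat_lit 374) (nat_lit 322))) (XT.nd (nat_lit 78) (nat_lit 0) (nat_lit 0) (XT.lf (nat_lit 684) (nat_lit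 506353515) (nat_lit 0) (nat_lit 860836944) (nat_lit 608) (nat_lit 860836944) (nat_lit 322) (nat_lit 1) (nat_lit 313) (nat_lit 1) (nat_lit 321) (nat_lit 1) (nat_lit 445) (nat_lit 374) (nat_lit 321)) (XT.lf (nat_lit 76) (nat_lit 73079389) (nat_lit 0) (nat_lit 2063527880) (nat_lit 684) (nat_lit 73079389) (nat_lit 314) (nat_lit 1) (nat_lit 313) (nat_lit 1) (nat_lit 322) (nat_lit 1) (nat_lit 446) (nat_lit 374) (nat_lit 320)))) (XT.nd (nat_lit 54990) (nat_lit 0) (nat_lit 14668) (XT.nd (nat_lit 54912) (nat_lit 0) (nat_lit 14668) (XT.lf (nat_lit 76) (nat_lit 986877046) (nat_lit 0) (nat_lit 217656614) (nat_lit 684) (nat_lit 986877046) (nat_lit 305) (nat_lit 1) (nat_lit 304) (nat_lit 1) (nat_lit 313) (nat_lit 1) (nat_lit 447) (nat_lit 374) (nat_lit 319)) (XT.lf (nat_lit 1900) (nat_lit 610920215) (nat_lit 0) (nat_lit 616028929) (nat_lit 1900) (nat_lit 610920215) (nat_lit 522) (nat_lit 1) (nat_lit 497) (nat_lit 0) (nat_lit 522) (nat_lit 0) (nat_lit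 390) (nat_lit 375) (nat_lit 375))) (XT.nd (nat_lit 78) (nat_lit 0) (nat_lit 76) (XT.lf (nat_lit 1900) (nat_lit 2415670386) (nat_lit 76) (nat_lit 611976107) (nat_lit 0) (nat_lit 611976107) (nat_lit 522) (nat_lit 1) (nat_lit 498) (nat_lit 1) (nat_lit 497) (nat_lit 0) (nat_lit 391) (nat_lit 375) (nat_lit 374)) (XT.nd (nat_lit 78) (nat_lit 0) (nat_lit 0) (XT.lf (nat_lit 1900) (nat_lit 1186105658) (nat_lit 0) (nat_lit 1231689640) (nat_lit 1824) (nat_lit 1186105658) (nat_lit 523) (nat_lit 1) (nat_lit 498) (nat_lit 1) (nat_lit 522) (nat_lit 1) (nat_lit 392) (nat_lit 375) (nat_lit 373)) (XT.lf (nat_lit 1900) (nat_lit 2321501164) (nat_lit 76) (nat_lit 623609842) (nat_lit 0) (nat_lit 623609842) (nat_lit 523) (nat_lit 1) (nat_lit 499) (nat_lit 1) (nat_lit 498) (nat_lit 1) (nat_lit 393) (nat_lit 375) (nat_lit 372)))))) (XT.nd (nat_lit 390) (nat_lit 0) (nat_lit 152) (XT.nd (nat_lit 156) (nat_lit 0) (nat_lit 76) (XT.nd (nat_lit 78) (nat_lit 0) (nat_lit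 0) (XT.lf (nat_lit 1900) (nat_lit 1128205574) (nat_lit 0) (nat_lit 1277517945) (nat_lit 1824) (nat_lit 1128205574) (nat_lit 524) (nat_lit 1) (nat_lit 499) (nat_lit 1) (nat_lit 523) (nat_lit 1) (nat_lit 394) (nat_lit 375) (nat_lit 371)) (XT.lf (nat_lit 1900) (nat_lit 2184192685) (nat_lit 76) (nat_lit 657731023) (nat_lit 0) (nat_lit 657731023) (nat_lit 524) (nat_lit 1) (nat_lit 500) (nat_lit 1) (nat_lit 499) (nat_lit 1) (nat_lit 395) (nat_lit 375) (nat_lit 370))) (XT.nd (nat_lit 78) (nat_lit 0) (nat_lit 0) (XT.lf (nat_lit 1900) (nat_lit 1049462708) (nat_lit 0) (nat_lit 1366843373) (nat_lit 1824) (nat_lit 1049462708) (nat_lit 525) (nat_lit 1) (nat_lit 500) (nat_lit 1) (nat_lit 524) (nat_lit 1) (nat_lit 396) (nat_lit 375) (nat_lit 369)) (XT.nd (nat_lit 78) (nat_lit 0) (nat_lit 76) (XT.lf (nat_lit 1900) (nat_lit 2006337666) (nat_lit 76) (nat_lit 713016646) (nat_lit 0) (nat_lit 713016646) (nat_lit 525) (nat_lit 1) (nat_lit 501) (nat_lit 1)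 (nat_lit 500) (nat_lit 1) (nat_lit 397) (nat_lit 375) (nat_lit 368)) (XT.lf (nat_lit 1900) (nat_lit 951139178) (nat_lit 0) (nat_lit 1497089100) (nat_lit 1824) (nat_lit 951139178) (nat_lit 526) (nat_lit 1) (nat_lit 501) (nat_lit 1) (nat_lit 525) (nat_lit 1) (nat_lit 398) (nat_lit 375) (nat_lit 367))))) (XT.nd (nat_lit 156) (nat_lit 0) (nat_lit 76) (XT.nd (nat_lit 78) (nat_lit 0) (nat_lit 76) (XT.lf (nat_lit 1900) (nat_lit 1790410155) (nat_lit 76) (nat_lit 788203902) (nat_lit 0) (nat_lit 788203902) (nat_lit 526) (nat_lit 1) (nat_lit 502) (nat_lit 1) (nat_lit 501) (nat_lit 1) (nat_lit 399) (nat_lit 375) (nat_lit 366)) (XT.lf (nat_lit 1900) (nat_lit 834439213) (nat_lit 0) (nat_lit 1665795769) (nat_lit 1824) (nat_lit 834439213) (nat_lit 527) (nat_lit 1) (nat_lit 502) (nat_lit 1) (nat_lit 526) (nat_lit 1) (nat_lit 400) (nat_lit 375) (nat_lit 365))) (XT.nd (nat_lit 78) (nat_lit 0) (nat_lit 76) (XT.lf (nat_lit 1900) (nat_lit 1538770491) (nat_lit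 76) (nat_lit 882087663) (nat_lit 0) (nat_lit 882087663) (nat_lit 527) (nat_lit 1) (nat_lit 503) (nat_lit 1) (nat_lit 502) (nat_lit 1) (nat_lit 401) (nat_lit 375) (nat_lit 364)) (XT.nd (nat_lit 78) (nat_lit 0) (nat_lit 0) (XT.lf (nat_lit 1900) (nat_lit 700511579) (nat_lit 0) (nat_lit 1870616591) (nat_lit 1824) (nat_lit 700511579) (nat_lit 528) (nat_lit 1) (nat_lit 503) (nat_lit 1) (nat_lit 527) (nat_lit 1) (nat_lit 402) (nat_lit 375) (nat_lit 363)) (XT.lf (nat_lit 1900) (nat_lit 1253670066) (nat_lit 76) (nat_lit 993518076) (nat_lit 0) (nat_lit 993518076) (nat_lit 528) (nat_lit 1) (nat_lit 504) (nat_lit 1) (nat_lit 503) (nat_lit 1) (nat_lit 403) (nat_lit 375) (nat_lit 362))))))))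
noncomputable def ec24 : XT := (XT.nd (nat_lit 1404) (nat_lit 8740) (nat_lit 0) (XT.nd (nat_lit 702) (nat_lit 2812) (nat_lit 0) (XT.nd (nat_lit 312) (nat_lit 1672) (nat_lit 0) (XT.nd (nat_lit 156) (nat_lit 0) (nat_lit 76) (XT.nd (nat_lit 78) (nat_lit 0) (nat_lit 0) (XT.lf (nat_lit 1900) (nat_lit 550451899) (nat_lit 0) (nat_lit 2109312635) (nat_lit 1824) (nat_lit 550451899) (nat_lit 529) (nat_lit 1) (nat_lit 504) (nat_lit 1) (nat_lit 528) (nat_lit 1) (nat_lit 404) (nat_lit 375) (nat_lit 361)) (XT.lf (nat_lit 1900) (nat_lit 937255891) (nat_lit 76) (nat_lit 1121398248) (nat_lit 0) (nat_lit 1121398248) (nat_lit 529) (nat_lit 1) (nat_lit 505) (nat_lit 1) (nat_lit 504) (nat_lit 1) (nat_lit 405) (nat_lit 375) (nat_lit 360))) (XT.nd (nat_lit 78) (nat_lit 0) (nat_lit 0) (XT.lf (nat_lit 1900) (nat_lit 385304887) (nat_lit 0) (nat_lit 2379748315) (nat_lit 1824) (nat_lit 385304887) (nat_lit 530) (nat_lit 1) (nat_lit 505) (nat_lit 1) (nat_lit 529)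 (nat_lit 1) (nat_lit 406) (nat_lit 375) (nat_lit 359)) (XT.lf (nat_lit 1900) (nat_lit 591574989) (nat_lit 76) (nat_lit 1264682029) (nat_lit 0) (nat_lit 1264682029) (nat_lit 530) (nat_lit 1) (nat_lit 506) (nat_lit 1) (nat_lit 505) (nat_lit 1) (nat_lit 407) (nat_lit 375) (nat_lit 358)))) (XT.nd (nat_lit 156) (nat_lit 1824) (nat_lit 0) (XT.nd (nat_lit 78) (nat_lit 0) (nat_lit 0) (XT.lf (nat_lit 1900) (nat_lit 206066487) (nat_lit 0) (nat_lit 2679887056) (nat_lit 1824) (nat_lit 206066487) (nat_lit 531) (nat_lit 1) (nat_lit 506) (nat_lit 1) (nat_lit 530) (nat_lit 1) (nat_lit 408) (nat_lit 375) (nat_lit 357)) (XT.lf (nat_lit 1900) (nat_lit 218578595) (nat_lit 76) (nat_lit 1422371877) (nat_lit 0) (nat_lit 1422371877) (nat_lit 531) (nat_lit 1) (nat_lit 507) (nat_lit 1) (nat_lit 506) (nat_lit 1) (nat_lit 409) (nat_lit 375) (nat_lit 356))) (XT.nd (nat_lit 78) (nat_lit 1900) (nat_lit 0) (XT.lf (nat_lit 1900) (nat_lit 13685929) (nat_lit 0) (nat_lit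 3007787128) (nat_lit 1824) (nat_lit 13685929) (nat_lit 532) (nat_lit 1) (nat_lit 507) (nat_lit 1) (nat_lit 531) (nat_lit 1) (nat_lit 410) (nat_lit 375) (nat_lit 355)) (XT.nd (nat_lit 78) (nat_lit 0) (nat_lit 0) (XT.lf (nat_lit 1976) (nat_lit 1414810884) (nat_lit 0) (nat_lit 177514720) (nat_lit 1900) (nat_lit 1414810884) (nat_lit 508) (nat_lit 1) (nat_lit 482) (nat_lit 1) (nat_lit 507) (nat_lit 1) (nat_lit 411) (nat_lit 375) (nat_lit 354)) (XT.lf (nat_lit 1976) (nat_lit 2600281228) (nat_lit 76) (nat_lit 189676165) (nat_lit 0) (nat_lit 189676165) (nat_lit 508) (nat_lit 1) (nat_lit 483) (nat_lit 1) (nat_lit 482) (nat_lit 1) (nat_lit 412) (nat_lit 375) (nat_lit 353)))))) (XT.nd (nat_lit 312) (nat_lit 1824) (nat_lit 0) (XT.nd (nat_lit 156) (nat_lit 1064) (nat_lit 0) (XT.nd (nat_lit 78) (nat_lit 0) (nat_lit 0) (XT.lf (nat_lit 1976) (nat_lit 1179108578) (nat_lit 0) (nat_lit 594115090) (nat_lit 1900) (nat_lit 1179108578) (nat_lit 509) (nat_lit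 1) (nat_lit 483) (nat_lit 1) (nat_lit 508) (nat_lit 1) (nat_lit 413) (nat_lit 375) (nat_lit 352)) (XT.lf (nat_lit 1976) (nat_lit 2116990786) (nat_lit 76) (nat_lit 404249413) (nat_lit 0) (nat_lit 404249413) (nat_lit 509) (nat_lit 1) (nat_lit 484) (nat_lit 1) (nat_lit 483) (nat_lit 1) (nat_lit 414) (nat_lit 375) (nat_lit 351))) (XT.nd (nat_lit 78) (nat_lit 1140) (nat_lit 0) (XT.lf (nat_lit 76) (nat_lit 933237269) (nat_lit 0) (nat_lit 1032423870) (nat_lit 1900) (nat_lit 933237269) (nat_lit 485) (nat_lit 1) (nat_lit 484) (nat_lit 1) (nat_lit 509) (nat_lit 1) (nat_lit 415) (nat_lit 375) (nat_lit 350)) (XT.lf (nat_lit 1216) (nat_lit 1614078112) (nat_lit 0) (nat_lit 629308653) (nat_lit 1140) (nat_lit 629308653) (nat_lit 485) (nat_lit 1) (nat_lit 469) (nat_lit 1) (nat_lit 484) (nat_lit 1) (nat_lit 416) (nat_lit 375) (nat_lit 349)))) (XT.nd (nat_lit 156) (nat_lit 912) (nat_lit 0) (XT.nd (nat_lit 78) (nat_lit 912) (nat_lit 0) (XT.lf (nat_lit 76)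 (nat_lit 677970688) (nat_lit 0) (nat_lit 1490855244) (nat_lit 1216) (nat_lit 677970688) (nat_lit 470) (nat_lit 1) (nat_lit 469) (nat_lit 1) (nat_lit 485) (nat_lit 1) (nat_lit 417) (nat_lit 375) (nat_lit 348)) (XT.lf (nat_lit 988) (nat_lit 1093057886) (nat_lit 0) (nat_lit 864077717) (nat_lit 912) (nat_lit 864077717) (nat_lit 470) (nat_lit 1) (nat_lit 457) (nat_lit 1) (nat_lit 469) (nat_lit 1) (nat_lit 418) (nat_lit 375) (nat_lit 347))) (XT.nd (nat_lit 78) (nat_lit 912) (nat_lit 0) (XT.lf (nat_lit 76) (nat_lit 414045090) (nat_lit 0) (nat_lit 1967899539) (nat_lit 988) (nat_lit 414045090) (nat_lit 458) (nat_lit 1) (nat_lit 457) (nat_lit 1) (nat_lit 470) (nat_lit 1) (nat_lit 419) (nat_lit 375) (nat_lit 346)) (XT.nd (nat_lit 78) (nat_lit 0) (nat_lit 0) (XT.lf (nat_lit 988) (nat_lit 555371213) (nat_lit 0) (nat_lit 1107817813) (nat_lit 912) (nat_lit 1107817813) (nat_lit 458) (nat_lit 1) (nat_lit 445) (nat_lit 1) (nat_lit 457) (nat_lit 1) (nat_lit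 420) (nat_lit 375) (nat_lit 345)) (XT.lf (nat_lit 76) (nat_lit 142160860) (nat_lit 0) (nat_lit 2462119984) (nat_lit 988) (nat_lit 142160860) (nat_lit 446) (nat_lit 1) (nat_lit 445) (nat_lit 1) (nat_lit 458) (nat_lit 1) (nat_lit 421) (nat_lit 375) (nat_lit 344))))))) (XT.nd (nat_lit 702) (nat_lit 4484) (nat_lit 0) (XT.nd (nat_lit 312) (nat_lit 1596) (nat_lit 0) (XT.nd (nat_lit 156) (nat_lit 836) (nat_lit 0) (XT.nd (nat_lit 78) (nat_lit 988) (nat_lit 0) (XT.lf (nat_lit 912) (nat_lit 2388767) (nat_lit 0) (nat_lit 1359825930) (nat_lit 836) (nat_lit 1359825930) (nat_lit 446) (nat_lit 1) (nat_lit 434) (nat_lit 1) (nat_lit 445) (nat_lit 1) (nat_lit 422) (nat_lit 375) (nat_lit 343)) (XT.lf (nat_lit 988) (nat_lit 2425817221) (nat_lit 0) (nat_lit 136114533) (nat_lit 912) (nat_lit 136114533) (nat_lit 434) (nat_lit 1) (nat_lit 421) (nat_lit 1) (nat_lit 433) (nat_lit 1) (nat_lit 423) (nat_lit 375) (nat_lit 342))) (XT.nd (nat_lit 78) (nat_lit 836)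 (nat_lit 0) (XT.lf (nat_lit 76) (nat_lit 1058512791) (nat_lit 0) (nat_lit 557181537) (nat_lit 988) (nat_lit 1058512791) (nat_lit 422) (nat_lit 1) (nat_lit 421) (nat_lit 1) (nat_lit 434) (nat_lit 1) (nat_lit 424) (nat_lit 375) (nat_lit 341)) (XT.lf (nat_lit 912) (nat_lit 1810623013) (nat_lit 0) (nat_lit 420070248) (nat_lit 836) (nat_lit 420070248) (nat_lit 422) (nat_lit 1) (nat_lit 410) (nat_lit 1) (nat_lit 421) (nat_lit 1) (nat_lit 425) (nat_lit 375) (nat_lit 340)))) (XT.nd (nat_lit 156) (nat_lit 760) (nat_lit 0) (XT.nd (nat_lit 78) (nat_lit 836) (nat_lit 0) (XT.lf (nat_lit 76) (nat_lit 749118728) (nat_lit 0) (nat_lit 1129307008) (nat_lit 912) (nat_lit 749118728) (nat_lit 411) (nat_lit 1) (nat_lit 410) (nat_lit 1) (nat_lit 422) (nat_lit 1) (nat_lit 426) (nat_lit 375) (nat_lit 339)) (XT.lf (nat_lit 912) (nat_lit 1184547455) (nat_lit 0) (nat_lit 710043779) (nat_lit 836) (nat_lit 710043779) (nat_lit 411) (nat_lit 1) (nat_lit 399) (nat_lit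 1) (nat_lit 410) (nat_lit 1) (nat_lit 427) (nat_lit 375) (nat_lit 338))) (XT.nd (nat_lit 78) (nat_lit 760) (nat_lit 0) (XT.lf (nat_lit 76) (nat_lit 434581776) (nat_lit 0) (nat_lit 1712857398) (nat_lit 912) (nat_lit 434581776) (nat_lit 400) (nat_lit 1) (nat_lit 399) (nat_lit 1) (nat_lit 411) (nat_lit 1) (nat_lit 428) (nat_lit 375) (nat_lit 337)) (XT.nd (nat_lit 78) (nat_lit 0) (nat_lit 0) (XT.lf (nat_lit 836) (nat_lit 548694851) (nat_lit 0) (nat_lit 1005467247) (nat_lit 760) (nat_lit 1005467247) (nat_lit 400) (nat_lit 1) (nat_lit 389) (nat_lit 1) (nat_lit 399) (nat_lit 1) (nat_lit 429) (nat_lit 375) (nat_lit 336)) (XT.lf (nat_lit 76) (nat_lit 115438054) (nat_lit 0) (nat_lit 2306729432) (nat_lit 836) (nat_lit 115438054) (nat_lit 390) (nat_lit 1) (nat_lit 389) (nat_lit 1) (nat_lit 400) (nat_lit 1) (nat_lit 430) (nat_lit 375) (nat_lit 335)))))) (XT.nd (nat_lit 312) (nat_lit 2128) (nat_lit 0) (XT.nd (nat_lit 156) (nat_lit 760) (nat_lit 0)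 (XT.nd (nat_lit 78) (nat_lit 760) (nat_lit 0) (XT.lf (nat_lit 76) (nat_lit 1210537191) (nat_lit 0) (nat_lit 94629174) (nat_lit 836) (nat_lit 1210537191) (nat_lit 379) (nat_lit 1) (nat_lit 378) (nat_lit 1) (nat_lit 389) (nat_lit 1) (nat_lit 431) (nat_lit 375) (nat_lit 334)) (XT.lf (nat_lit 836) (nat_lit 2081286622) (nat_lit 0) (nat_lit 206436607) (nat_lit 760) (nat_lit 206436607) (nat_lit 379) (nat_lit 1) (nat_lit 368) (nat_lit 1) (nat_lit 378) (nat_lit 1) (nat_lit 432) (nat_lit 375) (nat_lit 333))) (XT.nd (nat_lit 78) (nat_lit 760) (nat_lit 0) (XT.lf (nat_lit 76) (nat_lit 867189005) (nat_lit 0) (nat_lit 738390269) (nat_lit 836) (nat_lit 867189005) (nat_lit 369) (nat_lit 1) (nat_lit 368) (nat_lit 1) (nat_lit 379) (nat_lit 1) (nat_lit 433) (nat_lit 375) (nat_lit 332)) (XT.lf (nat_lit 836) (nat_lit 1389413698) (nat_lit 0) (nat_lit 531143607) (nat_lit 760) (nat_lit 531143607) (nat_lit 369) (nat_lit 1) (nat_lit 358) (nat_lit 1) (nat_lit 368)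 (nat_lit 1) (nat_lit 434) (nat_lit 375) (nat_lit 331)))) (XT.nd (nat_lit 156) (nat_lit 1444) (nat_lit 0) (XT.nd (nat_lit 78) (nat_lit 684) (nat_lit 0) (XT.lf (nat_lit 76) (nat_lit 521005988) (nat_lit 0) (nat_lit 1388854236) (nat_lit 836) (nat_lit 521005988) (nat_lit 359) (nat_lit 1) (nat_lit 358) (nat_lit 1) (nat_lit 369) (nat_lit 1) (nat_lit 435) (nat_lit 375) (nat_lit 330)) (XT.lf (nat_lit 760) (nat_lit 692284855) (nat_lit 0) (nat_lit 858988010) (nat_lit 684) (nat_lit 858988010) (nat_lit 359) (nat_lit 1) (nat_lit 349) (nat_lit 1) (nat_lit 358) (nat_lit 1) (nat_lit 436) (nat_lit 375) (nat_lit 329))) (XT.nd (nat_lit 78) (nat_lit 1444) (nat_lit 0) (XT.lf (nat_lit 76) (nat_lit 172415230) (nat_lit 0) (nat_lit 2045139209) (nat_lit 760) (nat_lit 172415230) (nat_lit 350) (nat_lit 1) (nat_lit 349) (nat_lit 1) (nat_lit 359) (nat_lit 1) (nat_lit 437) (nat_lit 375) (nat_lit 328)) (XT.nd (nat_lit 78) (nat_lit 684) (nat_lit 0) (XT.lf (nat_lit 76)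 (nat_lit 1180333431) (nat_lit 0) (nat_lit 9144441) (nat_lit 760) (nat_lit 1180333431) (nat_lit 340) (nat_lit 1) (nat_lit 339) (nat_lit 1) (nat_lit 349) (nat_lit 1) (nat_lit 438) (nat_lit 375) (nat_lit 327)) (XT.lf (nat_lit 760) (nat_lit 1995945428) (nat_lit 0) (nat_lit 177006751) (nat_lit 684) (nat_lit 177006751) (nat_lit 340) (nat_lit 1) (nat_lit 330) (nat_lit 1) (nat_lit 339) (nat_lit 1) (nat_lit 439) (nat_lit 375) (nat_lit 326))))))))
noncomputable def ec25 : XT := (XT.nd (nat_lit 56082) (nat_lit 0) (nat_lit 12236) (XT.nd (nat_lit 55380) (nat_lit 0) (nat_lit 15276) (XT.nd (nat_lit 312) (nat_lit 1292) (nat_lit 0) (XT.nd (nat_lit 156) (nat_lit 608) (nat_lit 0) (XT.nd (nat_lit 78) (nat_lit 684) (nat_lit 0) (XT.lf (nat_lit 76) (nat_lit 812578606) (nat_lit 0) (nat_lit 705079425) (nat_lit 760) (nat_lit 812578606) (nat_lit 331) (nat_lit 1) (nat_lit 330) (nat_lit 1) (nat_lit 340) (nat_lit 1) (nat_lit 440) (nat_lit 375) (nat_lit 325)) (XT.lf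 (nat_lit 760) (nat_lit 1257000672) (nat_lit 0) (nat_lit 526904714) (nat_lit 684) (nat_lit 526904714) (nat_lit 331) (nat_lit 1) (nat_lit 321) (nat_lit 1) (nat_lit 330) (nat_lit 1) (nat_lit 441) (nat_lit 375) (nat_lit 324))) (XT.nd (nat_lit 78) (nat_lit 608) (nat_lit 0) (XT.lf (nat_lit 76) (nat_lit 443869190) (nat_lit 0) (nat_lit 1403862872) (nat_lit 760) (nat_lit 443869190) (nat_lit 322) (nat_lit 1) (nat_lit 321) (nat_lit 1) (nat_lit 331) (nat_lit 1) (nat_lit 442) (nat_lit 375) (nat_lit 323)) (XT.lf (nat_lit 684) (nat_lit 516480586) (nat_lit 0) (nat_lit 878053682) (nat_lit 608) (nat_lit 878053682) (nat_lit 322) (nat_lit 1) (nat_lit 313) (nat_lit 1) (nat_lit 321) (nat_lit 1) (nat_lit 443) (nat_lit 375) (nat_lit 322)))) (XT.nd (nat_lit 156) (nat_lit 608) (nat_lit 0) (XT.nd (nat_lit 78) (nat_lit 684) (nat_lit 0) (XT.lf (nat_lit 76) (nat_lit 74540977) (nat_lit 0) (nat_lit 2104798438) (nat_lit 684) (nat_lit 74540977) (nat_lit 314) (nat_lit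 1) (nat_lit 313) (nat_lit 1) (nat_lit 322) (nat_lit 1) (nat_lit 444) (nat_lit 375) (nat_lit 321)) (XT.lf (nat_lit 76) (nat_lit 1006614587) (nat_lit 0) (nat_lit 222009746) (nat_lit 684) (nat_lit 1006614587) (nat_lit 305) (nat_lit 1) (nat_lit 304) (nat_lit 1) (nat_lit 313) (nat_lit 1) (nat_lit 445) (nat_lit 375) (nat_lit 320))) (XT.nd (nat_lit 78) (nat_lit 0) (nat_lit 0) (XT.lf (nat_lit 684) (nat_lit 1630600721) (nat_lit 0) (nat_lit 293147760) (nat_lit 608) (nat_lit 293147760) (nat_lit 305) (nat_lit 1) (nat_lit 296) (nat_lit 1) (nat_lit 304) (nat_lit 1) (nat_lit 446) (nat_lit 375) (nat_lit 319)) (XT.nd (nat_lit 54756) (nat_lit 0) (nat_lit 15276) (XT.lf (nat_lit 76) (nat_lit 622338053) (nat_lit 0) (nat_lit 954025379) (nat_lit 684) (nat_lit 622338053) (nat_lit 297) (nat_lit 1) (nat_lit 296) (nat_lit 1) (nat_lit 305) (nat_lit 1) (nat_lit 447) (nat_lit 375) (nat_lit 318)) (XT.lf (nat_lit 1900) (nat_lit 623138620) (nat_lit 0) (nat_lit 628349508)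 (nat_lit 1900) (nat_lit 623138620) (nat_lit 522) (nat_lit 1) (nat_lit 497) (nat_lit 0) (nat_lit 522) (nat_lit 0) (nat_lit 388) (nat_lit 376) (nat_lit 376)))))) (XT.nd (nat_lit 312) (nat_lit 0) (nat_lit 152) (XT.nd (nat_lit 156) (nat_lit 0) (nat_lit 76) (XT.nd (nat_lit 78) (nat_lit 0) (nat_lit 76) (XT.lf (nat_lit 1900) (nat_lit 2463983794) (nat_lit 76) (nat_lit 624215630) (nat_lit 0) (nat_lit 624215630) (nat_lit 522) (nat_lit 1) (nat_lit 498) (nat_lit 1) (nat_lit 497) (nat_lit 0) (nat_lit 389) (nat_lit 376) (nat_lit 375)) (XT.lf (nat_lit 1900) (nat_lit 1209827771) (nat_lit 0) (nat_lit 1256323433) (nat_lit 1824) (nat_lit 1209827771) (nat_lit 523) (nat_lit 1) (nat_lit 498) (nat_lit 1) (nat_lit 522) (nat_lit 1) (nat_lit 390) (nat_lit 376) (nat_lit 374))) (XT.nd (nat_lit 78) (nat_lit 0) (nat_lit 76) (XT.lf (nat_lit 1900) (nat_lit 2367931187) (nat_lit 76) (nat_lit 636082039) (nat_lit 0) (nat_lit 636082039) (nat_lit 523) (nat_lit 1) (nat_lit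 499) (nat_lit 1) (nat_lit 498) (nat_lit 1) (nat_lit 391) (nat_lit 376) (nat_lit 373)) (XT.lf (nat_lit 1900) (nat_lit 1150769686) (nat_lit 0) (nat_lit 1303068304) (nat_lit 1824) (nat_lit 1150769686) (nat_lit 524) (nat_lit 1) (nat_lit 499) (nat_lit 1) (nat_lit 523) (nat_lit 1) (nat_lit 392) (nat_lit 376) (nat_lit 372)))) (XT.nd (nat_lit 156) (nat_lit 0) (nat_lit 76) (XT.nd (nat_lit 78) (nat_lit 0) (nat_lit 76) (XT.lf (nat_lit 1900) (nat_lit 2227876538) (nat_lit 76) (nat_lit 670885643) (nat_lit 0) (nat_lit 670885643) (nat_lit 524) (nat_lit 1) (nat_lit 500) (nat_lit 1) (nat_lit 499) (nat_lit 1) (nat_lit 393) (nat_lit 376) (nat_lit 371)) (XT.lf (nat_lit 1900) (nat_lit 1070451962) (nat_lit 0) (nat_lit 1394180241) (nat_lit 1824) (nat_lit 1070451962) (nat_lit 525) (nat_lit 1) (nat_lit 500) (nat_lit 1) (nat_lit 524) (nat_lit 1) (nat_lit 394) (nat_lit 376) (nat_lit 370))) (XT.nd (nat_lit 78) (nat_lit 0) (nat_lit 76) (XT.lf (nat_lit 1900) (nat_lit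 2046464419) (nat_lit 76) (nat_lit 727276979) (nat_lit 0) (nat_lit 727276979) (nat_lit 525) (nat_lit 1) (nat_lit 501) (nat_lit 1) (nat_lit 500) (nat_lit 1) (nat_lit 395) (nat_lit 376) (nat_lit 369)) (XT.nd (nat_lit 78) (nat_lit 0) (nat_lit 0) (XT.lf (nat_lit 1900) (nat_lit 970161961) (nat_lit 0) (nat_lit 1527030882) (nat_lit 1824) (nat_lit 970161961) (nat_lit 526) (nat_lit 1) (nat_lit 501) (nat_lit 1) (nat_lit 525) (nat_lit 1) (nat_lit 396) (nat_lit 376) (nat_lit 368)) (XT.lf (nat_lit 1900) (nat_lit 1826218358) (nat_lit 76) (nat_lit 803967980) (nat_lit 0) (nat_lit 803967980) (nat_lit 526) (nat_lit 1) (nat_lit 502) (nat_lit 1) (nat_lit 501) (nat_lit 1) (nat_lit 397) (nat_lit 376) (nat_lit 367))))))) (XT.nd (nat_lit 702) (nat_lit 3420) (nat_lit 0) (XT.nd (nat_lit 312) (nat_lit 0) (nat_lit 152) (XT.nd (nat_lit 156) (nat_lit 0) (nat_lit 76) (XT.nd (nat_lit 78) (nat_lit 0) (nat_lit 0) (XT.lf (nat_lit 1900) (nat_lit 851127997) (nat_lit 0) (nat_lit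 1699111684) (nat_lit 1824) (nat_lit 851127997) (nat_lit 527) (nat_lit 1) (nat_lit 502) (nat_lit 1) (nat_lit 526) (nat_lit 1) (nat_lit 398) (nat_lit 376) (nat_lit 366)) (XT.lf (nat_lit 1900) (nat_lit 1569545901) (nat_lit 76) (nat_lit 899729416) (nat_lit 0) (nat_lit 899729416) (nat_lit 527) (nat_lit 1) (nat_lit 503) (nat_lit 1) (nat_lit 502) (nat_lit 1) (nat_lit 399) (nat_lit 376) (nat_lit 365))) (XT.nd (nat_lit 78) (nat_lit 0) (nat_lit 0) (XT.lf (nat_lit 1900) (nat_lit 714521810) (nat_lit 0) (nat_lit 1908028922) (nat_lit 1824) (nat_lit 714521810) (nat_lit 528) (nat_lit 1) (nat_lit 503) (nat_lit 1) (nat_lit 527) (nat_lit 1) (nat_lit 400) (nat_lit 376) (nat_lit 364)) (XT.lf (nat_lit 1900) (nat_lit 1278743467) (nat_lit 76) (nat_lit 1013388437) (nat_lit 0) (nat_lit 1013388437) (nat_lit 528) (nat_lit 1) (nat_lit 504) (nat_lit 1) (nat_lit 503) (nat_lit 1) (nat_lit 401) (nat_lit 376) (nat_lit 363)))) (XT.nd (nat_lit 156) (nat_lit 0) (nat_lit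 76) (XT.nd (nat_lit 78) (nat_lit 0) (nat_lit 0) (XT.lf (nat_lit 1900) (nat_lit 561460937) (nat_lit 0) (nat_lit 2151498887) (nat_lit 1824) (nat_lit 561460937) (nat_lit 529) (nat_lit 1) (nat_lit 504) (nat_lit 1) (nat_lit 528) (nat_lit 1) (nat_lit 402) (nat_lit 376) (nat_lit 362)) (XT.lf (nat_lit 1900) (nat_lit 956001009) (nat_lit 76) (nat_lit 1143826213) (nat_lit 0) (nat_lit 1143826213) (nat_lit 529) (nat_lit 1) (nat_lit 505) (nat_lit 1) (nat_lit 504) (nat_lit 1) (nat_lit 403) (nat_lit 376) (nat_lit 361))) (XT.nd (nat_lit 78) (nat_lit 0) (nat_lit 0) (XT.lf (nat_lit 1900) (nat_lit 393010985) (nat_lit 0) (nat_lit 2427343282) (nat_lit 1824) (nat_lit 393010985) (nat_lit 530) (nat_lit 1) (nat_lit 505) (nat_lit 1) (nat_lit 529) (nat_lit 1) (nat_lit 404) (nat_lit 376) (nat_lit 360)) (XT.nd (nat_lit 78) (nat_lit 0) (nat_lit 76) (XT.lf (nat_lit 1900) (nat_lit 603406489) (nat_lit 76) (nat_lit 1289975669) (nat_lit 0) (nat_lit 1289975669) (nat_lit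 530) (nat_lit 1) (nat_lit 506) (nat_lit 1) (nat_lit 505) (nat_lit 1) (nat_lit 405) (nat_lit 376) (nat_lit 359)) (XT.lf (nat_lit 1900) (nat_lit 210187817) (nat_lit 0) (nat_lit 2733484797) (nat_lit 1824) (nat_lit 210187817) (nat_lit 531) (nat_lit 1) (nat_lit 506) (nat_lit 1) (nat_lit 530) (nat_lit 1) (nat_lit 406) (nat_lit 376) (nat_lit 358)))))) (XT.nd (nat_lit 390) (nat_lit 1900) (nat_lit 0) (XT.nd (nat_lit 156) (nat_lit 1824) (nat_lit 0) (XT.nd (nat_lit 78) (nat_lit 0) (nat_lit 76) (XT.lf (nat_lit 1900) (nat_lit 222950167) (nat_lit 76) (nat_lit 1450819315) (nat_lit 0) (nat_lit 1450819315) (nat_lit 531) (nat_lit 1) (nat_lit 507) (nat_lit 1) (nat_lit 506) (nat_lit 1) (nat_lit 407) (nat_lit 376) (nat_lit 357)) (XT.lf (nat_lit 1900) (nat_lit 13959648) (nat_lit 0) (nat_lit 3067942870) (nat_lit 1824) (nat_lit 13959648) (nat_lit 532) (nat_lit 1) (nat_lit 507) (nat_lit 1) (nat_lit 531) (nat_lit 1) (nat_lit 408) (nat_lit 376) (nat_lit 356)))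 (XT.nd (nat_lit 78) (nat_lit 0) (nat_lit 0) (XT.lf (nat_lit 1976) (nat_lit 1443107102) (nat_lit 0) (nat_lit 181065014) (nat_lit 1900) (nat_lit 1443107102) (nat_lit 508) (nat_lit 1) (nat_lit 482) (nat_lit 1) (nat_lit 507) (nat_lit 1) (nat_lit 409) (nat_lit 376) (nat_lit 355)) (XT.nd (nat_lit 78) (nat_lit 0) (nat_lit 76) (XT.lf (nat_lit 1976) (nat_lit 2652286853) (nat_lit 76) (nat_lit 193469688) (nat_lit 0) (nat_lit 193469688) (nat_lit 508) (nat_lit 1) (nat_lit 483) (nat_lit 1) (nat_lit 482) (nat_lit 1) (nat_lit 410) (nat_lit 376) (nat_lit 354)) (XT.lf (nat_lit 1976) (nat_lit 1202690749) (nat_lit 0) (nat_lit 605997392) (nat_lit 1900) (nat_lit 1202690749) (nat_lit 509) (nat_lit 1) (nat_lit 483) (nat_lit 1) (nat_lit 508) (nat_lit 1) (nat_lit 411) (nat_lit 376) (nat_lit 353))))) (XT.nd (nat_lit 156) (nat_lit 1976) (nat_lit 0) (XT.nd (nat_lit 78) (nat_lit 0) (nat_lit 76) (XT.lf (nat_lit 1976) (nat_lit 2159330602) (nat_lit 76) (nat_lit 412334402)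 (nat_lit 0) (nat_lit 412334402) (nat_lit 509) (nat_lit 1) (nat_lit 484) (nat_lit 1) (nat_lit 483) (nat_lit 1) (nat_lit 412) (nat_lit 376) (nat_lit 352)) (XT.lf (nat_lit 76) (nat_lit 951902014) (nat_lit 0) (nat_lit 1053072348) (nat_lit 1900) (nat_lit 951902014) (nat_lit 485) (nat_lit 1) (nat_lit 484) (nat_lit 1) (nat_lit 509) (nat_lit 1) (nat_lit 413) (nat_lit 376) (nat_lit 351))) (XT.nd (nat_lit 78) (nat_lit 912) (nat_lit 0) (XT.lf (nat_lit 1216) (nat_lit 1646359674) (nat_lit 0) (nat_lit 641894826) (nat_lit 1140) (nat_lit 641894826) (nat_lit 485) (nat_lit 1) (nat_lit 469) (nat_lit 1) (nat_lit 484) (nat_lit 1) (nat_lit 414) (nat_lit 376) (nat_lit 350)) (XT.nd (nat_lit 78) (nat_lit 912) (nat_lit 0) (XT.lf (nat_lit 76) (nat_lit 691530101) (nat_lit 0) (nat_lit 1520672349) (nat_lit 1216) (nat_lit 691530101) (nat_lit 470) (nat_lit 1) (nat_lit 469) (nat_lit 1) (nat_lit 485) (nat_lit 1) (nat_lit 415) (nat_lit 376) (nat_lit 349)) (XT.lf (nat_lit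 988) (nat_lit 1114919044) (nat_lit 0) (nat_lit 881359272) (nat_lit 912) (nat_lit 881359272) (nat_lit 470) (nat_lit 1) (nat_lit 457) (nat_lit 1) (nat_lit 469) (nat_lit 1) (nat_lit 416) (nat_lit 376) (nat_lit 348))))))))
noncomputable def ec26 : XT := (XT.nd (nat_lit 1404) (nat_lit 4636) (nat_lit 0) (XT.nd (nat_lit 702) (nat_lit 3800) (nat_lit 0) (XT.nd (nat_lit 312) (nat_lit 2660) (nat_lit 0) (XT.nd (nat_lit 156) (nat_lit 836) (nat_lit 0) (XT.nd (nat_lit 78) (nat_lit 912) (nat_lit 0) (XT.lf (nat_lit 76) (nat_lit 422325992) (nat_lit 0) (nat_lit 2007257529) (nat_lit 988) (nat_lit 422325992) (nat_lit 458) (nat_lit 1) (nat_lit 457) (nat_lit 1) (nat_lit 470) (nat_lit 1) (nat_lit 417) (nat_lit 376) (nat_lit 347)) (XT.lf (nat_lit 988) (nat_lit 566478638) (nat_lit 0) (nat_lit 1129974170) (nat_lit 912) (nat_lit 1129974170) (nat_lit 458) (nat_lit 1) (nat_lit 445) (nat_lit 1) (nat_lit 457) (nat_lit 1) (nat_lit 418) (nat_lit 376) (nat_lit 346))) (XT.nd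 (nat_lit 78) (nat_lit 836) (nat_lit 0) (XT.lf (nat_lit 76) (nat_lit 145004078) (nat_lit 0) (nat_lit 2511362384) (nat_lit 988) (nat_lit 145004078) (nat_lit 446) (nat_lit 1) (nat_lit 445) (nat_lit 1) (nat_lit 458) (nat_lit 1) (nat_lit 419) (nat_lit 376) (nat_lit 345)) (XT.lf (nat_lit 912) (nat_lit 2436543) (nat_lit 0) (nat_lit 1387022449) (nat_lit 836) (nat_lit 1387022449) (nat_lit 446) (nat_lit 1) (nat_lit 434) (nat_lit 1) (nat_lit 445) (nat_lit 1) (nat_lit 420) (nat_lit 376) (nat_lit 344)))) (XT.nd (nat_lit 156) (nat_lit 1672) (nat_lit 0) (XT.nd (nat_lit 78) (nat_lit 0) (nat_lit 0) (XT.lf (nat_lit 988) (nat_lit 2474333566) (nat_lit 0) (nat_lit 138836824) (nat_lit 912) (nat_lit 138836824) (nat_lit 434) (nat_lit 1) (nat_lit 421) (nat_lit 1) (nat_lit 433) (nat_lit 1) (nat_lit 421) (nat_lit 376) (nat_lit 343)) (XT.lf (nat_lit 76) (nat_lit 1079683047) (nat_lit 0) (nat_lit 568325168) (nat_lit 988) (nat_lit 1079683047) (nat_lit 422) (nat_lit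 1) (nat_lit 421) (nat_lit 1) (nat_lit 434) (nat_lit 1) (nat_lit 422) (nat_lit 376) (nat_lit 342))) (XT.nd (nat_lit 78) (nat_lit 836) (nat_lit 0) (XT.lf (nat_lit 912) (nat_lit 1846835473) (nat_lit 0) (nat_lit 428471653) (nat_lit 836) (nat_lit 428471653) (nat_lit 422) (nat_lit 1) (nat_lit 410) (nat_lit 1) (nat_lit 421) (nat_lit 1) (nat_lit 423) (nat_lit 376) (nat_lit 341)) (XT.nd (nat_lit 78) (nat_lit 836) (nat_lit 0) (XT.lf (nat_lit 76) (nat_lit 764101102) (nat_lit 0) (nat_lit 1151893148) (nat_lit 912) (nat_lit 764101102) (nat_lit 411) (nat_lit 1) (nat_lit 410) (nat_lit 1) (nat_lit 422) (nat_lit 1) (nat_lit 424) (nat_lit 376) (nat_lit 340)) (XT.lf (nat_lit 912) (nat_lit 1208238404) (nat_lit 0) (nat_lit 724244655) (nat_lit 836) (nat_lit 724244655) (nat_lit 411) (nat_lit 1) (nat_lit 399) (nat_lit 1) (nat_lit 410) (nat_lit 1) (nat_lit 425) (nat_lit 376) (nat_lit 339)))))) (XT.nd (nat_lit 312) (nat_lit 2204) (nat_lit 0) (XT.nd (nat_lit 156)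 (nat_lit 836) (nat_lit 0) (XT.nd (nat_lit 78) (nat_lit 760) (nat_lit 0) (XT.lf (nat_lit 76) (nat_lit 443273412) (nat_lit 0) (nat_lit 1747114546) (nat_lit 912) (nat_lit 443273412) (nat_lit 400) (nat_lit 1) (nat_lit 399) (nat_lit 1) (nat_lit 411) (nat_lit 1) (nat_lit 426) (nat_lit 376) (nat_lit 338)) (XT.lf (nat_lit 836) (nat_lit 559668748) (nat_lit 0) (nat_lit 1025576592) (nat_lit 760) (nat_lit 1025576592) (nat_lit 400) (nat_lit 1) (nat_lit 389) (nat_lit 1) (nat_lit 399) (nat_lit 1) (nat_lit 427) (nat_lit 376) (nat_lit 337))) (XT.nd (nat_lit 78) (nat_lit 836) (nat_lit 0) (XT.lf (nat_lit 76) (nat_lit 117746815) (nat_lit 0) (nat_lit 2352864020) (nat_lit 836) (nat_lit 117746815) (nat_lit 390) (nat_lit 1) (nat_lit 389) (nat_lit 1) (nat_lit 400) (nat_lit 1) (nat_lit 428) (nat_lit 376) (nat_lit 336)) (XT.lf (nat_lit 76) (nat_lit 1234747935) (nat_lit 0) (nat_lit 96521757) (nat_lit 836) (nat_lit 1234747935) (nat_lit 379) (nat_lit 1) (nat_lit 378)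 (nat_lit 1) (nat_lit 389) (nat_lit 1) (nat_lit 429) (nat_lit 376) (nat_lit 335)))) (XT.nd (nat_lit 156) (nat_lit 1444) (nat_lit 0) (XT.nd (nat_lit 78) (nat_lit 0) (nat_lit 0) (XT.lf (nat_lit 836) (nat_lit 2122912354) (nat_lit 0) (nat_lit 210565339) (nat_lit 760) (nat_lit 210565339) (nat_lit 379) (nat_lit 1) (nat_lit 368) (nat_lit 1) (nat_lit 378) (nat_lit 1) (nat_lit 430) (nat_lit 376) (nat_lit 334)) (XT.lf (nat_lit 76) (nat_lit 884532785) (nat_lit 0) (nat_lit 753158074) (nat_lit 836) (nat_lit 884532785) (nat_lit 369) (nat_lit 1) (nat_lit 368) (nat_lit 1) (nat_lit 379) (nat_lit 1) (nat_lit 431) (nat_lit 376) (nat_lit 333))) (XT.nd (nat_lit 78) (nat_lit 684) (nat_lit 0) (XT.lf (nat_lit 836) (nat_lit 1417201972) (nat_lit 0) (nat_lit 541766479) (nat_lit 760) (nat_lit 541766479) (nat_lit 369) (nat_lit 1) (nat_lit 358) (nat_lit 1) (nat_lit 368) (nat_lit 1) (nat_lit 432) (nat_lit 376) (nat_lit 332)) (XT.nd (nat_lit 78) (nat_lit 684) (nat_lit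 0) (XT.lf (nat_lit 76) (nat_lit 531426108) (nat_lit 0) (nat_lit 1416631321) (nat_lit 836) (nat_lit 531426108) (nat_lit 359) (nat_lit 1) (nat_lit 358) (nat_lit 1) (nat_lit 369) (nat_lit 1) (nat_lit 433) (nat_lit 376) (nat_lit 331)) (XT.lf (nat_lit 760) (nat_lit 706130552) (nat_lit 0) (nat_lit 876167770) (nat_lit 684) (nat_lit 876167770) (nat_lit 359) (nat_lit 1) (nat_lit 349) (nat_lit 1) (nat_lit 358) (nat_lit 1) (nat_lit 434) (nat_lit 376) (nat_lit 330))))))) (XT.nd (nat_lit 702) (nat_lit 1216) (nat_lit 0) (XT.nd (nat_lit 312) (nat_lit 1976) (nat_lit 0) (XT.nd (nat_lit 156) (nat_lit 684) (nat_lit 0) (XT.nd (nat_lit 78) (nat_lit 760) (nat_lit 0) (XT.lf (nat_lit 76) (nat_lit 175863534) (nat_lit 0) (nat_lit 2086041993) (nat_lit 760) (nat_lit 175863534) (nat_lit 350) (nat_lit 1) (nat_lit 349) (nat_lit 1) (nat_lit 359) (nat_lit 1) (nat_lit 435) (nat_lit 376) (nat_lit 329)) (XT.lf (nat_lit 76) (nat_lit 1203940100) (nat_lit 0) (nat_lit 9327330)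 (nat_lit 760) (nat_lit 1203940100) (nat_lit 340) (nat_lit 1) (nat_lit 339) (nat_lit 1) (nat_lit 349) (nat_lit 1) (nat_lit 436) (nat_lit 376) (nat_lit 328))) (XT.nd (nat_lit 78) (nat_lit 0) (nat_lit 0) (XT.lf (nat_lit 760) (nat_lit 2035864336) (nat_lit 0) (nat_lit 180546886) (nat_lit 684) (nat_lit 180546886) (nat_lit 340) (nat_lit 1) (nat_lit 330) (nat_lit 1) (nat_lit 339) (nat_lit 1) (nat_lit 437) (nat_lit 376) (nat_lit 327)) (XT.lf (nat_lit 76) (nat_lit 828830178) (nat_lit 0) (nat_lit 719181014) (nat_lit 760) (nat_lit 828830178) (nat_lit 331) (nat_lit 1) (nat_lit 330) (nat_lit 1) (nat_lit 340) (nat_lit 1) (nat_lit 438) (nat_lit 376) (nat_lit 326)))) (XT.nd (nat_lit 156) (nat_lit 1292) (nat_lit 0) (XT.nd (nat_lit 78) (nat_lit 0) (nat_lit 0) (XT.lf (nat_lit 760) (nat_lit 1282140685) (nat_lit 0) (nat_lit 537442809) (nat_lit 684) (nat_lit 537442809) (nat_lit 331) (nat_lit 1) (nat_lit 321) (nat_lit 1) (nat_lit 330) (nat_lit 1) (nat_lit 439)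 (nat_lit 376) (nat_lit 325)) (XT.lf (nat_lit 76) (nat_lit 452746574) (nat_lit 0) (nat_lit 1431940130) (nat_lit 760) (nat_lit 452746574) (nat_lit 322) (nat_lit 1) (nat_lit 321) (nat_lit 1) (nat_lit 331) (nat_lit 1) (nat_lit 440) (nat_lit 376) (nat_lit 324))) (XT.nd (nat_lit 78) (nat_lit 684) (nat_lit 0) (XT.lf (nat_lit 684) (nat_lit 526810197) (nat_lit 0) (nat_lit 895614756) (nat_lit 608) (nat_lit 895614756) (nat_lit 322) (nat_lit 1) (nat_lit 313) (nat_lit 1) (nat_lit 321) (nat_lit 1) (nat_lit 441) (nat_lit 376) (nat_lit 323)) (XT.nd (nat_lit 78) (nat_lit 684) (nat_lit 0) (XT.lf (nat_lit 76) (nat_lit 76031797) (nat_lit 0) (nat_lit 2146894407) (nat_lit 684) (nat_lit 76031797) (nat_lit 314) (nat_lit 1) (nat_lit 313) (nat_lit 1) (nat_lit 322) (nat_lit 1) (nat_lit 442) (nat_lit 376) (nat_lit 322)) (XT.lf (nat_lit 76) (nat_lit 1026746878) (nat_lit 0) (nat_lit 226449941) (nat_lit 684) (nat_lit 1026746878) (nat_lit 305) (nat_lit 1) (nat_lit 304)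 (nat_lit 1) (nat_lit 313) (nat_lit 1) (nat_lit 443) (nat_lit 376) (nat_lit 321)))))) (XT.nd (nat_lit 54834) (nat_lit 0) (nat_lit 15884) (XT.nd (nat_lit 156) (nat_lit 608) (nat_lit 0) (XT.nd (nat_lit 78) (nat_lit 0) (nat_lit 0) (XT.lf (nat_lit 684) (nat_lit 1663212736) (nat_lit 0) (nat_lit 299010715) (nat_lit 608) (nat_lit 299010715) (nat_lit 305) (nat_lit 1) (nat_lit 296) (nat_lit 1) (nat_lit 304) (nat_lit 1) (nat_lit 444) (nat_lit 376) (nat_lit 320)) (XT.lf (nat_lit 76) (nat_lit 634784815) (nat_lit 0) (nat_lit 973105886) (nat_lit 684) (nat_lit 634784815) (nat_lit 297) (nat_lit 1) (nat_lit 296) (nat_lit 1) (nat_lit 305) (nat_lit 1) (nat_lit 445) (nat_lit 376) (nat_lit 319))) (XT.nd (nat_lit 78) (nat_lit 0) (nat_lit 0) (XT.lf (nat_lit 684) (nat_lit 877243003) (nat_lit 0) (nat_lit 673556113) (nat_lit 608) (nat_lit 673556113) (nat_lit 297) (nat_lit 1) (nat_lit 288) (nat_lit 1) (nat_lit 296) (nat_lit 1) (nat_lit 446) (nat_lit 376) (nat_lit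 318)) (XT.lf (nat_lit 76) (nat_lit 243399749) (nat_lit 0) (nat_lit 1719480753) (nat_lit 684) (nat_lit 243399749) (nat_lit 289) (nat_lit 1) (nat_lit 288) (nat_lit 1) (nat_lit 297) (nat_lit 1) (nat_lit 447) (nat_lit 376) (nat_lit 317)))) (XT.nd (nat_lit 156) (nat_lit 0) (nat_lit 76) (XT.nd (nat_lit 78) (nat_lit 0) (nat_lit 0) (XT.lf (nat_lit 1900) (nat_lit 635601392) (nat_lit 0) (nat_lit 640916498) (nat_lit 1900) (nat_lit 635601392) (nat_lit 522) (nat_lit 1) (nat_lit 497) (nat_lit 0) (nat_lit 522) (nat_lit 0) (nat_lit 386) (nat_lit 377) (nat_lit 377)) (XT.lf (nat_lit 1900) (nat_lit 2513263469) (nat_lit 76) (nat_lit 636699942) (nat_lit 0) (nat_lit 636699942) (nat_lit 522) (nat_lit 1) (nat_lit 498) (nat_lit 1) (nat_lit 497) (nat_lit 0) (nat_lit 387) (nat_lit 377) (nat_lit 376))) (XT.nd (nat_lit 78) (nat_lit 0) (nat_lit 0) (XT.lf (nat_lit 1900) (nat_lit 1234024327) (nat_lit 0) (nat_lit 1281449902) (nat_lit 1824) (nat_lit 1234024327) (nat_lit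 523) (nat_lit 1) (nat_lit 498) (nat_lit 1) (nat_lit 522) (nat_lit 1) (nat_lit 388) (nat_lit 377) (nat_lit 375)) (XT.nd (nat_lit 78) (nat_lit 0) (nat_lit 76) (XT.lf (nat_lit 1900) (nat_lit 2415289811) (nat_lit 76) (nat_lit 648803680) (nat_lit 0) (nat_lit 648803680) (nat_lit 523) (nat_lit 1) (nat_lit 499) (nat_lit 1) (nat_lit 498) (nat_lit 1) (nat_lit 389) (nat_lit 377) (nat_lit 374)) (XT.lf (nat_lit 1900) (nat_lit 1173785079) (nat_lit 0) (nat_lit 1329129670) (nat_lit 1824) (nat_lit 1173785079) (nat_lit 524) (nat_lit 1) (nat_lit 499) (nat_lit 1) (nat_lit 523) (nat_lit 1) (nat_lit 390) (nat_lit 377) (nat_lit 373))))))))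
noncomputable def ec27 : XT := (XT.nd (nat_lit 1404) (nat_lit 7904) (nat_lit 0) (XT.nd (nat_lit 702) (nat_lit 1292) (nat_lit 0) (XT.nd (nat_lit 312) (nat_lit 0) (nat_lit 152) (XT.nd (nat_lit 156) (nat_lit 0) (nat_lit 76) (XT.nd (nat_lit 78) (nat_lit 0) (nat_lit 76) (XT.lf (nat_lit 1900) (nat_lit 2272434069) (nat_lit 76) (nat_lit 684303356) (nat_lit 0) (nat_lit 684303356) (nat_lit 524) (nat_lit 1) (nat_lit 500) (nat_lit 1) (nat_lit 499) (nat_lit 1) (nat_lit 391) (nat_lit 377) (nat_lit 372)) (XT.lf (nat_lit 1900) (nat_lit 1091861002) (nat_lit 0) (nat_lit 1422063846) (nat_lit 1824) (nat_lit 1091861002) (nat_lit 525) (nat_lit 1) (nat_lit 500) (nat_lit 1) (nat_lit 524) (nat_lit 1) (nat_lit 392) (nat_lit 377) (nat_lit 371))) (XT.nd (nat_lit 78) (nat_lit 0) (nat_lit 76) (XT.lf (nat_lit 1900) (nat_lit 2087393707) (nat_lit 76) (nat_lit 741822519) (nat_lit 0) (nat_lit 741822519) (nat_lit 525) (nat_lit 1) (nat_lit 501) (nat_lit 1) (nat_lit 500)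 (nat_lit 1) (nat_lit 393) (nat_lit 377) (nat_lit 370)) (XT.lf (nat_lit 1900) (nat_lit 989565201) (nat_lit 0) (nat_lit 1557571500) (nat_lit 1824) (nat_lit 989565201) (nat_lit 526) (nat_lit 1) (nat_lit 501) (nat_lit 1) (nat_lit 525) (nat_lit 1) (nat_lit 394) (nat_lit 377) (nat_lit 369)))) (XT.nd (nat_lit 156) (nat_lit 0) (nat_lit 76) (XT.nd (nat_lit 78) (nat_lit 0) (nat_lit 76) (XT.lf (nat_lit 1900) (nat_lit 1862742725) (nat_lit 76) (nat_lit 820047339) (nat_lit 0) (nat_lit 820047339) (nat_lit 526) (nat_lit 1) (nat_lit 502) (nat_lit 1) (nat_lit 501) (nat_lit 1) (nat_lit 395) (nat_lit 377) (nat_lit 368)) (XT.lf (nat_lit 1900) (nat_lit 868150557) (nat_lit 0) (nat_lit 1733093918) (nat_lit 1824) (nat_lit 868150557) (nat_lit 527) (nat_lit 1) (nat_lit 502) (nat_lit 1) (nat_lit 526) (nat_lit 1) (nat_lit 396) (nat_lit 377) (nat_lit 367))) (XT.nd (nat_lit 78) (nat_lit 0) (nat_lit 76) (XT.lf (nat_lit 1900) (nat_lit 1600936819) (nat_lit 76) (nat_lit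 917724004) (nat_lit 0) (nat_lit 917724004) (nat_lit 527) (nat_lit 1) (nat_lit 503) (nat_lit 1) (nat_lit 502) (nat_lit 1) (nat_lit 397) (nat_lit 377) (nat_lit 366)) (XT.nd (nat_lit 78) (nat_lit 0) (nat_lit 0) (XT.lf (nat_lit 1900) (nat_lit 728812247) (nat_lit 0) (nat_lit 1946189501) (nat_lit 1824) (nat_lit 728812247) (nat_lit 528) (nat_lit 1) (nat_lit 503) (nat_lit 1) (nat_lit 527) (nat_lit 1) (nat_lit 398) (nat_lit 377) (nat_lit 365)) (XT.lf (nat_lit 1900) (nat_lit 1304318336) (nat_lit 76) (nat_lit 1033656206) (nat_lit 0) (nat_lit 1033656206) (nat_lit 528) (nat_lit 1) (nat_lit 504) (nat_lit 1) (nat_lit 503) (nat_lit 1) (nat_lit 399) (nat_lit 377) (nat_lit 364)))))) (XT.nd (nat_lit 312) (nat_lit 1672) (nat_lit 0) (XT.nd (nat_lit 156) (nat_lit 0) (nat_lit 76) (XT.nd (nat_lit 78) (nat_lit 0) (nat_lit 0) (XT.lf (nat_lit 1900) (nat_lit 572690156) (nat_lit 0) (nat_lit 2194528865) (nat_lit 1824) (nat_lit 572690156) (nat_lit 529) (nat_lit 1)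 (nat_lit 504) (nat_lit 1) (nat_lit 528) (nat_lit 1) (nat_lit 400) (nat_lit 377) (nat_lit 363)) (XT.lf (nat_lit 1900) (nat_lit 975121029) (nat_lit 76) (nat_lit 1166702737) (nat_lit 0) (nat_lit 1166702737) (nat_lit 529) (nat_lit 1) (nat_lit 505) (nat_lit 1) (nat_lit 504) (nat_lit 1) (nat_lit 401) (nat_lit 377) (nat_lit 362))) (XT.nd (nat_lit 78) (nat_lit 0) (nat_lit 0) (XT.lf (nat_lit 1900) (nat_lit 400871204) (nat_lit 0) (nat_lit 2475890147) (nat_lit 1824) (nat_lit 400871204) (nat_lit 530) (nat_lit 1) (nat_lit 505) (nat_lit 1) (nat_lit 529) (nat_lit 1) (nat_lit 402) (nat_lit 377) (nat_lit 361)) (XT.lf (nat_lit 1900) (nat_lit 615474618) (nat_lit 76) (nat_lit 1315775183) (nat_lit 0) (nat_lit 1315775183) (nat_lit 530) (nat_lit 1) (nat_lit 506) (nat_lit 1) (nat_lit 505) (nat_lit 1) (nat_lit 403) (nat_lit 377) (nat_lit 360)))) (XT.nd (nat_lit 156) (nat_lit 1824) (nat_lit 0) (XT.nd (nat_lit 78) (nat_lit 0) (nat_lit 0) (XT.lf (nat_lit 1900) (nat_lit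 214391573) (nat_lit 0) (nat_lit 2788154493) (nat_lit 1824) (nat_lit 214391573) (nat_lit 531) (nat_lit 1) (nat_lit 506) (nat_lit 1) (nat_lit 530) (nat_lit 1) (nat_lit 404) (nat_lit 377) (nat_lit 359)) (XT.lf (nat_lit 1900) (nat_lit 227409170) (nat_lit 76) (nat_lit 1479835701) (nat_lit 0) (nat_lit 1479835701) (nat_lit 531) (nat_lit 1) (nat_lit 507) (nat_lit 1) (nat_lit 506) (nat_lit 1) (nat_lit 405) (nat_lit 377) (nat_lit 358))) (XT.nd (nat_lit 78) (nat_lit 1900) (nat_lit 0) (XT.lf (nat_lit 1900) (nat_lit 14238841) (nat_lit 0) (nat_lit 3129301728) (nat_lit 1824) (nat_lit 14238841) (nat_lit 532) (nat_lit 1) (nat_lit 507) (nat_lit 1) (nat_lit 531) (nat_lit 1) (nat_lit 406) (nat_lit 377) (nat_lit 357)) (XT.nd (nat_lit 78) (nat_lit 0) (nat_lit 0) (XT.lf (nat_lit 1976) (nat_lit 1471969244) (nat_lit 0) (nat_lit 184686315) (nat_lit 1900) (nat_lit 1471969244) (nat_lit 508) (nat_lit 1) (nat_lit 482) (nat_lit 1) (nat_lit 507) (nat_lit 1) (nat_lit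 407) (nat_lit 377) (nat_lit 356)) (XT.lf (nat_lit 1976) (nat_lit 2705332590) (nat_lit 76) (nat_lit 197339082) (nat_lit 0) (nat_lit 197339082) (nat_lit 508) (nat_lit 1) (nat_lit 483) (nat_lit 1) (nat_lit 482) (nat_lit 1) (nat_lit 408) (nat_lit 377) (nat_lit 355))))))) (XT.nd (nat_lit 702) (nat_lit 5092) (nat_lit 0) (XT.nd (nat_lit 312) (nat_lit 1824) (nat_lit 0) (XT.nd (nat_lit 156) (nat_lit 1064) (nat_lit 0) (XT.nd (nat_lit 78) (nat_lit 0) (nat_lit 0) (XT.lf (nat_lit 1976) (nat_lit 1226744564) (nat_lit 0) (nat_lit 618117340) (nat_lit 1900) (nat_lit 1226744564) (nat_lit 509) (nat_lit 1) (nat_lit 483) (nat_lit 1) (nat_lit 508) (nat_lit 1) (nat_lit 409) (nat_lit 377) (nat_lit 354)) (XT.lf (nat_lit 1976) (nat_lit 2202517214) (nat_lit 76) (nat_lit 420581090) (nat_lit 0) (nat_lit 420581090) (nat_lit 509) (nat_lit 1) (nat_lit 484) (nat_lit 1) (nat_lit 483) (nat_lit 1) (nat_lit 410) (nat_lit 377) (nat_lit 353))) (XT.nd (nat_lit 78) (nat_lit 1140)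 (nat_lit 0) (XT.lf (nat_lit 76) (nat_lit 970940055) (nat_lit 0) (nat_lit 1074133795) (nat_lit 1900) (nat_lit 970940055) (nat_lit 485) (nat_lit 1) (nat_lit 484) (nat_lit 1) (nat_lit 509) (nat_lit 1) (nat_lit 411) (nat_lit 377) (nat_lit 352)) (XT.lf (nat_lit 1216) (nat_lit 1679286868) (nat_lit 0) (nat_lit 654732723) (nat_lit 1140) (nat_lit 654732723) (nat_lit 485) (nat_lit 1) (nat_lit 469) (nat_lit 1) (nat_lit 484) (nat_lit 1) (nat_lit 412) (nat_lit 377) (nat_lit 351)))) (XT.nd (nat_lit 156) (nat_lit 912) (nat_lit 0) (XT.nd (nat_lit 78) (nat_lit 912) (nat_lit 0) (XT.lf (nat_lit 76) (nat_lit 705360703) (nat_lit 0) (nat_lit 1551085796) (nat_lit 1216) (nat_lit 705360703) (nat_lit 470) (nat_lit 1) (nat_lit 469) (nat_lit 1) (nat_lit 485) (nat_lit 1) (nat_lit 413) (nat_lit 377) (nat_lit 350)) (XT.lf (nat_lit 988) (nat_lit 1137217425) (nat_lit 0) (nat_lit 898986457) (nat_lit 912) (nat_lit 898986457) (nat_lit 470) (nat_lit 1) (nat_lit 457) (nat_lit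 1) (nat_lit 469) (nat_lit 1) (nat_lit 414) (nat_lit 377) (nat_lit 349))) (XT.nd (nat_lit 78) (nat_lit 912) (nat_lit 0) (XT.lf (nat_lit 76) (nat_lit 430772512) (nat_lit 0) (nat_lit 2047402680) (nat_lit 988) (nat_lit 430772512) (nat_lit 458) (nat_lit 1) (nat_lit 457) (nat_lit 1) (nat_lit 470) (nat_lit 1) (nat_lit 415) (nat_lit 377) (nat_lit 348)) (XT.nd (nat_lit 78) (nat_lit 0) (nat_lit 0) (XT.lf (nat_lit 988) (nat_lit 577808210) (nat_lit 0) (nat_lit 1152573653) (nat_lit 912) (nat_lit 1152573653) (nat_lit 458) (nat_lit 1) (nat_lit 445) (nat_lit 1) (nat_lit 457) (nat_lit 1) (nat_lit 416) (nat_lit 377) (nat_lit 347)) (XT.lf (nat_lit 76) (nat_lit 147904159) (nat_lit 0) (nat_lit 2561589632) (nat_lit 988) (nat_lit 147904159) (nat_lit 446) (nat_lit 1) (nat_lit 445) (nat_lit 1) (nat_lit 458) (nat_lit 1) (nat_lit 417) (nat_lit 377) (nat_lit 346)))))) (XT.nd (nat_lit 390) (nat_lit 2432) (nat_lit 0) (XT.nd (nat_lit 156) (nat_lit 836) (nat_lit 0)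 (XT.nd (nat_lit 78) (nat_lit 988) (nat_lit 0) (XT.lf (nat_lit 912) (nat_lit 2485274) (nat_lit 0) (nat_lit 1414762898) (nat_lit 836) (nat_lit 1414762898) (nat_lit 446) (nat_lit 1) (nat_lit 434) (nat_lit 1) (nat_lit 445) (nat_lit 1) (nat_lit 418) (nat_lit 377) (nat_lit 345)) (XT.lf (nat_lit 988) (nat_lit 2523820237) (nat_lit 0) (nat_lit 141613560) (nat_lit 912) (nat_lit 141613560) (nat_lit 434) (nat_lit 1) (nat_lit 421) (nat_lit 1) (nat_lit 433) (nat_lit 1) (nat_lit 419) (nat_lit 377) (nat_lit 344))) (XT.nd (nat_lit 78) (nat_lit 836) (nat_lit 0) (XT.lf (nat_lit 76) (nat_lit 1101276708) (nat_lit 0) (nat_lit 579691672) (nat_lit 988) (nat_lit 1101276708) (nat_lit 422) (nat_lit 1) (nat_lit 421) (nat_lit 1) (nat_lit 434) (nat_lit 1) (nat_lit 420) (nat_lit 377) (nat_lit 343)) (XT.nd (nat_lit 78) (nat_lit 0) (nat_lit 0) (XT.lf (nat_lit 912) (nat_lit 1883772182) (nat_lit 0) (nat_lit 437041086) (nat_lit 836) (nat_lit 437041086) (nat_lit 422) (nat_lit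 1) (nat_lit 410) (nat_lit 1) (nat_lit 421) (nat_lit 1) (nat_lit 421) (nat_lit 377) (nat_lit 342)) (XT.lf (nat_lit 76) (nat_lit 779383124) (nat_lit 0) (nat_lit 1174931011) (nat_lit 912) (nat_lit 779383124) (nat_lit 411) (nat_lit 1) (nat_lit 410) (nat_lit 1) (nat_lit 422) (nat_lit 1) (nat_lit 422) (nat_lit 377) (nat_lit 341))))) (XT.nd (nat_lit 156) (nat_lit 1596) (nat_lit 0) (XT.nd (nat_lit 78) (nat_lit 0) (nat_lit 0) (XT.lf (nat_lit 912) (nat_lit 1232403172) (nat_lit 0) (nat_lit 738729548) (nat_lit 836) (nat_lit 738729548) (nat_lit 411) (nat_lit 1) (nat_lit 399) (nat_lit 1) (nat_lit 410) (nat_lit 1) (nat_lit 423) (nat_lit 377) (nat_lit 340)) (XT.lf (nat_lit 76) (nat_lit 452138880) (nat_lit 0) (nat_lit 1782056837) (nat_lit 912) (nat_lit 452138880) (nat_lit 400) (nat_lit 1) (nat_lit 399) (nat_lit 1) (nat_lit 411) (nat_lit 1) (nat_lit 424) (nat_lit 377) (nat_lit 339))) (XT.nd (nat_lit 78) (nat_lit 836) (nat_lit 0) (XT.lf (nat_lit 836) (nat_lit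 570862123) (nat_lit 0) (nat_lit 1046088123) (nat_lit 760) (nat_lit 1046088123) (nat_lit 400) (nat_lit 1) (nat_lit 389) (nat_lit 1) (nat_lit 399) (nat_lit 1) (nat_lit 425) (nat_lit 377) (nat_lit 338)) (XT.nd (nat_lit 78) (nat_lit 836) (nat_lit 0) (XT.lf (nat_lit 76) (nat_lit 120101751) (nat_lit 0) (nat_lit 2399921301) (nat_lit 836) (nat_lit 120101751) (nat_lit 390) (nat_lit 1) (nat_lit 389) (nat_lit 1) (nat_lit 400) (nat_lit 1) (nat_lit 426) (nat_lit 377) (nat_lit 337)) (XT.lf (nat_lit 76) (nat_lit 1259442894) (nat_lit 0) (nat_lit 98452192) (nat_lit 836) (nat_lit 1259442894) (nat_lit 379) (nat_lit 1) (nat_lit 378) (nat_lit 1) (nat_lit 389) (nat_lit 1) (nat_lit 427) (nat_lit 377) (nat_lit 336))))))))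
noncomputable def ec28 : XT := (XT.nd (nat_lit 1404) (nat_lit 1216) (nat_lit 0) (XT.nd (nat_lit 702) (nat_lit 3192) (nat_lit 0) (XT.nd (nat_lit 312) (nat_lit 2128) (nat_lit 0) (XT.nd (nat_lit 156) (nat_lit 760) (nat_lit 0) (XT.nd (nat_lit 78) (nat_lit 0) (nat_lit 0) (XT.lf (nat_lit 836) (nat_lit 2165370601) (nat_lit 0) (nat_lit 214776646) (nat_lit 760) (nat_lit 214776646) (nat_lit 379) (nat_lit 1) (nat_lit 368) (nat_lit 1) (nat_lit 378) (nat_lit 1) (nat_lit 428) (nat_lit 377) (nat_lit 335)) (XT.lf (nat_lit 76) (nat_lit 902223441) (nat_lit 0) (nat_lit 768221236) (nat_lit 836) (nat_lit 902223441) (nat_lit 369) (nat_lit 1) (nat_lit 368) (nat_lit 1) (nat_lit 379) (nat_lit 1) (nat_lit 429) (nat_lit 377) (nat_lit 334))) (XT.nd (nat_lit 78) (nat_lit 0) (nat_lit 0) (XT.lf (nat_lit 836) (nat_lit 1445546012) (nat_lit 0) (nat_lit 552601809) (nat_lit 760) (nat_lit 552601809) (nat_lit 369) (nat_lit 1) (nat_lit 358) (nat_lit 1) (nat_lit 368) (nat_lit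 1) (nat_lit 430) (nat_lit 377) (nat_lit 333)) (XT.lf (nat_lit 76) (nat_lit 542054630) (nat_lit 0) (nat_lit 1444963947) (nat_lit 836) (nat_lit 542054630) (nat_lit 359) (nat_lit 1) (nat_lit 358) (nat_lit 1) (nat_lit 369) (nat_lit 1) (nat_lit 431) (nat_lit 377) (nat_lit 332)))) (XT.nd (nat_lit 156) (nat_lit 1444) (nat_lit 0) (XT.nd (nat_lit 78) (nat_lit 0) (nat_lit 0) (XT.lf (nat_lit 760) (nat_lit 720253163) (nat_lit 0) (nat_lit 893691125) (nat_lit 684) (nat_lit 893691125) (nat_lit 359) (nat_lit 1) (nat_lit 349) (nat_lit 1) (nat_lit 358) (nat_lit 1) (nat_lit 432) (nat_lit 377) (nat_lit 331)) (XT.lf (nat_lit 76) (nat_lit 179380805) (nat_lit 0) (nat_lit 2127762833) (nat_lit 760) (nat_lit 179380805) (nat_lit 350) (nat_lit 1) (nat_lit 349) (nat_lit 1) (nat_lit 359) (nat_lit 1) (nat_lit 433) (nat_lit 377) (nat_lit 330))) (XT.nd (nat_lit 78) (nat_lit 684) (nat_lit 0) (XT.lf (nat_lit 76) (nat_lit 1228018902) (nat_lit 0) (nat_lit 9513877) (nat_lit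 760) (nat_lit 1228018902) (nat_lit 340) (nat_lit 1) (nat_lit 339) (nat_lit 1) (nat_lit 349) (nat_lit 1) (nat_lit 434) (nat_lit 377) (nat_lit 329)) (XT.nd (nat_lit 78) (nat_lit 0) (nat_lit 0) (XT.lf (nat_lit 760) (nat_lit 2076581623) (nat_lit 0) (nat_lit 184157823) (nat_lit 684) (nat_lit 184157823) (nat_lit 340) (nat_lit 1) (nat_lit 330) (nat_lit 1) (nat_lit 339) (nat_lit 1) (nat_lit 435) (nat_lit 377) (nat_lit 328)) (XT.lf (nat_lit 76) (nat_lit 845406781) (nat_lit 0) (nat_lit 733564634) (nat_lit 760) (nat_lit 845406781) (nat_lit 331) (nat_lit 1) (nat_lit 330) (nat_lit 1) (nat_lit 340) (nat_lit 1) (nat_lit 436) (nat_lit 377) (nat_lit 327)))))) (XT.nd (nat_lit 312) (nat_lit 1900) (nat_lit 0) (XT.nd (nat_lit 156) (nat_lit 608) (nat_lit 0) (XT.nd (nat_lit 78) (nat_lit 0) (nat_lit 0) (XT.lf (nat_lit 760) (nat_lit 1307783499) (nat_lit 0) (nat_lit 548191665) (nat_lit 684) (nat_lit 548191665) (nat_lit 331) (nat_lit 1) (nat_lit 321) (nat_lit 1)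 (nat_lit 330) (nat_lit 1) (nat_lit 437) (nat_lit 377) (nat_lit 326)) (XT.lf (nat_lit 76) (nat_lit 461801505) (nat_lit 0) (nat_lit 1460578932) (nat_lit 760) (nat_lit 461801505) (nat_lit 322) (nat_lit 1) (nat_lit 321) (nat_lit 1) (nat_lit 331) (nat_lit 1) (nat_lit 438) (nat_lit 377) (nat_lit 325))) (XT.nd (nat_lit 78) (nat_lit 0) (nat_lit 0) (XT.lf (nat_lit 684) (nat_lit 537346401) (nat_lit 0) (nat_lit 913527051) (nat_lit 608) (nat_lit 913527051) (nat_lit 322) (nat_lit 1) (nat_lit 313) (nat_lit 1) (nat_lit 321) (nat_lit 1) (nat_lit 439) (nat_lit 377) (nat_lit 324)) (XT.lf (nat_lit 76) (nat_lit 77552432) (nat_lit 0) (nat_lit 2189832295) (nat_lit 684) (nat_lit 77552432) (nat_lit 314) (nat_lit 1) (nat_lit 313) (nat_lit 1) (nat_lit 322) (nat_lit 1) (nat_lit 440) (nat_lit 377) (nat_lit 323)))) (XT.nd (nat_lit 156) (nat_lit 608) (nat_lit 0) (XT.nd (nat_lit 78) (nat_lit 608) (nat_lit 0) (XT.lf (nat_lit 76) (nat_lit 1047281816) (nat_lit 0) (nat_lit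 230978940) (nat_lit 684) (nat_lit 1047281816) (nat_lit 305) (nat_lit 1) (nat_lit 304) (nat_lit 1) (nat_lit 313) (nat_lit 1) (nat_lit 441) (nat_lit 377) (nat_lit 322)) (XT.lf (nat_lit 684) (nat_lit 1696476991) (nat_lit 0) (nat_lit 304990930) (nat_lit 608) (nat_lit 304990930) (nat_lit 305) (nat_lit 1) (nat_lit 296) (nat_lit 1) (nat_lit 304) (nat_lit 1) (nat_lit 442) (nat_lit 377) (nat_lit 321))) (XT.nd (nat_lit 78) (nat_lit 608) (nat_lit 0) (XT.lf (nat_lit 76) (nat_lit 647480511) (nat_lit 0) (nat_lit 992568004) (nat_lit 684) (nat_lit 647480511) (nat_lit 297) (nat_lit 1) (nat_lit 296) (nat_lit 1) (nat_lit 305) (nat_lit 1) (nat_lit 443) (nat_lit 377) (nat_lit 320)) (XT.nd (nat_lit 78) (nat_lit 0) (nat_lit 0) (XT.lf (nat_lit 684) (nat_lit 894787863) (nat_lit 0) (nat_lit 687027235) (nat_lit 608) (nat_lit 687027235) (nat_lit 297) (nat_lit 1) (nat_lit 288) (nat_lit 1) (nat_lit 296) (nat_lit 1) (nat_lit 444) (nat_lit 377) (nat_lit 319)) (XT.lf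 (nat_lit 76) (nat_lit 248267744) (nat_lit 0) (nat_lit 1753870368) (nat_lit 684) (nat_lit 248267744) (nat_lit 289) (nat_lit 1) (nat_lit 288) (nat_lit 1) (nat_lit 297) (nat_lit 1) (nat_lit 445) (nat_lit 377) (nat_lit 318))))))) (XT.nd (nat_lit 55068) (nat_lit 0) (nat_lit 17328) (XT.nd (nat_lit 54678) (nat_lit 0) (nat_lit 17176) (XT.nd (nat_lit 54522) (nat_lit 0) (nat_lit 17100) (XT.nd (nat_lit 78) (nat_lit 684) (nat_lit 0) (XT.lf (nat_lit 608) (nat_lit 94553365) (nat_lit 0) (nat_lit 1068775634) (nat_lit 532) (nat_lit 1068775634) (nat_lit 289) (nat_lit 1) (nat_lit 281) (nat_lit 1) (nat_lit 288) (nat_lit 1) (nat_lit 446) (nat_lit 377) (nat_lit 317)) (XT.lf (nat_lit 684) (nat_lit 1915873642) (nat_lit 0) (nat_lit 149099058) (nat_lit 608) (nat_lit 149099058) (nat_lit 281) (nat_lit 1) (nat_lit 272) (nat_lit 1) (nat_lit 280) (nat_lit 1) (nat_lit 447) (nat_lit 377) (nat_lit 316))) (XT.nd (nat_lit 78) (nat_lit 0) (nat_lit 0) (XT.lf (nat_lit 1900)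 (nat_lit 648313420) (nat_lit 0) (nat_lit 653734828) (nat_lit 1900) (nat_lit 648313420) (nat_lit 522) (nat_lit 1) (nat_lit 497) (nat_lit 0) (nat_lit 522) (nat_lit 0) (nat_lit 384) (nat_lit 378) (nat_lit 378)) (XT.lf (nat_lit 1900) (nat_lit 2563528739) (nat_lit 76) (nat_lit 649433941) (nat_lit 0) (nat_lit 649433941) (nat_lit 522) (nat_lit 1) (nat_lit 498) (nat_lit 1) (nat_lit 497) (nat_lit 0) (nat_lit 385) (nat_lit 378) (nat_lit 377)))) (XT.nd (nat_lit 156) (nat_lit 0) (nat_lit 76) (XT.nd (nat_lit 78) (nat_lit 0) (nat_lit 0) (XT.lf (nat_lit 1900) (nat_lit 1258704813) (nat_lit 0) (nat_lit 1307078900) (nat_lit 1824) (nat_lit 1258704813) (nat_lit 523) (nat_lit 1) (nat_lit 498) (nat_lit 1) (nat_lit 522) (nat_lit 1) (nat_lit 386) (nat_lit 378) (nat_lit 376)) (XT.lf (nat_lit 1900) (nat_lit 2463595607) (nat_lit 76) (nat_lit 661779754) (nat_lit 0) (nat_lit 661779754) (nat_lit 523) (nat_lit 1) (nat_lit 499) (nat_lit 1) (nat_lit 498) (nat_lit 1)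 (nat_lit 387) (nat_lit 378) (nat_lit 375))) (XT.nd (nat_lit 78) (nat_lit 0) (nat_lit 0) (XT.lf (nat_lit 1900) (nat_lit 1197260781) (nat_lit 0) (nat_lit 1355712264) (nat_lit 1824) (nat_lit 1197260781) (nat_lit 524) (nat_lit 1) (nat_lit 499) (nat_lit 1) (nat_lit 523) (nat_lit 1) (nat_lit 388) (nat_lit 378) (nat_lit 374)) (XT.nd (nat_lit 78) (nat_lit 0) (nat_lit 76) (XT.lf (nat_lit 1900) (nat_lit 2317882751) (nat_lit 76) (nat_lit 697989423) (nat_lit 0) (nat_lit 697989423) (nat_lit 524) (nat_lit 1) (nat_lit 500) (nat_lit 1) (nat_lit 499) (nat_lit 1) (nat_lit 389) (nat_lit 378) (nat_lit 373)) (XT.lf (nat_lit 1900) (nat_lit 1113698222) (nat_lit 0) (nat_lit 1450505123) (nat_lit 1824) (nat_lit 1113698222) (nat_lit 525) (nat_lit 1) (nat_lit 500) (nat_lit 1) (nat_lit 524) (nat_lit 1) (nat_lit 390) (nat_lit 378) (nat_lit 372)))))) (XT.nd (nat_lit 312) (nat_lit 0) (nat_lit 152) (XT.nd (nat_lit 156) (nat_lit 0) (nat_lit 76) (XT.nd (nat_lit 78) (nat_lit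 0) (nat_lit 76) (XT.lf (nat_lit 1900) (nat_lit 2129141582) (nat_lit 76) (nat_lit 756658969) (nat_lit 0) (nat_lit 756658969) (nat_lit 525) (nat_lit 1) (nat_lit 501) (nat_lit 1) (nat_lit 500) (nat_lit 1) (nat_lit 391) (nat_lit 378) (nat_lit 371)) (XT.lf (nat_lit 1900) (nat_lit 1009356505) (nat_lit 0) (nat_lit 1588722930) (nat_lit 1824) (nat_lit 1009356505) (nat_lit 526) (nat_lit 1) (nat_lit 501) (nat_lit 1) (nat_lit 525) (nat_lit 1) (nat_lit 392) (nat_lit 378) (nat_lit 370))) (XT.nd (nat_lit 78) (nat_lit 0) (nat_lit 76) (XT.lf (nat_lit 1900) (nat_lit 1899997580) (nat_lit 76) (nat_lit 836448286) (nat_lit 0) (nat_lit 836448286) (nat_lit 526) (nat_lit 1) (nat_lit 502) (nat_lit 1) (nat_lit 501) (nat_lit 1) (nat_lit 393) (nat_lit 378) (nat_lit 369)) (XT.lf (nat_lit 1900) (nat_lit 885513569) (nat_lit 0) (nat_lit 1767755796) (nat_lit 1824) (nat_lit 885513569) (nat_lit 527) (nat_lit 1) (nat_lit 502) (nat_lit 1) (nat_lit 526) (nat_lit 1) (nat_lit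 394) (nat_lit 378) (nat_lit 368)))) (XT.nd (nat_lit 156) (nat_lit 0) (nat_lit 76) (XT.nd (nat_lit 78) (nat_lit 0) (nat_lit 76) (XT.lf (nat_lit 1900) (nat_lit 1632955555) (nat_lit 76) (nat_lit 936078484) (nat_lit 0) (nat_lit 936078484) (nat_lit 527) (nat_lit 1) (nat_lit 503) (nat_lit 1) (nat_lit 502) (nat_lit 1) (nat_lit 395) (nat_lit 378) (nat_lit 367)) (XT.lf (nat_lit 1900) (nat_lit 743388492) (nat_lit 0) (nat_lit 1985113291) (nat_lit 1824) (nat_lit 743388492) (nat_lit 528) (nat_lit 1) (nat_lit 503) (nat_lit 1) (nat_lit 527) (nat_lit 1) (nat_lit 396) (nat_lit 378) (nat_lit 366))) (XT.nd (nat_lit 78) (nat_lit 0) (nat_lit 76) (XT.lf (nat_lit 1900) (nat_lit 1330404703) (nat_lit 76) (nat_lit 1054329330) (nat_lit 0) (nat_lit 1054329330) (nat_lit 528) (nat_lit 1) (nat_lit 504) (nat_lit 1) (nat_lit 503) (nat_lit 1) (nat_lit 397) (nat_lit 378) (nat_lit 365)) (XT.nd (nat_lit 78) (nat_lit 0) (nat_lit 0) (XT.lf (nat_lit 1900) (nat_lit 584143959)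 (nat_lit 0) (nat_lit 2238419442) (nat_lit 1824) (nat_lit 584143959) (nat_lit 529) (nat_lit 1) (nat_lit 504) (nat_lit 1) (nat_lit 528) (nat_lit 1) (nat_lit 398) (nat_lit 378) (nat_lit 364)) (XT.lf (nat_lit 1900) (nat_lit 994623450) (nat_lit 76) (nat_lit 1190036792) (nat_lit 0) (nat_lit 1190036792) (nat_lit 529) (nat_lit 1) (nat_lit 505) (nat_lit 1) (nat_lit 504) (nat_lit 1) (nat_lit 399) (nat_lit 378) (nat_lit 363))))))))
noncomputable def ec29 : XT := (XT.nd (nat_lit 1404) (nat_lit 7600) (nat_lit 0) (XT.nd (nat_lit 702) (nat_lit 4636) (nat_lit 0) (XT.nd (nat_lit 312) (nat_lit 1748) (nat_lit 0) (XT.nd (nat_lit 156) (nat_lit 0) (nat_lit 76) (XT.nd (nat_lit 78) (nat_lit 0) (nat_lit 0) (XT.lf (nat_lit 1900) (nat_lit 408888628) (nat_lit 0) (nat_lit 2525407950) (nat_lit 1824) (nat_lit 408888628) (nat_lit 530) (nat_lit 1) (nat_lit 505) (nat_lit 1) (nat_lit 529) (nat_lit 1) (nat_lit 400) (nat_lit 378) (nat_lit 362)) (XT.lf (nat_lit 1900) (nat_lit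 627784111) (nat_lit 76) (nat_lit 1342090686) (nat_lit 0) (nat_lit 1342090686) (nat_lit 530) (nat_lit 1) (nat_lit 506) (nat_lit 1) (nat_lit 505) (nat_lit 1) (nat_lit 401) (nat_lit 378) (nat_lit 361))) (XT.nd (nat_lit 78) (nat_lit 0) (nat_lit 0) (XT.lf (nat_lit 1900) (nat_lit 218679405) (nat_lit 0) (nat_lit 2843917583) (nat_lit 1824) (nat_lit 218679405) (nat_lit 531) (nat_lit 1) (nat_lit 506) (nat_lit 1) (nat_lit 530) (nat_lit 1) (nat_lit 402) (nat_lit 378) (nat_lit 360)) (XT.lf (nat_lit 1900) (nat_lit 231957354) (nat_lit 76) (nat_lit 1509432415) (nat_lit 0) (nat_lit 1509432415) (nat_lit 531) (nat_lit 1) (nat_lit 507) (nat_lit 1) (nat_lit 506) (nat_lit 1) (nat_lit 403) (nat_lit 378) (nat_lit 359)))) (XT.nd (nat_lit 156) (nat_lit 0) (nat_lit 0) (XT.nd (nat_lit 78) (nat_lit 1900) (nat_lit 0) (XT.lf (nat_lit 1900) (nat_lit 14523618) (nat_lit 0) (nat_lit 3191887762) (nat_lit 1824) (nat_lit 14523618) (nat_lit 532) (nat_lit 1) (nat_lit 507) (nat_lit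 1) (nat_lit 531) (nat_lit 1) (nat_lit 404) (nat_lit 378) (nat_lit 358)) (XT.lf (nat_lit 1976) (nat_lit 1501408629) (nat_lit 0) (nat_lit 188380041) (nat_lit 1900) (nat_lit 1501408629) (nat_lit 508) (nat_lit 1) (nat_lit 482) (nat_lit 1) (nat_lit 507) (nat_lit 1) (nat_lit 405) (nat_lit 378) (nat_lit 357))) (XT.nd (nat_lit 78) (nat_lit 0) (nat_lit 76) (XT.lf (nat_lit 1976) (nat_lit 2759439242) (nat_lit 76) (nat_lit 201285863) (nat_lit 0) (nat_lit 201285863) (nat_lit 508) (nat_lit 1) (nat_lit 483) (nat_lit 1) (nat_lit 482) (nat_lit 1) (nat_lit 406) (nat_lit 378) (nat_lit 356)) (XT.nd (nat_lit 78) (nat_lit 0) (nat_lit 0) (XT.lf (nat_lit 1976) (nat_lit 1251279456) (nat_lit 0) (nat_lit 630479686) (nat_lit 1900) (nat_lit 1251279456) (nat_lit 509) (nat_lit 1) (nat_lit 483) (nat_lit 1) (nat_lit 508) (nat_lit 1) (nat_lit 407) (nat_lit 378) (nat_lit 355)) (XT.lf (nat_lit 1976) (nat_lit 2246567558) (nat_lit 76) (nat_lit 428992712) (nat_lit 0) (nat_lit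 428992712) (nat_lit 509) (nat_lit 1) (nat_lit 484) (nat_lit 1) (nat_lit 483) (nat_lit 1) (nat_lit 408) (nat_lit 378) (nat_lit 354)))))) (XT.nd (nat_lit 312) (nat_lit 2736) (nat_lit 0) (XT.nd (nat_lit 156) (nat_lit 912) (nat_lit 0) (XT.nd (nat_lit 78) (nat_lit 1140) (nat_lit 0) (XT.lf (nat_lit 76) (nat_lit 990358856) (nat_lit 0) (nat_lit 1095616471) (nat_lit 1900) (nat_lit 990358856) (nat_lit 485) (nat_lit 1) (nat_lit 484) (nat_lit 1) (nat_lit 509) (nat_lit 1) (nat_lit 409) (nat_lit 378) (nat_lit 353)) (XT.lf (nat_lit 1216) (nat_lit 1712872605) (nat_lit 0) (nat_lit 667827377) (nat_lit 1140) (nat_lit 667827377) (nat_lit 485) (nat_lit 1) (nat_lit 469) (nat_lit 1) (nat_lit 484) (nat_lit 1) (nat_lit 410) (nat_lit 378) (nat_lit 352))) (XT.nd (nat_lit 78) (nat_lit 912) (nat_lit 0) (XT.lf (nat_lit 76) (nat_lit 719467918) (nat_lit 0) (nat_lit 1582107512) (nat_lit 1216) (nat_lit 719467918) (nat_lit 470) (nat_lit 1) (nat_lit 469) (nat_lit 1) (nat_lit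 485) (nat_lit 1) (nat_lit 411) (nat_lit 378) (nat_lit 351)) (XT.lf (nat_lit 988) (nat_lit 1159961773) (nat_lit 0) (nat_lit 916966186) (nat_lit 912) (nat_lit 916966186) (nat_lit 470) (nat_lit 1) (nat_lit 457) (nat_lit 1) (nat_lit 469) (nat_lit 1) (nat_lit 412) (nat_lit 378) (nat_lit 350)))) (XT.nd (nat_lit 156) (nat_lit 1824) (nat_lit 0) (XT.nd (nat_lit 78) (nat_lit 912) (nat_lit 0) (XT.lf (nat_lit 76) (nat_lit 439387962) (nat_lit 0) (nat_lit 2088350734) (nat_lit 988) (nat_lit 439387962) (nat_lit 458) (nat_lit 1) (nat_lit 457) (nat_lit 1) (nat_lit 470) (nat_lit 1) (nat_lit 413) (nat_lit 378) (nat_lit 349)) (XT.lf (nat_lit 988) (nat_lit 589364374) (nat_lit 0) (nat_lit 1175625126) (nat_lit 912) (nat_lit 1175625126) (nat_lit 458) (nat_lit 1) (nat_lit 445) (nat_lit 1) (nat_lit 457) (nat_lit 1) (nat_lit 414) (nat_lit 378) (nat_lit 348))) (XT.nd (nat_lit 78) (nat_lit 1824) (nat_lit 0) (XT.lf (nat_lit 76) (nat_lit 150862242) (nat_lit 0) (nat_lit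 2612821424) (nat_lit 988) (nat_lit 150862242) (nat_lit 446) (nat_lit 1) (nat_lit 445) (nat_lit 1) (nat_lit 458) (nat_lit 1) (nat_lit 415) (nat_lit 378) (nat_lit 347)) (XT.nd (nat_lit 78) (nat_lit 988) (nat_lit 0) (XT.lf (nat_lit 912) (nat_lit 2534979) (nat_lit 0) (nat_lit 1443058156) (nat_lit 836) (nat_lit 1443058156) (nat_lit 446) (nat_lit 1) (nat_lit 434) (nat_lit 1) (nat_lit 445) (nat_lit 1) (nat_lit 416) (nat_lit 378) (nat_lit 346)) (XT.lf (nat_lit 988) (nat_lit 2574296642) (nat_lit 0) (nat_lit 144445831) (nat_lit 912) (nat_lit 144445831) (nat_lit 434) (nat_lit 1) (nat_lit 421) (nat_lit 1) (nat_lit 433) (nat_lit 1) (nat_lit 417) (nat_lit 378) (nat_lit 345))))))) (XT.nd (nat_lit 702) (nat_lit 3572) (nat_lit 0) (XT.nd (nat_lit 312) (nat_lit 2356) (nat_lit 0) (XT.nd (nat_lit 156) (nat_lit 836) (nat_lit 0) (XT.nd (nat_lit 78) (nat_lit 836) (nat_lit 0) (XT.lf (nat_lit 76) (nat_lit 1123302242) (nat_lit 0) (nat_lit 591285505) (nat_lit 988)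 (nat_lit 1123302242) (nat_lit 422) (nat_lit 1) (nat_lit 421) (nat_lit 1) (nat_lit 434) (nat_lit 1) (nat_lit 418) (nat_lit 378) (nat_lit 344)) (XT.lf (nat_lit 912) (nat_lit 1921447626) (nat_lit 0) (nat_lit 445781908) (nat_lit 836) (nat_lit 445781908) (nat_lit 422) (nat_lit 1) (nat_lit 410) (nat_lit 1) (nat_lit 421) (nat_lit 1) (nat_lit 419) (nat_lit 378) (nat_lit 343))) (XT.nd (nat_lit 78) (nat_lit 836) (nat_lit 0) (XT.lf (nat_lit 76) (nat_lit 794970787) (nat_lit 0) (nat_lit 1198429631) (nat_lit 912) (nat_lit 794970787) (nat_lit 411) (nat_lit 1) (nat_lit 410) (nat_lit 1) (nat_lit 422) (nat_lit 1) (nat_lit 420) (nat_lit 378) (nat_lit 342)) (XT.lf (nat_lit 912) (nat_lit 1257051236) (nat_lit 0) (nat_lit 753504139) (nat_lit 836) (nat_lit 753504139) (nat_lit 411) (nat_lit 1) (nat_lit 399) (nat_lit 1) (nat_lit 410) (nat_lit 1) (nat_lit 421) (nat_lit 378) (nat_lit 341)))) (XT.nd (nat_lit 156) (nat_lit 1596) (nat_lit 0) (XT.nd (nat_lit 78) (nat_lit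 760) (nat_lit 0) (XT.lf (nat_lit 76) (nat_lit 461181658) (nat_lit 0) (nat_lit 1817697973) (nat_lit 912) (nat_lit 461181658) (nat_lit 400) (nat_lit 1) (nat_lit 399) (nat_lit 1) (nat_lit 411) (nat_lit 1) (nat_lit 422) (nat_lit 378) (nat_lit 340)) (XT.lf (nat_lit 836) (nat_lit 582279365) (nat_lit 0) (nat_lit 1067009886) (nat_lit 760) (nat_lit 1067009886) (nat_lit 400) (nat_lit 1) (nat_lit 389) (nat_lit 1) (nat_lit 399) (nat_lit 1) (nat_lit 423) (nat_lit 378) (nat_lit 339))) (XT.nd (nat_lit 78) (nat_lit 1596) (nat_lit 0) (XT.lf (nat_lit 76) (nat_lit 122503786) (nat_lit 0) (nat_lit 2447919727) (nat_lit 836) (nat_lit 122503786) (nat_lit 390) (nat_lit 1) (nat_lit 389) (nat_lit 1) (nat_lit 400) (nat_lit 1) (nat_lit 424) (nat_lit 378) (nat_lit 338)) (XT.nd (nat_lit 78) (nat_lit 760) (nat_lit 0) (XT.lf (nat_lit 76) (nat_lit 1284631752) (nat_lit 0) (nat_lit 100421236) (nat_lit 836) (nat_lit 1284631752) (nat_lit 379) (nat_lit 1) (nat_lit 378) (nat_lit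 1) (nat_lit 389) (nat_lit 1) (nat_lit 425) (nat_lit 378) (nat_lit 337)) (XT.lf (nat_lit 836) (nat_lit 2208678013) (nat_lit 0) (nat_lit 219072179) (nat_lit 760) (nat_lit 219072179) (nat_lit 379) (nat_lit 1) (nat_lit 368) (nat_lit 1) (nat_lit 378) (nat_lit 1) (nat_lit 426) (nat_lit 378) (nat_lit 336)))))) (XT.nd (nat_lit 390) (nat_lit 2128) (nat_lit 0) (XT.nd (nat_lit 156) (nat_lit 684) (nat_lit 0) (XT.nd (nat_lit 78) (nat_lit 760) (nat_lit 0) (XT.lf (nat_lit 76) (nat_lit 920267910) (nat_lit 0) (nat_lit 783585660) (nat_lit 836) (nat_lit 920267910) (nat_lit 369) (nat_lit 1) (nat_lit 368) (nat_lit 1) (nat_lit 379) (nat_lit 1) (nat_lit 427) (nat_lit 378) (nat_lit 335)) (XT.lf (nat_lit 836) (nat_lit 1474456932) (nat_lit 0) (nat_lit 563653845) (nat_lit 760) (nat_lit 563653845) (nat_lit 369) (nat_lit 1) (nat_lit 358) (nat_lit 1) (nat_lit 368) (nat_lit 1) (nat_lit 428) (nat_lit 378) (nat_lit 334))) (XT.nd (nat_lit 78) (nat_lit 684) (nat_lit 0)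 (XT.lf (nat_lit 76) (nat_lit 552895723) (nat_lit 0) (nat_lit 1473863226) (nat_lit 836) (nat_lit 552895723) (nat_lit 359) (nat_lit 1) (nat_lit 358) (nat_lit 1) (nat_lit 369) (nat_lit 1) (nat_lit 429) (nat_lit 378) (nat_lit 333)) (XT.nd (nat_lit 78) (nat_lit 0) (nat_lit 0) (XT.lf (nat_lit 760) (nat_lit 734658227) (nat_lit 0) (nat_lit 911564948) (nat_lit 684) (nat_lit 911564948) (nat_lit 359) (nat_lit 1) (nat_lit 349) (nat_lit 1) (nat_lit 358) (nat_lit 1) (nat_lit 430) (nat_lit 378) (nat_lit 332)) (XT.lf (nat_lit 76) (nat_lit 182968421) (nat_lit 0) (nat_lit 2170318089) (nat_lit 760) (nat_lit 182968421) (nat_lit 350) (nat_lit 1) (nat_lit 349) (nat_lit 1) (nat_lit 359) (nat_lit 1) (nat_lit 431) (nat_lit 378) (nat_lit 331))))) (XT.nd (nat_lit 156) (nat_lit 684) (nat_lit 0) (XT.nd (nat_lit 78) (nat_lit 684) (nat_lit 0) (XT.lf (nat_lit 76) (nat_lit 1252579280) (nat_lit 0) (nat_lit 9704154) (nat_lit 760) (nat_lit 1252579280) (nat_lit 340) (nat_lit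 1) (nat_lit 339) (nat_lit 1) (nat_lit 349) (nat_lit 1) (nat_lit 432) (nat_lit 378) (nat_lit 330)) (XT.lf (nat_lit 760) (nat_lit 2118113256) (nat_lit 0) (nat_lit 187840980) (nat_lit 684) (nat_lit 187840980) (nat_lit 340) (nat_lit 1) (nat_lit 330) (nat_lit 1) (nat_lit 339) (nat_lit 1) (nat_lit 433) (nat_lit 378) (nat_lit 329))) (XT.nd (nat_lit 78) (nat_lit 684) (nat_lit 0) (XT.lf (nat_lit 76) (nat_lit 862314917) (nat_lit 0) (nat_lit 748235927) (nat_lit 760) (nat_lit 862314917) (nat_lit 331) (nat_lit 1) (nat_lit 330) (nat_lit 1) (nat_lit 340) (nat_lit 1) (nat_lit 434) (nat_lit 378) (nat_lit 328)) (XT.nd (nat_lit 78) (nat_lit 0) (nat_lit 0) (XT.lf (nat_lit 760) (nat_lit 1333939169) (nat_lit 0) (nat_lit 559155498) (nat_lit 684) (nat_lit 559155498) (nat_lit 331) (nat_lit 1) (nat_lit 321) (nat_lit 1) (nat_lit 330) (nat_lit 1) (nat_lit 435) (nat_lit 378) (nat_lit 327)) (XT.lf (nat_lit 76) (nat_lit 471037535) (nat_lit 0) (nat_lit 1489790511) (nat_lit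 760) (nat_lit 471037535) (nat_lit 322) (nat_lit 1) (nat_lit 321) (nat_lit 1) (nat_lit 331) (nat_lit 1) (nat_lit 436) (nat_lit 378) (nat_lit 326))))))))
noncomputable def ec30 : XT := (XT.nd (nat_lit 55614) (nat_lit 0) (nat_lit 16492) (XT.nd (nat_lit 702) (nat_lit 532) (nat_lit 0) (XT.nd (nat_lit 312) (nat_lit 1824) (nat_lit 0) (XT.nd (nat_lit 156) (nat_lit 1292) (nat_lit 0) (XT.nd (nat_lit 78) (nat_lit 0) (nat_lit 0) (XT.lf (nat_lit 684) (nat_lit 548093329) (nat_lit 0) (nat_lit 931797592) (nat_lit 608) (nat_lit 931797592) (nat_lit 322) (nat_lit 1) (nat_lit 313) (nat_lit 1) (nat_lit 321) (nat_lit 1) (nat_lit 437) (nat_lit 378) (nat_lit 325)) (XT.lf (nat_lit 76) (nat_lit 79103481) (nat_lit 0) (nat_lit 2233628941) (nat_lit 684) (nat_lit 79103481) (nat_lit 314) (nat_lit 1) (nat_lit 313) (nat_lit 1) (nat_lit 322) (nat_lit 1) (nat_lit 438) (nat_lit 378) (nat_lit 324))) (XT.nd (nat_lit 78) (nat_lit 608) (nat_lit 0) (XT.lf (nat_lit 76) (nat_lit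 1068227452) (nat_lit 0) (nat_lit 235598519) (nat_lit 684) (nat_lit 1068227452) (nat_lit 305) (nat_lit 1) (nat_lit 304) (nat_lit 1) (nat_lit 313) (nat_lit 1) (nat_lit 439) (nat_lit 378) (nat_lit 323)) (XT.lf (nat_lit 684) (nat_lit 1730406530) (nat_lit 0) (nat_lit 311090748) (nat_lit 608) (nat_lit 311090748) (nat_lit 305) (nat_lit 1) (nat_lit 296) (nat_lit 1) (nat_lit 304) (nat_lit 1) (nat_lit 440) (nat_lit 378) (nat_lit 322)))) (XT.nd (nat_lit 156) (nat_lit 1216) (nat_lit 0) (XT.nd (nat_lit 78) (nat_lit 608) (nat_lit 0) (XT.lf (nat_lit 76) (nat_lit 660430121) (nat_lit 0) (nat_lit 1012419364) (nat_lit 684) (nat_lit 660430121) (nat_lit 297) (nat_lit 1) (nat_lit 296) (nat_lit 1) (nat_lit 305) (nat_lit 1) (nat_lit 441) (nat_lit 378) (nat_lit 321)) (XT.lf (nat_lit 684) (nat_lit 912683620) (nat_lit 0) (nat_lit 700767780) (nat_lit 608) (nat_lit 700767780) (nat_lit 297) (nat_lit 1) (nat_lit 288) (nat_lit 1) (nat_lit 296) (nat_lit 1) (nat_lit 442)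 (nat_lit 378) (nat_lit 320))) (XT.nd (nat_lit 78) (nat_lit 1216) (nat_lit 0) (XT.lf (nat_lit 76) (nat_lit 253233099) (nat_lit 0) (nat_lit 1788947775) (nat_lit 684) (nat_lit 253233099) (nat_lit 289) (nat_lit 1) (nat_lit 288) (nat_lit 1) (nat_lit 297) (nat_lit 1) (nat_lit 443) (nat_lit 378) (nat_lit 319)) (XT.nd (nat_lit 78) (nat_lit 684) (nat_lit 0) (XT.lf (nat_lit 608) (nat_lit 96444432) (nat_lit 0) (nat_lit 1090151146) (nat_lit 532) (nat_lit 1090151146) (nat_lit 289) (nat_lit 1) (nat_lit 281) (nat_lit 1) (nat_lit 288) (nat_lit 1) (nat_lit 444) (nat_lit 378) (nat_lit 318)) (XT.lf (nat_lit 684) (nat_lit 1954191115) (nat_lit 0) (nat_lit 152081039) (nat_lit 608) (nat_lit 152081039) (nat_lit 281) (nat_lit 1) (nat_lit 272) (nat_lit 1) (nat_lit 280) (nat_lit 1) (nat_lit 445) (nat_lit 378) (nat_lit 317)))))) (XT.nd (nat_lit 54522) (nat_lit 0) (nat_lit 17708) (XT.nd (nat_lit 54366) (nat_lit 0) (nat_lit 17632) (XT.nd (nat_lit 78) (nat_lit 532)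 (nat_lit 0) (XT.lf (nat_lit 76) (nat_lit 765846451) (nat_lit 0) (nat_lit 708361380) (nat_lit 684) (nat_lit 765846451) (nat_lit 273) (nat_lit 1) (nat_lit 272) (nat_lit 1) (nat_lit 281) (nat_lit 1) (nat_lit 446) (nat_lit 378) (nat_lit 316)) (XT.lf (nat_lit 608) (nat_lit 1112818697) (nat_lit 0) (nat_lit 554602050) (nat_lit 532) (nat_lit 554602050) (nat_lit 273) (nat_lit 1) (nat_lit 265) (nat_lit 1) (nat_lit 272) (nat_lit 1) (nat_lit 447) (nat_lit 378) (nat_lit 315))) (XT.nd (nat_lit 78) (nat_lit 0) (nat_lit 0) (XT.lf (nat_lit 1900) (nat_lit 661279688) (nat_lit 0) (nat_lit 666809525) (nat_lit 1900) (nat_lit 661279688) (nat_lit 522) (nat_lit 1) (nat_lit 497) (nat_lit 0) (nat_lit 522) (nat_lit 0) (nat_lit 382) (nat_lit 379) (nat_lit 379)) (XT.lf (nat_lit 1900) (nat_lit 2614799314) (nat_lit 76) (nat_lit 662422620) (nat_lit 0) (nat_lit 662422620) (nat_lit 522) (nat_lit 1) (nat_lit 498) (nat_lit 1) (nat_lit 497) (nat_lit 0) (nat_lit 383) (nat_lit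 379) (nat_lit 378)))) (XT.nd (nat_lit 156) (nat_lit 0) (nat_lit 76) (XT.nd (nat_lit 78) (nat_lit 0) (nat_lit 0) (XT.lf (nat_lit 1900) (nat_lit 1283878909) (nat_lit 0) (nat_lit 1333220478) (nat_lit 1824) (nat_lit 1283878909) (nat_lit 523) (nat_lit 1) (nat_lit 498) (nat_lit 1) (nat_lit 522) (nat_lit 1) (nat_lit 384) (nat_lit 379) (nat_lit 377)) (XT.lf (nat_lit 1900) (nat_lit 2512867520) (nat_lit 76) (nat_lit 675015349) (nat_lit 0) (nat_lit 675015349) (nat_lit 523) (nat_lit 1) (nat_lit 499) (nat_lit 1) (nat_lit 498) (nat_lit 1) (nat_lit 385) (nat_lit 379) (nat_lit 376))) (XT.nd (nat_lit 78) (nat_lit 0) (nat_lit 0) (XT.lf (nat_lit 1900) (nat_lit 1221205997) (nat_lit 0) (nat_lit 1382826509) (nat_lit 1824) (nat_lit 1221205997) (nat_lit 524) (nat_lit 1) (nat_lit 499) (nat_lit 1) (nat_lit 523) (nat_lit 1) (nat_lit 386) (nat_lit 379) (nat_lit 375)) (XT.nd (nat_lit 78) (nat_lit 0) (nat_lit 76) (XT.lf (nat_lit 1900) (nat_lit 2364240406) (nat_lit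 76) (nat_lit 711949212) (nat_lit 0) (nat_lit 711949212) (nat_lit 524) (nat_lit 1) (nat_lit 500) (nat_lit 1) (nat_lit 499) (nat_lit 1) (nat_lit 387) (nat_lit 379) (nat_lit 374)) (XT.lf (nat_lit 1900) (nat_lit 1135972186) (nat_lit 0) (nat_lit 1479515225) (nat_lit 1824) (nat_lit 1135972186) (nat_lit 525) (nat_lit 1) (nat_lit 500) (nat_lit 1) (nat_lit 524) (nat_lit 1) (nat_lit 388) (nat_lit 379) (nat_lit 373))))))) (XT.nd (nat_lit 702) (nat_lit 1368) (nat_lit 0) (XT.nd (nat_lit 312) (nat_lit 0) (nat_lit 152) (XT.nd (nat_lit 156) (nat_lit 0) (nat_lit 76) (XT.nd (nat_lit 78) (nat_lit 0) (nat_lit 76) (XT.lf (nat_lit 1900) (nat_lit 2171724413) (nat_lit 76) (nat_lit 771792148) (nat_lit 0) (nat_lit 771792148) (nat_lit 525) (nat_lit 1) (nat_lit 501) (nat_lit 1) (nat_lit 500) (nat_lit 1) (nat_lit 389) (nat_lit 379) (nat_lit 372)) (XT.lf (nat_lit 1900) (nat_lit 1029543635) (nat_lit 0) (nat_lit 1620497388) (nat_lit 1824) (nat_lit 1029543635) (nat_lit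 526) (nat_lit 1) (nat_lit 501) (nat_lit 1) (nat_lit 525) (nat_lit 1) (nat_lit 390) (nat_lit 379) (nat_lit 371))) (XT.nd (nat_lit 78) (nat_lit 0) (nat_lit 76) (XT.lf (nat_lit 1900) (nat_lit 1937997531) (nat_lit 76) (nat_lit 853177252) (nat_lit 0) (nat_lit 853177252) (nat_lit 526) (nat_lit 1) (nat_lit 502) (nat_lit 1) (nat_lit 501) (nat_lit 1) (nat_lit 391) (nat_lit 379) (nat_lit 370)) (XT.lf (nat_lit 1900) (nat_lit 903223840) (nat_lit 0) (nat_lit 1803110912) (nat_lit 1824) (nat_lit 903223840) (nat_lit 527) (nat_lit 1) (nat_lit 502) (nat_lit 1) (nat_lit 526) (nat_lit 1) (nat_lit 392) (nat_lit 379) (nat_lit 369)))) (XT.nd (nat_lit 156) (nat_lit 0) (nat_lit 76) (XT.nd (nat_lit 78) (nat_lit 0) (nat_lit 76) (XT.lf (nat_lit 1900) (nat_lit 1665614666) (nat_lit 76) (nat_lit 954800054) (nat_lit 0) (nat_lit 954800054) (nat_lit 527) (nat_lit 1) (nat_lit 503) (nat_lit 1) (nat_lit 502) (nat_lit 1) (nat_lit 393) (nat_lit 379) (nat_lit 368)) (XT.lf (nat_lit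 1900) (nat_lit 758256261) (nat_lit 0) (nat_lit 2024815557) (nat_lit 1824) (nat_lit 758256261) (nat_lit 528) (nat_lit 1) (nat_lit 503) (nat_lit 1) (nat_lit 527) (nat_lit 1) (nat_lit 394) (nat_lit 379) (nat_lit 367))) (XT.nd (nat_lit 78) (nat_lit 0) (nat_lit 76) (XT.lf (nat_lit 1900) (nat_lit 1357012797) (nat_lit 76) (nat_lit 1075415917) (nat_lit 0) (nat_lit 1075415917) (nat_lit 528) (nat_lit 1) (nat_lit 504) (nat_lit 1) (nat_lit 503) (nat_lit 1) (nat_lit 395) (nat_lit 379) (nat_lit 366)) (XT.nd (nat_lit 78) (nat_lit 0) (nat_lit 0) (XT.lf (nat_lit 1900) (nat_lit 595826838) (nat_lit 0) (nat_lit 2283187831) (nat_lit 1824) (nat_lit 595826838) (nat_lit 529) (nat_lit 1) (nat_lit 504) (nat_lit 1) (nat_lit 528) (nat_lit 1) (nat_lit 396) (nat_lit 379) (nat_lit 365)) (XT.lf (nat_lit 1900) (nat_lit 1014515919) (nat_lit 76) (nat_lit 1213837528) (nat_lit 0) (nat_lit 1213837528) (nat_lit 529) (nat_lit 1) (nat_lit 505) (nat_lit 1) (nat_lit 504) (nat_lit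 1) (nat_lit 397) (nat_lit 379) (nat_lit 364)))))) (XT.nd (nat_lit 390) (nat_lit 1748) (nat_lit 0) (XT.nd (nat_lit 156) (nat_lit 0) (nat_lit 76) (XT.nd (nat_lit 78) (nat_lit 0) (nat_lit 0) (XT.lf (nat_lit 1900) (nat_lit 417066401) (nat_lit 0) (nat_lit 2575916109) (nat_lit 1824) (nat_lit 417066401) (nat_lit 530) (nat_lit 1) (nat_lit 505) (nat_lit 1) (nat_lit 529) (nat_lit 1) (nat_lit 398) (nat_lit 379) (nat_lit 363)) (XT.lf (nat_lit 1900) (nat_lit 640339793) (nat_lit 76) (nat_lit 1368932500) (nat_lit 0) (nat_lit 1368932500) (nat_lit 530) (nat_lit 1) (nat_lit 506) (nat_lit 1) (nat_lit 505) (nat_lit 1) (nat_lit 399) (nat_lit 379) (nat_lit 362))) (XT.nd (nat_lit 78) (nat_lit 0) (nat_lit 0) (XT.lf (nat_lit 1900) (nat_lit 223052993) (nat_lit 0) (nat_lit 2900795934) (nat_lit 1824) (nat_lit 223052993) (nat_lit 531) (nat_lit 1) (nat_lit 506) (nat_lit 1) (nat_lit 530) (nat_lit 1) (nat_lit 400) (nat_lit 379) (nat_lit 361)) (XT.nd (nat_lit 78) (nat_lit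 0) (nat_lit 76) (XT.lf (nat_lit 1900) (nat_lit 236596501) (nat_lit 76) (nat_lit 1539621064) (nat_lit 0) (nat_lit 1539621064) (nat_lit 531) (nat_lit 1) (nat_lit 507) (nat_lit 1) (nat_lit 506) (nat_lit 1) (nat_lit 401) (nat_lit 379) (nat_lit 360)) (XT.lf (nat_lit 1900) (nat_lit 14814090) (nat_lit 0) (nat_lit 3255725518) (nat_lit 1824) (nat_lit 14814090) (nat_lit 532) (nat_lit 1) (nat_lit 507) (nat_lit 1) (nat_lit 531) (nat_lit 1) (nat_lit 402) (nat_lit 379) (nat_lit 359))))) (XT.nd (nat_lit 156) (nat_lit 0) (nat_lit 76) (XT.nd (nat_lit 78) (nat_lit 0) (nat_lit 0) (XT.lf (nat_lit 1976) (nat_lit 1531436801) (nat_lit 0) (nat_lit 192147642) (nat_lit 1900) (nat_lit 1531436801) (nat_lit 508) (nat_lit 1) (nat_lit 482) (nat_lit 1) (nat_lit 507) (nat_lit 1) (nat_lit 403) (nat_lit 379) (nat_lit 358)) (XT.lf (nat_lit 1976) (nat_lit 2814628026) (nat_lit 76) (nat_lit 205311581) (nat_lit 0) (nat_lit 205311581) (nat_lit 508) (nat_lit 1) (nat_lit 483)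 (nat_lit 1) (nat_lit 482) (nat_lit 1) (nat_lit 404) (nat_lit 379) (nat_lit 357))) (XT.nd (nat_lit 78) (nat_lit 0) (nat_lit 0) (XT.lf (nat_lit 1976) (nat_lit 1276305045) (nat_lit 0) (nat_lit 643089280) (nat_lit 1900) (nat_lit 1276305045) (nat_lit 509) (nat_lit 1) (nat_lit 483) (nat_lit 1) (nat_lit 508) (nat_lit 1) (nat_lit 405) (nat_lit 379) (nat_lit 356)) (XT.nd (nat_lit 78) (nat_lit 0) (nat_lit 76) (XT.lf (nat_lit 1976) (nat_lit 2291498909) (nat_lit 76) (nat_lit 437572566) (nat_lit 0) (nat_lit 437572566) (nat_lit 509) (nat_lit 1) (nat_lit 484) (nat_lit 1) (nat_lit 483) (nat_lit 1) (nat_lit 406) (nat_lit 379) (nat_lit 355)) (XT.lf (nat_lit 76) (nat_lit 1010166033) (nat_lit 0) (nat_lit 1117528800) (nat_lit 1900) (nat_lit 1010166033) (nat_lit 485) (nat_lit 1) (nat_lit 484) (nat_lit 1) (nat_lit 509) (nat_lit 1) (nat_lit 407) (nat_lit 379) (nat_lit 354))))))))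
noncomputable def ec31 : XT := (XT.nd (nat_lit 1404) (nat_lit 7296) (nat_lit 0) (XT.nd (nat_lit 702) (nat_lit 4028) (nat_lit 0) (XT.nd (nat_lit 312) (nat_lit 2736) (nat_lit 0) (XT.nd (nat_lit 156) (nat_lit 912) (nat_lit 0) (XT.nd (nat_lit 78) (nat_lit 0) (nat_lit 0) (XT.lf (nat_lit 1216) (nat_lit 1747130057) (nat_lit 0) (nat_lit 681183925) (nat_lit 1140) (nat_lit 681183925) (nat_lit 485) (nat_lit 1) (nat_lit 469) (nat_lit 1) (nat_lit 484) (nat_lit 1) (nat_lit 408) (nat_lit 379) (nat_lit 353)) (XT.lf (nat_lit 76) (nat_lit 733857276) (nat_lit 0) (nat_lit 1613749662) (nat_lit 1216) (nat_lit 733857276) (nat_lit 470) (nat_lit 1) (nat_lit 469) (nat_lit 1) (nat_lit 485) (nat_lit 1) (nat_lit 409) (nat_lit 379) (nat_lit 352))) (XT.nd (nat_lit 78) (nat_lit 0) (nat_lit 0) (XT.lf (nat_lit 988) (nat_lit 1183161009) (nat_lit 0) (nat_lit 935305510) (nat_lit 912) (nat_lit 935305510) (nat_lit 470) (nat_lit 1) (nat_lit 457) (nat_lit 1) (nat_lit 469) (nat_lit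 1) (nat_lit 410) (nat_lit 379) (nat_lit 351)) (XT.lf (nat_lit 76) (nat_lit 448175721) (nat_lit 0) (nat_lit 2130117748) (nat_lit 988) (nat_lit 448175721) (nat_lit 458) (nat_lit 1) (nat_lit 457) (nat_lit 1) (nat_lit 470) (nat_lit 1) (nat_lit 411) (nat_lit 379) (nat_lit 350)))) (XT.nd (nat_lit 156) (nat_lit 1824) (nat_lit 0) (XT.nd (nat_lit 78) (nat_lit 0) (nat_lit 0) (XT.lf (nat_lit 988) (nat_lit 601151662) (nat_lit 0) (nat_lit 1199137629) (nat_lit 912) (nat_lit 1199137629) (nat_lit 458) (nat_lit 1) (nat_lit 445) (nat_lit 1) (nat_lit 457) (nat_lit 1) (nat_lit 412) (nat_lit 379) (nat_lit 349)) (XT.lf (nat_lit 76) (nat_lit 153879487) (nat_lit 0) (nat_lit 2665077853) (nat_lit 988) (nat_lit 153879487) (nat_lit 446) (nat_lit 1) (nat_lit 445) (nat_lit 1) (nat_lit 458) (nat_lit 1) (nat_lit 413) (nat_lit 379) (nat_lit 348))) (XT.nd (nat_lit 78) (nat_lit 988) (nat_lit 0) (XT.lf (nat_lit 912) (nat_lit 2585679) (nat_lit 0) (nat_lit 1471919319) (nat_lit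 836) (nat_lit 1471919319) (nat_lit 446) (nat_lit 1) (nat_lit 434) (nat_lit 1) (nat_lit 445) (nat_lit 1) (nat_lit 414) (nat_lit 379) (nat_lit 347)) (XT.nd (nat_lit 78) (nat_lit 0) (nat_lit 0) (XT.lf (nat_lit 988) (nat_lit 2625782575) (nat_lit 0) (nat_lit 147334748) (nat_lit 912) (nat_lit 147334748) (nat_lit 434) (nat_lit 1) (nat_lit 421) (nat_lit 1) (nat_lit 433) (nat_lit 1) (nat_lit 415) (nat_lit 379) (nat_lit 346)) (XT.lf (nat_lit 76) (nat_lit 1145768287) (nat_lit 0) (nat_lit 603111215) (nat_lit 988) (nat_lit 1145768287) (nat_lit 422) (nat_lit 1) (nat_lit 421) (nat_lit 1) (nat_lit 434) (nat_lit 1) (nat_lit 416) (nat_lit 379) (nat_lit 345)))))) (XT.nd (nat_lit 312) (nat_lit 2356) (nat_lit 0) (XT.nd (nat_lit 156) (nat_lit 836) (nat_lit 0) (XT.nd (nat_lit 78) (nat_lit 0) (nat_lit 0) (XT.lf (nat_lit 912) (nat_lit 1959876579) (nat_lit 0) (nat_lit 454697546) (nat_lit 836) (nat_lit 454697546) (nat_lit 422) (nat_lit 1) (nat_lit 410) (nat_lit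 1) (nat_lit 421) (nat_lit 1) (nat_lit 417) (nat_lit 379) (nat_lit 344)) (XT.lf (nat_lit 76) (nat_lit 810870203) (nat_lit 0) (nat_lit 1222398224) (nat_lit 912) (nat_lit 810870203) (nat_lit 411) (nat_lit 1) (nat_lit 410) (nat_lit 1) (nat_lit 422) (nat_lit 1) (nat_lit 418) (nat_lit 379) (nat_lit 343))) (XT.nd (nat_lit 78) (nat_lit 0) (nat_lit 0) (XT.lf (nat_lit 912) (nat_lit 1282192260) (nat_lit 0) (nat_lit 768574222) (nat_lit 836) (nat_lit 768574222) (nat_lit 411) (nat_lit 1) (nat_lit 399) (nat_lit 1) (nat_lit 410) (nat_lit 1) (nat_lit 419) (nat_lit 379) (nat_lit 342)) (XT.lf (nat_lit 76) (nat_lit 470405291) (nat_lit 0) (nat_lit 1854051933) (nat_lit 912) (nat_lit 470405291) (nat_lit 400) (nat_lit 1) (nat_lit 399) (nat_lit 1) (nat_lit 411) (nat_lit 1) (nat_lit 420) (nat_lit 379) (nat_lit 341)))) (XT.nd (nat_lit 156) (nat_lit 1596) (nat_lit 0) (XT.nd (nat_lit 78) (nat_lit 0) (nat_lit 0) (XT.lf (nat_lit 836) (nat_lit 593924953) (nat_lit 0)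 (nat_lit 1088350084) (nat_lit 760) (nat_lit 1088350084) (nat_lit 400) (nat_lit 1) (nat_lit 389) (nat_lit 1) (nat_lit 399) (nat_lit 1) (nat_lit 421) (nat_lit 379) (nat_lit 340)) (XT.lf (nat_lit 76) (nat_lit 124953862) (nat_lit 0) (nat_lit 2496878121) (nat_lit 836) (nat_lit 124953862) (nat_lit 390) (nat_lit 1) (nat_lit 389) (nat_lit 1) (nat_lit 400) (nat_lit 1) (nat_lit 422) (nat_lit 379) (nat_lit 339))) (XT.nd (nat_lit 78) (nat_lit 760) (nat_lit 0) (XT.lf (nat_lit 76) (nat_lit 1310324387) (nat_lit 0) (nat_lit 102429661) (nat_lit 836) (nat_lit 1310324387) (nat_lit 379) (nat_lit 1) (nat_lit 378) (nat_lit 1) (nat_lit 389) (nat_lit 1) (nat_lit 423) (nat_lit 379) (nat_lit 338)) (XT.nd (nat_lit 78) (nat_lit 0) (nat_lit 0) (XT.lf (nat_lit 836) (nat_lit 2252851574) (nat_lit 0) (nat_lit 223453622) (nat_lit 760) (nat_lit 223453622) (nat_lit 379) (nat_lit 1) (nat_lit 368) (nat_lit 1) (nat_lit 378) (nat_lit 1) (nat_lit 424) (nat_lit 379) (nat_lit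 337)) (XT.lf (nat_lit 76) (nat_lit 938673268) (nat_lit 0) (nat_lit 799257374) (nat_lit 836) (nat_lit 938673268) (nat_lit 369) (nat_lit 1) (nat_lit 368) (nat_lit 1) (nat_lit 379) (nat_lit 1) (nat_lit 425) (nat_lit 379) (nat_lit 336))))))) (XT.nd (nat_lit 702) (nat_lit 3724) (nat_lit 0) (XT.nd (nat_lit 312) (nat_lit 2128) (nat_lit 0) (XT.nd (nat_lit 156) (nat_lit 684) (nat_lit 0) (XT.nd (nat_lit 78) (nat_lit 0) (nat_lit 0) (XT.lf (nat_lit 836) (nat_lit 1503946071) (nat_lit 0) (nat_lit 574926922) (nat_lit 760) (nat_lit 574926922) (nat_lit 369) (nat_lit 1) (nat_lit 358) (nat_lit 1) (nat_lit 368) (nat_lit 1) (nat_lit 426) (nat_lit 379) (nat_lit 335)) (XT.lf (nat_lit 76) (nat_lit 563953637) (nat_lit 0) (nat_lit 1503340491) (nat_lit 836) (nat_lit 563953637) (nat_lit 359) (nat_lit 1) (nat_lit 358) (nat_lit 1) (nat_lit 369) (nat_lit 1) (nat_lit 427) (nat_lit 379) (nat_lit 334))) (XT.nd (nat_lit 78) (nat_lit 0) (nat_lit 0) (XT.lf (nat_lit 760)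 (nat_lit 749351391) (nat_lit 0) (nat_lit 929796247) (nat_lit 684) (nat_lit 929796247) (nat_lit 359) (nat_lit 1) (nat_lit 349) (nat_lit 1) (nat_lit 358) (nat_lit 1) (nat_lit 428) (nat_lit 379) (nat_lit 333)) (XT.lf (nat_lit 76) (nat_lit 186627790) (nat_lit 0) (nat_lit 2213724451) (nat_lit 760) (nat_lit 186627790) (nat_lit 350) (nat_lit 1) (nat_lit 349) (nat_lit 1) (nat_lit 359) (nat_lit 1) (nat_lit 429) (nat_lit 379) (nat_lit 332)))) (XT.nd (nat_lit 156) (nat_lit 684) (nat_lit 0) (XT.nd (nat_lit 78) (nat_lit 684) (nat_lit 0) (XT.lf (nat_lit 76) (nat_lit 1277630866) (nat_lit 0) (nat_lit 9898237) (nat_lit 760) (nat_lit 1277630866) (nat_lit 340) (nat_lit 1) (nat_lit 339) (nat_lit 1) (nat_lit 349) (nat_lit 1) (nat_lit 430) (nat_lit 379) (nat_lit 331)) (XT.lf (nat_lit 760) (nat_lit 2160475521) (nat_lit 0) (nat_lit 191597799) (nat_lit 684) (nat_lit 191597799) (nat_lit 340) (nat_lit 1) (nat_lit 330) (nat_lit 1) (nat_lit 339) (nat_lit 1) (nat_lit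 431) (nat_lit 379) (nat_lit 330))) (XT.nd (nat_lit 78) (nat_lit 684) (nat_lit 0) (XT.lf (nat_lit 76) (nat_lit 879561215) (nat_lit 0) (nat_lit 763200645) (nat_lit 760) (nat_lit 879561215) (nat_lit 331) (nat_lit 1) (nat_lit 330) (nat_lit 1) (nat_lit 340) (nat_lit 1) (nat_lit 432) (nat_lit 379) (nat_lit 329)) (XT.nd (nat_lit 78) (nat_lit 0) (nat_lit 0) (XT.lf (nat_lit 760) (nat_lit 1360617952) (nat_lit 0) (nat_lit 570338608) (nat_lit 684) (nat_lit 570338608) (nat_lit 331) (nat_lit 1) (nat_lit 321) (nat_lit 1) (nat_lit 330) (nat_lit 1) (nat_lit 433) (nat_lit 379) (nat_lit 328)) (XT.lf (nat_lit 76) (nat_lit 480458286) (nat_lit 0) (nat_lit 1519586321) (nat_lit 760) (nat_lit 480458286) (nat_lit 322) (nat_lit 1) (nat_lit 321) (nat_lit 1) (nat_lit 331) (nat_lit 1) (nat_lit 434) (nat_lit 379) (nat_lit 327)))))) (XT.nd (nat_lit 390) (nat_lit 1824) (nat_lit 0) (XT.nd (nat_lit 156) (nat_lit 1292) (nat_lit 0) (XT.nd (nat_lit 78) (nat_lit 0) (nat_lit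 0) (XT.lf (nat_lit 684) (nat_lit 559055196) (nat_lit 0) (nat_lit 950433544) (nat_lit 608) (nat_lit 950433544) (nat_lit 322) (nat_lit 1) (nat_lit 313) (nat_lit 1) (nat_lit 321) (nat_lit 1) (nat_lit 435) (nat_lit 379) (nat_lit 326)) (XT.lf (nat_lit 76) (nat_lit 80685551) (nat_lit 0) (nat_lit 2278301520) (nat_lit 684) (nat_lit 80685551) (nat_lit 314) (nat_lit 1) (nat_lit 313) (nat_lit 1) (nat_lit 322) (nat_lit 1) (nat_lit 436) (nat_lit 379) (nat_lit 325))) (XT.nd (nat_lit 78) (nat_lit 608) (nat_lit 0) (XT.lf (nat_lit 76) (nat_lit 1089592001) (nat_lit 0) (nat_lit 240310489) (nat_lit 684) (nat_lit 1089592001) (nat_lit 305) (nat_lit 1) (nat_lit 304) (nat_lit 1) (nat_lit 313) (nat_lit 1) (nat_lit 437) (nat_lit 379) (nat_lit 324)) (XT.nd (nat_lit 78) (nat_lit 0) (nat_lit 0) (XT.lf (nat_lit 684) (nat_lit 1765014661) (nat_lit 0) (nat_lit 317312563) (nat_lit 608) (nat_lit 317312563) (nat_lit 305) (nat_lit 1) (nat_lit 296) (nat_lit 1) (nat_lit 304)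 (nat_lit 1) (nat_lit 438) (nat_lit 379) (nat_lit 323)) (XT.lf (nat_lit 76) (nat_lit 673638723) (nat_lit 0) (nat_lit 1032667751) (nat_lit 684) (nat_lit 673638723) (nat_lit 297) (nat_lit 1) (nat_lit 296) (nat_lit 1) (nat_lit 305) (nat_lit 1) (nat_lit 439) (nat_lit 379) (nat_lit 322))))) (XT.nd (nat_lit 156) (nat_lit 1216) (nat_lit 0) (XT.nd (nat_lit 78) (nat_lit 0) (nat_lit 0) (XT.lf (nat_lit 684) (nat_lit 930937293) (nat_lit 0) (nat_lit 714783136) (nat_lit 608) (nat_lit 714783136) (nat_lit 297) (nat_lit 1) (nat_lit 288) (nat_lit 1) (nat_lit 296) (nat_lit 1) (nat_lit 440) (nat_lit 379) (nat_lit 321)) (XT.lf (nat_lit 76) (nat_lit 258297761) (nat_lit 0) (nat_lit 1824726731) (nat_lit 684) (nat_lit 258297761) (nat_lit 289) (nat_lit 1) (nat_lit 288) (nat_lit 1) (nat_lit 297) (nat_lit 1) (nat_lit 441) (nat_lit 379) (nat_lit 320))) (XT.nd (nat_lit 78) (nat_lit 684) (nat_lit 0) (XT.lf (nat_lit 608) (nat_lit 98373320) (nat_lit 0) (nat_lit 1111954169)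 (nat_lit 532) (nat_lit 1111954169) (nat_lit 289) (nat_lit 1) (nat_lit 281) (nat_lit 1) (nat_lit 288) (nat_lit 1) (nat_lit 442) (nat_lit 379) (nat_lit 319)) (XT.nd (nat_lit 78) (nat_lit 0) (nat_lit 0) (XT.lf (nat_lit 684) (nat_lit 1993274937) (nat_lit 0) (nat_lit 155122660) (nat_lit 608) (nat_lit 155122660) (nat_lit 281) (nat_lit 1) (nat_lit 272) (nat_lit 1) (nat_lit 280) (nat_lit 1) (nat_lit 443) (nat_lit 379) (nat_lit 318)) (XT.lf (nat_lit 76) (nat_lit 781163380) (nat_lit 0) (nat_lit 722528608) (nat_lit 684) (nat_lit 781163380) (nat_lit 273) (nat_lit 1) (nat_lit 272) (nat_lit 1) (nat_lit 281) (nat_lit 1) (nat_lit 444) (nat_lit 379) (nat_lit 317))))))))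
noncomputable def ec32 : XT := (XT.nd (nat_lit 55458) (nat_lit 0) (nat_lit 13376) (XT.nd (nat_lit 54756) (nat_lit 0) (nat_lit 18392) (XT.nd (nat_lit 54366) (nat_lit 0) (nat_lit 18164) (XT.nd (nat_lit 156) (nat_lit 532) (nat_lit 0) (XT.nd (nat_lit 78) (nat_lit 0) (nat_lit 0) (XT.lf (nat_lit 608) (nat_lit 1135075071) (nat_lit 0) (nat_lit 565694091) (nat_lit 532) (nat_lit 565694091) (nat_lit 273) (nat_lit 1) (nat_lit 265) (nat_lit 1) (nat_lit 272) (nat_lit 1) (nat_lit 445) (nat_lit 379) (nat_lit 316)) (XT.lf (nat_lit 76) (nat_lit 354341906) (nat_lit 0) (nat_lit 1539600562) (nat_lit 608) (nat_lit 354341906) (nat_lit 266) (nat_lit 1) (nat_lit 265) (nat_lit 1) (nat_lit 273) (nat_lit 1) (nat_lit 446) (nat_lit 379) (nat_lit 315))) (XT.nd (nat_lit 54132) (nat_lit 0) (nat_lit 18164) (XT.lf (nat_lit 608) (nat_lit 280524214) (nat_lit 0) (nat_lit 974869561) (nat_lit 532) (nat_lit 974869561) (nat_lit 266) (nat_lit 1) (nat_lit 258) (nat_lit 1) (nat_lit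 265) (nat_lit 1) (nat_lit 447) (nat_lit 379) (nat_lit 314)) (XT.lf (nat_lit 1900) (nat_lit 674505282) (nat_lit 0) (nat_lit 680145715) (nat_lit 1900) (nat_lit 674505282) (nat_lit 522) (nat_lit 1) (nat_lit 497) (nat_lit 0) (nat_lit 522) (nat_lit 0) (nat_lit 380) (nat_lit 380) (nat_lit 380)))) (XT.nd (nat_lit 156) (nat_lit 0) (nat_lit 76) (XT.nd (nat_lit 78) (nat_lit 0) (nat_lit 76) (XT.lf (nat_lit 1900) (nat_lit 2667095300) (nat_lit 76) (nat_lit 675671072) (nat_lit 0) (nat_lit 675671072) (nat_lit 522) (nat_lit 1) (nat_lit 498) (nat_lit 1) (nat_lit 497) (nat_lit 0) (nat_lit 381) (nat_lit 380) (nat_lit 379)) (XT.lf (nat_lit 1900) (nat_lit 1309556488) (nat_lit 0) (nat_lit 1359884887) (nat_lit 1824) (nat_lit 1309556488) (nat_lit 523) (nat_lit 1) (nat_lit 498) (nat_lit 1) (nat_lit 522) (nat_lit 1) (nat_lit 382) (nat_lit 380) (nat_lit 378))) (XT.nd (nat_lit 78) (nat_lit 0) (nat_lit 76) (XT.lf (nat_lit 1900) (nat_lit 2563124870) (nat_lit 76) (nat_lit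 688515656) (nat_lit 0) (nat_lit 688515656) (nat_lit 523) (nat_lit 1) (nat_lit 499) (nat_lit 1) (nat_lit 498) (nat_lit 1) (nat_lit 383) (nat_lit 380) (nat_lit 377)) (XT.nd (nat_lit 78) (nat_lit 0) (nat_lit 0) (XT.lf (nat_lit 1900) (nat_lit 1245630116) (nat_lit 0) (nat_lit 1410483039) (nat_lit 1824) (nat_lit 1245630116) (nat_lit 524) (nat_lit 1) (nat_lit 499) (nat_lit 1) (nat_lit 523) (nat_lit 1) (nat_lit 384) (nat_lit 380) (nat_lit 376)) (XT.lf (nat_lit 1900) (nat_lit 2411525214) (nat_lit 76) (nat_lit 726188196) (nat_lit 0) (nat_lit 726188196) (nat_lit 524) (nat_lit 1) (nat_lit 500) (nat_lit 1) (nat_lit 499) (nat_lit 1) (nat_lit 385) (nat_lit 380) (nat_lit 375)))))) (XT.nd (nat_lit 312) (nat_lit 0) (nat_lit 152) (XT.nd (nat_lit 156) (nat_lit 0) (nat_lit 76) (XT.nd (nat_lit 78) (nat_lit 0) (nat_lit 0) (XT.lf (nat_lit 1900) (nat_lit 1158691630) (nat_lit 0) (nat_lit 1509105530) (nat_lit 1824) (nat_lit 1158691630) (nat_lit 525) (nat_lit 1)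 (nat_lit 500) (nat_lit 1) (nat_lit 524) (nat_lit 1) (nat_lit 386) (nat_lit 380) (nat_lit 374)) (XT.lf (nat_lit 1900) (nat_lit 2215158902) (nat_lit 76) (nat_lit 787227991) (nat_lit 0) (nat_lit 787227991) (nat_lit 525) (nat_lit 1) (nat_lit 501) (nat_lit 1) (nat_lit 500) (nat_lit 1) (nat_lit 387) (nat_lit 380) (nat_lit 373))) (XT.nd (nat_lit 78) (nat_lit 0) (nat_lit 0) (XT.lf (nat_lit 1900) (nat_lit 1050134507) (nat_lit 0) (nat_lit 1652907336) (nat_lit 1824) (nat_lit 1050134507) (nat_lit 526) (nat_lit 1) (nat_lit 501) (nat_lit 1) (nat_lit 525) (nat_lit 1) (nat_lit 388) (nat_lit 380) (nat_lit 372)) (XT.lf (nat_lit 1900) (nat_lit 1976757482) (nat_lit 76) (nat_lit 870240797) (nat_lit 0) (nat_lit 870240797) (nat_lit 526) (nat_lit 1) (nat_lit 502) (nat_lit 1) (nat_lit 501) (nat_lit 1) (nat_lit 389) (nat_lit 380) (nat_lit 371)))) (XT.nd (nat_lit 156) (nat_lit 0) (nat_lit 76) (XT.nd (nat_lit 78) (nat_lit 0) (nat_lit 0) (XT.lf (nat_lit 1900) (nat_lit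 921288317) (nat_lit 0) (nat_lit 1839173131) (nat_lit 1824) (nat_lit 921288317) (nat_lit 527) (nat_lit 1) (nat_lit 502) (nat_lit 1) (nat_lit 526) (nat_lit 1) (nat_lit 390) (nat_lit 380) (nat_lit 370)) (XT.lf (nat_lit 1900) (nat_lit 1698926960) (nat_lit 76) (nat_lit 973896055) (nat_lit 0) (nat_lit 973896055) (nat_lit 527) (nat_lit 1) (nat_lit 503) (nat_lit 1) (nat_lit 502) (nat_lit 1) (nat_lit 391) (nat_lit 380) (nat_lit 369))) (XT.nd (nat_lit 78) (nat_lit 0) (nat_lit 0) (XT.lf (nat_lit 1900) (nat_lit 773421387) (nat_lit 0) (nat_lit 2065311868) (nat_lit 1824) (nat_lit 773421387) (nat_lit 528) (nat_lit 1) (nat_lit 503) (nat_lit 1) (nat_lit 527) (nat_lit 1) (nat_lit 392) (nat_lit 380) (nat_lit 368)) (XT.nd (nat_lit 78) (nat_lit 0) (nat_lit 76) (XT.lf (nat_lit 1900) (nat_lit 1384153053) (nat_lit 76) (nat_lit 1096924235) (nat_lit 0) (nat_lit 1096924235) (nat_lit 528) (nat_lit 1) (nat_lit 504) (nat_lit 1) (nat_lit 503) (nat_lit 1) (nat_lit 393)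 (nat_lit 380) (nat_lit 367)) (XT.lf (nat_lit 1900) (nat_lit 607743375) (nat_lit 0) (nat_lit 2328851588) (nat_lit 1824) (nat_lit 607743375) (nat_lit 529) (nat_lit 1) (nat_lit 504) (nat_lit 1) (nat_lit 528) (nat_lit 1) (nat_lit 394) (nat_lit 380) (nat_lit 366))))))) (XT.nd (nat_lit 702) (nat_lit 3648) (nat_lit 0) (XT.nd (nat_lit 312) (nat_lit 1672) (nat_lit 0) (XT.nd (nat_lit 156) (nat_lit 0) (nat_lit 76) (XT.nd (nat_lit 78) (nat_lit 0) (nat_lit 76) (XT.lf (nat_lit 1900) (nat_lit 1034806237) (nat_lit 76) (nat_lit 1238114279) (nat_lit 0) (nat_lit 1238114279) (nat_lit 529) (nat_lit 1) (nat_lit 505) (nat_lit 1) (nat_lit 504) (nat_lit 1) (nat_lit 395) (nat_lit 380) (nat_lit 365)) (XT.lf (nat_lit 1900) (nat_lit 425407729) (nat_lit 0) (nat_lit 2627434431) (nat_lit 1824) (nat_lit 425407729) (nat_lit 530) (nat_lit 1) (nat_lit 505) (nat_lit 1) (nat_lit 529) (nat_lit 1) (nat_lit 396) (nat_lit 380) (nat_lit 364))) (XT.nd (nat_lit 78) (nat_lit 0) (nat_lit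 76) (XT.lf (nat_lit 1900) (nat_lit 653146589) (nat_lit 76) (nat_lit 1396311150) (nat_lit 0) (nat_lit 1396311150) (nat_lit 530) (nat_lit 1) (nat_lit 506) (nat_lit 1) (nat_lit 505) (nat_lit 1) (nat_lit 397) (nat_lit 380) (nat_lit 363)) (XT.lf (nat_lit 1900) (nat_lit 227514053) (nat_lit 0) (nat_lit 2958811853) (nat_lit 1824) (nat_lit 227514053) (nat_lit 531) (nat_lit 1) (nat_lit 506) (nat_lit 1) (nat_lit 530) (nat_lit 1) (nat_lit 398) (nat_lit 380) (nat_lit 362)))) (XT.nd (nat_lit 156) (nat_lit 1824) (nat_lit 0) (XT.nd (nat_lit 78) (nat_lit 0) (nat_lit 76) (XT.lf (nat_lit 1900) (nat_lit 241328431) (nat_lit 76) (nat_lit 1570413485) (nat_lit 0) (nat_lit 1570413485) (nat_lit 531) (nat_lit 1) (nat_lit 507) (nat_lit 1) (nat_lit 506) (nat_lit 1) (nat_lit 399) (nat_lit 380) (nat_lit 361)) (XT.lf (nat_lit 1900) (nat_lit 15110372) (nat_lit 0) (nat_lit 3320840028) (nat_lit 1824) (nat_lit 15110372) (nat_lit 532) (nat_lit 1) (nat_lit 507) (nat_lit 1)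 (nat_lit 531) (nat_lit 1) (nat_lit 400) (nat_lit 380) (nat_lit 360))) (XT.nd (nat_lit 78) (nat_lit 0) (nat_lit 0) (XT.lf (nat_lit 1976) (nat_lit 1562065537) (nat_lit 0) (nat_lit 195990595) (nat_lit 1900) (nat_lit 1562065537) (nat_lit 508) (nat_lit 1) (nat_lit 482) (nat_lit 1) (nat_lit 507) (nat_lit 1) (nat_lit 401) (nat_lit 380) (nat_lit 359)) (XT.nd (nat_lit 78) (nat_lit 0) (nat_lit 76) (XT.lf (nat_lit 1976) (nat_lit 2870920587) (nat_lit 76) (nat_lit 209417812) (nat_lit 0) (nat_lit 209417812) (nat_lit 508) (nat_lit 1) (nat_lit 483) (nat_lit 1) (nat_lit 482) (nat_lit 1) (nat_lit 402) (nat_lit 380) (nat_lit 358)) (XT.lf (nat_lit 1976) (nat_lit 1301831146) (nat_lit 0) (nat_lit 655951066) (nat_lit 1900) (nat_lit 1301831146) (nat_lit 509) (nat_lit 1) (nat_lit 483) (nat_lit 1) (nat_lit 508) (nat_lit 1) (nat_lit 403) (nat_lit 380) (nat_lit 357)))))) (XT.nd (nat_lit 312) (nat_lit 2660) (nat_lit 0) (XT.nd (nat_lit 156) (nat_lit 1064) (nat_lit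 0) (XT.nd (nat_lit 78) (nat_lit 0) (nat_lit 76) (XT.lf (nat_lit 1976) (nat_lit 2337328887) (nat_lit 76) (nat_lit 446324017) (nat_lit 0) (nat_lit 446324017) (nat_lit 509) (nat_lit 1) (nat_lit 484) (nat_lit 1) (nat_lit 483) (nat_lit 1) (nat_lit 404) (nat_lit 380) (nat_lit 356)) (XT.lf (nat_lit 76) (nat_lit 1030369354) (nat_lit 0) (nat_lit 1139879376) (nat_lit 1900) (nat_lit 1030369354) (nat_lit 485) (nat_lit 1) (nat_lit 484) (nat_lit 1) (nat_lit 509) (nat_lit 1) (nat_lit 405) (nat_lit 380) (nat_lit 355))) (XT.nd (nat_lit 78) (nat_lit 0) (nat_lit 0) (XT.lf (nat_lit 1216) (nat_lit 1782072658) (nat_lit 0) (nat_lit 694807603) (nat_lit 1140) (nat_lit 694807603) (nat_lit 485) (nat_lit 1) (nat_lit 469) (nat_lit 1) (nat_lit 484) (nat_lit 1) (nat_lit 406) (nat_lit 380) (nat_lit 354)) (XT.lf (nat_lit 76) (nat_lit 748534421) (nat_lit 0) (nat_lit 1646024655) (nat_lit 1216) (nat_lit 748534421) (nat_lit 470) (nat_lit 1) (nat_lit 469) (nat_lit 1) (nat_lit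 485) (nat_lit 1) (nat_lit 407) (nat_lit 380) (nat_lit 353)))) (XT.nd (nat_lit 156) (nat_lit 1748) (nat_lit 0) (XT.nd (nat_lit 78) (nat_lit 0) (nat_lit 0) (XT.lf (nat_lit 988) (nat_lit 1206824229) (nat_lit 0) (nat_lit 954011620) (nat_lit 912) (nat_lit 954011620) (nat_lit 470) (nat_lit 1) (nat_lit 457) (nat_lit 1) (nat_lit 469) (nat_lit 1) (nat_lit 408) (nat_lit 380) (nat_lit 352)) (XT.lf (nat_lit 76) (nat_lit 457139236) (nat_lit 0) (nat_lit 2172720103) (nat_lit 988) (nat_lit 457139236) (nat_lit 458) (nat_lit 1) (nat_lit 457) (nat_lit 1) (nat_lit 470) (nat_lit 1) (nat_lit 409) (nat_lit 380) (nat_lit 351))) (XT.nd (nat_lit 78) (nat_lit 836) (nat_lit 0) (XT.lf (nat_lit 988) (nat_lit 613174695) (nat_lit 0) (nat_lit 1223120381) (nat_lit 912) (nat_lit 1223120381) (nat_lit 458) (nat_lit 1) (nat_lit 445) (nat_lit 1) (nat_lit 457) (nat_lit 1) (nat_lit 410) (nat_lit 380) (nat_lit 350)) (XT.nd (nat_lit 78) (nat_lit 836) (nat_lit 0) (XT.lf (nat_lit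 76) (nat_lit 156957077) (nat_lit 0) (nat_lit 2718379410) (nat_lit 988) (nat_lit 156957077) (nat_lit 446) (nat_lit 1) (nat_lit 445) (nat_lit 1) (nat_lit 458) (nat_lit 1) (nat_lit 411) (nat_lit 380) (nat_lit 349)) (XT.lf (nat_lit 912) (nat_lit 2637392) (nat_lit 0) (nat_lit 1501357706) (nat_lit 836) (nat_lit 1501357706) (nat_lit 446) (nat_lit 1) (nat_lit 434) (nat_lit 1) (nat_lit 445) (nat_lit 1) (nat_lit 412) (nat_lit 380) (nat_lit 348))))))))
noncomputable def ec33 : XT := (XT.nd (nat_lit 1404) (nat_lit 6080) (nat_lit 0) (XT.nd (nat_lit 702) (nat_lit 3648) (nat_lit 0) (XT.nd (nat_lit 312) (nat_lit 2432) (nat_lit 0) (XT.nd (nat_lit 156) (nat_lit 836) (nat_lit 0) (XT.nd (nat_lit 78) (nat_lit 0) (nat_lit 0) (XT.lf (nat_lit 988) (nat_lit 2678298226) (nat_lit 0) (nat_lit 150281443) (nat_lit 912) (nat_lit 150281443) (nat_lit 434) (nat_lit 1) (nat_lit 421) (nat_lit 1) (nat_lit 433) (nat_lit 1) (nat_lit 413) (nat_lit 380) (nat_lit 347)) (XT.lf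 (nat_lit 76) (nat_lit 1168683652) (nat_lit 0) (nat_lit 615173439) (nat_lit 988) (nat_lit 1168683652) (nat_lit 422) (nat_lit 1) (nat_lit 421) (nat_lit 1) (nat_lit 434) (nat_lit 1) (nat_lit 414) (nat_lit 380) (nat_lit 346))) (XT.nd (nat_lit 78) (nat_lit 0) (nat_lit 0) (XT.lf (nat_lit 912) (nat_lit 1999074110) (nat_lit 0) (nat_lit 463791497) (nat_lit 836) (nat_lit 463791497) (nat_lit 422) (nat_lit 1) (nat_lit 410) (nat_lit 1) (nat_lit 421) (nat_lit 1) (nat_lit 415) (nat_lit 380) (nat_lit 345)) (XT.lf (nat_lit 76) (nat_lit 827087607) (nat_lit 0) (nat_lit 1246846188) (nat_lit 912) (nat_lit 827087607) (nat_lit 411) (nat_lit 1) (nat_lit 410) (nat_lit 1) (nat_lit 422) (nat_lit 1) (nat_lit 416) (nat_lit 380) (nat_lit 344)))) (XT.nd (nat_lit 156) (nat_lit 1596) (nat_lit 0) (XT.nd (nat_lit 78) (nat_lit 0) (nat_lit 0) (XT.lf (nat_lit 912) (nat_lit 1307836106) (nat_lit 0) (nat_lit 783945706) (nat_lit 836) (nat_lit 783945706) (nat_lit 411) (nat_lit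 1) (nat_lit 399) (nat_lit 1) (nat_lit 410) (nat_lit 1) (nat_lit 417) (nat_lit 380) (nat_lit 343)) (XT.lf (nat_lit 76) (nat_lit 479813397) (nat_lit 0) (nat_lit 1891132972) (nat_lit 912) (nat_lit 479813397) (nat_lit 400) (nat_lit 1) (nat_lit 399) (nat_lit 1) (nat_lit 411) (nat_lit 1) (nat_lit 418) (nat_lit 380) (nat_lit 342))) (XT.nd (nat_lit 78) (nat_lit 836) (nat_lit 0) (XT.lf (nat_lit 836) (nat_lit 605803452) (nat_lit 0) (nat_lit 1110117085) (nat_lit 760) (nat_lit 1110117085) (nat_lit 400) (nat_lit 1) (nat_lit 389) (nat_lit 1) (nat_lit 399) (nat_lit 1) (nat_lit 419) (nat_lit 380) (nat_lit 341)) (XT.nd (nat_lit 78) (nat_lit 836) (nat_lit 0) (XT.lf (nat_lit 76) (nat_lit 127452939) (nat_lit 0) (nat_lit 2546815684) (nat_lit 836) (nat_lit 127452939) (nat_lit 390) (nat_lit 1) (nat_lit 389) (nat_lit 1) (nat_lit 400) (nat_lit 1) (nat_lit 420) (nat_lit 380) (nat_lit 340)) (XT.lf (nat_lit 76) (nat_lit 1336530874) (nat_lit 0) (nat_lit 104478254)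 (nat_lit 836) (nat_lit 1336530874) (nat_lit 379) (nat_lit 1) (nat_lit 378) (nat_lit 1) (nat_lit 389) (nat_lit 1) (nat_lit 421) (nat_lit 380) (nat_lit 339)))))) (XT.nd (nat_lit 312) (nat_lit 2128) (nat_lit 0) (XT.nd (nat_lit 156) (nat_lit 760) (nat_lit 0) (XT.nd (nat_lit 78) (nat_lit 0) (nat_lit 0) (XT.lf (nat_lit 836) (nat_lit 2297908605) (nat_lit 0) (nat_lit 227922695) (nat_lit 760) (nat_lit 227922695) (nat_lit 379) (nat_lit 1) (nat_lit 368) (nat_lit 1) (nat_lit 378) (nat_lit 1) (nat_lit 422) (nat_lit 380) (nat_lit 338)) (XT.lf (nat_lit 76) (nat_lit 957446733) (nat_lit 0) (nat_lit 815242521) (nat_lit 836) (nat_lit 957446733) (nat_lit 369) (nat_lit 1) (nat_lit 368) (nat_lit 1) (nat_lit 379) (nat_lit 1) (nat_lit 423) (nat_lit 380) (nat_lit 337))) (XT.nd (nat_lit 78) (nat_lit 0) (nat_lit 0) (XT.lf (nat_lit 836) (nat_lit 1534024992) (nat_lit 0) (nat_lit 586425461) (nat_lit 760) (nat_lit 586425461) (nat_lit 369) (nat_lit 1) (nat_lit 358)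 (nat_lit 1) (nat_lit 368) (nat_lit 1) (nat_lit 424) (nat_lit 380) (nat_lit 336)) (XT.lf (nat_lit 76) (nat_lit 575232710) (nat_lit 0) (nat_lit 1533407300) (nat_lit 836) (nat_lit 575232710) (nat_lit 359) (nat_lit 1) (nat_lit 358) (nat_lit 1) (nat_lit 369) (nat_lit 1) (nat_lit 425) (nat_lit 380) (nat_lit 335)))) (XT.nd (nat_lit 156) (nat_lit 1444) (nat_lit 0) (XT.nd (nat_lit 78) (nat_lit 0) (nat_lit 0) (XT.lf (nat_lit 760) (nat_lit 764338419) (nat_lit 0) (nat_lit 948392172) (nat_lit 684) (nat_lit 948392172) (nat_lit 359) (nat_lit 1) (nat_lit 349) (nat_lit 1) (nat_lit 358) (nat_lit 1) (nat_lit 426) (nat_lit 380) (nat_lit 334)) (XT.lf (nat_lit 76) (nat_lit 190360345) (nat_lit 0) (nat_lit 2257998940) (nat_lit 760) (nat_lit 190360345) (nat_lit 350) (nat_lit 1) (nat_lit 349) (nat_lit 1) (nat_lit 359) (nat_lit 1) (nat_lit 427) (nat_lit 380) (nat_lit 333))) (XT.nd (nat_lit 78) (nat_lit 684) (nat_lit 0) (XT.lf (nat_lit 76) (nat_lit 1303183483) (nat_lit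 0) (nat_lit 10096202) (nat_lit 760) (nat_lit 1303183483) (nat_lit 340) (nat_lit 1) (nat_lit 339) (nat_lit 1) (nat_lit 349) (nat_lit 1) (nat_lit 428) (nat_lit 380) (nat_lit 332)) (XT.nd (nat_lit 78) (nat_lit 0) (nat_lit 0) (XT.lf (nat_lit 760) (nat_lit 2203685031) (nat_lit 0) (nat_lit 195429755) (nat_lit 684) (nat_lit 195429755) (nat_lit 340) (nat_lit 1) (nat_lit 330) (nat_lit 1) (nat_lit 339) (nat_lit 1) (nat_lit 429) (nat_lit 380) (nat_lit 331)) (XT.lf (nat_lit 76) (nat_lit 897152439) (nat_lit 0) (nat_lit 778464658) (nat_lit 760) (nat_lit 897152439) (nat_lit 331) (nat_lit 1) (nat_lit 330) (nat_lit 1) (nat_lit 340) (nat_lit 1) (nat_lit 430) (nat_lit 380) (nat_lit 330))))))) (XT.nd (nat_lit 702) (nat_lit 2888) (nat_lit 0) (XT.nd (nat_lit 312) (nat_lit 1900) (nat_lit 0) (XT.nd (nat_lit 156) (nat_lit 608) (nat_lit 0) (XT.nd (nat_lit 78) (nat_lit 0) (nat_lit 0) (XT.lf (nat_lit 760) (nat_lit 1387830312) (nat_lit 0) (nat_lit 581745380) (nat_lit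 684) (nat_lit 581745380) (nat_lit 331) (nat_lit 1) (nat_lit 321) (nat_lit 1) (nat_lit 330) (nat_lit 1) (nat_lit 431) (nat_lit 380) (nat_lit 329)) (XT.lf (nat_lit 76) (nat_lit 490067452) (nat_lit 0) (nat_lit 1549978048) (nat_lit 760) (nat_lit 490067452) (nat_lit 322) (nat_lit 1) (nat_lit 321) (nat_lit 1) (nat_lit 331) (nat_lit 1) (nat_lit 432) (nat_lit 380) (nat_lit 328))) (XT.nd (nat_lit 78) (nat_lit 0) (nat_lit 0) (XT.lf (nat_lit 684) (nat_lit 570236300) (nat_lit 0) (nat_lit 969442215) (nat_lit 608) (nat_lit 969442215) (nat_lit 322) (nat_lit 1) (nat_lit 313) (nat_lit 1) (nat_lit 321) (nat_lit 1) (nat_lit 433) (nat_lit 380) (nat_lit 327)) (XT.lf (nat_lit 76) (nat_lit 82299262) (nat_lit 0) (nat_lit 2323867550) (nat_lit 684) (nat_lit 82299262) (nat_lit 314) (nat_lit 1) (nat_lit 313) (nat_lit 1) (nat_lit 322) (nat_lit 1) (nat_lit 434) (nat_lit 380) (nat_lit 326)))) (XT.nd (nat_lit 156) (nat_lit 608) (nat_lit 0) (XT.nd (nat_lit 78) (nat_lit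 608) (nat_lit 0) (XT.lf (nat_lit 76) (nat_lit 1111383841) (nat_lit 0) (nat_lit 245116699) (nat_lit 684) (nat_lit 1111383841) (nat_lit 305) (nat_lit 1) (nat_lit 304) (nat_lit 1) (nat_lit 313) (nat_lit 1) (nat_lit 435) (nat_lit 380) (nat_lit 325)) (XT.lf (nat_lit 684) (nat_lit 1800314954) (nat_lit 0) (nat_lit 323658815) (nat_lit 608) (nat_lit 323658815) (nat_lit 305) (nat_lit 1) (nat_lit 296) (nat_lit 1) (nat_lit 304) (nat_lit 1) (nat_lit 436) (nat_lit 380) (nat_lit 324))) (XT.nd (nat_lit 78) (nat_lit 608) (nat_lit 0) (XT.lf (nat_lit 76) (nat_lit 687111498) (nat_lit 0) (nat_lit 1053321106) (nat_lit 684) (nat_lit 687111498) (nat_lit 297) (nat_lit 1) (nat_lit 296) (nat_lit 1) (nat_lit 305) (nat_lit 1) (nat_lit 437) (nat_lit 380) (nat_lit 323)) (XT.nd (nat_lit 78) (nat_lit 0) (nat_lit 0) (XT.lf (nat_lit 684) (nat_lit 949556039) (nat_lit 0) (nat_lit 729078798) (nat_lit 608) (nat_lit 729078798) (nat_lit 297) (nat_lit 1) (nat_lit 288) (nat_lit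 1) (nat_lit 296) (nat_lit 1) (nat_lit 438) (nat_lit 380) (nat_lit 322)) (XT.lf (nat_lit 76) (nat_lit 263463716) (nat_lit 0) (nat_lit 1861221265) (nat_lit 684) (nat_lit 263463716) (nat_lit 289) (nat_lit 1) (nat_lit 288) (nat_lit 1) (nat_lit 297) (nat_lit 1) (nat_lit 439) (nat_lit 380) (nat_lit 321)))))) (XT.nd (nat_lit 390) (nat_lit 1140) (nat_lit 0) (XT.nd (nat_lit 156) (nat_lit 532) (nat_lit 0) (XT.nd (nat_lit 78) (nat_lit 684) (nat_lit 0) (XT.lf (nat_lit 608) (nat_lit 100340787) (nat_lit 0) (nat_lit 1134193253) (nat_lit 532) (nat_lit 1134193253) (nat_lit 289) (nat_lit 1) (nat_lit 281) (nat_lit 1) (nat_lit 288) (nat_lit 1) (nat_lit 440) (nat_lit 380) (nat_lit 320)) (XT.lf (nat_lit 684) (nat_lit 2033140436) (nat_lit 0) (nat_lit 158225113) (nat_lit 608) (nat_lit 158225113) (nat_lit 281) (nat_lit 1) (nat_lit 272) (nat_lit 1) (nat_lit 280) (nat_lit 1) (nat_lit 441) (nat_lit 380) (nat_lit 319))) (XT.nd (nat_lit 78) (nat_lit 532) (nat_lit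 0) (XT.lf (nat_lit 76) (nat_lit 796786648) (nat_lit 0) (nat_lit 736979180) (nat_lit 684) (nat_lit 796786648) (nat_lit 273) (nat_lit 1) (nat_lit 272) (nat_lit 1) (nat_lit 281) (nat_lit 1) (nat_lit 442) (nat_lit 380) (nat_lit 318)) (XT.nd (nat_lit 78) (nat_lit 0) (nat_lit 0) (XT.lf (nat_lit 608) (nat_lit 1157776572) (nat_lit 0) (nat_lit 577007973) (nat_lit 532) (nat_lit 577007973) (nat_lit 273) (nat_lit 1) (nat_lit 265) (nat_lit 1) (nat_lit 272) (nat_lit 1) (nat_lit 443) (nat_lit 380) (nat_lit 317)) (XT.lf (nat_lit 76) (nat_lit 361428744) (nat_lit 0) (nat_lit 1570392574) (nat_lit 608) (nat_lit 361428744) (nat_lit 266) (nat_lit 1) (nat_lit 265) (nat_lit 1) (nat_lit 273) (nat_lit 1) (nat_lit 444) (nat_lit 380) (nat_lit 316))))) (XT.nd (nat_lit 54132) (nat_lit 0) (nat_lit 18772) (XT.nd (nat_lit 78) (nat_lit 608) (nat_lit 0) (XT.lf (nat_lit 608) (nat_lit 286134699) (nat_lit 0) (nat_lit 994366952) (nat_lit 532) (nat_lit 994366952) (nat_lit 266)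 (nat_lit 1) (nat_lit 258) (nat_lit 1) (nat_lit 265) (nat_lit 1) (nat_lit 445) (nat_lit 380) (nat_lit 315)) (XT.lf (nat_lit 608) (nat_lit 2113799919) (nat_lit 0) (nat_lit 71486494) (nat_lit 532) (nat_lit 71486494) (nat_lit 258) (nat_lit 1) (nat_lit 250) (nat_lit 1) (nat_lit 257) (nat_lit 1) (nat_lit 446) (nat_lit 380) (nat_lit 314))) (XT.nd (nat_lit 78) (nat_lit 0) (nat_lit 0) (XT.lf (nat_lit 1900) (nat_lit 687995388) (nat_lit 0) (nat_lit 693748629) (nat_lit 1900) (nat_lit 687995388) (nat_lit 522) (nat_lit 1) (nat_lit 497) (nat_lit 0) (nat_lit 522) (nat_lit 0) (nat_lit 378) (nat_lit 381) (nat_lit 381)) (XT.nd (nat_lit 78) (nat_lit 0) (nat_lit 76) (XT.lf (nat_lit 1900) (nat_lit 2720437206) (nat_lit 76) (nat_lit 689184494) (nat_lit 0) (nat_lit 689184494) (nat_lit 522) (nat_lit 1) (nat_lit 498) (nat_lit 1) (nat_lit 497) (nat_lit 0) (nat_lit 379) (nat_lit 381) (nat_lit 380)) (XT.lf (nat_lit 1900) (nat_lit 1335747617) (nat_lit 0) (nat_lit 1387082585)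 (nat_lit 1824) (nat_lit 1335747617) (nat_lit 523) (nat_lit 1) (nat_lit 498) (nat_lit 1) (nat_lit 522) (nat_lit 1) (nat_lit 380) (nat_lit 381) (nat_lit 379))))))))
noncomputable def ec34 : XT := (XT.nd (nat_lit 1404) (nat_lit 7524) (nat_lit 0) (XT.nd (nat_lit 702) (nat_lit 0) (nat_lit 380) (XT.nd (nat_lit 312) (nat_lit 0) (nat_lit 152) (XT.nd (nat_lit 156) (nat_lit 0) (nat_lit 76) (XT.nd (nat_lit 78) (nat_lit 0) (nat_lit 76) (XT.lf (nat_lit 1900) (nat_lit 2614387367) (nat_lit 76) (nat_lit 702285969) (nat_lit 0) (nat_lit 702285969) (nat_lit 523) (nat_lit 1) (nat_lit 499) (nat_lit 1) (nat_lit 498) (nat_lit 1) (nat_lit 381) (nat_lit 381) (nat_lit 378)) (XT.lf (nat_lit 1900) (nat_lit 1270542719) (nat_lit 0) (nat_lit 1438692700) (nat_lit 1824) (nat_lit 1270542719) (nat_lit 524) (nat_lit 1) (nat_lit 499) (nat_lit 1) (nat_lit 523) (nat_lit 1) (nat_lit 382) (nat_lit 381) (nat_lit 377))) (XT.nd (nat_lit 78) (nat_lit 0) (nat_lit 76) (XT.lf (nat_lit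 1900) (nat_lit 2459755718) (nat_lit 76) (nat_lit 740711960) (nat_lit 0) (nat_lit 740711960) (nat_lit 524) (nat_lit 1) (nat_lit 500) (nat_lit 1) (nat_lit 499) (nat_lit 1) (nat_lit 383) (nat_lit 381) (nat_lit 376)) (XT.lf (nat_lit 1900) (nat_lit 1181865462) (nat_lit 0) (nat_lit 1539287640) (nat_lit 1824) (nat_lit 1181865462) (nat_lit 525) (nat_lit 1) (nat_lit 500) (nat_lit 1) (nat_lit 524) (nat_lit 1) (nat_lit 384) (nat_lit 381) (nat_lit 375)))) (XT.nd (nat_lit 156) (nat_lit 0) (nat_lit 76) (XT.nd (nat_lit 78) (nat_lit 0) (nat_lit 76) (XT.lf (nat_lit 1900) (nat_lit 2259462080) (nat_lit 76) (nat_lit 802972551) (nat_lit 0) (nat_lit 802972551) (nat_lit 525) (nat_lit 1) (nat_lit 501) (nat_lit 1) (nat_lit 500) (nat_lit 1) (nat_lit 385) (nat_lit 381) (nat_lit 374)) (XT.lf (nat_lit 1900) (nat_lit 1071137198) (nat_lit 0) (nat_lit 1685965483) (nat_lit 1824) (nat_lit 1071137198) (nat_lit 526) (nat_lit 1) (nat_lit 501) (nat_lit 1) (nat_lit 525) (nat_lit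 1) (nat_lit 386) (nat_lit 381) (nat_lit 373))) (XT.nd (nat_lit 78) (nat_lit 0) (nat_lit 76) (XT.lf (nat_lit 1900) (nat_lit 2016292632) (nat_lit 76) (nat_lit 887645613) (nat_lit 0) (nat_lit 887645613) (nat_lit 526) (nat_lit 1) (nat_lit 502) (nat_lit 1) (nat_lit 501) (nat_lit 1) (nat_lit 387) (nat_lit 381) (nat_lit 372)) (XT.nd (nat_lit 78) (nat_lit 0) (nat_lit 0) (XT.lf (nat_lit 1900) (nat_lit 939714083) (nat_lit 0) (nat_lit 1875956593) (nat_lit 1824) (nat_lit 939714083) (nat_lit 527) (nat_lit 1) (nat_lit 502) (nat_lit 1) (nat_lit 526) (nat_lit 1) (nat_lit 388) (nat_lit 381) (nat_lit 371)) (XT.lf (nat_lit 1900) (nat_lit 1732905499) (nat_lit 76) (nat_lit 993373976) (nat_lit 0) (nat_lit 993373976) (nat_lit 527) (nat_lit 1) (nat_lit 503) (nat_lit 1) (nat_lit 502) (nat_lit 1) (nat_lit 389) (nat_lit 381) (nat_lit 370)))))) (XT.nd (nat_lit 312) (nat_lit 0) (nat_lit 152) (XT.nd (nat_lit 156) (nat_lit 0) (nat_lit 76) (XT.nd (nat_lit 78) (nat_lit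 0) (nat_lit 0) (XT.lf (nat_lit 1900) (nat_lit 788889814) (nat_lit 0) (nat_lit 2106618105) (nat_lit 1824) (nat_lit 788889814) (nat_lit 528) (nat_lit 1) (nat_lit 503) (nat_lit 1) (nat_lit 527) (nat_lit 1) (nat_lit 390) (nat_lit 381) (nat_lit 369)) (XT.lf (nat_lit 1900) (nat_lit 1411836114) (nat_lit 76) (nat_lit 1118862720) (nat_lit 0) (nat_lit 1118862720) (nat_lit 528) (nat_lit 1) (nat_lit 504) (nat_lit 1) (nat_lit 503) (nat_lit 1) (nat_lit 391) (nat_lit 381) (nat_lit 368))) (XT.nd (nat_lit 78) (nat_lit 0) (nat_lit 0) (XT.lf (nat_lit 1900) (nat_lit 619898242) (nat_lit 0) (nat_lit 2375428620) (nat_lit 1824) (nat_lit 619898242) (nat_lit 529) (nat_lit 1) (nat_lit 504) (nat_lit 1) (nat_lit 528) (nat_lit 1) (nat_lit 392) (nat_lit 381) (nat_lit 367)) (XT.lf (nat_lit 1900) (nat_lit 1055502362) (nat_lit 76) (nat_lit 1262876564) (nat_lit 0) (nat_lit 1262876564) (nat_lit 529) (nat_lit 1) (nat_lit 505) (nat_lit 1) (nat_lit 504) (nat_lit 1) (nat_lit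 393) (nat_lit 381) (nat_lit 366)))) (XT.nd (nat_lit 156) (nat_lit 0) (nat_lit 76) (XT.nd (nat_lit 78) (nat_lit 0) (nat_lit 0) (XT.lf (nat_lit 1900) (nat_lit 433915884) (nat_lit 0) (nat_lit 2679983120) (nat_lit 1824) (nat_lit 433915884) (nat_lit 530) (nat_lit 1) (nat_lit 505) (nat_lit 1) (nat_lit 529) (nat_lit 1) (nat_lit 394) (nat_lit 381) (nat_lit 365)) (XT.lf (nat_lit 1900) (nat_lit 666209521) (nat_lit 76) (nat_lit 1424237373) (nat_lit 0) (nat_lit 1424237373) (nat_lit 530) (nat_lit 1) (nat_lit 506) (nat_lit 1) (nat_lit 505) (nat_lit 1) (nat_lit 395) (nat_lit 381) (nat_lit 364))) (XT.nd (nat_lit 78) (nat_lit 0) (nat_lit 0) (XT.lf (nat_lit 1900) (nat_lit 232064334) (nat_lit 0) (nat_lit 3017988090) (nat_lit 1824) (nat_lit 232064334) (nat_lit 531) (nat_lit 1) (nat_lit 506) (nat_lit 1) (nat_lit 530) (nat_lit 1) (nat_lit 396) (nat_lit 381) (nat_lit 363)) (XT.nd (nat_lit 78) (nat_lit 0) (nat_lit 76) (XT.lf (nat_lit 1900) (nat_lit 246155000)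 (nat_lit 76) (nat_lit 1601821755) (nat_lit 0) (nat_lit 1601821755) (nat_lit 531) (nat_lit 1) (nat_lit 507) (nat_lit 1) (nat_lit 506) (nat_lit 1) (nat_lit 397) (nat_lit 381) (nat_lit 362)) (XT.lf (nat_lit 1900) (nat_lit 15412579) (nat_lit 0) (nat_lit 3387256829) (nat_lit 1824) (nat_lit 15412579) (nat_lit 532) (nat_lit 1) (nat_lit 507) (nat_lit 1) (nat_lit 531) (nat_lit 1) (nat_lit 398) (nat_lit 381) (nat_lit 361))))))) (XT.nd (nat_lit 702) (nat_lit 4408) (nat_lit 0) (XT.nd (nat_lit 312) (nat_lit 1900) (nat_lit 0) (XT.nd (nat_lit 156) (nat_lit 0) (nat_lit 76) (XT.nd (nat_lit 78) (nat_lit 0) (nat_lit 0) (XT.lf (nat_lit 1976) (nat_lit 1593306848) (nat_lit 0) (nat_lit 199910406) (nat_lit 1900) (nat_lit 1593306848) (nat_lit 508) (nat_lit 1) (nat_lit 482) (nat_lit 1) (nat_lit 507) (nat_lit 1) (nat_lit 399) (nat_lit 381) (nat_lit 360)) (XT.lf (nat_lit 1976) (nat_lit 2928338999) (nat_lit 76) (nat_lit 213606169) (nat_lit 0) (nat_lit 213606169)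 (nat_lit 508) (nat_lit 1) (nat_lit 483) (nat_lit 1) (nat_lit 482) (nat_lit 1) (nat_lit 400) (nat_lit 381) (nat_lit 359))) (XT.nd (nat_lit 78) (nat_lit 0) (nat_lit 0) (XT.lf (nat_lit 1976) (nat_lit 1327867768) (nat_lit 0) (nat_lit 669070087) (nat_lit 1900) (nat_lit 1327867768) (nat_lit 509) (nat_lit 1) (nat_lit 483) (nat_lit 1) (nat_lit 508) (nat_lit 1) (nat_lit 401) (nat_lit 381) (nat_lit 358)) (XT.lf (nat_lit 1976) (nat_lit 2384075465) (nat_lit 76) (nat_lit 455250498) (nat_lit 0) (nat_lit 455250498) (nat_lit 509) (nat_lit 1) (nat_lit 484) (nat_lit 1) (nat_lit 483) (nat_lit 1) (nat_lit 402) (nat_lit 381) (nat_lit 357)))) (XT.nd (nat_lit 156) (nat_lit 912) (nat_lit 0) (XT.nd (nat_lit 78) (nat_lit 1140) (nat_lit 0) (XT.lf (nat_lit 76) (nat_lit 1050976741) (nat_lit 0) (nat_lit 1162676964) (nat_lit 1900) (nat_lit 1050976741) (nat_lit 485) (nat_lit 1) (nat_lit 484) (nat_lit 1) (nat_lit 509) (nat_lit 1) (nat_lit 403) (nat_lit 381) (nat_lit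 356)) (XT.lf (nat_lit 1216) (nat_lit 1817714111) (nat_lit 0) (nat_lit 708703756) (nat_lit 1140) (nat_lit 708703756) (nat_lit 485) (nat_lit 1) (nat_lit 469) (nat_lit 1) (nat_lit 484) (nat_lit 1) (nat_lit 404) (nat_lit 381) (nat_lit 355))) (XT.nd (nat_lit 78) (nat_lit 912) (nat_lit 0) (XT.lf (nat_lit 76) (nat_lit 763505110) (nat_lit 0) (nat_lit 1678945149) (nat_lit 1216) (nat_lit 763505110) (nat_lit 470) (nat_lit 1) (nat_lit 469) (nat_lit 1) (nat_lit 485) (nat_lit 1) (nat_lit 405) (nat_lit 381) (nat_lit 354)) (XT.nd (nat_lit 78) (nat_lit 0) (nat_lit 0) (XT.lf (nat_lit 988) (nat_lit 1230960714) (nat_lit 0) (nat_lit 973091853) (nat_lit 912) (nat_lit 973091853) (nat_lit 470) (nat_lit 1) (nat_lit 457) (nat_lit 1) (nat_lit 469) (nat_lit 1) (nat_lit 406) (nat_lit 381) (nat_lit 353)) (XT.lf (nat_lit 76) (nat_lit 466282021) (nat_lit 0) (nat_lit 2216174505) (nat_lit 988) (nat_lit 466282021) (nat_lit 458) (nat_lit 1) (nat_lit 457) (nat_lit 1) (nat_lit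 470) (nat_lit 1) (nat_lit 407) (nat_lit 381) (nat_lit 352)))))) (XT.nd (nat_lit 312) (nat_lit 1672) (nat_lit 0) (XT.nd (nat_lit 156) (nat_lit 1824) (nat_lit 0) (XT.nd (nat_lit 78) (nat_lit 0) (nat_lit 0) (XT.lf (nat_lit 988) (nat_lit 625438189) (nat_lit 0) (nat_lit 1247582789) (nat_lit 912) (nat_lit 1247582789) (nat_lit 458) (nat_lit 1) (nat_lit 445) (nat_lit 1) (nat_lit 457) (nat_lit 1) (nat_lit 408) (nat_lit 381) (nat_lit 351)) (XT.lf (nat_lit 76) (nat_lit 160096219) (nat_lit 0) (nat_lit 2772746998) (nat_lit 988) (nat_lit 160096219) (nat_lit 446) (nat_lit 1) (nat_lit 445) (nat_lit 1) (nat_lit 458) (nat_lit 1) (nat_lit 409) (nat_lit 381) (nat_lit 350))) (XT.nd (nat_lit 78) (nat_lit 988) (nat_lit 0) (XT.lf (nat_lit 912) (nat_lit 2690140) (nat_lit 0) (nat_lit 1531384860) (nat_lit 836) (nat_lit 1531384860) (nat_lit 446) (nat_lit 1) (nat_lit 434) (nat_lit 1) (nat_lit 445) (nat_lit 1) (nat_lit 410) (nat_lit 381) (nat_lit 349)) (XT.lf (nat_lit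 988) (nat_lit 2731864191) (nat_lit 0) (nat_lit 153287072) (nat_lit 912) (nat_lit 153287072) (nat_lit 434) (nat_lit 1) (nat_lit 421) (nat_lit 1) (nat_lit 433) (nat_lit 1) (nat_lit 411) (nat_lit 381) (nat_lit 348)))) (XT.nd (nat_lit 156) (nat_lit 836) (nat_lit 0) (XT.nd (nat_lit 78) (nat_lit 836) (nat_lit 0) (XT.lf (nat_lit 76) (nat_lit 1192057325) (nat_lit 0) (nat_lit 627476908) (nat_lit 988) (nat_lit 1192057325) (nat_lit 422) (nat_lit 1) (nat_lit 421) (nat_lit 1) (nat_lit 434) (nat_lit 1) (nat_lit 412) (nat_lit 381) (nat_lit 347)) (XT.lf (nat_lit 912) (nat_lit 2039055592) (nat_lit 0) (nat_lit 473067327) (nat_lit 836) (nat_lit 473067327) (nat_lit 422) (nat_lit 1) (nat_lit 410) (nat_lit 1) (nat_lit 421) (nat_lit 1) (nat_lit 413) (nat_lit 381) (nat_lit 346))) (XT.nd (nat_lit 78) (nat_lit 836) (nat_lit 0) (XT.lf (nat_lit 76) (nat_lit 843629359) (nat_lit 0) (nat_lit 1271783112) (nat_lit 912) (nat_lit 843629359) (nat_lit 411) (nat_lit 1) (nat_lit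 410) (nat_lit 1) (nat_lit 422) (nat_lit 1) (nat_lit 414) (nat_lit 381) (nat_lit 345)) (XT.nd (nat_lit 78) (nat_lit 0) (nat_lit 0) (XT.lf (nat_lit 912) (nat_lit 1333992828) (nat_lit 0) (nat_lit 799624620) (nat_lit 836) (nat_lit 799624620) (nat_lit 411) (nat_lit 1) (nat_lit 399) (nat_lit 1) (nat_lit 410) (nat_lit 1) (nat_lit 415) (nat_lit 381) (nat_lit 344)) (XT.lf (nat_lit 76) (nat_lit 489409665) (nat_lit 0) (nat_lit 1928955631) (nat_lit 912) (nat_lit 489409665) (nat_lit 400) (nat_lit 1) (nat_lit 399) (nat_lit 1) (nat_lit 411) (nat_lit 1) (nat_lit 416) (nat_lit 381) (nat_lit 343))))))))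
noncomputable def ec35 : XT := (XT.nd (nat_lit 1404) (nat_lit 4028) (nat_lit 0) (XT.nd (nat_lit 702) (nat_lit 4028) (nat_lit 0) (XT.nd (nat_lit 312) (nat_lit 1444) (nat_lit 0) (XT.nd (nat_lit 156) (nat_lit 1596) (nat_lit 0) (XT.nd (nat_lit 78) (nat_lit 0) (nat_lit 0) (XT.lf (nat_lit 836) (nat_lit 617919521) (nat_lit 0) (nat_lit 1132319427) (nat_lit 760) (nat_lit 1132319427) (nat_lit 400) (nat_lit 1) (nat_lit 389) (nat_lit 1) (nat_lit 399) (nat_lit 1) (nat_lit 417) (nat_lit 381) (nat_lit 342)) (XT.lf (nat_lit 76) (nat_lit 130001998) (nat_lit 0) (nat_lit 2597751998) (nat_lit 836) (nat_lit 130001998) (nat_lit 390) (nat_lit 1) (nat_lit 389) (nat_lit 1) (nat_lit 400) (nat_lit 1) (nat_lit 418) (nat_lit 381) (nat_lit 341))) (XT.nd (nat_lit 78) (nat_lit 760) (nat_lit 0) (XT.lf (nat_lit 76) (nat_lit 1363261492) (nat_lit 0) (nat_lit 106567819) (nat_lit 836) (nat_lit 1363261492) (nat_lit 379) (nat_lit 1) (nat_lit 378) (nat_lit 1) (nat_lit 389) (nat_lit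 1) (nat_lit 419) (nat_lit 381) (nat_lit 340)) (XT.lf (nat_lit 836) (nat_lit 2343866777) (nat_lit 0) (nat_lit 232481149) (nat_lit 760) (nat_lit 232481149) (nat_lit 379) (nat_lit 1) (nat_lit 368) (nat_lit 1) (nat_lit 378) (nat_lit 1) (nat_lit 420) (nat_lit 381) (nat_lit 339)))) (XT.nd (nat_lit 156) (nat_lit 684) (nat_lit 0) (XT.nd (nat_lit 78) (nat_lit 760) (nat_lit 0) (XT.lf (nat_lit 76) (nat_lit 976595668) (nat_lit 0) (nat_lit 831547371) (nat_lit 836) (nat_lit 976595668) (nat_lit 369) (nat_lit 1) (nat_lit 368) (nat_lit 1) (nat_lit 379) (nat_lit 1) (nat_lit 421) (nat_lit 381) (nat_lit 338)) (XT.lf (nat_lit 836) (nat_lit 1564705492) (nat_lit 0) (nat_lit 598153970) (nat_lit 760) (nat_lit 598153970) (nat_lit 369) (nat_lit 1) (nat_lit 358) (nat_lit 1) (nat_lit 368) (nat_lit 1) (nat_lit 422) (nat_lit 381) (nat_lit 337))) (XT.nd (nat_lit 78) (nat_lit 684) (nat_lit 0) (XT.lf (nat_lit 76) (nat_lit 586737364) (nat_lit 0) (nat_lit 1564075446) (nat_lit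 836) (nat_lit 586737364) (nat_lit 359) (nat_lit 1) (nat_lit 358) (nat_lit 1) (nat_lit 369) (nat_lit 1) (nat_lit 423) (nat_lit 381) (nat_lit 336)) (XT.nd (nat_lit 78) (nat_lit 0) (nat_lit 0) (XT.lf (nat_lit 760) (nat_lit 779625187) (nat_lit 0) (nat_lit 967360015) (nat_lit 684) (nat_lit 967360015) (nat_lit 359) (nat_lit 1) (nat_lit 349) (nat_lit 1) (nat_lit 358) (nat_lit 1) (nat_lit 424) (nat_lit 381) (nat_lit 335)) (XT.lf (nat_lit 76) (nat_lit 194167552) (nat_lit 0) (nat_lit 2303158919) (nat_lit 760) (nat_lit 194167552) (nat_lit 350) (nat_lit 1) (nat_lit 349) (nat_lit 1) (nat_lit 359) (nat_lit 1) (nat_lit 425) (nat_lit 381) (nat_lit 334)))))) (XT.nd (nat_lit 312) (nat_lit 1900) (nat_lit 0) (XT.nd (nat_lit 156) (nat_lit 684) (nat_lit 0) (XT.nd (nat_lit 78) (nat_lit 684) (nat_lit 0) (XT.lf (nat_lit 76) (nat_lit 1329247153) (nat_lit 0) (nat_lit 10298126) (nat_lit 760) (nat_lit 1329247153) (nat_lit 340) (nat_lit 1) (nat_lit 339) (nat_lit 1)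 (nat_lit 349) (nat_lit 1) (nat_lit 426) (nat_lit 381) (nat_lit 333)) (XT.lf (nat_lit 760) (nat_lit 2247758732) (nat_lit 0) (nat_lit 199338351) (nat_lit 684) (nat_lit 199338351) (nat_lit 340) (nat_lit 1) (nat_lit 330) (nat_lit 1) (nat_lit 339) (nat_lit 1) (nat_lit 427) (nat_lit 381) (nat_lit 332))) (XT.nd (nat_lit 78) (nat_lit 684) (nat_lit 0) (XT.lf (nat_lit 76) (nat_lit 915095488) (nat_lit 0) (nat_lit 794033952) (nat_lit 760) (nat_lit 915095488) (nat_lit 331) (nat_lit 1) (nat_lit 330) (nat_lit 1) (nat_lit 340) (nat_lit 1) (nat_lit 428) (nat_lit 381) (nat_lit 331)) (XT.lf (nat_lit 760) (nat_lit 1415586918) (nat_lit 0) (nat_lit 593380288) (nat_lit 684) (nat_lit 593380288) (nat_lit 331) (nat_lit 1) (nat_lit 321) (nat_lit 1) (nat_lit 330) (nat_lit 1) (nat_lit 429) (nat_lit 381) (nat_lit 330)))) (XT.nd (nat_lit 156) (nat_lit 1292) (nat_lit 0) (XT.nd (nat_lit 78) (nat_lit 608) (nat_lit 0) (XT.lf (nat_lit 76) (nat_lit 499868801) (nat_lit 0)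 (nat_lit 1580977609) (nat_lit 760) (nat_lit 499868801) (nat_lit 322) (nat_lit 1) (nat_lit 321) (nat_lit 1) (nat_lit 331) (nat_lit 1) (nat_lit 430) (nat_lit 381) (nat_lit 329)) (XT.lf (nat_lit 684) (nat_lit 581641026) (nat_lit 0) (nat_lit 988831059) (nat_lit 608) (nat_lit 988831059) (nat_lit 322) (nat_lit 1) (nat_lit 313) (nat_lit 1) (nat_lit 321) (nat_lit 1) (nat_lit 431) (nat_lit 381) (nat_lit 328))) (XT.nd (nat_lit 78) (nat_lit 1292) (nat_lit 0) (XT.lf (nat_lit 76) (nat_lit 83945247) (nat_lit 0) (nat_lit 2370344901) (nat_lit 684) (nat_lit 83945247) (nat_lit 314) (nat_lit 1) (nat_lit 313) (nat_lit 1) (nat_lit 322) (nat_lit 1) (nat_lit 432) (nat_lit 381) (nat_lit 327)) (XT.nd (nat_lit 78) (nat_lit 608) (nat_lit 0) (XT.lf (nat_lit 76) (nat_lit 1133611518) (nat_lit 0) (nat_lit 250019033) (nat_lit 684) (nat_lit 1133611518) (nat_lit 305) (nat_lit 1) (nat_lit 304) (nat_lit 1) (nat_lit 313) (nat_lit 1) (nat_lit 433) (nat_lit 381) (nat_lit 326))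 (XT.lf (nat_lit 684) (nat_lit 1836321253) (nat_lit 0) (nat_lit 330131991) (nat_lit 608) (nat_lit 330131991) (nat_lit 305) (nat_lit 1) (nat_lit 296) (nat_lit 1) (nat_lit 304) (nat_lit 1) (nat_lit 434) (nat_lit 381) (nat_lit 325))))))) (XT.nd (nat_lit 702) (nat_lit 1140) (nat_lit 0) (XT.nd (nat_lit 312) (nat_lit 1748) (nat_lit 0) (XT.nd (nat_lit 156) (nat_lit 532) (nat_lit 0) (XT.nd (nat_lit 78) (nat_lit 608) (nat_lit 0) (XT.lf (nat_lit 76) (nat_lit 700853728) (nat_lit 0) (nat_lit 1074387529) (nat_lit 684) (nat_lit 700853728) (nat_lit 297) (nat_lit 1) (nat_lit 296) (nat_lit 1) (nat_lit 305) (nat_lit 1) (nat_lit 435) (nat_lit 381) (nat_lit 324)) (XT.lf (nat_lit 684) (nat_lit 968547159) (nat_lit 0) (nat_lit 743660374) (nat_lit 608) (nat_lit 743660374) (nat_lit 297) (nat_lit 1) (nat_lit 288) (nat_lit 1) (nat_lit 296) (nat_lit 1) (nat_lit 436) (nat_lit 381) (nat_lit 323))) (XT.nd (nat_lit 78) (nat_lit 532) (nat_lit 0) (XT.lf (nat_lit 76) (nat_lit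 268732991) (nat_lit 0) (nat_lit 1898445691) (nat_lit 684) (nat_lit 268732991) (nat_lit 289) (nat_lit 1) (nat_lit 288) (nat_lit 1) (nat_lit 297) (nat_lit 1) (nat_lit 437) (nat_lit 381) (nat_lit 322)) (XT.lf (nat_lit 608) (nat_lit 102347603) (nat_lit 0) (nat_lit 1156877118) (nat_lit 532) (nat_lit 1156877118) (nat_lit 289) (nat_lit 1) (nat_lit 281) (nat_lit 1) (nat_lit 288) (nat_lit 1) (nat_lit 438) (nat_lit 381) (nat_lit 321)))) (XT.nd (nat_lit 156) (nat_lit 1064) (nat_lit 0) (XT.nd (nat_lit 78) (nat_lit 0) (nat_lit 0) (XT.lf (nat_lit 684) (nat_lit 2073803245) (nat_lit 0) (nat_lit 161389615) (nat_lit 608) (nat_lit 161389615) (nat_lit 281) (nat_lit 1) (nat_lit 272) (nat_lit 1) (nat_lit 280) (nat_lit 1) (nat_lit 439) (nat_lit 381) (nat_lit 320)) (XT.lf (nat_lit 76) (nat_lit 812722381) (nat_lit 0) (nat_lit 751718764) (nat_lit 684) (nat_lit 812722381) (nat_lit 273) (nat_lit 1) (nat_lit 272) (nat_lit 1) (nat_lit 281) (nat_lit 1) (nat_lit 440)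 (nat_lit 381) (nat_lit 319))) (XT.nd (nat_lit 78) (nat_lit 532) (nat_lit 0) (XT.lf (nat_lit 608) (nat_lit 1180932104) (nat_lit 0) (nat_lit 588548132) (nat_lit 532) (nat_lit 588548132) (nat_lit 273) (nat_lit 1) (nat_lit 265) (nat_lit 1) (nat_lit 272) (nat_lit 1) (nat_lit 441) (nat_lit 381) (nat_lit 318)) (XT.nd (nat_lit 78) (nat_lit 532) (nat_lit 0) (XT.lf (nat_lit 76) (nat_lit 368657319) (nat_lit 0) (nat_lit 1601800425) (nat_lit 608) (nat_lit 368657319) (nat_lit 266) (nat_lit 1) (nat_lit 265) (nat_lit 1) (nat_lit 273) (nat_lit 1) (nat_lit 442) (nat_lit 381) (nat_lit 317)) (XT.lf (nat_lit 608) (nat_lit 291857393) (nat_lit 0) (nat_lit 1014254291) (nat_lit 532) (nat_lit 1014254291) (nat_lit 266) (nat_lit 1) (nat_lit 258) (nat_lit 1) (nat_lit 265) (nat_lit 1) (nat_lit 443) (nat_lit 381) (nat_lit 316)))))) (XT.nd (nat_lit 54210) (nat_lit 0) (nat_lit 19380) (XT.nd (nat_lit 156) (nat_lit 532) (nat_lit 0) (XT.nd (nat_lit 78) (nat_lit 0) (nat_lit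 0) (XT.lf (nat_lit 608) (nat_lit 2156075918) (nat_lit 0) (nat_lit 72916224) (nat_lit 532) (nat_lit 72916224) (nat_lit 258) (nat_lit 1) (nat_lit 250) (nat_lit 1) (nat_lit 257) (nat_lit 1) (nat_lit 444) (nat_lit 381) (nat_lit 315)) (XT.lf (nat_lit 76) (nat_lit 849154719) (nat_lit 0) (nat_lit 585186104) (nat_lit 608) (nat_lit 849154719) (nat_lit 251) (nat_lit 1) (nat_lit 250) (nat_lit 1) (nat_lit 258) (nat_lit 1) (nat_lit 445) (nat_lit 381) (nat_lit 314))) (XT.nd (nat_lit 53898) (nat_lit 0) (nat_lit 19304) (XT.lf (nat_lit 608) (nat_lit 1245668864) (nat_lit 0) (nat_lit 509849700) (nat_lit 532) (nat_lit 509849700) (nat_lit 251) (nat_lit 1) (nat_lit 243) (nat_lit 1) (nat_lit 250) (nat_lit 1) (nat_lit 446) (nat_lit 381) (nat_lit 313)) (XT.nd (nat_lit 78) (nat_lit 0) (nat_lit 0) (XT.lf (nat_lit 1900) (nat_lit 701755296) (nat_lit 0) (nat_lit 707623602) (nat_lit 1900) (nat_lit 701755296) (nat_lit 522) (nat_lit 1) (nat_lit 497) (nat_lit 0) (nat_lit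 522) (nat_lit 0) (nat_lit 376) (nat_lit 382) (nat_lit 382)) (XT.lf (nat_lit 1900) (nat_lit 2774845950) (nat_lit 76) (nat_lit 702968184) (nat_lit 0) (nat_lit 702968184) (nat_lit 522) (nat_lit 1) (nat_lit 498) (nat_lit 1) (nat_lit 497) (nat_lit 0) (nat_lit 377) (nat_lit 382) (nat_lit 381))))) (XT.nd (nat_lit 156) (nat_lit 0) (nat_lit 76) (XT.nd (nat_lit 78) (nat_lit 0) (nat_lit 0) (XT.lf (nat_lit 1900) (nat_lit 1362462570) (nat_lit 0) (nat_lit 1414824237) (nat_lit 1824) (nat_lit 1362462570) (nat_lit 523) (nat_lit 1) (nat_lit 498) (nat_lit 1) (nat_lit 522) (nat_lit 1) (nat_lit 378) (nat_lit 382) (nat_lit 380)) (XT.lf (nat_lit 1900) (nat_lit 2666675115) (nat_lit 76) (nat_lit 716331688) (nat_lit 0) (nat_lit 716331688) (nat_lit 523) (nat_lit 1) (nat_lit 499) (nat_lit 1) (nat_lit 498) (nat_lit 1) (nat_lit 379) (nat_lit 382) (nat_lit 379))) (XT.nd (nat_lit 78) (nat_lit 0) (nat_lit 0) (XT.lf (nat_lit 1900) (nat_lit 1295953573) (nat_lit 0) (nat_lit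 1467466554) (nat_lit 1824) (nat_lit 1295953573) (nat_lit 524) (nat_lit 1) (nat_lit 499) (nat_lit 1) (nat_lit 523) (nat_lit 1) (nat_lit 380) (nat_lit 382) (nat_lit 378)) (XT.nd (nat_lit 78) (nat_lit 0) (nat_lit 76) (XT.lf (nat_lit 1900) (nat_lit 2508950832) (nat_lit 76) (nat_lit 755526199) (nat_lit 0) (nat_lit 755526199) (nat_lit 524) (nat_lit 1) (nat_lit 500) (nat_lit 1) (nat_lit 499) (nat_lit 1) (nat_lit 381) (nat_lit 382) (nat_lit 377)) (XT.lf (nat_lit 1900) (nat_lit 1205502772) (nat_lit 0) (nat_lit 1570073393) (nat_lit 1824) (nat_lit 1205502772) (nat_lit 525) (nat_lit 1) (nat_lit 500) (nat_lit 1) (nat_lit 524) (nat_lit 1) (nat_lit 382) (nat_lit 382) (nat_lit 376))))))))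
noncomputable def ec36 : XT := (XT.nd (nat_lit 1404) (nat_lit 8664) (nat_lit 0) (XT.nd (nat_lit 702) (nat_lit 1368) (nat_lit 0) (XT.nd (nat_lit 312) (nat_lit 0) (nat_lit 152) (XT.nd (nat_lit 156) (nat_lit 0) (nat_lit 76) (XT.nd (nat_lit 78) (nat_lit 0) (nat_lit 76) (XT.lf (nat_lit 1900) (nat_lit 2304651321) (nat_lit 76) (nat_lit 819032002) (nat_lit 0) (nat_lit 819032002) (nat_lit 525) (nat_lit 1) (nat_lit 501) (nat_lit 1) (nat_lit 500) (nat_lit 1) (nat_lit 383) (nat_lit 382) (nat_lit 375)) (XT.lf (nat_lit 1900) (nat_lit 1092559942) (nat_lit 0) (nat_lit 1719684792) (nat_lit 1824) (nat_lit 1092559942) (nat_lit 526) (nat_lit 1) (nat_lit 501) (nat_lit 1) (nat_lit 525) (nat_lit 1) (nat_lit 384) (nat_lit 382) (nat_lit 374))) (XT.nd (nat_lit 78) (nat_lit 0) (nat_lit 76) (XT.lf (nat_lit 1900) (nat_lit 2056618484) (nat_lit 76) (nat_lit 905398525) (nat_lit 0) (nat_lit 905398525) (nat_lit 526) (nat_lit 1) (nat_lit 502) (nat_lit 1) (nat_lit 501)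 (nat_lit 1) (nat_lit 385) (nat_lit 382) (nat_lit 373)) (XT.lf (nat_lit 1900) (nat_lit 958508365) (nat_lit 0) (nat_lit 1913475725) (nat_lit 1824) (nat_lit 958508365) (nat_lit 527) (nat_lit 1) (nat_lit 502) (nat_lit 1) (nat_lit 526) (nat_lit 1) (nat_lit 386) (nat_lit 382) (nat_lit 372)))) (XT.nd (nat_lit 156) (nat_lit 0) (nat_lit 76) (XT.nd (nat_lit 78) (nat_lit 0) (nat_lit 76) (XT.lf (nat_lit 1900) (nat_lit 1767563609) (nat_lit 76) (nat_lit 1013241456) (nat_lit 0) (nat_lit 1013241456) (nat_lit 527) (nat_lit 1) (nat_lit 503) (nat_lit 1) (nat_lit 502) (nat_lit 1) (nat_lit 387) (nat_lit 382) (nat_lit 371)) (XT.lf (nat_lit 1900) (nat_lit 804667611) (nat_lit 0) (nat_lit 2148750467) (nat_lit 1824) (nat_lit 804667611) (nat_lit 528) (nat_lit 1) (nat_lit 503) (nat_lit 1) (nat_lit 527) (nat_lit 1) (nat_lit 388) (nat_lit 382) (nat_lit 370))) (XT.nd (nat_lit 78) (nat_lit 0) (nat_lit 76) (XT.lf (nat_lit 1900) (nat_lit 1440072836) (nat_lit 76) (nat_lit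 1141239974) (nat_lit 0) (nat_lit 1141239974) (nat_lit 528) (nat_lit 1) (nat_lit 504) (nat_lit 1) (nat_lit 503) (nat_lit 1) (nat_lit 389) (nat_lit 382) (nat_lit 369)) (XT.nd (nat_lit 78) (nat_lit 0) (nat_lit 0) (XT.lf (nat_lit 1900) (nat_lit 632296207) (nat_lit 0) (nat_lit 2422937192) (nat_lit 1824) (nat_lit 632296207) (nat_lit 529) (nat_lit 1) (nat_lit 504) (nat_lit 1) (nat_lit 528) (nat_lit 1) (nat_lit 390) (nat_lit 382) (nat_lit 368)) (XT.lf (nat_lit 1900) (nat_lit 1076612409) (nat_lit 76) (nat_lit 1288134095) (nat_lit 0) (nat_lit 1288134095) (nat_lit 529) (nat_lit 1) (nat_lit 505) (nat_lit 1) (nat_lit 504) (nat_lit 1) (nat_lit 391) (nat_lit 382) (nat_lit 367)))))) (XT.nd (nat_lit 312) (nat_lit 1748) (nat_lit 0) (XT.nd (nat_lit 156) (nat_lit 0) (nat_lit 76) (XT.nd (nat_lit 78) (nat_lit 0) (nat_lit 0) (XT.lf (nat_lit 1900) (nat_lit 442594201) (nat_lit 0) (nat_lit 2733582783) (nat_lit 1824) (nat_lit 442594201) (nat_lit 530) (nat_lit 1)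 (nat_lit 505) (nat_lit 1) (nat_lit 529) (nat_lit 1) (nat_lit 392) (nat_lit 382) (nat_lit 366)) (XT.lf (nat_lit 1900) (nat_lit 679533711) (nat_lit 76) (nat_lit 1452722121) (nat_lit 0) (nat_lit 1452722121) (nat_lit 530) (nat_lit 1) (nat_lit 506) (nat_lit 1) (nat_lit 505) (nat_lit 1) (nat_lit 393) (nat_lit 382) (nat_lit 365))) (XT.nd (nat_lit 78) (nat_lit 0) (nat_lit 0) (XT.lf (nat_lit 1900) (nat_lit 236705620) (nat_lit 0) (nat_lit 3078347852) (nat_lit 1824) (nat_lit 236705620) (nat_lit 531) (nat_lit 1) (nat_lit 506) (nat_lit 1) (nat_lit 530) (nat_lit 1) (nat_lit 394) (nat_lit 382) (nat_lit 364)) (XT.lf (nat_lit 1900) (nat_lit 251078100) (nat_lit 76) (nat_lit 1633858190) (nat_lit 0) (nat_lit 1633858190) (nat_lit 531) (nat_lit 1) (nat_lit 507) (nat_lit 1) (nat_lit 506) (nat_lit 1) (nat_lit 395) (nat_lit 382) (nat_lit 363)))) (XT.nd (nat_lit 156) (nat_lit 0) (nat_lit 0) (XT.nd (nat_lit 78) (nat_lit 1900) (nat_lit 0) (XT.lf (nat_lit 1900) (nat_lit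 15720831) (nat_lit 0) (nat_lit 3455001965) (nat_lit 1824) (nat_lit 15720831) (nat_lit 532) (nat_lit 1) (nat_lit 507) (nat_lit 1) (nat_lit 531) (nat_lit 1) (nat_lit 396) (nat_lit 382) (nat_lit 362)) (XT.lf (nat_lit 1976) (nat_lit 1625172985) (nat_lit 0) (nat_lit 203908615) (nat_lit 1900) (nat_lit 1625172985) (nat_lit 508) (nat_lit 1) (nat_lit 482) (nat_lit 1) (nat_lit 507) (nat_lit 1) (nat_lit 397) (nat_lit 382) (nat_lit 361))) (XT.nd (nat_lit 78) (nat_lit 0) (nat_lit 76) (XT.lf (nat_lit 1976) (nat_lit 2986905779) (nat_lit 76) (nat_lit 217878292) (nat_lit 0) (nat_lit 217878292) (nat_lit 508) (nat_lit 1) (nat_lit 483) (nat_lit 1) (nat_lit 482) (nat_lit 1) (nat_lit 398) (nat_lit 382) (nat_lit 360)) (XT.nd (nat_lit 78) (nat_lit 0) (nat_lit 0) (XT.lf (nat_lit 1976) (nat_lit 1354425124) (nat_lit 0) (nat_lit 682451489) (nat_lit 1900) (nat_lit 1354425124) (nat_lit 509) (nat_lit 1) (nat_lit 483) (nat_lit 1) (nat_lit 508) (nat_lit 1) (nat_lit 399)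 (nat_lit 382) (nat_lit 359)) (XT.lf (nat_lit 1976) (nat_lit 2431756975) (nat_lit 76) (nat_lit 464355507) (nat_lit 0) (nat_lit 464355507) (nat_lit 509) (nat_lit 1) (nat_lit 484) (nat_lit 1) (nat_lit 483) (nat_lit 1) (nat_lit 400) (nat_lit 382) (nat_lit 358))))))) (XT.nd (nat_lit 702) (nat_lit 4028) (nat_lit 0) (XT.nd (nat_lit 312) (nat_lit 2736) (nat_lit 0) (XT.nd (nat_lit 156) (nat_lit 912) (nat_lit 0) (XT.nd (nat_lit 78) (nat_lit 1140) (nat_lit 0) (XT.lf (nat_lit 76) (nat_lit 1071996275) (nat_lit 0) (nat_lit 1185930503) (nat_lit 1900) (nat_lit 1071996275) (nat_lit 485) (nat_lit 1) (nat_lit 484) (nat_lit 1) (nat_lit 509) (nat_lit 1) (nat_lit 401) (nat_lit 382) (nat_lit 357)) (XT.lf (nat_lit 1216) (nat_lit 1854068394) (nat_lit 0) (nat_lit 722877831) (nat_lit 1140) (nat_lit 722877831) (nat_lit 485) (nat_lit 1) (nat_lit 469) (nat_lit 1) (nat_lit 484) (nat_lit 1) (nat_lit 402) (nat_lit 382) (nat_lit 356))) (XT.nd (nat_lit 78) (nat_lit 912)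 (nat_lit 0) (XT.lf (nat_lit 76) (nat_lit 778775212) (nat_lit 0) (nat_lit 1712524051) (nat_lit 1216) (nat_lit 778775212) (nat_lit 470) (nat_lit 1) (nat_lit 469) (nat_lit 1) (nat_lit 485) (nat_lit 1) (nat_lit 403) (nat_lit 382) (nat_lit 355)) (XT.lf (nat_lit 988) (nat_lit 1255579928) (nat_lit 0) (nat_lit 992553690) (nat_lit 912) (nat_lit 992553690) (nat_lit 470) (nat_lit 1) (nat_lit 457) (nat_lit 1) (nat_lit 469) (nat_lit 1) (nat_lit 404) (nat_lit 382) (nat_lit 354)))) (XT.nd (nat_lit 156) (nat_lit 1824) (nat_lit 0) (XT.nd (nat_lit 78) (nat_lit 912) (nat_lit 0) (XT.lf (nat_lit 76) (nat_lit 475607661) (nat_lit 0) (nat_lit 2260497995) (nat_lit 988) (nat_lit 475607661) (nat_lit 458) (nat_lit 1) (nat_lit 457) (nat_lit 1) (nat_lit 470) (nat_lit 1) (nat_lit 405) (nat_lit 382) (nat_lit 353)) (XT.lf (nat_lit 988) (nat_lit 637946953) (nat_lit 0) (nat_lit 1272534445) (nat_lit 912) (nat_lit 1272534445) (nat_lit 458) (nat_lit 1) (nat_lit 445) (nat_lit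 1) (nat_lit 457) (nat_lit 1) (nat_lit 406) (nat_lit 382) (nat_lit 352))) (XT.nd (nat_lit 78) (nat_lit 1824) (nat_lit 0) (XT.lf (nat_lit 76) (nat_lit 163298143) (nat_lit 0) (nat_lit 2828201938) (nat_lit 988) (nat_lit 163298143) (nat_lit 446) (nat_lit 1) (nat_lit 445) (nat_lit 1) (nat_lit 458) (nat_lit 1) (nat_lit 407) (nat_lit 382) (nat_lit 351)) (XT.nd (nat_lit 78) (nat_lit 988) (nat_lit 0) (XT.lf (nat_lit 912) (nat_lit 2743943) (nat_lit 0) (nat_lit 1562012557) (nat_lit 836) (nat_lit 1562012557) (nat_lit 446) (nat_lit 1) (nat_lit 434) (nat_lit 1) (nat_lit 445) (nat_lit 1) (nat_lit 408) (nat_lit 382) (nat_lit 350)) (XT.lf (nat_lit 988) (nat_lit 2786501474) (nat_lit 0) (nat_lit 156352813) (nat_lit 912) (nat_lit 156352813) (nat_lit 434) (nat_lit 1) (nat_lit 421) (nat_lit 1) (nat_lit 433) (nat_lit 1) (nat_lit 409) (nat_lit 382) (nat_lit 349)))))) (XT.nd (nat_lit 312) (nat_lit 2356) (nat_lit 0) (XT.nd (nat_lit 156) (nat_lit 836) (nat_lit 0)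 (XT.nd (nat_lit 78) (nat_lit 836) (nat_lit 0) (XT.lf (nat_lit 76) (nat_lit 1215898472) (nat_lit 0) (nat_lit 640026446) (nat_lit 988) (nat_lit 1215898472) (nat_lit 422) (nat_lit 1) (nat_lit 421) (nat_lit 1) (nat_lit 434) (nat_lit 1) (nat_lit 410) (nat_lit 382) (nat_lit 348)) (XT.lf (nat_lit 912) (nat_lit 2079836704) (nat_lit 0) (nat_lit 482528674) (nat_lit 836) (nat_lit 482528674) (nat_lit 422) (nat_lit 1) (nat_lit 410) (nat_lit 1) (nat_lit 421) (nat_lit 1) (nat_lit 411) (nat_lit 382) (nat_lit 347))) (XT.nd (nat_lit 78) (nat_lit 836) (nat_lit 0) (XT.lf (nat_lit 76) (nat_lit 860501946) (nat_lit 0) (nat_lit 1297218774) (nat_lit 912) (nat_lit 860501946) (nat_lit 411) (nat_lit 1) (nat_lit 410) (nat_lit 1) (nat_lit 422) (nat_lit 1) (nat_lit 412) (nat_lit 382) (nat_lit 346)) (XT.lf (nat_lit 912) (nat_lit 1360672684) (nat_lit 0) (nat_lit 815617112) (nat_lit 836) (nat_lit 815617112) (nat_lit 411) (nat_lit 1) (nat_lit 399) (nat_lit 1) (nat_lit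 410) (nat_lit 1) (nat_lit 413) (nat_lit 382) (nat_lit 345)))) (XT.nd (nat_lit 156) (nat_lit 1596) (nat_lit 0) (XT.nd (nat_lit 78) (nat_lit 760) (nat_lit 0) (XT.lf (nat_lit 76) (nat_lit 499197858) (nat_lit 0) (nat_lit 1967534744) (nat_lit 912) (nat_lit 499197858) (nat_lit 400) (nat_lit 1) (nat_lit 399) (nat_lit 1) (nat_lit 411) (nat_lit 1) (nat_lit 414) (nat_lit 382) (nat_lit 344)) (XT.lf (nat_lit 836) (nat_lit 630277911) (nat_lit 0) (nat_lit 1154965816) (nat_lit 760) (nat_lit 1154965816) (nat_lit 400) (nat_lit 1) (nat_lit 389) (nat_lit 1) (nat_lit 399) (nat_lit 1) (nat_lit 415) (nat_lit 382) (nat_lit 343))) (XT.nd (nat_lit 78) (nat_lit 1596) (nat_lit 0) (XT.lf (nat_lit 76) (nat_lit 132602038) (nat_lit 0) (nat_lit 2649707037) (nat_lit 836) (nat_lit 132602038) (nat_lit 390) (nat_lit 1) (nat_lit 389) (nat_lit 1) (nat_lit 400) (nat_lit 1) (nat_lit 416) (nat_lit 382) (nat_lit 342)) (XT.nd (nat_lit 78) (nat_lit 760) (nat_lit 0) (XT.lf (nat_lit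 76) (nat_lit 1390526722) (nat_lit 0) (nat_lit 108699176) (nat_lit 836) (nat_lit 1390526722) (nat_lit 379) (nat_lit 1) (nat_lit 378) (nat_lit 1) (nat_lit 389) (nat_lit 1) (nat_lit 417) (nat_lit 382) (nat_lit 341)) (XT.lf (nat_lit 836) (nat_lit 2390744113) (nat_lit 0) (nat_lit 237130772) (nat_lit 760) (nat_lit 237130772) (nat_lit 379) (nat_lit 1) (nat_lit 368) (nat_lit 1) (nat_lit 378) (nat_lit 1) (nat_lit 418) (nat_lit 382) (nat_lit 340))))))))
noncomputable def ec37 : XT := (XT.nd (nat_lit 1404) (nat_lit 3952) (nat_lit 0) (XT.nd (nat_lit 702) (nat_lit 3040) (nat_lit 0) (XT.nd (nat_lit 312) (nat_lit 2128) (nat_lit 0) (XT.nd (nat_lit 156) (nat_lit 684) (nat_lit 0) (XT.nd (nat_lit 78) (nat_lit 760) (nat_lit 0) (XT.lf (nat_lit 76) (nat_lit 996127581) (nat_lit 0) (nat_lit 848178319) (nat_lit 836) (nat_lit 996127581) (nat_lit 369) (nat_lit 1) (nat_lit 368) (nat_lit 1) (nat_lit 379) (nat_lit 1) (nat_lit 419) (nat_lit 382) (nat_lit 339)) (XT.lf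 (nat_lit 836) (nat_lit 1595999602) (nat_lit 0) (nat_lit 610117049) (nat_lit 760) (nat_lit 610117049) (nat_lit 369) (nat_lit 1) (nat_lit 358) (nat_lit 1) (nat_lit 368) (nat_lit 1) (nat_lit 420) (nat_lit 382) (nat_lit 338))) (XT.nd (nat_lit 78) (nat_lit 684) (nat_lit 0) (XT.lf (nat_lit 76) (nat_lit 598472112) (nat_lit 0) (nat_lit 1595356955) (nat_lit 836) (nat_lit 598472112) (nat_lit 359) (nat_lit 1) (nat_lit 358) (nat_lit 1) (nat_lit 369) (nat_lit 1) (nat_lit 421) (nat_lit 382) (nat_lit 337)) (XT.lf (nat_lit 760) (nat_lit 795217691) (nat_lit 0) (nat_lit 986707216) (nat_lit 684) (nat_lit 986707216) (nat_lit 359) (nat_lit 1) (nat_lit 349) (nat_lit 1) (nat_lit 358) (nat_lit 1) (nat_lit 422) (nat_lit 382) (nat_lit 336)))) (XT.nd (nat_lit 156) (nat_lit 1368) (nat_lit 0) (XT.nd (nat_lit 78) (nat_lit 760) (nat_lit 0) (XT.lf (nat_lit 76) (nat_lit 198050903) (nat_lit 0) (nat_lit 2349222097) (nat_lit 760) (nat_lit 198050903) (nat_lit 350) (nat_lit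 1) (nat_lit 349) (nat_lit 1) (nat_lit 359) (nat_lit 1) (nat_lit 423) (nat_lit 382) (nat_lit 335)) (XT.lf (nat_lit 76) (nat_lit 1355832096) (nat_lit 0) (nat_lit 10504089) (nat_lit 760) (nat_lit 1355832096) (nat_lit 340) (nat_lit 1) (nat_lit 339) (nat_lit 1) (nat_lit 349) (nat_lit 1) (nat_lit 424) (nat_lit 382) (nat_lit 334))) (XT.nd (nat_lit 78) (nat_lit 684) (nat_lit 0) (XT.lf (nat_lit 760) (nat_lit 2292713907) (nat_lit 0) (nat_lit 203325118) (nat_lit 684) (nat_lit 203325118) (nat_lit 340) (nat_lit 1) (nat_lit 330) (nat_lit 1) (nat_lit 339) (nat_lit 1) (nat_lit 425) (nat_lit 382) (nat_lit 333)) (XT.nd (nat_lit 78) (nat_lit 684) (nat_lit 0) (XT.lf (nat_lit 76) (nat_lit 933397398) (nat_lit 0) (nat_lit 809914631) (nat_lit 760) (nat_lit 933397398) (nat_lit 331) (nat_lit 1) (nat_lit 330) (nat_lit 1) (nat_lit 340) (nat_lit 1) (nat_lit 426) (nat_lit 382) (nat_lit 332)) (XT.lf (nat_lit 760) (nat_lit 1443898656) (nat_lit 0) (nat_lit 605247894)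 (nat_lit 684) (nat_lit 605247894) (nat_lit 331) (nat_lit 1) (nat_lit 321) (nat_lit 1) (nat_lit 330) (nat_lit 1) (nat_lit 427) (nat_lit 382) (nat_lit 331)))))) (XT.nd (nat_lit 312) (nat_lit 1748) (nat_lit 0) (XT.nd (nat_lit 156) (nat_lit 684) (nat_lit 0) (XT.nd (nat_lit 78) (nat_lit 608) (nat_lit 0) (XT.lf (nat_lit 76) (nat_lit 509866177) (nat_lit 0) (nat_lit 1612597161) (nat_lit 760) (nat_lit 509866177) (nat_lit 322) (nat_lit 1) (nat_lit 321) (nat_lit 1) (nat_lit 331) (nat_lit 1) (nat_lit 428) (nat_lit 382) (nat_lit 330)) (XT.lf (nat_lit 684) (nat_lit 593273846) (nat_lit 0) (nat_lit 1008607680) (nat_lit 608) (nat_lit 1008607680) (nat_lit 322) (nat_lit 1) (nat_lit 313) (nat_lit 1) (nat_lit 321) (nat_lit 1) (nat_lit 429) (nat_lit 382) (nat_lit 329))) (XT.nd (nat_lit 78) (nat_lit 684) (nat_lit 0) (XT.lf (nat_lit 76) (nat_lit 85624152) (nat_lit 0) (nat_lit 2417751799) (nat_lit 684) (nat_lit 85624152) (nat_lit 314) (nat_lit 1) (nat_lit 313)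 (nat_lit 1) (nat_lit 322) (nat_lit 1) (nat_lit 430) (nat_lit 382) (nat_lit 328)) (XT.lf (nat_lit 76) (nat_lit 1156283749) (nat_lit 0) (nat_lit 255019414) (nat_lit 684) (nat_lit 1156283749) (nat_lit 305) (nat_lit 1) (nat_lit 304) (nat_lit 1) (nat_lit 313) (nat_lit 1) (nat_lit 431) (nat_lit 382) (nat_lit 327)))) (XT.nd (nat_lit 156) (nat_lit 1140) (nat_lit 0) (XT.nd (nat_lit 78) (nat_lit 0) (nat_lit 0) (XT.lf (nat_lit 684) (nat_lit 1873047678) (nat_lit 0) (nat_lit 336734631) (nat_lit 608) (nat_lit 336734631) (nat_lit 305) (nat_lit 1) (nat_lit 296) (nat_lit 1) (nat_lit 304) (nat_lit 1) (nat_lit 432) (nat_lit 382) (nat_lit 326)) (XT.lf (nat_lit 76) (nat_lit 714870802) (nat_lit 0) (nat_lit 1095875279) (nat_lit 684) (nat_lit 714870802) (nat_lit 297) (nat_lit 1) (nat_lit 296) (nat_lit 1) (nat_lit 305) (nat_lit 1) (nat_lit 433) (nat_lit 382) (nat_lit 325))) (XT.nd (nat_lit 78) (nat_lit 532) (nat_lit 0) (XT.lf (nat_lit 684) (nat_lit 987918103)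 (nat_lit 0) (nat_lit 758533582) (nat_lit 608) (nat_lit 758533582) (nat_lit 297) (nat_lit 1) (nat_lit 288) (nat_lit 1) (nat_lit 296) (nat_lit 1) (nat_lit 434) (nat_lit 382) (nat_lit 324)) (XT.nd (nat_lit 78) (nat_lit 532) (nat_lit 0) (XT.lf (nat_lit 76) (nat_lit 274107651) (nat_lit 0) (nat_lit 1936414605) (nat_lit 684) (nat_lit 274107651) (nat_lit 289) (nat_lit 1) (nat_lit 288) (nat_lit 1) (nat_lit 297) (nat_lit 1) (nat_lit 435) (nat_lit 382) (nat_lit 323)) (XT.lf (nat_lit 608) (nat_lit 104394555) (nat_lit 0) (nat_lit 1180014660) (nat_lit 532) (nat_lit 1180014660) (nat_lit 289) (nat_lit 1) (nat_lit 281) (nat_lit 1) (nat_lit 288) (nat_lit 1) (nat_lit 436) (nat_lit 382) (nat_lit 322))))))) (XT.nd (nat_lit 702) (nat_lit 1064) (nat_lit 0) (XT.nd (nat_lit 312) (nat_lit 1672) (nat_lit 0) (XT.nd (nat_lit 156) (nat_lit 532) (nat_lit 0) (XT.nd (nat_lit 78) (nat_lit 0) (nat_lit 0) (XT.lf (nat_lit 684) (nat_lit 2115279310) (nat_lit 0) (nat_lit 164617407)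 (nat_lit 608) (nat_lit 164617407) (nat_lit 281) (nat_lit 1) (nat_lit 272) (nat_lit 1) (nat_lit 280) (nat_lit 1) (nat_lit 437) (nat_lit 382) (nat_lit 321)) (XT.lf (nat_lit 76) (nat_lit 828976828) (nat_lit 0) (nat_lit 766753139) (nat_lit 684) (nat_lit 828976828) (nat_lit 273) (nat_lit 1) (nat_lit 272) (nat_lit 1) (nat_lit 281) (nat_lit 1) (nat_lit 438) (nat_lit 382) (nat_lit 320))) (XT.nd (nat_lit 78) (nat_lit 0) (nat_lit 0) (XT.lf (nat_lit 608) (nat_lit 1204550746) (nat_lit 0) (nat_lit 600319095) (nat_lit 532) (nat_lit 600319095) (nat_lit 273) (nat_lit 1) (nat_lit 265) (nat_lit 1) (nat_lit 272) (nat_lit 1) (nat_lit 439) (nat_lit 382) (nat_lit 319)) (XT.lf (nat_lit 76) (nat_lit 376030465) (nat_lit 0) (nat_lit 1633836434) (nat_lit 608) (nat_lit 376030465) (nat_lit 266) (nat_lit 1) (nat_lit 265) (nat_lit 1) (nat_lit 273) (nat_lit 1) (nat_lit 440) (nat_lit 382) (nat_lit 318)))) (XT.nd (nat_lit 156) (nat_lit 532) (nat_lit 0) (XT.nd (nat_lit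 78) (nat_lit 608) (nat_lit 0) (XT.lf (nat_lit 608) (nat_lit 297694540) (nat_lit 0) (nat_lit 1034539377) (nat_lit 532) (nat_lit 1034539377) (nat_lit 266) (nat_lit 1) (nat_lit 258) (nat_lit 1) (nat_lit 265) (nat_lit 1) (nat_lit 441) (nat_lit 382) (nat_lit 317)) (XT.lf (nat_lit 608) (nat_lit 2199197436) (nat_lit 0) (nat_lit 74374548) (nat_lit 532) (nat_lit 74374548) (nat_lit 258) (nat_lit 1) (nat_lit 250) (nat_lit 1) (nat_lit 257) (nat_lit 1) (nat_lit 442) (nat_lit 382) (nat_lit 316))) (XT.nd (nat_lit 78) (nat_lit 532) (nat_lit 0) (XT.lf (nat_lit 76) (nat_lit 866137813) (nat_lit 0) (nat_lit 596889826) (nat_lit 608) (nat_lit 866137813) (nat_lit 251) (nat_lit 1) (nat_lit 250) (nat_lit 1) (nat_lit 258) (nat_lit 1) (nat_lit 443) (nat_lit 382) (nat_lit 315)) (XT.nd (nat_lit 78) (nat_lit 0) (nat_lit 0) (XT.lf (nat_lit 608) (nat_lit 1270582241) (nat_lit 0) (nat_lit 520046694) (nat_lit 532) (nat_lit 520046694) (nat_lit 251) (nat_lit 1) (nat_lit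 243) (nat_lit 1) (nat_lit 250) (nat_lit 1) (nat_lit 444) (nat_lit 382) (nat_lit 314)) (XT.lf (nat_lit 76) (nat_lit 404763607) (nat_lit 0) (nat_lit 1482856150) (nat_lit 608) (nat_lit 404763607) (nat_lit 244) (nat_lit 1) (nat_lit 243) (nat_lit 1) (nat_lit 251) (nat_lit 1) (nat_lit 445) (nat_lit 382) (nat_lit 313)))))) (XT.nd (nat_lit 53976) (nat_lit 0) (nat_lit 20444) (XT.nd (nat_lit 53742) (nat_lit 0) (nat_lit 20368) (XT.nd (nat_lit 78) (nat_lit 608) (nat_lit 0) (XT.lf (nat_lit 532) (nat_lit 347756850) (nat_lit 0) (nat_lit 963250816) (nat_lit 456) (nat_lit 963250816) (nat_lit 244) (nat_lit 1) (nat_lit 237) (nat_lit 1) (nat_lit 243) (nat_lit 1) (nat_lit 446) (nat_lit 382) (nat_lit 312)) (XT.lf (nat_lit 608) (nat_lit 2149859338) (nat_lit 0) (nat_lit 53278273) (nat_lit 532) (nat_lit 53278273) (nat_lit 237) (nat_lit 1) (nat_lit 229) (nat_lit 1) (nat_lit 236) (nat_lit 1) (nat_lit 447) (nat_lit 382) (nat_lit 311))) (XT.nd (nat_lit 78) (nat_lit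 0) (nat_lit 0) (XT.lf (nat_lit 1900) (nat_lit 715790402) (nat_lit 0) (nat_lit 721776074) (nat_lit 1900) (nat_lit 715790402) (nat_lit 522) (nat_lit 1) (nat_lit 497) (nat_lit 0) (nat_lit 522) (nat_lit 0) (nat_lit 374) (nat_lit 383) (nat_lit 383)) (XT.nd (nat_lit 78) (nat_lit 0) (nat_lit 76) (XT.lf (nat_lit 1900) (nat_lit 2830342869) (nat_lit 76) (nat_lit 717027547) (nat_lit 0) (nat_lit 717027547) (nat_lit 522) (nat_lit 1) (nat_lit 498) (nat_lit 1) (nat_lit 497) (nat_lit 0) (nat_lit 375) (nat_lit 383) (nat_lit 382)) (XT.lf (nat_lit 1900) (nat_lit 1389711821) (nat_lit 0) (nat_lit 1443120721) (nat_lit 1824) (nat_lit 1389711821) (nat_lit 523) (nat_lit 1) (nat_lit 498) (nat_lit 1) (nat_lit 522) (nat_lit 1) (nat_lit 376) (nat_lit 383) (nat_lit 381))))) (XT.nd (nat_lit 156) (nat_lit 0) (nat_lit 76) (XT.nd (nat_lit 78) (nat_lit 0) (nat_lit 76) (XT.lf (nat_lit 1900) (nat_lit 2720008617) (nat_lit 76) (nat_lit 730658322) (nat_lit 0) (nat_lit 730658322)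 (nat_lit 523) (nat_lit 1) (nat_lit 499) (nat_lit 1) (nat_lit 498) (nat_lit 1) (nat_lit 377) (nat_lit 383) (nat_lit 380)) (XT.lf (nat_lit 1900) (nat_lit 1321872645) (nat_lit 0) (nat_lit 1496815885) (nat_lit 1824) (nat_lit 1321872645) (nat_lit 524) (nat_lit 1) (nat_lit 499) (nat_lit 1) (nat_lit 523) (nat_lit 1) (nat_lit 378) (nat_lit 383) (nat_lit 379))) (XT.nd (nat_lit 78) (nat_lit 0) (nat_lit 76) (XT.lf (nat_lit 1900) (nat_lit 2559129849) (nat_lit 76) (nat_lit 770636723) (nat_lit 0) (nat_lit 770636723) (nat_lit 524) (nat_lit 1) (nat_lit 500) (nat_lit 1) (nat_lit 499) (nat_lit 1) (nat_lit 379) (nat_lit 383) (nat_lit 378)) (XT.nd (nat_lit 78) (nat_lit 0) (nat_lit 0) (XT.lf (nat_lit 1900) (nat_lit 1229612827) (nat_lit 0) (nat_lit 1601474861) (nat_lit 1824) (nat_lit 1229612827) (nat_lit 525) (nat_lit 1) (nat_lit 500) (nat_lit 1) (nat_lit 524) (nat_lit 1) (nat_lit 380) (nat_lit 383) (nat_lit 377)) (XT.lf (nat_lit 1900) (nat_lit 2350744348)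 (nat_lit 76) (nat_lit 835412642) (nat_lit 0) (nat_lit 835412642) (nat_lit 525) (nat_lit 1) (nat_lit 501) (nat_lit 1) (nat_lit 500) (nat_lit 1) (nat_lit 381) (nat_lit 383) (nat_lit 376))))))))
noncomputable def ec38 : XT := (XT.nd (nat_lit 1404) (nat_lit 9424) (nat_lit 0) (XT.nd (nat_lit 702) (nat_lit 1444) (nat_lit 0) (XT.nd (nat_lit 312) (nat_lit 0) (nat_lit 152) (XT.nd (nat_lit 156) (nat_lit 0) (nat_lit 76) (XT.nd (nat_lit 78) (nat_lit 0) (nat_lit 0) (XT.lf (nat_lit 1900) (nat_lit 1114411140) (nat_lit 0) (nat_lit 1754078488) (nat_lit 1824) (nat_lit 1114411140) (nat_lit 526) (nat_lit 1) (nat_lit 501) (nat_lit 1) (nat_lit 525) (nat_lit 1) (nat_lit 382) (nat_lit 383) (nat_lit 375)) (XT.lf (nat_lit 1900) (nat_lit 2097750854) (nat_lit 76) (nat_lit 923506496) (nat_lit 0) (nat_lit 923506496) (nat_lit 526) (nat_lit 1) (nat_lit 502) (nat_lit 1) (nat_lit 501) (nat_lit 1) (nat_lit 383) (nat_lit 383) (nat_lit 374))) (XT.nd (nat_lit 78) (nat_lit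 0) (nat_lit 0) (XT.lf (nat_lit 1900) (nat_lit 977678532) (nat_lit 0) (nat_lit 1951745240) (nat_lit 1824) (nat_lit 977678532) (nat_lit 527) (nat_lit 1) (nat_lit 502) (nat_lit 1) (nat_lit 526) (nat_lit 1) (nat_lit 384) (nat_lit 383) (nat_lit 373)) (XT.lf (nat_lit 1900) (nat_lit 1802914881) (nat_lit 76) (nat_lit 1033506285) (nat_lit 0) (nat_lit 1033506285) (nat_lit 527) (nat_lit 1) (nat_lit 503) (nat_lit 1) (nat_lit 502) (nat_lit 1) (nat_lit 385) (nat_lit 383) (nat_lit 372)))) (XT.nd (nat_lit 156) (nat_lit 0) (nat_lit 76) (XT.nd (nat_lit 78) (nat_lit 0) (nat_lit 0) (XT.lf (nat_lit 1900) (nat_lit 820760963) (nat_lit 0) (nat_lit 2191725477) (nat_lit 1824) (nat_lit 820760963) (nat_lit 528) (nat_lit 1) (nat_lit 503) (nat_lit 1) (nat_lit 527) (nat_lit 1) (nat_lit 386) (nat_lit 383) (nat_lit 371)) (XT.lf (nat_lit 1900) (nat_lit 1468874293) (nat_lit 76) (nat_lit 1164064774) (nat_lit 0) (nat_lit 1164064774) (nat_lit 528) (nat_lit 1) (nat_lit 504)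 (nat_lit 1) (nat_lit 503) (nat_lit 1) (nat_lit 387) (nat_lit 383) (nat_lit 370))) (XT.nd (nat_lit 78) (nat_lit 0) (nat_lit 0) (XT.lf (nat_lit 1900) (nat_lit 644942131) (nat_lit 0) (nat_lit 2471395936) (nat_lit 1824) (nat_lit 644942131) (nat_lit 529) (nat_lit 1) (nat_lit 504) (nat_lit 1) (nat_lit 528) (nat_lit 1) (nat_lit 388) (nat_lit 383) (nat_lit 369)) (XT.nd (nat_lit 78) (nat_lit 0) (nat_lit 76) (XT.lf (nat_lit 1900) (nat_lit 1098144658) (nat_lit 76) (nat_lit 1313896777) (nat_lit 0) (nat_lit 1313896777) (nat_lit 529) (nat_lit 1) (nat_lit 505) (nat_lit 1) (nat_lit 504) (nat_lit 1) (nat_lit 389) (nat_lit 383) (nat_lit 368)) (XT.lf (nat_lit 1900) (nat_lit 451446085) (nat_lit 0) (nat_lit 2788254438) (nat_lit 1824) (nat_lit 451446085) (nat_lit 530) (nat_lit 1) (nat_lit 505) (nat_lit 1) (nat_lit 529) (nat_lit 1) (nat_lit 390) (nat_lit 383) (nat_lit 367)))))) (XT.nd (nat_lit 312) (nat_lit 1748) (nat_lit 0) (XT.nd (nat_lit 156) (nat_lit 0)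 (nat_lit 76) (XT.nd (nat_lit 78) (nat_lit 0) (nat_lit 76) (XT.lf (nat_lit 1900) (nat_lit 693124385) (nat_lit 76) (nat_lit 1481776563) (nat_lit 0) (nat_lit 1481776563) (nat_lit 530) (nat_lit 1) (nat_lit 506) (nat_lit 1) (nat_lit 505) (nat_lit 1) (nat_lit 391) (nat_lit 383) (nat_lit 366)) (XT.lf (nat_lit 1900) (nat_lit 241439733) (nat_lit 0) (nat_lit 3139914809) (nat_lit 1824) (nat_lit 241439733) (nat_lit 531) (nat_lit 1) (nat_lit 506) (nat_lit 1) (nat_lit 530) (nat_lit 1) (nat_lit 392) (nat_lit 383) (nat_lit 365))) (XT.nd (nat_lit 78) (nat_lit 0) (nat_lit 76) (XT.lf (nat_lit 1900) (nat_lit 256099662) (nat_lit 76) (nat_lit 1666535354) (nat_lit 0) (nat_lit 1666535354) (nat_lit 531) (nat_lit 1) (nat_lit 507) (nat_lit 1) (nat_lit 506) (nat_lit 1) (nat_lit 393) (nat_lit 383) (nat_lit 364)) (XT.lf (nat_lit 1900) (nat_lit 16035248) (nat_lit 0) (nat_lit 3524102005) (nat_lit 1824) (nat_lit 16035248) (nat_lit 532) (nat_lit 1) (nat_lit 507) (nat_lit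 1) (nat_lit 531) (nat_lit 1) (nat_lit 394) (nat_lit 383) (nat_lit 363)))) (XT.nd (nat_lit 156) (nat_lit 0) (nat_lit 76) (XT.nd (nat_lit 78) (nat_lit 0) (nat_lit 0) (XT.lf (nat_lit 1976) (nat_lit 1657676445) (nat_lit 0) (nat_lit 207986787) (nat_lit 1900) (nat_lit 1657676445) (nat_lit 508) (nat_lit 1) (nat_lit 482) (nat_lit 1) (nat_lit 507) (nat_lit 1) (nat_lit 395) (nat_lit 383) (nat_lit 362)) (XT.lf (nat_lit 1976) (nat_lit 3046643894) (nat_lit 76) (nat_lit 222235858) (nat_lit 0) (nat_lit 222235858) (nat_lit 508) (nat_lit 1) (nat_lit 483) (nat_lit 1) (nat_lit 482) (nat_lit 1) (nat_lit 396) (nat_lit 383) (nat_lit 361))) (XT.nd (nat_lit 78) (nat_lit 0) (nat_lit 0) (XT.lf (nat_lit 1976) (nat_lit 1381513626) (nat_lit 0) (nat_lit 696100519) (nat_lit 1900) (nat_lit 1381513626) (nat_lit 509) (nat_lit 1) (nat_lit 483) (nat_lit 1) (nat_lit 508) (nat_lit 1) (nat_lit 397) (nat_lit 383) (nat_lit 360)) (XT.nd (nat_lit 78) (nat_lit 0) (nat_lit 76) (XT.lf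 (nat_lit 1976) (nat_lit 2480392114) (nat_lit 76) (nat_lit 473642618) (nat_lit 0) (nat_lit 473642618) (nat_lit 509) (nat_lit 1) (nat_lit 484) (nat_lit 1) (nat_lit 483) (nat_lit 1) (nat_lit 398) (nat_lit 383) (nat_lit 359)) (XT.lf (nat_lit 76) (nat_lit 1093436201) (nat_lit 0) (nat_lit 1209649113) (nat_lit 1900) (nat_lit 1093436201) (nat_lit 485) (nat_lit 1) (nat_lit 484) (nat_lit 1) (nat_lit 509) (nat_lit 1) (nat_lit 399) (nat_lit 383) (nat_lit 358))))))) (XT.nd (nat_lit 702) (nat_lit 4788) (nat_lit 0) (XT.nd (nat_lit 312) (nat_lit 2736) (nat_lit 0) (XT.nd (nat_lit 156) (nat_lit 912) (nat_lit 0) (XT.nd (nat_lit 78) (nat_lit 0) (nat_lit 0) (XT.lf (nat_lit 1216) (nat_lit 1891149762) (nat_lit 0) (nat_lit 737335387) (nat_lit 1140) (nat_lit 737335387) (nat_lit 485) (nat_lit 1) (nat_lit 469) (nat_lit 1) (nat_lit 484) (nat_lit 1) (nat_lit 400) (nat_lit 383) (nat_lit 357)) (XT.lf (nat_lit 76) (nat_lit 794350716) (nat_lit 0) (nat_lit 1746774533)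 (nat_lit 1216) (nat_lit 794350716) (nat_lit 470) (nat_lit 1) (nat_lit 469) (nat_lit 1) (nat_lit 485) (nat_lit 1) (nat_lit 401) (nat_lit 383) (nat_lit 356))) (XT.nd (nat_lit 78) (nat_lit 0) (nat_lit 0) (XT.lf (nat_lit 988) (nat_lit 1280691526) (nat_lit 0) (nat_lit 1012404764) (nat_lit 912) (nat_lit 1012404764) (nat_lit 470) (nat_lit 1) (nat_lit 457) (nat_lit 1) (nat_lit 469) (nat_lit 1) (nat_lit 402) (nat_lit 383) (nat_lit 355)) (XT.lf (nat_lit 76) (nat_lit 485119814) (nat_lit 0) (nat_lit 2305707955) (nat_lit 988) (nat_lit 485119814) (nat_lit 458) (nat_lit 1) (nat_lit 457) (nat_lit 1) (nat_lit 470) (nat_lit 1) (nat_lit 403) (nat_lit 383) (nat_lit 354)))) (XT.nd (nat_lit 156) (nat_lit 1824) (nat_lit 0) (XT.nd (nat_lit 78) (nat_lit 0) (nat_lit 0) (XT.lf (nat_lit 988) (nat_lit 650705892) (nat_lit 0) (nat_lit 1297985134) (nat_lit 912) (nat_lit 1297985134) (nat_lit 458) (nat_lit 1) (nat_lit 445) (nat_lit 1) (nat_lit 457) (nat_lit 1) (nat_lit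 404) (nat_lit 383) (nat_lit 353)) (XT.lf (nat_lit 76) (nat_lit 166564106) (nat_lit 0) (nat_lit 2884765977) (nat_lit 988) (nat_lit 166564106) (nat_lit 446) (nat_lit 1) (nat_lit 445) (nat_lit 1) (nat_lit 458) (nat_lit 1) (nat_lit 405) (nat_lit 383) (nat_lit 352))) (XT.nd (nat_lit 78) (nat_lit 988) (nat_lit 0) (XT.lf (nat_lit 912) (nat_lit 2798822) (nat_lit 0) (nat_lit 1593252808) (nat_lit 836) (nat_lit 1593252808) (nat_lit 446) (nat_lit 1) (nat_lit 434) (nat_lit 1) (nat_lit 445) (nat_lit 1) (nat_lit 406) (nat_lit 383) (nat_lit 351)) (XT.nd (nat_lit 78) (nat_lit 0) (nat_lit 0) (XT.lf (nat_lit 988) (nat_lit 2842231504) (nat_lit 0) (nat_lit 159479870) (nat_lit 912) (nat_lit 159479870) (nat_lit 434) (nat_lit 1) (nat_lit 421) (nat_lit 1) (nat_lit 433) (nat_lit 1) (nat_lit 407) (nat_lit 383) (nat_lit 350)) (XT.lf (nat_lit 76) (nat_lit 1240216441) (nat_lit 0) (nat_lit 652826975) (nat_lit 988) (nat_lit 1240216441) (nat_lit 422) (nat_lit 1) (nat_lit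 421) (nat_lit 1) (nat_lit 434) (nat_lit 1) (nat_lit 408) (nat_lit 383) (nat_lit 349)))))) (XT.nd (nat_lit 390) (nat_lit 2356) (nat_lit 0) (XT.nd (nat_lit 156) (nat_lit 1596) (nat_lit 0) (XT.nd (nat_lit 78) (nat_lit 0) (nat_lit 0) (XT.lf (nat_lit 912) (nat_lit 2121433438) (nat_lit 0) (nat_lit 492179247) (nat_lit 836) (nat_lit 492179247) (nat_lit 422) (nat_lit 1) (nat_lit 410) (nat_lit 1) (nat_lit 421) (nat_lit 1) (nat_lit 409) (nat_lit 383) (nat_lit 348)) (XT.lf (nat_lit 76) (nat_lit 877711985) (nat_lit 0) (nat_lit 1323163150) (nat_lit 912) (nat_lit 877711985) (nat_lit 411) (nat_lit 1) (nat_lit 410) (nat_lit 1) (nat_lit 422) (nat_lit 1) (nat_lit 410) (nat_lit 383) (nat_lit 347))) (XT.nd (nat_lit 78) (nat_lit 760) (nat_lit 0) (XT.lf (nat_lit 912) (nat_lit 1387886138) (nat_lit 0) (nat_lit 831929455) (nat_lit 836) (nat_lit 831929455) (nat_lit 411) (nat_lit 1) (nat_lit 399) (nat_lit 1) (nat_lit 410) (nat_lit 1) (nat_lit 411) (nat_lit 383)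 (nat_lit 346)) (XT.nd (nat_lit 78) (nat_lit 760) (nat_lit 0) (XT.lf (nat_lit 76) (nat_lit 509181815) (nat_lit 0) (nat_lit 2006885439) (nat_lit 912) (nat_lit 509181815) (nat_lit 400) (nat_lit 1) (nat_lit 399) (nat_lit 1) (nat_lit 411) (nat_lit 1) (nat_lit 412) (nat_lit 383) (nat_lit 345)) (XT.lf (nat_lit 836) (nat_lit 642883469) (nat_lit 0) (nat_lit 1178065132) (nat_lit 760) (nat_lit 1178065132) (nat_lit 400) (nat_lit 1) (nat_lit 389) (nat_lit 1) (nat_lit 399) (nat_lit 1) (nat_lit 413) (nat_lit 383) (nat_lit 344))))) (XT.nd (nat_lit 156) (nat_lit 1520) (nat_lit 0) (XT.nd (nat_lit 78) (nat_lit 836) (nat_lit 0) (XT.lf (nat_lit 76) (nat_lit 135254079) (nat_lit 0) (nat_lit 2702701178) (nat_lit 836) (nat_lit 135254079) (nat_lit 390) (nat_lit 1) (nat_lit 389) (nat_lit 1) (nat_lit 400) (nat_lit 1) (nat_lit 414) (nat_lit 383) (nat_lit 343)) (XT.lf (nat_lit 76) (nat_lit 1418337256) (nat_lit 0) (nat_lit 110873159) (nat_lit 836) (nat_lit 1418337256)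 (nat_lit 379) (nat_lit 1) (nat_lit 378) (nat_lit 1) (nat_lit 389) (nat_lit 1) (nat_lit 415) (nat_lit 383) (nat_lit 342))) (XT.nd (nat_lit 78) (nat_lit 760) (nat_lit 0) (XT.lf (nat_lit 836) (nat_lit 2438558995) (nat_lit 0) (nat_lit 241873387) (nat_lit 760) (nat_lit 241873387) (nat_lit 379) (nat_lit 1) (nat_lit 368) (nat_lit 1) (nat_lit 378) (nat_lit 1) (nat_lit 416) (nat_lit 383) (nat_lit 341)) (XT.nd (nat_lit 78) (nat_lit 760) (nat_lit 0) (XT.lf (nat_lit 76) (nat_lit 1016050133) (nat_lit 0) (nat_lit 865141885) (nat_lit 836) (nat_lit 1016050133) (nat_lit 369) (nat_lit 1) (nat_lit 368) (nat_lit 1) (nat_lit 379) (nat_lit 1) (nat_lit 417) (nat_lit 383) (nat_lit 340)) (XT.lf (nat_lit 836) (nat_lit 1627919594) (nat_lit 0) (nat_lit 622319390) (nat_lit 760) (nat_lit 622319390) (nat_lit 369) (nat_lit 1) (nat_lit 358) (nat_lit 1) (nat_lit 368) (nat_lit 1) (nat_lit 418) (nat_lit 383) (nat_lit 339))))))))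
noncomputable def ec39 : XT := (XT.nd (nat_lit 1404) (nat_lit 3724) (nat_lit 0) (XT.nd (nat_lit 702) (nat_lit 3116) (nat_lit 0) (XT.nd (nat_lit 312) (nat_lit 1976) (nat_lit 0) (XT.nd (nat_lit 156) (nat_lit 760) (nat_lit 0) (XT.nd (nat_lit 78) (nat_lit 684) (nat_lit 0) (XT.lf (nat_lit 76) (nat_lit 610441554) (nat_lit 0) (nat_lit 1627264095) (nat_lit 836) (nat_lit 610441554) (nat_lit 359) (nat_lit 1) (nat_lit 358) (nat_lit 1) (nat_lit 369) (nat_lit 1) (nat_lit 419) (nat_lit 383) (nat_lit 338)) (XT.lf (nat_lit 760) (nat_lit 811122045) (nat_lit 0) (nat_lit 1006441360) (nat_lit 684) (nat_lit 1006441360) (nat_lit 359) (nat_lit 1) (nat_lit 349) (nat_lit 1) (nat_lit 358) (nat_lit 1) (nat_lit 420) (nat_lit 383) (nat_lit 337))) (XT.nd (nat_lit 78) (nat_lit 760) (nat_lit 0) (XT.lf (nat_lit 76) (nat_lit 202011921) (nat_lit 0) (nat_lit 2396206539) (nat_lit 760) (nat_lit 202011921) (nat_lit 350) (nat_lit 1) (nat_lit 349) (nat_lit 1) (nat_lit 359) (nat_lit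 1) (nat_lit 421) (nat_lit 383) (nat_lit 336)) (XT.lf (nat_lit 76) (nat_lit 1382948738) (nat_lit 0) (nat_lit 10714171) (nat_lit 760) (nat_lit 1382948738) (nat_lit 340) (nat_lit 1) (nat_lit 339) (nat_lit 1) (nat_lit 349) (nat_lit 1) (nat_lit 422) (nat_lit 383) (nat_lit 335)))) (XT.nd (nat_lit 156) (nat_lit 1292) (nat_lit 0) (XT.nd (nat_lit 78) (nat_lit 0) (nat_lit 0) (XT.lf (nat_lit 760) (nat_lit 2338568185) (nat_lit 0) (nat_lit 207391620) (nat_lit 684) (nat_lit 207391620) (nat_lit 340) (nat_lit 1) (nat_lit 330) (nat_lit 1) (nat_lit 339) (nat_lit 1) (nat_lit 423) (nat_lit 383) (nat_lit 334)) (XT.lf (nat_lit 76) (nat_lit 952065346) (nat_lit 0) (nat_lit 826112923) (nat_lit 760) (nat_lit 952065346) (nat_lit 331) (nat_lit 1) (nat_lit 330) (nat_lit 1) (nat_lit 340) (nat_lit 1) (nat_lit 424) (nat_lit 383) (nat_lit 333))) (XT.nd (nat_lit 78) (nat_lit 608) (nat_lit 0) (XT.lf (nat_lit 760) (nat_lit 1472776629) (nat_lit 0) (nat_lit 617352852) (nat_lit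 684) (nat_lit 617352852) (nat_lit 331) (nat_lit 1) (nat_lit 321) (nat_lit 1) (nat_lit 330) (nat_lit 1) (nat_lit 425) (nat_lit 383) (nat_lit 332)) (XT.nd (nat_lit 78) (nat_lit 608) (nat_lit 0) (XT.lf (nat_lit 76) (nat_lit 520063500) (nat_lit 0) (nat_lit 1644849104) (nat_lit 760) (nat_lit 520063500) (nat_lit 322) (nat_lit 1) (nat_lit 321) (nat_lit 1) (nat_lit 331) (nat_lit 1) (nat_lit 426) (nat_lit 383) (nat_lit 331)) (XT.lf (nat_lit 684) (nat_lit 605139323) (nat_lit 0) (nat_lit 1028779834) (nat_lit 608) (nat_lit 1028779834) (nat_lit 322) (nat_lit 1) (nat_lit 313) (nat_lit 1) (nat_lit 321) (nat_lit 1) (nat_lit 427) (nat_lit 383) (nat_lit 330)))))) (XT.nd (nat_lit 312) (nat_lit 1824) (nat_lit 0) (XT.nd (nat_lit 156) (nat_lit 608) (nat_lit 0) (XT.nd (nat_lit 78) (nat_lit 684) (nat_lit 0) (XT.lf (nat_lit 76) (nat_lit 87336635) (nat_lit 0) (nat_lit 2466106835) (nat_lit 684) (nat_lit 87336635) (nat_lit 314) (nat_lit 1) (nat_lit 313) (nat_lit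 1) (nat_lit 322) (nat_lit 1) (nat_lit 428) (nat_lit 383) (nat_lit 329)) (XT.lf (nat_lit 76) (nat_lit 1179409424) (nat_lit 0) (nat_lit 260119802) (nat_lit 684) (nat_lit 1179409424) (nat_lit 305) (nat_lit 1) (nat_lit 304) (nat_lit 1) (nat_lit 313) (nat_lit 1) (nat_lit 429) (nat_lit 383) (nat_lit 328))) (XT.nd (nat_lit 78) (nat_lit 0) (nat_lit 0) (XT.lf (nat_lit 684) (nat_lit 1910508632) (nat_lit 0) (nat_lit 343469323) (nat_lit 608) (nat_lit 343469323) (nat_lit 305) (nat_lit 1) (nat_lit 296) (nat_lit 1) (nat_lit 304) (nat_lit 1) (nat_lit 430) (nat_lit 383) (nat_lit 327)) (XT.lf (nat_lit 76) (nat_lit 729168219) (nat_lit 0) (nat_lit 1117792785) (nat_lit 684) (nat_lit 729168219) (nat_lit 297) (nat_lit 1) (nat_lit 296) (nat_lit 1) (nat_lit 305) (nat_lit 1) (nat_lit 431) (nat_lit 383) (nat_lit 326)))) (XT.nd (nat_lit 156) (nat_lit 1216) (nat_lit 0) (XT.nd (nat_lit 78) (nat_lit 0) (nat_lit 0) (XT.lf (nat_lit 684) (nat_lit 1007676465) (nat_lit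 0) (nat_lit 773704254) (nat_lit 608) (nat_lit 773704254) (nat_lit 297) (nat_lit 1) (nat_lit 288) (nat_lit 1) (nat_lit 296) (nat_lit 1) (nat_lit 432) (nat_lit 383) (nat_lit 325)) (XT.lf (nat_lit 76) (nat_lit 279589804) (nat_lit 0) (nat_lit 1975142897) (nat_lit 684) (nat_lit 279589804) (nat_lit 289) (nat_lit 1) (nat_lit 288) (nat_lit 1) (nat_lit 297) (nat_lit 1) (nat_lit 433) (nat_lit 383) (nat_lit 324))) (XT.nd (nat_lit 78) (nat_lit 684) (nat_lit 0) (XT.lf (nat_lit 608) (nat_lit 106482446) (nat_lit 0) (nat_lit 1203614953) (nat_lit 532) (nat_lit 1203614953) (nat_lit 289) (nat_lit 1) (nat_lit 281) (nat_lit 1) (nat_lit 288) (nat_lit 1) (nat_lit 434) (nat_lit 383) (nat_lit 323)) (XT.nd (nat_lit 78) (nat_lit 0) (nat_lit 0) (XT.lf (nat_lit 684) (nat_lit 2157584896) (nat_lit 0) (nat_lit 167909756) (nat_lit 608) (nat_lit 167909756) (nat_lit 281) (nat_lit 1) (nat_lit 272) (nat_lit 1) (nat_lit 280) (nat_lit 1) (nat_lit 435) (nat_lit 383) (nat_lit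 322)) (XT.lf (nat_lit 76) (nat_lit 845556365) (nat_lit 0) (nat_lit 782088202) (nat_lit 684) (nat_lit 845556365) (nat_lit 273) (nat_lit 1) (nat_lit 272) (nat_lit 1) (nat_lit 281) (nat_lit 1) (nat_lit 436) (nat_lit 383) (nat_lit 321))))))) (XT.nd (nat_lit 702) (nat_lit 456) (nat_lit 0) (XT.nd (nat_lit 312) (nat_lit 1596) (nat_lit 0) (XT.nd (nat_lit 156) (nat_lit 1140) (nat_lit 0) (XT.nd (nat_lit 78) (nat_lit 0) (nat_lit 0) (XT.lf (nat_lit 608) (nat_lit 1228641761) (nat_lit 0) (nat_lit 612325477) (nat_lit 532) (nat_lit 612325477) (nat_lit 273) (nat_lit 1) (nat_lit 265) (nat_lit 1) (nat_lit 272) (nat_lit 1) (nat_lit 437) (nat_lit 383) (nat_lit 320)) (XT.lf (nat_lit 76) (nat_lit 383551074) (nat_lit 0) (nat_lit 1666513162) (nat_lit 608) (nat_lit 383551074) (nat_lit 266) (nat_lit 1) (nat_lit 265) (nat_lit 1) (nat_lit 273) (nat_lit 1) (nat_lit 438) (nat_lit 383) (nat_lit 319))) (XT.nd (nat_lit 78) (nat_lit 608) (nat_lit 0) (XT.lf (nat_lit 608)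 (nat_lit 303648431) (nat_lit 0) (nat_lit 1055230165) (nat_lit 532) (nat_lit 1055230165) (nat_lit 266) (nat_lit 1) (nat_lit 258) (nat_lit 1) (nat_lit 265) (nat_lit 1) (nat_lit 439) (nat_lit 383) (nat_lit 318)) (XT.lf (nat_lit 608) (nat_lit 2243181385) (nat_lit 0) (nat_lit 75862039) (nat_lit 532) (nat_lit 75862039) (nat_lit 258) (nat_lit 1) (nat_lit 250) (nat_lit 1) (nat_lit 257) (nat_lit 1) (nat_lit 440) (nat_lit 383) (nat_lit 317)))) (XT.nd (nat_lit 156) (nat_lit 1064) (nat_lit 0) (XT.nd (nat_lit 78) (nat_lit 532) (nat_lit 0) (XT.lf (nat_lit 76) (nat_lit 883460570) (nat_lit 0) (nat_lit 608827622) (nat_lit 608) (nat_lit 883460570) (nat_lit 251) (nat_lit 1) (nat_lit 250) (nat_lit 1) (nat_lit 258) (nat_lit 1) (nat_lit 441) (nat_lit 383) (nat_lit 316)) (XT.lf (nat_lit 608) (nat_lit 1295993886) (nat_lit 0) (nat_lit 530447628) (nat_lit 532) (nat_lit 530447628) (nat_lit 251) (nat_lit 1) (nat_lit 243) (nat_lit 1) (nat_lit 250) (nat_lit 1) (nat_lit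 442) (nat_lit 383) (nat_lit 315))) (XT.nd (nat_lit 78) (nat_lit 1064) (nat_lit 0) (XT.lf (nat_lit 76) (nat_lit 412858879) (nat_lit 0) (nat_lit 1512513273) (nat_lit 608) (nat_lit 412858879) (nat_lit 244) (nat_lit 1) (nat_lit 243) (nat_lit 1) (nat_lit 251) (nat_lit 1) (nat_lit 443) (nat_lit 383) (nat_lit 314)) (XT.nd (nat_lit 78) (nat_lit 608) (nat_lit 0) (XT.lf (nat_lit 532) (nat_lit 354711987) (nat_lit 0) (nat_lit 982515833) (nat_lit 456) (nat_lit 982515833) (nat_lit 244) (nat_lit 1) (nat_lit 237) (nat_lit 1) (nat_lit 243) (nat_lit 1) (nat_lit 444) (nat_lit 383) (nat_lit 313)) (XT.lf (nat_lit 608) (nat_lit 2192856525) (nat_lit 0) (nat_lit 54343838) (nat_lit 532) (nat_lit 54343838) (nat_lit 237) (nat_lit 1) (nat_lit 229) (nat_lit 1) (nat_lit 236) (nat_lit 1) (nat_lit 445) (nat_lit 383) (nat_lit 312)))))) (XT.nd (nat_lit 53742) (nat_lit 0) (nat_lit 20900) (XT.nd (nat_lit 156) (nat_lit 0) (nat_lit 0) (XT.nd (nat_lit 78) (nat_lit 456) (nat_lit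 0) (XT.lf (nat_lit 76) (nat_lit 855347018) (nat_lit 0) (nat_lit 572677659) (nat_lit 608) (nat_lit 855347018) (nat_lit 230) (nat_lit 1) (nat_lit 229) (nat_lit 1) (nat_lit 237) (nat_lit 1) (nat_lit 446) (nat_lit 383) (nat_lit 311)) (XT.lf (nat_lit 532) (nat_lit 1234218100) (nat_lit 0) (nat_lit 515631769) (nat_lit 456) (nat_lit 515631769) (nat_lit 230) (nat_lit 1) (nat_lit 223) (nat_lit 1) (nat_lit 229) (nat_lit 1) (nat_lit 447) (nat_lit 383) (nat_lit 310))) (XT.nd (nat_lit 53430) (nat_lit 0) (nat_lit 20824) (XT.lf (nat_lit 76) (nat_lit 379455599) (nat_lit 0) (nat_lit 1488870902) (nat_lit 532) (nat_lit 379455599) (nat_lit 224) (nat_lit 1) (nat_lit 223) (nat_lit 1) (nat_lit 230) (nat_lit 1) (nat_lit 448) (nat_lit 383) (nat_lit 309)) (XT.nd (nat_lit 78) (nat_lit 0) (nat_lit 0) (XT.lf (nat_lit 1900) (nat_lit 730106210) (nat_lit 0) (nat_lit 736211596) (nat_lit 1900) (nat_lit 730106210) (nat_lit 522) (nat_lit 1) (nat_lit 497) (nat_lit 0) (nat_lit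 522) (nat_lit 0) (nat_lit 372) (nat_lit 384) (nat_lit 384)) (XT.lf (nat_lit 1900) (nat_lit 2886949726) (nat_lit 76) (nat_lit 731368098) (nat_lit 0) (nat_lit 731368098) (nat_lit 522) (nat_lit 1) (nat_lit 498) (nat_lit 1) (nat_lit 497) (nat_lit 0) (nat_lit 373) (nat_lit 384) (nat_lit 383))))) (XT.nd (nat_lit 156) (nat_lit 0) (nat_lit 76) (XT.nd (nat_lit 78) (nat_lit 0) (nat_lit 0) (XT.lf (nat_lit 1900) (nat_lit 1417506057) (nat_lit 0) (nat_lit 1471983136) (nat_lit 1824) (nat_lit 1417506057) (nat_lit 523) (nat_lit 1) (nat_lit 498) (nat_lit 1) (nat_lit 522) (nat_lit 1) (nat_lit 374) (nat_lit 384) (nat_lit 382)) (XT.lf (nat_lit 1900) (nat_lit 2774408789) (nat_lit 76) (nat_lit 745271488) (nat_lit 0) (nat_lit 745271488) (nat_lit 523) (nat_lit 1) (nat_lit 499) (nat_lit 1) (nat_lit 498) (nat_lit 1) (nat_lit 375) (nat_lit 384) (nat_lit 381))) (XT.nd (nat_lit 78) (nat_lit 0) (nat_lit 0) (XT.lf (nat_lit 1900) (nat_lit 1348310098) (nat_lit 0) (nat_lit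 1526752203) (nat_lit 1824) (nat_lit 1348310098) (nat_lit 524) (nat_lit 1) (nat_lit 499) (nat_lit 1) (nat_lit 523) (nat_lit 1) (nat_lit 376) (nat_lit 384) (nat_lit 380)) (XT.nd (nat_lit 78) (nat_lit 0) (nat_lit 76) (XT.lf (nat_lit 1900) (nat_lit 2610312446) (nat_lit 76) (nat_lit 786049458) (nat_lit 0) (nat_lit 786049458) (nat_lit 524) (nat_lit 1) (nat_lit 500) (nat_lit 1) (nat_lit 499) (nat_lit 1) (nat_lit 377) (nat_lit 384) (nat_lit 379)) (XT.lf (nat_lit 1900) (nat_lit 1254205084) (nat_lit 0) (nat_lit 1633504358) (nat_lit 1824) (nat_lit 1254205084) (nat_lit 525) (nat_lit 1) (nat_lit 500) (nat_lit 1) (nat_lit 524) (nat_lit 1) (nat_lit 378) (nat_lit 384) (nat_lit 378))))))))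
noncomputable def ec40 : XT := (XT.nd (nat_lit 1404) (nat_lit 8664) (nat_lit 0) (XT.nd (nat_lit 702) (nat_lit 1368) (nat_lit 0) (XT.nd (nat_lit 312) (nat_lit 0) (nat_lit 152) (XT.nd (nat_lit 156) (nat_lit 0) (nat_lit 76) (XT.nd (nat_lit 78) (nat_lit 0) (nat_lit 76) (XT.lf (nat_lit 1900) (nat_lit 2397759235) (nat_lit 76) (nat_lit 852120895) (nat_lit 0) (nat_lit 852120895) (nat_lit 525) (nat_lit 1) (nat_lit 501) (nat_lit 1) (nat_lit 500) (nat_lit 1) (nat_lit 379) (nat_lit 384) (nat_lit 377)) (XT.lf (nat_lit 1900) (nat_lit 1136699363) (nat_lit 0) (nat_lit 1789160058) (nat_lit 1824) (nat_lit 1136699363) (nat_lit 526) (nat_lit 1) (nat_lit 501) (nat_lit 1) (nat_lit 525) (nat_lit 1) (nat_lit 380) (nat_lit 384) (nat_lit 376))) (XT.nd (nat_lit 78) (nat_lit 0) (nat_lit 76) (XT.lf (nat_lit 1900) (nat_lit 2139705871) (nat_lit 76) (nat_lit 941976625) (nat_lit 0) (nat_lit 941976625) (nat_lit 526) (nat_lit 1) (nat_lit 502) (nat_lit 1) (nat_lit 501)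 (nat_lit 1) (nat_lit 381) (nat_lit 384) (nat_lit 375)) (XT.lf (nat_lit 1900) (nat_lit 997232103) (nat_lit 0) (nat_lit 1990780144) (nat_lit 1824) (nat_lit 997232103) (nat_lit 527) (nat_lit 1) (nat_lit 502) (nat_lit 1) (nat_lit 526) (nat_lit 1) (nat_lit 382) (nat_lit 384) (nat_lit 374)))) (XT.nd (nat_lit 156) (nat_lit 0) (nat_lit 76) (XT.nd (nat_lit 78) (nat_lit 0) (nat_lit 76) (XT.lf (nat_lit 1900) (nat_lit 1838973179) (nat_lit 76) (nat_lit 1054176411) (nat_lit 0) (nat_lit 1054176411) (nat_lit 527) (nat_lit 1) (nat_lit 503) (nat_lit 1) (nat_lit 502) (nat_lit 1) (nat_lit 383) (nat_lit 384) (nat_lit 373)) (XT.lf (nat_lit 1900) (nat_lit 837176182) (nat_lit 0) (nat_lit 2235559986) (nat_lit 1824) (nat_lit 837176182) (nat_lit 528) (nat_lit 1) (nat_lit 503) (nat_lit 1) (nat_lit 527) (nat_lit 1) (nat_lit 384) (nat_lit 384) (nat_lit 372))) (XT.nd (nat_lit 78) (nat_lit 0) (nat_lit 76) (XT.lf (nat_lit 1900) (nat_lit 1498251779) (nat_lit 76) (nat_lit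 1187346069) (nat_lit 0) (nat_lit 1187346069) (nat_lit 528) (nat_lit 1) (nat_lit 504) (nat_lit 1) (nat_lit 503) (nat_lit 1) (nat_lit 385) (nat_lit 384) (nat_lit 371)) (XT.nd (nat_lit 78) (nat_lit 0) (nat_lit 0) (XT.lf (nat_lit 1900) (nat_lit 657840974) (nat_lit 0) (nat_lit 2520823855) (nat_lit 1824) (nat_lit 657840974) (nat_lit 529) (nat_lit 1) (nat_lit 504) (nat_lit 1) (nat_lit 528) (nat_lit 1) (nat_lit 386) (nat_lit 384) (nat_lit 370)) (XT.lf (nat_lit 1900) (nat_lit 1120107551) (nat_lit 76) (nat_lit 1340174713) (nat_lit 0) (nat_lit 1340174713) (nat_lit 529) (nat_lit 1) (nat_lit 505) (nat_lit 1) (nat_lit 504) (nat_lit 1) (nat_lit 387) (nat_lit 384) (nat_lit 369)))))) (XT.nd (nat_lit 312) (nat_lit 1748) (nat_lit 0) (XT.nd (nat_lit 156) (nat_lit 0) (nat_lit 76) (XT.nd (nat_lit 78) (nat_lit 0) (nat_lit 0) (XT.lf (nat_lit 1900) (nat_lit 460475007) (nat_lit 0) (nat_lit 2844019527) (nat_lit 1824) (nat_lit 460475007) (nat_lit 530) (nat_lit 1)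 (nat_lit 505) (nat_lit 1) (nat_lit 529) (nat_lit 1) (nat_lit 388) (nat_lit 384) (nat_lit 368)) (XT.lf (nat_lit 1900) (nat_lit 706986873) (nat_lit 76) (nat_lit 1511412094) (nat_lit 0) (nat_lit 1511412094) (nat_lit 530) (nat_lit 1) (nat_lit 506) (nat_lit 1) (nat_lit 505) (nat_lit 1) (nat_lit 389) (nat_lit 384) (nat_lit 367))) (XT.nd (nat_lit 78) (nat_lit 0) (nat_lit 0) (XT.lf (nat_lit 1900) (nat_lit 246268527) (nat_lit 0) (nat_lit 3202713105) (nat_lit 1824) (nat_lit 246268527) (nat_lit 531) (nat_lit 1) (nat_lit 506) (nat_lit 1) (nat_lit 530) (nat_lit 1) (nat_lit 390) (nat_lit 384) (nat_lit 366)) (XT.lf (nat_lit 1900) (nat_lit 261221655) (nat_lit 76) (nat_lit 1699866061) (nat_lit 0) (nat_lit 1699866061) (nat_lit 531) (nat_lit 1) (nat_lit 507) (nat_lit 1) (nat_lit 506) (nat_lit 1) (nat_lit 391) (nat_lit 384) (nat_lit 365)))) (XT.nd (nat_lit 156) (nat_lit 0) (nat_lit 0) (XT.nd (nat_lit 78) (nat_lit 1900) (nat_lit 0) (XT.lf (nat_lit 1900) (nat_lit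 16355953) (nat_lit 0) (nat_lit 3594584045) (nat_lit 1824) (nat_lit 16355953) (nat_lit 532) (nat_lit 1) (nat_lit 507) (nat_lit 1) (nat_lit 531) (nat_lit 1) (nat_lit 392) (nat_lit 384) (nat_lit 364)) (XT.lf (nat_lit 1976) (nat_lit 1690829973) (nat_lit 0) (nat_lit 212146523) (nat_lit 1900) (nat_lit 1690829973) (nat_lit 508) (nat_lit 1) (nat_lit 482) (nat_lit 1) (nat_lit 507) (nat_lit 1) (nat_lit 393) (nat_lit 384) (nat_lit 363))) (XT.nd (nat_lit 78) (nat_lit 0) (nat_lit 76) (XT.lf (nat_lit 1976) (nat_lit 3107576772) (nat_lit 76) (nat_lit 226680575) (nat_lit 0) (nat_lit 226680575) (nat_lit 508) (nat_lit 1) (nat_lit 483) (nat_lit 1) (nat_lit 482) (nat_lit 1) (nat_lit 394) (nat_lit 384) (nat_lit 362)) (XT.nd (nat_lit 78) (nat_lit 0) (nat_lit 0) (XT.lf (nat_lit 1976) (nat_lit 1409143899) (nat_lit 0) (nat_lit 710022529) (nat_lit 1900) (nat_lit 1409143899) (nat_lit 509) (nat_lit 1) (nat_lit 483) (nat_lit 1) (nat_lit 508) (nat_lit 1) (nat_lit 395)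 (nat_lit 384) (nat_lit 361)) (XT.lf (nat_lit 1976) (nat_lit 2529999956) (nat_lit 76) (nat_lit 483115470) (nat_lit 0) (nat_lit 483115470) (nat_lit 509) (nat_lit 1) (nat_lit 484) (nat_lit 1) (nat_lit 483) (nat_lit 1) (nat_lit 396) (nat_lit 384) (nat_lit 360))))))) (XT.nd (nat_lit 702) (nat_lit 4028) (nat_lit 0) (XT.nd (nat_lit 312) (nat_lit 2736) (nat_lit 0) (XT.nd (nat_lit 156) (nat_lit 912) (nat_lit 0) (XT.nd (nat_lit 78) (nat_lit 1140) (nat_lit 0) (XT.lf (nat_lit 76) (nat_lit 1115304925) (nat_lit 0) (nat_lit 1233842095) (nat_lit 1900) (nat_lit 1115304925) (nat_lit 485) (nat_lit 1) (nat_lit 484) (nat_lit 1) (nat_lit 509) (nat_lit 1) (nat_lit 397) (nat_lit 384) (nat_lit 359)) (XT.lf (nat_lit 1216) (nat_lit 1928972757) (nat_lit 0) (nat_lit 752082095) (nat_lit 1140) (nat_lit 752082095) (nat_lit 485) (nat_lit 1) (nat_lit 469) (nat_lit 1) (nat_lit 484) (nat_lit 1) (nat_lit 398) (nat_lit 384) (nat_lit 358))) (XT.nd (nat_lit 78) (nat_lit 912)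 (nat_lit 0) (XT.lf (nat_lit 76) (nat_lit 810237731) (nat_lit 0) (nat_lit 1781710023) (nat_lit 1216) (nat_lit 810237731) (nat_lit 470) (nat_lit 1) (nat_lit 469) (nat_lit 1) (nat_lit 485) (nat_lit 1) (nat_lit 399) (nat_lit 384) (nat_lit 357)) (XT.lf (nat_lit 988) (nat_lit 1306305357) (nat_lit 0) (nat_lit 1032652859) (nat_lit 912) (nat_lit 1032652859) (nat_lit 470) (nat_lit 1) (nat_lit 457) (nat_lit 1) (nat_lit 469) (nat_lit 1) (nat_lit 400) (nat_lit 384) (nat_lit 356)))) (XT.nd (nat_lit 156) (nat_lit 1824) (nat_lit 0) (XT.nd (nat_lit 78) (nat_lit 912) (nat_lit 0) (XT.lf (nat_lit 76) (nat_lit 494822210) (nat_lit 0) (nat_lit 2351822114) (nat_lit 988) (nat_lit 494822210) (nat_lit 458) (nat_lit 1) (nat_lit 457) (nat_lit 1) (nat_lit 470) (nat_lit 1) (nat_lit 401) (nat_lit 384) (nat_lit 355)) (XT.lf (nat_lit 988) (nat_lit 663720010) (nat_lit 0) (nat_lit 1323944836) (nat_lit 912) (nat_lit 1323944836) (nat_lit 458) (nat_lit 1) (nat_lit 445) (nat_lit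 1) (nat_lit 457) (nat_lit 1) (nat_lit 402) (nat_lit 384) (nat_lit 354))) (XT.nd (nat_lit 78) (nat_lit 1824) (nat_lit 0) (XT.lf (nat_lit 76) (nat_lit 169895388) (nat_lit 0) (nat_lit 2942461296) (nat_lit 988) (nat_lit 169895388) (nat_lit 446) (nat_lit 1) (nat_lit 445) (nat_lit 1) (nat_lit 458) (nat_lit 1) (nat_lit 403) (nat_lit 384) (nat_lit 353)) (XT.nd (nat_lit 78) (nat_lit 988) (nat_lit 0) (XT.lf (nat_lit 912) (nat_lit 2854798) (nat_lit 0) (nat_lit 1625117864) (nat_lit 836) (nat_lit 1625117864) (nat_lit 446) (nat_lit 1) (nat_lit 434) (nat_lit 1) (nat_lit 445) (nat_lit 1) (nat_lit 404) (nat_lit 384) (nat_lit 352)) (XT.lf (nat_lit 988) (nat_lit 2899076134) (nat_lit 0) (nat_lit 162669467) (nat_lit 912) (nat_lit 162669467) (nat_lit 434) (nat_lit 1) (nat_lit 421) (nat_lit 1) (nat_lit 433) (nat_lit 1) (nat_lit 405) (nat_lit 384) (nat_lit 351)))))) (XT.nd (nat_lit 312) (nat_lit 2356) (nat_lit 0) (XT.nd (nat_lit 156) (nat_lit 836) (nat_lit 0)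 (XT.nd (nat_lit 78) (nat_lit 836) (nat_lit 0) (XT.lf (nat_lit 76) (nat_lit 1265020770) (nat_lit 0) (nat_lit 665883515) (nat_lit 988) (nat_lit 1265020770) (nat_lit 422) (nat_lit 1) (nat_lit 421) (nat_lit 1) (nat_lit 434) (nat_lit 1) (nat_lit 406) (nat_lit 384) (nat_lit 350)) (XT.lf (nat_lit 912) (nat_lit 2163862107) (nat_lit 0) (nat_lit 502022832) (nat_lit 836) (nat_lit 502022832) (nat_lit 422) (nat_lit 1) (nat_lit 410) (nat_lit 1) (nat_lit 421) (nat_lit 1) (nat_lit 407) (nat_lit 384) (nat_lit 349))) (XT.nd (nat_lit 78) (nat_lit 836) (nat_lit 0) (XT.lf (nat_lit 76) (nat_lit 895266225) (nat_lit 0) (nat_lit 1349626413) (nat_lit 912) (nat_lit 895266225) (nat_lit 411) (nat_lit 1) (nat_lit 410) (nat_lit 1) (nat_lit 422) (nat_lit 1) (nat_lit 408) (nat_lit 384) (nat_lit 348)) (XT.lf (nat_lit 912) (nat_lit 1415643861) (nat_lit 0) (nat_lit 848568044) (nat_lit 836) (nat_lit 848568044) (nat_lit 411) (nat_lit 1) (nat_lit 399) (nat_lit 1) (nat_lit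 410) (nat_lit 1) (nat_lit 409) (nat_lit 384) (nat_lit 347)))) (XT.nd (nat_lit 156) (nat_lit 1596) (nat_lit 0) (XT.nd (nat_lit 78) (nat_lit 760) (nat_lit 0) (XT.lf (nat_lit 76) (nat_lit 519365452) (nat_lit 0) (nat_lit 2047023147) (nat_lit 912) (nat_lit 519365452) (nat_lit 400) (nat_lit 1) (nat_lit 399) (nat_lit 1) (nat_lit 411) (nat_lit 1) (nat_lit 410) (nat_lit 384) (nat_lit 346)) (XT.lf (nat_lit 836) (nat_lit 655741139) (nat_lit 0) (nat_lit 1201626435) (nat_lit 760) (nat_lit 1201626435) (nat_lit 400) (nat_lit 1) (nat_lit 389) (nat_lit 1) (nat_lit 399) (nat_lit 1) (nat_lit 411) (nat_lit 384) (nat_lit 345))) (XT.nd (nat_lit 78) (nat_lit 1596) (nat_lit 0) (XT.lf (nat_lit 76) (nat_lit 137959160) (nat_lit 0) (nat_lit 2756755202) (nat_lit 836) (nat_lit 137959160) (nat_lit 390) (nat_lit 1) (nat_lit 389) (nat_lit 1) (nat_lit 400) (nat_lit 1) (nat_lit 412) (nat_lit 384) (nat_lit 344)) (XT.nd (nat_lit 78) (nat_lit 760) (nat_lit 0) (XT.lf (nat_lit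 76) (nat_lit 1446704001) (nat_lit 0) (nat_lit 113090623) (nat_lit 836) (nat_lit 1446704001) (nat_lit 379) (nat_lit 1) (nat_lit 378) (nat_lit 1) (nat_lit 389) (nat_lit 1) (nat_lit 413) (nat_lit 384) (nat_lit 343)) (XT.lf (nat_lit 836) (nat_lit 2487330175) (nat_lit 0) (nat_lit 246710855) (nat_lit 760) (nat_lit 246710855) (nat_lit 379) (nat_lit 1) (nat_lit 368) (nat_lit 1) (nat_lit 378) (nat_lit 1) (nat_lit 414) (nat_lit 384) (nat_lit 342))))))))
noncomputable def ec41 : XT := (XT.nd (nat_lit 1404) (nat_lit 5396) (nat_lit 0) (XT.nd (nat_lit 702) (nat_lit 3040) (nat_lit 0) (XT.nd (nat_lit 312) (nat_lit 2128) (nat_lit 0) (XT.nd (nat_lit 156) (nat_lit 684) (nat_lit 0) (XT.nd (nat_lit 78) (nat_lit 760) (nat_lit 0) (XT.lf (nat_lit 76) (nat_lit 1036371136) (nat_lit 0) (nat_lit 882444723) (nat_lit 836) (nat_lit 1036371136) (nat_lit 369) (nat_lit 1) (nat_lit 368) (nat_lit 1) (nat_lit 379) (nat_lit 1) (nat_lit 415) (nat_lit 384) (nat_lit 341)) (XT.lf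 (nat_lit 836) (nat_lit 1660477986) (nat_lit 0) (nat_lit 634765778) (nat_lit 760) (nat_lit 634765778) (nat_lit 369) (nat_lit 1) (nat_lit 358) (nat_lit 1) (nat_lit 368) (nat_lit 1) (nat_lit 416) (nat_lit 384) (nat_lit 340))) (XT.nd (nat_lit 78) (nat_lit 684) (nat_lit 0) (XT.lf (nat_lit 76) (nat_lit 622650385) (nat_lit 0) (nat_lit 1659809376) (nat_lit 836) (nat_lit 622650385) (nat_lit 359) (nat_lit 1) (nat_lit 358) (nat_lit 1) (nat_lit 369) (nat_lit 1) (nat_lit 417) (nat_lit 384) (nat_lit 339)) (XT.lf (nat_lit 760) (nat_lit 827344486) (nat_lit 0) (nat_lit 1026570187) (nat_lit 684) (nat_lit 1026570187) (nat_lit 359) (nat_lit 1) (nat_lit 349) (nat_lit 1) (nat_lit 358) (nat_lit 1) (nat_lit 418) (nat_lit 384) (nat_lit 338)))) (XT.nd (nat_lit 156) (nat_lit 1368) (nat_lit 0) (XT.nd (nat_lit 78) (nat_lit 760) (nat_lit 0) (XT.lf (nat_lit 76) (nat_lit 206052160) (nat_lit 0) (nat_lit 2444130670) (nat_lit 760) (nat_lit 206052160) (nat_lit 350) (nat_lit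 1) (nat_lit 349) (nat_lit 1) (nat_lit 359) (nat_lit 1) (nat_lit 419) (nat_lit 384) (nat_lit 337)) (XT.lf (nat_lit 76) (nat_lit 1410607712) (nat_lit 0) (nat_lit 10928454) (nat_lit 760) (nat_lit 1410607712) (nat_lit 340) (nat_lit 1) (nat_lit 339) (nat_lit 1) (nat_lit 349) (nat_lit 1) (nat_lit 420) (nat_lit 384) (nat_lit 336))) (XT.nd (nat_lit 78) (nat_lit 684) (nat_lit 0) (XT.lf (nat_lit 760) (nat_lit 2385339548) (nat_lit 0) (nat_lit 211539452) (nat_lit 684) (nat_lit 211539452) (nat_lit 340) (nat_lit 1) (nat_lit 330) (nat_lit 1) (nat_lit 339) (nat_lit 1) (nat_lit 421) (nat_lit 384) (nat_lit 335)) (XT.nd (nat_lit 78) (nat_lit 684) (nat_lit 0) (XT.lf (nat_lit 76) (nat_lit 971106653) (nat_lit 0) (nat_lit 842635182) (nat_lit 760) (nat_lit 971106653) (nat_lit 331) (nat_lit 1) (nat_lit 330) (nat_lit 1) (nat_lit 340) (nat_lit 1) (nat_lit 422) (nat_lit 384) (nat_lit 334)) (XT.lf (nat_lit 760) (nat_lit 1502232162) (nat_lit 0) (nat_lit 629699909)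 (nat_lit 684) (nat_lit 629699909) (nat_lit 331) (nat_lit 1) (nat_lit 321) (nat_lit 1) (nat_lit 330) (nat_lit 1) (nat_lit 423) (nat_lit 384) (nat_lit 333)))))) (XT.nd (nat_lit 312) (nat_lit 1748) (nat_lit 0) (XT.nd (nat_lit 156) (nat_lit 684) (nat_lit 0) (XT.nd (nat_lit 78) (nat_lit 608) (nat_lit 0) (XT.lf (nat_lit 76) (nat_lit 530464770) (nat_lit 0) (nat_lit 1677746086) (nat_lit 760) (nat_lit 530464770) (nat_lit 322) (nat_lit 1) (nat_lit 321) (nat_lit 1) (nat_lit 331) (nat_lit 1) (nat_lit 424) (nat_lit 384) (nat_lit 332)) (XT.lf (nat_lit 684) (nat_lit 617242110) (nat_lit 0) (nat_lit 1049355431) (nat_lit 608) (nat_lit 1049355431) (nat_lit 322) (nat_lit 1) (nat_lit 313) (nat_lit 1) (nat_lit 321) (nat_lit 1) (nat_lit 425) (nat_lit 384) (nat_lit 331))) (XT.nd (nat_lit 78) (nat_lit 684) (nat_lit 0) (XT.lf (nat_lit 76) (nat_lit 89083368) (nat_lit 0) (nat_lit 2515428972) (nat_lit 684) (nat_lit 89083368) (nat_lit 314) (nat_lit 1) (nat_lit 313)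 (nat_lit 1) (nat_lit 322) (nat_lit 1) (nat_lit 426) (nat_lit 384) (nat_lit 330)) (XT.lf (nat_lit 76) (nat_lit 1202997612) (nat_lit 0) (nat_lit 265322198) (nat_lit 684) (nat_lit 1202997612) (nat_lit 305) (nat_lit 1) (nat_lit 304) (nat_lit 1) (nat_lit 313) (nat_lit 1) (nat_lit 427) (nat_lit 384) (nat_lit 329)))) (XT.nd (nat_lit 156) (nat_lit 1140) (nat_lit 0) (XT.nd (nat_lit 78) (nat_lit 0) (nat_lit 0) (XT.lf (nat_lit 684) (nat_lit 1948718805) (nat_lit 0) (nat_lit 350338710) (nat_lit 608) (nat_lit 350338710) (nat_lit 305) (nat_lit 1) (nat_lit 296) (nat_lit 1) (nat_lit 304) (nat_lit 1) (nat_lit 428) (nat_lit 384) (nat_lit 328)) (XT.lf (nat_lit 76) (nat_lit 743751583) (nat_lit 0) (nat_lit 1140148640) (nat_lit 684) (nat_lit 743751583) (nat_lit 297) (nat_lit 1) (nat_lit 296) (nat_lit 1) (nat_lit 305) (nat_lit 1) (nat_lit 429) (nat_lit 384) (nat_lit 327))) (XT.nd (nat_lit 78) (nat_lit 532) (nat_lit 0) (XT.lf (nat_lit 684) (nat_lit 1027829994)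 (nat_lit 0) (nat_lit 789178339) (nat_lit 608) (nat_lit 789178339) (nat_lit 297) (nat_lit 1) (nat_lit 288) (nat_lit 1) (nat_lit 296) (nat_lit 1) (nat_lit 430) (nat_lit 384) (nat_lit 326)) (XT.nd (nat_lit 78) (nat_lit 532) (nat_lit 0) (XT.lf (nat_lit 76) (nat_lit 285181600) (nat_lit 0) (nat_lit 2014645755) (nat_lit 684) (nat_lit 285181600) (nat_lit 289) (nat_lit 1) (nat_lit 288) (nat_lit 1) (nat_lit 297) (nat_lit 1) (nat_lit 431) (nat_lit 384) (nat_lit 325)) (XT.lf (nat_lit 608) (nat_lit 108612095) (nat_lit 0) (nat_lit 1227687252) (nat_lit 532) (nat_lit 1227687252) (nat_lit 289) (nat_lit 1) (nat_lit 281) (nat_lit 1) (nat_lit 288) (nat_lit 1) (nat_lit 432) (nat_lit 384) (nat_lit 324))))))) (XT.nd (nat_lit 702) (nat_lit 2508) (nat_lit 0) (XT.nd (nat_lit 312) (nat_lit 1672) (nat_lit 0) (XT.nd (nat_lit 156) (nat_lit 532) (nat_lit 0) (XT.nd (nat_lit 78) (nat_lit 0) (nat_lit 0) (XT.lf (nat_lit 684) (nat_lit 2200736594) (nat_lit 0) (nat_lit 171267951)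 (nat_lit 608) (nat_lit 171267951) (nat_lit 281) (nat_lit 1) (nat_lit 272) (nat_lit 1) (nat_lit 280) (nat_lit 1) (nat_lit 433) (nat_lit 384) (nat_lit 323)) (XT.lf (nat_lit 76) (nat_lit 862467492) (nat_lit 0) (nat_lit 797729966) (nat_lit 684) (nat_lit 862467492) (nat_lit 273) (nat_lit 1) (nat_lit 272) (nat_lit 1) (nat_lit 281) (nat_lit 1) (nat_lit 434) (nat_lit 384) (nat_lit 322))) (XT.nd (nat_lit 78) (nat_lit 0) (nat_lit 0) (XT.lf (nat_lit 608) (nat_lit 1253214596) (nat_lit 0) (nat_lit 624571986) (nat_lit 532) (nat_lit 624571986) (nat_lit 273) (nat_lit 1) (nat_lit 265) (nat_lit 1) (nat_lit 272) (nat_lit 1) (nat_lit 435) (nat_lit 384) (nat_lit 321)) (XT.lf (nat_lit 76) (nat_lit 391222096) (nat_lit 0) (nat_lit 1699843425) (nat_lit 608) (nat_lit 391222096) (nat_lit 266) (nat_lit 1) (nat_lit 265) (nat_lit 1) (nat_lit 273) (nat_lit 1) (nat_lit 436) (nat_lit 384) (nat_lit 320)))) (XT.nd (nat_lit 156) (nat_lit 532) (nat_lit 0) (XT.nd (nat_lit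 78) (nat_lit 608) (nat_lit 0) (XT.lf (nat_lit 608) (nat_lit 309721400) (nat_lit 0) (nat_lit 1076334768) (nat_lit 532) (nat_lit 1076334768) (nat_lit 266) (nat_lit 1) (nat_lit 258) (nat_lit 1) (nat_lit 265) (nat_lit 1) (nat_lit 437) (nat_lit 384) (nat_lit 319)) (XT.lf (nat_lit 608) (nat_lit 2288045013) (nat_lit 0) (nat_lit 77379280) (nat_lit 532) (nat_lit 77379280) (nat_lit 258) (nat_lit 1) (nat_lit 250) (nat_lit 1) (nat_lit 257) (nat_lit 1) (nat_lit 438) (nat_lit 384) (nat_lit 318))) (XT.nd (nat_lit 78) (nat_lit 532) (nat_lit 0) (XT.lf (nat_lit 76) (nat_lit 901129781) (nat_lit 0) (nat_lit 621004175) (nat_lit 608) (nat_lit 901129781) (nat_lit 251) (nat_lit 1) (nat_lit 250) (nat_lit 1) (nat_lit 258) (nat_lit 1) (nat_lit 439) (nat_lit 384) (nat_lit 317)) (XT.nd (nat_lit 78) (nat_lit 0) (nat_lit 0) (XT.lf (nat_lit 608) (nat_lit 1321913764) (nat_lit 0) (nat_lit 541056581) (nat_lit 532) (nat_lit 541056581) (nat_lit 251) (nat_lit 1) (nat_lit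 243) (nat_lit 1) (nat_lit 250) (nat_lit 1) (nat_lit 440) (nat_lit 384) (nat_lit 316)) (XT.lf (nat_lit 76) (nat_lit 421116057) (nat_lit 0) (nat_lit 1542763538) (nat_lit 608) (nat_lit 421116057) (nat_lit 244) (nat_lit 1) (nat_lit 243) (nat_lit 1) (nat_lit 251) (nat_lit 1) (nat_lit 441) (nat_lit 384) (nat_lit 315)))))) (XT.nd (nat_lit 390) (nat_lit 988) (nat_lit 0) (XT.nd (nat_lit 156) (nat_lit 456) (nat_lit 0) (XT.nd (nat_lit 78) (nat_lit 608) (nat_lit 0) (XT.lf (nat_lit 532) (nat_lit 361806227) (nat_lit 0) (nat_lit 1002166149) (nat_lit 456) (nat_lit 1002166149) (nat_lit 244) (nat_lit 1) (nat_lit 237) (nat_lit 1) (nat_lit 243) (nat_lit 1) (nat_lit 442) (nat_lit 384) (nat_lit 314)) (XT.lf (nat_lit 608) (nat_lit 2236713656) (nat_lit 0) (nat_lit 55430715) (nat_lit 532) (nat_lit 55430715) (nat_lit 237) (nat_lit 1) (nat_lit 229) (nat_lit 1) (nat_lit 236) (nat_lit 1) (nat_lit 443) (nat_lit 384) (nat_lit 313))) (XT.nd (nat_lit 78) (nat_lit 456)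 (nat_lit 0) (XT.lf (nat_lit 76) (nat_lit 872453959) (nat_lit 0) (nat_lit 584131212) (nat_lit 608) (nat_lit 872453959) (nat_lit 230) (nat_lit 1) (nat_lit 229) (nat_lit 1) (nat_lit 237) (nat_lit 1) (nat_lit 444) (nat_lit 384) (nat_lit 312)) (XT.nd (nat_lit 78) (nat_lit 0) (nat_lit 0) (XT.lf (nat_lit 532) (nat_lit 1258902462) (nat_lit 0) (nat_lit 525944405) (nat_lit 456) (nat_lit 525944405) (nat_lit 230) (nat_lit 1) (nat_lit 223) (nat_lit 1) (nat_lit 229) (nat_lit 1) (nat_lit 445) (nat_lit 384) (nat_lit 311)) (XT.lf (nat_lit 76) (nat_lit 387044711) (nat_lit 0) (nat_lit 1518648321) (nat_lit 532) (nat_lit 387044711) (nat_lit 224) (nat_lit 1) (nat_lit 223) (nat_lit 1) (nat_lit 230) (nat_lit 1) (nat_lit 446) (nat_lit 384) (nat_lit 310))))) (XT.nd (nat_lit 156) (nat_lit 0) (nat_lit 0) (XT.nd (nat_lit 78) (nat_lit 532) (nat_lit 0) (XT.lf (nat_lit 532) (nat_lit 288791412) (nat_lit 0) (nat_lit 993025443) (nat_lit 456) (nat_lit 993025443) (nat_lit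 224) (nat_lit 1) (nat_lit 217) (nat_lit 1) (nat_lit 223) (nat_lit 1) (nat_lit 447) (nat_lit 384) (nat_lit 309)) (XT.lf (nat_lit 532) (nat_lit 2069550334) (nat_lit 0) (nat_lit 93830344) (nat_lit 456) (nat_lit 93830344) (nat_lit 217) (nat_lit 1) (nat_lit 210) (nat_lit 1) (nat_lit 216) (nat_lit 1) (nat_lit 448) (nat_lit 384) (nat_lit 308))) (XT.nd (nat_lit 53196) (nat_lit 0) (nat_lit 21812) (XT.lf (nat_lit 76) (nat_lit 787562877) (nat_lit 0) (nat_lit 664494201) (nat_lit 532) (nat_lit 787562877) (nat_lit 211) (nat_lit 1) (nat_lit 210) (nat_lit 1) (nat_lit 217) (nat_lit 1) (nat_lit 449) (nat_lit 384) (nat_lit 307)) (XT.nd (nat_lit 78) (nat_lit 0) (nat_lit 0) (XT.lf (nat_lit 1900) (nat_lit 744708334) (nat_lit 0) (nat_lit 750935827) (nat_lit 1900) (nat_lit 744708334) (nat_lit 522) (nat_lit 1) (nat_lit 497) (nat_lit 0) (nat_lit 522) (nat_lit 0) (nat_lit 370) (nat_lit 385) (nat_lit 385)) (XT.lf (nat_lit 1900) (nat_lit 2944688721) (nat_lit 76)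 (nat_lit 745995460) (nat_lit 0) (nat_lit 745995460) (nat_lit 522) (nat_lit 1) (nat_lit 498) (nat_lit 1) (nat_lit 497) (nat_lit 0) (nat_lit 371) (nat_lit 385) (nat_lit 384))))))))
noncomputable def ec42 : XT := (XT.nd (nat_lit 1404) (nat_lit 7524) (nat_lit 0) (XT.nd (nat_lit 702) (nat_lit 0) (nat_lit 304) (XT.nd (nat_lit 312) (nat_lit 0) (nat_lit 152) (XT.nd (nat_lit 156) (nat_lit 0) (nat_lit 76) (XT.nd (nat_lit 78) (nat_lit 0) (nat_lit 0) (XT.lf (nat_lit 1900) (nat_lit 1445856179) (nat_lit 0) (nat_lit 1501422798) (nat_lit 1824) (nat_lit 1445856179) (nat_lit 523) (nat_lit 1) (nat_lit 498) (nat_lit 1) (nat_lit 522) (nat_lit 1) (nat_lit 372) (nat_lit 385) (nat_lit 383)) (XT.lf (nat_lit 1900) (nat_lit 2829896965) (nat_lit 76) (nat_lit 760176918) (nat_lit 0) (nat_lit 760176918) (nat_lit 523) (nat_lit 1) (nat_lit 499) (nat_lit 1) (nat_lit 498) (nat_lit 1) (nat_lit 373) (nat_lit 385) (nat_lit 382))) (XT.nd (nat_lit 78) (nat_lit 0) (nat_lit 0)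 (XT.lf (nat_lit 1900) (nat_lit 1375276300) (nat_lit 0) (nat_lit 1557287247) (nat_lit 1824) (nat_lit 1375276300) (nat_lit 524) (nat_lit 1) (nat_lit 499) (nat_lit 1) (nat_lit 523) (nat_lit 1) (nat_lit 374) (nat_lit 385) (nat_lit 381)) (XT.lf (nat_lit 1900) (nat_lit 2662518695) (nat_lit 76) (nat_lit 801770447) (nat_lit 0) (nat_lit 801770447) (nat_lit 524) (nat_lit 1) (nat_lit 500) (nat_lit 1) (nat_lit 499) (nat_lit 1) (nat_lit 375) (nat_lit 385) (nat_lit 380)))) (XT.nd (nat_lit 156) (nat_lit 0) (nat_lit 76) (XT.nd (nat_lit 78) (nat_lit 0) (nat_lit 0) (XT.lf (nat_lit 1900) (nat_lit 1279289185) (nat_lit 0) (nat_lit 1666174445) (nat_lit 1824) (nat_lit 1279289185) (nat_lit 525) (nat_lit 1) (nat_lit 500) (nat_lit 1) (nat_lit 524) (nat_lit 1) (nat_lit 376) (nat_lit 385) (nat_lit 379)) (XT.lf (nat_lit 1900) (nat_lit 2445714419) (nat_lit 76) (nat_lit 869163313) (nat_lit 0) (nat_lit 869163313) (nat_lit 525) (nat_lit 1) (nat_lit 501) (nat_lit 1) (nat_lit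 500) (nat_lit 1) (nat_lit 377) (nat_lit 385) (nat_lit 378))) (XT.nd (nat_lit 78) (nat_lit 0) (nat_lit 0) (XT.lf (nat_lit 1900) (nat_lit 1159433351) (nat_lit 0) (nat_lit 1824943259) (nat_lit 1824) (nat_lit 1159433351) (nat_lit 526) (nat_lit 1) (nat_lit 501) (nat_lit 1) (nat_lit 525) (nat_lit 1) (nat_lit 378) (nat_lit 385) (nat_lit 377)) (XT.nd (nat_lit 78) (nat_lit 0) (nat_lit 76) (XT.lf (nat_lit 1900) (nat_lit 2182499988) (nat_lit 76) (nat_lit 960816158) (nat_lit 0) (nat_lit 960816158) (nat_lit 526) (nat_lit 1) (nat_lit 502) (nat_lit 1) (nat_lit 501) (nat_lit 1) (nat_lit 379) (nat_lit 385) (nat_lit 376)) (XT.lf (nat_lit 1900) (nat_lit 1017176745) (nat_lit 0) (nat_lit 2030595747) (nat_lit 1824) (nat_lit 1017176745) (nat_lit 527) (nat_lit 1) (nat_lit 502) (nat_lit 1) (nat_lit 526) (nat_lit 1) (nat_lit 380) (nat_lit 385) (nat_lit 375)))))) (XT.nd (nat_lit 312) (nat_lit 0) (nat_lit 152) (XT.nd (nat_lit 156) (nat_lit 0) (nat_lit 76) (XT.nd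 (nat_lit 78) (nat_lit 0) (nat_lit 76) (XT.lf (nat_lit 1900) (nat_lit 1875752642) (nat_lit 76) (nat_lit 1075259939) (nat_lit 0) (nat_lit 1075259939) (nat_lit 527) (nat_lit 1) (nat_lit 503) (nat_lit 1) (nat_lit 502) (nat_lit 1) (nat_lit 381) (nat_lit 385) (nat_lit 374)) (XT.lf (nat_lit 1900) (nat_lit 853919706) (nat_lit 0) (nat_lit 2280271186) (nat_lit 1824) (nat_lit 853919706) (nat_lit 528) (nat_lit 1) (nat_lit 503) (nat_lit 1) (nat_lit 527) (nat_lit 1) (nat_lit 382) (nat_lit 385) (nat_lit 373))) (XT.nd (nat_lit 78) (nat_lit 0) (nat_lit 76) (XT.lf (nat_lit 1900) (nat_lit 1528216815) (nat_lit 76) (nat_lit 1211092991) (nat_lit 0) (nat_lit 1211092991) (nat_lit 528) (nat_lit 1) (nat_lit 504) (nat_lit 1) (nat_lit 503) (nat_lit 1) (nat_lit 383) (nat_lit 385) (nat_lit 372)) (XT.lf (nat_lit 1900) (nat_lit 670997793) (nat_lit 0) (nat_lit 2571240332) (nat_lit 1824) (nat_lit 670997793) (nat_lit 529) (nat_lit 1) (nat_lit 504) (nat_lit 1) (nat_lit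 528) (nat_lit 1) (nat_lit 384) (nat_lit 385) (nat_lit 371)))) (XT.nd (nat_lit 156) (nat_lit 0) (nat_lit 76) (XT.nd (nat_lit 78) (nat_lit 0) (nat_lit 76) (XT.lf (nat_lit 1900) (nat_lit 1142509702) (nat_lit 76) (nat_lit 1366978207) (nat_lit 0) (nat_lit 1366978207) (nat_lit 529) (nat_lit 1) (nat_lit 505) (nat_lit 1) (nat_lit 504) (nat_lit 1) (nat_lit 385) (nat_lit 385) (nat_lit 370)) (XT.lf (nat_lit 1900) (nat_lit 469684507) (nat_lit 0) (nat_lit 2900899918) (nat_lit 1824) (nat_lit 469684507) (nat_lit 530) (nat_lit 1) (nat_lit 505) (nat_lit 1) (nat_lit 529) (nat_lit 1) (nat_lit 386) (nat_lit 385) (nat_lit 369))) (XT.nd (nat_lit 78) (nat_lit 0) (nat_lit 76) (XT.lf (nat_lit 1900) (nat_lit 721126611) (nat_lit 76) (nat_lit 1541640336) (nat_lit 0) (nat_lit 1541640336) (nat_lit 530) (nat_lit 1) (nat_lit 506) (nat_lit 1) (nat_lit 505) (nat_lit 1) (nat_lit 387) (nat_lit 385) (nat_lit 368)) (XT.nd (nat_lit 78) (nat_lit 0) (nat_lit 0) (XT.lf (nat_lit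 1900) (nat_lit 251193898) (nat_lit 0) (nat_lit 3266767367) (nat_lit 1824) (nat_lit 251193898) (nat_lit 531) (nat_lit 1) (nat_lit 506) (nat_lit 1) (nat_lit 530) (nat_lit 1) (nat_lit 388) (nat_lit 385) (nat_lit 367)) (XT.lf (nat_lit 1900) (nat_lit 266446088) (nat_lit 76) (nat_lit 1733863382) (nat_lit 0) (nat_lit 1733863382) (nat_lit 531) (nat_lit 1) (nat_lit 507) (nat_lit 1) (nat_lit 506) (nat_lit 1) (nat_lit 389) (nat_lit 385) (nat_lit 366))))))) (XT.nd (nat_lit 702) (nat_lit 4408) (nat_lit 0) (XT.nd (nat_lit 312) (nat_lit 1900) (nat_lit 0) (XT.nd (nat_lit 156) (nat_lit 0) (nat_lit 0) (XT.nd (nat_lit 78) (nat_lit 1900) (nat_lit 0) (XT.lf (nat_lit 1900) (nat_lit 16683072) (nat_lit 0) (nat_lit 3666475726) (nat_lit 1824) (nat_lit 16683072) (nat_lit 532) (nat_lit 1) (nat_lit 507) (nat_lit 1) (nat_lit 531) (nat_lit 1) (nat_lit 390) (nat_lit 385) (nat_lit 365)) (XT.lf (nat_lit 1976) (nat_lit 1724646573) (nat_lit 0) (nat_lit 216389453) (nat_lit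 1900) (nat_lit 1724646573) (nat_lit 508) (nat_lit 1) (nat_lit 482) (nat_lit 1) (nat_lit 507) (nat_lit 1) (nat_lit 391) (nat_lit 385) (nat_lit 364))) (XT.nd (nat_lit 78) (nat_lit 0) (nat_lit 76) (XT.lf (nat_lit 1976) (nat_lit 3169728308) (nat_lit 76) (nat_lit 231214186) (nat_lit 0) (nat_lit 231214186) (nat_lit 508) (nat_lit 1) (nat_lit 483) (nat_lit 1) (nat_lit 482) (nat_lit 1) (nat_lit 392) (nat_lit 385) (nat_lit 363)) (XT.lf (nat_lit 1976) (nat_lit 1437326777) (nat_lit 0) (nat_lit 724222980) (nat_lit 1900) (nat_lit 1437326777) (nat_lit 509) (nat_lit 1) (nat_lit 483) (nat_lit 1) (nat_lit 508) (nat_lit 1) (nat_lit 393) (nat_lit 385) (nat_lit 362)))) (XT.nd (nat_lit 156) (nat_lit 1976) (nat_lit 0) (XT.nd (nat_lit 78) (nat_lit 0) (nat_lit 76) (XT.lf (nat_lit 1976) (nat_lit 2580599955) (nat_lit 76) (nat_lit 492777779) (nat_lit 0) (nat_lit 492777779) (nat_lit 509) (nat_lit 1) (nat_lit 484) (nat_lit 1) (nat_lit 483) (nat_lit 1) (nat_lit 394)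 (nat_lit 385) (nat_lit 361)) (XT.lf (nat_lit 76) (nat_lit 1137611024) (nat_lit 0) (nat_lit 1258518937) (nat_lit 1900) (nat_lit 1137611024) (nat_lit 485) (nat_lit 1) (nat_lit 484) (nat_lit 1) (nat_lit 509) (nat_lit 1) (nat_lit 395) (nat_lit 385) (nat_lit 360))) (XT.nd (nat_lit 78) (nat_lit 912) (nat_lit 0) (XT.lf (nat_lit 1216) (nat_lit 1967552212) (nat_lit 0) (nat_lit 767123737) (nat_lit 1140) (nat_lit 767123737) (nat_lit 485) (nat_lit 1) (nat_lit 469) (nat_lit 1) (nat_lit 484) (nat_lit 1) (nat_lit 396) (nat_lit 385) (nat_lit 359)) (XT.nd (nat_lit 78) (nat_lit 912) (nat_lit 0) (XT.lf (nat_lit 76) (nat_lit 826442485) (nat_lit 0) (nat_lit 1817344224) (nat_lit 1216) (nat_lit 826442485) (nat_lit 470) (nat_lit 1) (nat_lit 469) (nat_lit 1) (nat_lit 485) (nat_lit 1) (nat_lit 397) (nat_lit 385) (nat_lit 358)) (XT.lf (nat_lit 988) (nat_lit 1332431464) (nat_lit 0) (nat_lit 1053305916) (nat_lit 912) (nat_lit 1053305916) (nat_lit 470) (nat_lit 1)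 (nat_lit 457) (nat_lit 1) (nat_lit 469) (nat_lit 1) (nat_lit 398) (nat_lit 385) (nat_lit 357)))))) (XT.nd (nat_lit 312) (nat_lit 2660) (nat_lit 0) (XT.nd (nat_lit 156) (nat_lit 836) (nat_lit 0) (XT.nd (nat_lit 78) (nat_lit 912) (nat_lit 0) (XT.lf (nat_lit 76) (nat_lit 504718655) (nat_lit 0) (nat_lit 2398858557) (nat_lit 988) (nat_lit 504718655) (nat_lit 458) (nat_lit 1) (nat_lit 457) (nat_lit 1) (nat_lit 470) (nat_lit 1) (nat_lit 399) (nat_lit 385) (nat_lit 356)) (XT.lf (nat_lit 988) (nat_lit 676994410) (nat_lit 0) (nat_lit 1350423733) (nat_lit 912) (nat_lit 1350423733) (nat_lit 458) (nat_lit 1) (nat_lit 445) (nat_lit 1) (nat_lit 457) (nat_lit 1) (nat_lit 400) (nat_lit 385) (nat_lit 355))) (XT.nd (nat_lit 78) (nat_lit 836) (nat_lit 0) (XT.lf (nat_lit 76) (nat_lit 173293296) (nat_lit 0) (nat_lit 3001310522) (nat_lit 988) (nat_lit 173293296) (nat_lit 446) (nat_lit 1) (nat_lit 445) (nat_lit 1) (nat_lit 458) (nat_lit 1) (nat_lit 401) (nat_lit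 385) (nat_lit 354)) (XT.lf (nat_lit 912) (nat_lit 2911894) (nat_lit 0) (nat_lit 1657620221) (nat_lit 836) (nat_lit 1657620221) (nat_lit 446) (nat_lit 1) (nat_lit 434) (nat_lit 1) (nat_lit 445) (nat_lit 1) (nat_lit 402) (nat_lit 385) (nat_lit 353)))) (XT.nd (nat_lit 156) (nat_lit 1672) (nat_lit 0) (XT.nd (nat_lit 78) (nat_lit 0) (nat_lit 0) (XT.lf (nat_lit 988) (nat_lit 2957057657) (nat_lit 0) (nat_lit 165922856) (nat_lit 912) (nat_lit 165922856) (nat_lit 434) (nat_lit 1) (nat_lit 421) (nat_lit 1) (nat_lit 433) (nat_lit 1) (nat_lit 403) (nat_lit 385) (nat_lit 352)) (XT.lf (nat_lit 76) (nat_lit 1290321186) (nat_lit 0) (nat_lit 679201185) (nat_lit 988) (nat_lit 1290321186) (nat_lit 422) (nat_lit 1) (nat_lit 421) (nat_lit 1) (nat_lit 434) (nat_lit 1) (nat_lit 404) (nat_lit 385) (nat_lit 351))) (XT.nd (nat_lit 78) (nat_lit 836) (nat_lit 0) (XT.lf (nat_lit 912) (nat_lit 2207139349) (nat_lit 0) (nat_lit 512063289) (nat_lit 836) (nat_lit 512063289)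 (nat_lit 422) (nat_lit 1) (nat_lit 410) (nat_lit 1) (nat_lit 421) (nat_lit 1) (nat_lit 405) (nat_lit 385) (nat_lit 350)) (XT.nd (nat_lit 78) (nat_lit 836) (nat_lit 0) (XT.lf (nat_lit 76) (nat_lit 913171549) (nat_lit 0) (nat_lit 1376618941) (nat_lit 912) (nat_lit 913171549) (nat_lit 411) (nat_lit 1) (nat_lit 410) (nat_lit 1) (nat_lit 422) (nat_lit 1) (nat_lit 406) (nat_lit 385) (nat_lit 349)) (XT.lf (nat_lit 912) (nat_lit 1443956738) (nat_lit 0) (nat_lit 865539405) (nat_lit 836) (nat_lit 865539405) (nat_lit 411) (nat_lit 1) (nat_lit 399) (nat_lit 1) (nat_lit 410) (nat_lit 1) (nat_lit 407) (nat_lit 385) (nat_lit 348))))))))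
noncomputable def ec43 : XT := (XT.nd (nat_lit 1404) (nat_lit 6156) (nat_lit 0) (XT.nd (nat_lit 702) (nat_lit 3420) (nat_lit 0) (XT.nd (nat_lit 312) (nat_lit 2204) (nat_lit 0) (XT.nd (nat_lit 156) (nat_lit 836) (nat_lit 0) (XT.nd (nat_lit 78) (nat_lit 760) (nat_lit 0) (XT.lf (nat_lit 76) (nat_lit 529752761) (nat_lit 0) (nat_lit 2087963610) (nat_lit 912) (nat_lit 529752761) (nat_lit 400) (nat_lit 1) (nat_lit 399) (nat_lit 1) (nat_lit 411) (nat_lit 1) (nat_lit 408) (nat_lit 385) (nat_lit 347)) (XT.lf (nat_lit 836) (nat_lit 668855962) (nat_lit 0) (nat_lit 1225658963) (nat_lit 760) (nat_lit 1225658963) (nat_lit 400) (nat_lit 1) (nat_lit 389) (nat_lit 1) (nat_lit 399) (nat_lit 1) (nat_lit 409) (nat_lit 385) (nat_lit 346))) (XT.nd (nat_lit 78) (nat_lit 836) (nat_lit 0) (XT.lf (nat_lit 76) (nat_lit 140718343) (nat_lit 0) (nat_lit 2811890306) (nat_lit 836) (nat_lit 140718343) (nat_lit 390) (nat_lit 1) (nat_lit 389) (nat_lit 1) (nat_lit 400) (nat_lit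 1) (nat_lit 410) (nat_lit 385) (nat_lit 345)) (XT.lf (nat_lit 76) (nat_lit 1475638081) (nat_lit 0) (nat_lit 115352435) (nat_lit 836) (nat_lit 1475638081) (nat_lit 379) (nat_lit 1) (nat_lit 378) (nat_lit 1) (nat_lit 389) (nat_lit 1) (nat_lit 411) (nat_lit 385) (nat_lit 344)))) (XT.nd (nat_lit 156) (nat_lit 1444) (nat_lit 0) (XT.nd (nat_lit 78) (nat_lit 0) (nat_lit 0) (XT.lf (nat_lit 836) (nat_lit 2537076779) (nat_lit 0) (nat_lit 251645072) (nat_lit 760) (nat_lit 251645072) (nat_lit 379) (nat_lit 1) (nat_lit 368) (nat_lit 1) (nat_lit 378) (nat_lit 1) (nat_lit 412) (nat_lit 385) (nat_lit 343)) (XT.lf (nat_lit 76) (nat_lit 1057098558) (nat_lit 0) (nat_lit 900093617) (nat_lit 836) (nat_lit 1057098558) (nat_lit 369) (nat_lit 1) (nat_lit 368) (nat_lit 1) (nat_lit 379) (nat_lit 1) (nat_lit 413) (nat_lit 385) (nat_lit 342))) (XT.nd (nat_lit 78) (nat_lit 684) (nat_lit 0) (XT.lf (nat_lit 836) (nat_lit 1693687546) (nat_lit 0) (nat_lit 647461094)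 (nat_lit 760) (nat_lit 647461094) (nat_lit 369) (nat_lit 1) (nat_lit 358) (nat_lit 1) (nat_lit 368) (nat_lit 1) (nat_lit 414) (nat_lit 385) (nat_lit 341)) (XT.nd (nat_lit 78) (nat_lit 684) (nat_lit 0) (XT.lf (nat_lit 76) (nat_lit 635103393) (nat_lit 0) (nat_lit 1693005564) (nat_lit 836) (nat_lit 635103393) (nat_lit 359) (nat_lit 1) (nat_lit 358) (nat_lit 1) (nat_lit 369) (nat_lit 1) (nat_lit 415) (nat_lit 385) (nat_lit 340)) (XT.lf (nat_lit 760) (nat_lit 843891376) (nat_lit 0) (nat_lit 1047101591) (nat_lit 684) (nat_lit 1047101591) (nat_lit 359) (nat_lit 1) (nat_lit 349) (nat_lit 1) (nat_lit 358) (nat_lit 1) (nat_lit 416) (nat_lit 385) (nat_lit 339)))))) (XT.nd (nat_lit 312) (nat_lit 1976) (nat_lit 0) (XT.nd (nat_lit 156) (nat_lit 684) (nat_lit 0) (XT.nd (nat_lit 78) (nat_lit 760) (nat_lit 0) (XT.lf (nat_lit 76) (nat_lit 210173203) (nat_lit 0) (nat_lit 2493013284) (nat_lit 760) (nat_lit 210173203) (nat_lit 350) (nat_lit 1) (nat_lit 349)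 (nat_lit 1) (nat_lit 359) (nat_lit 1) (nat_lit 417) (nat_lit 385) (nat_lit 338)) (XT.lf (nat_lit 76) (nat_lit 1438819867) (nat_lit 0) (nat_lit 11147023) (nat_lit 760) (nat_lit 1438819867) (nat_lit 340) (nat_lit 1) (nat_lit 339) (nat_lit 1) (nat_lit 349) (nat_lit 1) (nat_lit 418) (nat_lit 385) (nat_lit 337))) (XT.nd (nat_lit 78) (nat_lit 0) (nat_lit 0) (XT.lf (nat_lit 760) (nat_lit 2433046339) (nat_lit 0) (nat_lit 215770241) (nat_lit 684) (nat_lit 215770241) (nat_lit 340) (nat_lit 1) (nat_lit 330) (nat_lit 1) (nat_lit 339) (nat_lit 1) (nat_lit 419) (nat_lit 385) (nat_lit 336)) (XT.lf (nat_lit 76) (nat_lit 990528786) (nat_lit 0) (nat_lit 859487885) (nat_lit 760) (nat_lit 990528786) (nat_lit 331) (nat_lit 1) (nat_lit 330) (nat_lit 1) (nat_lit 340) (nat_lit 1) (nat_lit 420) (nat_lit 385) (nat_lit 335)))) (XT.nd (nat_lit 156) (nat_lit 1292) (nat_lit 0) (XT.nd (nat_lit 78) (nat_lit 0) (nat_lit 0) (XT.lf (nat_lit 760) (nat_lit 1532276805) (nat_lit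 0) (nat_lit 642293907) (nat_lit 684) (nat_lit 642293907) (nat_lit 331) (nat_lit 1) (nat_lit 321) (nat_lit 1) (nat_lit 330) (nat_lit 1) (nat_lit 421) (nat_lit 385) (nat_lit 334)) (XT.lf (nat_lit 76) (nat_lit 541074066) (nat_lit 0) (nat_lit 1711301008) (nat_lit 760) (nat_lit 541074066) (nat_lit 322) (nat_lit 1) (nat_lit 321) (nat_lit 1) (nat_lit 331) (nat_lit 1) (nat_lit 422) (nat_lit 385) (nat_lit 333))) (XT.nd (nat_lit 78) (nat_lit 684) (nat_lit 0) (XT.lf (nat_lit 684) (nat_lit 629586952) (nat_lit 0) (nat_lit 1070342539) (nat_lit 608) (nat_lit 1070342539) (nat_lit 322) (nat_lit 1) (nat_lit 313) (nat_lit 1) (nat_lit 321) (nat_lit 1) (nat_lit 423) (nat_lit 385) (nat_lit 332)) (XT.nd (nat_lit 78) (nat_lit 684) (nat_lit 0) (XT.lf (nat_lit 76) (nat_lit 90865035) (nat_lit 0) (nat_lit 2565737551) (nat_lit 684) (nat_lit 90865035) (nat_lit 314) (nat_lit 1) (nat_lit 313) (nat_lit 1) (nat_lit 322) (nat_lit 1) (nat_lit 424) (nat_lit 385) (nat_lit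 331)) (XT.lf (nat_lit 76) (nat_lit 1227057564) (nat_lit 0) (nat_lit 270628642) (nat_lit 684) (nat_lit 1227057564) (nat_lit 305) (nat_lit 1) (nat_lit 304) (nat_lit 1) (nat_lit 313) (nat_lit 1) (nat_lit 425) (nat_lit 385) (nat_lit 330))))))) (XT.nd (nat_lit 702) (nat_lit 3192) (nat_lit 0) (XT.nd (nat_lit 312) (nat_lit 1748) (nat_lit 0) (XT.nd (nat_lit 156) (nat_lit 608) (nat_lit 0) (XT.nd (nat_lit 78) (nat_lit 0) (nat_lit 0) (XT.lf (nat_lit 684) (nat_lit 1987693181) (nat_lit 0) (nat_lit 357345484) (nat_lit 608) (nat_lit 357345484) (nat_lit 305) (nat_lit 1) (nat_lit 296) (nat_lit 1) (nat_lit 304) (nat_lit 1) (nat_lit 426) (nat_lit 385) (nat_lit 329)) (XT.lf (nat_lit 76) (nat_lit 758626615) (nat_lit 0) (nat_lit 1162951613) (nat_lit 684) (nat_lit 758626615) (nat_lit 297) (nat_lit 1) (nat_lit 296) (nat_lit 1) (nat_lit 305) (nat_lit 1) (nat_lit 427) (nat_lit 385) (nat_lit 328))) (XT.nd (nat_lit 78) (nat_lit 0) (nat_lit 0) (XT.lf (nat_lit 684)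 (nat_lit 1048386594) (nat_lit 0) (nat_lit 804961905) (nat_lit 608) (nat_lit 804961905) (nat_lit 297) (nat_lit 1) (nat_lit 288) (nat_lit 1) (nat_lit 296) (nat_lit 1) (nat_lit 428) (nat_lit 385) (nat_lit 327)) (XT.lf (nat_lit 76) (nat_lit 290885232) (nat_lit 0) (nat_lit 2054938670) (nat_lit 684) (nat_lit 290885232) (nat_lit 289) (nat_lit 1) (nat_lit 288) (nat_lit 1) (nat_lit 297) (nat_lit 1) (nat_lit 429) (nat_lit 385) (nat_lit 326)))) (XT.nd (nat_lit 156) (nat_lit 532) (nat_lit 0) (XT.nd (nat_lit 78) (nat_lit 684) (nat_lit 0) (XT.lf (nat_lit 608) (nat_lit 110784337) (nat_lit 0) (nat_lit 1252240997) (nat_lit 532) (nat_lit 1252240997) (nat_lit 289) (nat_lit 1) (nat_lit 281) (nat_lit 1) (nat_lit 288) (nat_lit 1) (nat_lit 430) (nat_lit 385) (nat_lit 325)) (XT.lf (nat_lit 684) (nat_lit 2244751326) (nat_lit 0) (nat_lit 174693310) (nat_lit 608) (nat_lit 174693310) (nat_lit 281) (nat_lit 1) (nat_lit 272) (nat_lit 1) (nat_lit 280) (nat_lit 1) (nat_lit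 431) (nat_lit 385) (nat_lit 324))) (XT.nd (nat_lit 78) (nat_lit 532) (nat_lit 0) (XT.lf (nat_lit 76) (nat_lit 879716842) (nat_lit 0) (nat_lit 813684565) (nat_lit 684) (nat_lit 879716842) (nat_lit 273) (nat_lit 1) (nat_lit 272) (nat_lit 1) (nat_lit 281) (nat_lit 1) (nat_lit 432) (nat_lit 385) (nat_lit 323)) (XT.nd (nat_lit 78) (nat_lit 0) (nat_lit 0) (XT.lf (nat_lit 608) (nat_lit 1278278888) (nat_lit 0) (nat_lit 637063426) (nat_lit 532) (nat_lit 637063426) (nat_lit 273) (nat_lit 1) (nat_lit 265) (nat_lit 1) (nat_lit 272) (nat_lit 1) (nat_lit 433) (nat_lit 385) (nat_lit 322)) (XT.lf (nat_lit 76) (nat_lit 399046538) (nat_lit 0) (nat_lit 1733840294) (nat_lit 608) (nat_lit 399046538) (nat_lit 266) (nat_lit 1) (nat_lit 265) (nat_lit 1) (nat_lit 273) (nat_lit 1) (nat_lit 434) (nat_lit 385) (nat_lit 321)))))) (XT.nd (nat_lit 390) (nat_lit 1520) (nat_lit 0) (XT.nd (nat_lit 156) (nat_lit 532) (nat_lit 0) (XT.nd (nat_lit 78) (nat_lit 608) (nat_lit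 0) (XT.lf (nat_lit 608) (nat_lit 315915828) (nat_lit 0) (nat_lit 1097861463) (nat_lit 532) (nat_lit 1097861463) (nat_lit 266) (nat_lit 1) (nat_lit 258) (nat_lit 1) (nat_lit 265) (nat_lit 1) (nat_lit 435) (nat_lit 385) (nat_lit 320)) (XT.lf (nat_lit 608) (nat_lit 2333805913) (nat_lit 0) (nat_lit 78926866) (nat_lit 532) (nat_lit 78926866) (nat_lit 258) (nat_lit 1) (nat_lit 250) (nat_lit 1) (nat_lit 257) (nat_lit 1) (nat_lit 436) (nat_lit 385) (nat_lit 319))) (XT.nd (nat_lit 78) (nat_lit 532) (nat_lit 0) (XT.lf (nat_lit 76) (nat_lit 919152377) (nat_lit 0) (nat_lit 633424258) (nat_lit 608) (nat_lit 919152377) (nat_lit 251) (nat_lit 1) (nat_lit 250) (nat_lit 1) (nat_lit 258) (nat_lit 1) (nat_lit 437) (nat_lit 385) (nat_lit 318)) (XT.nd (nat_lit 78) (nat_lit 0) (nat_lit 0) (XT.lf (nat_lit 608) (nat_lit 1348352039) (nat_lit 0) (nat_lit 551877712) (nat_lit 532) (nat_lit 551877712) (nat_lit 251) (nat_lit 1) (nat_lit 243) (nat_lit 1) (nat_lit 250)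 (nat_lit 1) (nat_lit 438) (nat_lit 385) (nat_lit 317)) (XT.lf (nat_lit 76) (nat_lit 429538378) (nat_lit 0) (nat_lit 1573618809) (nat_lit 608) (nat_lit 429538378) (nat_lit 244) (nat_lit 1) (nat_lit 243) (nat_lit 1) (nat_lit 251) (nat_lit 1) (nat_lit 439) (nat_lit 385) (nat_lit 316))))) (XT.nd (nat_lit 156) (nat_lit 456) (nat_lit 0) (XT.nd (nat_lit 78) (nat_lit 608) (nat_lit 0) (XT.lf (nat_lit 532) (nat_lit 369042351) (nat_lit 0) (nat_lit 1022209472) (nat_lit 456) (nat_lit 1022209472) (nat_lit 244) (nat_lit 1) (nat_lit 237) (nat_lit 1) (nat_lit 243) (nat_lit 1) (nat_lit 440) (nat_lit 385) (nat_lit 315)) (XT.lf (nat_lit 608) (nat_lit 2281447929) (nat_lit 0) (nat_lit 56539329) (nat_lit 532) (nat_lit 56539329) (nat_lit 237) (nat_lit 1) (nat_lit 229) (nat_lit 1) (nat_lit 236) (nat_lit 1) (nat_lit 441) (nat_lit 385) (nat_lit 314))) (XT.nd (nat_lit 78) (nat_lit 456) (nat_lit 0) (XT.lf (nat_lit 76) (nat_lit 889903038) (nat_lit 0) (nat_lit 595813836)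 (nat_lit 608) (nat_lit 889903038) (nat_lit 230) (nat_lit 1) (nat_lit 229) (nat_lit 1) (nat_lit 237) (nat_lit 1) (nat_lit 442) (nat_lit 385) (nat_lit 313)) (XT.nd (nat_lit 78) (nat_lit 0) (nat_lit 0) (XT.lf (nat_lit 532) (nat_lit 1284080511) (nat_lit 0) (nat_lit 536463293) (nat_lit 456) (nat_lit 536463293) (nat_lit 230) (nat_lit 1) (nat_lit 223) (nat_lit 1) (nat_lit 229) (nat_lit 1) (nat_lit 443) (nat_lit 385) (nat_lit 312)) (XT.lf (nat_lit 76) (nat_lit 394785605) (nat_lit 0) (nat_lit 1549021287) (nat_lit 532) (nat_lit 394785605) (nat_lit 224) (nat_lit 1) (nat_lit 223) (nat_lit 1) (nat_lit 230) (nat_lit 1) (nat_lit 444) (nat_lit 385) (nat_lit 311))))))))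
noncomputable def ec44 : XT := (XT.nd (nat_lit 54366) (nat_lit 0) (nat_lit 18316) (XT.nd (nat_lit 53664) (nat_lit 0) (nat_lit 22420) (XT.nd (nat_lit 312) (nat_lit 0) (nat_lit 0) (XT.nd (nat_lit 156) (nat_lit 456) (nat_lit 0) (XT.nd (nat_lit 78) (nat_lit 532) (nat_lit 0) (XT.lf (nat_lit 532) (nat_lit 294567240) (nat_lit 0) (nat_lit 1012885952) (nat_lit 456) (nat_lit 1012885952) (nat_lit 224) (nat_lit 1) (nat_lit 217) (nat_lit 1) (nat_lit 223) (nat_lit 1) (nat_lit 445) (nat_lit 385) (nat_lit 310)) (XT.lf (nat_lit 532) (nat_lit 2110941341) (nat_lit 0) (nat_lit 95706951) (nat_lit 456) (nat_lit 95706951) (nat_lit 217) (nat_lit 1) (nat_lit 210) (nat_lit 1) (nat_lit 216) (nat_lit 1) (nat_lit 446) (nat_lit 385) (nat_lit 309))) (XT.nd (nat_lit 78) (nat_lit 456) (nat_lit 0) (XT.lf (nat_lit 76) (nat_lit 803314134) (nat_lit 0) (nat_lit 677784085) (nat_lit 532) (nat_lit 803314134) (nat_lit 211) (nat_lit 1) (nat_lit 210) (nat_lit 1) (nat_lit 217) (nat_lit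 1) (nat_lit 447) (nat_lit 385) (nat_lit 308)) (XT.lf (nat_lit 532) (nat_lit 1107744583) (nat_lit 0) (nat_lit 579494634) (nat_lit 456) (nat_lit 579494634) (nat_lit 211) (nat_lit 1) (nat_lit 204) (nat_lit 1) (nat_lit 210) (nat_lit 1) (nat_lit 448) (nat_lit 385) (nat_lit 307)))) (XT.nd (nat_lit 53118) (nat_lit 0) (nat_lit 22268) (XT.nd (nat_lit 53040) (nat_lit 0) (nat_lit 22268) (XT.lf (nat_lit 76) (nat_lit 305653436) (nat_lit 0) (nat_lit 1637951270) (nat_lit 532) (nat_lit 305653436) (nat_lit 205) (nat_lit 1) (nat_lit 204) (nat_lit 1) (nat_lit 211) (nat_lit 1) (nat_lit 449) (nat_lit 385) (nat_lit 306)) (XT.lf (nat_lit 1900) (nat_lit 759602500) (nat_lit 0) (nat_lit 765954544) (nat_lit 1900) (nat_lit 759602500) (nat_lit 522) (nat_lit 1) (nat_lit 497) (nat_lit 0) (nat_lit 522) (nat_lit 0) (nat_lit 368) (nat_lit 386) (nat_lit 386))) (XT.nd (nat_lit 78) (nat_lit 0) (nat_lit 76) (XT.lf (nat_lit 1900) (nat_lit 3003582495) (nat_lit 76) (nat_lit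 760915369) (nat_lit 0) (nat_lit 760915369) (nat_lit 522) (nat_lit 1) (nat_lit 498) (nat_lit 1) (nat_lit 497) (nat_lit 0) (nat_lit 369) (nat_lit 386) (nat_lit 385)) (XT.nd (nat_lit 78) (nat_lit 0) (nat_lit 0) (XT.lf (nat_lit 1900) (nat_lit 1474773302) (nat_lit 0) (nat_lit 1531451254) (nat_lit 1824) (nat_lit 1474773302) (nat_lit 523) (nat_lit 1) (nat_lit 498) (nat_lit 1) (nat_lit 522) (nat_lit 1) (nat_lit 370) (nat_lit 386) (nat_lit 384)) (XT.lf (nat_lit 1900) (nat_lit 2886494904) (nat_lit 76) (nat_lit 775380457) (nat_lit 0) (nat_lit 775380457) (nat_lit 523) (nat_lit 1) (nat_lit 499) (nat_lit 1) (nat_lit 498) (nat_lit 1) (nat_lit 371) (nat_lit 386) (nat_lit 383)))))) (XT.nd (nat_lit 312) (nat_lit 0) (nat_lit 152) (XT.nd (nat_lit 156) (nat_lit 0) (nat_lit 76) (XT.nd (nat_lit 78) (nat_lit 0) (nat_lit 0) (XT.lf (nat_lit 1900) (nat_lit 1402781826) (nat_lit 0) (nat_lit 1588432992) (nat_lit 1824) (nat_lit 1402781826) (nat_lit 524) (nat_lit 1)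 (nat_lit 499) (nat_lit 1) (nat_lit 523) (nat_lit 1) (nat_lit 372) (nat_lit 386) (nat_lit 382)) (XT.lf (nat_lit 1900) (nat_lit 2715769069) (nat_lit 76) (nat_lit 817805856) (nat_lit 0) (nat_lit 817805856) (nat_lit 524) (nat_lit 1) (nat_lit 500) (nat_lit 1) (nat_lit 499) (nat_lit 1) (nat_lit 373) (nat_lit 386) (nat_lit 381))) (XT.nd (nat_lit 78) (nat_lit 0) (nat_lit 0) (XT.lf (nat_lit 1900) (nat_lit 1304874969) (nat_lit 0) (nat_lit 1699497934) (nat_lit 1824) (nat_lit 1304874969) (nat_lit 525) (nat_lit 1) (nat_lit 500) (nat_lit 1) (nat_lit 524) (nat_lit 1) (nat_lit 374) (nat_lit 386) (nat_lit 380)) (XT.lf (nat_lit 1900) (nat_lit 2494628708) (nat_lit 76) (nat_lit 886546579) (nat_lit 0) (nat_lit 886546579) (nat_lit 525) (nat_lit 1) (nat_lit 501) (nat_lit 1) (nat_lit 500) (nat_lit 1) (nat_lit 375) (nat_lit 386) (nat_lit 379)))) (XT.nd (nat_lit 156) (nat_lit 0) (nat_lit 76) (XT.nd (nat_lit 78) (nat_lit 0) (nat_lit 0) (XT.lf (nat_lit 1900) (nat_lit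 1182622018) (nat_lit 0) (nat_lit 1861442124) (nat_lit 1824) (nat_lit 1182622018) (nat_lit 526) (nat_lit 1) (nat_lit 501) (nat_lit 1) (nat_lit 525) (nat_lit 1) (nat_lit 376) (nat_lit 386) (nat_lit 378)) (XT.lf (nat_lit 1900) (nat_lit 2226149988) (nat_lit 76) (nat_lit 980032481) (nat_lit 0) (nat_lit 980032481) (nat_lit 526) (nat_lit 1) (nat_lit 502) (nat_lit 1) (nat_lit 501) (nat_lit 1) (nat_lit 377) (nat_lit 386) (nat_lit 377))) (XT.nd (nat_lit 78) (nat_lit 0) (nat_lit 0) (XT.lf (nat_lit 1900) (nat_lit 1037520280) (nat_lit 0) (nat_lit 2071207662) (nat_lit 1824) (nat_lit 1037520280) (nat_lit 527) (nat_lit 1) (nat_lit 502) (nat_lit 1) (nat_lit 526) (nat_lit 1) (nat_lit 378) (nat_lit 386) (nat_lit 376)) (XT.nd (nat_lit 78) (nat_lit 0) (nat_lit 76) (XT.lf (nat_lit 1900) (nat_lit 1913267695) (nat_lit 76) (nat_lit 1096765138) (nat_lit 0) (nat_lit 1096765138) (nat_lit 527) (nat_lit 1) (nat_lit 503) (nat_lit 1) (nat_lit 502) (nat_lit 1) (nat_lit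 379) (nat_lit 386) (nat_lit 375)) (XT.lf (nat_lit 1900) (nat_lit 870998100) (nat_lit 0) (nat_lit 2325876610) (nat_lit 1824) (nat_lit 870998100) (nat_lit 528) (nat_lit 1) (nat_lit 503) (nat_lit 1) (nat_lit 527) (nat_lit 1) (nat_lit 380) (nat_lit 386) (nat_lit 374))))))) (XT.nd (nat_lit 702) (nat_lit 2812) (nat_lit 0) (XT.nd (nat_lit 312) (nat_lit 1596) (nat_lit 0) (XT.nd (nat_lit 156) (nat_lit 0) (nat_lit 76) (XT.nd (nat_lit 78) (nat_lit 0) (nat_lit 76) (XT.lf (nat_lit 1900) (nat_lit 1558781151) (nat_lit 76) (nat_lit 1235314850) (nat_lit 0) (nat_lit 1235314850) (nat_lit 528) (nat_lit 1) (nat_lit 504) (nat_lit 1) (nat_lit 503) (nat_lit 1) (nat_lit 381) (nat_lit 386) (nat_lit 373)) (XT.lf (nat_lit 1900) (nat_lit 684417749) (nat_lit 0) (nat_lit 2622665138) (nat_lit 1824) (nat_lit 684417749) (nat_lit 529) (nat_lit 1) (nat_lit 504) (nat_lit 1) (nat_lit 528) (nat_lit 1) (nat_lit 382) (nat_lit 386) (nat_lit 372))) (XT.nd (nat_lit 78) (nat_lit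 0) (nat_lit 76) (XT.lf (nat_lit 1900) (nat_lit 1165359896) (nat_lit 76) (nat_lit 1394317771) (nat_lit 0) (nat_lit 1394317771) (nat_lit 529) (nat_lit 1) (nat_lit 505) (nat_lit 1) (nat_lit 504) (nat_lit 1) (nat_lit 383) (nat_lit 386) (nat_lit 371)) (XT.lf (nat_lit 1900) (nat_lit 479078197) (nat_lit 0) (nat_lit 2958917916) (nat_lit 1824) (nat_lit 479078197) (nat_lit 530) (nat_lit 1) (nat_lit 505) (nat_lit 1) (nat_lit 529) (nat_lit 1) (nat_lit 384) (nat_lit 386) (nat_lit 370)))) (XT.nd (nat_lit 156) (nat_lit 1748) (nat_lit 0) (XT.nd (nat_lit 78) (nat_lit 0) (nat_lit 76) (XT.lf (nat_lit 1900) (nat_lit 735549143) (nat_lit 76) (nat_lit 1572473143) (nat_lit 0) (nat_lit 1572473143) (nat_lit 530) (nat_lit 1) (nat_lit 506) (nat_lit 1) (nat_lit 505) (nat_lit 1) (nat_lit 385) (nat_lit 386) (nat_lit 369)) (XT.lf (nat_lit 1900) (nat_lit 256217776) (nat_lit 0) (nat_lit 3332102715) (nat_lit 1824) (nat_lit 256217776) (nat_lit 531) (nat_lit 1) (nat_lit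 506) (nat_lit 1) (nat_lit 530) (nat_lit 1) (nat_lit 386) (nat_lit 386) (nat_lit 368))) (XT.nd (nat_lit 78) (nat_lit 1824) (nat_lit 0) (XT.lf (nat_lit 1900) (nat_lit 271775010) (nat_lit 76) (nat_lit 1768540649) (nat_lit 0) (nat_lit 1768540649) (nat_lit 531) (nat_lit 1) (nat_lit 507) (nat_lit 1) (nat_lit 506) (nat_lit 1) (nat_lit 387) (nat_lit 386) (nat_lit 367)) (XT.nd (nat_lit 78) (nat_lit 1900) (nat_lit 0) (XT.lf (nat_lit 1900) (nat_lit 17016733) (nat_lit 0) (nat_lit 3739805240) (nat_lit 1824) (nat_lit 17016733) (nat_lit 532) (nat_lit 1) (nat_lit 507) (nat_lit 1) (nat_lit 531) (nat_lit 1) (nat_lit 388) (nat_lit 386) (nat_lit 366)) (XT.lf (nat_lit 1976) (nat_lit 1759139504) (nat_lit 0) (nat_lit 220717242) (nat_lit 1900) (nat_lit 1759139504) (nat_lit 508) (nat_lit 1) (nat_lit 482) (nat_lit 1) (nat_lit 507) (nat_lit 1) (nat_lit 389) (nat_lit 386) (nat_lit 365)))))) (XT.nd (nat_lit 312) (nat_lit 2812) (nat_lit 0) (XT.nd (nat_lit 156) (nat_lit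 0) (nat_lit 76) (XT.nd (nat_lit 78) (nat_lit 0) (nat_lit 76) (XT.lf (nat_lit 1976) (nat_lit 3233122874) (nat_lit 76) (nat_lit 235838470) (nat_lit 0) (nat_lit 235838470) (nat_lit 508) (nat_lit 1) (nat_lit 483) (nat_lit 1) (nat_lit 482) (nat_lit 1) (nat_lit 390) (nat_lit 386) (nat_lit 364)) (XT.lf (nat_lit 1976) (nat_lit 1466073312) (nat_lit 0) (nat_lit 738707439) (nat_lit 1900) (nat_lit 1466073312) (nat_lit 509) (nat_lit 1) (nat_lit 483) (nat_lit 1) (nat_lit 508) (nat_lit 1) (nat_lit 391) (nat_lit 386) (nat_lit 363))) (XT.nd (nat_lit 78) (nat_lit 0) (nat_lit 76) (XT.lf (nat_lit 1976) (nat_lit 2632211955) (nat_lit 76) (nat_lit 502633335) (nat_lit 0) (nat_lit 502633335) (nat_lit 509) (nat_lit 1) (nat_lit 484) (nat_lit 1) (nat_lit 483) (nat_lit 1) (nat_lit 392) (nat_lit 386) (nat_lit 362)) (XT.lf (nat_lit 76) (nat_lit 1160363244) (nat_lit 0) (nat_lit 1283689316) (nat_lit 1900) (nat_lit 1160363244) (nat_lit 485) (nat_lit 1) (nat_lit 484) (nat_lit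 1) (nat_lit 509) (nat_lit 1) (nat_lit 393) (nat_lit 386) (nat_lit 361)))) (XT.nd (nat_lit 156) (nat_lit 1824) (nat_lit 0) (XT.nd (nat_lit 78) (nat_lit 0) (nat_lit 0) (XT.lf (nat_lit 1216) (nat_lit 2006903256) (nat_lit 0) (nat_lit 782466212) (nat_lit 1140) (nat_lit 782466212) (nat_lit 485) (nat_lit 1) (nat_lit 469) (nat_lit 1) (nat_lit 484) (nat_lit 1) (nat_lit 394) (nat_lit 386) (nat_lit 360)) (XT.lf (nat_lit 76) (nat_lit 842971335) (nat_lit 0) (nat_lit 1853691108) (nat_lit 1216) (nat_lit 842971335) (nat_lit 470) (nat_lit 1) (nat_lit 469) (nat_lit 1) (nat_lit 485) (nat_lit 1) (nat_lit 395) (nat_lit 386) (nat_lit 359))) (XT.nd (nat_lit 78) (nat_lit 912) (nat_lit 0) (XT.lf (nat_lit 988) (nat_lit 1359080093) (nat_lit 0) (nat_lit 1074372034) (nat_lit 912) (nat_lit 1074372034) (nat_lit 470) (nat_lit 1) (nat_lit 457) (nat_lit 1) (nat_lit 469) (nat_lit 1) (nat_lit 396) (nat_lit 386) (nat_lit 358)) (XT.nd (nat_lit 78) (nat_lit 912) (nat_lit 0)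 (XT.lf (nat_lit 76) (nat_lit 514813028) (nat_lit 0) (nat_lit 2446835728) (nat_lit 988) (nat_lit 514813028) (nat_lit 458) (nat_lit 1) (nat_lit 457) (nat_lit 1) (nat_lit 470) (nat_lit 1) (nat_lit 397) (nat_lit 386) (nat_lit 357)) (XT.lf (nat_lit 988) (nat_lit 690534298) (nat_lit 0) (nat_lit 1377432208) (nat_lit 912) (nat_lit 1377432208) (nat_lit 458) (nat_lit 1) (nat_lit 445) (nat_lit 1) (nat_lit 457) (nat_lit 1) (nat_lit 398) (nat_lit 386) (nat_lit 356))))))))
noncomputable def ec45 : XT := (XT.nd (nat_lit 1404) (nat_lit 6764) (nat_lit 0) (XT.nd (nat_lit 702) (nat_lit 3800) (nat_lit 0) (XT.nd (nat_lit 312) (nat_lit 2432) (nat_lit 0) (XT.nd (nat_lit 156) (nat_lit 988) (nat_lit 0) (XT.nd (nat_lit 78) (nat_lit 836) (nat_lit 0) (XT.lf (nat_lit 76) (nat_lit 176759162) (nat_lit 0) (nat_lit 3061336733) (nat_lit 988) (nat_lit 176759162) (nat_lit 446) (nat_lit 1) (nat_lit 445) (nat_lit 1) (nat_lit 458) (nat_lit 1) (nat_lit 399) (nat_lit 386) (nat_lit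 355)) (XT.lf (nat_lit 912) (nat_lit 2970132) (nat_lit 0) (nat_lit 1690772626) (nat_lit 836) (nat_lit 1690772626) (nat_lit 446) (nat_lit 1) (nat_lit 434) (nat_lit 1) (nat_lit 445) (nat_lit 1) (nat_lit 400) (nat_lit 386) (nat_lit 354))) (XT.nd (nat_lit 78) (nat_lit 0) (nat_lit 0) (XT.lf (nat_lit 988) (nat_lit 3016198810) (nat_lit 0) (nat_lit 169241313) (nat_lit 912) (nat_lit 169241313) (nat_lit 434) (nat_lit 1) (nat_lit 421) (nat_lit 1) (nat_lit 433) (nat_lit 1) (nat_lit 401) (nat_lit 386) (nat_lit 353)) (XT.lf (nat_lit 76) (nat_lit 1316127609) (nat_lit 0) (nat_lit 692785209) (nat_lit 988) (nat_lit 1316127609) (nat_lit 422) (nat_lit 1) (nat_lit 421) (nat_lit 1) (nat_lit 434) (nat_lit 1) (nat_lit 402) (nat_lit 386) (nat_lit 352)))) (XT.nd (nat_lit 156) (nat_lit 1596) (nat_lit 0) (XT.nd (nat_lit 78) (nat_lit 0) (nat_lit 0) (XT.lf (nat_lit 912) (nat_lit 2251282136) (nat_lit 0) (nat_lit 522304555) (nat_lit 836) (nat_lit 522304555) (nat_lit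 422) (nat_lit 1) (nat_lit 410) (nat_lit 1) (nat_lit 421) (nat_lit 1) (nat_lit 403) (nat_lit 386) (nat_lit 351)) (XT.lf (nat_lit 76) (nat_lit 931434980) (nat_lit 0) (nat_lit 1404151320) (nat_lit 912) (nat_lit 931434980) (nat_lit 411) (nat_lit 1) (nat_lit 410) (nat_lit 1) (nat_lit 422) (nat_lit 1) (nat_lit 404) (nat_lit 386) (nat_lit 350))) (XT.nd (nat_lit 78) (nat_lit 760) (nat_lit 0) (XT.lf (nat_lit 912) (nat_lit 1472835873) (nat_lit 0) (nat_lit 882850193) (nat_lit 836) (nat_lit 882850193) (nat_lit 411) (nat_lit 1) (nat_lit 399) (nat_lit 1) (nat_lit 410) (nat_lit 1) (nat_lit 405) (nat_lit 386) (nat_lit 349)) (XT.nd (nat_lit 78) (nat_lit 760) (nat_lit 0) (XT.lf (nat_lit 76) (nat_lit 540347816) (nat_lit 0) (nat_lit 2129722883) (nat_lit 912) (nat_lit 540347816) (nat_lit 400) (nat_lit 1) (nat_lit 399) (nat_lit 1) (nat_lit 411) (nat_lit 1) (nat_lit 406) (nat_lit 386) (nat_lit 348)) (XT.lf (nat_lit 836) (nat_lit 682233081) (nat_lit 0) (nat_lit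 1250172143) (nat_lit 760) (nat_lit 1250172143) (nat_lit 400) (nat_lit 1) (nat_lit 389) (nat_lit 1) (nat_lit 399) (nat_lit 1) (nat_lit 407) (nat_lit 386) (nat_lit 347)))))) (XT.nd (nat_lit 312) (nat_lit 2204) (nat_lit 0) (XT.nd (nat_lit 156) (nat_lit 760) (nat_lit 0) (XT.nd (nat_lit 78) (nat_lit 836) (nat_lit 0) (XT.lf (nat_lit 76) (nat_lit 143532710) (nat_lit 0) (nat_lit 2868128112) (nat_lit 836) (nat_lit 143532710) (nat_lit 390) (nat_lit 1) (nat_lit 389) (nat_lit 1) (nat_lit 400) (nat_lit 1) (nat_lit 408) (nat_lit 386) (nat_lit 346)) (XT.lf (nat_lit 76) (nat_lit 1505150843) (nat_lit 0) (nat_lit 117659484) (nat_lit 836) (nat_lit 1505150843) (nat_lit 379) (nat_lit 1) (nat_lit 378) (nat_lit 1) (nat_lit 389) (nat_lit 1) (nat_lit 409) (nat_lit 386) (nat_lit 345))) (XT.nd (nat_lit 78) (nat_lit 0) (nat_lit 0) (XT.lf (nat_lit 836) (nat_lit 2587818314) (nat_lit 0) (nat_lit 256677973) (nat_lit 760) (nat_lit 256677973) (nat_lit 379) (nat_lit 1)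 (nat_lit 368) (nat_lit 1) (nat_lit 378) (nat_lit 1) (nat_lit 410) (nat_lit 386) (nat_lit 344)) (XT.lf (nat_lit 76) (nat_lit 1078240530) (nat_lit 0) (nat_lit 918095490) (nat_lit 836) (nat_lit 1078240530) (nat_lit 369) (nat_lit 1) (nat_lit 368) (nat_lit 1) (nat_lit 379) (nat_lit 1) (nat_lit 411) (nat_lit 386) (nat_lit 343)))) (XT.nd (nat_lit 156) (nat_lit 1444) (nat_lit 0) (XT.nd (nat_lit 78) (nat_lit 0) (nat_lit 0) (XT.lf (nat_lit 836) (nat_lit 1727561296) (nat_lit 0) (nat_lit 660410315) (nat_lit 760) (nat_lit 660410315) (nat_lit 369) (nat_lit 1) (nat_lit 358) (nat_lit 1) (nat_lit 368) (nat_lit 1) (nat_lit 412) (nat_lit 386) (nat_lit 342)) (XT.lf (nat_lit 76) (nat_lit 647805460) (nat_lit 0) (nat_lit 1726865675) (nat_lit 836) (nat_lit 647805460) (nat_lit 359) (nat_lit 1) (nat_lit 358) (nat_lit 1) (nat_lit 369) (nat_lit 1) (nat_lit 413) (nat_lit 386) (nat_lit 341))) (XT.nd (nat_lit 78) (nat_lit 760) (nat_lit 0) (XT.lf (nat_lit 760) (nat_lit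 860769203) (nat_lit 0) (nat_lit 1068043623) (nat_lit 684) (nat_lit 1068043623) (nat_lit 359) (nat_lit 1) (nat_lit 349) (nat_lit 1) (nat_lit 358) (nat_lit 1) (nat_lit 414) (nat_lit 386) (nat_lit 340)) (XT.nd (nat_lit 78) (nat_lit 760) (nat_lit 0) (XT.lf (nat_lit 76) (nat_lit 214376667) (nat_lit 0) (nat_lit 2542873549) (nat_lit 760) (nat_lit 214376667) (nat_lit 350) (nat_lit 1) (nat_lit 349) (nat_lit 1) (nat_lit 359) (nat_lit 1) (nat_lit 415) (nat_lit 386) (nat_lit 339)) (XT.lf (nat_lit 76) (nat_lit 1467596264) (nat_lit 0) (nat_lit 11369964) (nat_lit 760) (nat_lit 1467596264) (nat_lit 340) (nat_lit 1) (nat_lit 339) (nat_lit 1) (nat_lit 349) (nat_lit 1) (nat_lit 416) (nat_lit 386) (nat_lit 338))))))) (XT.nd (nat_lit 702) (nat_lit 3496) (nat_lit 0) (XT.nd (nat_lit 312) (nat_lit 1900) (nat_lit 0) (XT.nd (nat_lit 156) (nat_lit 684) (nat_lit 0) (XT.nd (nat_lit 78) (nat_lit 0) (nat_lit 0) (XT.lf (nat_lit 760) (nat_lit 2481707266) (nat_lit 0)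 (nat_lit 220085646) (nat_lit 684) (nat_lit 220085646) (nat_lit 340) (nat_lit 1) (nat_lit 330) (nat_lit 1) (nat_lit 339) (nat_lit 1) (nat_lit 417) (nat_lit 386) (nat_lit 337)) (XT.lf (nat_lit 76) (nat_lit 1010339362) (nat_lit 0) (nat_lit 876677643) (nat_lit 760) (nat_lit 1010339362) (nat_lit 331) (nat_lit 1) (nat_lit 330) (nat_lit 1) (nat_lit 340) (nat_lit 1) (nat_lit 418) (nat_lit 386) (nat_lit 336))) (XT.nd (nat_lit 78) (nat_lit 0) (nat_lit 0) (XT.lf (nat_lit 760) (nat_lit 1562922341) (nat_lit 0) (nat_lit 655139785) (nat_lit 684) (nat_lit 655139785) (nat_lit 331) (nat_lit 1) (nat_lit 321) (nat_lit 1) (nat_lit 330) (nat_lit 1) (nat_lit 419) (nat_lit 386) (nat_lit 335)) (XT.lf (nat_lit 76) (nat_lit 551895547) (nat_lit 0) (nat_lit 1745527028) (nat_lit 760) (nat_lit 551895547) (nat_lit 322) (nat_lit 1) (nat_lit 321) (nat_lit 1) (nat_lit 331) (nat_lit 1) (nat_lit 420) (nat_lit 386) (nat_lit 334)))) (XT.nd (nat_lit 156) (nat_lit 1292) (nat_lit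 0) (XT.nd (nat_lit 78) (nat_lit 0) (nat_lit 0) (XT.lf (nat_lit 684) (nat_lit 642178691) (nat_lit 0) (nat_lit 1091749390) (nat_lit 608) (nat_lit 1091749390) (nat_lit 322) (nat_lit 1) (nat_lit 313) (nat_lit 1) (nat_lit 321) (nat_lit 1) (nat_lit 421) (nat_lit 386) (nat_lit 333)) (XT.lf (nat_lit 76) (nat_lit 92682336) (nat_lit 0) (nat_lit 2617052302) (nat_lit 684) (nat_lit 92682336) (nat_lit 314) (nat_lit 1) (nat_lit 313) (nat_lit 1) (nat_lit 322) (nat_lit 1) (nat_lit 422) (nat_lit 386) (nat_lit 332))) (XT.nd (nat_lit 78) (nat_lit 608) (nat_lit 0) (XT.lf (nat_lit 76) (nat_lit 1251598716) (nat_lit 0) (nat_lit 276041215) (nat_lit 684) (nat_lit 1251598716) (nat_lit 305) (nat_lit 1) (nat_lit 304) (nat_lit 1) (nat_lit 313) (nat_lit 1) (nat_lit 423) (nat_lit 386) (nat_lit 331)) (XT.nd (nat_lit 78) (nat_lit 0) (nat_lit 0) (XT.lf (nat_lit 684) (nat_lit 2027447044) (nat_lit 0) (nat_lit 364492394) (nat_lit 608) (nat_lit 364492394) (nat_lit 305) (nat_lit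 1) (nat_lit 296) (nat_lit 1) (nat_lit 304) (nat_lit 1) (nat_lit 424) (nat_lit 386) (nat_lit 330)) (XT.lf (nat_lit 76) (nat_lit 773799147) (nat_lit 0) (nat_lit 1186210646) (nat_lit 684) (nat_lit 773799147) (nat_lit 297) (nat_lit 1) (nat_lit 296) (nat_lit 1) (nat_lit 305) (nat_lit 1) (nat_lit 425) (nat_lit 386) (nat_lit 329)))))) (XT.nd (nat_lit 390) (nat_lit 1672) (nat_lit 0) (XT.nd (nat_lit 156) (nat_lit 1216) (nat_lit 0) (XT.nd (nat_lit 78) (nat_lit 0) (nat_lit 0) (XT.lf (nat_lit 684) (nat_lit 1069354326) (nat_lit 0) (nat_lit 821061144) (nat_lit 608) (nat_lit 821061144) (nat_lit 297) (nat_lit 1) (nat_lit 288) (nat_lit 1) (nat_lit 296) (nat_lit 1) (nat_lit 426) (nat_lit 386) (nat_lit 328)) (XT.lf (nat_lit 76) (nat_lit 296702936) (nat_lit 0) (nat_lit 2096037443) (nat_lit 684) (nat_lit 296702936) (nat_lit 289) (nat_lit 1) (nat_lit 288) (nat_lit 1) (nat_lit 297) (nat_lit 1) (nat_lit 427) (nat_lit 386) (nat_lit 327))) (XT.nd (nat_lit 78)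 (nat_lit 684) (nat_lit 0) (XT.lf (nat_lit 608) (nat_lit 113000023) (nat_lit 0) (nat_lit 1277285817) (nat_lit 532) (nat_lit 1277285817) (nat_lit 289) (nat_lit 1) (nat_lit 281) (nat_lit 1) (nat_lit 288) (nat_lit 1) (nat_lit 428) (nat_lit 386) (nat_lit 326)) (XT.nd (nat_lit 78) (nat_lit 0) (nat_lit 0) (XT.lf (nat_lit 684) (nat_lit 2289646352) (nat_lit 0) (nat_lit 178187176) (nat_lit 608) (nat_lit 178187176) (nat_lit 281) (nat_lit 1) (nat_lit 272) (nat_lit 1) (nat_lit 280) (nat_lit 1) (nat_lit 429) (nat_lit 386) (nat_lit 325)) (XT.lf (nat_lit 76) (nat_lit 897311179) (nat_lit 0) (nat_lit 829958256) (nat_lit 684) (nat_lit 897311179) (nat_lit 273) (nat_lit 1) (nat_lit 272) (nat_lit 1) (nat_lit 281) (nat_lit 1) (nat_lit 430) (nat_lit 386) (nat_lit 324))))) (XT.nd (nat_lit 156) (nat_lit 1140) (nat_lit 0) (XT.nd (nat_lit 78) (nat_lit 0) (nat_lit 0) (XT.lf (nat_lit 608) (nat_lit 1303844466) (nat_lit 0) (nat_lit 649804695) (nat_lit 532) (nat_lit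 649804695) (nat_lit 273) (nat_lit 1) (nat_lit 265) (nat_lit 1) (nat_lit 272) (nat_lit 1) (nat_lit 431) (nat_lit 386) (nat_lit 323)) (XT.lf (nat_lit 76) (nat_lit 407027468) (nat_lit 0) (nat_lit 1768517100) (nat_lit 608) (nat_lit 407027468) (nat_lit 266) (nat_lit 1) (nat_lit 265) (nat_lit 1) (nat_lit 273) (nat_lit 1) (nat_lit 432) (nat_lit 386) (nat_lit 322))) (XT.nd (nat_lit 78) (nat_lit 608) (nat_lit 0) (XT.lf (nat_lit 608) (nat_lit 322234144) (nat_lit 0) (nat_lit 1119818693) (nat_lit 532) (nat_lit 1119818693) (nat_lit 266) (nat_lit 1) (nat_lit 258) (nat_lit 1) (nat_lit 265) (nat_lit 1) (nat_lit 433) (nat_lit 386) (nat_lit 321)) (XT.nd (nat_lit 78) (nat_lit 0) (nat_lit 0) (XT.lf (nat_lit 608) (nat_lit 2380482031) (nat_lit 0) (nat_lit 80505403) (nat_lit 532) (nat_lit 80505403) (nat_lit 258) (nat_lit 1) (nat_lit 250) (nat_lit 1) (nat_lit 257) (nat_lit 1) (nat_lit 434) (nat_lit 386) (nat_lit 320)) (XT.lf (nat_lit 76) (nat_lit 937535424)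 (nat_lit 0) (nat_lit 646092743) (nat_lit 608) (nat_lit 937535424) (nat_lit 251) (nat_lit 1) (nat_lit 250) (nat_lit 1) (nat_lit 258) (nat_lit 1) (nat_lit 435) (nat_lit 386) (nat_lit 319))))))))
noncomputable def ec46 : XT := (XT.nd (nat_lit 54288) (nat_lit 0) (nat_lit 21508) (XT.nd (nat_lit 702) (nat_lit 836) (nat_lit 0) (XT.nd (nat_lit 312) (nat_lit 1444) (nat_lit 0) (XT.nd (nat_lit 156) (nat_lit 1064) (nat_lit 0) (XT.nd (nat_lit 78) (nat_lit 0) (nat_lit 0) (XT.lf (nat_lit 608) (nat_lit 1375319080) (nat_lit 0) (nat_lit 562915267) (nat_lit 532) (nat_lit 562915267) (nat_lit 251) (nat_lit 1) (nat_lit 243) (nat_lit 1) (nat_lit 250) (nat_lit 1) (nat_lit 436) (nat_lit 386) (nat_lit 318)) (XT.lf (nat_lit 76) (nat_lit 438129145) (nat_lit 0) (nat_lit 1605091185) (nat_lit 608) (nat_lit 438129145) (nat_lit 244) (nat_lit 1) (nat_lit 243) (nat_lit 1) (nat_lit 251) (nat_lit 1) (nat_lit 437) (nat_lit 386) (nat_lit 317))) (XT.nd (nat_lit 78) (nat_lit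 608) (nat_lit 0) (XT.lf (nat_lit 532) (nat_lit 376423198) (nat_lit 0) (nat_lit 1042653662) (nat_lit 456) (nat_lit 1042653662) (nat_lit 244) (nat_lit 1) (nat_lit 237) (nat_lit 1) (nat_lit 243) (nat_lit 1) (nat_lit 438) (nat_lit 386) (nat_lit 316)) (XT.lf (nat_lit 608) (nat_lit 2327076887) (nat_lit 0) (nat_lit 57670116) (nat_lit 532) (nat_lit 57670116) (nat_lit 237) (nat_lit 1) (nat_lit 229) (nat_lit 1) (nat_lit 236) (nat_lit 1) (nat_lit 439) (nat_lit 386) (nat_lit 315)))) (XT.nd (nat_lit 156) (nat_lit 988) (nat_lit 0) (XT.nd (nat_lit 78) (nat_lit 456) (nat_lit 0) (XT.lf (nat_lit 76) (nat_lit 907701099) (nat_lit 0) (nat_lit 607730113) (nat_lit 608) (nat_lit 907701099) (nat_lit 230) (nat_lit 1) (nat_lit 229) (nat_lit 1) (nat_lit 237) (nat_lit 1) (nat_lit 440) (nat_lit 386) (nat_lit 314)) (XT.lf (nat_lit 532) (nat_lit 1309762121) (nat_lit 0) (nat_lit 547192559) (nat_lit 456) (nat_lit 547192559) (nat_lit 230) (nat_lit 1) (nat_lit 223) (nat_lit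 1) (nat_lit 229) (nat_lit 1) (nat_lit 441) (nat_lit 386) (nat_lit 313))) (XT.nd (nat_lit 78) (nat_lit 988) (nat_lit 0) (XT.lf (nat_lit 76) (nat_lit 402681317) (nat_lit 0) (nat_lit 1580001713) (nat_lit 532) (nat_lit 402681317) (nat_lit 224) (nat_lit 1) (nat_lit 223) (nat_lit 1) (nat_lit 230) (nat_lit 1) (nat_lit 442) (nat_lit 386) (nat_lit 312)) (XT.nd (nat_lit 78) (nat_lit 532) (nat_lit 0) (XT.lf (nat_lit 532) (nat_lit 300458585) (nat_lit 0) (nat_lit 1033143671) (nat_lit 456) (nat_lit 1033143671) (nat_lit 224) (nat_lit 1) (nat_lit 217) (nat_lit 1) (nat_lit 223) (nat_lit 1) (nat_lit 443) (nat_lit 386) (nat_lit 311)) (XT.lf (nat_lit 532) (nat_lit 2153160167) (nat_lit 0) (nat_lit 97621090) (nat_lit 456) (nat_lit 97621090) (nat_lit 217) (nat_lit 1) (nat_lit 210) (nat_lit 1) (nat_lit 216) (nat_lit 1) (nat_lit 444) (nat_lit 386) (nat_lit 310)))))) (XT.nd (nat_lit 53196) (nat_lit 0) (nat_lit 22648) (XT.nd (nat_lit 156) (nat_lit 380) (nat_lit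 0) (XT.nd (nat_lit 78) (nat_lit 456) (nat_lit 0) (XT.lf (nat_lit 76) (nat_lit 819380417) (nat_lit 0) (nat_lit 691339766) (nat_lit 532) (nat_lit 819380417) (nat_lit 211) (nat_lit 1) (nat_lit 210) (nat_lit 1) (nat_lit 217) (nat_lit 1) (nat_lit 445) (nat_lit 386) (nat_lit 309)) (XT.lf (nat_lit 532) (nat_lit 1129899475) (nat_lit 0) (nat_lit 591084527) (nat_lit 456) (nat_lit 591084527) (nat_lit 211) (nat_lit 1) (nat_lit 204) (nat_lit 1) (nat_lit 210) (nat_lit 1) (nat_lit 446) (nat_lit 386) (nat_lit 308))) (XT.nd (nat_lit 78) (nat_lit 380) (nat_lit 0) (XT.lf (nat_lit 76) (nat_lit 311766505) (nat_lit 0) (nat_lit 1670710295) (nat_lit 532) (nat_lit 311766505) (nat_lit 205) (nat_lit 1) (nat_lit 204) (nat_lit 1) (nat_lit 211) (nat_lit 1) (nat_lit 447) (nat_lit 386) (nat_lit 307)) (XT.lf (nat_lit 456) (nat_lit 116103786) (nat_lit 0) (nat_lit 1080224146) (nat_lit 380) (nat_lit 1080224146) (nat_lit 205) (nat_lit 1) (nat_lit 199) (nat_lit 1) (nat_lit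 204) (nat_lit 1) (nat_lit 448) (nat_lit 386) (nat_lit 306)))) (XT.nd (nat_lit 156) (nat_lit 0) (nat_lit 76) (XT.nd (nat_lit 78) (nat_lit 0) (nat_lit 0) (XT.lf (nat_lit 1900) (nat_lit 774794550) (nat_lit 0) (nat_lit 781273635) (nat_lit 1900) (nat_lit 774794550) (nat_lit 522) (nat_lit 1) (nat_lit 497) (nat_lit 0) (nat_lit 522) (nat_lit 0) (nat_lit 366) (nat_lit 387) (nat_lit 387)) (XT.lf (nat_lit 1900) (nat_lit 3063654145) (nat_lit 76) (nat_lit 776133677) (nat_lit 0) (nat_lit 776133677) (nat_lit 522) (nat_lit 1) (nat_lit 498) (nat_lit 1) (nat_lit 497) (nat_lit 0) (nat_lit 367) (nat_lit 387) (nat_lit 386))) (XT.nd (nat_lit 78) (nat_lit 0) (nat_lit 0) (XT.lf (nat_lit 1900) (nat_lit 1504268768) (nat_lit 0) (nat_lit 1562080280) (nat_lit 1824) (nat_lit 1504268768) (nat_lit 523) (nat_lit 1) (nat_lit 498) (nat_lit 1) (nat_lit 522) (nat_lit 1) (nat_lit 368) (nat_lit 387) (nat_lit 385)) (XT.nd (nat_lit 78) (nat_lit 0) (nat_lit 76) (XT.lf (nat_lit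 1900) (nat_lit 2944224803) (nat_lit 76) (nat_lit 790888066) (nat_lit 0) (nat_lit 790888066) (nat_lit 523) (nat_lit 1) (nat_lit 499) (nat_lit 1) (nat_lit 498) (nat_lit 1) (nat_lit 369) (nat_lit 387) (nat_lit 384)) (XT.lf (nat_lit 1900) (nat_lit 1430837462) (nat_lit 0) (nat_lit 1620201652) (nat_lit 1824) (nat_lit 1430837462) (nat_lit 524) (nat_lit 1) (nat_lit 499) (nat_lit 1) (nat_lit 523) (nat_lit 1) (nat_lit 370) (nat_lit 387) (nat_lit 383))))))) (XT.nd (nat_lit 702) (nat_lit 1292) (nat_lit 0) (XT.nd (nat_lit 312) (nat_lit 0) (nat_lit 152) (XT.nd (nat_lit 156) (nat_lit 0) (nat_lit 76) (XT.nd (nat_lit 78) (nat_lit 0) (nat_lit 76) (XT.lf (nat_lit 1900) (nat_lit 2770084450) (nat_lit 76) (nat_lit 834161973) (nat_lit 0) (nat_lit 834161973) (nat_lit 524) (nat_lit 1) (nat_lit 500) (nat_lit 1) (nat_lit 499) (nat_lit 1) (nat_lit 371) (nat_lit 387) (nat_lit 382)) (XT.lf (nat_lit 1900) (nat_lit 1330972469) (nat_lit 0) (nat_lit 1733487893) (nat_lit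 1824) (nat_lit 1330972469) (nat_lit 525) (nat_lit 1) (nat_lit 500) (nat_lit 1) (nat_lit 524) (nat_lit 1) (nat_lit 372) (nat_lit 387) (nat_lit 381))) (XT.nd (nat_lit 78) (nat_lit 0) (nat_lit 76) (XT.lf (nat_lit 1900) (nat_lit 2544521282) (nat_lit 76) (nat_lit 904277511) (nat_lit 0) (nat_lit 904277511) (nat_lit 525) (nat_lit 1) (nat_lit 501) (nat_lit 1) (nat_lit 500) (nat_lit 1) (nat_lit 373) (nat_lit 387) (nat_lit 380)) (XT.lf (nat_lit 1900) (nat_lit 1206274458) (nat_lit 0) (nat_lit 1898670967) (nat_lit 1824) (nat_lit 1206274458) (nat_lit 526) (nat_lit 1) (nat_lit 501) (nat_lit 1) (nat_lit 525) (nat_lit 1) (nat_lit 374) (nat_lit 387) (nat_lit 379)))) (XT.nd (nat_lit 156) (nat_lit 0) (nat_lit 76) (XT.nd (nat_lit 78) (nat_lit 0) (nat_lit 76) (XT.lf (nat_lit 1900) (nat_lit 2270672988) (nat_lit 76) (nat_lit 999633131) (nat_lit 0) (nat_lit 999633131) (nat_lit 526) (nat_lit 1) (nat_lit 502) (nat_lit 1) (nat_lit 501) (nat_lit 1) (nat_lit 375)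 (nat_lit 387) (nat_lit 378)) (XT.lf (nat_lit 1900) (nat_lit 1058270685) (nat_lit 0) (nat_lit 2112631816) (nat_lit 1824) (nat_lit 1058270685) (nat_lit 527) (nat_lit 1) (nat_lit 502) (nat_lit 1) (nat_lit 526) (nat_lit 1) (nat_lit 376) (nat_lit 387) (nat_lit 377))) (XT.nd (nat_lit 78) (nat_lit 0) (nat_lit 76) (XT.lf (nat_lit 1900) (nat_lit 1951533049) (nat_lit 76) (nat_lit 1118700440) (nat_lit 0) (nat_lit 1118700440) (nat_lit 527) (nat_lit 1) (nat_lit 503) (nat_lit 1) (nat_lit 502) (nat_lit 1) (nat_lit 377) (nat_lit 387) (nat_lit 376)) (XT.nd (nat_lit 78) (nat_lit 0) (nat_lit 0) (XT.lf (nat_lit 1900) (nat_lit 888418062) (nat_lit 0) (nat_lit 2372394142) (nat_lit 1824) (nat_lit 888418062) (nat_lit 528) (nat_lit 1) (nat_lit 503) (nat_lit 1) (nat_lit 527) (nat_lit 1) (nat_lit 378) (nat_lit 387) (nat_lit 375)) (XT.lf (nat_lit 1900) (nat_lit 1589956774) (nat_lit 76) (nat_lit 1260021147) (nat_lit 0) (nat_lit 1260021147) (nat_lit 528) (nat_lit 1)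 (nat_lit 504) (nat_lit 1) (nat_lit 503) (nat_lit 1) (nat_lit 379) (nat_lit 387) (nat_lit 374)))))) (XT.nd (nat_lit 390) (nat_lit 1672) (nat_lit 0) (XT.nd (nat_lit 156) (nat_lit 0) (nat_lit 76) (XT.nd (nat_lit 78) (nat_lit 0) (nat_lit 0) (XT.lf (nat_lit 1900) (nat_lit 698106104) (nat_lit 0) (nat_lit 2675118441) (nat_lit 1824) (nat_lit 698106104) (nat_lit 529) (nat_lit 1) (nat_lit 504) (nat_lit 1) (nat_lit 528) (nat_lit 1) (nat_lit 380) (nat_lit 387) (nat_lit 373)) (XT.lf (nat_lit 1900) (nat_lit 1188667094) (nat_lit 76) (nat_lit 1422204127) (nat_lit 0) (nat_lit 1422204127) (nat_lit 529) (nat_lit 1) (nat_lit 505) (nat_lit 1) (nat_lit 504) (nat_lit 1) (nat_lit 381) (nat_lit 387) (nat_lit 372))) (XT.nd (nat_lit 78) (nat_lit 0) (nat_lit 0) (XT.lf (nat_lit 1900) (nat_lit 488659761) (nat_lit 0) (nat_lit 3018096274) (nat_lit 1824) (nat_lit 488659761) (nat_lit 530) (nat_lit 1) (nat_lit 505) (nat_lit 1) (nat_lit 529) (nat_lit 1) (nat_lit 382) (nat_lit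 387) (nat_lit 371)) (XT.nd (nat_lit 78) (nat_lit 0) (nat_lit 76) (XT.lf (nat_lit 1900) (nat_lit 750260126) (nat_lit 76) (nat_lit 1603922606) (nat_lit 0) (nat_lit 1603922606) (nat_lit 530) (nat_lit 1) (nat_lit 506) (nat_lit 1) (nat_lit 505) (nat_lit 1) (nat_lit 383) (nat_lit 387) (nat_lit 370)) (XT.lf (nat_lit 1900) (nat_lit 261342131) (nat_lit 0) (nat_lit 3398744769) (nat_lit 1824) (nat_lit 261342131) (nat_lit 531) (nat_lit 1) (nat_lit 506) (nat_lit 1) (nat_lit 530) (nat_lit 1) (nat_lit 384) (nat_lit 387) (nat_lit 369))))) (XT.nd (nat_lit 156) (nat_lit 1824) (nat_lit 0) (XT.nd (nat_lit 78) (nat_lit 0) (nat_lit 76) (XT.lf (nat_lit 1900) (nat_lit 277210510) (nat_lit 76) (nat_lit 1803911462) (nat_lit 0) (nat_lit 1803911462) (nat_lit 531) (nat_lit 1) (nat_lit 507) (nat_lit 1) (nat_lit 506) (nat_lit 1) (nat_lit 385) (nat_lit 387) (nat_lit 368)) (XT.lf (nat_lit 1900) (nat_lit 17357068) (nat_lit 0) (nat_lit 3814601345) (nat_lit 1824) (nat_lit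 17357068) (nat_lit 532) (nat_lit 1) (nat_lit 507) (nat_lit 1) (nat_lit 531) (nat_lit 1) (nat_lit 386) (nat_lit 387) (nat_lit 367))) (XT.nd (nat_lit 78) (nat_lit 0) (nat_lit 0) (XT.lf (nat_lit 1976) (nat_lit 1794322295) (nat_lit 0) (nat_lit 225131587) (nat_lit 1900) (nat_lit 1794322295) (nat_lit 508) (nat_lit 1) (nat_lit 482) (nat_lit 1) (nat_lit 507) (nat_lit 1) (nat_lit 387) (nat_lit 387) (nat_lit 366)) (XT.nd (nat_lit 78) (nat_lit 0) (nat_lit 76) (XT.lf (nat_lit 1976) (nat_lit 3297785331) (nat_lit 76) (nat_lit 240555240) (nat_lit 0) (nat_lit 240555240) (nat_lit 508) (nat_lit 1) (nat_lit 483) (nat_lit 1) (nat_lit 482) (nat_lit 1) (nat_lit 388) (nat_lit 387) (nat_lit 365)) (XT.lf (nat_lit 1976) (nat_lit 1495394779) (nat_lit 0) (nat_lit 753481588) (nat_lit 1900) (nat_lit 1495394779) (nat_lit 509) (nat_lit 1) (nat_lit 483) (nat_lit 1) (nat_lit 508) (nat_lit 1) (nat_lit 389) (nat_lit 387) (nat_lit 364))))))))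
noncomputable def ec47 : XT := (XT.nd (nat_lit 1404) (nat_lit 7372) (nat_lit 0) (XT.nd (nat_lit 702) (nat_lit 4256) (nat_lit 0) (XT.nd (nat_lit 312) (nat_lit 2660) (nat_lit 0) (XT.nd (nat_lit 156) (nat_lit 1064) (nat_lit 0) (XT.nd (nat_lit 78) (nat_lit 0) (nat_lit 76) (XT.lf (nat_lit 1976) (nat_lit 2684856194) (nat_lit 76) (nat_lit 512686002) (nat_lit 0) (nat_lit 512686002) (nat_lit 509) (nat_lit 1) (nat_lit 484) (nat_lit 1) (nat_lit 483) (nat_lit 1) (nat_lit 390) (nat_lit 387) (nat_lit 363)) (XT.lf (nat_lit 76) (nat_lit 1183570509) (nat_lit 0) (nat_lit 1309363102) (nat_lit 1900) (nat_lit 1183570509) (nat_lit 485) (nat_lit 1) (nat_lit 484) (nat_lit 1) (nat_lit 509) (nat_lit 1) (nat_lit 391) (nat_lit 387) (nat_lit 362))) (XT.nd (nat_lit 78) (nat_lit 0) (nat_lit 0) (XT.lf (nat_lit 1216) (nat_lit 2047041321) (nat_lit 0) (nat_lit 798115536) (nat_lit 1140) (nat_lit 798115536) (nat_lit 485) (nat_lit 1) (nat_lit 469) (nat_lit 1) (nat_lit 484)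 (nat_lit 1) (nat_lit 392) (nat_lit 387) (nat_lit 361)) (XT.lf (nat_lit 76) (nat_lit 859830762) (nat_lit 0) (nat_lit 1890764930) (nat_lit 1216) (nat_lit 859830762) (nat_lit 470) (nat_lit 1) (nat_lit 469) (nat_lit 1) (nat_lit 485) (nat_lit 1) (nat_lit 393) (nat_lit 387) (nat_lit 360)))) (XT.nd (nat_lit 156) (nat_lit 1748) (nat_lit 0) (XT.nd (nat_lit 78) (nat_lit 0) (nat_lit 0) (XT.lf (nat_lit 988) (nat_lit 1386261695) (nat_lit 0) (nat_lit 1095859475) (nat_lit 912) (nat_lit 1095859475) (nat_lit 470) (nat_lit 1) (nat_lit 457) (nat_lit 1) (nat_lit 469) (nat_lit 1) (nat_lit 394) (nat_lit 387) (nat_lit 359)) (XT.lf (nat_lit 76) (nat_lit 525109288) (nat_lit 0) (nat_lit 2495772442) (nat_lit 988) (nat_lit 525109288) (nat_lit 458) (nat_lit 1) (nat_lit 457) (nat_lit 1) (nat_lit 470) (nat_lit 1) (nat_lit 395) (nat_lit 387) (nat_lit 358))) (XT.nd (nat_lit 78) (nat_lit 836) (nat_lit 0) (XT.lf (nat_lit 988) (nat_lit 704344984) (nat_lit 0) (nat_lit 1404980852)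 (nat_lit 912) (nat_lit 1404980852) (nat_lit 458) (nat_lit 1) (nat_lit 445) (nat_lit 1) (nat_lit 457) (nat_lit 1) (nat_lit 396) (nat_lit 387) (nat_lit 357)) (XT.nd (nat_lit 78) (nat_lit 836) (nat_lit 0) (XT.lf (nat_lit 76) (nat_lit 180294345) (nat_lit 0) (nat_lit 3122563467) (nat_lit 988) (nat_lit 180294345) (nat_lit 446) (nat_lit 1) (nat_lit 445) (nat_lit 1) (nat_lit 458) (nat_lit 1) (nat_lit 397) (nat_lit 387) (nat_lit 356)) (XT.lf (nat_lit 912) (nat_lit 3029535) (nat_lit 0) (nat_lit 1724588078) (nat_lit 836) (nat_lit 1724588078) (nat_lit 446) (nat_lit 1) (nat_lit 434) (nat_lit 1) (nat_lit 445) (nat_lit 1) (nat_lit 398) (nat_lit 387) (nat_lit 355)))))) (XT.nd (nat_lit 312) (nat_lit 2432) (nat_lit 0) (XT.nd (nat_lit 156) (nat_lit 836) (nat_lit 0) (XT.nd (nat_lit 78) (nat_lit 0) (nat_lit 0) (XT.lf (nat_lit 988) (nat_lit 3076522786) (nat_lit 0) (nat_lit 172626140) (nat_lit 912) (nat_lit 172626140) (nat_lit 434) (nat_lit 1) (nat_lit 421)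 (nat_lit 1) (nat_lit 433) (nat_lit 1) (nat_lit 399) (nat_lit 387) (nat_lit 354)) (XT.lf (nat_lit 76) (nat_lit 1342450161) (nat_lit 0) (nat_lit 706640913) (nat_lit 988) (nat_lit 1342450161) (nat_lit 422) (nat_lit 1) (nat_lit 421) (nat_lit 1) (nat_lit 434) (nat_lit 1) (nat_lit 400) (nat_lit 387) (nat_lit 353))) (XT.nd (nat_lit 78) (nat_lit 0) (nat_lit 0) (XT.lf (nat_lit 912) (nat_lit 2296307779) (nat_lit 0) (nat_lit 532750646) (nat_lit 836) (nat_lit 532750646) (nat_lit 422) (nat_lit 1) (nat_lit 410) (nat_lit 1) (nat_lit 421) (nat_lit 1) (nat_lit 401) (nat_lit 387) (nat_lit 352)) (XT.lf (nat_lit 76) (nat_lit 950063680) (nat_lit 0) (nat_lit 1432234346) (nat_lit 912) (nat_lit 950063680) (nat_lit 411) (nat_lit 1) (nat_lit 410) (nat_lit 1) (nat_lit 422) (nat_lit 1) (nat_lit 402) (nat_lit 387) (nat_lit 351)))) (XT.nd (nat_lit 156) (nat_lit 1596) (nat_lit 0) (XT.nd (nat_lit 78) (nat_lit 0) (nat_lit 0) (XT.lf (nat_lit 912) (nat_lit 1502292590)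 (nat_lit 0) (nat_lit 900507197) (nat_lit 836) (nat_lit 900507197) (nat_lit 411) (nat_lit 1) (nat_lit 399) (nat_lit 1) (nat_lit 410) (nat_lit 1) (nat_lit 403) (nat_lit 387) (nat_lit 350)) (XT.lf (nat_lit 76) (nat_lit 551154772) (nat_lit 0) (nat_lit 2172317340) (nat_lit 912) (nat_lit 551154772) (nat_lit 400) (nat_lit 1) (nat_lit 399) (nat_lit 1) (nat_lit 411) (nat_lit 1) (nat_lit 404) (nat_lit 387) (nat_lit 349))) (XT.nd (nat_lit 78) (nat_lit 836) (nat_lit 0) (XT.lf (nat_lit 836) (nat_lit 695877743) (nat_lit 0) (nat_lit 1275175585) (nat_lit 760) (nat_lit 1275175585) (nat_lit 400) (nat_lit 1) (nat_lit 389) (nat_lit 1) (nat_lit 399) (nat_lit 1) (nat_lit 405) (nat_lit 387) (nat_lit 348)) (XT.nd (nat_lit 78) (nat_lit 836) (nat_lit 0) (XT.lf (nat_lit 76) (nat_lit 146403364) (nat_lit 0) (nat_lit 2925490674) (nat_lit 836) (nat_lit 146403364) (nat_lit 390) (nat_lit 1) (nat_lit 389) (nat_lit 1) (nat_lit 400) (nat_lit 1) (nat_lit 406) (nat_lit 387)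 (nat_lit 347)) (XT.lf (nat_lit 76) (nat_lit 1535253860) (nat_lit 0) (nat_lit 120012673) (nat_lit 836) (nat_lit 1535253860) (nat_lit 379) (nat_lit 1) (nat_lit 378) (nat_lit 1) (nat_lit 389) (nat_lit 1) (nat_lit 407) (nat_lit 387) (nat_lit 346))))))) (XT.nd (nat_lit 702) (nat_lit 3724) (nat_lit 0) (XT.nd (nat_lit 312) (nat_lit 2128) (nat_lit 0) (XT.nd (nat_lit 156) (nat_lit 760) (nat_lit 0) (XT.nd (nat_lit 78) (nat_lit 0) (nat_lit 0) (XT.lf (nat_lit 836) (nat_lit 2639574680) (nat_lit 0) (nat_lit 261811533) (nat_lit 760) (nat_lit 261811533) (nat_lit 379) (nat_lit 1) (nat_lit 368) (nat_lit 1) (nat_lit 378) (nat_lit 1) (nat_lit 408) (nat_lit 387) (nat_lit 345)) (XT.lf (nat_lit 76) (nat_lit 1099805340) (nat_lit 0) (nat_lit 936457400) (nat_lit 836) (nat_lit 1099805340) (nat_lit 369) (nat_lit 1) (nat_lit 368) (nat_lit 1) (nat_lit 379) (nat_lit 1) (nat_lit 409) (nat_lit 387) (nat_lit 344))) (XT.nd (nat_lit 78) (nat_lit 0) (nat_lit 0) (XT.lf (nat_lit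 836) (nat_lit 1762112522) (nat_lit 0) (nat_lit 673618522) (nat_lit 760) (nat_lit 673618522) (nat_lit 369) (nat_lit 1) (nat_lit 358) (nat_lit 1) (nat_lit 368) (nat_lit 1) (nat_lit 410) (nat_lit 387) (nat_lit 343)) (XT.lf (nat_lit 76) (nat_lit 660761570) (nat_lit 0) (nat_lit 1761402989) (nat_lit 836) (nat_lit 660761570) (nat_lit 359) (nat_lit 1) (nat_lit 358) (nat_lit 1) (nat_lit 369) (nat_lit 1) (nat_lit 411) (nat_lit 387) (nat_lit 342)))) (XT.nd (nat_lit 156) (nat_lit 1444) (nat_lit 0) (XT.nd (nat_lit 78) (nat_lit 0) (nat_lit 0) (XT.lf (nat_lit 760) (nat_lit 877984587) (nat_lit 0) (nat_lit 1089404495) (nat_lit 684) (nat_lit 1089404495) (nat_lit 359) (nat_lit 1) (nat_lit 349) (nat_lit 1) (nat_lit 358) (nat_lit 1) (nat_lit 412) (nat_lit 387) (nat_lit 341)) (XT.lf (nat_lit 76) (nat_lit 218664201) (nat_lit 0) (nat_lit 2593731020) (nat_lit 760) (nat_lit 218664201) (nat_lit 350) (nat_lit 1) (nat_lit 349) (nat_lit 1) (nat_lit 359) (nat_lit 1)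 (nat_lit 413) (nat_lit 387) (nat_lit 340))) (XT.nd (nat_lit 78) (nat_lit 684) (nat_lit 0) (XT.lf (nat_lit 76) (nat_lit 1496948189) (nat_lit 0) (nat_lit 11597363) (nat_lit 760) (nat_lit 1496948189) (nat_lit 340) (nat_lit 1) (nat_lit 339) (nat_lit 1) (nat_lit 349) (nat_lit 1) (nat_lit 414) (nat_lit 387) (nat_lit 339)) (XT.nd (nat_lit 78) (nat_lit 0) (nat_lit 0) (XT.lf (nat_lit 760) (nat_lit 2531341411) (nat_lit 0) (nat_lit 224487359) (nat_lit 684) (nat_lit 224487359) (nat_lit 340) (nat_lit 1) (nat_lit 330) (nat_lit 1) (nat_lit 339) (nat_lit 1) (nat_lit 415) (nat_lit 387) (nat_lit 338)) (XT.lf (nat_lit 76) (nat_lit 1030546149) (nat_lit 0) (nat_lit 894211196) (nat_lit 760) (nat_lit 1030546149) (nat_lit 331) (nat_lit 1) (nat_lit 330) (nat_lit 1) (nat_lit 340) (nat_lit 1) (nat_lit 416) (nat_lit 387) (nat_lit 337)))))) (XT.nd (nat_lit 390) (nat_lit 1748) (nat_lit 0) (XT.nd (nat_lit 156) (nat_lit 1292) (nat_lit 0) (XT.nd (nat_lit 78) (nat_lit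 0) (nat_lit 0) (XT.lf (nat_lit 760) (nat_lit 1594180788) (nat_lit 0) (nat_lit 668242581) (nat_lit 684) (nat_lit 668242581) (nat_lit 331) (nat_lit 1) (nat_lit 321) (nat_lit 1) (nat_lit 330) (nat_lit 1) (nat_lit 417) (nat_lit 387) (nat_lit 336)) (XT.lf (nat_lit 76) (nat_lit 562933458) (nat_lit 0) (nat_lit 1780437569) (nat_lit 760) (nat_lit 562933458) (nat_lit 322) (nat_lit 1) (nat_lit 321) (nat_lit 1) (nat_lit 331) (nat_lit 1) (nat_lit 418) (nat_lit 387) (nat_lit 335))) (XT.nd (nat_lit 78) (nat_lit 684) (nat_lit 0) (XT.lf (nat_lit 684) (nat_lit 655022265) (nat_lit 0) (nat_lit 1113584378) (nat_lit 608) (nat_lit 1113584378) (nat_lit 322) (nat_lit 1) (nat_lit 313) (nat_lit 1) (nat_lit 321) (nat_lit 1) (nat_lit 419) (nat_lit 387) (nat_lit 334)) (XT.nd (nat_lit 78) (nat_lit 684) (nat_lit 0) (XT.lf (nat_lit 76) (nat_lit 94535983) (nat_lit 0) (nat_lit 2669393348) (nat_lit 684) (nat_lit 94535983) (nat_lit 314) (nat_lit 1) (nat_lit 313) (nat_lit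 1) (nat_lit 322) (nat_lit 1) (nat_lit 420) (nat_lit 387) (nat_lit 333)) (XT.lf (nat_lit 76) (nat_lit 1276630690) (nat_lit 0) (nat_lit 281562039) (nat_lit 684) (nat_lit 1276630690) (nat_lit 305) (nat_lit 1) (nat_lit 304) (nat_lit 1) (nat_lit 313) (nat_lit 1) (nat_lit 421) (nat_lit 387) (nat_lit 332))))) (XT.nd (nat_lit 156) (nat_lit 1140) (nat_lit 0) (XT.nd (nat_lit 78) (nat_lit 0) (nat_lit 0) (XT.lf (nat_lit 684) (nat_lit 2067995985) (nat_lit 0) (nat_lit 371782242) (nat_lit 608) (nat_lit 371782242) (nat_lit 305) (nat_lit 1) (nat_lit 296) (nat_lit 1) (nat_lit 304) (nat_lit 1) (nat_lit 422) (nat_lit 387) (nat_lit 331)) (XT.lf (nat_lit 76) (nat_lit 789275130) (nat_lit 0) (nat_lit 1209934858) (nat_lit 684) (nat_lit 789275130) (nat_lit 297) (nat_lit 1) (nat_lit 296) (nat_lit 1) (nat_lit 305) (nat_lit 1) (nat_lit 423) (nat_lit 387) (nat_lit 330))) (XT.nd (nat_lit 78) (nat_lit 532) (nat_lit 0) (XT.lf (nat_lit 684) (nat_lit 1090741412) (nat_lit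 0) (nat_lit 837482366) (nat_lit 608) (nat_lit 837482366) (nat_lit 297) (nat_lit 1) (nat_lit 288) (nat_lit 1) (nat_lit 296) (nat_lit 1) (nat_lit 424) (nat_lit 387) (nat_lit 329)) (XT.nd (nat_lit 78) (nat_lit 532) (nat_lit 0) (XT.lf (nat_lit 76) (nat_lit 302636995) (nat_lit 0) (nat_lit 2137958192) (nat_lit 684) (nat_lit 302636995) (nat_lit 289) (nat_lit 1) (nat_lit 288) (nat_lit 1) (nat_lit 297) (nat_lit 1) (nat_lit 425) (nat_lit 387) (nat_lit 328)) (XT.lf (nat_lit 608) (nat_lit 115260024) (nat_lit 0) (nat_lit 1302831534) (nat_lit 532) (nat_lit 1302831534) (nat_lit 289) (nat_lit 1) (nat_lit 281) (nat_lit 1) (nat_lit 288) (nat_lit 1) (nat_lit 426) (nat_lit 387) (nat_lit 327))))))))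
noncomputable def ec48 : XT := (XT.nd (nat_lit 1404) (nat_lit 912) (nat_lit 0) (XT.nd (nat_lit 702) (nat_lit 2964) (nat_lit 0) (XT.nd (nat_lit 312) (nat_lit 1672) (nat_lit 0) (XT.nd (nat_lit 156) (nat_lit 532) (nat_lit 0) (XT.nd (nat_lit 78) (nat_lit 0) (nat_lit 0) (XT.lf (nat_lit 684) (nat_lit 2335439279) (nat_lit 0) (nat_lit 181750920) (nat_lit 608) (nat_lit 181750920) (nat_lit 281) (nat_lit 1) (nat_lit 272) (nat_lit 1) (nat_lit 280) (nat_lit 1) (nat_lit 427) (nat_lit 387) (nat_lit 326)) (XT.lf (nat_lit 76) (nat_lit 915257403) (nat_lit 0) (nat_lit 846557422) (nat_lit 684) (nat_lit 915257403) (nat_lit 273) (nat_lit 1) (nat_lit 272) (nat_lit 1) (nat_lit 281) (nat_lit 1) (nat_lit 428) (nat_lit 387) (nat_lit 325))) (XT.nd (nat_lit 78) (nat_lit 0) (nat_lit 0) (XT.lf (nat_lit 608) (nat_lit 1329921355) (nat_lit 0) (nat_lit 662800788) (nat_lit 532) (nat_lit 662800788) (nat_lit 273) (nat_lit 1) (nat_lit 265) (nat_lit 1) (nat_lit 272) (nat_lit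 1) (nat_lit 429) (nat_lit 387) (nat_lit 324)) (XT.lf (nat_lit 76) (nat_lit 415168018) (nat_lit 0) (nat_lit 1803887442) (nat_lit 608) (nat_lit 415168018) (nat_lit 266) (nat_lit 1) (nat_lit 265) (nat_lit 1) (nat_lit 273) (nat_lit 1) (nat_lit 430) (nat_lit 387) (nat_lit 323)))) (XT.nd (nat_lit 156) (nat_lit 532) (nat_lit 0) (XT.nd (nat_lit 78) (nat_lit 608) (nat_lit 0) (XT.lf (nat_lit 608) (nat_lit 328678827) (nat_lit 0) (nat_lit 1142215066) (nat_lit 532) (nat_lit 1142215066) (nat_lit 266) (nat_lit 1) (nat_lit 258) (nat_lit 1) (nat_lit 265) (nat_lit 1) (nat_lit 431) (nat_lit 387) (nat_lit 322)) (XT.lf (nat_lit 608) (nat_lit 2428091672) (nat_lit 0) (nat_lit 82115511) (nat_lit 532) (nat_lit 82115511) (nat_lit 258) (nat_lit 1) (nat_lit 250) (nat_lit 1) (nat_lit 257) (nat_lit 1) (nat_lit 432) (nat_lit 387) (nat_lit 321))) (XT.nd (nat_lit 78) (nat_lit 532) (nat_lit 0) (XT.lf (nat_lit 76) (nat_lit 956286133) (nat_lit 0) (nat_lit 659014598) (nat_lit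 608) (nat_lit 956286133) (nat_lit 251) (nat_lit 1) (nat_lit 250) (nat_lit 1) (nat_lit 258) (nat_lit 1) (nat_lit 433) (nat_lit 387) (nat_lit 320)) (XT.nd (nat_lit 78) (nat_lit 0) (nat_lit 0) (XT.lf (nat_lit 608) (nat_lit 1402825461) (nat_lit 0) (nat_lit 574173572) (nat_lit 532) (nat_lit 574173572) (nat_lit 251) (nat_lit 1) (nat_lit 243) (nat_lit 1) (nat_lit 250) (nat_lit 1) (nat_lit 434) (nat_lit 387) (nat_lit 319)) (XT.lf (nat_lit 76) (nat_lit 446891728) (nat_lit 0) (nat_lit 1637193009) (nat_lit 608) (nat_lit 446891728) (nat_lit 244) (nat_lit 1) (nat_lit 243) (nat_lit 1) (nat_lit 251) (nat_lit 1) (nat_lit 435) (nat_lit 387) (nat_lit 318)))))) (XT.nd (nat_lit 312) (nat_lit 1444) (nat_lit 0) (XT.nd (nat_lit 156) (nat_lit 456) (nat_lit 0) (XT.nd (nat_lit 78) (nat_lit 608) (nat_lit 0) (XT.lf (nat_lit 532) (nat_lit 383951662) (nat_lit 0) (nat_lit 1063506735) (nat_lit 456) (nat_lit 1063506735) (nat_lit 244) (nat_lit 1) (nat_lit 237) (nat_lit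 1) (nat_lit 243) (nat_lit 1) (nat_lit 436) (nat_lit 387) (nat_lit 317)) (XT.lf (nat_lit 608) (nat_lit 2373618425) (nat_lit 0) (nat_lit 58823518) (nat_lit 532) (nat_lit 58823518) (nat_lit 237) (nat_lit 1) (nat_lit 229) (nat_lit 1) (nat_lit 236) (nat_lit 1) (nat_lit 437) (nat_lit 387) (nat_lit 316))) (XT.nd (nat_lit 78) (nat_lit 456) (nat_lit 0) (XT.lf (nat_lit 76) (nat_lit 925855121) (nat_lit 0) (nat_lit 619884715) (nat_lit 608) (nat_lit 925855121) (nat_lit 230) (nat_lit 1) (nat_lit 229) (nat_lit 1) (nat_lit 237) (nat_lit 1) (nat_lit 438) (nat_lit 387) (nat_lit 315)) (XT.lf (nat_lit 532) (nat_lit 1335957364) (nat_lit 0) (nat_lit 558136410) (nat_lit 456) (nat_lit 558136410) (nat_lit 230) (nat_lit 1) (nat_lit 223) (nat_lit 1) (nat_lit 229) (nat_lit 1) (nat_lit 439) (nat_lit 387) (nat_lit 314)))) (XT.nd (nat_lit 156) (nat_lit 988) (nat_lit 0) (XT.nd (nat_lit 78) (nat_lit 456) (nat_lit 0) (XT.lf (nat_lit 76) (nat_lit 410734943) (nat_lit 0)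 (nat_lit 1611601747) (nat_lit 532) (nat_lit 410734943) (nat_lit 224) (nat_lit 1) (nat_lit 223) (nat_lit 1) (nat_lit 230) (nat_lit 1) (nat_lit 440) (nat_lit 387) (nat_lit 313)) (XT.lf (nat_lit 532) (nat_lit 306467757) (nat_lit 0) (nat_lit 1053806545) (nat_lit 456) (nat_lit 1053806545) (nat_lit 224) (nat_lit 1) (nat_lit 217) (nat_lit 1) (nat_lit 223) (nat_lit 1) (nat_lit 441) (nat_lit 387) (nat_lit 312))) (XT.nd (nat_lit 78) (nat_lit 456) (nat_lit 0) (XT.lf (nat_lit 532) (nat_lit 2196223371) (nat_lit 0) (nat_lit 99573512) (nat_lit 456) (nat_lit 99573512) (nat_lit 217) (nat_lit 1) (nat_lit 210) (nat_lit 1) (nat_lit 216) (nat_lit 1) (nat_lit 442) (nat_lit 387) (nat_lit 311)) (XT.nd (nat_lit 78) (nat_lit 456) (nat_lit 0) (XT.lf (nat_lit 76) (nat_lit 835768025) (nat_lit 0) (nat_lit 705166562) (nat_lit 532) (nat_lit 835768025) (nat_lit 211) (nat_lit 1) (nat_lit 210) (nat_lit 1) (nat_lit 217) (nat_lit 1) (nat_lit 443) (nat_lit 387) (nat_lit 310))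 (XT.lf (nat_lit 532) (nat_lit 1152497464) (nat_lit 0) (nat_lit 602906217) (nat_lit 456) (nat_lit 602906217) (nat_lit 211) (nat_lit 1) (nat_lit 204) (nat_lit 1) (nat_lit 210) (nat_lit 1) (nat_lit 444) (nat_lit 387) (nat_lit 309))))))) (XT.nd (nat_lit 53430) (nat_lit 0) (nat_lit 23332) (XT.nd (nat_lit 53040) (nat_lit 0) (nat_lit 23180) (XT.nd (nat_lit 156) (nat_lit 532) (nat_lit 0) (XT.nd (nat_lit 78) (nat_lit 380) (nat_lit 0) (XT.lf (nat_lit 76) (nat_lit 318001835) (nat_lit 0) (nat_lit 1704124501) (nat_lit 532) (nat_lit 318001835) (nat_lit 205) (nat_lit 1) (nat_lit 204) (nat_lit 1) (nat_lit 211) (nat_lit 1) (nat_lit 445) (nat_lit 387) (nat_lit 308)) (XT.lf (nat_lit 456) (nat_lit 118425862) (nat_lit 0) (nat_lit 1101828628) (nat_lit 380) (nat_lit 1101828628) (nat_lit 205) (nat_lit 1) (nat_lit 199) (nat_lit 1) (nat_lit 204) (nat_lit 1) (nat_lit 446) (nat_lit 387) (nat_lit 307))) (XT.nd (nat_lit 78) (nat_lit 0) (nat_lit 0) (XT.lf (nat_lit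 532) (nat_lit 1917051696) (nat_lit 0) (nat_lit 193611623) (nat_lit 456) (nat_lit 193611623) (nat_lit 199) (nat_lit 1) (nat_lit 192) (nat_lit 1) (nat_lit 198) (nat_lit 1) (nat_lit 447) (nat_lit 387) (nat_lit 306)) (XT.lf (nat_lit 76) (nat_lit 696335108) (nat_lit 0) (nat_lit 893881717) (nat_lit 532) (nat_lit 696335108) (nat_lit 193) (nat_lit 1) (nat_lit 192) (nat_lit 1) (nat_lit 199) (nat_lit 1) (nat_lit 448) (nat_lit 387) (nat_lit 305)))) (XT.nd (nat_lit 156) (nat_lit 0) (nat_lit 76) (XT.nd (nat_lit 78) (nat_lit 0) (nat_lit 0) (XT.lf (nat_lit 1900) (nat_lit 790290442) (nat_lit 0) (nat_lit 796899108) (nat_lit 1900) (nat_lit 790290442) (nat_lit 522) (nat_lit 1) (nat_lit 497) (nat_lit 0) (nat_lit 522) (nat_lit 0) (nat_lit 364) (nat_lit 388) (nat_lit 388)) (XT.lf (nat_lit 1900) (nat_lit 3124927228) (nat_lit 76) (nat_lit 791656350) (nat_lit 0) (nat_lit 791656350) (nat_lit 522) (nat_lit 1) (nat_lit 498) (nat_lit 1) (nat_lit 497) (nat_lit 0)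 (nat_lit 365) (nat_lit 388) (nat_lit 387))) (XT.nd (nat_lit 78) (nat_lit 0) (nat_lit 0) (XT.lf (nat_lit 1900) (nat_lit 1534354144) (nat_lit 0) (nat_lit 1593321885) (nat_lit 1824) (nat_lit 1534354144) (nat_lit 523) (nat_lit 1) (nat_lit 498) (nat_lit 1) (nat_lit 522) (nat_lit 1) (nat_lit 366) (nat_lit 388) (nat_lit 386)) (XT.nd (nat_lit 78) (nat_lit 0) (nat_lit 76) (XT.lf (nat_lit 1900) (nat_lit 3003109299) (nat_lit 76) (nat_lit 806705827) (nat_lit 0) (nat_lit 806705827) (nat_lit 523) (nat_lit 1) (nat_lit 499) (nat_lit 1) (nat_lit 498) (nat_lit 1) (nat_lit 367) (nat_lit 388) (nat_lit 385)) (XT.lf (nat_lit 1900) (nat_lit 1459454211) (nat_lit 0) (nat_lit 1652605685) (nat_lit 1824) (nat_lit 1459454211) (nat_lit 524) (nat_lit 1) (nat_lit 499) (nat_lit 1) (nat_lit 523) (nat_lit 1) (nat_lit 368) (nat_lit 388) (nat_lit 384)))))) (XT.nd (nat_lit 312) (nat_lit 0) (nat_lit 152) (XT.nd (nat_lit 156) (nat_lit 0) (nat_lit 76) (XT.nd (nat_lit 78) (nat_lit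 0) (nat_lit 76) (XT.lf (nat_lit 1900) (nat_lit 2825486139) (nat_lit 76) (nat_lit 850845213) (nat_lit 0) (nat_lit 850845213) (nat_lit 524) (nat_lit 1) (nat_lit 500) (nat_lit 1) (nat_lit 499) (nat_lit 1) (nat_lit 369) (nat_lit 388) (nat_lit 383)) (XT.lf (nat_lit 1900) (nat_lit 1357591918) (nat_lit 0) (nat_lit 1768157651) (nat_lit 1824) (nat_lit 1357591918) (nat_lit 525) (nat_lit 1) (nat_lit 500) (nat_lit 1) (nat_lit 524) (nat_lit 1) (nat_lit 370) (nat_lit 388) (nat_lit 382))) (XT.nd (nat_lit 78) (nat_lit 0) (nat_lit 76) (XT.lf (nat_lit 1900) (nat_lit 2595411707) (nat_lit 76) (nat_lit 922363061) (nat_lit 0) (nat_lit 922363061) (nat_lit 525) (nat_lit 1) (nat_lit 501) (nat_lit 1) (nat_lit 500) (nat_lit 1) (nat_lit 371) (nat_lit 388) (nat_lit 381)) (XT.lf (nat_lit 1900) (nat_lit 1230399947) (nat_lit 0) (nat_lit 1936644386) (nat_lit 1824) (nat_lit 1230399947) (nat_lit 526) (nat_lit 1) (nat_lit 501) (nat_lit 1) (nat_lit 525) (nat_lit 1) (nat_lit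 372) (nat_lit 388) (nat_lit 380)))) (XT.nd (nat_lit 156) (nat_lit 0) (nat_lit 76) (XT.nd (nat_lit 78) (nat_lit 0) (nat_lit 76) (XT.lf (nat_lit 1900) (nat_lit 2316086448) (nat_lit 76) (nat_lit 1019625793) (nat_lit 0) (nat_lit 1019625793) (nat_lit 526) (nat_lit 1) (nat_lit 502) (nat_lit 1) (nat_lit 501) (nat_lit 1) (nat_lit 373) (nat_lit 388) (nat_lit 379)) (XT.lf (nat_lit 1900) (nat_lit 1079436099) (nat_lit 0) (nat_lit 2154884452) (nat_lit 1824) (nat_lit 1079436099) (nat_lit 527) (nat_lit 1) (nat_lit 502) (nat_lit 1) (nat_lit 526) (nat_lit 1) (nat_lit 374) (nat_lit 388) (nat_lit 378))) (XT.nd (nat_lit 78) (nat_lit 0) (nat_lit 76) (XT.lf (nat_lit 1900) (nat_lit 1990563710) (nat_lit 76) (nat_lit 1141074449) (nat_lit 0) (nat_lit 1141074449) (nat_lit 527) (nat_lit 1) (nat_lit 503) (nat_lit 1) (nat_lit 502) (nat_lit 1) (nat_lit 375) (nat_lit 388) (nat_lit 377)) (XT.nd (nat_lit 78) (nat_lit 0) (nat_lit 0) (XT.lf (nat_lit 1900) (nat_lit 906186423)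 (nat_lit 0) (nat_lit 2419842025) (nat_lit 1824) (nat_lit 906186423) (nat_lit 528) (nat_lit 1) (nat_lit 503) (nat_lit 1) (nat_lit 527) (nat_lit 1) (nat_lit 376) (nat_lit 388) (nat_lit 376)) (XT.lf (nat_lit 1900) (nat_lit 1621755909) (nat_lit 76) (nat_lit 1285221570) (nat_lit 0) (nat_lit 1285221570) (nat_lit 528) (nat_lit 1) (nat_lit 504) (nat_lit 1) (nat_lit 503) (nat_lit 1) (nat_lit 377) (nat_lit 388) (nat_lit 375))))))))
noncomputable def ec49 : XT := (XT.nd (nat_lit 1404) (nat_lit 8740) (nat_lit 0) (XT.nd (nat_lit 702) (nat_lit 2812) (nat_lit 0) (XT.nd (nat_lit 312) (nat_lit 1672) (nat_lit 0) (XT.nd (nat_lit 156) (nat_lit 0) (nat_lit 76) (XT.nd (nat_lit 78) (nat_lit 0) (nat_lit 0) (XT.lf (nat_lit 1900) (nat_lit 712068226) (nat_lit 0) (nat_lit 2728620810) (nat_lit 1824) (nat_lit 712068226) (nat_lit 529) (nat_lit 1) (nat_lit 504) (nat_lit 1) (nat_lit 528) (nat_lit 1) (nat_lit 378) (nat_lit 388) (nat_lit 374)) (XT.lf (nat_lit 1900) (nat_lit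 1212440436) (nat_lit 76) (nat_lit 1450648209) (nat_lit 0) (nat_lit 1450648209) (nat_lit 529) (nat_lit 1) (nat_lit 505) (nat_lit 1) (nat_lit 504) (nat_lit 1) (nat_lit 379) (nat_lit 388) (nat_lit 373))) (XT.nd (nat_lit 78) (nat_lit 0) (nat_lit 0) (XT.lf (nat_lit 1900) (nat_lit 498432956) (nat_lit 0) (nat_lit 3078458200) (nat_lit 1824) (nat_lit 498432956) (nat_lit 530) (nat_lit 1) (nat_lit 505) (nat_lit 1) (nat_lit 529) (nat_lit 1) (nat_lit 380) (nat_lit 388) (nat_lit 372)) (XT.lf (nat_lit 1900) (nat_lit 765265328) (nat_lit 76) (nat_lit 1636001058) (nat_lit 0) (nat_lit 1636001058) (nat_lit 530) (nat_lit 1) (nat_lit 506) (nat_lit 1) (nat_lit 505) (nat_lit 1) (nat_lit 381) (nat_lit 388) (nat_lit 371)))) (XT.nd (nat_lit 156) (nat_lit 1824) (nat_lit 0) (XT.nd (nat_lit 78) (nat_lit 0) (nat_lit 0) (XT.lf (nat_lit 1900) (nat_lit 266568974) (nat_lit 0) (nat_lit 3466719664) (nat_lit 1824) (nat_lit 266568974) (nat_lit 531) (nat_lit 1) (nat_lit 506)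 (nat_lit 1) (nat_lit 530) (nat_lit 1) (nat_lit 382) (nat_lit 388) (nat_lit 370)) (XT.lf (nat_lit 1900) (nat_lit 282754720) (nat_lit 76) (nat_lit 1839989692) (nat_lit 0) (nat_lit 1839989692) (nat_lit 531) (nat_lit 1) (nat_lit 507) (nat_lit 1) (nat_lit 506) (nat_lit 1) (nat_lit 383) (nat_lit 388) (nat_lit 369))) (XT.nd (nat_lit 78) (nat_lit 1900) (nat_lit 0) (XT.lf (nat_lit 1900) (nat_lit 17704209) (nat_lit 0) (nat_lit 3890893372) (nat_lit 1824) (nat_lit 17704209) (nat_lit 532) (nat_lit 1) (nat_lit 507) (nat_lit 1) (nat_lit 531) (nat_lit 1) (nat_lit 384) (nat_lit 388) (nat_lit 368)) (XT.nd (nat_lit 78) (nat_lit 0) (nat_lit 0) (XT.lf (nat_lit 1976) (nat_lit 1830208740) (nat_lit 0) (nat_lit 229634219) (nat_lit 1900) (nat_lit 1830208740) (nat_lit 508) (nat_lit 1) (nat_lit 482) (nat_lit 1) (nat_lit 507) (nat_lit 1) (nat_lit 385) (nat_lit 388) (nat_lit 367)) (XT.lf (nat_lit 1976) (nat_lit 3363741038) (nat_lit 76) (nat_lit 245366344) (nat_lit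 0) (nat_lit 245366344) (nat_lit 508) (nat_lit 1) (nat_lit 483) (nat_lit 1) (nat_lit 482) (nat_lit 1) (nat_lit 386) (nat_lit 388) (nat_lit 366)))))) (XT.nd (nat_lit 312) (nat_lit 1824) (nat_lit 0) (XT.nd (nat_lit 156) (nat_lit 1064) (nat_lit 0) (XT.nd (nat_lit 78) (nat_lit 0) (nat_lit 0) (XT.lf (nat_lit 1976) (nat_lit 1525302674) (nat_lit 0) (nat_lit 768551220) (nat_lit 1900) (nat_lit 1525302674) (nat_lit 509) (nat_lit 1) (nat_lit 483) (nat_lit 1) (nat_lit 508) (nat_lit 1) (nat_lit 387) (nat_lit 388) (nat_lit 365)) (XT.lf (nat_lit 1976) (nat_lit 2738553318) (nat_lit 76) (nat_lit 522939722) (nat_lit 0) (nat_lit 522939722) (nat_lit 509) (nat_lit 1) (nat_lit 484) (nat_lit 1) (nat_lit 483) (nat_lit 1) (nat_lit 388) (nat_lit 388) (nat_lit 364))) (XT.nd (nat_lit 78) (nat_lit 1140) (nat_lit 0) (XT.lf (nat_lit 76) (nat_lit 1207241919) (nat_lit 0) (nat_lit 1335550364) (nat_lit 1900) (nat_lit 1207241919) (nat_lit 485) (nat_lit 1) (nat_lit 484) (nat_lit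 1) (nat_lit 509) (nat_lit 1) (nat_lit 389) (nat_lit 388) (nat_lit 363)) (XT.lf (nat_lit 1216) (nat_lit 2087982148) (nat_lit 0) (nat_lit 814077847) (nat_lit 1140) (nat_lit 814077847) (nat_lit 485) (nat_lit 1) (nat_lit 469) (nat_lit 1) (nat_lit 484) (nat_lit 1) (nat_lit 390) (nat_lit 388) (nat_lit 362)))) (XT.nd (nat_lit 156) (nat_lit 912) (nat_lit 0) (XT.nd (nat_lit 78) (nat_lit 912) (nat_lit 0) (XT.lf (nat_lit 76) (nat_lit 877027377) (nat_lit 0) (nat_lit 1928580229) (nat_lit 1216) (nat_lit 877027377) (nat_lit 470) (nat_lit 1) (nat_lit 469) (nat_lit 1) (nat_lit 485) (nat_lit 1) (nat_lit 391) (nat_lit 388) (nat_lit 361)) (XT.lf (nat_lit 988) (nat_lit 1413986929) (nat_lit 0) (nat_lit 1117776665) (nat_lit 912) (nat_lit 1117776665) (nat_lit 470) (nat_lit 1) (nat_lit 457) (nat_lit 1) (nat_lit 469) (nat_lit 1) (nat_lit 392) (nat_lit 388) (nat_lit 360))) (XT.nd (nat_lit 78) (nat_lit 912) (nat_lit 0) (XT.lf (nat_lit 76) (nat_lit 535611474) (nat_lit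 0) (nat_lit 2545687891) (nat_lit 988) (nat_lit 535611474) (nat_lit 458) (nat_lit 1) (nat_lit 457) (nat_lit 1) (nat_lit 470) (nat_lit 1) (nat_lit 393) (nat_lit 388) (nat_lit 359)) (XT.nd (nat_lit 78) (nat_lit 0) (nat_lit 0) (XT.lf (nat_lit 988) (nat_lit 718431884) (nat_lit 0) (nat_lit 1433080469) (nat_lit 912) (nat_lit 1433080469) (nat_lit 458) (nat_lit 1) (nat_lit 445) (nat_lit 1) (nat_lit 457) (nat_lit 1) (nat_lit 394) (nat_lit 388) (nat_lit 358)) (XT.lf (nat_lit 76) (nat_lit 183900232) (nat_lit 0) (nat_lit 3185014737) (nat_lit 988) (nat_lit 183900232) (nat_lit 446) (nat_lit 1) (nat_lit 445) (nat_lit 1) (nat_lit 458) (nat_lit 1) (nat_lit 395) (nat_lit 388) (nat_lit 357))))))) (XT.nd (nat_lit 702) (nat_lit 4484) (nat_lit 0) (XT.nd (nat_lit 312) (nat_lit 1596) (nat_lit 0) (XT.nd (nat_lit 156) (nat_lit 836) (nat_lit 0) (XT.nd (nat_lit 78) (nat_lit 988) (nat_lit 0) (XT.lf (nat_lit 912) (nat_lit 3090126) (nat_lit 0) (nat_lit 1759079840) (nat_lit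 836) (nat_lit 1759079840) (nat_lit 446) (nat_lit 1) (nat_lit 434) (nat_lit 1) (nat_lit 445) (nat_lit 1) (nat_lit 396) (nat_lit 388) (nat_lit 356)) (XT.lf (nat_lit 988) (nat_lit 3138053242) (nat_lit 0) (nat_lit 176078662) (nat_lit 912) (nat_lit 176078662) (nat_lit 434) (nat_lit 1) (nat_lit 421) (nat_lit 1) (nat_lit 433) (nat_lit 1) (nat_lit 397) (nat_lit 388) (nat_lit 355))) (XT.nd (nat_lit 78) (nat_lit 836) (nat_lit 0) (XT.lf (nat_lit 76) (nat_lit 1369299165) (nat_lit 0) (nat_lit 720773731) (nat_lit 988) (nat_lit 1369299165) (nat_lit 422) (nat_lit 1) (nat_lit 421) (nat_lit 1) (nat_lit 434) (nat_lit 1) (nat_lit 398) (nat_lit 388) (nat_lit 354)) (XT.lf (nat_lit 912) (nat_lit 2342233935) (nat_lit 0) (nat_lit 543405659) (nat_lit 836) (nat_lit 543405659) (nat_lit 422) (nat_lit 1) (nat_lit 410) (nat_lit 1) (nat_lit 421) (nat_lit 1) (nat_lit 399) (nat_lit 388) (nat_lit 353)))) (XT.nd (nat_lit 156) (nat_lit 760) (nat_lit 0) (XT.nd (nat_lit 78)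 (nat_lit 836) (nat_lit 0) (XT.lf (nat_lit 76) (nat_lit 969064953) (nat_lit 0) (nat_lit 1460879033) (nat_lit 912) (nat_lit 969064953) (nat_lit 411) (nat_lit 1) (nat_lit 410) (nat_lit 1) (nat_lit 422) (nat_lit 1) (nat_lit 400) (nat_lit 388) (nat_lit 352)) (XT.lf (nat_lit 912) (nat_lit 1532338442) (nat_lit 0) (nat_lit 918517341) (nat_lit 836) (nat_lit 918517341) (nat_lit 411) (nat_lit 1) (nat_lit 399) (nat_lit 1) (nat_lit 410) (nat_lit 1) (nat_lit 401) (nat_lit 388) (nat_lit 351))) (XT.nd (nat_lit 78) (nat_lit 760) (nat_lit 0) (XT.lf (nat_lit 76) (nat_lit 562177868) (nat_lit 0) (nat_lit 2215763687) (nat_lit 912) (nat_lit 562177868) (nat_lit 400) (nat_lit 1) (nat_lit 399) (nat_lit 1) (nat_lit 411) (nat_lit 1) (nat_lit 402) (nat_lit 388) (nat_lit 350)) (XT.nd (nat_lit 78) (nat_lit 0) (nat_lit 0) (XT.lf (nat_lit 836) (nat_lit 709795297) (nat_lit 0) (nat_lit 1300679097) (nat_lit 760) (nat_lit 1300679097) (nat_lit 400) (nat_lit 1) (nat_lit 389)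 (nat_lit 1) (nat_lit 399) (nat_lit 1) (nat_lit 403) (nat_lit 388) (nat_lit 349)) (XT.lf (nat_lit 76) (nat_lit 149331432) (nat_lit 0) (nat_lit 2984000488) (nat_lit 836) (nat_lit 149331432) (nat_lit 390) (nat_lit 1) (nat_lit 389) (nat_lit 1) (nat_lit 400) (nat_lit 1) (nat_lit 404) (nat_lit 388) (nat_lit 348)))))) (XT.nd (nat_lit 390) (nat_lit 2128) (nat_lit 0) (XT.nd (nat_lit 156) (nat_lit 760) (nat_lit 0) (XT.nd (nat_lit 78) (nat_lit 760) (nat_lit 0) (XT.lf (nat_lit 76) (nat_lit 1565958937) (nat_lit 0) (nat_lit 122412927) (nat_lit 836) (nat_lit 1565958937) (nat_lit 379) (nat_lit 1) (nat_lit 378) (nat_lit 1) (nat_lit 389) (nat_lit 1) (nat_lit 405) (nat_lit 388) (nat_lit 347)) (XT.lf (nat_lit 836) (nat_lit 2692366174) (nat_lit 0) (nat_lit 267047764) (nat_lit 760) (nat_lit 267047764) (nat_lit 379) (nat_lit 1) (nat_lit 368) (nat_lit 1) (nat_lit 378) (nat_lit 1) (nat_lit 406) (nat_lit 388) (nat_lit 346))) (XT.nd (nat_lit 78) (nat_lit 760) (nat_lit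 0) (XT.lf (nat_lit 76) (nat_lit 1121801447) (nat_lit 0) (nat_lit 955186548) (nat_lit 836) (nat_lit 1121801447) (nat_lit 369) (nat_lit 1) (nat_lit 368) (nat_lit 1) (nat_lit 379) (nat_lit 1) (nat_lit 407) (nat_lit 388) (nat_lit 345)) (XT.nd (nat_lit 78) (nat_lit 0) (nat_lit 0) (XT.lf (nat_lit 836) (nat_lit 1797354773) (nat_lit 0) (nat_lit 687090892) (nat_lit 760) (nat_lit 687090892) (nat_lit 369) (nat_lit 1) (nat_lit 358) (nat_lit 1) (nat_lit 368) (nat_lit 1) (nat_lit 408) (nat_lit 388) (nat_lit 344)) (XT.lf (nat_lit 76) (nat_lit 673976801) (nat_lit 0) (nat_lit 1796631049) (nat_lit 836) (nat_lit 673976801) (nat_lit 359) (nat_lit 1) (nat_lit 358) (nat_lit 1) (nat_lit 369) (nat_lit 1) (nat_lit 409) (nat_lit 388) (nat_lit 343))))) (XT.nd (nat_lit 156) (nat_lit 1444) (nat_lit 0) (XT.nd (nat_lit 78) (nat_lit 0) (nat_lit 0) (XT.lf (nat_lit 760) (nat_lit 895544279) (nat_lit 0) (nat_lit 1111192585) (nat_lit 684) (nat_lit 1111192585) (nat_lit 359)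 (nat_lit 1) (nat_lit 349) (nat_lit 1) (nat_lit 358) (nat_lit 1) (nat_lit 410) (nat_lit 388) (nat_lit 342)) (XT.lf (nat_lit 76) (nat_lit 223037485) (nat_lit 0) (nat_lit 2645605641) (nat_lit 760) (nat_lit 223037485) (nat_lit 350) (nat_lit 1) (nat_lit 349) (nat_lit 1) (nat_lit 359) (nat_lit 1) (nat_lit 411) (nat_lit 388) (nat_lit 341))) (XT.nd (nat_lit 78) (nat_lit 684) (nat_lit 0) (XT.lf (nat_lit 76) (nat_lit 1526887153) (nat_lit 0) (nat_lit 11829310) (nat_lit 760) (nat_lit 1526887153) (nat_lit 340) (nat_lit 1) (nat_lit 339) (nat_lit 1) (nat_lit 349) (nat_lit 1) (nat_lit 412) (nat_lit 388) (nat_lit 340)) (XT.nd (nat_lit 78) (nat_lit 0) (nat_lit 0) (XT.lf (nat_lit 760) (nat_lit 2581968240) (nat_lit 0) (nat_lit 228977106) (nat_lit 684) (nat_lit 228977106) (nat_lit 340) (nat_lit 1) (nat_lit 330) (nat_lit 1) (nat_lit 339) (nat_lit 1) (nat_lit 413) (nat_lit 388) (nat_lit 339)) (XT.lf (nat_lit 76) (nat_lit 1051157072) (nat_lit 0) (nat_lit 912095420)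 (nat_lit 760) (nat_lit 1051157072) (nat_lit 331) (nat_lit 1) (nat_lit 330) (nat_lit 1) (nat_lit 340) (nat_lit 1) (nat_lit 414) (nat_lit 388) (nat_lit 338))))))))
noncomputable def ec50 : XT := (XT.nd (nat_lit 1404) (nat_lit 4256) (nat_lit 0) (XT.nd (nat_lit 702) (nat_lit 3420) (nat_lit 0) (XT.nd (nat_lit 312) (nat_lit 1900) (nat_lit 0) (XT.nd (nat_lit 156) (nat_lit 608) (nat_lit 0) (XT.nd (nat_lit 78) (nat_lit 0) (nat_lit 0) (XT.lf (nat_lit 760) (nat_lit 1626064404) (nat_lit 0) (nat_lit 681607432) (nat_lit 684) (nat_lit 681607432) (nat_lit 331) (nat_lit 1) (nat_lit 321) (nat_lit 1) (nat_lit 330) (nat_lit 1) (nat_lit 415) (nat_lit 388) (nat_lit 337)) (XT.lf (nat_lit 76) (nat_lit 574192127) (nat_lit 0) (nat_lit 1816046320) (nat_lit 760) (nat_lit 574192127) (nat_lit 322) (nat_lit 1) (nat_lit 321) (nat_lit 1) (nat_lit 331) (nat_lit 1) (nat_lit 416) (nat_lit 388) (nat_lit 336))) (XT.nd (nat_lit 78) (nat_lit 0) (nat_lit 0) (XT.lf (nat_lit 684)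 (nat_lit 668122710) (nat_lit 0) (nat_lit 1135856066) (nat_lit 608) (nat_lit 1135856066) (nat_lit 322) (nat_lit 1) (nat_lit 313) (nat_lit 1) (nat_lit 321) (nat_lit 1) (nat_lit 417) (nat_lit 388) (nat_lit 335)) (XT.lf (nat_lit 76) (nat_lit 96426702) (nat_lit 0) (nat_lit 2722781215) (nat_lit 684) (nat_lit 96426702) (nat_lit 314) (nat_lit 1) (nat_lit 313) (nat_lit 1) (nat_lit 322) (nat_lit 1) (nat_lit 418) (nat_lit 388) (nat_lit 334)))) (XT.nd (nat_lit 156) (nat_lit 608) (nat_lit 0) (XT.nd (nat_lit 78) (nat_lit 608) (nat_lit 0) (XT.lf (nat_lit 76) (nat_lit 1302163304) (nat_lit 0) (nat_lit 287193280) (nat_lit 684) (nat_lit 1302163304) (nat_lit 305) (nat_lit 1) (nat_lit 304) (nat_lit 1) (nat_lit 313) (nat_lit 1) (nat_lit 419) (nat_lit 388) (nat_lit 333)) (XT.lf (nat_lit 684) (nat_lit 2109355905) (nat_lit 0) (nat_lit 379217887) (nat_lit 608) (nat_lit 379217887) (nat_lit 305) (nat_lit 1) (nat_lit 296) (nat_lit 1) (nat_lit 304) (nat_lit 1) (nat_lit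 420) (nat_lit 388) (nat_lit 332))) (XT.nd (nat_lit 78) (nat_lit 608) (nat_lit 0) (XT.lf (nat_lit 76) (nat_lit 805060632) (nat_lit 0) (nat_lit 1234133556) (nat_lit 684) (nat_lit 805060632) (nat_lit 297) (nat_lit 1) (nat_lit 296) (nat_lit 1) (nat_lit 305) (nat_lit 1) (nat_lit 421) (nat_lit 388) (nat_lit 331)) (XT.nd (nat_lit 78) (nat_lit 0) (nat_lit 0) (XT.lf (nat_lit 684) (nat_lit 1112556241) (nat_lit 0) (nat_lit 854232014) (nat_lit 608) (nat_lit 854232014) (nat_lit 297) (nat_lit 1) (nat_lit 288) (nat_lit 1) (nat_lit 296) (nat_lit 1) (nat_lit 422) (nat_lit 388) (nat_lit 330)) (XT.lf (nat_lit 76) (nat_lit 308689735) (nat_lit 0) (nat_lit 2180717356) (nat_lit 684) (nat_lit 308689735) (nat_lit 289) (nat_lit 1) (nat_lit 288) (nat_lit 1) (nat_lit 297) (nat_lit 1) (nat_lit 423) (nat_lit 388) (nat_lit 329)))))) (XT.nd (nat_lit 312) (nat_lit 1672) (nat_lit 0) (XT.nd (nat_lit 156) (nat_lit 532) (nat_lit 0) (XT.nd (nat_lit 78) (nat_lit 684) (nat_lit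 0) (XT.lf (nat_lit 608) (nat_lit 117565224) (nat_lit 0) (nat_lit 1328888164) (nat_lit 532) (nat_lit 1328888164) (nat_lit 289) (nat_lit 1) (nat_lit 281) (nat_lit 1) (nat_lit 288) (nat_lit 1) (nat_lit 424) (nat_lit 388) (nat_lit 328)) (XT.lf (nat_lit 684) (nat_lit 2382148065) (nat_lit 0) (nat_lit 185385938) (nat_lit 608) (nat_lit 185385938) (nat_lit 281) (nat_lit 1) (nat_lit 272) (nat_lit 1) (nat_lit 280) (nat_lit 1) (nat_lit 425) (nat_lit 388) (nat_lit 327))) (XT.nd (nat_lit 78) (nat_lit 532) (nat_lit 0) (XT.lf (nat_lit 76) (nat_lit 933562551) (nat_lit 0) (nat_lit 863488570) (nat_lit 684) (nat_lit 933562551) (nat_lit 273) (nat_lit 1) (nat_lit 272) (nat_lit 1) (nat_lit 281) (nat_lit 1) (nat_lit 426) (nat_lit 388) (nat_lit 326)) (XT.lf (nat_lit 608) (nat_lit 1356519782) (nat_lit 0) (nat_lit 676056804) (nat_lit 532) (nat_lit 676056804) (nat_lit 273) (nat_lit 1) (nat_lit 265) (nat_lit 1) (nat_lit 272) (nat_lit 1) (nat_lit 427) (nat_lit 388)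 (nat_lit 325)))) (XT.nd (nat_lit 156) (nat_lit 1140) (nat_lit 0) (XT.nd (nat_lit 78) (nat_lit 532) (nat_lit 0) (XT.lf (nat_lit 76) (nat_lit 423471378) (nat_lit 0) (nat_lit 1839965191) (nat_lit 608) (nat_lit 423471378) (nat_lit 266) (nat_lit 1) (nat_lit 265) (nat_lit 1) (nat_lit 273) (nat_lit 1) (nat_lit 428) (nat_lit 388) (nat_lit 324)) (XT.lf (nat_lit 608) (nat_lit 335252404) (nat_lit 0) (nat_lit 1165059368) (nat_lit 532) (nat_lit 1165059368) (nat_lit 266) (nat_lit 1) (nat_lit 258) (nat_lit 1) (nat_lit 265) (nat_lit 1) (nat_lit 429) (nat_lit 388) (nat_lit 323))) (XT.nd (nat_lit 78) (nat_lit 532) (nat_lit 0) (XT.lf (nat_lit 608) (nat_lit 2476653505) (nat_lit 0) (nat_lit 83757821) (nat_lit 532) (nat_lit 83757821) (nat_lit 258) (nat_lit 1) (nat_lit 250) (nat_lit 1) (nat_lit 257) (nat_lit 1) (nat_lit 430) (nat_lit 388) (nat_lit 322)) (XT.nd (nat_lit 78) (nat_lit 532) (nat_lit 0) (XT.lf (nat_lit 76) (nat_lit 975411855) (nat_lit 0) (nat_lit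 672194890) (nat_lit 608) (nat_lit 975411855) (nat_lit 251) (nat_lit 1) (nat_lit 250) (nat_lit 1) (nat_lit 258) (nat_lit 1) (nat_lit 431) (nat_lit 388) (nat_lit 321)) (XT.lf (nat_lit 608) (nat_lit 1430881971) (nat_lit 0) (nat_lit 585657044) (nat_lit 532) (nat_lit 585657044) (nat_lit 251) (nat_lit 1) (nat_lit 243) (nat_lit 1) (nat_lit 250) (nat_lit 1) (nat_lit 432) (nat_lit 388) (nat_lit 320))))))) (XT.nd (nat_lit 702) (nat_lit 1748) (nat_lit 0) (XT.nd (nat_lit 312) (nat_lit 1444) (nat_lit 0) (XT.nd (nat_lit 156) (nat_lit 608) (nat_lit 0) (XT.nd (nat_lit 78) (nat_lit 456) (nat_lit 0) (XT.lf (nat_lit 76) (nat_lit 455829563) (nat_lit 0) (nat_lit 1669936869) (nat_lit 608) (nat_lit 455829563) (nat_lit 244) (nat_lit 1) (nat_lit 243) (nat_lit 1) (nat_lit 251) (nat_lit 1) (nat_lit 433) (nat_lit 388) (nat_lit 319)) (XT.lf (nat_lit 532) (nat_lit 391630696) (nat_lit 0) (nat_lit 1084776870) (nat_lit 456) (nat_lit 1084776870) (nat_lit 244) (nat_lit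 1) (nat_lit 237) (nat_lit 1) (nat_lit 243) (nat_lit 1) (nat_lit 434) (nat_lit 388) (nat_lit 318))) (XT.nd (nat_lit 78) (nat_lit 0) (nat_lit 0) (XT.lf (nat_lit 608) (nat_lit 2421090794) (nat_lit 0) (nat_lit 59999988) (nat_lit 532) (nat_lit 59999988) (nat_lit 237) (nat_lit 1) (nat_lit 229) (nat_lit 1) (nat_lit 236) (nat_lit 1) (nat_lit 435) (nat_lit 388) (nat_lit 317)) (XT.lf (nat_lit 76) (nat_lit 944372223) (nat_lit 0) (nat_lit 632282409) (nat_lit 608) (nat_lit 944372223) (nat_lit 230) (nat_lit 1) (nat_lit 229) (nat_lit 1) (nat_lit 237) (nat_lit 1) (nat_lit 436) (nat_lit 388) (nat_lit 316)))) (XT.nd (nat_lit 156) (nat_lit 988) (nat_lit 0) (XT.nd (nat_lit 78) (nat_lit 0) (nat_lit 0) (XT.lf (nat_lit 532) (nat_lit 1362676511) (nat_lit 0) (nat_lit 569299138) (nat_lit 456) (nat_lit 569299138) (nat_lit 230) (nat_lit 1) (nat_lit 223) (nat_lit 1) (nat_lit 229) (nat_lit 1) (nat_lit 437) (nat_lit 388) (nat_lit 315)) (XT.lf (nat_lit 76) (nat_lit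 418949642) (nat_lit 0) (nat_lit 1643833782) (nat_lit 532) (nat_lit 418949642) (nat_lit 224) (nat_lit 1) (nat_lit 223) (nat_lit 1) (nat_lit 230) (nat_lit 1) (nat_lit 438) (nat_lit 388) (nat_lit 314))) (XT.nd (nat_lit 78) (nat_lit 532) (nat_lit 0) (XT.lf (nat_lit 532) (nat_lit 312597112) (nat_lit 0) (nat_lit 1074882676) (nat_lit 456) (nat_lit 1074882676) (nat_lit 224) (nat_lit 1) (nat_lit 217) (nat_lit 1) (nat_lit 223) (nat_lit 1) (nat_lit 439) (nat_lit 388) (nat_lit 313)) (XT.nd (nat_lit 78) (nat_lit 0) (nat_lit 0) (XT.lf (nat_lit 532) (nat_lit 2240147838) (nat_lit 0) (nat_lit 101564982) (nat_lit 456) (nat_lit 101564982) (nat_lit 217) (nat_lit 1) (nat_lit 210) (nat_lit 1) (nat_lit 216) (nat_lit 1) (nat_lit 440) (nat_lit 388) (nat_lit 312)) (XT.lf (nat_lit 76) (nat_lit 852483386) (nat_lit 0) (nat_lit 719269893) (nat_lit 532) (nat_lit 852483386) (nat_lit 211) (nat_lit 1) (nat_lit 210) (nat_lit 1) (nat_lit 217) (nat_lit 1) (nat_lit 441) (nat_lit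 388) (nat_lit 311)))))) (XT.nd (nat_lit 312) (nat_lit 380) (nat_lit 0) (XT.nd (nat_lit 156) (nat_lit 912) (nat_lit 0) (XT.nd (nat_lit 78) (nat_lit 0) (nat_lit 0) (XT.lf (nat_lit 532) (nat_lit 1175547413) (nat_lit 0) (nat_lit 614964342) (nat_lit 456) (nat_lit 614964342) (nat_lit 211) (nat_lit 1) (nat_lit 204) (nat_lit 1) (nat_lit 210) (nat_lit 1) (nat_lit 442) (nat_lit 388) (nat_lit 310)) (XT.lf (nat_lit 76) (nat_lit 324361872) (nat_lit 0) (nat_lit 1738206991) (nat_lit 532) (nat_lit 324361872) (nat_lit 205) (nat_lit 1) (nat_lit 204) (nat_lit 1) (nat_lit 211) (nat_lit 1) (nat_lit 443) (nat_lit 388) (nat_lit 309))) (XT.nd (nat_lit 78) (nat_lit 532) (nat_lit 0) (XT.lf (nat_lit 456) (nat_lit 120794379) (nat_lit 0) (nat_lit 1123865201) (nat_lit 380) (nat_lit 1123865201) (nat_lit 205) (nat_lit 1) (nat_lit 199) (nat_lit 1) (nat_lit 204) (nat_lit 1) (nat_lit 444) (nat_lit 388) (nat_lit 308)) (XT.lf (nat_lit 532) (nat_lit 1955392730) (nat_lit 0)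 (nat_lit 197483856) (nat_lit 456) (nat_lit 197483856) (nat_lit 199) (nat_lit 1) (nat_lit 192) (nat_lit 1) (nat_lit 198) (nat_lit 1) (nat_lit 445) (nat_lit 388) (nat_lit 307)))) (XT.nd (nat_lit 156) (nat_lit 0) (nat_lit 0) (XT.nd (nat_lit 78) (nat_lit 380) (nat_lit 0) (XT.lf (nat_lit 76) (nat_lit 710261810) (nat_lit 0) (nat_lit 911759352) (nat_lit 532) (nat_lit 710261810) (nat_lit 193) (nat_lit 1) (nat_lit 192) (nat_lit 1) (nat_lit 199) (nat_lit 1) (nat_lit 446) (nat_lit 388) (nat_lit 306)) (XT.lf (nat_lit 456) (nat_lit 890143726) (nat_lit 0) (nat_lit 712149311) (nat_lit 380) (nat_lit 712149311) (nat_lit 193) (nat_lit 1) (nat_lit 187) (nat_lit 1) (nat_lit 192) (nat_lit 1) (nat_lit 447) (nat_lit 388) (nat_lit 305))) (XT.nd (nat_lit 52650) (nat_lit 0) (nat_lit 23560) (XT.lf (nat_lit 76) (nat_lit 182134222) (nat_lit 0) (nat_lit 1932567508) (nat_lit 456) (nat_lit 182134222) (nat_lit 188) (nat_lit 1) (nat_lit 187) (nat_lit 1) (nat_lit 193)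 (nat_lit 1) (nat_lit 448) (nat_lit 388) (nat_lit 304)) (XT.nd (nat_lit 78) (nat_lit 0) (nat_lit 0) (XT.lf (nat_lit 1900) (nat_lit 806096250) (nat_lit 0) (nat_lit 812837090) (nat_lit 1900) (nat_lit 806096250) (nat_lit 522) (nat_lit 1) (nat_lit 497) (nat_lit 0) (nat_lit 522) (nat_lit 0) (nat_lit 362) (nat_lit 389) (nat_lit 389)) (XT.lf (nat_lit 1900) (nat_lit 3187425773) (nat_lit 76) (nat_lit 807489477) (nat_lit 0) (nat_lit 807489477) (nat_lit 522) (nat_lit 1) (nat_lit 498) (nat_lit 1) (nat_lit 497) (nat_lit 0) (nat_lit 363) (nat_lit 389) (nat_lit 388))))))))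
noncomputable def ec51 : XT := (XT.nd (nat_lit 1404) (nat_lit 7524) (nat_lit 0) (XT.nd (nat_lit 702) (nat_lit 0) (nat_lit 304) (XT.nd (nat_lit 312) (nat_lit 0) (nat_lit 152) (XT.nd (nat_lit 156) (nat_lit 0) (nat_lit 76) (XT.nd (nat_lit 78) (nat_lit 0) (nat_lit 0) (XT.lf (nat_lit 1900) (nat_lit 1565041227) (nat_lit 0) (nat_lit 1625188323) (nat_lit 1824) (nat_lit 1565041227) (nat_lit 523) (nat_lit 1) (nat_lit 498) (nat_lit 1) (nat_lit 522) (nat_lit 1) (nat_lit 364) (nat_lit 389) (nat_lit 387)) (XT.lf (nat_lit 1900) (nat_lit 3063171485) (nat_lit 76) (nat_lit 822839944) (nat_lit 0) (nat_lit 822839944) (nat_lit 523) (nat_lit 1) (nat_lit 499) (nat_lit 1) (nat_lit 498) (nat_lit 1) (nat_lit 365) (nat_lit 389) (nat_lit 386))) (XT.nd (nat_lit 78) (nat_lit 0) (nat_lit 0) (XT.lf (nat_lit 1900) (nat_lit 1488643296) (nat_lit 0) (nat_lit 1685657798) (nat_lit 1824) (nat_lit 1488643296) (nat_lit 524) (nat_lit 1) (nat_lit 499) (nat_lit 1) (nat_lit 523)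 (nat_lit 1) (nat_lit 366) (nat_lit 389) (nat_lit 385)) (XT.lf (nat_lit 1900) (nat_lit 2881995862) (nat_lit 76) (nat_lit 867862117) (nat_lit 0) (nat_lit 867862117) (nat_lit 524) (nat_lit 1) (nat_lit 500) (nat_lit 1) (nat_lit 499) (nat_lit 1) (nat_lit 367) (nat_lit 389) (nat_lit 384)))) (XT.nd (nat_lit 156) (nat_lit 0) (nat_lit 76) (XT.nd (nat_lit 78) (nat_lit 0) (nat_lit 0) (XT.lf (nat_lit 1900) (nat_lit 1384743756) (nat_lit 0) (nat_lit 1803520804) (nat_lit 1824) (nat_lit 1384743756) (nat_lit 525) (nat_lit 1) (nat_lit 500) (nat_lit 1) (nat_lit 524) (nat_lit 1) (nat_lit 368) (nat_lit 389) (nat_lit 383)) (XT.lf (nat_lit 1900) (nat_lit 2647319942) (nat_lit 76) (nat_lit 940810322) (nat_lit 0) (nat_lit 940810322) (nat_lit 525) (nat_lit 1) (nat_lit 501) (nat_lit 1) (nat_lit 500) (nat_lit 1) (nat_lit 369) (nat_lit 389) (nat_lit 382))) (XT.nd (nat_lit 78) (nat_lit 0) (nat_lit 0) (XT.lf (nat_lit 1900) (nat_lit 1255007946) (nat_lit 0) (nat_lit 1975377274)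 (nat_lit 1824) (nat_lit 1255007946) (nat_lit 526) (nat_lit 1) (nat_lit 501) (nat_lit 1) (nat_lit 525) (nat_lit 1) (nat_lit 370) (nat_lit 389) (nat_lit 381)) (XT.nd (nat_lit 78) (nat_lit 0) (nat_lit 76) (XT.lf (nat_lit 1900) (nat_lit 2362408177) (nat_lit 76) (nat_lit 1040018309) (nat_lit 0) (nat_lit 1040018309) (nat_lit 526) (nat_lit 1) (nat_lit 502) (nat_lit 1) (nat_lit 501) (nat_lit 1) (nat_lit 371) (nat_lit 389) (nat_lit 380)) (XT.lf (nat_lit 1900) (nat_lit 1101024821) (nat_lit 0) (nat_lit 2197982141) (nat_lit 1824) (nat_lit 1101024821) (nat_lit 527) (nat_lit 1) (nat_lit 502) (nat_lit 1) (nat_lit 526) (nat_lit 1) (nat_lit 372) (nat_lit 389) (nat_lit 379)))))) (XT.nd (nat_lit 312) (nat_lit 0) (nat_lit 152) (XT.nd (nat_lit 156) (nat_lit 0) (nat_lit 76) (XT.nd (nat_lit 78) (nat_lit 0) (nat_lit 76) (XT.lf (nat_lit 1900) (nat_lit 2030374984) (nat_lit 76) (nat_lit 1163895938) (nat_lit 0) (nat_lit 1163895938) (nat_lit 527) (nat_lit 1) (nat_lit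 503) (nat_lit 1) (nat_lit 502) (nat_lit 1) (nat_lit 373) (nat_lit 389) (nat_lit 378)) (XT.lf (nat_lit 1900) (nat_lit 924310152) (nat_lit 0) (nat_lit 2468238865) (nat_lit 1824) (nat_lit 924310152) (nat_lit 528) (nat_lit 1) (nat_lit 503) (nat_lit 1) (nat_lit 527) (nat_lit 1) (nat_lit 374) (nat_lit 389) (nat_lit 377))) (XT.nd (nat_lit 78) (nat_lit 0) (nat_lit 76) (XT.lf (nat_lit 1900) (nat_lit 1654191028) (nat_lit 76) (nat_lit 1310926002) (nat_lit 0) (nat_lit 1310926002) (nat_lit 528) (nat_lit 1) (nat_lit 504) (nat_lit 1) (nat_lit 503) (nat_lit 1) (nat_lit 375) (nat_lit 389) (nat_lit 376)) (XT.lf (nat_lit 1900) (nat_lit 726309591) (nat_lit 0) (nat_lit 2783193226) (nat_lit 1824) (nat_lit 726309591) (nat_lit 529) (nat_lit 1) (nat_lit 504) (nat_lit 1) (nat_lit 528) (nat_lit 1) (nat_lit 376) (nat_lit 389) (nat_lit 375)))) (XT.nd (nat_lit 156) (nat_lit 0) (nat_lit 76) (XT.nd (nat_lit 78) (nat_lit 0) (nat_lit 76) (XT.lf (nat_lit 1900) (nat_lit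 1236689244) (nat_lit 76) (nat_lit 1479661174) (nat_lit 0) (nat_lit 1479661174) (nat_lit 529) (nat_lit 1) (nat_lit 505) (nat_lit 1) (nat_lit 504) (nat_lit 1) (nat_lit 377) (nat_lit 389) (nat_lit 374)) (XT.lf (nat_lit 1900) (nat_lit 508401616) (nat_lit 0) (nat_lit 3140027364) (nat_lit 1824) (nat_lit 508401616) (nat_lit 530) (nat_lit 1) (nat_lit 505) (nat_lit 1) (nat_lit 529) (nat_lit 1) (nat_lit 378) (nat_lit 389) (nat_lit 373))) (XT.nd (nat_lit 78) (nat_lit 0) (nat_lit 76) (XT.lf (nat_lit 1900) (nat_lit 780570635) (nat_lit 76) (nat_lit 1668721079) (nat_lit 0) (nat_lit 1668721079) (nat_lit 530) (nat_lit 1) (nat_lit 506) (nat_lit 1) (nat_lit 505) (nat_lit 1) (nat_lit 379) (nat_lit 389) (nat_lit 372)) (XT.nd (nat_lit 78) (nat_lit 0) (nat_lit 0) (XT.lf (nat_lit 1900) (nat_lit 271900354) (nat_lit 0) (nat_lit 3536054058) (nat_lit 1824) (nat_lit 271900354) (nat_lit 531) (nat_lit 1) (nat_lit 506) (nat_lit 1) (nat_lit 530) (nat_lit 1) (nat_lit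 380) (nat_lit 389) (nat_lit 371)) (XT.lf (nat_lit 1900) (nat_lit 288409815) (nat_lit 76) (nat_lit 1876789486) (nat_lit 0) (nat_lit 1876789486) (nat_lit 531) (nat_lit 1) (nat_lit 507) (nat_lit 1) (nat_lit 506) (nat_lit 1) (nat_lit 381) (nat_lit 389) (nat_lit 370))))))) (XT.nd (nat_lit 702) (nat_lit 4408) (nat_lit 0) (XT.nd (nat_lit 312) (nat_lit 1900) (nat_lit 0) (XT.nd (nat_lit 156) (nat_lit 0) (nat_lit 0) (XT.nd (nat_lit 78) (nat_lit 1900) (nat_lit 0) (XT.lf (nat_lit 1900) (nat_lit 18058293) (nat_lit 0) (nat_lit 3968711239) (nat_lit 1824) (nat_lit 18058293) (nat_lit 532) (nat_lit 1) (nat_lit 507) (nat_lit 1) (nat_lit 531) (nat_lit 1) (nat_lit 382) (nat_lit 389) (nat_lit 369)) (XT.lf (nat_lit 1976) (nat_lit 1866812915) (nat_lit 0) (nat_lit 234226903) (nat_lit 1900) (nat_lit 1866812915) (nat_lit 508) (nat_lit 1) (nat_lit 482) (nat_lit 1) (nat_lit 507) (nat_lit 1) (nat_lit 383) (nat_lit 389) (nat_lit 368))) (XT.nd (nat_lit 78) (nat_lit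 0) (nat_lit 76) (XT.lf (nat_lit 1976) (nat_lit 3431015859) (nat_lit 76) (nat_lit 250273671) (nat_lit 0) (nat_lit 250273671) (nat_lit 508) (nat_lit 1) (nat_lit 483) (nat_lit 1) (nat_lit 482) (nat_lit 1) (nat_lit 384) (nat_lit 389) (nat_lit 367)) (XT.lf (nat_lit 1976) (nat_lit 1555808728) (nat_lit 0) (nat_lit 783922244) (nat_lit 1900) (nat_lit 1555808728) (nat_lit 509) (nat_lit 1) (nat_lit 483) (nat_lit 1) (nat_lit 508) (nat_lit 1) (nat_lit 385) (nat_lit 389) (nat_lit 366)))) (XT.nd (nat_lit 156) (nat_lit 1976) (nat_lit 0) (XT.nd (nat_lit 78) (nat_lit 0) (nat_lit 76) (XT.lf (nat_lit 1976) (nat_lit 2793324384) (nat_lit 76) (nat_lit 533398516) (nat_lit 0) (nat_lit 533398516) (nat_lit 509) (nat_lit 1) (nat_lit 484) (nat_lit 1) (nat_lit 483) (nat_lit 1) (nat_lit 386) (nat_lit 389) (nat_lit 365)) (XT.lf (nat_lit 76) (nat_lit 1231386757) (nat_lit 0) (nat_lit 1362261372) (nat_lit 1900) (nat_lit 1231386757) (nat_lit 485) (nat_lit 1) (nat_lit 484)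 (nat_lit 1) (nat_lit 509) (nat_lit 1) (nat_lit 387) (nat_lit 389) (nat_lit 364))) (XT.nd (nat_lit 78) (nat_lit 912) (nat_lit 0) (XT.lf (nat_lit 1216) (nat_lit 2129741791) (nat_lit 0) (nat_lit 830359404) (nat_lit 1140) (nat_lit 830359404) (nat_lit 485) (nat_lit 1) (nat_lit 469) (nat_lit 1) (nat_lit 484) (nat_lit 1) (nat_lit 388) (nat_lit 389) (nat_lit 363)) (XT.nd (nat_lit 78) (nat_lit 912) (nat_lit 0) (XT.lf (nat_lit 76) (nat_lit 894567925) (nat_lit 0) (nat_lit 1967151834) (nat_lit 1216) (nat_lit 894567925) (nat_lit 470) (nat_lit 1) (nat_lit 469) (nat_lit 1) (nat_lit 485) (nat_lit 1) (nat_lit 389) (nat_lit 389) (nat_lit 362)) (XT.lf (nat_lit 988) (nat_lit 1442266668) (nat_lit 0) (nat_lit 1140132198) (nat_lit 912) (nat_lit 1140132198) (nat_lit 470) (nat_lit 1) (nat_lit 457) (nat_lit 1) (nat_lit 469) (nat_lit 1) (nat_lit 390) (nat_lit 389) (nat_lit 361)))))) (XT.nd (nat_lit 390) (nat_lit 1672) (nat_lit 0) (XT.nd (nat_lit 156) (nat_lit 1824)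 (nat_lit 0) (XT.nd (nat_lit 78) (nat_lit 912) (nat_lit 0) (XT.lf (nat_lit 76) (nat_lit 546323704) (nat_lit 0) (nat_lit 2596601649) (nat_lit 988) (nat_lit 546323704) (nat_lit 458) (nat_lit 1) (nat_lit 457) (nat_lit 1) (nat_lit 470) (nat_lit 1) (nat_lit 391) (nat_lit 389) (nat_lit 360)) (XT.lf (nat_lit 988) (nat_lit 732800522) (nat_lit 0) (nat_lit 1461742078) (nat_lit 912) (nat_lit 1461742078) (nat_lit 458) (nat_lit 1) (nat_lit 445) (nat_lit 1) (nat_lit 457) (nat_lit 1) (nat_lit 392) (nat_lit 389) (nat_lit 359))) (XT.nd (nat_lit 78) (nat_lit 1824) (nat_lit 0) (XT.lf (nat_lit 76) (nat_lit 187578236) (nat_lit 0) (nat_lit 3248715032) (nat_lit 988) (nat_lit 187578236) (nat_lit 446) (nat_lit 1) (nat_lit 445) (nat_lit 1) (nat_lit 458) (nat_lit 1) (nat_lit 393) (nat_lit 389) (nat_lit 358)) (XT.nd (nat_lit 78) (nat_lit 988) (nat_lit 0) (XT.lf (nat_lit 912) (nat_lit 3151928) (nat_lit 0) (nat_lit 1794261437) (nat_lit 836) (nat_lit 1794261437) (nat_lit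 446) (nat_lit 1) (nat_lit 434) (nat_lit 1) (nat_lit 445) (nat_lit 1) (nat_lit 394) (nat_lit 389) (nat_lit 357)) (XT.lf (nat_lit 988) (nat_lit 3200814307) (nat_lit 0) (nat_lit 179600236) (nat_lit 912) (nat_lit 179600236) (nat_lit 434) (nat_lit 1) (nat_lit 421) (nat_lit 1) (nat_lit 433) (nat_lit 1) (nat_lit 395) (nat_lit 389) (nat_lit 356))))) (XT.nd (nat_lit 156) (nat_lit 836) (nat_lit 0) (XT.nd (nat_lit 78) (nat_lit 836) (nat_lit 0) (XT.lf (nat_lit 76) (nat_lit 1396685148) (nat_lit 0) (nat_lit 735189206) (nat_lit 988) (nat_lit 1396685148) (nat_lit 422) (nat_lit 1) (nat_lit 421) (nat_lit 1) (nat_lit 434) (nat_lit 1) (nat_lit 396) (nat_lit 389) (nat_lit 355)) (XT.lf (nat_lit 912) (nat_lit 2389078613) (nat_lit 0) (nat_lit 554273772) (nat_lit 836) (nat_lit 554273772) (nat_lit 422) (nat_lit 1) (nat_lit 410) (nat_lit 1) (nat_lit 421) (nat_lit 1) (nat_lit 397) (nat_lit 389) (nat_lit 354))) (XT.nd (nat_lit 78) (nat_lit 836) (nat_lit 0) (XT.lf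 (nat_lit 76) (nat_lit 988446253) (nat_lit 0) (nat_lit 1490096614) (nat_lit 912) (nat_lit 988446253) (nat_lit 411) (nat_lit 1) (nat_lit 410) (nat_lit 1) (nat_lit 422) (nat_lit 1) (nat_lit 398) (nat_lit 389) (nat_lit 353)) (XT.nd (nat_lit 78) (nat_lit 0) (nat_lit 0) (XT.lf (nat_lit 912) (nat_lit 1562985211) (nat_lit 0) (nat_lit 936887687) (nat_lit 836) (nat_lit 936887687) (nat_lit 411) (nat_lit 1) (nat_lit 399) (nat_lit 1) (nat_lit 410) (nat_lit 1) (nat_lit 399) (nat_lit 389) (nat_lit 352)) (XT.lf (nat_lit 76) (nat_lit 573421425) (nat_lit 0) (nat_lit 2260078961) (nat_lit 912) (nat_lit 573421425) (nat_lit 400) (nat_lit 1) (nat_lit 399) (nat_lit 1) (nat_lit 411) (nat_lit 1) (nat_lit 400) (nat_lit 389) (nat_lit 351))))))))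
noncomputable def ec52 : XT := (XT.nd (nat_lit 1404) (nat_lit 5548) (nat_lit 0) (XT.nd (nat_lit 702) (nat_lit 4028) (nat_lit 0) (XT.nd (nat_lit 312) (nat_lit 1444) (nat_lit 0) (XT.nd (nat_lit 156) (nat_lit 1596) (nat_lit 0) (XT.nd (nat_lit 78) (nat_lit 0) (nat_lit 0) (XT.lf (nat_lit 836) (nat_lit 723991203) (nat_lit 0) (nat_lit 1326692679) (nat_lit 760) (nat_lit 1326692679) (nat_lit 400) (nat_lit 1) (nat_lit 389) (nat_lit 1) (nat_lit 399) (nat_lit 1) (nat_lit 401) (nat_lit 389) (nat_lit 350)) (XT.lf (nat_lit 76) (nat_lit 152318060) (nat_lit 0) (nat_lit 3043680497) (nat_lit 836) (nat_lit 152318060) (nat_lit 390) (nat_lit 1) (nat_lit 389) (nat_lit 1) (nat_lit 400) (nat_lit 1) (nat_lit 402) (nat_lit 389) (nat_lit 349))) (XT.nd (nat_lit 78) (nat_lit 760) (nat_lit 0) (XT.lf (nat_lit 76) (nat_lit 1597278116) (nat_lit 0) (nat_lit 124861185) (nat_lit 836) (nat_lit 1597278116) (nat_lit 379) (nat_lit 1) (nat_lit 378) (nat_lit 1) (nat_lit 389) (nat_lit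 1) (nat_lit 403) (nat_lit 389) (nat_lit 348)) (XT.lf (nat_lit 836) (nat_lit 2746213497) (nat_lit 0) (nat_lit 272388719) (nat_lit 760) (nat_lit 272388719) (nat_lit 379) (nat_lit 1) (nat_lit 368) (nat_lit 1) (nat_lit 378) (nat_lit 1) (nat_lit 404) (nat_lit 389) (nat_lit 347)))) (XT.nd (nat_lit 156) (nat_lit 684) (nat_lit 0) (XT.nd (nat_lit 78) (nat_lit 760) (nat_lit 0) (XT.lf (nat_lit 76) (nat_lit 1144237476) (nat_lit 0) (nat_lit 974290279) (nat_lit 836) (nat_lit 1144237476) (nat_lit 369) (nat_lit 1) (nat_lit 368) (nat_lit 1) (nat_lit 379) (nat_lit 1) (nat_lit 405) (nat_lit 389) (nat_lit 346)) (XT.lf (nat_lit 836) (nat_lit 1833301868) (nat_lit 0) (nat_lit 700832710) (nat_lit 760) (nat_lit 700832710) (nat_lit 369) (nat_lit 1) (nat_lit 358) (nat_lit 1) (nat_lit 368) (nat_lit 1) (nat_lit 406) (nat_lit 389) (nat_lit 345))) (XT.nd (nat_lit 78) (nat_lit 684) (nat_lit 0) (XT.lf (nat_lit 76) (nat_lit 687456337) (nat_lit 0) (nat_lit 1832563670)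 (nat_lit 836) (nat_lit 687456337) (nat_lit 359) (nat_lit 1) (nat_lit 358) (nat_lit 1) (nat_lit 369) (nat_lit 1) (nat_lit 407) (nat_lit 389) (nat_lit 344)) (XT.nd (nat_lit 78) (nat_lit 0) (nat_lit 0) (XT.lf (nat_lit 760) (nat_lit 913455165) (nat_lit 0) (nat_lit 1133416437) (nat_lit 684) (nat_lit 1133416437) (nat_lit 359) (nat_lit 1) (nat_lit 349) (nat_lit 1) (nat_lit 358) (nat_lit 1) (nat_lit 408) (nat_lit 389) (nat_lit 343)) (XT.lf (nat_lit 76) (nat_lit 227498234) (nat_lit 0) (nat_lit 2698517754) (nat_lit 760) (nat_lit 227498234) (nat_lit 350) (nat_lit 1) (nat_lit 349) (nat_lit 1) (nat_lit 359) (nat_lit 1) (nat_lit 409) (nat_lit 389) (nat_lit 342)))))) (XT.nd (nat_lit 312) (nat_lit 1900) (nat_lit 0) (XT.nd (nat_lit 156) (nat_lit 684) (nat_lit 0) (XT.nd (nat_lit 78) (nat_lit 684) (nat_lit 0) (XT.lf (nat_lit 76) (nat_lit 1557424896) (nat_lit 0) (nat_lit 12065896) (nat_lit 760) (nat_lit 1557424896) (nat_lit 340) (nat_lit 1) (nat_lit 339)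 (nat_lit 1) (nat_lit 349) (nat_lit 1) (nat_lit 410) (nat_lit 389) (nat_lit 341)) (XT.lf (nat_lit 760) (nat_lit 2633607605) (nat_lit 0) (nat_lit 233556649) (nat_lit 684) (nat_lit 233556649) (nat_lit 340) (nat_lit 1) (nat_lit 330) (nat_lit 1) (nat_lit 339) (nat_lit 1) (nat_lit 411) (nat_lit 389) (nat_lit 340))) (XT.nd (nat_lit 78) (nat_lit 684) (nat_lit 0) (XT.lf (nat_lit 76) (nat_lit 1072180213) (nat_lit 0) (nat_lit 930337328) (nat_lit 760) (nat_lit 1072180213) (nat_lit 331) (nat_lit 1) (nat_lit 330) (nat_lit 1) (nat_lit 340) (nat_lit 1) (nat_lit 412) (nat_lit 389) (nat_lit 339)) (XT.lf (nat_lit 760) (nat_lit 1658585692) (nat_lit 0) (nat_lit 695239581) (nat_lit 684) (nat_lit 695239581) (nat_lit 331) (nat_lit 1) (nat_lit 321) (nat_lit 1) (nat_lit 330) (nat_lit 1) (nat_lit 413) (nat_lit 389) (nat_lit 338)))) (XT.nd (nat_lit 156) (nat_lit 1292) (nat_lit 0) (XT.nd (nat_lit 78) (nat_lit 608) (nat_lit 0) (XT.lf (nat_lit 76) (nat_lit 585675970)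 (nat_lit 0) (nat_lit 1852367246) (nat_lit 760) (nat_lit 585675970) (nat_lit 322) (nat_lit 1) (nat_lit 321) (nat_lit 1) (nat_lit 331) (nat_lit 1) (nat_lit 414) (nat_lit 389) (nat_lit 337)) (XT.lf (nat_lit 684) (nat_lit 681485164) (nat_lit 0) (nat_lit 1158573187) (nat_lit 608) (nat_lit 1158573187) (nat_lit 322) (nat_lit 1) (nat_lit 313) (nat_lit 1) (nat_lit 321) (nat_lit 1) (nat_lit 415) (nat_lit 389) (nat_lit 336))) (XT.nd (nat_lit 78) (nat_lit 1292) (nat_lit 0) (XT.lf (nat_lit 76) (nat_lit 98355236) (nat_lit 0) (nat_lit 2777236840) (nat_lit 684) (nat_lit 98355236) (nat_lit 314) (nat_lit 1) (nat_lit 313) (nat_lit 1) (nat_lit 322) (nat_lit 1) (nat_lit 416) (nat_lit 389) (nat_lit 335)) (XT.nd (nat_lit 78) (nat_lit 608) (nat_lit 0) (XT.lf (nat_lit 76) (nat_lit 1328206570) (nat_lit 0) (nat_lit 292937146) (nat_lit 684) (nat_lit 1328206570) (nat_lit 305) (nat_lit 1) (nat_lit 304) (nat_lit 1) (nat_lit 313) (nat_lit 1) (nat_lit 417) (nat_lit 389)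 (nat_lit 334)) (XT.lf (nat_lit 684) (nat_lit 2151543023) (nat_lit 0) (nat_lit 386802244) (nat_lit 608) (nat_lit 386802244) (nat_lit 305) (nat_lit 1) (nat_lit 296) (nat_lit 1) (nat_lit 304) (nat_lit 1) (nat_lit 418) (nat_lit 389) (nat_lit 333))))))) (XT.nd (nat_lit 702) (nat_lit 2660) (nat_lit 0) (XT.nd (nat_lit 312) (nat_lit 1748) (nat_lit 0) (XT.nd (nat_lit 156) (nat_lit 532) (nat_lit 0) (XT.nd (nat_lit 78) (nat_lit 608) (nat_lit 0) (XT.lf (nat_lit 76) (nat_lit 821161845) (nat_lit 0) (nat_lit 1258816227) (nat_lit 684) (nat_lit 821161845) (nat_lit 297) (nat_lit 1) (nat_lit 296) (nat_lit 1) (nat_lit 305) (nat_lit 1) (nat_lit 419) (nat_lit 389) (nat_lit 332)) (XT.lf (nat_lit 684) (nat_lit 1134807365) (nat_lit 0) (nat_lit 871316654) (nat_lit 608) (nat_lit 871316654) (nat_lit 297) (nat_lit 1) (nat_lit 288) (nat_lit 1) (nat_lit 296) (nat_lit 1) (nat_lit 420) (nat_lit 389) (nat_lit 331))) (XT.nd (nat_lit 78) (nat_lit 532) (nat_lit 0) (XT.lf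 (nat_lit 76) (nat_lit 314863530) (nat_lit 0) (nat_lit 2224331703) (nat_lit 684) (nat_lit 314863530) (nat_lit 289) (nat_lit 1) (nat_lit 288) (nat_lit 1) (nat_lit 297) (nat_lit 1) (nat_lit 421) (nat_lit 389) (nat_lit 330)) (XT.lf (nat_lit 608) (nat_lit 119916529) (nat_lit 0) (nat_lit 1355465928) (nat_lit 532) (nat_lit 1355465928) (nat_lit 289) (nat_lit 1) (nat_lit 281) (nat_lit 1) (nat_lit 288) (nat_lit 1) (nat_lit 422) (nat_lit 389) (nat_lit 329)))) (XT.nd (nat_lit 156) (nat_lit 1064) (nat_lit 0) (XT.nd (nat_lit 78) (nat_lit 0) (nat_lit 0) (XT.lf (nat_lit 684) (nat_lit 2429791026) (nat_lit 0) (nat_lit 189093657) (nat_lit 608) (nat_lit 189093657) (nat_lit 281) (nat_lit 1) (nat_lit 272) (nat_lit 1) (nat_lit 280) (nat_lit 1) (nat_lit 423) (nat_lit 389) (nat_lit 328)) (XT.lf (nat_lit 76) (nat_lit 952233802) (nat_lit 0) (nat_lit 880758341) (nat_lit 684) (nat_lit 952233802) (nat_lit 273) (nat_lit 1) (nat_lit 272) (nat_lit 1) (nat_lit 281) (nat_lit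 1) (nat_lit 424) (nat_lit 389) (nat_lit 327))) (XT.nd (nat_lit 78) (nat_lit 532) (nat_lit 0) (XT.lf (nat_lit 608) (nat_lit 1383650178) (nat_lit 0) (nat_lit 689577940) (nat_lit 532) (nat_lit 689577940) (nat_lit 273) (nat_lit 1) (nat_lit 265) (nat_lit 1) (nat_lit 272) (nat_lit 1) (nat_lit 425) (nat_lit 389) (nat_lit 326)) (XT.nd (nat_lit 78) (nat_lit 532) (nat_lit 0) (XT.lf (nat_lit 76) (nat_lit 431940806) (nat_lit 0) (nat_lit 1876764495) (nat_lit 608) (nat_lit 431940806) (nat_lit 266) (nat_lit 1) (nat_lit 265) (nat_lit 1) (nat_lit 273) (nat_lit 1) (nat_lit 426) (nat_lit 389) (nat_lit 325)) (XT.lf (nat_lit 608) (nat_lit 341957452) (nat_lit 0) (nat_lit 1188360555) (nat_lit 532) (nat_lit 1188360555) (nat_lit 266) (nat_lit 1) (nat_lit 258) (nat_lit 1) (nat_lit 265) (nat_lit 1) (nat_lit 427) (nat_lit 389) (nat_lit 324)))))) (XT.nd (nat_lit 312) (nat_lit 1520) (nat_lit 0) (XT.nd (nat_lit 156) (nat_lit 532) (nat_lit 0) (XT.nd (nat_lit 78) (nat_lit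 0) (nat_lit 0) (XT.lf (nat_lit 608) (nat_lit 2526186575) (nat_lit 0) (nat_lit 85432978) (nat_lit 532) (nat_lit 85432978) (nat_lit 258) (nat_lit 1) (nat_lit 250) (nat_lit 1) (nat_lit 257) (nat_lit 1) (nat_lit 428) (nat_lit 389) (nat_lit 323)) (XT.lf (nat_lit 76) (nat_lit 994920092) (nat_lit 0) (nat_lit 685638788) (nat_lit 608) (nat_lit 994920092) (nat_lit 251) (nat_lit 1) (nat_lit 250) (nat_lit 1) (nat_lit 258) (nat_lit 1) (nat_lit 429) (nat_lit 389) (nat_lit 322))) (XT.nd (nat_lit 78) (nat_lit 0) (nat_lit 0) (XT.lf (nat_lit 608) (nat_lit 1459499610) (nat_lit 0) (nat_lit 597370184) (nat_lit 532) (nat_lit 597370184) (nat_lit 251) (nat_lit 1) (nat_lit 243) (nat_lit 1) (nat_lit 250) (nat_lit 1) (nat_lit 430) (nat_lit 389) (nat_lit 321)) (XT.lf (nat_lit 76) (nat_lit 464946154) (nat_lit 0) (nat_lit 1703335606) (nat_lit 608) (nat_lit 464946154) (nat_lit 244) (nat_lit 1) (nat_lit 243) (nat_lit 1) (nat_lit 251) (nat_lit 1) (nat_lit 431) (nat_lit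 389) (nat_lit 320)))) (XT.nd (nat_lit 156) (nat_lit 456) (nat_lit 0) (XT.nd (nat_lit 78) (nat_lit 608) (nat_lit 0) (XT.lf (nat_lit 532) (nat_lit 399463309) (nat_lit 0) (nat_lit 1106472407) (nat_lit 456) (nat_lit 1106472407) (nat_lit 244) (nat_lit 1) (nat_lit 237) (nat_lit 1) (nat_lit 243) (nat_lit 1) (nat_lit 432) (nat_lit 389) (nat_lit 319)) (XT.lf (nat_lit 608) (nat_lit 2469512610) (nat_lit 0) (nat_lit 61199988) (nat_lit 532) (nat_lit 61199988) (nat_lit 237) (nat_lit 1) (nat_lit 229) (nat_lit 1) (nat_lit 236) (nat_lit 1) (nat_lit 433) (nat_lit 389) (nat_lit 318))) (XT.nd (nat_lit 78) (nat_lit 456) (nat_lit 0) (XT.lf (nat_lit 76) (nat_lit 963259668) (nat_lit 0) (nat_lit 644928058) (nat_lit 608) (nat_lit 963259668) (nat_lit 230) (nat_lit 1) (nat_lit 229) (nat_lit 1) (nat_lit 237) (nat_lit 1) (nat_lit 434) (nat_lit 389) (nat_lit 317)) (XT.nd (nat_lit 78) (nat_lit 0) (nat_lit 0) (XT.lf (nat_lit 532) (nat_lit 1389930041) (nat_lit 0) (nat_lit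 580685121) (nat_lit 456) (nat_lit 580685121) (nat_lit 230) (nat_lit 1) (nat_lit 223) (nat_lit 1) (nat_lit 229) (nat_lit 1) (nat_lit 435) (nat_lit 389) (nat_lit 316)) (XT.lf (nat_lit 76) (nat_lit 427328635) (nat_lit 0) (nat_lit 1676710458) (nat_lit 532) (nat_lit 427328635) (nat_lit 224) (nat_lit 1) (nat_lit 223) (nat_lit 1) (nat_lit 230) (nat_lit 1) (nat_lit 436) (nat_lit 389) (nat_lit 315))))))))
noncomputable def ec53 : XT := (XT.nd (nat_lit 53820) (nat_lit 0) (nat_lit 23256) (XT.nd (nat_lit 702) (nat_lit 836) (nat_lit 0) (XT.nd (nat_lit 312) (nat_lit 1292) (nat_lit 0) (XT.nd (nat_lit 156) (nat_lit 456) (nat_lit 0) (XT.nd (nat_lit 78) (nat_lit 532) (nat_lit 0) (XT.lf (nat_lit 532) (nat_lit 318849054) (nat_lit 0) (nat_lit 1096380329) (nat_lit 456) (nat_lit 1096380329) (nat_lit 224) (nat_lit 1) (nat_lit 217) (nat_lit 1) (nat_lit 223) (nat_lit 1) (nat_lit 437) (nat_lit 389) (nat_lit 314)) (XT.lf (nat_lit 532) (nat_lit 2284950795) (nat_lit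 0) (nat_lit 103596282) (nat_lit 456) (nat_lit 103596282) (nat_lit 217) (nat_lit 1) (nat_lit 210) (nat_lit 1) (nat_lit 216) (nat_lit 1) (nat_lit 438) (nat_lit 389) (nat_lit 313))) (XT.nd (nat_lit 78) (nat_lit 456) (nat_lit 0) (XT.lf (nat_lit 76) (nat_lit 869533053) (nat_lit 0) (nat_lit 733655291) (nat_lit 532) (nat_lit 869533053) (nat_lit 211) (nat_lit 1) (nat_lit 210) (nat_lit 1) (nat_lit 217) (nat_lit 1) (nat_lit 439) (nat_lit 389) (nat_lit 312)) (XT.lf (nat_lit 532) (nat_lit 1199058362) (nat_lit 0) (nat_lit 627263629) (nat_lit 456) (nat_lit 627263629) (nat_lit 211) (nat_lit 1) (nat_lit 204) (nat_lit 1) (nat_lit 210) (nat_lit 1) (nat_lit 440) (nat_lit 389) (nat_lit 311)))) (XT.nd (nat_lit 156) (nat_lit 912) (nat_lit 0) (XT.nd (nat_lit 78) (nat_lit 380) (nat_lit 0) (XT.lf (nat_lit 76) (nat_lit 330849109) (nat_lit 0) (nat_lit 1772971131) (nat_lit 532) (nat_lit 330849109) (nat_lit 205) (nat_lit 1) (nat_lit 204) (nat_lit 1) (nat_lit 211)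 (nat_lit 1) (nat_lit 441) (nat_lit 389) (nat_lit 310)) (XT.lf (nat_lit 456) (nat_lit 123210267) (nat_lit 0) (nat_lit 1146342505) (nat_lit 380) (nat_lit 1146342505) (nat_lit 205) (nat_lit 1) (nat_lit 199) (nat_lit 1) (nat_lit 204) (nat_lit 1) (nat_lit 442) (nat_lit 389) (nat_lit 309))) (XT.nd (nat_lit 78) (nat_lit 380) (nat_lit 0) (XT.lf (nat_lit 532) (nat_lit 1994500584) (nat_lit 0) (nat_lit 201433533) (nat_lit 456) (nat_lit 201433533) (nat_lit 199) (nat_lit 1) (nat_lit 192) (nat_lit 1) (nat_lit 198) (nat_lit 1) (nat_lit 443) (nat_lit 389) (nat_lit 308)) (XT.nd (nat_lit 78) (nat_lit 380) (nat_lit 0) (XT.lf (nat_lit 76) (nat_lit 724467047) (nat_lit 0) (nat_lit 929994539) (nat_lit 532) (nat_lit 724467047) (nat_lit 193) (nat_lit 1) (nat_lit 192) (nat_lit 1) (nat_lit 199) (nat_lit 1) (nat_lit 444) (nat_lit 389) (nat_lit 307)) (XT.lf (nat_lit 456) (nat_lit 907946600) (nat_lit 0) (nat_lit 726392297) (nat_lit 380) (nat_lit 726392297) (nat_lit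 193) (nat_lit 1) (nat_lit 187) (nat_lit 1) (nat_lit 192) (nat_lit 1) (nat_lit 445) (nat_lit 389) (nat_lit 306)))))) (XT.nd (nat_lit 52728) (nat_lit 0) (nat_lit 24396) (XT.nd (nat_lit 156) (nat_lit 380) (nat_lit 0) (XT.nd (nat_lit 78) (nat_lit 456) (nat_lit 0) (XT.lf (nat_lit 76) (nat_lit 185776906) (nat_lit 0) (nat_lit 1971218858) (nat_lit 456) (nat_lit 185776906) (nat_lit 188) (nat_lit 1) (nat_lit 187) (nat_lit 1) (nat_lit 193) (nat_lit 1) (nat_lit 446) (nat_lit 389) (nat_lit 305)) (XT.lf (nat_lit 76) (nat_lit 1079897146) (nat_lit 0) (nat_lit 165095974) (nat_lit 456) (nat_lit 1079897146) (nat_lit 182) (nat_lit 1) (nat_lit 181) (nat_lit 1) (nat_lit 187) (nat_lit 1) (nat_lit 447) (nat_lit 389) (nat_lit 304))) (XT.nd (nat_lit 52494) (nat_lit 0) (nat_lit 24396) (XT.lf (nat_lit 456) (nat_lit 1617350705) (nat_lit 0) (nat_lit 344945787) (nat_lit 380) (nat_lit 344945787) (nat_lit 182) (nat_lit 1) (nat_lit 176) (nat_lit 1) (nat_lit 181) (nat_lit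 1) (nat_lit 448) (nat_lit 389) (nat_lit 303)) (XT.lf (nat_lit 1900) (nat_lit 822218175) (nat_lit 0) (nat_lit 829093832) (nat_lit 1900) (nat_lit 822218175) (nat_lit 522) (nat_lit 1) (nat_lit 497) (nat_lit 0) (nat_lit 522) (nat_lit 0) (nat_lit 360) (nat_lit 390) (nat_lit 390)))) (XT.nd (nat_lit 156) (nat_lit 0) (nat_lit 76) (XT.nd (nat_lit 78) (nat_lit 0) (nat_lit 76) (XT.lf (nat_lit 1900) (nat_lit 3251174288) (nat_lit 76) (nat_lit 823639267) (nat_lit 0) (nat_lit 823639267) (nat_lit 522) (nat_lit 1) (nat_lit 498) (nat_lit 1) (nat_lit 497) (nat_lit 0) (nat_lit 361) (nat_lit 390) (nat_lit 389)) (XT.lf (nat_lit 1900) (nat_lit 1596342051) (nat_lit 0) (nat_lit 1657692089) (nat_lit 1824) (nat_lit 1596342051) (nat_lit 523) (nat_lit 1) (nat_lit 498) (nat_lit 1) (nat_lit 522) (nat_lit 1) (nat_lit 362) (nat_lit 390) (nat_lit 388))) (XT.nd (nat_lit 78) (nat_lit 0) (nat_lit 76) (XT.lf (nat_lit 1900) (nat_lit 3124434914) (nat_lit 76) (nat_lit 839296743)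 (nat_lit 0) (nat_lit 839296743) (nat_lit 523) (nat_lit 1) (nat_lit 499) (nat_lit 1) (nat_lit 498) (nat_lit 1) (nat_lit 363) (nat_lit 390) (nat_lit 387)) (XT.nd (nat_lit 78) (nat_lit 0) (nat_lit 0) (XT.lf (nat_lit 1900) (nat_lit 1518416161) (nat_lit 0) (nat_lit 1719370954) (nat_lit 1824) (nat_lit 1518416161) (nat_lit 524) (nat_lit 1) (nat_lit 499) (nat_lit 1) (nat_lit 523) (nat_lit 1) (nat_lit 364) (nat_lit 390) (nat_lit 386)) (XT.lf (nat_lit 1900) (nat_lit 2939635779) (nat_lit 76) (nat_lit 885219359) (nat_lit 0) (nat_lit 885219359) (nat_lit 524) (nat_lit 1) (nat_lit 500) (nat_lit 1) (nat_lit 499) (nat_lit 1) (nat_lit 365) (nat_lit 390) (nat_lit 385))))))) (XT.nd (nat_lit 702) (nat_lit 1368) (nat_lit 0) (XT.nd (nat_lit 312) (nat_lit 0) (nat_lit 152) (XT.nd (nat_lit 156) (nat_lit 0) (nat_lit 76) (XT.nd (nat_lit 78) (nat_lit 0) (nat_lit 0) (XT.lf (nat_lit 1900) (nat_lit 1412438631) (nat_lit 0) (nat_lit 1839591220) (nat_lit 1824) (nat_lit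 1412438631) (nat_lit 525) (nat_lit 1) (nat_lit 500) (nat_lit 1) (nat_lit 524) (nat_lit 1) (nat_lit 366) (nat_lit 390) (nat_lit 384)) (XT.lf (nat_lit 1900) (nat_lit 2700266340) (nat_lit 76) (nat_lit 959626529) (nat_lit 0) (nat_lit 959626529) (nat_lit 525) (nat_lit 1) (nat_lit 501) (nat_lit 1) (nat_lit 500) (nat_lit 1) (nat_lit 367) (nat_lit 390) (nat_lit 383))) (XT.nd (nat_lit 78) (nat_lit 0) (nat_lit 0) (XT.lf (nat_lit 1900) (nat_lit 1280108105) (nat_lit 0) (nat_lit 2014884819) (nat_lit 1824) (nat_lit 1280108105) (nat_lit 526) (nat_lit 1) (nat_lit 501) (nat_lit 1) (nat_lit 525) (nat_lit 1) (nat_lit 368) (nat_lit 390) (nat_lit 382)) (XT.lf (nat_lit 1900) (nat_lit 2409656340) (nat_lit 76) (nat_lit 1060818675) (nat_lit 0) (nat_lit 1060818675) (nat_lit 526) (nat_lit 1) (nat_lit 502) (nat_lit 1) (nat_lit 501) (nat_lit 1) (nat_lit 369) (nat_lit 390) (nat_lit 381)))) (XT.nd (nat_lit 156) (nat_lit 0) (nat_lit 76) (XT.nd (nat_lit 78) (nat_lit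 0) (nat_lit 0) (XT.lf (nat_lit 1900) (nat_lit 1123045317) (nat_lit 0) (nat_lit 2241941784) (nat_lit 1824) (nat_lit 1123045317) (nat_lit 527) (nat_lit 1) (nat_lit 502) (nat_lit 1) (nat_lit 526) (nat_lit 1) (nat_lit 370) (nat_lit 390) (nat_lit 380)) (XT.lf (nat_lit 1900) (nat_lit 2070982484) (nat_lit 76) (nat_lit 1187173857) (nat_lit 0) (nat_lit 1187173857) (nat_lit 527) (nat_lit 1) (nat_lit 503) (nat_lit 1) (nat_lit 502) (nat_lit 1) (nat_lit 371) (nat_lit 390) (nat_lit 379))) (XT.nd (nat_lit 78) (nat_lit 0) (nat_lit 0) (XT.lf (nat_lit 1900) (nat_lit 942796355) (nat_lit 0) (nat_lit 2517603642) (nat_lit 1824) (nat_lit 942796355) (nat_lit 528) (nat_lit 1) (nat_lit 503) (nat_lit 1) (nat_lit 527) (nat_lit 1) (nat_lit 372) (nat_lit 390) (nat_lit 378)) (XT.nd (nat_lit 78) (nat_lit 0) (nat_lit 76) (XT.lf (nat_lit 1900) (nat_lit 1687274848) (nat_lit 76) (nat_lit 1337144522) (nat_lit 0) (nat_lit 1337144522) (nat_lit 528) (nat_lit 1) (nat_lit 504)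 (nat_lit 1) (nat_lit 503) (nat_lit 1) (nat_lit 373) (nat_lit 390) (nat_lit 377)) (XT.lf (nat_lit 1900) (nat_lit 740835783) (nat_lit 0) (nat_lit 2838857091) (nat_lit 1824) (nat_lit 740835783) (nat_lit 529) (nat_lit 1) (nat_lit 504) (nat_lit 1) (nat_lit 528) (nat_lit 1) (nat_lit 374) (nat_lit 390) (nat_lit 376)))))) (XT.nd (nat_lit 390) (nat_lit 1672) (nat_lit 0) (XT.nd (nat_lit 156) (nat_lit 0) (nat_lit 76) (XT.nd (nat_lit 78) (nat_lit 0) (nat_lit 76) (XT.lf (nat_lit 1900) (nat_lit 1261423029) (nat_lit 76) (nat_lit 1509254397) (nat_lit 0) (nat_lit 1509254397) (nat_lit 529) (nat_lit 1) (nat_lit 505) (nat_lit 1) (nat_lit 504) (nat_lit 1) (nat_lit 375) (nat_lit 390) (nat_lit 375)) (XT.lf (nat_lit 1900) (nat_lit 518569648) (nat_lit 0) (nat_lit 3202827911) (nat_lit 1824) (nat_lit 518569648) (nat_lit 530) (nat_lit 1) (nat_lit 505) (nat_lit 1) (nat_lit 529) (nat_lit 1) (nat_lit 376) (nat_lit 390) (nat_lit 374))) (XT.nd (nat_lit 78) (nat_lit 0)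 (nat_lit 76) (XT.lf (nat_lit 1900) (nat_lit 796182048) (nat_lit 76) (nat_lit 1702095501) (nat_lit 0) (nat_lit 1702095501) (nat_lit 530) (nat_lit 1) (nat_lit 506) (nat_lit 1) (nat_lit 505) (nat_lit 1) (nat_lit 377) (nat_lit 390) (nat_lit 373)) (XT.nd (nat_lit 78) (nat_lit 0) (nat_lit 0) (XT.lf (nat_lit 1900) (nat_lit 277338361) (nat_lit 0) (nat_lit 3606775139) (nat_lit 1824) (nat_lit 277338361) (nat_lit 531) (nat_lit 1) (nat_lit 506) (nat_lit 1) (nat_lit 530) (nat_lit 1) (nat_lit 378) (nat_lit 390) (nat_lit 372)) (XT.lf (nat_lit 1900) (nat_lit 294178011) (nat_lit 76) (nat_lit 1914325275) (nat_lit 0) (nat_lit 1914325275) (nat_lit 531) (nat_lit 1) (nat_lit 507) (nat_lit 1) (nat_lit 506) (nat_lit 1) (nat_lit 379) (nat_lit 390) (nat_lit 371))))) (XT.nd (nat_lit 156) (nat_lit 0) (nat_lit 0) (XT.nd (nat_lit 78) (nat_lit 1900) (nat_lit 0) (XT.lf (nat_lit 1900) (nat_lit 18419459) (nat_lit 0) (nat_lit 4048085464) (nat_lit 1824) (nat_lit 18419459)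 (nat_lit 532) (nat_lit 1) (nat_lit 507) (nat_lit 1) (nat_lit 531) (nat_lit 1) (nat_lit 380) (nat_lit 390) (nat_lit 370)) (XT.lf (nat_lit 1976) (nat_lit 1904149174) (nat_lit 0) (nat_lit 238911441) (nat_lit 1900) (nat_lit 1904149174) (nat_lit 508) (nat_lit 1) (nat_lit 482) (nat_lit 1) (nat_lit 507) (nat_lit 1) (nat_lit 381) (nat_lit 390) (nat_lit 369))) (XT.nd (nat_lit 78) (nat_lit 0) (nat_lit 76) (XT.lf (nat_lit 1976) (nat_lit 3499636176) (nat_lit 76) (nat_lit 255279145) (nat_lit 0) (nat_lit 255279145) (nat_lit 508) (nat_lit 1) (nat_lit 483) (nat_lit 1) (nat_lit 482) (nat_lit 1) (nat_lit 382) (nat_lit 390) (nat_lit 368)) (XT.nd (nat_lit 78) (nat_lit 0) (nat_lit 0) (XT.lf (nat_lit 1976) (nat_lit 1586924902) (nat_lit 0) (nat_lit 799600689) (nat_lit 1900) (nat_lit 1586924902) (nat_lit 509) (nat_lit 1) (nat_lit 483) (nat_lit 1) (nat_lit 508) (nat_lit 1) (nat_lit 383) (nat_lit 390) (nat_lit 367)) (XT.lf (nat_lit 1976) (nat_lit 2849190872) (nat_lit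 76) (nat_lit 544066487) (nat_lit 0) (nat_lit 544066487) (nat_lit 509) (nat_lit 1) (nat_lit 484) (nat_lit 1) (nat_lit 483) (nat_lit 1) (nat_lit 384) (nat_lit 390) (nat_lit 366))))))))
noncomputable def ec54 : XT := (XT.nd (nat_lit 1404) (nat_lit 7296) (nat_lit 0) (XT.nd (nat_lit 702) (nat_lit 4028) (nat_lit 0) (XT.nd (nat_lit 312) (nat_lit 2736) (nat_lit 0) (XT.nd (nat_lit 156) (nat_lit 912) (nat_lit 0) (XT.nd (nat_lit 78) (nat_lit 1140) (nat_lit 0) (XT.lf (nat_lit 76) (nat_lit 1256014493) (nat_lit 0) (nat_lit 1389506599) (nat_lit 1900) (nat_lit 1256014493) (nat_lit 485) (nat_lit 1) (nat_lit 484) (nat_lit 1) (nat_lit 509) (nat_lit 1) (nat_lit 385) (nat_lit 390) (nat_lit 365)) (XT.lf (nat_lit 1216) (nat_lit 2172336627) (nat_lit 0) (nat_lit 846966592) (nat_lit 1140) (nat_lit 846966592) (nat_lit 485) (nat_lit 1) (nat_lit 469) (nat_lit 1) (nat_lit 484) (nat_lit 1) (nat_lit 386) (nat_lit 390) (nat_lit 364))) (XT.nd (nat_lit 78) (nat_lit 912)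 (nat_lit 0) (XT.lf (nat_lit 76) (nat_lit 912459283) (nat_lit 0) (nat_lit 2006494870) (nat_lit 1216) (nat_lit 912459283) (nat_lit 470) (nat_lit 1) (nat_lit 469) (nat_lit 1) (nat_lit 485) (nat_lit 1) (nat_lit 387) (nat_lit 390) (nat_lit 363)) (XT.lf (nat_lit 988) (nat_lit 1471112001) (nat_lit 0) (nat_lit 1162934842) (nat_lit 912) (nat_lit 1162934842) (nat_lit 470) (nat_lit 1) (nat_lit 457) (nat_lit 1) (nat_lit 469) (nat_lit 1) (nat_lit 388) (nat_lit 390) (nat_lit 362)))) (XT.nd (nat_lit 156) (nat_lit 1824) (nat_lit 0) (XT.nd (nat_lit 78) (nat_lit 912) (nat_lit 0) (XT.lf (nat_lit 76) (nat_lit 557250178) (nat_lit 0) (nat_lit 2648533682) (nat_lit 988) (nat_lit 557250178) (nat_lit 458) (nat_lit 1) (nat_lit 457) (nat_lit 1) (nat_lit 470) (nat_lit 1) (nat_lit 389) (nat_lit 390) (nat_lit 361)) (XT.lf (nat_lit 988) (nat_lit 747456532) (nat_lit 0) (nat_lit 1490976920) (nat_lit 912) (nat_lit 1490976920) (nat_lit 458) (nat_lit 1) (nat_lit 445) (nat_lit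 1) (nat_lit 457) (nat_lit 1) (nat_lit 390) (nat_lit 390) (nat_lit 360))) (XT.nd (nat_lit 78) (nat_lit 1824) (nat_lit 0) (XT.lf (nat_lit 76) (nat_lit 191329801) (nat_lit 0) (nat_lit 3313689332) (nat_lit 988) (nat_lit 191329801) (nat_lit 446) (nat_lit 1) (nat_lit 445) (nat_lit 1) (nat_lit 458) (nat_lit 1) (nat_lit 391) (nat_lit 390) (nat_lit 359)) (XT.nd (nat_lit 78) (nat_lit 988) (nat_lit 0) (XT.lf (nat_lit 912) (nat_lit 3214967) (nat_lit 0) (nat_lit 1830146666) (nat_lit 836) (nat_lit 1830146666) (nat_lit 446) (nat_lit 1) (nat_lit 434) (nat_lit 1) (nat_lit 445) (nat_lit 1) (nat_lit 392) (nat_lit 390) (nat_lit 358)) (XT.lf (nat_lit 988) (nat_lit 3264830593) (nat_lit 0) (nat_lit 183192240) (nat_lit 912) (nat_lit 183192240) (nat_lit 434) (nat_lit 1) (nat_lit 421) (nat_lit 1) (nat_lit 433) (nat_lit 1) (nat_lit 393) (nat_lit 390) (nat_lit 357)))))) (XT.nd (nat_lit 312) (nat_lit 2356) (nat_lit 0) (XT.nd (nat_lit 156) (nat_lit 836) (nat_lit 0)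 (XT.nd (nat_lit 78) (nat_lit 836) (nat_lit 0) (XT.lf (nat_lit 76) (nat_lit 1424618851) (nat_lit 0) (nat_lit 749892990) (nat_lit 988) (nat_lit 1424618851) (nat_lit 422) (nat_lit 1) (nat_lit 421) (nat_lit 1) (nat_lit 434) (nat_lit 1) (nat_lit 394) (nat_lit 390) (nat_lit 356)) (XT.lf (nat_lit 912) (nat_lit 2436860186) (nat_lit 0) (nat_lit 565359247) (nat_lit 836) (nat_lit 565359247) (nat_lit 422) (nat_lit 1) (nat_lit 410) (nat_lit 1) (nat_lit 421) (nat_lit 1) (nat_lit 395) (nat_lit 390) (nat_lit 355))) (XT.nd (nat_lit 78) (nat_lit 836) (nat_lit 0) (XT.lf (nat_lit 76) (nat_lit 1008215178) (nat_lit 0) (nat_lit 1519898546) (nat_lit 912) (nat_lit 1008215178) (nat_lit 411) (nat_lit 1) (nat_lit 410) (nat_lit 1) (nat_lit 422) (nat_lit 1) (nat_lit 396) (nat_lit 390) (nat_lit 354)) (XT.lf (nat_lit 912) (nat_lit 1594244915) (nat_lit 0) (nat_lit 955625441) (nat_lit 836) (nat_lit 955625441) (nat_lit 411) (nat_lit 1) (nat_lit 399) (nat_lit 1) (nat_lit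 410) (nat_lit 1) (nat_lit 397) (nat_lit 390) (nat_lit 353)))) (XT.nd (nat_lit 156) (nat_lit 1596) (nat_lit 0) (XT.nd (nat_lit 78) (nat_lit 760) (nat_lit 0) (XT.lf (nat_lit 76) (nat_lit 584889853) (nat_lit 0) (nat_lit 2305280540) (nat_lit 912) (nat_lit 584889853) (nat_lit 400) (nat_lit 1) (nat_lit 399) (nat_lit 1) (nat_lit 411) (nat_lit 1) (nat_lit 398) (nat_lit 390) (nat_lit 352)) (XT.lf (nat_lit 836) (nat_lit 738471027) (nat_lit 0) (nat_lit 1353226533) (nat_lit 760) (nat_lit 1353226533) (nat_lit 400) (nat_lit 1) (nat_lit 389) (nat_lit 1) (nat_lit 399) (nat_lit 1) (nat_lit 399) (nat_lit 390) (nat_lit 351))) (XT.nd (nat_lit 78) (nat_lit 1596) (nat_lit 0) (XT.lf (nat_lit 76) (nat_lit 155364422) (nat_lit 0) (nat_lit 3104554107) (nat_lit 836) (nat_lit 155364422) (nat_lit 390) (nat_lit 1) (nat_lit 389) (nat_lit 1) (nat_lit 400) (nat_lit 1) (nat_lit 400) (nat_lit 390) (nat_lit 350)) (XT.nd (nat_lit 78) (nat_lit 760) (nat_lit 0) (XT.lf (nat_lit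 76) (nat_lit 1629223678) (nat_lit 0) (nat_lit 127358409) (nat_lit 836) (nat_lit 1629223678) (nat_lit 379) (nat_lit 1) (nat_lit 378) (nat_lit 1) (nat_lit 389) (nat_lit 1) (nat_lit 401) (nat_lit 390) (nat_lit 349)) (XT.lf (nat_lit 836) (nat_lit 2801137767) (nat_lit 0) (nat_lit 277836493) (nat_lit 760) (nat_lit 277836493) (nat_lit 379) (nat_lit 1) (nat_lit 368) (nat_lit 1) (nat_lit 378) (nat_lit 1) (nat_lit 402) (nat_lit 390) (nat_lit 348))))))) (XT.nd (nat_lit 702) (nat_lit 3724) (nat_lit 0) (XT.nd (nat_lit 312) (nat_lit 2128) (nat_lit 0) (XT.nd (nat_lit 156) (nat_lit 684) (nat_lit 0) (XT.nd (nat_lit 78) (nat_lit 760) (nat_lit 0) (XT.lf (nat_lit 76) (nat_lit 1167122225) (nat_lit 0) (nat_lit 993776084) (nat_lit 836) (nat_lit 1167122225) (nat_lit 369) (nat_lit 1) (nat_lit 368) (nat_lit 1) (nat_lit 379) (nat_lit 1) (nat_lit 403) (nat_lit 390) (nat_lit 347)) (XT.lf (nat_lit 836) (nat_lit 1869967906) (nat_lit 0) (nat_lit 714849364) (nat_lit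 760) (nat_lit 714849364) (nat_lit 369) (nat_lit 1) (nat_lit 358) (nat_lit 1) (nat_lit 368) (nat_lit 1) (nat_lit 404) (nat_lit 390) (nat_lit 346))) (XT.nd (nat_lit 78) (nat_lit 684) (nat_lit 0) (XT.lf (nat_lit 76) (nat_lit 701205464) (nat_lit 0) (nat_lit 1869214943) (nat_lit 836) (nat_lit 701205464) (nat_lit 359) (nat_lit 1) (nat_lit 358) (nat_lit 1) (nat_lit 369) (nat_lit 1) (nat_lit 405) (nat_lit 390) (nat_lit 345)) (XT.lf (nat_lit 760) (nat_lit 931724268) (nat_lit 0) (nat_lit 1156084766) (nat_lit 684) (nat_lit 1156084766) (nat_lit 359) (nat_lit 1) (nat_lit 349) (nat_lit 1) (nat_lit 358) (nat_lit 1) (nat_lit 406) (nat_lit 390) (nat_lit 344)))) (XT.nd (nat_lit 156) (nat_lit 1368) (nat_lit 0) (XT.nd (nat_lit 78) (nat_lit 760) (nat_lit 0) (XT.lf (nat_lit 76) (nat_lit 232048199) (nat_lit 0) (nat_lit 2752488109) (nat_lit 760) (nat_lit 232048199) (nat_lit 350) (nat_lit 1) (nat_lit 349) (nat_lit 1) (nat_lit 359) (nat_lit 1) (nat_lit 407) (nat_lit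 390) (nat_lit 343)) (XT.lf (nat_lit 76) (nat_lit 1588573394) (nat_lit 0) (nat_lit 12307214) (nat_lit 760) (nat_lit 1588573394) (nat_lit 340) (nat_lit 1) (nat_lit 339) (nat_lit 1) (nat_lit 349) (nat_lit 1) (nat_lit 408) (nat_lit 390) (nat_lit 342))) (XT.nd (nat_lit 78) (nat_lit 684) (nat_lit 0) (XT.lf (nat_lit 760) (nat_lit 2686279757) (nat_lit 0) (nat_lit 238227782) (nat_lit 684) (nat_lit 238227782) (nat_lit 340) (nat_lit 1) (nat_lit 330) (nat_lit 1) (nat_lit 339) (nat_lit 1) (nat_lit 409) (nat_lit 390) (nat_lit 341)) (XT.nd (nat_lit 78) (nat_lit 684) (nat_lit 0) (XT.lf (nat_lit 76) (nat_lit 1093623818) (nat_lit 0) (nat_lit 948944075) (nat_lit 760) (nat_lit 1093623818) (nat_lit 331) (nat_lit 1) (nat_lit 330) (nat_lit 1) (nat_lit 340) (nat_lit 1) (nat_lit 410) (nat_lit 390) (nat_lit 340)) (XT.lf (nat_lit 760) (nat_lit 1691757406) (nat_lit 0) (nat_lit 709144373) (nat_lit 684) (nat_lit 709144373) (nat_lit 331) (nat_lit 1) (nat_lit 321) (nat_lit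 1) (nat_lit 330) (nat_lit 1) (nat_lit 411) (nat_lit 390) (nat_lit 339)))))) (XT.nd (nat_lit 390) (nat_lit 1824) (nat_lit 0) (XT.nd (nat_lit 156) (nat_lit 1292) (nat_lit 0) (XT.nd (nat_lit 78) (nat_lit 608) (nat_lit 0) (XT.lf (nat_lit 76) (nat_lit 597389489) (nat_lit 0) (nat_lit 1889414591) (nat_lit 760) (nat_lit 597389489) (nat_lit 322) (nat_lit 1) (nat_lit 321) (nat_lit 1) (nat_lit 331) (nat_lit 1) (nat_lit 412) (nat_lit 390) (nat_lit 338)) (XT.lf (nat_lit 684) (nat_lit 695114868) (nat_lit 0) (nat_lit 1181744651) (nat_lit 608) (nat_lit 1181744651) (nat_lit 322) (nat_lit 1) (nat_lit 313) (nat_lit 1) (nat_lit 321) (nat_lit 1) (nat_lit 413) (nat_lit 390) (nat_lit 337))) (XT.nd (nat_lit 78) (nat_lit 1292) (nat_lit 0) (XT.lf (nat_lit 76) (nat_lit 100322341) (nat_lit 0) (nat_lit 2832781577) (nat_lit 684) (nat_lit 100322341) (nat_lit 314) (nat_lit 1) (nat_lit 313) (nat_lit 1) (nat_lit 322) (nat_lit 1) (nat_lit 414) (nat_lit 390) (nat_lit 336))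 (XT.nd (nat_lit 78) (nat_lit 608) (nat_lit 0) (XT.lf (nat_lit 76) (nat_lit 1354770701) (nat_lit 0) (nat_lit 298795889) (nat_lit 684) (nat_lit 1354770701) (nat_lit 305) (nat_lit 1) (nat_lit 304) (nat_lit 1) (nat_lit 313) (nat_lit 1) (nat_lit 415) (nat_lit 390) (nat_lit 335)) (XT.lf (nat_lit 684) (nat_lit 2194573884) (nat_lit 0) (nat_lit 394538289) (nat_lit 608) (nat_lit 394538289) (nat_lit 305) (nat_lit 1) (nat_lit 296) (nat_lit 1) (nat_lit 304) (nat_lit 1) (nat_lit 416) (nat_lit 390) (nat_lit 334))))) (XT.nd (nat_lit 156) (nat_lit 1216) (nat_lit 0) (XT.nd (nat_lit 78) (nat_lit 608) (nat_lit 0) (XT.lf (nat_lit 76) (nat_lit 837585082) (nat_lit 0) (nat_lit 1283992551) (nat_lit 684) (nat_lit 837585082) (nat_lit 297) (nat_lit 1) (nat_lit 296) (nat_lit 1) (nat_lit 305) (nat_lit 1) (nat_lit 417) (nat_lit 390) (nat_lit 333)) (XT.lf (nat_lit 684) (nat_lit 1157503513) (nat_lit 0) (nat_lit 888742987) (nat_lit 608) (nat_lit 888742987) (nat_lit 297)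 (nat_lit 1) (nat_lit 288) (nat_lit 1) (nat_lit 296) (nat_lit 1) (nat_lit 418) (nat_lit 390) (nat_lit 332))) (XT.nd (nat_lit 78) (nat_lit 1216) (nat_lit 0) (XT.lf (nat_lit 76) (nat_lit 321160800) (nat_lit 0) (nat_lit 2268818337) (nat_lit 684) (nat_lit 321160800) (nat_lit 289) (nat_lit 1) (nat_lit 288) (nat_lit 1) (nat_lit 297) (nat_lit 1) (nat_lit 419) (nat_lit 390) (nat_lit 331)) (XT.nd (nat_lit 78) (nat_lit 684) (nat_lit 0) (XT.lf (nat_lit 608) (nat_lit 122314859) (nat_lit 0) (nat_lit 1382575246) (nat_lit 532) (nat_lit 1382575246) (nat_lit 289) (nat_lit 1) (nat_lit 281) (nat_lit 1) (nat_lit 288) (nat_lit 1) (nat_lit 420) (nat_lit 390) (nat_lit 330)) (XT.lf (nat_lit 684) (nat_lit 2478386847) (nat_lit 0) (nat_lit 192875530) (nat_lit 608) (nat_lit 192875530) (nat_lit 281) (nat_lit 1) (nat_lit 272) (nat_lit 1) (nat_lit 280) (nat_lit 1) (nat_lit 421) (nat_lit 390) (nat_lit 329))))))))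
noncomputable def ec55 : XT := (XT.nd (nat_lit 1404) (nat_lit 2128) (nat_lit 0) (XT.nd (nat_lit 702) (nat_lit 2508) (nat_lit 0) (XT.nd (nat_lit 312) (nat_lit 1596) (nat_lit 0) (XT.nd (nat_lit 156) (nat_lit 532) (nat_lit 0) (XT.nd (nat_lit 78) (nat_lit 532) (nat_lit 0) (XT.lf (nat_lit 76) (nat_lit 971278478) (nat_lit 0) (nat_lit 898373508) (nat_lit 684) (nat_lit 971278478) (nat_lit 273) (nat_lit 1) (nat_lit 272) (nat_lit 1) (nat_lit 281) (nat_lit 1) (nat_lit 422) (nat_lit 390) (nat_lit 328)) (XT.lf (nat_lit 608) (nat_lit 1411323181) (nat_lit 0) (nat_lit 703369499) (nat_lit 532) (nat_lit 703369499) (nat_lit 273) (nat_lit 1) (nat_lit 265) (nat_lit 1) (nat_lit 272) (nat_lit 1) (nat_lit 423) (nat_lit 390) (nat_lit 327))) (XT.nd (nat_lit 78) (nat_lit 532) (nat_lit 0) (XT.lf (nat_lit 76) (nat_lit 440579622) (nat_lit 0) (nat_lit 1914299784) (nat_lit 608) (nat_lit 440579622) (nat_lit 266) (nat_lit 1) (nat_lit 265) (nat_lit 1) (nat_lit 273) (nat_lit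 1) (nat_lit 424) (nat_lit 390) (nat_lit 326)) (XT.lf (nat_lit 608) (nat_lit 348796601) (nat_lit 0) (nat_lit 1212127766) (nat_lit 532) (nat_lit 1212127766) (nat_lit 266) (nat_lit 1) (nat_lit 258) (nat_lit 1) (nat_lit 265) (nat_lit 1) (nat_lit 425) (nat_lit 390) (nat_lit 325)))) (XT.nd (nat_lit 156) (nat_lit 988) (nat_lit 0) (XT.nd (nat_lit 78) (nat_lit 0) (nat_lit 0) (XT.lf (nat_lit 608) (nat_lit 2576710307) (nat_lit 0) (nat_lit 87141637) (nat_lit 532) (nat_lit 87141637) (nat_lit 258) (nat_lit 1) (nat_lit 250) (nat_lit 1) (nat_lit 257) (nat_lit 1) (nat_lit 426) (nat_lit 390) (nat_lit 324)) (XT.lf (nat_lit 76) (nat_lit 1014818494) (nat_lit 0) (nat_lit 699351564) (nat_lit 608) (nat_lit 1014818494) (nat_lit 251) (nat_lit 1) (nat_lit 250) (nat_lit 1) (nat_lit 258) (nat_lit 1) (nat_lit 427) (nat_lit 390) (nat_lit 323))) (XT.nd (nat_lit 78) (nat_lit 456) (nat_lit 0) (XT.lf (nat_lit 608) (nat_lit 1488689602) (nat_lit 0) (nat_lit 609317588) (nat_lit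 532) (nat_lit 609317588) (nat_lit 251) (nat_lit 1) (nat_lit 243) (nat_lit 1) (nat_lit 250) (nat_lit 1) (nat_lit 428) (nat_lit 390) (nat_lit 322)) (XT.nd (nat_lit 78) (nat_lit 456) (nat_lit 0) (XT.lf (nat_lit 76) (nat_lit 474245077) (nat_lit 0) (nat_lit 1737402319) (nat_lit 608) (nat_lit 474245077) (nat_lit 244) (nat_lit 1) (nat_lit 243) (nat_lit 1) (nat_lit 251) (nat_lit 1) (nat_lit 429) (nat_lit 390) (nat_lit 321)) (XT.lf (nat_lit 532) (nat_lit 407452576) (nat_lit 0) (nat_lit 1128601855) (nat_lit 456) (nat_lit 1128601855) (nat_lit 244) (nat_lit 1) (nat_lit 237) (nat_lit 1) (nat_lit 243) (nat_lit 1) (nat_lit 430) (nat_lit 390) (nat_lit 320)))))) (XT.nd (nat_lit 312) (nat_lit 1444) (nat_lit 0) (XT.nd (nat_lit 156) (nat_lit 456) (nat_lit 0) (XT.nd (nat_lit 78) (nat_lit 0) (nat_lit 0) (XT.lf (nat_lit 608) (nat_lit 2518902862) (nat_lit 0) (nat_lit 62423988) (nat_lit 532) (nat_lit 62423988) (nat_lit 237) (nat_lit 1) (nat_lit 229) (nat_lit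 1) (nat_lit 236) (nat_lit 1) (nat_lit 431) (nat_lit 390) (nat_lit 319)) (XT.lf (nat_lit 76) (nat_lit 982524861) (nat_lit 0) (nat_lit 657826619) (nat_lit 608) (nat_lit 982524861) (nat_lit 230) (nat_lit 1) (nat_lit 229) (nat_lit 1) (nat_lit 237) (nat_lit 1) (nat_lit 432) (nat_lit 390) (nat_lit 318))) (XT.nd (nat_lit 78) (nat_lit 0) (nat_lit 0) (XT.lf (nat_lit 532) (nat_lit 1417728642) (nat_lit 0) (nat_lit 592298823) (nat_lit 456) (nat_lit 592298823) (nat_lit 230) (nat_lit 1) (nat_lit 223) (nat_lit 1) (nat_lit 229) (nat_lit 1) (nat_lit 433) (nat_lit 390) (nat_lit 317)) (XT.lf (nat_lit 76) (nat_lit 435875208) (nat_lit 0) (nat_lit 1710244667) (nat_lit 532) (nat_lit 435875208) (nat_lit 224) (nat_lit 1) (nat_lit 223) (nat_lit 1) (nat_lit 230) (nat_lit 1) (nat_lit 434) (nat_lit 390) (nat_lit 316)))) (XT.nd (nat_lit 156) (nat_lit 456) (nat_lit 0) (XT.nd (nat_lit 78) (nat_lit 532) (nat_lit 0) (XT.lf (nat_lit 532) (nat_lit 325226035) (nat_lit 0)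 (nat_lit 1118307936) (nat_lit 456) (nat_lit 1118307936) (nat_lit 224) (nat_lit 1) (nat_lit 217) (nat_lit 1) (nat_lit 223) (nat_lit 1) (nat_lit 435) (nat_lit 390) (nat_lit 315)) (XT.lf (nat_lit 532) (nat_lit 2330649811) (nat_lit 0) (nat_lit 105668207) (nat_lit 456) (nat_lit 105668207) (nat_lit 217) (nat_lit 1) (nat_lit 210) (nat_lit 1) (nat_lit 216) (nat_lit 1) (nat_lit 436) (nat_lit 390) (nat_lit 314))) (XT.nd (nat_lit 78) (nat_lit 456) (nat_lit 0) (XT.lf (nat_lit 76) (nat_lit 886923715) (nat_lit 0) (nat_lit 748328397) (nat_lit 532) (nat_lit 886923715) (nat_lit 211) (nat_lit 1) (nat_lit 210) (nat_lit 1) (nat_lit 217) (nat_lit 1) (nat_lit 437) (nat_lit 390) (nat_lit 313)) (XT.nd (nat_lit 78) (nat_lit 0) (nat_lit 0) (XT.lf (nat_lit 532) (nat_lit 1223039529) (nat_lit 0) (nat_lit 639808901) (nat_lit 456) (nat_lit 639808901) (nat_lit 211) (nat_lit 1) (nat_lit 204) (nat_lit 1) (nat_lit 210) (nat_lit 1) (nat_lit 438) (nat_lit 390) (nat_lit 312))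 (XT.lf (nat_lit 76) (nat_lit 337466092) (nat_lit 0) (nat_lit 1808430554) (nat_lit 532) (nat_lit 337466092) (nat_lit 205) (nat_lit 1) (nat_lit 204) (nat_lit 1) (nat_lit 211) (nat_lit 1) (nat_lit 439) (nat_lit 390) (nat_lit 311))))))) (XT.nd (nat_lit 53040) (nat_lit 0) (nat_lit 24396) (XT.nd (nat_lit 312) (nat_lit 836) (nat_lit 0) (XT.nd (nat_lit 156) (nat_lit 380) (nat_lit 0) (XT.nd (nat_lit 78) (nat_lit 532) (nat_lit 0) (XT.lf (nat_lit 456) (nat_lit 125674472) (nat_lit 0) (nat_lit 1169269355) (nat_lit 380) (nat_lit 1169269355) (nat_lit 205) (nat_lit 1) (nat_lit 199) (nat_lit 1) (nat_lit 204) (nat_lit 1) (nat_lit 440) (nat_lit 390) (nat_lit 310)) (XT.lf (nat_lit 532) (nat_lit 2034390596) (nat_lit 0) (nat_lit 205462203) (nat_lit 456) (nat_lit 205462203) (nat_lit 199) (nat_lit 1) (nat_lit 192) (nat_lit 1) (nat_lit 198) (nat_lit 1) (nat_lit 441) (nat_lit 390) (nat_lit 309))) (XT.nd (nat_lit 78) (nat_lit 380) (nat_lit 0) (XT.lf (nat_lit 76)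 (nat_lit 738956388) (nat_lit 0) (nat_lit 948594429) (nat_lit 532) (nat_lit 738956388) (nat_lit 193) (nat_lit 1) (nat_lit 192) (nat_lit 1) (nat_lit 199) (nat_lit 1) (nat_lit 442) (nat_lit 390) (nat_lit 308)) (XT.lf (nat_lit 456) (nat_lit 926105532) (nat_lit 0) (nat_lit 740920143) (nat_lit 380) (nat_lit 740920143) (nat_lit 193) (nat_lit 1) (nat_lit 187) (nat_lit 1) (nat_lit 192) (nat_lit 1) (nat_lit 443) (nat_lit 390) (nat_lit 307)))) (XT.nd (nat_lit 156) (nat_lit 380) (nat_lit 0) (XT.nd (nat_lit 78) (nat_lit 456) (nat_lit 0) (XT.lf (nat_lit 76) (nat_lit 189492444) (nat_lit 0) (nat_lit 2010643235) (nat_lit 456) (nat_lit 189492444) (nat_lit 188) (nat_lit 1) (nat_lit 187) (nat_lit 1) (nat_lit 193) (nat_lit 1) (nat_lit 444) (nat_lit 390) (nat_lit 306)) (XT.lf (nat_lit 76) (nat_lit 1101495089) (nat_lit 0) (nat_lit 168397893) (nat_lit 456) (nat_lit 1101495089) (nat_lit 182) (nat_lit 1) (nat_lit 181) (nat_lit 1) (nat_lit 187) (nat_lit 1) (nat_lit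 445) (nat_lit 390) (nat_lit 305))) (XT.nd (nat_lit 78) (nat_lit 0) (nat_lit 0) (XT.lf (nat_lit 456) (nat_lit 1649697719) (nat_lit 0) (nat_lit 351844703) (nat_lit 380) (nat_lit 351844703) (nat_lit 182) (nat_lit 1) (nat_lit 176) (nat_lit 1) (nat_lit 181) (nat_lit 1) (nat_lit 446) (nat_lit 390) (nat_lit 304)) (XT.nd (nat_lit 52416) (nat_lit 0) (nat_lit 24396) (XT.lf (nat_lit 76) (nat_lit 548164490) (nat_lit 0) (nat_lit 1239195939) (nat_lit 456) (nat_lit 548164490) (nat_lit 177) (nat_lit 1) (nat_lit 176) (nat_lit 1) (nat_lit 182) (nat_lit 1) (nat_lit 447) (nat_lit 390) (nat_lit 303)) (XT.lf (nat_lit 1900) (nat_lit 838662539) (nat_lit 0) (nat_lit 845675708) (nat_lit 1900) (nat_lit 838662539) (nat_lit 522) (nat_lit 1) (nat_lit 497) (nat_lit 0) (nat_lit 522) (nat_lit 0) (nat_lit 358) (nat_lit 391) (nat_lit 391)))))) (XT.nd (nat_lit 390) (nat_lit 0) (nat_lit 228) (XT.nd (nat_lit 156) (nat_lit 0) (nat_lit 76) (XT.nd (nat_lit 78) (nat_lit 0) (nat_lit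 76) (XT.lf (nat_lit 1900) (nat_lit 3316197774) (nat_lit 76) (nat_lit 840112052) (nat_lit 0) (nat_lit 840112052) (nat_lit 522) (nat_lit 1) (nat_lit 498) (nat_lit 1) (nat_lit 497) (nat_lit 0) (nat_lit 359) (nat_lit 391) (nat_lit 390)) (XT.lf (nat_lit 1900) (nat_lit 1628268892) (nat_lit 0) (nat_lit 1690845931) (nat_lit 1824) (nat_lit 1628268892) (nat_lit 523) (nat_lit 1) (nat_lit 498) (nat_lit 1) (nat_lit 522) (nat_lit 1) (nat_lit 360) (nat_lit 391) (nat_lit 389))) (XT.nd (nat_lit 78) (nat_lit 0) (nat_lit 76) (XT.lf (nat_lit 1900) (nat_lit 3186923613) (nat_lit 76) (nat_lit 856082677) (nat_lit 0) (nat_lit 856082677) (nat_lit 523) (nat_lit 1) (nat_lit 499) (nat_lit 1) (nat_lit 498) (nat_lit 1) (nat_lit 361) (nat_lit 391) (nat_lit 388)) (XT.nd (nat_lit 78) (nat_lit 0) (nat_lit 0) (XT.lf (nat_lit 1900) (nat_lit 1548784485) (nat_lit 0) (nat_lit 1753758373) (nat_lit 1824) (nat_lit 1548784485) (nat_lit 524) (nat_lit 1) (nat_lit 499) (nat_lit 1)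 (nat_lit 523) (nat_lit 1) (nat_lit 362) (nat_lit 391) (nat_lit 387)) (XT.lf (nat_lit 1900) (nat_lit 2998428495) (nat_lit 76) (nat_lit 902923746) (nat_lit 0) (nat_lit 902923746) (nat_lit 524) (nat_lit 1) (nat_lit 500) (nat_lit 1) (nat_lit 499) (nat_lit 1) (nat_lit 363) (nat_lit 391) (nat_lit 386))))) (XT.nd (nat_lit 156) (nat_lit 0) (nat_lit 76) (XT.nd (nat_lit 78) (nat_lit 0) (nat_lit 0) (XT.lf (nat_lit 1900) (nat_lit 1440687404) (nat_lit 0) (nat_lit 1876383044) (nat_lit 1824) (nat_lit 1440687404) (nat_lit 525) (nat_lit 1) (nat_lit 500) (nat_lit 1) (nat_lit 524) (nat_lit 1) (nat_lit 364) (nat_lit 391) (nat_lit 385)) (XT.lf (nat_lit 1900) (nat_lit 2754271667) (nat_lit 76) (nat_lit 978819059) (nat_lit 0) (nat_lit 978819059) (nat_lit 525) (nat_lit 1) (nat_lit 501) (nat_lit 1) (nat_lit 500) (nat_lit 1) (nat_lit 365) (nat_lit 391) (nat_lit 384))) (XT.nd (nat_lit 78) (nat_lit 0) (nat_lit 0) (XT.lf (nat_lit 1900) (nat_lit 1305710267) (nat_lit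 0) (nat_lit 2055182516) (nat_lit 1824) (nat_lit 1305710267) (nat_lit 526) (nat_lit 1) (nat_lit 501) (nat_lit 1) (nat_lit 525) (nat_lit 1) (nat_lit 366) (nat_lit 391) (nat_lit 383)) (XT.nd (nat_lit 78) (nat_lit 0) (nat_lit 76) (XT.lf (nat_lit 1900) (nat_lit 2457849467) (nat_lit 76) (nat_lit 1082035049) (nat_lit 0) (nat_lit 1082035049) (nat_lit 526) (nat_lit 1) (nat_lit 502) (nat_lit 1) (nat_lit 501) (nat_lit 1) (nat_lit 367) (nat_lit 391) (nat_lit 382)) (XT.lf (nat_lit 1900) (nat_lit 1145506224) (nat_lit 0) (nat_lit 2286780619) (nat_lit 1824) (nat_lit 1145506224) (nat_lit 527) (nat_lit 1) (nat_lit 502) (nat_lit 1) (nat_lit 526) (nat_lit 1) (nat_lit 368) (nat_lit 391) (nat_lit 381))))))))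
noncomputable def ec56 : XT := (XT.nd (nat_lit 1404) (nat_lit 8208) (nat_lit 0) (XT.nd (nat_lit 702) (nat_lit 3420) (nat_lit 0) (XT.nd (nat_lit 312) (nat_lit 0) (nat_lit 152) (XT.nd (nat_lit 156) (nat_lit 0) (nat_lit 76) (XT.nd (nat_lit 78) (nat_lit 0) (nat_lit 76) (XT.lf (nat_lit 1900) (nat_lit 2112402134) (nat_lit 76) (nat_lit 1210917334) (nat_lit 0) (nat_lit 1210917334) (nat_lit 527) (nat_lit 1) (nat_lit 503) (nat_lit 1) (nat_lit 502) (nat_lit 1) (nat_lit 369) (nat_lit 391) (nat_lit 380)) (XT.lf (nat_lit 1900) (nat_lit 961652282) (nat_lit 0) (nat_lit 2567955715) (nat_lit 1824) (nat_lit 961652282) (nat_lit 528) (nat_lit 1) (nat_lit 503) (nat_lit 1) (nat_lit 527) (nat_lit 1) (nat_lit 370) (nat_lit 391) (nat_lit 379))) (XT.nd (nat_lit 78) (nat_lit 0) (nat_lit 76) (XT.lf (nat_lit 1900) (nat_lit 1721020345) (nat_lit 76) (nat_lit 1363887412) (nat_lit 0) (nat_lit 1363887412) (nat_lit 528) (nat_lit 1) (nat_lit 504) (nat_lit 1) (nat_lit 503)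 (nat_lit 1) (nat_lit 371) (nat_lit 391) (nat_lit 378)) (XT.lf (nat_lit 1900) (nat_lit 755652498) (nat_lit 0) (nat_lit 2895634233) (nat_lit 1824) (nat_lit 755652498) (nat_lit 529) (nat_lit 1) (nat_lit 504) (nat_lit 1) (nat_lit 528) (nat_lit 1) (nat_lit 372) (nat_lit 391) (nat_lit 377)))) (XT.nd (nat_lit 156) (nat_lit 0) (nat_lit 76) (XT.nd (nat_lit 78) (nat_lit 0) (nat_lit 76) (XT.lf (nat_lit 1900) (nat_lit 1286651490) (nat_lit 76) (nat_lit 1539439485) (nat_lit 0) (nat_lit 1539439485) (nat_lit 529) (nat_lit 1) (nat_lit 505) (nat_lit 1) (nat_lit 504) (nat_lit 1) (nat_lit 373) (nat_lit 391) (nat_lit 376)) (XT.lf (nat_lit 1900) (nat_lit 528941041) (nat_lit 0) (nat_lit 3266884469) (nat_lit 1824) (nat_lit 528941041) (nat_lit 530) (nat_lit 1) (nat_lit 505) (nat_lit 1) (nat_lit 529) (nat_lit 1) (nat_lit 374) (nat_lit 391) (nat_lit 375))) (XT.nd (nat_lit 78) (nat_lit 0) (nat_lit 76) (XT.lf (nat_lit 1900) (nat_lit 812105688) (nat_lit 76) (nat_lit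 1736137411) (nat_lit 0) (nat_lit 1736137411) (nat_lit 530) (nat_lit 1) (nat_lit 506) (nat_lit 1) (nat_lit 505) (nat_lit 1) (nat_lit 375) (nat_lit 391) (nat_lit 374)) (XT.nd (nat_lit 78) (nat_lit 0) (nat_lit 0) (XT.lf (nat_lit 1900) (nat_lit 282885128) (nat_lit 0) (nat_lit 3678910641) (nat_lit 1824) (nat_lit 282885128) (nat_lit 531) (nat_lit 1) (nat_lit 506) (nat_lit 1) (nat_lit 530) (nat_lit 1) (nat_lit 376) (nat_lit 391) (nat_lit 373)) (XT.lf (nat_lit 1900) (nat_lit 300061571) (nat_lit 76) (nat_lit 1952611781) (nat_lit 0) (nat_lit 1952611781) (nat_lit 531) (nat_lit 1) (nat_lit 507) (nat_lit 1) (nat_lit 506) (nat_lit 1) (nat_lit 377) (nat_lit 391) (nat_lit 372)))))) (XT.nd (nat_lit 312) (nat_lit 1900) (nat_lit 0) (XT.nd (nat_lit 156) (nat_lit 0) (nat_lit 0) (XT.nd (nat_lit 78) (nat_lit 1900) (nat_lit 0) (XT.lf (nat_lit 1900) (nat_lit 18787848) (nat_lit 0) (nat_lit 4129047173) (nat_lit 1824) (nat_lit 18787848) (nat_lit 532) (nat_lit 1)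 (nat_lit 507) (nat_lit 1) (nat_lit 531) (nat_lit 1) (nat_lit 378) (nat_lit 391) (nat_lit 371)) (XT.lf (nat_lit 1976) (nat_lit 1942232157) (nat_lit 0) (nat_lit 243689670) (nat_lit 1900) (nat_lit 1942232157) (nat_lit 508) (nat_lit 1) (nat_lit 482) (nat_lit 1) (nat_lit 507) (nat_lit 1) (nat_lit 379) (nat_lit 391) (nat_lit 370))) (XT.nd (nat_lit 78) (nat_lit 0) (nat_lit 76) (XT.lf (nat_lit 1976) (nat_lit 3569628899) (nat_lit 76) (nat_lit 260384728) (nat_lit 0) (nat_lit 260384728) (nat_lit 508) (nat_lit 1) (nat_lit 483) (nat_lit 1) (nat_lit 482) (nat_lit 1) (nat_lit 380) (nat_lit 391) (nat_lit 369)) (XT.lf (nat_lit 1976) (nat_lit 1618663400) (nat_lit 0) (nat_lit 815592703) (nat_lit 1900) (nat_lit 1618663400) (nat_lit 509) (nat_lit 1) (nat_lit 483) (nat_lit 1) (nat_lit 508) (nat_lit 1) (nat_lit 381) (nat_lit 391) (nat_lit 368)))) (XT.nd (nat_lit 156) (nat_lit 1976) (nat_lit 0) (XT.nd (nat_lit 78) (nat_lit 0) (nat_lit 76) (XT.lf (nat_lit 1976)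 (nat_lit 2906174689) (nat_lit 76) (nat_lit 554947816) (nat_lit 0) (nat_lit 554947816) (nat_lit 509) (nat_lit 1) (nat_lit 484) (nat_lit 1) (nat_lit 483) (nat_lit 1) (nat_lit 382) (nat_lit 391) (nat_lit 367)) (XT.lf (nat_lit 76) (nat_lit 1281134783) (nat_lit 0) (nat_lit 1417296731) (nat_lit 1900) (nat_lit 1281134783) (nat_lit 485) (nat_lit 1) (nat_lit 484) (nat_lit 1) (nat_lit 509) (nat_lit 1) (nat_lit 383) (nat_lit 391) (nat_lit 366))) (XT.nd (nat_lit 78) (nat_lit 912) (nat_lit 0) (XT.lf (nat_lit 1216) (nat_lit 2215783359) (nat_lit 0) (nat_lit 863905924) (nat_lit 1140) (nat_lit 863905924) (nat_lit 485) (nat_lit 1) (nat_lit 469) (nat_lit 1) (nat_lit 484) (nat_lit 1) (nat_lit 384) (nat_lit 391) (nat_lit 365)) (XT.nd (nat_lit 78) (nat_lit 912) (nat_lit 0) (XT.lf (nat_lit 76) (nat_lit 930708469) (nat_lit 0) (nat_lit 2046624768) (nat_lit 1216) (nat_lit 930708469) (nat_lit 470) (nat_lit 1) (nat_lit 469) (nat_lit 1) (nat_lit 485) (nat_lit 1)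 (nat_lit 385) (nat_lit 391) (nat_lit 364)) (XT.lf (nat_lit 988) (nat_lit 1500534241) (nat_lit 0) (nat_lit 1186193539) (nat_lit 912) (nat_lit 1186193539) (nat_lit 470) (nat_lit 1) (nat_lit 457) (nat_lit 1) (nat_lit 469) (nat_lit 1) (nat_lit 386) (nat_lit 391) (nat_lit 363))))))) (XT.nd (nat_lit 702) (nat_lit 3800) (nat_lit 0) (XT.nd (nat_lit 312) (nat_lit 2660) (nat_lit 0) (XT.nd (nat_lit 156) (nat_lit 836) (nat_lit 0) (XT.nd (nat_lit 78) (nat_lit 912) (nat_lit 0) (XT.lf (nat_lit 76) (nat_lit 568395181) (nat_lit 0) (nat_lit 2701504356) (nat_lit 988) (nat_lit 568395181) (nat_lit 458) (nat_lit 1) (nat_lit 457) (nat_lit 1) (nat_lit 470) (nat_lit 1) (nat_lit 387) (nat_lit 391) (nat_lit 362)) (XT.lf (nat_lit 988) (nat_lit 762405663) (nat_lit 0) (nat_lit 1520796458) (nat_lit 912) (nat_lit 1520796458) (nat_lit 458) (nat_lit 1) (nat_lit 445) (nat_lit 1) (nat_lit 457) (nat_lit 1) (nat_lit 388) (nat_lit 391) (nat_lit 361))) (XT.nd (nat_lit 78) (nat_lit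 836) (nat_lit 0) (XT.lf (nat_lit 76) (nat_lit 195156397) (nat_lit 0) (nat_lit 3379963119) (nat_lit 988) (nat_lit 195156397) (nat_lit 446) (nat_lit 1) (nat_lit 445) (nat_lit 1) (nat_lit 458) (nat_lit 1) (nat_lit 389) (nat_lit 391) (nat_lit 360)) (XT.lf (nat_lit 912) (nat_lit 3279266) (nat_lit 0) (nat_lit 1866749599) (nat_lit 836) (nat_lit 1866749599) (nat_lit 446) (nat_lit 1) (nat_lit 434) (nat_lit 1) (nat_lit 445) (nat_lit 1) (nat_lit 390) (nat_lit 391) (nat_lit 359)))) (XT.nd (nat_lit 156) (nat_lit 1672) (nat_lit 0) (XT.nd (nat_lit 78) (nat_lit 0) (nat_lit 0) (XT.lf (nat_lit 988) (nat_lit 3330127205) (nat_lit 0) (nat_lit 186856085) (nat_lit 912) (nat_lit 186856085) (nat_lit 434) (nat_lit 1) (nat_lit 421) (nat_lit 1) (nat_lit 433) (nat_lit 1) (nat_lit 391) (nat_lit 391) (nat_lit 358)) (XT.lf (nat_lit 76) (nat_lit 1453111228) (nat_lit 0) (nat_lit 764890850) (nat_lit 988) (nat_lit 1453111228) (nat_lit 422) (nat_lit 1) (nat_lit 421) (nat_lit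 1) (nat_lit 434) (nat_lit 1) (nat_lit 392) (nat_lit 391) (nat_lit 357))) (XT.nd (nat_lit 78) (nat_lit 836) (nat_lit 0) (XT.lf (nat_lit 912) (nat_lit 2485597389) (nat_lit 0) (nat_lit 576666432) (nat_lit 836) (nat_lit 576666432) (nat_lit 422) (nat_lit 1) (nat_lit 410) (nat_lit 1) (nat_lit 421) (nat_lit 1) (nat_lit 393) (nat_lit 391) (nat_lit 356)) (XT.nd (nat_lit 78) (nat_lit 836) (nat_lit 0) (XT.lf (nat_lit 76) (nat_lit 1028379481) (nat_lit 0) (nat_lit 1550296517) (nat_lit 912) (nat_lit 1028379481) (nat_lit 411) (nat_lit 1) (nat_lit 410) (nat_lit 1) (nat_lit 422) (nat_lit 1) (nat_lit 394) (nat_lit 391) (nat_lit 355)) (XT.lf (nat_lit 912) (nat_lit 1626129814) (nat_lit 0) (nat_lit 974737950) (nat_lit 836) (nat_lit 974737950) (nat_lit 411) (nat_lit 1) (nat_lit 399) (nat_lit 1) (nat_lit 410) (nat_lit 1) (nat_lit 395) (nat_lit 391) (nat_lit 354)))))) (XT.nd (nat_lit 312) (nat_lit 2204) (nat_lit 0) (XT.nd (nat_lit 156) (nat_lit 836) (nat_lit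 0) (XT.nd (nat_lit 78) (nat_lit 760) (nat_lit 0) (XT.lf (nat_lit 76) (nat_lit 596587651) (nat_lit 0) (nat_lit 2351386151) (nat_lit 912) (nat_lit 596587651) (nat_lit 400) (nat_lit 1) (nat_lit 399) (nat_lit 1) (nat_lit 411) (nat_lit 1) (nat_lit 396) (nat_lit 391) (nat_lit 353)) (XT.lf (nat_lit 836) (nat_lit 753240448) (nat_lit 0) (nat_lit 1380291063) (nat_lit 760) (nat_lit 1380291063) (nat_lit 400) (nat_lit 1) (nat_lit 389) (nat_lit 1) (nat_lit 399) (nat_lit 1) (nat_lit 397) (nat_lit 391) (nat_lit 352))) (XT.nd (nat_lit 78) (nat_lit 836) (nat_lit 0) (XT.lf (nat_lit 76) (nat_lit 158471710) (nat_lit 0) (nat_lit 3166645190) (nat_lit 836) (nat_lit 158471710) (nat_lit 390) (nat_lit 1) (nat_lit 389) (nat_lit 1) (nat_lit 400) (nat_lit 1) (nat_lit 398) (nat_lit 391) (nat_lit 351)) (XT.lf (nat_lit 76) (nat_lit 1661808152) (nat_lit 0) (nat_lit 129905577) (nat_lit 836) (nat_lit 1661808152) (nat_lit 379) (nat_lit 1) (nat_lit 378) (nat_lit 1) (nat_lit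 389) (nat_lit 1) (nat_lit 399) (nat_lit 391) (nat_lit 350)))) (XT.nd (nat_lit 156) (nat_lit 1444) (nat_lit 0) (XT.nd (nat_lit 78) (nat_lit 0) (nat_lit 0) (XT.lf (nat_lit 836) (nat_lit 2857160523) (nat_lit 0) (nat_lit 283393223) (nat_lit 760) (nat_lit 283393223) (nat_lit 379) (nat_lit 1) (nat_lit 368) (nat_lit 1) (nat_lit 378) (nat_lit 1) (nat_lit 400) (nat_lit 391) (nat_lit 349)) (XT.lf (nat_lit 76) (nat_lit 1190464670) (nat_lit 0) (nat_lit 1013651606) (nat_lit 836) (nat_lit 1190464670) (nat_lit 369) (nat_lit 1) (nat_lit 368) (nat_lit 1) (nat_lit 379) (nat_lit 1) (nat_lit 401) (nat_lit 391) (nat_lit 348))) (XT.nd (nat_lit 78) (nat_lit 684) (nat_lit 0) (XT.lf (nat_lit 836) (nat_lit 1907367264) (nat_lit 0) (nat_lit 729146352) (nat_lit 760) (nat_lit 729146352) (nat_lit 369) (nat_lit 1) (nat_lit 358) (nat_lit 1) (nat_lit 368) (nat_lit 1) (nat_lit 402) (nat_lit 391) (nat_lit 347)) (XT.nd (nat_lit 78) (nat_lit 684) (nat_lit 0) (XT.lf (nat_lit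 76) (nat_lit 715229573) (nat_lit 0) (nat_lit 1906599242) (nat_lit 836) (nat_lit 715229573) (nat_lit 359) (nat_lit 1) (nat_lit 358) (nat_lit 1) (nat_lit 369) (nat_lit 1) (nat_lit 403) (nat_lit 391) (nat_lit 346)) (XT.lf (nat_lit 760) (nat_lit 950358753) (nat_lit 0) (nat_lit 1179206461) (nat_lit 684) (nat_lit 1179206461) (nat_lit 359) (nat_lit 1) (nat_lit 349) (nat_lit 1) (nat_lit 358) (nat_lit 1) (nat_lit 404) (nat_lit 391) (nat_lit 345))))))))
noncomputable def ec57 : XT := (XT.nd (nat_lit 1404) (nat_lit 5928) (nat_lit 0) (XT.nd (nat_lit 702) (nat_lit 2964) (nat_lit 0) (XT.nd (nat_lit 312) (nat_lit 1976) (nat_lit 0) (XT.nd (nat_lit 156) (nat_lit 684) (nat_lit 0) (XT.nd (nat_lit 78) (nat_lit 760) (nat_lit 0) (XT.lf (nat_lit 76) (nat_lit 236689163) (nat_lit 0) (nat_lit 2807537871) (nat_lit 760) (nat_lit 236689163) (nat_lit 350) (nat_lit 1) (nat_lit 349) (nat_lit 1) (nat_lit 359) (nat_lit 1) (nat_lit 405) (nat_lit 391) (nat_lit 344)) (XT.lf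 (nat_lit 76) (nat_lit 1620344862) (nat_lit 0) (nat_lit 12553359) (nat_lit 760) (nat_lit 1620344862) (nat_lit 340) (nat_lit 1) (nat_lit 339) (nat_lit 1) (nat_lit 349) (nat_lit 1) (nat_lit 406) (nat_lit 391) (nat_lit 343))) (XT.nd (nat_lit 78) (nat_lit 0) (nat_lit 0) (XT.lf (nat_lit 760) (nat_lit 2740005352) (nat_lit 0) (nat_lit 242992337) (nat_lit 684) (nat_lit 242992337) (nat_lit 340) (nat_lit 1) (nat_lit 330) (nat_lit 1) (nat_lit 339) (nat_lit 1) (nat_lit 407) (nat_lit 391) (nat_lit 342)) (XT.lf (nat_lit 76) (nat_lit 1115496294) (nat_lit 0) (nat_lit 967922956) (nat_lit 760) (nat_lit 1115496294) (nat_lit 331) (nat_lit 1) (nat_lit 330) (nat_lit 1) (nat_lit 340) (nat_lit 1) (nat_lit 408) (nat_lit 391) (nat_lit 341)))) (XT.nd (nat_lit 156) (nat_lit 1292) (nat_lit 0) (XT.nd (nat_lit 78) (nat_lit 0) (nat_lit 0) (XT.lf (nat_lit 760) (nat_lit 1725592554) (nat_lit 0) (nat_lit 723327260) (nat_lit 684) (nat_lit 723327260) (nat_lit 331) (nat_lit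 1) (nat_lit 321) (nat_lit 1) (nat_lit 330) (nat_lit 1) (nat_lit 409) (nat_lit 391) (nat_lit 340)) (XT.lf (nat_lit 76) (nat_lit 609337279) (nat_lit 0) (nat_lit 1927202883) (nat_lit 760) (nat_lit 609337279) (nat_lit 322) (nat_lit 1) (nat_lit 321) (nat_lit 1) (nat_lit 331) (nat_lit 1) (nat_lit 410) (nat_lit 391) (nat_lit 339))) (XT.nd (nat_lit 78) (nat_lit 684) (nat_lit 0) (XT.lf (nat_lit 684) (nat_lit 709017165) (nat_lit 0) (nat_lit 1205379544) (nat_lit 608) (nat_lit 1205379544) (nat_lit 322) (nat_lit 1) (nat_lit 313) (nat_lit 1) (nat_lit 321) (nat_lit 1) (nat_lit 411) (nat_lit 391) (nat_lit 338)) (XT.nd (nat_lit 78) (nat_lit 684) (nat_lit 0) (XT.lf (nat_lit 76) (nat_lit 102328788) (nat_lit 0) (nat_lit 2889437208) (nat_lit 684) (nat_lit 102328788) (nat_lit 314) (nat_lit 1) (nat_lit 313) (nat_lit 1) (nat_lit 322) (nat_lit 1) (nat_lit 412) (nat_lit 391) (nat_lit 337)) (XT.lf (nat_lit 76) (nat_lit 1381866115) (nat_lit 0) (nat_lit 304771807)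 (nat_lit 684) (nat_lit 1381866115) (nat_lit 305) (nat_lit 1) (nat_lit 304) (nat_lit 1) (nat_lit 313) (nat_lit 1) (nat_lit 413) (nat_lit 391) (nat_lit 336)))))) (XT.nd (nat_lit 312) (nat_lit 1748) (nat_lit 0) (XT.nd (nat_lit 156) (nat_lit 608) (nat_lit 0) (XT.nd (nat_lit 78) (nat_lit 0) (nat_lit 0) (XT.lf (nat_lit 684) (nat_lit 2238465361) (nat_lit 0) (nat_lit 402429055) (nat_lit 608) (nat_lit 402429055) (nat_lit 305) (nat_lit 1) (nat_lit 296) (nat_lit 1) (nat_lit 304) (nat_lit 1) (nat_lit 414) (nat_lit 391) (nat_lit 335)) (XT.lf (nat_lit 76) (nat_lit 854336784) (nat_lit 0) (nat_lit 1309672402) (nat_lit 684) (nat_lit 854336784) (nat_lit 297) (nat_lit 1) (nat_lit 296) (nat_lit 1) (nat_lit 305) (nat_lit 1) (nat_lit 415) (nat_lit 391) (nat_lit 334))) (XT.nd (nat_lit 78) (nat_lit 0) (nat_lit 0) (XT.lf (nat_lit 684) (nat_lit 1180653583) (nat_lit 0) (nat_lit 906517847) (nat_lit 608) (nat_lit 906517847) (nat_lit 297) (nat_lit 1) (nat_lit 288)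 (nat_lit 1) (nat_lit 296) (nat_lit 1) (nat_lit 416) (nat_lit 391) (nat_lit 333)) (XT.lf (nat_lit 76) (nat_lit 327584016) (nat_lit 0) (nat_lit 2314194704) (nat_lit 684) (nat_lit 327584016) (nat_lit 289) (nat_lit 1) (nat_lit 288) (nat_lit 1) (nat_lit 297) (nat_lit 1) (nat_lit 417) (nat_lit 391) (nat_lit 332)))) (XT.nd (nat_lit 156) (nat_lit 532) (nat_lit 0) (XT.nd (nat_lit 78) (nat_lit 684) (nat_lit 0) (XT.lf (nat_lit 608) (nat_lit 124761157) (nat_lit 0) (nat_lit 1410226751) (nat_lit 532) (nat_lit 1410226751) (nat_lit 289) (nat_lit 1) (nat_lit 281) (nat_lit 1) (nat_lit 288) (nat_lit 1) (nat_lit 418) (nat_lit 391) (nat_lit 331)) (XT.lf (nat_lit 684) (nat_lit 2527954584) (nat_lit 0) (nat_lit 196733040) (nat_lit 608) (nat_lit 196733040) (nat_lit 281) (nat_lit 1) (nat_lit 272) (nat_lit 1) (nat_lit 280) (nat_lit 1) (nat_lit 419) (nat_lit 391) (nat_lit 330))) (XT.nd (nat_lit 78) (nat_lit 532) (nat_lit 0) (XT.lf (nat_lit 76) (nat_lit 990704047)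 (nat_lit 0) (nat_lit 916340978) (nat_lit 684) (nat_lit 990704047) (nat_lit 273) (nat_lit 1) (nat_lit 272) (nat_lit 1) (nat_lit 281) (nat_lit 1) (nat_lit 420) (nat_lit 391) (nat_lit 329)) (XT.nd (nat_lit 78) (nat_lit 0) (nat_lit 0) (XT.lf (nat_lit 608) (nat_lit 1439549645) (nat_lit 0) (nat_lit 717436889) (nat_lit 532) (nat_lit 717436889) (nat_lit 273) (nat_lit 1) (nat_lit 265) (nat_lit 1) (nat_lit 272) (nat_lit 1) (nat_lit 421) (nat_lit 391) (nat_lit 328)) (XT.lf (nat_lit 76) (nat_lit 449391214) (nat_lit 0) (nat_lit 1952585780) (nat_lit 608) (nat_lit 449391214) (nat_lit 266) (nat_lit 1) (nat_lit 265) (nat_lit 1) (nat_lit 273) (nat_lit 1) (nat_lit 422) (nat_lit 391) (nat_lit 327))))))) (XT.nd (nat_lit 702) (nat_lit 2736) (nat_lit 0) (XT.nd (nat_lit 312) (nat_lit 1520) (nat_lit 0) (XT.nd (nat_lit 156) (nat_lit 532) (nat_lit 0) (XT.nd (nat_lit 78) (nat_lit 608) (nat_lit 0) (XT.lf (nat_lit 608) (nat_lit 355772533) (nat_lit 0) (nat_lit 1236370322)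 (nat_lit 532) (nat_lit 1236370322) (nat_lit 266) (nat_lit 1) (nat_lit 258) (nat_lit 1) (nat_lit 265) (nat_lit 1) (nat_lit 423) (nat_lit 391) (nat_lit 326)) (XT.lf (nat_lit 608) (nat_lit 2628244513) (nat_lit 0) (nat_lit 88884470) (nat_lit 532) (nat_lit 88884470) (nat_lit 258) (nat_lit 1) (nat_lit 250) (nat_lit 1) (nat_lit 257) (nat_lit 1) (nat_lit 424) (nat_lit 391) (nat_lit 325))) (XT.nd (nat_lit 78) (nat_lit 532) (nat_lit 0) (XT.lf (nat_lit 76) (nat_lit 1035114864) (nat_lit 0) (nat_lit 713338595) (nat_lit 608) (nat_lit 1035114864) (nat_lit 251) (nat_lit 1) (nat_lit 250) (nat_lit 1) (nat_lit 258) (nat_lit 1) (nat_lit 425) (nat_lit 391) (nat_lit 324)) (XT.lf (nat_lit 608) (nat_lit 1518463394) (nat_lit 0) (nat_lit 621503940) (nat_lit 532) (nat_lit 621503940) (nat_lit 251) (nat_lit 1) (nat_lit 243) (nat_lit 1) (nat_lit 250) (nat_lit 1) (nat_lit 426) (nat_lit 391) (nat_lit 323)))) (XT.nd (nat_lit 156) (nat_lit 1064) (nat_lit 0) (XT.nd (nat_lit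 78) (nat_lit 456) (nat_lit 0) (XT.lf (nat_lit 76) (nat_lit 483729979) (nat_lit 0) (nat_lit 1772150365) (nat_lit 608) (nat_lit 483729979) (nat_lit 244) (nat_lit 1) (nat_lit 243) (nat_lit 1) (nat_lit 251) (nat_lit 1) (nat_lit 427) (nat_lit 391) (nat_lit 322)) (XT.lf (nat_lit 532) (nat_lit 415601627) (nat_lit 0) (nat_lit 1151173892) (nat_lit 456) (nat_lit 1151173892) (nat_lit 244) (nat_lit 1) (nat_lit 237) (nat_lit 1) (nat_lit 243) (nat_lit 1) (nat_lit 428) (nat_lit 391) (nat_lit 321))) (XT.nd (nat_lit 78) (nat_lit 456) (nat_lit 0) (XT.lf (nat_lit 608) (nat_lit 2569280919) (nat_lit 0) (nat_lit 63672468) (nat_lit 532) (nat_lit 63672468) (nat_lit 237) (nat_lit 1) (nat_lit 229) (nat_lit 1) (nat_lit 236) (nat_lit 1) (nat_lit 429) (nat_lit 391) (nat_lit 320)) (XT.nd (nat_lit 78) (nat_lit 456) (nat_lit 0) (XT.lf (nat_lit 76) (nat_lit 1002175358) (nat_lit 0) (nat_lit 670983151) (nat_lit 608) (nat_lit 1002175358) (nat_lit 230) (nat_lit 1) (nat_lit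 229) (nat_lit 1) (nat_lit 237) (nat_lit 1) (nat_lit 430) (nat_lit 391) (nat_lit 319)) (XT.lf (nat_lit 532) (nat_lit 1446083215) (nat_lit 0) (nat_lit 604144800) (nat_lit 456) (nat_lit 604144800) (nat_lit 230) (nat_lit 1) (nat_lit 223) (nat_lit 1) (nat_lit 229) (nat_lit 1) (nat_lit 431) (nat_lit 391) (nat_lit 318)))))) (XT.nd (nat_lit 390) (nat_lit 1292) (nat_lit 0) (XT.nd (nat_lit 156) (nat_lit 988) (nat_lit 0) (XT.nd (nat_lit 78) (nat_lit 456) (nat_lit 0) (XT.lf (nat_lit 76) (nat_lit 444592712) (nat_lit 0) (nat_lit 1744449560) (nat_lit 532) (nat_lit 444592712) (nat_lit 224) (nat_lit 1) (nat_lit 223) (nat_lit 1) (nat_lit 230) (nat_lit 1) (nat_lit 432) (nat_lit 391) (nat_lit 317)) (XT.lf (nat_lit 532) (nat_lit 331730556) (nat_lit 0) (nat_lit 1140674094) (nat_lit 456) (nat_lit 1140674094) (nat_lit 224) (nat_lit 1) (nat_lit 217) (nat_lit 1) (nat_lit 223) (nat_lit 1) (nat_lit 433) (nat_lit 391) (nat_lit 316))) (XT.nd (nat_lit 78) (nat_lit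 456) (nat_lit 0) (XT.lf (nat_lit 532) (nat_lit 2377262807) (nat_lit 0) (nat_lit 107781572) (nat_lit 456) (nat_lit 107781572) (nat_lit 217) (nat_lit 1) (nat_lit 210) (nat_lit 1) (nat_lit 216) (nat_lit 1) (nat_lit 434) (nat_lit 391) (nat_lit 315)) (XT.nd (nat_lit 78) (nat_lit 456) (nat_lit 0) (XT.lf (nat_lit 76) (nat_lit 904662189) (nat_lit 0) (nat_lit 763294965) (nat_lit 532) (nat_lit 904662189) (nat_lit 211) (nat_lit 1) (nat_lit 210) (nat_lit 1) (nat_lit 217) (nat_lit 1) (nat_lit 435) (nat_lit 391) (nat_lit 314)) (XT.lf (nat_lit 532) (nat_lit 1247500320) (nat_lit 0) (nat_lit 652605079) (nat_lit 456) (nat_lit 652605079) (nat_lit 211) (nat_lit 1) (nat_lit 204) (nat_lit 1) (nat_lit 210) (nat_lit 1) (nat_lit 436) (nat_lit 391) (nat_lit 313))))) (XT.nd (nat_lit 156) (nat_lit 912) (nat_lit 0) (XT.nd (nat_lit 78) (nat_lit 380) (nat_lit 0) (XT.lf (nat_lit 76) (nat_lit 344215413) (nat_lit 0) (nat_lit 1844599165) (nat_lit 532) (nat_lit 344215413)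 (nat_lit 205) (nat_lit 1) (nat_lit 204) (nat_lit 1) (nat_lit 211) (nat_lit 1) (nat_lit 437) (nat_lit 391) (nat_lit 312)) (XT.lf (nat_lit 456) (nat_lit 128187961) (nat_lit 0) (nat_lit 1192654742) (nat_lit 380) (nat_lit 1192654742) (nat_lit 205) (nat_lit 1) (nat_lit 199) (nat_lit 1) (nat_lit 204) (nat_lit 1) (nat_lit 438) (nat_lit 391) (nat_lit 311))) (XT.nd (nat_lit 78) (nat_lit 380) (nat_lit 0) (XT.lf (nat_lit 532) (nat_lit 2075078408) (nat_lit 0) (nat_lit 209571448) (nat_lit 456) (nat_lit 209571448) (nat_lit 199) (nat_lit 1) (nat_lit 192) (nat_lit 1) (nat_lit 198) (nat_lit 1) (nat_lit 439) (nat_lit 391) (nat_lit 310)) (XT.nd (nat_lit 78) (nat_lit 380) (nat_lit 0) (XT.lf (nat_lit 76) (nat_lit 753735515) (nat_lit 0) (nat_lit 967566318) (nat_lit 532) (nat_lit 753735515) (nat_lit 193) (nat_lit 1) (nat_lit 192) (nat_lit 1) (nat_lit 199) (nat_lit 1) (nat_lit 440) (nat_lit 391) (nat_lit 309)) (XT.lf (nat_lit 456) (nat_lit 944627643) (nat_lit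 0) (nat_lit 755738546) (nat_lit 380) (nat_lit 755738546) (nat_lit 193) (nat_lit 1) (nat_lit 187) (nat_lit 1) (nat_lit 192) (nat_lit 1) (nat_lit 441) (nat_lit 391) (nat_lit 308))))))))
noncomputable def ec58 : XT := (XT.nd (nat_lit 53586) (nat_lit 0) (nat_lit 21736) (XT.nd (nat_lit 52884) (nat_lit 0) (nat_lit 24852) (XT.nd (nat_lit 312) (nat_lit 380) (nat_lit 0) (XT.nd (nat_lit 156) (nat_lit 380) (nat_lit 0) (XT.nd (nat_lit 78) (nat_lit 456) (nat_lit 0) (XT.lf (nat_lit 76) (nat_lit 193282293) (nat_lit 0) (nat_lit 2050856100) (nat_lit 456) (nat_lit 193282293) (nat_lit 188) (nat_lit 1) (nat_lit 187) (nat_lit 1) (nat_lit 193) (nat_lit 1) (nat_lit 442) (nat_lit 391) (nat_lit 307)) (XT.lf (nat_lit 76) (nat_lit 1123524991) (nat_lit 0) (nat_lit 171765851) (nat_lit 456) (nat_lit 1123524991) (nat_lit 182) (nat_lit 1) (nat_lit 181) (nat_lit 1) (nat_lit 187) (nat_lit 1) (nat_lit 443) (nat_lit 391) (nat_lit 306))) (XT.nd (nat_lit 78) (nat_lit 0) (nat_lit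 0) (XT.lf (nat_lit 456) (nat_lit 1682691673) (nat_lit 0) (nat_lit 358881597) (nat_lit 380) (nat_lit 358881597) (nat_lit 182) (nat_lit 1) (nat_lit 176) (nat_lit 1) (nat_lit 181) (nat_lit 1) (nat_lit 444) (nat_lit 391) (nat_lit 305)) (XT.lf (nat_lit 76) (nat_lit 559127780) (nat_lit 0) (nat_lit 1263979857) (nat_lit 456) (nat_lit 559127780) (nat_lit 177) (nat_lit 1) (nat_lit 176) (nat_lit 1) (nat_lit 182) (nat_lit 1) (nat_lit 445) (nat_lit 391) (nat_lit 304)))) (XT.nd (nat_lit 52338) (nat_lit 0) (nat_lit 24776) (XT.nd (nat_lit 78) (nat_lit 0) (nat_lit 0) (XT.lf (nat_lit 456) (nat_lit 556571165) (nat_lit 0) (nat_lit 903819497) (nat_lit 380) (nat_lit 903819497) (nat_lit 177) (nat_lit 1) (nat_lit 171) (nat_lit 1) (nat_lit 176) (nat_lit 1) (nat_lit 446) (nat_lit 391) (nat_lit 303)) (XT.lf (nat_lit 76) (nat_lit 1107144) (nat_lit 0) (nat_lit 2344251778) (nat_lit 456) (nat_lit 1107144) (nat_lit 172) (nat_lit 1) (nat_lit 171) (nat_lit 1) (nat_lit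 177) (nat_lit 1) (nat_lit 447) (nat_lit 391) (nat_lit 302))) (XT.nd (nat_lit 78) (nat_lit 0) (nat_lit 0) (XT.lf (nat_lit 1900) (nat_lit 855435790) (nat_lit 0) (nat_lit 862589222) (nat_lit 1900) (nat_lit 855435790) (nat_lit 522) (nat_lit 1) (nat_lit 497) (nat_lit 0) (nat_lit 522) (nat_lit 0) (nat_lit 356) (nat_lit 392) (nat_lit 392)) (XT.nd (nat_lit 78) (nat_lit 0) (nat_lit 76) (XT.lf (nat_lit 1900) (nat_lit 3382521730) (nat_lit 76) (nat_lit 856914293) (nat_lit 0) (nat_lit 856914293) (nat_lit 522) (nat_lit 1) (nat_lit 498) (nat_lit 1) (nat_lit 497) (nat_lit 0) (nat_lit 357) (nat_lit 392) (nat_lit 391)) (XT.lf (nat_lit 1900) (nat_lit 1660834270) (nat_lit 0) (nat_lit 1724662850) (nat_lit 1824) (nat_lit 1660834270) (nat_lit 523) (nat_lit 1) (nat_lit 498) (nat_lit 1) (nat_lit 522) (nat_lit 1) (nat_lit 358) (nat_lit 392) (nat_lit 390)))))) (XT.nd (nat_lit 312) (nat_lit 0) (nat_lit 152) (XT.nd (nat_lit 156) (nat_lit 0) (nat_lit 76) (XT.nd (nat_lit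 78) (nat_lit 0) (nat_lit 76) (XT.lf (nat_lit 1900) (nat_lit 3250662085) (nat_lit 76) (nat_lit 873204331) (nat_lit 0) (nat_lit 873204331) (nat_lit 523) (nat_lit 1) (nat_lit 499) (nat_lit 1) (nat_lit 498) (nat_lit 1) (nat_lit 359) (nat_lit 392) (nat_lit 389)) (XT.lf (nat_lit 1900) (nat_lit 1579760174) (nat_lit 0) (nat_lit 1788833541) (nat_lit 1824) (nat_lit 1579760174) (nat_lit 524) (nat_lit 1) (nat_lit 499) (nat_lit 1) (nat_lit 523) (nat_lit 1) (nat_lit 360) (nat_lit 392) (nat_lit 388))) (XT.nd (nat_lit 78) (nat_lit 0) (nat_lit 76) (XT.lf (nat_lit 1900) (nat_lit 3058397065) (nat_lit 76) (nat_lit 920982221) (nat_lit 0) (nat_lit 920982221) (nat_lit 524) (nat_lit 1) (nat_lit 500) (nat_lit 1) (nat_lit 499) (nat_lit 1) (nat_lit 361) (nat_lit 392) (nat_lit 387)) (XT.lf (nat_lit 1900) (nat_lit 1469501152) (nat_lit 0) (nat_lit 1913910705) (nat_lit 1824) (nat_lit 1469501152) (nat_lit 525) (nat_lit 1) (nat_lit 500) (nat_lit 1) (nat_lit 524) (nat_lit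 1) (nat_lit 362) (nat_lit 392) (nat_lit 386)))) (XT.nd (nat_lit 156) (nat_lit 0) (nat_lit 76) (XT.nd (nat_lit 78) (nat_lit 0) (nat_lit 76) (XT.lf (nat_lit 1900) (nat_lit 2809357101) (nat_lit 76) (nat_lit 998395441) (nat_lit 0) (nat_lit 998395441) (nat_lit 525) (nat_lit 1) (nat_lit 501) (nat_lit 1) (nat_lit 500) (nat_lit 1) (nat_lit 363) (nat_lit 392) (nat_lit 385)) (XT.lf (nat_lit 1900) (nat_lit 1331824472) (nat_lit 0) (nat_lit 2096286166) (nat_lit 1824) (nat_lit 1331824472) (nat_lit 526) (nat_lit 1) (nat_lit 501) (nat_lit 1) (nat_lit 525) (nat_lit 1) (nat_lit 364) (nat_lit 392) (nat_lit 384))) (XT.nd (nat_lit 78) (nat_lit 0) (nat_lit 76) (XT.lf (nat_lit 1900) (nat_lit 2507006456) (nat_lit 76) (nat_lit 1103675750) (nat_lit 0) (nat_lit 1103675750) (nat_lit 526) (nat_lit 1) (nat_lit 502) (nat_lit 1) (nat_lit 501) (nat_lit 1) (nat_lit 365) (nat_lit 392) (nat_lit 383)) (XT.nd (nat_lit 78) (nat_lit 0) (nat_lit 0) (XT.lf (nat_lit 1900) (nat_lit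 1168416348) (nat_lit 0) (nat_lit 2332516232) (nat_lit 1824) (nat_lit 1168416348) (nat_lit 527) (nat_lit 1) (nat_lit 502) (nat_lit 1) (nat_lit 526) (nat_lit 1) (nat_lit 366) (nat_lit 392) (nat_lit 382)) (XT.lf (nat_lit 1900) (nat_lit 2154650176) (nat_lit 76) (nat_lit 1235135681) (nat_lit 0) (nat_lit 1235135681) (nat_lit 527) (nat_lit 1) (nat_lit 503) (nat_lit 1) (nat_lit 502) (nat_lit 1) (nat_lit 367) (nat_lit 392) (nat_lit 381))))))) (XT.nd (nat_lit 702) (nat_lit 3496) (nat_lit 0) (XT.nd (nat_lit 312) (nat_lit 0) (nat_lit 152) (XT.nd (nat_lit 156) (nat_lit 0) (nat_lit 76) (XT.nd (nat_lit 78) (nat_lit 0) (nat_lit 0) (XT.lf (nat_lit 1900) (nat_lit 980885328) (nat_lit 0) (nat_lit 2619314830) (nat_lit 1824) (nat_lit 980885328) (nat_lit 528) (nat_lit 1) (nat_lit 503) (nat_lit 1) (nat_lit 527) (nat_lit 1) (nat_lit 368) (nat_lit 392) (nat_lit 380)) (XT.lf (nat_lit 1900) (nat_lit 1755440752) (nat_lit 76) (nat_lit 1391165161) (nat_lit 0) (nat_lit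 1391165161) (nat_lit 528) (nat_lit 1) (nat_lit 504) (nat_lit 1) (nat_lit 503) (nat_lit 1) (nat_lit 369) (nat_lit 392) (nat_lit 379))) (XT.nd (nat_lit 78) (nat_lit 0) (nat_lit 0) (XT.lf (nat_lit 1900) (nat_lit 770765548) (nat_lit 0) (nat_lit 2953546917) (nat_lit 1824) (nat_lit 770765548) (nat_lit 529) (nat_lit 1) (nat_lit 504) (nat_lit 1) (nat_lit 528) (nat_lit 1) (nat_lit 370) (nat_lit 392) (nat_lit 378)) (XT.lf (nat_lit 1900) (nat_lit 1312384520) (nat_lit 76) (nat_lit 1570228275) (nat_lit 0) (nat_lit 1570228275) (nat_lit 529) (nat_lit 1) (nat_lit 505) (nat_lit 1) (nat_lit 504) (nat_lit 1) (nat_lit 371) (nat_lit 392) (nat_lit 377)))) (XT.nd (nat_lit 156) (nat_lit 0) (nat_lit 76) (XT.nd (nat_lit 78) (nat_lit 0) (nat_lit 0) (XT.lf (nat_lit 1900) (nat_lit 539519862) (nat_lit 0) (nat_lit 3332222159) (nat_lit 1824) (nat_lit 539519862) (nat_lit 530) (nat_lit 1) (nat_lit 505) (nat_lit 1) (nat_lit 529) (nat_lit 1) (nat_lit 372) (nat_lit 392)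 (nat_lit 376)) (XT.lf (nat_lit 1900) (nat_lit 828347802) (nat_lit 76) (nat_lit 1770860159) (nat_lit 0) (nat_lit 1770860159) (nat_lit 530) (nat_lit 1) (nat_lit 506) (nat_lit 1) (nat_lit 505) (nat_lit 1) (nat_lit 373) (nat_lit 392) (nat_lit 375))) (XT.nd (nat_lit 78) (nat_lit 0) (nat_lit 0) (XT.lf (nat_lit 1900) (nat_lit 288542830) (nat_lit 0) (nat_lit 3752488854) (nat_lit 1824) (nat_lit 288542830) (nat_lit 531) (nat_lit 1) (nat_lit 506) (nat_lit 1) (nat_lit 530) (nat_lit 1) (nat_lit 374) (nat_lit 392) (nat_lit 374)) (XT.nd (nat_lit 78) (nat_lit 0) (nat_lit 76) (XT.lf (nat_lit 1900) (nat_lit 306062803) (nat_lit 76) (nat_lit 1991664016) (nat_lit 0) (nat_lit 1991664016) (nat_lit 531) (nat_lit 1) (nat_lit 507) (nat_lit 1) (nat_lit 506) (nat_lit 1) (nat_lit 375) (nat_lit 392) (nat_lit 373)) (XT.lf (nat_lit 1900) (nat_lit 19163605) (nat_lit 0) (nat_lit 4211628117) (nat_lit 1824) (nat_lit 19163605) (nat_lit 532) (nat_lit 1) (nat_lit 507) (nat_lit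 1) (nat_lit 531) (nat_lit 1) (nat_lit 376) (nat_lit 392) (nat_lit 372)))))) (XT.nd (nat_lit 312) (nat_lit 1900) (nat_lit 0) (XT.nd (nat_lit 156) (nat_lit 0) (nat_lit 76) (XT.nd (nat_lit 78) (nat_lit 0) (nat_lit 0) (XT.lf (nat_lit 1976) (nat_lit 1981076800) (nat_lit 0) (nat_lit 248563463) (nat_lit 1900) (nat_lit 1981076800) (nat_lit 508) (nat_lit 1) (nat_lit 482) (nat_lit 1) (nat_lit 507) (nat_lit 1) (nat_lit 377) (nat_lit 392) (nat_lit 371)) (XT.lf (nat_lit 1976) (nat_lit 3641021477) (nat_lit 76) (nat_lit 265592422) (nat_lit 0) (nat_lit 265592422) (nat_lit 508) (nat_lit 1) (nat_lit 483) (nat_lit 1) (nat_lit 482) (nat_lit 1) (nat_lit 378) (nat_lit 392) (nat_lit 370))) (XT.nd (nat_lit 78) (nat_lit 0) (nat_lit 0) (XT.lf (nat_lit 1976) (nat_lit 1651036668) (nat_lit 0) (nat_lit 831904557) (nat_lit 1900) (nat_lit 1651036668) (nat_lit 509) (nat_lit 1) (nat_lit 483) (nat_lit 1) (nat_lit 508) (nat_lit 1) (nat_lit 379) (nat_lit 392) (nat_lit 369))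 (XT.lf (nat_lit 1976) (nat_lit 2964298183) (nat_lit 76) (nat_lit 566046773) (nat_lit 0) (nat_lit 566046773) (nat_lit 509) (nat_lit 1) (nat_lit 484) (nat_lit 1) (nat_lit 483) (nat_lit 1) (nat_lit 380) (nat_lit 392) (nat_lit 368)))) (XT.nd (nat_lit 156) (nat_lit 912) (nat_lit 0) (XT.nd (nat_lit 78) (nat_lit 1140) (nat_lit 0) (XT.lf (nat_lit 76) (nat_lit 1306757478) (nat_lit 0) (nat_lit 1445642666) (nat_lit 1900) (nat_lit 1306757478) (nat_lit 485) (nat_lit 1) (nat_lit 484) (nat_lit 1) (nat_lit 509) (nat_lit 1) (nat_lit 381) (nat_lit 392) (nat_lit 367)) (XT.lf (nat_lit 1216) (nat_lit 2260099026) (nat_lit 0) (nat_lit 881184042) (nat_lit 1140) (nat_lit 881184042) (nat_lit 485) (nat_lit 1) (nat_lit 469) (nat_lit 1) (nat_lit 484) (nat_lit 1) (nat_lit 382) (nat_lit 392) (nat_lit 366))) (XT.nd (nat_lit 78) (nat_lit 912) (nat_lit 0) (XT.lf (nat_lit 76) (nat_lit 949322638) (nat_lit 0) (nat_lit 2087557263) (nat_lit 1216) (nat_lit 949322638) (nat_lit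 470) (nat_lit 1) (nat_lit 469) (nat_lit 1) (nat_lit 485) (nat_lit 1) (nat_lit 383) (nat_lit 392) (nat_lit 365)) (XT.nd (nat_lit 78) (nat_lit 0) (nat_lit 0) (XT.lf (nat_lit 988) (nat_lit 1530544926) (nat_lit 0) (nat_lit 1209917410) (nat_lit 912) (nat_lit 1209917410) (nat_lit 470) (nat_lit 1) (nat_lit 457) (nat_lit 1) (nat_lit 469) (nat_lit 1) (nat_lit 384) (nat_lit 392) (nat_lit 364)) (XT.lf (nat_lit 76) (nat_lit 579763085) (nat_lit 0) (nat_lit 2755534443) (nat_lit 988) (nat_lit 579763085) (nat_lit 458) (nat_lit 1) (nat_lit 457) (nat_lit 1) (nat_lit 470) (nat_lit 1) (nat_lit 385) (nat_lit 392) (nat_lit 363))))))))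
noncomputable def ec59 : XT := (XT.nd (nat_lit 1404) (nat_lit 7524) (nat_lit 0) (XT.nd (nat_lit 702) (nat_lit 3800) (nat_lit 0) (XT.nd (nat_lit 312) (nat_lit 1672) (nat_lit 0) (XT.nd (nat_lit 156) (nat_lit 1824) (nat_lit 0) (XT.nd (nat_lit 78) (nat_lit 0) (nat_lit 0) (XT.lf (nat_lit 988) (nat_lit 777653776) (nat_lit 0) (nat_lit 1551212388) (nat_lit 912) (nat_lit 1551212388) (nat_lit 458) (nat_lit 1) (nat_lit 445) (nat_lit 1) (nat_lit 457) (nat_lit 1) (nat_lit 386) (nat_lit 392) (nat_lit 362)) (XT.lf (nat_lit 76) (nat_lit 199059525) (nat_lit 0) (nat_lit 3447562381) (nat_lit 988) (nat_lit 199059525) (nat_lit 446) (nat_lit 1) (nat_lit 445) (nat_lit 1) (nat_lit 458) (nat_lit 1) (nat_lit 387) (nat_lit 392) (nat_lit 361))) (XT.nd (nat_lit 78) (nat_lit 988) (nat_lit 0) (XT.lf (nat_lit 912) (nat_lit 3344851) (nat_lit 0) (nat_lit 1904084591) (nat_lit 836) (nat_lit 1904084591) (nat_lit 446) (nat_lit 1) (nat_lit 434) (nat_lit 1) (nat_lit 445) (nat_lit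 1) (nat_lit 388) (nat_lit 392) (nat_lit 360)) (XT.lf (nat_lit 988) (nat_lit 3396729749) (nat_lit 0) (nat_lit 190593207) (nat_lit 912) (nat_lit 190593207) (nat_lit 434) (nat_lit 1) (nat_lit 421) (nat_lit 1) (nat_lit 433) (nat_lit 1) (nat_lit 389) (nat_lit 392) (nat_lit 359)))) (XT.nd (nat_lit 156) (nat_lit 836) (nat_lit 0) (XT.nd (nat_lit 78) (nat_lit 836) (nat_lit 0) (XT.lf (nat_lit 76) (nat_lit 1482173453) (nat_lit 0) (nat_lit 780188667) (nat_lit 988) (nat_lit 1482173453) (nat_lit 422) (nat_lit 1) (nat_lit 421) (nat_lit 1) (nat_lit 434) (nat_lit 1) (nat_lit 390) (nat_lit 392) (nat_lit 358)) (XT.lf (nat_lit 912) (nat_lit 2535309337) (nat_lit 0) (nat_lit 588199761) (nat_lit 836) (nat_lit 588199761) (nat_lit 422) (nat_lit 1) (nat_lit 410) (nat_lit 1) (nat_lit 421) (nat_lit 1) (nat_lit 391) (nat_lit 392) (nat_lit 357))) (XT.nd (nat_lit 78) (nat_lit 836) (nat_lit 0) (XT.lf (nat_lit 76) (nat_lit 1048947071) (nat_lit 0) (nat_lit 1581302447)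 (nat_lit 912) (nat_lit 1048947071) (nat_lit 411) (nat_lit 1) (nat_lit 410) (nat_lit 1) (nat_lit 422) (nat_lit 1) (nat_lit 392) (nat_lit 392) (nat_lit 356)) (XT.nd (nat_lit 78) (nat_lit 0) (nat_lit 0) (XT.lf (nat_lit 912) (nat_lit 1658652410) (nat_lit 0) (nat_lit 994232709) (nat_lit 836) (nat_lit 994232709) (nat_lit 411) (nat_lit 1) (nat_lit 399) (nat_lit 1) (nat_lit 410) (nat_lit 1) (nat_lit 393) (nat_lit 392) (nat_lit 355)) (XT.lf (nat_lit 76) (nat_lit 608519404) (nat_lit 0) (nat_lit 2398413874) (nat_lit 912) (nat_lit 608519404) (nat_lit 400) (nat_lit 1) (nat_lit 399) (nat_lit 1) (nat_lit 411) (nat_lit 1) (nat_lit 394) (nat_lit 392) (nat_lit 354)))))) (XT.nd (nat_lit 312) (nat_lit 1444) (nat_lit 0) (XT.nd (nat_lit 156) (nat_lit 1596) (nat_lit 0) (XT.nd (nat_lit 78) (nat_lit 0) (nat_lit 0) (XT.lf (nat_lit 836) (nat_lit 768305257) (nat_lit 0) (nat_lit 1407896885) (nat_lit 760) (nat_lit 1407896885) (nat_lit 400) (nat_lit 1) (nat_lit 389)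 (nat_lit 1) (nat_lit 399) (nat_lit 1) (nat_lit 395) (nat_lit 392) (nat_lit 353)) (XT.lf (nat_lit 76) (nat_lit 161641144) (nat_lit 0) (nat_lit 3229978093) (nat_lit 836) (nat_lit 161641144) (nat_lit 390) (nat_lit 1) (nat_lit 389) (nat_lit 1) (nat_lit 400) (nat_lit 1) (nat_lit 396) (nat_lit 392) (nat_lit 352))) (XT.nd (nat_lit 78) (nat_lit 760) (nat_lit 0) (XT.lf (nat_lit 76) (nat_lit 1695044315) (nat_lit 0) (nat_lit 132503689) (nat_lit 836) (nat_lit 1695044315) (nat_lit 379) (nat_lit 1) (nat_lit 378) (nat_lit 1) (nat_lit 389) (nat_lit 1) (nat_lit 397) (nat_lit 392) (nat_lit 351)) (XT.lf (nat_lit 836) (nat_lit 2914303733) (nat_lit 0) (nat_lit 289061088) (nat_lit 760) (nat_lit 289061088) (nat_lit 379) (nat_lit 1) (nat_lit 368) (nat_lit 1) (nat_lit 378) (nat_lit 1) (nat_lit 398) (nat_lit 392) (nat_lit 350)))) (XT.nd (nat_lit 156) (nat_lit 684) (nat_lit 0) (XT.nd (nat_lit 78) (nat_lit 760) (nat_lit 0) (XT.lf (nat_lit 76) (nat_lit 1214273963)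 (nat_lit 0) (nat_lit 1033924638) (nat_lit 836) (nat_lit 1214273963) (nat_lit 369) (nat_lit 1) (nat_lit 368) (nat_lit 1) (nat_lit 379) (nat_lit 1) (nat_lit 399) (nat_lit 392) (nat_lit 349)) (XT.lf (nat_lit 836) (nat_lit 1945514609) (nat_lit 0) (nat_lit 743729279) (nat_lit 760) (nat_lit 743729279) (nat_lit 369) (nat_lit 1) (nat_lit 358) (nat_lit 1) (nat_lit 368) (nat_lit 1) (nat_lit 400) (nat_lit 392) (nat_lit 348))) (XT.nd (nat_lit 78) (nat_lit 684) (nat_lit 0) (XT.lf (nat_lit 76) (nat_lit 729534165) (nat_lit 0) (nat_lit 1944731227) (nat_lit 836) (nat_lit 729534165) (nat_lit 359) (nat_lit 1) (nat_lit 358) (nat_lit 1) (nat_lit 369) (nat_lit 1) (nat_lit 401) (nat_lit 392) (nat_lit 347)) (XT.nd (nat_lit 78) (nat_lit 0) (nat_lit 0) (XT.lf (nat_lit 760) (nat_lit 969365928) (nat_lit 0) (nat_lit 1202790590) (nat_lit 684) (nat_lit 1202790590) (nat_lit 359) (nat_lit 1) (nat_lit 349) (nat_lit 1) (nat_lit 358) (nat_lit 1) (nat_lit 402) (nat_lit 392)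 (nat_lit 346)) (XT.lf (nat_lit 76) (nat_lit 241422946) (nat_lit 0) (nat_lit 2863688628) (nat_lit 760) (nat_lit 241422946) (nat_lit 350) (nat_lit 1) (nat_lit 349) (nat_lit 1) (nat_lit 359) (nat_lit 1) (nat_lit 403) (nat_lit 392) (nat_lit 345))))))) (XT.nd (nat_lit 702) (nat_lit 3496) (nat_lit 0) (XT.nd (nat_lit 312) (nat_lit 1900) (nat_lit 0) (XT.nd (nat_lit 156) (nat_lit 684) (nat_lit 0) (XT.nd (nat_lit 78) (nat_lit 684) (nat_lit 0) (XT.lf (nat_lit 76) (nat_lit 1652751759) (nat_lit 0) (nat_lit 12804426) (nat_lit 760) (nat_lit 1652751759) (nat_lit 340) (nat_lit 1) (nat_lit 339) (nat_lit 1) (nat_lit 349) (nat_lit 1) (nat_lit 404) (nat_lit 392) (nat_lit 344)) (XT.lf (nat_lit 760) (nat_lit 2794805459) (nat_lit 0) (nat_lit 247852184) (nat_lit 684) (nat_lit 247852184) (nat_lit 340) (nat_lit 1) (nat_lit 330) (nat_lit 1) (nat_lit 339) (nat_lit 1) (nat_lit 405) (nat_lit 392) (nat_lit 343))) (XT.nd (nat_lit 78) (nat_lit 684) (nat_lit 0) (XT.lf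 (nat_lit 76) (nat_lit 1137806220) (nat_lit 0) (nat_lit 987281416) (nat_lit 760) (nat_lit 1137806220) (nat_lit 331) (nat_lit 1) (nat_lit 330) (nat_lit 1) (nat_lit 340) (nat_lit 1) (nat_lit 406) (nat_lit 392) (nat_lit 342)) (XT.lf (nat_lit 760) (nat_lit 1760104405) (nat_lit 0) (nat_lit 737793805) (nat_lit 684) (nat_lit 737793805) (nat_lit 331) (nat_lit 1) (nat_lit 321) (nat_lit 1) (nat_lit 330) (nat_lit 1) (nat_lit 407) (nat_lit 392) (nat_lit 341)))) (XT.nd (nat_lit 156) (nat_lit 1292) (nat_lit 0) (XT.nd (nat_lit 78) (nat_lit 608) (nat_lit 0) (XT.lf (nat_lit 76) (nat_lit 621524025) (nat_lit 0) (nat_lit 1965746941) (nat_lit 760) (nat_lit 621524025) (nat_lit 322) (nat_lit 1) (nat_lit 321) (nat_lit 1) (nat_lit 331) (nat_lit 1) (nat_lit 408) (nat_lit 392) (nat_lit 340)) (XT.lf (nat_lit 684) (nat_lit 723197508) (nat_lit 0) (nat_lit 1229487135) (nat_lit 608) (nat_lit 1229487135) (nat_lit 322) (nat_lit 1) (nat_lit 313) (nat_lit 1) (nat_lit 321)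 (nat_lit 1) (nat_lit 409) (nat_lit 392) (nat_lit 339))) (XT.nd (nat_lit 78) (nat_lit 1292) (nat_lit 0) (XT.lf (nat_lit 76) (nat_lit 104375364) (nat_lit 0) (nat_lit 2947225952) (nat_lit 684) (nat_lit 104375364) (nat_lit 314) (nat_lit 1) (nat_lit 313) (nat_lit 1) (nat_lit 322) (nat_lit 1) (nat_lit 410) (nat_lit 392) (nat_lit 338)) (XT.nd (nat_lit 78) (nat_lit 608) (nat_lit 0) (XT.lf (nat_lit 76) (nat_lit 1409503438) (nat_lit 0) (nat_lit 310867243) (nat_lit 684) (nat_lit 1409503438) (nat_lit 305) (nat_lit 1) (nat_lit 304) (nat_lit 1) (nat_lit 313) (nat_lit 1) (nat_lit 411) (nat_lit 392) (nat_lit 337)) (XT.lf (nat_lit 684) (nat_lit 2283234668) (nat_lit 0) (nat_lit 410477636) (nat_lit 608) (nat_lit 410477636) (nat_lit 305) (nat_lit 1) (nat_lit 296) (nat_lit 1) (nat_lit 304) (nat_lit 1) (nat_lit 412) (nat_lit 392) (nat_lit 336)))))) (XT.nd (nat_lit 390) (nat_lit 1672) (nat_lit 0) (XT.nd (nat_lit 156) (nat_lit 1216) (nat_lit 0) (XT.nd (nat_lit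 78) (nat_lit 608) (nat_lit 0) (XT.lf (nat_lit 76) (nat_lit 871423519) (nat_lit 0) (nat_lit 1335865850) (nat_lit 684) (nat_lit 871423519) (nat_lit 297) (nat_lit 1) (nat_lit 296) (nat_lit 1) (nat_lit 305) (nat_lit 1) (nat_lit 413) (nat_lit 392) (nat_lit 335)) (XT.lf (nat_lit 684) (nat_lit 1204266655) (nat_lit 0) (nat_lit 924648204) (nat_lit 608) (nat_lit 924648204) (nat_lit 297) (nat_lit 1) (nat_lit 288) (nat_lit 1) (nat_lit 296) (nat_lit 1) (nat_lit 414) (nat_lit 392) (nat_lit 334))) (XT.nd (nat_lit 78) (nat_lit 1216) (nat_lit 0) (XT.lf (nat_lit 76) (nat_lit 334135697) (nat_lit 0) (nat_lit 2360478598) (nat_lit 684) (nat_lit 334135697) (nat_lit 289) (nat_lit 1) (nat_lit 288) (nat_lit 1) (nat_lit 297) (nat_lit 1) (nat_lit 415) (nat_lit 392) (nat_lit 333)) (XT.nd (nat_lit 78) (nat_lit 684) (nat_lit 0) (XT.lf (nat_lit 608) (nat_lit 127256380) (nat_lit 0) (nat_lit 1438431286) (nat_lit 532) (nat_lit 1438431286) (nat_lit 289) (nat_lit 1) (nat_lit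 281) (nat_lit 1) (nat_lit 288) (nat_lit 1) (nat_lit 416) (nat_lit 392) (nat_lit 332)) (XT.lf (nat_lit 684) (nat_lit 2578513675) (nat_lit 0) (nat_lit 200667701) (nat_lit 608) (nat_lit 200667701) (nat_lit 281) (nat_lit 1) (nat_lit 272) (nat_lit 1) (nat_lit 280) (nat_lit 1) (nat_lit 417) (nat_lit 392) (nat_lit 331))))) (XT.nd (nat_lit 156) (nat_lit 1140) (nat_lit 0) (XT.nd (nat_lit 78) (nat_lit 532) (nat_lit 0) (XT.lf (nat_lit 76) (nat_lit 1010518128) (nat_lit 0) (nat_lit 934667798) (nat_lit 684) (nat_lit 1010518128) (nat_lit 273) (nat_lit 1) (nat_lit 272) (nat_lit 1) (nat_lit 281) (nat_lit 1) (nat_lit 418) (nat_lit 392) (nat_lit 330)) (XT.lf (nat_lit 608) (nat_lit 1468340638) (nat_lit 0) (nat_lit 731785627) (nat_lit 532) (nat_lit 731785627) (nat_lit 273) (nat_lit 1) (nat_lit 265) (nat_lit 1) (nat_lit 272) (nat_lit 1) (nat_lit 419) (nat_lit 392) (nat_lit 329))) (XT.nd (nat_lit 78) (nat_lit 1140) (nat_lit 0) (XT.lf (nat_lit 76) (nat_lit 458379039)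 (nat_lit 0) (nat_lit 1991637496) (nat_lit 608) (nat_lit 458379039) (nat_lit 266) (nat_lit 1) (nat_lit 265) (nat_lit 1) (nat_lit 273) (nat_lit 1) (nat_lit 420) (nat_lit 392) (nat_lit 328)) (XT.nd (nat_lit 78) (nat_lit 608) (nat_lit 0) (XT.lf (nat_lit 608) (nat_lit 362887984) (nat_lit 0) (nat_lit 1261097728) (nat_lit 532) (nat_lit 1261097728) (nat_lit 266) (nat_lit 1) (nat_lit 258) (nat_lit 1) (nat_lit 265) (nat_lit 1) (nat_lit 421) (nat_lit 392) (nat_lit 327)) (XT.lf (nat_lit 608) (nat_lit 2680809403) (nat_lit 0) (nat_lit 90662160) (nat_lit 532) (nat_lit 90662160) (nat_lit 258) (nat_lit 1) (nat_lit 250) (nat_lit 1) (nat_lit 257) (nat_lit 1) (nat_lit 422) (nat_lit 392) (nat_lit 326))))))))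
noncomputable def ec60 : XT := (XT.nd (nat_lit 1404) (nat_lit 1976) (nat_lit 0) (XT.nd (nat_lit 702) (nat_lit 2280) (nat_lit 0) (XT.nd (nat_lit 312) (nat_lit 1520) (nat_lit 0) (XT.nd (nat_lit 156) (nat_lit 456) (nat_lit 0) (XT.nd (nat_lit 78) (nat_lit 532) (nat_lit 0) (XT.lf (nat_lit 76) (nat_lit 1055817162) (nat_lit 0) (nat_lit 727605367) (nat_lit 608) (nat_lit 1055817162) (nat_lit 251) (nat_lit 1) (nat_lit 250) (nat_lit 1) (nat_lit 258) (nat_lit 1) (nat_lit 423) (nat_lit 392) (nat_lit 325)) (XT.lf (nat_lit 608) (nat_lit 1548832662) (nat_lit 0) (nat_lit 633934019) (nat_lit 532) (nat_lit 633934019) (nat_lit 251) (nat_lit 1) (nat_lit 243) (nat_lit 1) (nat_lit 250) (nat_lit 1) (nat_lit 424) (nat_lit 392) (nat_lit 324))) (XT.nd (nat_lit 78) (nat_lit 456) (nat_lit 0) (XT.lf (nat_lit 76) (nat_lit 493404578) (nat_lit 0) (nat_lit 1807593372) (nat_lit 608) (nat_lit 493404578) (nat_lit 244) (nat_lit 1) (nat_lit 243) (nat_lit 1) (nat_lit 251) (nat_lit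 1) (nat_lit 425) (nat_lit 392) (nat_lit 323)) (XT.lf (nat_lit 532) (nat_lit 423913660) (nat_lit 0) (nat_lit 1174197370) (nat_lit 456) (nat_lit 1174197370) (nat_lit 244) (nat_lit 1) (nat_lit 237) (nat_lit 1) (nat_lit 243) (nat_lit 1) (nat_lit 426) (nat_lit 392) (nat_lit 322)))) (XT.nd (nat_lit 156) (nat_lit 912) (nat_lit 0) (XT.nd (nat_lit 78) (nat_lit 0) (nat_lit 0) (XT.lf (nat_lit 608) (nat_lit 2620666537) (nat_lit 0) (nat_lit 64945917) (nat_lit 532) (nat_lit 64945917) (nat_lit 237) (nat_lit 1) (nat_lit 229) (nat_lit 1) (nat_lit 236) (nat_lit 1) (nat_lit 427) (nat_lit 392) (nat_lit 321)) (XT.lf (nat_lit 76) (nat_lit 1022218865) (nat_lit 0) (nat_lit 684402814) (nat_lit 608) (nat_lit 1022218865) (nat_lit 230) (nat_lit 1) (nat_lit 229) (nat_lit 1) (nat_lit 237) (nat_lit 1) (nat_lit 428) (nat_lit 392) (nat_lit 320))) (XT.nd (nat_lit 78) (nat_lit 456) (nat_lit 0) (XT.lf (nat_lit 532) (nat_lit 1475004879) (nat_lit 0) (nat_lit 616227696) (nat_lit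 456) (nat_lit 616227696) (nat_lit 230) (nat_lit 1) (nat_lit 223) (nat_lit 1) (nat_lit 229) (nat_lit 1) (nat_lit 429) (nat_lit 392) (nat_lit 319)) (XT.nd (nat_lit 78) (nat_lit 456) (nat_lit 0) (XT.lf (nat_lit 76) (nat_lit 453484566) (nat_lit 0) (nat_lit 1779338551) (nat_lit 532) (nat_lit 453484566) (nat_lit 224) (nat_lit 1) (nat_lit 223) (nat_lit 1) (nat_lit 230) (nat_lit 1) (nat_lit 430) (nat_lit 392) (nat_lit 318)) (XT.lf (nat_lit 532) (nat_lit 338365167) (nat_lit 0) (nat_lit 1163487576) (nat_lit 456) (nat_lit 1163487576) (nat_lit 224) (nat_lit 1) (nat_lit 217) (nat_lit 1) (nat_lit 223) (nat_lit 1) (nat_lit 431) (nat_lit 392) (nat_lit 317)))))) (XT.nd (nat_lit 312) (nat_lit 1292) (nat_lit 0) (XT.nd (nat_lit 156) (nat_lit 456) (nat_lit 0) (XT.nd (nat_lit 78) (nat_lit 0) (nat_lit 0) (XT.lf (nat_lit 532) (nat_lit 2424808063) (nat_lit 0) (nat_lit 109937203) (nat_lit 456) (nat_lit 109937203) (nat_lit 217) (nat_lit 1) (nat_lit 210) (nat_lit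 1) (nat_lit 216) (nat_lit 1) (nat_lit 432) (nat_lit 392) (nat_lit 316)) (XT.lf (nat_lit 76) (nat_lit 922755433) (nat_lit 0) (nat_lit 778560864) (nat_lit 532) (nat_lit 922755433) (nat_lit 211) (nat_lit 1) (nat_lit 210) (nat_lit 1) (nat_lit 217) (nat_lit 1) (nat_lit 433) (nat_lit 392) (nat_lit 315))) (XT.nd (nat_lit 78) (nat_lit 0) (nat_lit 0) (XT.lf (nat_lit 532) (nat_lit 1272450326) (nat_lit 0) (nat_lit 665657181) (nat_lit 456) (nat_lit 665657181) (nat_lit 211) (nat_lit 1) (nat_lit 204) (nat_lit 1) (nat_lit 210) (nat_lit 1) (nat_lit 434) (nat_lit 392) (nat_lit 314)) (XT.lf (nat_lit 76) (nat_lit 351099722) (nat_lit 0) (nat_lit 1881491148) (nat_lit 532) (nat_lit 351099722) (nat_lit 205) (nat_lit 1) (nat_lit 204) (nat_lit 1) (nat_lit 211) (nat_lit 1) (nat_lit 435) (nat_lit 392) (nat_lit 313)))) (XT.nd (nat_lit 156) (nat_lit 380) (nat_lit 0) (XT.nd (nat_lit 78) (nat_lit 532) (nat_lit 0) (XT.lf (nat_lit 456) (nat_lit 130751721) (nat_lit 0)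 (nat_lit 1216507837) (nat_lit 380) (nat_lit 1216507837) (nat_lit 205) (nat_lit 1) (nat_lit 199) (nat_lit 1) (nat_lit 204) (nat_lit 1) (nat_lit 436) (nat_lit 392) (nat_lit 312)) (XT.lf (nat_lit 532) (nat_lit 2116579976) (nat_lit 0) (nat_lit 213762876) (nat_lit 456) (nat_lit 213762876) (nat_lit 199) (nat_lit 1) (nat_lit 192) (nat_lit 1) (nat_lit 198) (nat_lit 1) (nat_lit 437) (nat_lit 392) (nat_lit 311))) (XT.nd (nat_lit 78) (nat_lit 380) (nat_lit 0) (XT.lf (nat_lit 76) (nat_lit 768810226) (nat_lit 0) (nat_lit 986917644) (nat_lit 532) (nat_lit 768810226) (nat_lit 193) (nat_lit 1) (nat_lit 192) (nat_lit 1) (nat_lit 199) (nat_lit 1) (nat_lit 438) (nat_lit 392) (nat_lit 310)) (XT.nd (nat_lit 78) (nat_lit 0) (nat_lit 0) (XT.lf (nat_lit 456) (nat_lit 963520196) (nat_lit 0) (nat_lit 770853317) (nat_lit 380) (nat_lit 770853317) (nat_lit 193) (nat_lit 1) (nat_lit 187) (nat_lit 1) (nat_lit 192) (nat_lit 1) (nat_lit 439) (nat_lit 392) (nat_lit 309))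 (XT.lf (nat_lit 76) (nat_lit 197147939) (nat_lit 0) (nat_lit 2091873222) (nat_lit 456) (nat_lit 197147939) (nat_lit 188) (nat_lit 1) (nat_lit 187) (nat_lit 1) (nat_lit 193) (nat_lit 1) (nat_lit 440) (nat_lit 392) (nat_lit 308))))))) (XT.nd (nat_lit 52728) (nat_lit 0) (nat_lit 25612) (XT.nd (nat_lit 312) (nat_lit 760) (nat_lit 0) (XT.nd (nat_lit 156) (nat_lit 380) (nat_lit 0) (XT.nd (nat_lit 78) (nat_lit 380) (nat_lit 0) (XT.lf (nat_lit 76) (nat_lit 1145995490) (nat_lit 0) (nat_lit 175201168) (nat_lit 456) (nat_lit 1145995490) (nat_lit 182) (nat_lit 1) (nat_lit 181) (nat_lit 1) (nat_lit 187) (nat_lit 1) (nat_lit 441) (nat_lit 392) (nat_lit 307)) (XT.lf (nat_lit 456) (nat_lit 1716345507) (nat_lit 0) (nat_lit 366059229) (nat_lit 380) (nat_lit 366059229) (nat_lit 182) (nat_lit 1) (nat_lit 176) (nat_lit 1) (nat_lit 181) (nat_lit 1) (nat_lit 442) (nat_lit 392) (nat_lit 306))) (XT.nd (nat_lit 78) (nat_lit 380) (nat_lit 0) (XT.lf (nat_lit 76)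 (nat_lit 570310336) (nat_lit 0) (nat_lit 1289259454) (nat_lit 456) (nat_lit 570310336) (nat_lit 177) (nat_lit 1) (nat_lit 176) (nat_lit 1) (nat_lit 182) (nat_lit 1) (nat_lit 443) (nat_lit 392) (nat_lit 305)) (XT.lf (nat_lit 456) (nat_lit 567702589) (nat_lit 0) (nat_lit 921895887) (nat_lit 380) (nat_lit 921895887) (nat_lit 177) (nat_lit 1) (nat_lit 171) (nat_lit 1) (nat_lit 176) (nat_lit 1) (nat_lit 444) (nat_lit 392) (nat_lit 304)))) (XT.nd (nat_lit 156) (nat_lit 380) (nat_lit 0) (XT.nd (nat_lit 78) (nat_lit 380) (nat_lit 0) (XT.lf (nat_lit 76) (nat_lit 1129287) (nat_lit 0) (nat_lit 2391136814) (nat_lit 456) (nat_lit 1129287) (nat_lit 172) (nat_lit 1) (nat_lit 171) (nat_lit 1) (nat_lit 177) (nat_lit 1) (nat_lit 445) (nat_lit 392) (nat_lit 303)) (XT.lf (nat_lit 76) (nat_lit 907443412) (nat_lit 0) (nat_lit 560382280) (nat_lit 380) (nat_lit 907443412) (nat_lit 167) (nat_lit 1) (nat_lit 166) (nat_lit 1) (nat_lit 171) (nat_lit 1) (nat_lit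 446) (nat_lit 392) (nat_lit 302))) (XT.nd (nat_lit 52104) (nat_lit 0) (nat_lit 25536) (XT.lf (nat_lit 456) (nat_lit 1241834544) (nat_lit 0) (nat_lit 557795415) (nat_lit 380) (nat_lit 557795415) (nat_lit 167) (nat_lit 1) (nat_lit 161) (nat_lit 1) (nat_lit 166) (nat_lit 1) (nat_lit 447) (nat_lit 392) (nat_lit 301)) (XT.nd (nat_lit 78) (nat_lit 0) (nat_lit 0) (XT.lf (nat_lit 1900) (nat_lit 872544505) (nat_lit 0) (nat_lit 879841007) (nat_lit 1900) (nat_lit 872544505) (nat_lit 522) (nat_lit 1) (nat_lit 497) (nat_lit 0) (nat_lit 522) (nat_lit 0) (nat_lit 354) (nat_lit 393) (nat_lit 393)) (XT.lf (nat_lit 1900) (nat_lit 3450172164) (nat_lit 76) (nat_lit 874052579) (nat_lit 0) (nat_lit 874052579) (nat_lit 522) (nat_lit 1) (nat_lit 498) (nat_lit 1) (nat_lit 497) (nat_lit 0) (nat_lit 355) (nat_lit 393) (nat_lit 392)))))) (XT.nd (nat_lit 312) (nat_lit 0) (nat_lit 152) (XT.nd (nat_lit 156) (nat_lit 0) (nat_lit 76) (XT.nd (nat_lit 78) (nat_lit 0) (nat_lit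 0) (XT.lf (nat_lit 1900) (nat_lit 1694050955) (nat_lit 0) (nat_lit 1759156107) (nat_lit 1824) (nat_lit 1694050955) (nat_lit 523) (nat_lit 1) (nat_lit 498) (nat_lit 1) (nat_lit 522) (nat_lit 1) (nat_lit 356) (nat_lit 393) (nat_lit 391)) (XT.lf (nat_lit 1900) (nat_lit 3315675327) (nat_lit 76) (nat_lit 890668418) (nat_lit 0) (nat_lit 890668418) (nat_lit 523) (nat_lit 1) (nat_lit 499) (nat_lit 1) (nat_lit 498) (nat_lit 1) (nat_lit 357) (nat_lit 393) (nat_lit 390))) (XT.nd (nat_lit 78) (nat_lit 0) (nat_lit 0) (XT.lf (nat_lit 1900) (nat_lit 1611355378) (nat_lit 0) (nat_lit 1824610212) (nat_lit 1824) (nat_lit 1611355378) (nat_lit 524) (nat_lit 1) (nat_lit 499) (nat_lit 1) (nat_lit 523) (nat_lit 1) (nat_lit 358) (nat_lit 393) (nat_lit 389)) (XT.lf (nat_lit 1900) (nat_lit 3119565006) (nat_lit 76) (nat_lit 939401866) (nat_lit 0) (nat_lit 939401866) (nat_lit 524) (nat_lit 1) (nat_lit 500) (nat_lit 1) (nat_lit 499) (nat_lit 1) (nat_lit 359) (nat_lit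 393) (nat_lit 388)))) (XT.nd (nat_lit 156) (nat_lit 0) (nat_lit 76) (XT.nd (nat_lit 78) (nat_lit 0) (nat_lit 0) (XT.lf (nat_lit 1900) (nat_lit 1498891175) (nat_lit 0) (nat_lit 1952188919) (nat_lit 1824) (nat_lit 1498891175) (nat_lit 525) (nat_lit 1) (nat_lit 500) (nat_lit 1) (nat_lit 524) (nat_lit 1) (nat_lit 360) (nat_lit 393) (nat_lit 387)) (XT.lf (nat_lit 1900) (nat_lit 2865544243) (nat_lit 76) (nat_lit 1018363349) (nat_lit 0) (nat_lit 1018363349) (nat_lit 525) (nat_lit 1) (nat_lit 501) (nat_lit 1) (nat_lit 500) (nat_lit 1) (nat_lit 361) (nat_lit 393) (nat_lit 386))) (XT.nd (nat_lit 78) (nat_lit 0) (nat_lit 0) (XT.lf (nat_lit 1900) (nat_lit 1358460962) (nat_lit 0) (nat_lit 2138211889) (nat_lit 1824) (nat_lit 1358460962) (nat_lit 526) (nat_lit 1) (nat_lit 501) (nat_lit 1) (nat_lit 525) (nat_lit 1) (nat_lit 362) (nat_lit 393) (nat_lit 385)) (XT.nd (nat_lit 78) (nat_lit 0) (nat_lit 76) (XT.lf (nat_lit 1900) (nat_lit 2557146586) (nat_lit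 76) (nat_lit 1125749265) (nat_lit 0) (nat_lit 1125749265) (nat_lit 526) (nat_lit 1) (nat_lit 502) (nat_lit 1) (nat_lit 501) (nat_lit 1) (nat_lit 363) (nat_lit 393) (nat_lit 384)) (XT.lf (nat_lit 1900) (nat_lit 1191784675) (nat_lit 0) (nat_lit 2379166556) (nat_lit 1824) (nat_lit 1191784675) (nat_lit 527) (nat_lit 1) (nat_lit 502) (nat_lit 1) (nat_lit 526) (nat_lit 1) (nat_lit 364) (nat_lit 393) (nat_lit 383))))))))
noncomputable def ec61 : XT := (XT.nd (nat_lit 1404) (nat_lit 8208) (nat_lit 0) (XT.nd (nat_lit 702) (nat_lit 3420) (nat_lit 0) (XT.nd (nat_lit 312) (nat_lit 0) (nat_lit 152) (XT.nd (nat_lit 156) (nat_lit 0) (nat_lit 76) (XT.nd (nat_lit 78) (nat_lit 0) (nat_lit 76) (XT.lf (nat_lit 1900) (nat_lit 2197743180) (nat_lit 76) (nat_lit 1259838394) (nat_lit 0) (nat_lit 1259838394) (nat_lit 527) (nat_lit 1) (nat_lit 503) (nat_lit 1) (nat_lit 502) (nat_lit 1) (nat_lit 365) (nat_lit 393) (nat_lit 382)) (XT.lf (nat_lit 1900) (nat_lit 1000503034)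 (nat_lit 0) (nat_lit 2671701126) (nat_lit 1824) (nat_lit 1000503034) (nat_lit 528) (nat_lit 1) (nat_lit 503) (nat_lit 1) (nat_lit 527) (nat_lit 1) (nat_lit 366) (nat_lit 393) (nat_lit 381))) (XT.nd (nat_lit 78) (nat_lit 0) (nat_lit 76) (XT.lf (nat_lit 1900) (nat_lit 1790549567) (nat_lit 76) (nat_lit 1418988464) (nat_lit 0) (nat_lit 1418988464) (nat_lit 528) (nat_lit 1) (nat_lit 504) (nat_lit 1) (nat_lit 503) (nat_lit 1) (nat_lit 367) (nat_lit 393) (nat_lit 380)) (XT.lf (nat_lit 1900) (nat_lit 786180859) (nat_lit 0) (nat_lit 3012617856) (nat_lit 1824) (nat_lit 786180859) (nat_lit 529) (nat_lit 1) (nat_lit 504) (nat_lit 1) (nat_lit 528) (nat_lit 1) (nat_lit 368) (nat_lit 393) (nat_lit 379)))) (XT.nd (nat_lit 156) (nat_lit 0) (nat_lit 76) (XT.nd (nat_lit 78) (nat_lit 0) (nat_lit 76) (XT.lf (nat_lit 1900) (nat_lit 1338632210) (nat_lit 76) (nat_lit 1601632840) (nat_lit 0) (nat_lit 1601632840) (nat_lit 529) (nat_lit 1) (nat_lit 505) (nat_lit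 1) (nat_lit 504) (nat_lit 1) (nat_lit 369) (nat_lit 393) (nat_lit 378)) (XT.lf (nat_lit 1900) (nat_lit 550310259) (nat_lit 0) (nat_lit 3398866602) (nat_lit 1824) (nat_lit 550310259) (nat_lit 530) (nat_lit 1) (nat_lit 505) (nat_lit 1) (nat_lit 529) (nat_lit 1) (nat_lit 370) (nat_lit 393) (nat_lit 377))) (XT.nd (nat_lit 78) (nat_lit 0) (nat_lit 76) (XT.lf (nat_lit 1900) (nat_lit 844914758) (nat_lit 76) (nat_lit 1806277362) (nat_lit 0) (nat_lit 1806277362) (nat_lit 530) (nat_lit 1) (nat_lit 506) (nat_lit 1) (nat_lit 505) (nat_lit 1) (nat_lit 371) (nat_lit 393) (nat_lit 376)) (XT.nd (nat_lit 78) (nat_lit 0) (nat_lit 0) (XT.lf (nat_lit 1900) (nat_lit 294313687) (nat_lit 0) (nat_lit 3827538631) (nat_lit 1824) (nat_lit 294313687) (nat_lit 531) (nat_lit 1) (nat_lit 506) (nat_lit 1) (nat_lit 530) (nat_lit 1) (nat_lit 372) (nat_lit 393) (nat_lit 375)) (XT.lf (nat_lit 1900) (nat_lit 312184059) (nat_lit 76) (nat_lit 2031497297) (nat_lit 0) (nat_lit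 2031497297) (nat_lit 531) (nat_lit 1) (nat_lit 507) (nat_lit 1) (nat_lit 506) (nat_lit 1) (nat_lit 373) (nat_lit 393) (nat_lit 374)))))) (XT.nd (nat_lit 312) (nat_lit 1900) (nat_lit 0) (XT.nd (nat_lit 156) (nat_lit 0) (nat_lit 0) (XT.nd (nat_lit 78) (nat_lit 1900) (nat_lit 0) (XT.lf (nat_lit 1900) (nat_lit 19546878) (nat_lit 0) (nat_lit 4295860679) (nat_lit 1824) (nat_lit 19546878) (nat_lit 532) (nat_lit 1) (nat_lit 507) (nat_lit 1) (nat_lit 531) (nat_lit 1) (nat_lit 374) (nat_lit 393) (nat_lit 373)) (XT.lf (nat_lit 1976) (nat_lit 2020698336) (nat_lit 0) (nat_lit 253534733) (nat_lit 1900) (nat_lit 2020698336) (nat_lit 508) (nat_lit 1) (nat_lit 482) (nat_lit 1) (nat_lit 507) (nat_lit 1) (nat_lit 375) (nat_lit 393) (nat_lit 372))) (XT.nd (nat_lit 78) (nat_lit 0) (nat_lit 76) (XT.lf (nat_lit 1976) (nat_lit 3713841907) (nat_lit 76) (nat_lit 270904271) (nat_lit 0) (nat_lit 270904271) (nat_lit 508) (nat_lit 1) (nat_lit 483) (nat_lit 1) (nat_lit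 482) (nat_lit 1) (nat_lit 376) (nat_lit 393) (nat_lit 371)) (XT.lf (nat_lit 1976) (nat_lit 1684057402) (nat_lit 0) (nat_lit 848542648) (nat_lit 1900) (nat_lit 1684057402) (nat_lit 509) (nat_lit 1) (nat_lit 483) (nat_lit 1) (nat_lit 508) (nat_lit 1) (nat_lit 377) (nat_lit 393) (nat_lit 370)))) (XT.nd (nat_lit 156) (nat_lit 1976) (nat_lit 0) (XT.nd (nat_lit 78) (nat_lit 0) (nat_lit 76) (XT.lf (nat_lit 1976) (nat_lit 3023584147) (nat_lit 76) (nat_lit 577367708) (nat_lit 0) (nat_lit 577367708) (nat_lit 509) (nat_lit 1) (nat_lit 484) (nat_lit 1) (nat_lit 483) (nat_lit 1) (nat_lit 378) (nat_lit 393) (nat_lit 369)) (XT.lf (nat_lit 76) (nat_lit 1332892628) (nat_lit 0) (nat_lit 1474555519) (nat_lit 1900) (nat_lit 1332892628) (nat_lit 485) (nat_lit 1) (nat_lit 484) (nat_lit 1) (nat_lit 509) (nat_lit 1) (nat_lit 379) (nat_lit 393) (nat_lit 368))) (XT.nd (nat_lit 78) (nat_lit 912) (nat_lit 0) (XT.lf (nat_lit 1216) (nat_lit 2305301007) (nat_lit 0)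 (nat_lit 898807723) (nat_lit 1140) (nat_lit 898807723) (nat_lit 485) (nat_lit 1) (nat_lit 469) (nat_lit 1) (nat_lit 484) (nat_lit 1) (nat_lit 380) (nat_lit 393) (nat_lit 367)) (XT.nd (nat_lit 78) (nat_lit 912) (nat_lit 0) (XT.lf (nat_lit 76) (nat_lit 968309091) (nat_lit 0) (nat_lit 2129308408) (nat_lit 1216) (nat_lit 968309091) (nat_lit 470) (nat_lit 1) (nat_lit 469) (nat_lit 1) (nat_lit 485) (nat_lit 1) (nat_lit 381) (nat_lit 393) (nat_lit 366)) (XT.lf (nat_lit 988) (nat_lit 1561155825) (nat_lit 0) (nat_lit 1234115758) (nat_lit 912) (nat_lit 1234115758) (nat_lit 470) (nat_lit 1) (nat_lit 457) (nat_lit 1) (nat_lit 469) (nat_lit 1) (nat_lit 382) (nat_lit 393) (nat_lit 365))))))) (XT.nd (nat_lit 702) (nat_lit 3800) (nat_lit 0) (XT.nd (nat_lit 312) (nat_lit 2660) (nat_lit 0) (XT.nd (nat_lit 156) (nat_lit 836) (nat_lit 0) (XT.nd (nat_lit 78) (nat_lit 912) (nat_lit 0) (XT.lf (nat_lit 76) (nat_lit 591358347) (nat_lit 0) (nat_lit 2810645132)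 (nat_lit 988) (nat_lit 591358347) (nat_lit 458) (nat_lit 1) (nat_lit 457) (nat_lit 1) (nat_lit 470) (nat_lit 1) (nat_lit 383) (nat_lit 393) (nat_lit 364)) (XT.lf (nat_lit 988) (nat_lit 793206852) (nat_lit 0) (nat_lit 1582236635) (nat_lit 912) (nat_lit 1582236635) (nat_lit 458) (nat_lit 1) (nat_lit 445) (nat_lit 1) (nat_lit 457) (nat_lit 1) (nat_lit 384) (nat_lit 393) (nat_lit 363))) (XT.nd (nat_lit 78) (nat_lit 836) (nat_lit 0) (XT.lf (nat_lit 76) (nat_lit 203040716) (nat_lit 0) (nat_lit 3516513629) (nat_lit 988) (nat_lit 203040716) (nat_lit 446) (nat_lit 1) (nat_lit 445) (nat_lit 1) (nat_lit 458) (nat_lit 1) (nat_lit 385) (nat_lit 393) (nat_lit 362)) (XT.lf (nat_lit 912) (nat_lit 3411748) (nat_lit 0) (nat_lit 1942166283) (nat_lit 836) (nat_lit 1942166283) (nat_lit 446) (nat_lit 1) (nat_lit 434) (nat_lit 1) (nat_lit 445) (nat_lit 1) (nat_lit 386) (nat_lit 393) (nat_lit 361)))) (XT.nd (nat_lit 156) (nat_lit 1672) (nat_lit 0) (XT.nd (nat_lit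 78) (nat_lit 0) (nat_lit 0) (XT.lf (nat_lit 988) (nat_lit 3464664344) (nat_lit 0) (nat_lit 194405071) (nat_lit 912) (nat_lit 194405071) (nat_lit 434) (nat_lit 1) (nat_lit 421) (nat_lit 1) (nat_lit 433) (nat_lit 1) (nat_lit 387) (nat_lit 393) (nat_lit 360)) (XT.lf (nat_lit 76) (nat_lit 1511816922) (nat_lit 0) (nat_lit 795792440) (nat_lit 988) (nat_lit 1511816922) (nat_lit 422) (nat_lit 1) (nat_lit 421) (nat_lit 1) (nat_lit 434) (nat_lit 1) (nat_lit 388) (nat_lit 393) (nat_lit 359))) (XT.nd (nat_lit 78) (nat_lit 836) (nat_lit 0) (XT.lf (nat_lit 912) (nat_lit 2586015524) (nat_lit 0) (nat_lit 599963756) (nat_lit 836) (nat_lit 599963756) (nat_lit 422) (nat_lit 1) (nat_lit 410) (nat_lit 1) (nat_lit 421) (nat_lit 1) (nat_lit 389) (nat_lit 393) (nat_lit 358)) (XT.nd (nat_lit 78) (nat_lit 836) (nat_lit 0) (XT.lf (nat_lit 76) (nat_lit 1069926012) (nat_lit 0) (nat_lit 1612928496) (nat_lit 912) (nat_lit 1069926012) (nat_lit 411) (nat_lit 1) (nat_lit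 410) (nat_lit 1) (nat_lit 422) (nat_lit 1) (nat_lit 390) (nat_lit 393) (nat_lit 357)) (XT.lf (nat_lit 912) (nat_lit 1691825458) (nat_lit 0) (nat_lit 1014117363) (nat_lit 836) (nat_lit 1014117363) (nat_lit 411) (nat_lit 1) (nat_lit 399) (nat_lit 1) (nat_lit 410) (nat_lit 1) (nat_lit 391) (nat_lit 393) (nat_lit 356)))))) (XT.nd (nat_lit 390) (nat_lit 1444) (nat_lit 0) (XT.nd (nat_lit 156) (nat_lit 1596) (nat_lit 0) (XT.nd (nat_lit 78) (nat_lit 760) (nat_lit 0) (XT.lf (nat_lit 76) (nat_lit 620689792) (nat_lit 0) (nat_lit 2446382151) (nat_lit 912) (nat_lit 620689792) (nat_lit 400) (nat_lit 1) (nat_lit 399) (nat_lit 1) (nat_lit 411) (nat_lit 1) (nat_lit 392) (nat_lit 393) (nat_lit 355)) (XT.lf (nat_lit 836) (nat_lit 783671362) (nat_lit 0) (nat_lit 1436054822) (nat_lit 760) (nat_lit 1436054822) (nat_lit 400) (nat_lit 1) (nat_lit 389) (nat_lit 1) (nat_lit 399) (nat_lit 1) (nat_lit 393) (nat_lit 393) (nat_lit 354))) (XT.nd (nat_lit 78) (nat_lit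 1596) (nat_lit 0) (XT.lf (nat_lit 76) (nat_lit 164873967) (nat_lit 0) (nat_lit 3294577655) (nat_lit 836) (nat_lit 164873967) (nat_lit 390) (nat_lit 1) (nat_lit 389) (nat_lit 1) (nat_lit 400) (nat_lit 1) (nat_lit 394) (nat_lit 393) (nat_lit 353)) (XT.nd (nat_lit 78) (nat_lit 760) (nat_lit 0) (XT.lf (nat_lit 76) (nat_lit 1728945201) (nat_lit 0) (nat_lit 135153763) (nat_lit 836) (nat_lit 1728945201) (nat_lit 379) (nat_lit 1) (nat_lit 378) (nat_lit 1) (nat_lit 389) (nat_lit 1) (nat_lit 395) (nat_lit 393) (nat_lit 352)) (XT.lf (nat_lit 836) (nat_lit 2972589808) (nat_lit 0) (nat_lit 294842309) (nat_lit 760) (nat_lit 294842309) (nat_lit 379) (nat_lit 1) (nat_lit 368) (nat_lit 1) (nat_lit 378) (nat_lit 1) (nat_lit 396) (nat_lit 393) (nat_lit 351))))) (XT.nd (nat_lit 156) (nat_lit 684) (nat_lit 0) (XT.nd (nat_lit 78) (nat_lit 760) (nat_lit 0) (XT.lf (nat_lit 76) (nat_lit 1238559443) (nat_lit 0) (nat_lit 1054603131) (nat_lit 836) (nat_lit 1238559443)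 (nat_lit 369) (nat_lit 1) (nat_lit 368) (nat_lit 1) (nat_lit 379) (nat_lit 1) (nat_lit 397) (nat_lit 393) (nat_lit 350)) (XT.lf (nat_lit 836) (nat_lit 1984424901) (nat_lit 0) (nat_lit 758603864) (nat_lit 760) (nat_lit 758603864) (nat_lit 369) (nat_lit 1) (nat_lit 358) (nat_lit 1) (nat_lit 368) (nat_lit 1) (nat_lit 398) (nat_lit 393) (nat_lit 349))) (XT.nd (nat_lit 78) (nat_lit 684) (nat_lit 0) (XT.lf (nat_lit 76) (nat_lit 744124848) (nat_lit 0) (nat_lit 1983625851) (nat_lit 836) (nat_lit 744124848) (nat_lit 359) (nat_lit 1) (nat_lit 358) (nat_lit 1) (nat_lit 369) (nat_lit 1) (nat_lit 399) (nat_lit 393) (nat_lit 348)) (XT.nd (nat_lit 78) (nat_lit 0) (nat_lit 0) (XT.lf (nat_lit 760) (nat_lit 988753247) (nat_lit 0) (nat_lit 1226846402) (nat_lit 684) (nat_lit 1226846402) (nat_lit 359) (nat_lit 1) (nat_lit 349) (nat_lit 1) (nat_lit 358) (nat_lit 1) (nat_lit 400) (nat_lit 393) (nat_lit 347)) (XT.lf (nat_lit 76) (nat_lit 246251405) (nat_lit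 0) (nat_lit 2920962401) (nat_lit 760) (nat_lit 246251405) (nat_lit 350) (nat_lit 1) (nat_lit 349) (nat_lit 1) (nat_lit 359) (nat_lit 1) (nat_lit 401) (nat_lit 393) (nat_lit 346))))))))
noncomputable def ec62 : XT := (XT.nd (nat_lit 1404) (nat_lit 5396) (nat_lit 0) (XT.nd (nat_lit 702) (nat_lit 2888) (nat_lit 0) (XT.nd (nat_lit 312) (nat_lit 1900) (nat_lit 0) (XT.nd (nat_lit 156) (nat_lit 684) (nat_lit 0) (XT.nd (nat_lit 78) (nat_lit 684) (nat_lit 0) (XT.lf (nat_lit 76) (nat_lit 1685806795) (nat_lit 0) (nat_lit 13060514) (nat_lit 760) (nat_lit 1685806795) (nat_lit 340) (nat_lit 1) (nat_lit 339) (nat_lit 1) (nat_lit 349) (nat_lit 1) (nat_lit 402) (nat_lit 393) (nat_lit 345)) (XT.lf (nat_lit 760) (nat_lit 2850701568) (nat_lit 0) (nat_lit 252809228) (nat_lit 684) (nat_lit 252809228) (nat_lit 340) (nat_lit 1) (nat_lit 330) (nat_lit 1) (nat_lit 339) (nat_lit 1) (nat_lit 403) (nat_lit 393) (nat_lit 344))) (XT.nd (nat_lit 78) (nat_lit 684) (nat_lit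 0) (XT.lf (nat_lit 76) (nat_lit 1160562344) (nat_lit 0) (nat_lit 1007027044) (nat_lit 760) (nat_lit 1160562344) (nat_lit 331) (nat_lit 1) (nat_lit 330) (nat_lit 1) (nat_lit 340) (nat_lit 1) (nat_lit 404) (nat_lit 393) (nat_lit 343)) (XT.lf (nat_lit 760) (nat_lit 1795306493) (nat_lit 0) (nat_lit 752549681) (nat_lit 684) (nat_lit 752549681) (nat_lit 331) (nat_lit 1) (nat_lit 321) (nat_lit 1) (nat_lit 330) (nat_lit 1) (nat_lit 405) (nat_lit 393) (nat_lit 342)))) (XT.nd (nat_lit 156) (nat_lit 1292) (nat_lit 0) (XT.nd (nat_lit 78) (nat_lit 608) (nat_lit 0) (XT.lf (nat_lit 76) (nat_lit 633954505) (nat_lit 0) (nat_lit 2005061880) (nat_lit 760) (nat_lit 633954505) (nat_lit 322) (nat_lit 1) (nat_lit 321) (nat_lit 1) (nat_lit 331) (nat_lit 1) (nat_lit 406) (nat_lit 393) (nat_lit 341)) (XT.lf (nat_lit 684) (nat_lit 737661459) (nat_lit 0) (nat_lit 1254076877) (nat_lit 608) (nat_lit 1254076877) (nat_lit 322) (nat_lit 1) (nat_lit 313) (nat_lit 1) (nat_lit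 321) (nat_lit 1) (nat_lit 407) (nat_lit 393) (nat_lit 340))) (XT.nd (nat_lit 78) (nat_lit 1292) (nat_lit 0) (XT.lf (nat_lit 76) (nat_lit 106462871) (nat_lit 0) (nat_lit 3006170471) (nat_lit 684) (nat_lit 106462871) (nat_lit 314) (nat_lit 1) (nat_lit 313) (nat_lit 1) (nat_lit 322) (nat_lit 1) (nat_lit 408) (nat_lit 393) (nat_lit 339)) (XT.nd (nat_lit 78) (nat_lit 608) (nat_lit 0) (XT.lf (nat_lit 76) (nat_lit 1437693506) (nat_lit 0) (nat_lit 317084588) (nat_lit 684) (nat_lit 1437693506) (nat_lit 305) (nat_lit 1) (nat_lit 304) (nat_lit 1) (nat_lit 313) (nat_lit 1) (nat_lit 409) (nat_lit 393) (nat_lit 338)) (XT.lf (nat_lit 684) (nat_lit 2328899362) (nat_lit 0) (nat_lit 418687189) (nat_lit 608) (nat_lit 418687189) (nat_lit 305) (nat_lit 1) (nat_lit 296) (nat_lit 1) (nat_lit 304) (nat_lit 1) (nat_lit 410) (nat_lit 393) (nat_lit 337)))))) (XT.nd (nat_lit 312) (nat_lit 1748) (nat_lit 0) (XT.nd (nat_lit 156) (nat_lit 532) (nat_lit 0) (XT.nd (nat_lit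 78) (nat_lit 608) (nat_lit 0) (XT.lf (nat_lit 76) (nat_lit 888851990) (nat_lit 0) (nat_lit 1362583167) (nat_lit 684) (nat_lit 888851990) (nat_lit 297) (nat_lit 1) (nat_lit 296) (nat_lit 1) (nat_lit 305) (nat_lit 1) (nat_lit 411) (nat_lit 393) (nat_lit 336)) (XT.lf (nat_lit 684) (nat_lit 1228351988) (nat_lit 0) (nat_lit 943141168) (nat_lit 608) (nat_lit 943141168) (nat_lit 297) (nat_lit 1) (nat_lit 288) (nat_lit 1) (nat_lit 296) (nat_lit 1) (nat_lit 412) (nat_lit 393) (nat_lit 335))) (XT.nd (nat_lit 78) (nat_lit 532) (nat_lit 0) (XT.lf (nat_lit 76) (nat_lit 340818411) (nat_lit 0) (nat_lit 2407688170) (nat_lit 684) (nat_lit 340818411) (nat_lit 289) (nat_lit 1) (nat_lit 288) (nat_lit 1) (nat_lit 297) (nat_lit 1) (nat_lit 413) (nat_lit 393) (nat_lit 334)) (XT.lf (nat_lit 608) (nat_lit 129801507) (nat_lit 0) (nat_lit 1467199912) (nat_lit 532) (nat_lit 1467199912) (nat_lit 289) (nat_lit 1) (nat_lit 281) (nat_lit 1) (nat_lit 288) (nat_lit 1)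 (nat_lit 414) (nat_lit 393) (nat_lit 333)))) (XT.nd (nat_lit 156) (nat_lit 1064) (nat_lit 0) (XT.nd (nat_lit 78) (nat_lit 0) (nat_lit 0) (XT.lf (nat_lit 684) (nat_lit 2630083949) (nat_lit 0) (nat_lit 204681055) (nat_lit 608) (nat_lit 204681055) (nat_lit 281) (nat_lit 1) (nat_lit 272) (nat_lit 1) (nat_lit 280) (nat_lit 1) (nat_lit 415) (nat_lit 393) (nat_lit 332)) (XT.lf (nat_lit 76) (nat_lit 1030728491) (nat_lit 0) (nat_lit 953361154) (nat_lit 684) (nat_lit 1030728491) (nat_lit 273) (nat_lit 1) (nat_lit 272) (nat_lit 1) (nat_lit 281) (nat_lit 1) (nat_lit 416) (nat_lit 393) (nat_lit 331))) (XT.nd (nat_lit 78) (nat_lit 532) (nat_lit 0) (XT.lf (nat_lit 608) (nat_lit 1497707451) (nat_lit 0) (nat_lit 746421339) (nat_lit 532) (nat_lit 746421339) (nat_lit 273) (nat_lit 1) (nat_lit 265) (nat_lit 1) (nat_lit 272) (nat_lit 1) (nat_lit 417) (nat_lit 393) (nat_lit 330)) (XT.nd (nat_lit 78) (nat_lit 532) (nat_lit 0) (XT.lf (nat_lit 76) (nat_lit 467546619)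 (nat_lit 0) (nat_lit 2031470246) (nat_lit 608) (nat_lit 467546619) (nat_lit 266) (nat_lit 1) (nat_lit 265) (nat_lit 1) (nat_lit 273) (nat_lit 1) (nat_lit 418) (nat_lit 393) (nat_lit 329)) (XT.lf (nat_lit 608) (nat_lit 370145743) (nat_lit 0) (nat_lit 1286319683) (nat_lit 532) (nat_lit 1286319683) (nat_lit 266) (nat_lit 1) (nat_lit 258) (nat_lit 1) (nat_lit 265) (nat_lit 1) (nat_lit 419) (nat_lit 393) (nat_lit 328))))))) (XT.nd (nat_lit 702) (nat_lit 2736) (nat_lit 0) (XT.nd (nat_lit 312) (nat_lit 1520) (nat_lit 0) (XT.nd (nat_lit 156) (nat_lit 532) (nat_lit 0) (XT.nd (nat_lit 78) (nat_lit 0) (nat_lit 0) (XT.lf (nat_lit 608) (nat_lit 2734425591) (nat_lit 0) (nat_lit 92475403) (nat_lit 532) (nat_lit 92475403) (nat_lit 258) (nat_lit 1) (nat_lit 250) (nat_lit 1) (nat_lit 257) (nat_lit 1) (nat_lit 420) (nat_lit 393) (nat_lit 327)) (XT.lf (nat_lit 76) (nat_lit 1076933505) (nat_lit 0) (nat_lit 742157474) (nat_lit 608) (nat_lit 1076933505) (nat_lit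 251) (nat_lit 1) (nat_lit 250) (nat_lit 1) (nat_lit 258) (nat_lit 1) (nat_lit 421) (nat_lit 393) (nat_lit 326))) (XT.nd (nat_lit 78) (nat_lit 0) (nat_lit 0) (XT.lf (nat_lit 608) (nat_lit 1579809315) (nat_lit 0) (nat_lit 646612699) (nat_lit 532) (nat_lit 646612699) (nat_lit 251) (nat_lit 1) (nat_lit 243) (nat_lit 1) (nat_lit 250) (nat_lit 1) (nat_lit 422) (nat_lit 393) (nat_lit 325)) (XT.lf (nat_lit 76) (nat_lit 503272670) (nat_lit 0) (nat_lit 1843745240) (nat_lit 608) (nat_lit 503272670) (nat_lit 244) (nat_lit 1) (nat_lit 243) (nat_lit 1) (nat_lit 251) (nat_lit 1) (nat_lit 423) (nat_lit 393) (nat_lit 324)))) (XT.nd (nat_lit 156) (nat_lit 456) (nat_lit 0) (XT.nd (nat_lit 78) (nat_lit 608) (nat_lit 0) (XT.lf (nat_lit 532) (nat_lit 432391933) (nat_lit 0) (nat_lit 1197681318) (nat_lit 456) (nat_lit 1197681318) (nat_lit 244) (nat_lit 1) (nat_lit 237) (nat_lit 1) (nat_lit 243) (nat_lit 1) (nat_lit 424) (nat_lit 393) (nat_lit 323)) (XT.lf (nat_lit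 608) (nat_lit 2673079868) (nat_lit 0) (nat_lit 66244835) (nat_lit 532) (nat_lit 66244835) (nat_lit 237) (nat_lit 1) (nat_lit 229) (nat_lit 1) (nat_lit 236) (nat_lit 1) (nat_lit 425) (nat_lit 393) (nat_lit 322))) (XT.nd (nat_lit 78) (nat_lit 456) (nat_lit 0) (XT.lf (nat_lit 76) (nat_lit 1042663243) (nat_lit 0) (nat_lit 698090870) (nat_lit 608) (nat_lit 1042663243) (nat_lit 230) (nat_lit 1) (nat_lit 229) (nat_lit 1) (nat_lit 237) (nat_lit 1) (nat_lit 426) (nat_lit 393) (nat_lit 321)) (XT.nd (nat_lit 78) (nat_lit 0) (nat_lit 0) (XT.lf (nat_lit 532) (nat_lit 1504504977) (nat_lit 0) (nat_lit 628552250) (nat_lit 456) (nat_lit 628552250) (nat_lit 230) (nat_lit 1) (nat_lit 223) (nat_lit 1) (nat_lit 229) (nat_lit 1) (nat_lit 427) (nat_lit 393) (nat_lit 320)) (XT.lf (nat_lit 76) (nat_lit 462554257) (nat_lit 0) (nat_lit 1814925322) (nat_lit 532) (nat_lit 462554257) (nat_lit 224) (nat_lit 1) (nat_lit 223) (nat_lit 1) (nat_lit 230) (nat_lit 1) (nat_lit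 428) (nat_lit 393) (nat_lit 319)))))) (XT.nd (nat_lit 390) (nat_lit 1292) (nat_lit 0) (XT.nd (nat_lit 156) (nat_lit 456) (nat_lit 0) (XT.nd (nat_lit 78) (nat_lit 532) (nat_lit 0) (XT.lf (nat_lit 532) (nat_lit 345132471) (nat_lit 0) (nat_lit 1186757328) (nat_lit 456) (nat_lit 1186757328) (nat_lit 224) (nat_lit 1) (nat_lit 217) (nat_lit 1) (nat_lit 223) (nat_lit 1) (nat_lit 429) (nat_lit 393) (nat_lit 318)) (XT.lf (nat_lit 532) (nat_lit 2473304225) (nat_lit 0) (nat_lit 112135947) (nat_lit 456) (nat_lit 112135947) (nat_lit 217) (nat_lit 1) (nat_lit 210) (nat_lit 1) (nat_lit 216) (nat_lit 1) (nat_lit 430) (nat_lit 393) (nat_lit 317))) (XT.nd (nat_lit 78) (nat_lit 456) (nat_lit 0) (XT.lf (nat_lit 76) (nat_lit 941210541) (nat_lit 0) (nat_lit 794132081) (nat_lit 532) (nat_lit 941210541) (nat_lit 211) (nat_lit 1) (nat_lit 210) (nat_lit 1) (nat_lit 217) (nat_lit 1) (nat_lit 431) (nat_lit 393) (nat_lit 316)) (XT.nd (nat_lit 78) (nat_lit 0) (nat_lit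 0) (XT.lf (nat_lit 532) (nat_lit 1297899333) (nat_lit 0) (nat_lit 678970325) (nat_lit 456) (nat_lit 678970325) (nat_lit 211) (nat_lit 1) (nat_lit 204) (nat_lit 1) (nat_lit 210) (nat_lit 1) (nat_lit 432) (nat_lit 393) (nat_lit 315)) (XT.lf (nat_lit 76) (nat_lit 358121716) (nat_lit 0) (nat_lit 1919120971) (nat_lit 532) (nat_lit 358121716) (nat_lit 205) (nat_lit 1) (nat_lit 204) (nat_lit 1) (nat_lit 211) (nat_lit 1) (nat_lit 433) (nat_lit 393) (nat_lit 314))))) (XT.nd (nat_lit 156) (nat_lit 380) (nat_lit 0) (XT.nd (nat_lit 78) (nat_lit 532) (nat_lit 0) (XT.lf (nat_lit 456) (nat_lit 133366755) (nat_lit 0) (nat_lit 1240837994) (nat_lit 380) (nat_lit 1240837994) (nat_lit 205) (nat_lit 1) (nat_lit 199) (nat_lit 1) (nat_lit 204) (nat_lit 1) (nat_lit 434) (nat_lit 393) (nat_lit 313)) (XT.lf (nat_lit 532) (nat_lit 2158911576) (nat_lit 0) (nat_lit 218038134) (nat_lit 456) (nat_lit 218038134) (nat_lit 199) (nat_lit 1) (nat_lit 192) (nat_lit 1) (nat_lit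 198) (nat_lit 1) (nat_lit 435) (nat_lit 393) (nat_lit 312))) (XT.nd (nat_lit 78) (nat_lit 380) (nat_lit 0) (XT.lf (nat_lit 76) (nat_lit 784186430) (nat_lit 0) (nat_lit 1006655997) (nat_lit 532) (nat_lit 784186430) (nat_lit 193) (nat_lit 1) (nat_lit 192) (nat_lit 1) (nat_lit 199) (nat_lit 1) (nat_lit 436) (nat_lit 393) (nat_lit 311)) (XT.nd (nat_lit 78) (nat_lit 0) (nat_lit 0) (XT.lf (nat_lit 456) (nat_lit 982790600) (nat_lit 0) (nat_lit 786270383) (nat_lit 380) (nat_lit 786270383) (nat_lit 193) (nat_lit 1) (nat_lit 187) (nat_lit 1) (nat_lit 192) (nat_lit 1) (nat_lit 437) (nat_lit 393) (nat_lit 310)) (XT.lf (nat_lit 76) (nat_lit 201090898) (nat_lit 0) (nat_lit 2133710686) (nat_lit 456) (nat_lit 201090898) (nat_lit 188) (nat_lit 1) (nat_lit 187) (nat_lit 1) (nat_lit 193) (nat_lit 1) (nat_lit 438) (nat_lit 393) (nat_lit 309))))))))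
noncomputable def ec63 : XT := (XT.nd (nat_lit 53274) (nat_lit 0) (nat_lit 23712) (XT.nd (nat_lit 52572) (nat_lit 0) (nat_lit 25840) (XT.nd (nat_lit 312) (nat_lit 1064) (nat_lit 0) (XT.nd (nat_lit 156) (nat_lit 380) (nat_lit 0) (XT.nd (nat_lit 78) (nat_lit 380) (nat_lit 0) (XT.lf (nat_lit 76) (nat_lit 1168915400) (nat_lit 0) (nat_lit 178705192) (nat_lit 456) (nat_lit 1168915400) (nat_lit 182) (nat_lit 1) (nat_lit 181) (nat_lit 1) (nat_lit 187) (nat_lit 1) (nat_lit 439) (nat_lit 393) (nat_lit 308)) (XT.lf (nat_lit 456) (nat_lit 1750672417) (nat_lit 0) (nat_lit 373380413) (nat_lit 380) (nat_lit 373380413) (nat_lit 182) (nat_lit 1) (nat_lit 176) (nat_lit 1) (nat_lit 181) (nat_lit 1) (nat_lit 440) (nat_lit 393) (nat_lit 307))) (XT.nd (nat_lit 78) (nat_lit 380) (nat_lit 0) (XT.lf (nat_lit 76) (nat_lit 581716542) (nat_lit 0) (nat_lit 1315044644) (nat_lit 456) (nat_lit 581716542) (nat_lit 177) (nat_lit 1) (nat_lit 176) (nat_lit 1) (nat_lit 182)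 (nat_lit 1) (nat_lit 441) (nat_lit 393) (nat_lit 306)) (XT.lf (nat_lit 456) (nat_lit 579056640) (nat_lit 0) (nat_lit 940333805) (nat_lit 380) (nat_lit 940333805) (nat_lit 177) (nat_lit 1) (nat_lit 171) (nat_lit 1) (nat_lit 176) (nat_lit 1) (nat_lit 442) (nat_lit 393) (nat_lit 305)))) (XT.nd (nat_lit 156) (nat_lit 684) (nat_lit 0) (XT.nd (nat_lit 78) (nat_lit 380) (nat_lit 0) (XT.lf (nat_lit 76) (nat_lit 1151872) (nat_lit 0) (nat_lit 2438959550) (nat_lit 456) (nat_lit 1151872) (nat_lit 172) (nat_lit 1) (nat_lit 171) (nat_lit 1) (nat_lit 177) (nat_lit 1) (nat_lit 443) (nat_lit 393) (nat_lit 304)) (XT.lf (nat_lit 76) (nat_lit 925592280) (nat_lit 0) (nat_lit 571589926) (nat_lit 380) (nat_lit 925592280) (nat_lit 167) (nat_lit 1) (nat_lit 166) (nat_lit 1) (nat_lit 171) (nat_lit 1) (nat_lit 444) (nat_lit 393) (nat_lit 303))) (XT.nd (nat_lit 78) (nat_lit 304) (nat_lit 0) (XT.lf (nat_lit 456) (nat_lit 1266671234) (nat_lit 0) (nat_lit 568951323)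 (nat_lit 380) (nat_lit 568951323) (nat_lit 167) (nat_lit 1) (nat_lit 161) (nat_lit 1) (nat_lit 166) (nat_lit 1) (nat_lit 445) (nat_lit 393) (nat_lit 302)) (XT.nd (nat_lit 78) (nat_lit 304) (nat_lit 0) (XT.lf (nat_lit 76) (nat_lit 342615201) (nat_lit 0) (nat_lit 1701335267) (nat_lit 456) (nat_lit 342615201) (nat_lit 162) (nat_lit 1) (nat_lit 161) (nat_lit 1) (nat_lit 167) (nat_lit 1) (nat_lit 446) (nat_lit 393) (nat_lit 301)) (XT.lf (nat_lit 380) (nat_lit 103997375) (nat_lit 0) (nat_lit 1132346857) (nat_lit 304) (nat_lit 1132346857) (nat_lit 162) (nat_lit 1) (nat_lit 157) (nat_lit 1) (nat_lit 161) (nat_lit 1) (nat_lit 447) (nat_lit 393) (nat_lit 300)))))) (XT.nd (nat_lit 312) (nat_lit 0) (nat_lit 152) (XT.nd (nat_lit 156) (nat_lit 0) (nat_lit 76) (XT.nd (nat_lit 78) (nat_lit 0) (nat_lit 0) (XT.lf (nat_lit 1900) (nat_lit 889995396) (nat_lit 0) (nat_lit 897437827) (nat_lit 1900) (nat_lit 889995396) (nat_lit 522) (nat_lit 1) (nat_lit 497)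 (nat_lit 0) (nat_lit 522) (nat_lit 0) (nat_lit 352) (nat_lit 394) (nat_lit 394)) (XT.lf (nat_lit 1900) (nat_lit 3519175607) (nat_lit 76) (nat_lit 891533631) (nat_lit 0) (nat_lit 891533631) (nat_lit 522) (nat_lit 1) (nat_lit 498) (nat_lit 1) (nat_lit 497) (nat_lit 0) (nat_lit 353) (nat_lit 394) (nat_lit 393))) (XT.nd (nat_lit 78) (nat_lit 0) (nat_lit 0) (XT.lf (nat_lit 1900) (nat_lit 1727931974) (nat_lit 0) (nat_lit 1794339229) (nat_lit 1824) (nat_lit 1727931974) (nat_lit 523) (nat_lit 1) (nat_lit 498) (nat_lit 1) (nat_lit 522) (nat_lit 1) (nat_lit 354) (nat_lit 394) (nat_lit 392)) (XT.lf (nat_lit 1900) (nat_lit 3381988833) (nat_lit 76) (nat_lit 908481786) (nat_lit 0) (nat_lit 908481786) (nat_lit 523) (nat_lit 1) (nat_lit 499) (nat_lit 1) (nat_lit 498) (nat_lit 1) (nat_lit 355) (nat_lit 394) (nat_lit 391)))) (XT.nd (nat_lit 156) (nat_lit 0) (nat_lit 76) (XT.nd (nat_lit 78) (nat_lit 0) (nat_lit 0) (XT.lf (nat_lit 1900) (nat_lit 1643582485)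 (nat_lit 0) (nat_lit 1861102416) (nat_lit 1824) (nat_lit 1643582485) (nat_lit 524) (nat_lit 1) (nat_lit 499) (nat_lit 1) (nat_lit 523) (nat_lit 1) (nat_lit 356) (nat_lit 394) (nat_lit 390)) (XT.lf (nat_lit 1900) (nat_lit 3181956306) (nat_lit 76) (nat_lit 958189903) (nat_lit 0) (nat_lit 958189903) (nat_lit 524) (nat_lit 1) (nat_lit 500) (nat_lit 1) (nat_lit 499) (nat_lit 1) (nat_lit 357) (nat_lit 394) (nat_lit 389))) (XT.nd (nat_lit 78) (nat_lit 0) (nat_lit 0) (XT.lf (nat_lit 1900) (nat_lit 1528868999) (nat_lit 0) (nat_lit 1991232698) (nat_lit 1824) (nat_lit 1528868999) (nat_lit 525) (nat_lit 1) (nat_lit 500) (nat_lit 1) (nat_lit 524) (nat_lit 1) (nat_lit 358) (nat_lit 394) (nat_lit 388)) (XT.nd (nat_lit 78) (nat_lit 0) (nat_lit 76) (XT.lf (nat_lit 1900) (nat_lit 2922855128) (nat_lit 76) (nat_lit 1038730616) (nat_lit 0) (nat_lit 1038730616) (nat_lit 525) (nat_lit 1) (nat_lit 501) (nat_lit 1) (nat_lit 500) (nat_lit 1) (nat_lit 359) (nat_lit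 394) (nat_lit 387)) (XT.lf (nat_lit 1900) (nat_lit 1385630181) (nat_lit 0) (nat_lit 2180976127) (nat_lit 1824) (nat_lit 1385630181) (nat_lit 526) (nat_lit 1) (nat_lit 501) (nat_lit 1) (nat_lit 525) (nat_lit 1) (nat_lit 360) (nat_lit 394) (nat_lit 386))))))) (XT.nd (nat_lit 702) (nat_lit 2432) (nat_lit 0) (XT.nd (nat_lit 312) (nat_lit 0) (nat_lit 152) (XT.nd (nat_lit 156) (nat_lit 0) (nat_lit 76) (XT.nd (nat_lit 78) (nat_lit 0) (nat_lit 76) (XT.lf (nat_lit 1900) (nat_lit 2608289517) (nat_lit 76) (nat_lit 1148264250) (nat_lit 0) (nat_lit 1148264250) (nat_lit 526) (nat_lit 1) (nat_lit 502) (nat_lit 1) (nat_lit 501) (nat_lit 1) (nat_lit 361) (nat_lit 394) (nat_lit 385)) (XT.lf (nat_lit 1900) (nat_lit 1215620369) (nat_lit 0) (nat_lit 2426749888) (nat_lit 1824) (nat_lit 1215620369) (nat_lit 527) (nat_lit 1) (nat_lit 502) (nat_lit 1) (nat_lit 526) (nat_lit 1) (nat_lit 362) (nat_lit 394) (nat_lit 384))) (XT.nd (nat_lit 78) (nat_lit 0) (nat_lit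 76) (XT.lf (nat_lit 1900) (nat_lit 2241698044) (nat_lit 76) (nat_lit 1285035162) (nat_lit 0) (nat_lit 1285035162) (nat_lit 527) (nat_lit 1) (nat_lit 503) (nat_lit 1) (nat_lit 502) (nat_lit 1) (nat_lit 363) (nat_lit 394) (nat_lit 383)) (XT.lf (nat_lit 1900) (nat_lit 1020513095) (nat_lit 0) (nat_lit 2725135149) (nat_lit 1824) (nat_lit 1020513095) (nat_lit 528) (nat_lit 1) (nat_lit 503) (nat_lit 1) (nat_lit 527) (nat_lit 1) (nat_lit 364) (nat_lit 394) (nat_lit 382)))) (XT.nd (nat_lit 156) (nat_lit 0) (nat_lit 76) (XT.nd (nat_lit 78) (nat_lit 0) (nat_lit 76) (XT.lf (nat_lit 1900) (nat_lit 1826360558) (nat_lit 76) (nat_lit 1447368233) (nat_lit 0) (nat_lit 1447368233) (nat_lit 528) (nat_lit 1) (nat_lit 504) (nat_lit 1) (nat_lit 503) (nat_lit 1) (nat_lit 365) (nat_lit 394) (nat_lit 381)) (XT.lf (nat_lit 1900) (nat_lit 801904477) (nat_lit 0) (nat_lit 3072870213) (nat_lit 1824) (nat_lit 801904477) (nat_lit 529) (nat_lit 1) (nat_lit 504) (nat_lit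 1) (nat_lit 528) (nat_lit 1) (nat_lit 366) (nat_lit 394) (nat_lit 380))) (XT.nd (nat_lit 78) (nat_lit 0) (nat_lit 76) (XT.lf (nat_lit 1900) (nat_lit 1365404854) (nat_lit 76) (nat_lit 1633665497) (nat_lit 0) (nat_lit 1633665497) (nat_lit 529) (nat_lit 1) (nat_lit 505) (nat_lit 1) (nat_lit 504) (nat_lit 1) (nat_lit 367) (nat_lit 394) (nat_lit 379)) (XT.nd (nat_lit 78) (nat_lit 0) (nat_lit 0) (XT.lf (nat_lit 1900) (nat_lit 561316464) (nat_lit 0) (nat_lit 3466843934) (nat_lit 1824) (nat_lit 561316464) (nat_lit 530) (nat_lit 1) (nat_lit 505) (nat_lit 1) (nat_lit 529) (nat_lit 1) (nat_lit 368) (nat_lit 394) (nat_lit 378)) (XT.lf (nat_lit 1900) (nat_lit 861813053) (nat_lit 76) (nat_lit 1842402909) (nat_lit 0) (nat_lit 1842402909) (nat_lit 530) (nat_lit 1) (nat_lit 506) (nat_lit 1) (nat_lit 505) (nat_lit 1) (nat_lit 369) (nat_lit 394) (nat_lit 377)))))) (XT.nd (nat_lit 390) (nat_lit 988) (nat_lit 0) (XT.nd (nat_lit 156) (nat_lit 1824) (nat_lit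 0) (XT.nd (nat_lit 78) (nat_lit 0) (nat_lit 0) (XT.lf (nat_lit 1900) (nat_lit 300199961) (nat_lit 0) (nat_lit 3904089404) (nat_lit 1824) (nat_lit 300199961) (nat_lit 531) (nat_lit 1) (nat_lit 506) (nat_lit 1) (nat_lit 530) (nat_lit 1) (nat_lit 370) (nat_lit 394) (nat_lit 376)) (XT.lf (nat_lit 1900) (nat_lit 318427740) (nat_lit 76) (nat_lit 2072127243) (nat_lit 0) (nat_lit 2072127243) (nat_lit 531) (nat_lit 1) (nat_lit 507) (nat_lit 1) (nat_lit 506) (nat_lit 1) (nat_lit 371) (nat_lit 394) (nat_lit 375))) (XT.nd (nat_lit 78) (nat_lit 1900) (nat_lit 0) (XT.lf (nat_lit 1900) (nat_lit 19937815) (nat_lit 0) (nat_lit 4381777893) (nat_lit 1824) (nat_lit 19937815) (nat_lit 532) (nat_lit 1) (nat_lit 507) (nat_lit 1) (nat_lit 531) (nat_lit 1) (nat_lit 372) (nat_lit 394) (nat_lit 374)) (XT.nd (nat_lit 78) (nat_lit 0) (nat_lit 0) (XT.lf (nat_lit 1976) (nat_lit 2061112303) (nat_lit 0) (nat_lit 258605427) (nat_lit 1900) (nat_lit 2061112303) (nat_lit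 508) (nat_lit 1) (nat_lit 482) (nat_lit 1) (nat_lit 507) (nat_lit 1) (nat_lit 373) (nat_lit 394) (nat_lit 373)) (XT.lf (nat_lit 1976) (nat_lit 3788118745) (nat_lit 76) (nat_lit 276322356) (nat_lit 0) (nat_lit 276322356) (nat_lit 508) (nat_lit 1) (nat_lit 483) (nat_lit 1) (nat_lit 482) (nat_lit 1) (nat_lit 374) (nat_lit 394) (nat_lit 372))))) (XT.nd (nat_lit 156) (nat_lit 1064) (nat_lit 0) (XT.nd (nat_lit 78) (nat_lit 0) (nat_lit 0) (XT.lf (nat_lit 1976) (nat_lit 1717738550) (nat_lit 0) (nat_lit 865513501) (nat_lit 1900) (nat_lit 1717738550) (nat_lit 509) (nat_lit 1) (nat_lit 483) (nat_lit 1) (nat_lit 508) (nat_lit 1) (nat_lit 375) (nat_lit 394) (nat_lit 371)) (XT.lf (nat_lit 1976) (nat_lit 3084055829) (nat_lit 76) (nat_lit 588915062) (nat_lit 0) (nat_lit 588915062) (nat_lit 509) (nat_lit 1) (nat_lit 484) (nat_lit 1) (nat_lit 483) (nat_lit 1) (nat_lit 376) (nat_lit 394) (nat_lit 370))) (XT.nd (nat_lit 78) (nat_lit 1140) (nat_lit 0) (XT.lf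 (nat_lit 76) (nat_lit 1359550480) (nat_lit 0) (nat_lit 1504046630) (nat_lit 1900) (nat_lit 1359550480) (nat_lit 485) (nat_lit 1) (nat_lit 484) (nat_lit 1) (nat_lit 509) (nat_lit 1) (nat_lit 377) (nat_lit 394) (nat_lit 369)) (XT.nd (nat_lit 78) (nat_lit 0) (nat_lit 0) (XT.lf (nat_lit 1216) (nat_lit 2351407027) (nat_lit 0) (nat_lit 916783877) (nat_lit 1140) (nat_lit 916783877) (nat_lit 485) (nat_lit 1) (nat_lit 469) (nat_lit 1) (nat_lit 484) (nat_lit 1) (nat_lit 378) (nat_lit 394) (nat_lit 368)) (XT.lf (nat_lit 76) (nat_lit 987675273) (nat_lit 0) (nat_lit 2171894576) (nat_lit 1216) (nat_lit 987675273) (nat_lit 470) (nat_lit 1) (nat_lit 469) (nat_lit 1) (nat_lit 485) (nat_lit 1) (nat_lit 379) (nat_lit 394) (nat_lit 367))))))))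
noncomputable def ec64 : XT := (XT.nd (nat_lit 1404) (nat_lit 7068) (nat_lit 0) (XT.nd (nat_lit 702) (nat_lit 3952) (nat_lit 0) (XT.nd (nat_lit 312) (nat_lit 2660) (nat_lit 0) (XT.nd (nat_lit 156) (nat_lit 912) (nat_lit 0) (XT.nd (nat_lit 78) (nat_lit 0) (nat_lit 0) (XT.lf (nat_lit 988) (nat_lit 1592378941) (nat_lit 0) (nat_lit 1258798073) (nat_lit 912) (nat_lit 1258798073) (nat_lit 470) (nat_lit 1) (nat_lit 457) (nat_lit 1) (nat_lit 469) (nat_lit 1) (nat_lit 380) (nat_lit 394) (nat_lit 366)) (XT.lf (nat_lit 76) (nat_lit 603185514) (nat_lit 0) (nat_lit 2866858034) (nat_lit 988) (nat_lit 603185514) (nat_lit 458) (nat_lit 1) (nat_lit 457) (nat_lit 1) (nat_lit 470) (nat_lit 1) (nat_lit 381) (nat_lit 394) (nat_lit 365))) (XT.nd (nat_lit 78) (nat_lit 0) (nat_lit 0) (XT.lf (nat_lit 988) (nat_lit 809070989) (nat_lit 0) (nat_lit 1613881368) (nat_lit 912) (nat_lit 1613881368) (nat_lit 458) (nat_lit 1) (nat_lit 445) (nat_lit 1) (nat_lit 457) (nat_lit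 1) (nat_lit 382) (nat_lit 394) (nat_lit 364)) (XT.lf (nat_lit 76) (nat_lit 207101530) (nat_lit 0) (nat_lit 3586843901) (nat_lit 988) (nat_lit 207101530) (nat_lit 446) (nat_lit 1) (nat_lit 445) (nat_lit 1) (nat_lit 458) (nat_lit 1) (nat_lit 383) (nat_lit 394) (nat_lit 363)))) (XT.nd (nat_lit 156) (nat_lit 836) (nat_lit 0) (XT.nd (nat_lit 78) (nat_lit 988) (nat_lit 0) (XT.lf (nat_lit 912) (nat_lit 3479983) (nat_lit 0) (nat_lit 1981009608) (nat_lit 836) (nat_lit 1981009608) (nat_lit 446) (nat_lit 1) (nat_lit 434) (nat_lit 1) (nat_lit 445) (nat_lit 1) (nat_lit 384) (nat_lit 394) (nat_lit 362)) (XT.lf (nat_lit 988) (nat_lit 3533957631) (nat_lit 0) (nat_lit 198293173) (nat_lit 912) (nat_lit 198293173) (nat_lit 434) (nat_lit 1) (nat_lit 421) (nat_lit 1) (nat_lit 433) (nat_lit 1) (nat_lit 385) (nat_lit 394) (nat_lit 361))) (XT.nd (nat_lit 78) (nat_lit 836) (nat_lit 0) (XT.lf (nat_lit 76) (nat_lit 1542053260) (nat_lit 0) (nat_lit 811708289) (nat_lit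 988) (nat_lit 1542053260) (nat_lit 422) (nat_lit 1) (nat_lit 421) (nat_lit 1) (nat_lit 434) (nat_lit 1) (nat_lit 386) (nat_lit 394) (nat_lit 360)) (XT.nd (nat_lit 78) (nat_lit 0) (nat_lit 0) (XT.lf (nat_lit 912) (nat_lit 2637735834) (nat_lit 0) (nat_lit 611963031) (nat_lit 836) (nat_lit 611963031) (nat_lit 422) (nat_lit 1) (nat_lit 410) (nat_lit 1) (nat_lit 421) (nat_lit 1) (nat_lit 387) (nat_lit 394) (nat_lit 359)) (XT.lf (nat_lit 76) (nat_lit 1091324532) (nat_lit 0) (nat_lit 1645187066) (nat_lit 912) (nat_lit 1091324532) (nat_lit 411) (nat_lit 1) (nat_lit 410) (nat_lit 1) (nat_lit 422) (nat_lit 1) (nat_lit 388) (nat_lit 394) (nat_lit 358)))))) (XT.nd (nat_lit 312) (nat_lit 2356) (nat_lit 0) (XT.nd (nat_lit 156) (nat_lit 760) (nat_lit 0) (XT.nd (nat_lit 78) (nat_lit 0) (nat_lit 0) (XT.lf (nat_lit 912) (nat_lit 1725661967) (nat_lit 0) (nat_lit 1034399711) (nat_lit 836) (nat_lit 1034399711) (nat_lit 411) (nat_lit 1) (nat_lit 399) (nat_lit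 1) (nat_lit 410) (nat_lit 1) (nat_lit 389) (nat_lit 394) (nat_lit 357)) (XT.lf (nat_lit 76) (nat_lit 633103587) (nat_lit 0) (nat_lit 2495309794) (nat_lit 912) (nat_lit 633103587) (nat_lit 400) (nat_lit 1) (nat_lit 399) (nat_lit 1) (nat_lit 411) (nat_lit 1) (nat_lit 390) (nat_lit 394) (nat_lit 356))) (XT.nd (nat_lit 78) (nat_lit 0) (nat_lit 0) (XT.lf (nat_lit 836) (nat_lit 799344789) (nat_lit 0) (nat_lit 1464775919) (nat_lit 760) (nat_lit 1464775919) (nat_lit 400) (nat_lit 1) (nat_lit 389) (nat_lit 1) (nat_lit 399) (nat_lit 1) (nat_lit 391) (nat_lit 394) (nat_lit 355)) (XT.lf (nat_lit 76) (nat_lit 168171447) (nat_lit 0) (nat_lit 3360469208) (nat_lit 836) (nat_lit 168171447) (nat_lit 390) (nat_lit 1) (nat_lit 389) (nat_lit 1) (nat_lit 400) (nat_lit 1) (nat_lit 392) (nat_lit 394) (nat_lit 354)))) (XT.nd (nat_lit 156) (nat_lit 760) (nat_lit 0) (XT.nd (nat_lit 78) (nat_lit 760) (nat_lit 0) (XT.lf (nat_lit 76) (nat_lit 1763524105) (nat_lit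 0) (nat_lit 137856838) (nat_lit 836) (nat_lit 1763524105) (nat_lit 379) (nat_lit 1) (nat_lit 378) (nat_lit 1) (nat_lit 389) (nat_lit 1) (nat_lit 393) (nat_lit 394) (nat_lit 353)) (XT.lf (nat_lit 836) (nat_lit 3032041604) (nat_lit 0) (nat_lit 300739156) (nat_lit 760) (nat_lit 300739156) (nat_lit 379) (nat_lit 1) (nat_lit 368) (nat_lit 1) (nat_lit 378) (nat_lit 1) (nat_lit 394) (nat_lit 394) (nat_lit 352))) (XT.nd (nat_lit 78) (nat_lit 760) (nat_lit 0) (XT.lf (nat_lit 76) (nat_lit 1263330632) (nat_lit 0) (nat_lit 1075695193) (nat_lit 836) (nat_lit 1263330632) (nat_lit 369) (nat_lit 1) (nat_lit 368) (nat_lit 1) (nat_lit 379) (nat_lit 1) (nat_lit 395) (nat_lit 394) (nat_lit 351)) (XT.nd (nat_lit 78) (nat_lit 0) (nat_lit 0) (XT.lf (nat_lit 836) (nat_lit 2024113399) (nat_lit 0) (nat_lit 773775941) (nat_lit 760) (nat_lit 773775941) (nat_lit 369) (nat_lit 1) (nat_lit 358) (nat_lit 1) (nat_lit 368) (nat_lit 1) (nat_lit 396) (nat_lit 394) (nat_lit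 350)) (XT.lf (nat_lit 76) (nat_lit 759007345) (nat_lit 0) (nat_lit 2023298368) (nat_lit 836) (nat_lit 759007345) (nat_lit 359) (nat_lit 1) (nat_lit 358) (nat_lit 1) (nat_lit 369) (nat_lit 1) (nat_lit 397) (nat_lit 394) (nat_lit 349))))))) (XT.nd (nat_lit 702) (nat_lit 3648) (nat_lit 0) (XT.nd (nat_lit 312) (nat_lit 1292) (nat_lit 0) (XT.nd (nat_lit 156) (nat_lit 1444) (nat_lit 0) (XT.nd (nat_lit 78) (nat_lit 0) (nat_lit 0) (XT.lf (nat_lit 760) (nat_lit 1008528312) (nat_lit 0) (nat_lit 1251383330) (nat_lit 684) (nat_lit 1251383330) (nat_lit 359) (nat_lit 1) (nat_lit 349) (nat_lit 1) (nat_lit 358) (nat_lit 1) (nat_lit 398) (nat_lit 394) (nat_lit 348)) (XT.lf (nat_lit 76) (nat_lit 251176433) (nat_lit 0) (nat_lit 2979381649) (nat_lit 760) (nat_lit 251176433) (nat_lit 350) (nat_lit 1) (nat_lit 349) (nat_lit 1) (nat_lit 359) (nat_lit 1) (nat_lit 399) (nat_lit 394) (nat_lit 347))) (XT.nd (nat_lit 78) (nat_lit 684) (nat_lit 0) (XT.lf (nat_lit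 76) (nat_lit 1719522930) (nat_lit 0) (nat_lit 13321725) (nat_lit 760) (nat_lit 1719522930) (nat_lit 340) (nat_lit 1) (nat_lit 339) (nat_lit 1) (nat_lit 349) (nat_lit 1) (nat_lit 400) (nat_lit 394) (nat_lit 346)) (XT.lf (nat_lit 760) (nat_lit 2907715599) (nat_lit 0) (nat_lit 257865412) (nat_lit 684) (nat_lit 257865412) (nat_lit 340) (nat_lit 1) (nat_lit 330) (nat_lit 1) (nat_lit 339) (nat_lit 1) (nat_lit 401) (nat_lit 394) (nat_lit 345)))) (XT.nd (nat_lit 156) (nat_lit 608) (nat_lit 0) (XT.nd (nat_lit 78) (nat_lit 684) (nat_lit 0) (XT.lf (nat_lit 76) (nat_lit 1183773591) (nat_lit 0) (nat_lit 1027167585) (nat_lit 760) (nat_lit 1183773591) (nat_lit 331) (nat_lit 1) (nat_lit 330) (nat_lit 1) (nat_lit 340) (nat_lit 1) (nat_lit 402) (nat_lit 394) (nat_lit 344)) (XT.lf (nat_lit 760) (nat_lit 1831212623) (nat_lit 0) (nat_lit 767600675) (nat_lit 684) (nat_lit 767600675) (nat_lit 331) (nat_lit 1) (nat_lit 321) (nat_lit 1) (nat_lit 330) (nat_lit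 1) (nat_lit 403) (nat_lit 394) (nat_lit 343))) (XT.nd (nat_lit 78) (nat_lit 608) (nat_lit 0) (XT.lf (nat_lit 76) (nat_lit 646633595) (nat_lit 0) (nat_lit 2045163117) (nat_lit 760) (nat_lit 646633595) (nat_lit 322) (nat_lit 1) (nat_lit 321) (nat_lit 1) (nat_lit 331) (nat_lit 1) (nat_lit 404) (nat_lit 394) (nat_lit 342)) (XT.nd (nat_lit 78) (nat_lit 0) (nat_lit 0) (XT.lf (nat_lit 684) (nat_lit 752414688) (nat_lit 0) (nat_lit 1279158415) (nat_lit 608) (nat_lit 1279158415) (nat_lit 322) (nat_lit 1) (nat_lit 313) (nat_lit 1) (nat_lit 321) (nat_lit 1) (nat_lit 405) (nat_lit 394) (nat_lit 341)) (XT.lf (nat_lit 76) (nat_lit 108592128) (nat_lit 0) (nat_lit 3066293881) (nat_lit 684) (nat_lit 108592128) (nat_lit 314) (nat_lit 1) (nat_lit 313) (nat_lit 1) (nat_lit 322) (nat_lit 1) (nat_lit 406) (nat_lit 394) (nat_lit 340)))))) (XT.nd (nat_lit 312) (nat_lit 1748) (nat_lit 0) (XT.nd (nat_lit 156) (nat_lit 608) (nat_lit 0) (XT.nd (nat_lit 78) (nat_lit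 608) (nat_lit 0) (XT.lf (nat_lit 76) (nat_lit 1466447377) (nat_lit 0) (nat_lit 323426279) (nat_lit 684) (nat_lit 1466447377) (nat_lit 305) (nat_lit 1) (nat_lit 304) (nat_lit 1) (nat_lit 313) (nat_lit 1) (nat_lit 407) (nat_lit 394) (nat_lit 339)) (XT.lf (nat_lit 684) (nat_lit 2375477349) (nat_lit 0) (nat_lit 427060933) (nat_lit 608) (nat_lit 427060933) (nat_lit 305) (nat_lit 1) (nat_lit 296) (nat_lit 1) (nat_lit 304) (nat_lit 1) (nat_lit 408) (nat_lit 394) (nat_lit 338))) (XT.nd (nat_lit 78) (nat_lit 608) (nat_lit 0) (XT.lf (nat_lit 76) (nat_lit 906629030) (nat_lit 0) (nat_lit 1389834831) (nat_lit 684) (nat_lit 906629030) (nat_lit 297) (nat_lit 1) (nat_lit 296) (nat_lit 1) (nat_lit 305) (nat_lit 1) (nat_lit 409) (nat_lit 394) (nat_lit 337)) (XT.lf (nat_lit 684) (nat_lit 1252919028) (nat_lit 0) (nat_lit 962003991) (nat_lit 608) (nat_lit 962003991) (nat_lit 297) (nat_lit 1) (nat_lit 288) (nat_lit 1) (nat_lit 296) (nat_lit 1) (nat_lit 410)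 (nat_lit 394) (nat_lit 336)))) (XT.nd (nat_lit 156) (nat_lit 1216) (nat_lit 0) (XT.nd (nat_lit 78) (nat_lit 532) (nat_lit 0) (XT.lf (nat_lit 76) (nat_lit 347634779) (nat_lit 0) (nat_lit 2455841933) (nat_lit 684) (nat_lit 347634779) (nat_lit 289) (nat_lit 1) (nat_lit 288) (nat_lit 1) (nat_lit 297) (nat_lit 1) (nat_lit 411) (nat_lit 394) (nat_lit 335)) (XT.lf (nat_lit 608) (nat_lit 132397538) (nat_lit 0) (nat_lit 1496543910) (nat_lit 532) (nat_lit 1496543910) (nat_lit 289) (nat_lit 1) (nat_lit 281) (nat_lit 1) (nat_lit 288) (nat_lit 1) (nat_lit 412) (nat_lit 394) (nat_lit 334))) (XT.nd (nat_lit 78) (nat_lit 532) (nat_lit 0) (XT.lf (nat_lit 684) (nat_lit 2682685628) (nat_lit 0) (nat_lit 208774676) (nat_lit 608) (nat_lit 208774676) (nat_lit 281) (nat_lit 1) (nat_lit 272) (nat_lit 1) (nat_lit 280) (nat_lit 1) (nat_lit 413) (nat_lit 394) (nat_lit 333)) (XT.nd (nat_lit 78) (nat_lit 532) (nat_lit 0) (XT.lf (nat_lit 76) (nat_lit 1051343061) (nat_lit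 0) (nat_lit 972428377) (nat_lit 684) (nat_lit 1051343061) (nat_lit 273) (nat_lit 1) (nat_lit 272) (nat_lit 1) (nat_lit 281) (nat_lit 1) (nat_lit 414) (nat_lit 394) (nat_lit 332)) (XT.lf (nat_lit 608) (nat_lit 1527661600) (nat_lit 0) (nat_lit 761349766) (nat_lit 532) (nat_lit 761349766) (nat_lit 273) (nat_lit 1) (nat_lit 265) (nat_lit 1) (nat_lit 272) (nat_lit 1) (nat_lit 415) (nat_lit 394) (nat_lit 331))))))))
noncomputable def ec65 : XT := (XT.nd (nat_lit 1404) (nat_lit 3116) (nat_lit 0) (XT.nd (nat_lit 702) (nat_lit 2812) (nat_lit 0) (XT.nd (nat_lit 312) (nat_lit 1596) (nat_lit 0) (XT.nd (nat_lit 156) (nat_lit 608) (nat_lit 0) (XT.nd (nat_lit 78) (nat_lit 532) (nat_lit 0) (XT.lf (nat_lit 76) (nat_lit 476897552) (nat_lit 0) (nat_lit 2072099651) (nat_lit 608) (nat_lit 476897552) (nat_lit 266) (nat_lit 1) (nat_lit 265) (nat_lit 1) (nat_lit 273) (nat_lit 1) (nat_lit 416) (nat_lit 394) (nat_lit 330)) (XT.lf (nat_lit 608) (nat_lit 377548658)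 (nat_lit 0) (nat_lit 1312046076) (nat_lit 532) (nat_lit 1312046076) (nat_lit 266) (nat_lit 1) (nat_lit 258) (nat_lit 1) (nat_lit 265) (nat_lit 1) (nat_lit 417) (nat_lit 394) (nat_lit 329))) (XT.nd (nat_lit 78) (nat_lit 0) (nat_lit 0) (XT.lf (nat_lit 608) (nat_lit 2789114103) (nat_lit 0) (nat_lit 94324911) (nat_lit 532) (nat_lit 94324911) (nat_lit 258) (nat_lit 1) (nat_lit 250) (nat_lit 1) (nat_lit 257) (nat_lit 1) (nat_lit 418) (nat_lit 394) (nat_lit 328)) (XT.lf (nat_lit 76) (nat_lit 1098472175) (nat_lit 0) (nat_lit 757000624) (nat_lit 608) (nat_lit 1098472175) (nat_lit 251) (nat_lit 1) (nat_lit 250) (nat_lit 1) (nat_lit 258) (nat_lit 1) (nat_lit 419) (nat_lit 394) (nat_lit 327)))) (XT.nd (nat_lit 156) (nat_lit 1064) (nat_lit 0) (XT.nd (nat_lit 78) (nat_lit 0) (nat_lit 0) (XT.lf (nat_lit 608) (nat_lit 1611405502) (nat_lit 0) (nat_lit 659544953) (nat_lit 532) (nat_lit 659544953) (nat_lit 251) (nat_lit 1) (nat_lit 243) (nat_lit 1) (nat_lit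 250) (nat_lit 1) (nat_lit 420) (nat_lit 394) (nat_lit 326)) (XT.lf (nat_lit 76) (nat_lit 513338123) (nat_lit 0) (nat_lit 1880620145) (nat_lit 608) (nat_lit 513338123) (nat_lit 244) (nat_lit 1) (nat_lit 243) (nat_lit 1) (nat_lit 251) (nat_lit 1) (nat_lit 421) (nat_lit 394) (nat_lit 325))) (XT.nd (nat_lit 78) (nat_lit 608) (nat_lit 0) (XT.lf (nat_lit 532) (nat_lit 441039772) (nat_lit 0) (nat_lit 1221634944) (nat_lit 456) (nat_lit 1221634944) (nat_lit 244) (nat_lit 1) (nat_lit 237) (nat_lit 1) (nat_lit 243) (nat_lit 1) (nat_lit 422) (nat_lit 394) (nat_lit 324)) (XT.nd (nat_lit 78) (nat_lit 0) (nat_lit 0) (XT.lf (nat_lit 608) (nat_lit 2726541466) (nat_lit 0) (nat_lit 67569732) (nat_lit 532) (nat_lit 67569732) (nat_lit 237) (nat_lit 1) (nat_lit 229) (nat_lit 1) (nat_lit 236) (nat_lit 1) (nat_lit 423) (nat_lit 394) (nat_lit 323)) (XT.lf (nat_lit 76) (nat_lit 1063516508) (nat_lit 0) (nat_lit 712052688) (nat_lit 608) (nat_lit 1063516508) (nat_lit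 230) (nat_lit 1) (nat_lit 229) (nat_lit 1) (nat_lit 237) (nat_lit 1) (nat_lit 424) (nat_lit 394) (nat_lit 322)))))) (XT.nd (nat_lit 312) (nat_lit 1368) (nat_lit 0) (XT.nd (nat_lit 156) (nat_lit 988) (nat_lit 0) (XT.nd (nat_lit 78) (nat_lit 0) (nat_lit 0) (XT.lf (nat_lit 532) (nat_lit 1534595076) (nat_lit 0) (nat_lit 641123295) (nat_lit 456) (nat_lit 641123295) (nat_lit 230) (nat_lit 1) (nat_lit 223) (nat_lit 1) (nat_lit 229) (nat_lit 1) (nat_lit 425) (nat_lit 394) (nat_lit 321)) (XT.lf (nat_lit 76) (nat_lit 471805343) (nat_lit 0) (nat_lit 1851223829) (nat_lit 532) (nat_lit 471805343) (nat_lit 224) (nat_lit 1) (nat_lit 223) (nat_lit 1) (nat_lit 230) (nat_lit 1) (nat_lit 426) (nat_lit 394) (nat_lit 320))) (XT.nd (nat_lit 78) (nat_lit 532) (nat_lit 0) (XT.lf (nat_lit 532) (nat_lit 352035120) (nat_lit 0) (nat_lit 1210492474) (nat_lit 456) (nat_lit 1210492474) (nat_lit 224) (nat_lit 1) (nat_lit 217) (nat_lit 1) (nat_lit 223) (nat_lit 1) (nat_lit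 427) (nat_lit 394) (nat_lit 319)) (XT.lf (nat_lit 532) (nat_lit 2522770309) (nat_lit 0) (nat_lit 114378666) (nat_lit 456) (nat_lit 114378666) (nat_lit 217) (nat_lit 1) (nat_lit 210) (nat_lit 1) (nat_lit 216) (nat_lit 1) (nat_lit 428) (nat_lit 394) (nat_lit 318)))) (XT.nd (nat_lit 156) (nat_lit 912) (nat_lit 0) (XT.nd (nat_lit 78) (nat_lit 456) (nat_lit 0) (XT.lf (nat_lit 76) (nat_lit 960034752) (nat_lit 0) (nat_lit 810014723) (nat_lit 532) (nat_lit 960034752) (nat_lit 211) (nat_lit 1) (nat_lit 210) (nat_lit 1) (nat_lit 217) (nat_lit 1) (nat_lit 429) (nat_lit 394) (nat_lit 317)) (XT.lf (nat_lit 532) (nat_lit 1323857319) (nat_lit 0) (nat_lit 692549731) (nat_lit 456) (nat_lit 692549731) (nat_lit 211) (nat_lit 1) (nat_lit 204) (nat_lit 1) (nat_lit 210) (nat_lit 1) (nat_lit 430) (nat_lit 394) (nat_lit 316))) (XT.nd (nat_lit 78) (nat_lit 912) (nat_lit 0) (XT.lf (nat_lit 76) (nat_lit 365284151) (nat_lit 0) (nat_lit 1957503391) (nat_lit 532)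 (nat_lit 365284151) (nat_lit 205) (nat_lit 1) (nat_lit 204) (nat_lit 1) (nat_lit 211) (nat_lit 1) (nat_lit 431) (nat_lit 394) (nat_lit 315)) (XT.nd (nat_lit 78) (nat_lit 532) (nat_lit 0) (XT.lf (nat_lit 456) (nat_lit 136034090) (nat_lit 0) (nat_lit 1265654754) (nat_lit 380) (nat_lit 1265654754) (nat_lit 205) (nat_lit 1) (nat_lit 199) (nat_lit 1) (nat_lit 204) (nat_lit 1) (nat_lit 432) (nat_lit 394) (nat_lit 314)) (XT.lf (nat_lit 532) (nat_lit 2202089807) (nat_lit 0) (nat_lit 222398897) (nat_lit 456) (nat_lit 222398897) (nat_lit 199) (nat_lit 1) (nat_lit 192) (nat_lit 1) (nat_lit 198) (nat_lit 1) (nat_lit 433) (nat_lit 394) (nat_lit 313))))))) (XT.nd (nat_lit 702) (nat_lit 1140) (nat_lit 0) (XT.nd (nat_lit 312) (nat_lit 1140) (nat_lit 0) (XT.nd (nat_lit 156) (nat_lit 456) (nat_lit 0) (XT.nd (nat_lit 78) (nat_lit 380) (nat_lit 0) (XT.lf (nat_lit 76) (nat_lit 799870159) (nat_lit 0) (nat_lit 1026789117) (nat_lit 532) (nat_lit 799870159) (nat_lit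 193) (nat_lit 1) (nat_lit 192) (nat_lit 1) (nat_lit 199) (nat_lit 1) (nat_lit 434) (nat_lit 394) (nat_lit 312)) (XT.lf (nat_lit 456) (nat_lit 1002446412) (nat_lit 0) (nat_lit 801995791) (nat_lit 380) (nat_lit 801995791) (nat_lit 193) (nat_lit 1) (nat_lit 187) (nat_lit 1) (nat_lit 192) (nat_lit 1) (nat_lit 435) (nat_lit 394) (nat_lit 311))) (XT.nd (nat_lit 78) (nat_lit 456) (nat_lit 0) (XT.lf (nat_lit 76) (nat_lit 205112716) (nat_lit 0) (nat_lit 2176384900) (nat_lit 456) (nat_lit 205112716) (nat_lit 188) (nat_lit 1) (nat_lit 187) (nat_lit 1) (nat_lit 193) (nat_lit 1) (nat_lit 436) (nat_lit 394) (nat_lit 310)) (XT.lf (nat_lit 76) (nat_lit 1192293708) (nat_lit 0) (nat_lit 182279295) (nat_lit 456) (nat_lit 1192293708) (nat_lit 182) (nat_lit 1) (nat_lit 181) (nat_lit 1) (nat_lit 187) (nat_lit 1) (nat_lit 437) (nat_lit 394) (nat_lit 309)))) (XT.nd (nat_lit 156) (nat_lit 760) (nat_lit 0) (XT.nd (nat_lit 78) (nat_lit 0) (nat_lit 0) (XT.lf (nat_lit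 456) (nat_lit 1785685865) (nat_lit 0) (nat_lit 380848022) (nat_lit 380) (nat_lit 380848022) (nat_lit 182) (nat_lit 1) (nat_lit 176) (nat_lit 1) (nat_lit 181) (nat_lit 1) (nat_lit 438) (nat_lit 394) (nat_lit 308)) (XT.lf (nat_lit 76) (nat_lit 593350873) (nat_lit 0) (nat_lit 1341345536) (nat_lit 456) (nat_lit 593350873) (nat_lit 177) (nat_lit 1) (nat_lit 176) (nat_lit 1) (nat_lit 182) (nat_lit 1) (nat_lit 439) (nat_lit 394) (nat_lit 307))) (XT.nd (nat_lit 78) (nat_lit 380) (nat_lit 0) (XT.lf (nat_lit 456) (nat_lit 590637773) (nat_lit 0) (nat_lit 959140481) (nat_lit 380) (nat_lit 959140481) (nat_lit 177) (nat_lit 1) (nat_lit 171) (nat_lit 1) (nat_lit 176) (nat_lit 1) (nat_lit 440) (nat_lit 394) (nat_lit 306)) (XT.nd (nat_lit 78) (nat_lit 380) (nat_lit 0) (XT.lf (nat_lit 76) (nat_lit 1174910) (nat_lit 0) (nat_lit 2487738741) (nat_lit 456) (nat_lit 1174910) (nat_lit 172) (nat_lit 1) (nat_lit 171) (nat_lit 1) (nat_lit 177) (nat_lit 1) (nat_lit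 441) (nat_lit 394) (nat_lit 305)) (XT.lf (nat_lit 76) (nat_lit 944104126) (nat_lit 0) (nat_lit 583021724) (nat_lit 380) (nat_lit 944104126) (nat_lit 167) (nat_lit 1) (nat_lit 166) (nat_lit 1) (nat_lit 171) (nat_lit 1) (nat_lit 442) (nat_lit 394) (nat_lit 304)))))) (XT.nd (nat_lit 52182) (nat_lit 0) (nat_lit 26296) (XT.nd (nat_lit 156) (nat_lit 760) (nat_lit 0) (XT.nd (nat_lit 78) (nat_lit 0) (nat_lit 0) (XT.lf (nat_lit 456) (nat_lit 1292004659) (nat_lit 0) (nat_lit 580330350) (nat_lit 380) (nat_lit 580330350) (nat_lit 167) (nat_lit 1) (nat_lit 161) (nat_lit 1) (nat_lit 166) (nat_lit 1) (nat_lit 443) (nat_lit 394) (nat_lit 303)) (XT.lf (nat_lit 76) (nat_lit 349467505) (nat_lit 0) (nat_lit 1735361973) (nat_lit 456) (nat_lit 349467505) (nat_lit 162) (nat_lit 1) (nat_lit 161) (nat_lit 1) (nat_lit 167) (nat_lit 1) (nat_lit 444) (nat_lit 394) (nat_lit 302))) (XT.nd (nat_lit 78) (nat_lit 456) (nat_lit 0) (XT.lf (nat_lit 380) (nat_lit 106077322)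 (nat_lit 0) (nat_lit 1154993794) (nat_lit 304) (nat_lit 1154993794) (nat_lit 162) (nat_lit 1) (nat_lit 157) (nat_lit 1) (nat_lit 161) (nat_lit 1) (nat_lit 445) (nat_lit 394) (nat_lit 301)) (XT.nd (nat_lit 51870) (nat_lit 0) (nat_lit 26296) (XT.lf (nat_lit 456) (nat_lit 1925325000) (nat_lit 0) (nat_lit 236363778) (nat_lit 380) (nat_lit 236363778) (nat_lit 157) (nat_lit 1) (nat_lit 151) (nat_lit 1) (nat_lit 156) (nat_lit 1) (nat_lit 446) (nat_lit 394) (nat_lit 300)) (XT.lf (nat_lit 1900) (nat_lit 907795304) (nat_lit 0) (nat_lit 915386584) (nat_lit 1900) (nat_lit 907795304) (nat_lit 522) (nat_lit 1) (nat_lit 497) (nat_lit 0) (nat_lit 522) (nat_lit 0) (nat_lit 350) (nat_lit 395) (nat_lit 395))))) (XT.nd (nat_lit 156) (nat_lit 0) (nat_lit 76) (XT.nd (nat_lit 78) (nat_lit 0) (nat_lit 76) (XT.lf (nat_lit 1900) (nat_lit 3589559120) (nat_lit 76) (nat_lit 909364303) (nat_lit 0) (nat_lit 909364303) (nat_lit 522) (nat_lit 1) (nat_lit 498) (nat_lit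 1) (nat_lit 497) (nat_lit 0) (nat_lit 351) (nat_lit 395) (nat_lit 394)) (XT.lf (nat_lit 1900) (nat_lit 1762490614) (nat_lit 0) (nat_lit 1830226013) (nat_lit 1824) (nat_lit 1762490614) (nat_lit 523) (nat_lit 1) (nat_lit 498) (nat_lit 1) (nat_lit 522) (nat_lit 1) (nat_lit 352) (nat_lit 395) (nat_lit 393))) (XT.nd (nat_lit 78) (nat_lit 0) (nat_lit 76) (XT.lf (nat_lit 1900) (nat_lit 3449628610) (nat_lit 76) (nat_lit 926651422) (nat_lit 0) (nat_lit 926651422) (nat_lit 523) (nat_lit 1) (nat_lit 499) (nat_lit 1) (nat_lit 498) (nat_lit 1) (nat_lit 353) (nat_lit 395) (nat_lit 392)) (XT.nd (nat_lit 78) (nat_lit 0) (nat_lit 0) (XT.lf (nat_lit 1900) (nat_lit 1676454135) (nat_lit 0) (nat_lit 1898324464) (nat_lit 1824) (nat_lit 1676454135) (nat_lit 524) (nat_lit 1) (nat_lit 499) (nat_lit 1) (nat_lit 523) (nat_lit 1) (nat_lit 354) (nat_lit 395) (nat_lit 391)) (XT.lf (nat_lit 1900) (nat_lit 3245595432) (nat_lit 76) (nat_lit 977353701) (nat_lit 0) (nat_lit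 977353701) (nat_lit 524) (nat_lit 1) (nat_lit 500) (nat_lit 1) (nat_lit 499) (nat_lit 1) (nat_lit 355) (nat_lit 395) (nat_lit 390))))))))
noncomputable def ec66 : XT := (XT.nd (nat_lit 1404) (nat_lit 7904) (nat_lit 0) (XT.nd (nat_lit 702) (nat_lit 1368) (nat_lit 0) (XT.nd (nat_lit 312) (nat_lit 0) (nat_lit 152) (XT.nd (nat_lit 156) (nat_lit 0) (nat_lit 76) (XT.nd (nat_lit 78) (nat_lit 0) (nat_lit 0) (XT.lf (nat_lit 1900) (nat_lit 1559446379) (nat_lit 0) (nat_lit 2031057352) (nat_lit 1824) (nat_lit 1559446379) (nat_lit 525) (nat_lit 1) (nat_lit 500) (nat_lit 1) (nat_lit 524) (nat_lit 1) (nat_lit 356) (nat_lit 395) (nat_lit 389)) (XT.lf (nat_lit 1900) (nat_lit 2981312230) (nat_lit 76) (nat_lit 1059505229) (nat_lit 0) (nat_lit 1059505229) (nat_lit 525) (nat_lit 1) (nat_lit 501) (nat_lit 1) (nat_lit 500) (nat_lit 1) (nat_lit 357) (nat_lit 395) (nat_lit 388))) (XT.nd (nat_lit 78) (nat_lit 0) (nat_lit 0) (XT.lf (nat_lit 1900) (nat_lit 1413342785)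 (nat_lit 0) (nat_lit 2224595650) (nat_lit 1824) (nat_lit 1413342785) (nat_lit 526) (nat_lit 1) (nat_lit 501) (nat_lit 1) (nat_lit 525) (nat_lit 1) (nat_lit 358) (nat_lit 395) (nat_lit 387)) (XT.lf (nat_lit 1900) (nat_lit 2660455308) (nat_lit 76) (nat_lit 1171229535) (nat_lit 0) (nat_lit 1171229535) (nat_lit 526) (nat_lit 1) (nat_lit 502) (nat_lit 1) (nat_lit 501) (nat_lit 1) (nat_lit 359) (nat_lit 395) (nat_lit 386)))) (XT.nd (nat_lit 156) (nat_lit 0) (nat_lit 76) (XT.nd (nat_lit 78) (nat_lit 0) (nat_lit 0) (XT.lf (nat_lit 1900) (nat_lit 1239932776) (nat_lit 0) (nat_lit 2475284885) (nat_lit 1824) (nat_lit 1239932776) (nat_lit 527) (nat_lit 1) (nat_lit 502) (nat_lit 1) (nat_lit 526) (nat_lit 1) (nat_lit 360) (nat_lit 395) (nat_lit 385)) (XT.lf (nat_lit 1900) (nat_lit 2286532004) (nat_lit 76) (nat_lit 1310735866) (nat_lit 0) (nat_lit 1310735866) (nat_lit 527) (nat_lit 1) (nat_lit 503) (nat_lit 1) (nat_lit 502) (nat_lit 1) (nat_lit 361)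 (nat_lit 395) (nat_lit 384))) (XT.nd (nat_lit 78) (nat_lit 0) (nat_lit 0) (XT.lf (nat_lit 1900) (nat_lit 1040923357) (nat_lit 0) (nat_lit 2779637852) (nat_lit 1824) (nat_lit 1040923357) (nat_lit 528) (nat_lit 1) (nat_lit 503) (nat_lit 1) (nat_lit 527) (nat_lit 1) (nat_lit 362) (nat_lit 395) (nat_lit 383)) (XT.nd (nat_lit 78) (nat_lit 0) (nat_lit 76) (XT.lf (nat_lit 1900) (nat_lit 1862887770) (nat_lit 76) (nat_lit 1476315598) (nat_lit 0) (nat_lit 1476315598) (nat_lit 528) (nat_lit 1) (nat_lit 504) (nat_lit 1) (nat_lit 503) (nat_lit 1) (nat_lit 363) (nat_lit 395) (nat_lit 382)) (XT.lf (nat_lit 1900) (nat_lit 817942566) (nat_lit 0) (nat_lit 3134327617) (nat_lit 1824) (nat_lit 817942566) (nat_lit 529) (nat_lit 1) (nat_lit 504) (nat_lit 1) (nat_lit 528) (nat_lit 1) (nat_lit 364) (nat_lit 395) (nat_lit 381)))))) (XT.nd (nat_lit 312) (nat_lit 1672) (nat_lit 0) (XT.nd (nat_lit 156) (nat_lit 0) (nat_lit 76) (XT.nd (nat_lit 78) (nat_lit 0) (nat_lit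 76) (XT.lf (nat_lit 1900) (nat_lit 1392712951) (nat_lit 76) (nat_lit 1666338807) (nat_lit 0) (nat_lit 1666338807) (nat_lit 529) (nat_lit 1) (nat_lit 505) (nat_lit 1) (nat_lit 504) (nat_lit 1) (nat_lit 365) (nat_lit 395) (nat_lit 380)) (XT.lf (nat_lit 1900) (nat_lit 572542793) (nat_lit 0) (nat_lit 3536180813) (nat_lit 1824) (nat_lit 572542793) (nat_lit 530) (nat_lit 1) (nat_lit 505) (nat_lit 1) (nat_lit 529) (nat_lit 1) (nat_lit 366) (nat_lit 395) (nat_lit 379))) (XT.nd (nat_lit 78) (nat_lit 0) (nat_lit 76) (XT.lf (nat_lit 1900) (nat_lit 879049315) (nat_lit 76) (nat_lit 1879250968) (nat_lit 0) (nat_lit 1879250968) (nat_lit 530) (nat_lit 1) (nat_lit 506) (nat_lit 1) (nat_lit 505) (nat_lit 1) (nat_lit 367) (nat_lit 395) (nat_lit 378)) (XT.lf (nat_lit 1900) (nat_lit 306203960) (nat_lit 0) (nat_lit 3982171192) (nat_lit 1824) (nat_lit 306203960) (nat_lit 531) (nat_lit 1) (nat_lit 506) (nat_lit 1) (nat_lit 530) (nat_lit 1) (nat_lit 368) (nat_lit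 395) (nat_lit 377)))) (XT.nd (nat_lit 156) (nat_lit 1824) (nat_lit 0) (XT.nd (nat_lit 78) (nat_lit 0) (nat_lit 76) (XT.lf (nat_lit 1900) (nat_lit 324796295) (nat_lit 76) (nat_lit 2113569788) (nat_lit 0) (nat_lit 2113569788) (nat_lit 531) (nat_lit 1) (nat_lit 507) (nat_lit 1) (nat_lit 506) (nat_lit 1) (nat_lit 369) (nat_lit 395) (nat_lit 376)) (XT.lf (nat_lit 1900) (nat_lit 20336571) (nat_lit 0) (nat_lit 4469413451) (nat_lit 1824) (nat_lit 20336571) (nat_lit 532) (nat_lit 1) (nat_lit 507) (nat_lit 1) (nat_lit 531) (nat_lit 1) (nat_lit 370) (nat_lit 395) (nat_lit 375))) (XT.nd (nat_lit 78) (nat_lit 0) (nat_lit 0) (XT.lf (nat_lit 1976) (nat_lit 2102334549) (nat_lit 0) (nat_lit 263777536) (nat_lit 1900) (nat_lit 2102334549) (nat_lit 508) (nat_lit 1) (nat_lit 482) (nat_lit 1) (nat_lit 507) (nat_lit 1) (nat_lit 371) (nat_lit 395) (nat_lit 374)) (XT.nd (nat_lit 78) (nat_lit 0) (nat_lit 76) (XT.lf (nat_lit 1976) (nat_lit 3863881120) (nat_lit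 76) (nat_lit 281848803) (nat_lit 0) (nat_lit 281848803) (nat_lit 508) (nat_lit 1) (nat_lit 483) (nat_lit 1) (nat_lit 482) (nat_lit 1) (nat_lit 372) (nat_lit 395) (nat_lit 373)) (XT.lf (nat_lit 1976) (nat_lit 1752093321) (nat_lit 0) (nat_lit 882823771) (nat_lit 1900) (nat_lit 1752093321) (nat_lit 509) (nat_lit 1) (nat_lit 483) (nat_lit 1) (nat_lit 508) (nat_lit 1) (nat_lit 373) (nat_lit 395) (nat_lit 372))))))) (XT.nd (nat_lit 702) (nat_lit 4256) (nat_lit 0) (XT.nd (nat_lit 312) (nat_lit 2660) (nat_lit 0) (XT.nd (nat_lit 156) (nat_lit 1064) (nat_lit 0) (XT.nd (nat_lit 78) (nat_lit 0) (nat_lit 76) (XT.lf (nat_lit 1976) (nat_lit 3145736946) (nat_lit 76) (nat_lit 600693364) (nat_lit 0) (nat_lit 600693364) (nat_lit 509) (nat_lit 1) (nat_lit 484) (nat_lit 1) (nat_lit 483) (nat_lit 1) (nat_lit 374) (nat_lit 395) (nat_lit 371)) (XT.lf (nat_lit 76) (nat_lit 1386741490) (nat_lit 0) (nat_lit 1534127562) (nat_lit 1900) (nat_lit 1386741490) (nat_lit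 485) (nat_lit 1) (nat_lit 484) (nat_lit 1) (nat_lit 509) (nat_lit 1) (nat_lit 375) (nat_lit 395) (nat_lit 370))) (XT.nd (nat_lit 78) (nat_lit 0) (nat_lit 0) (XT.lf (nat_lit 1216) (nat_lit 2398435168) (nat_lit 0) (nat_lit 935119555) (nat_lit 1140) (nat_lit 935119555) (nat_lit 485) (nat_lit 1) (nat_lit 469) (nat_lit 1) (nat_lit 484) (nat_lit 1) (nat_lit 376) (nat_lit 395) (nat_lit 369)) (XT.lf (nat_lit 76) (nat_lit 1007428778) (nat_lit 0) (nat_lit 2215332468) (nat_lit 1216) (nat_lit 1007428778) (nat_lit 470) (nat_lit 1) (nat_lit 469) (nat_lit 1) (nat_lit 485) (nat_lit 1) (nat_lit 377) (nat_lit 395) (nat_lit 368)))) (XT.nd (nat_lit 156) (nat_lit 1748) (nat_lit 0) (XT.nd (nat_lit 78) (nat_lit 0) (nat_lit 0) (XT.lf (nat_lit 988) (nat_lit 1624226520) (nat_lit 0) (nat_lit 1283974034) (nat_lit 912) (nat_lit 1283974034) (nat_lit 470) (nat_lit 1) (nat_lit 457) (nat_lit 1) (nat_lit 469) (nat_lit 1) (nat_lit 378) (nat_lit 395) (nat_lit 367)) (XT.lf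 (nat_lit 76) (nat_lit 615249224) (nat_lit 0) (nat_lit 2924195195) (nat_lit 988) (nat_lit 615249224) (nat_lit 458) (nat_lit 1) (nat_lit 457) (nat_lit 1) (nat_lit 470) (nat_lit 1) (nat_lit 379) (nat_lit 395) (nat_lit 366))) (XT.nd (nat_lit 78) (nat_lit 836) (nat_lit 0) (XT.lf (nat_lit 988) (nat_lit 825252408) (nat_lit 0) (nat_lit 1646158995) (nat_lit 912) (nat_lit 1646158995) (nat_lit 458) (nat_lit 1) (nat_lit 445) (nat_lit 1) (nat_lit 457) (nat_lit 1) (nat_lit 380) (nat_lit 395) (nat_lit 365)) (XT.nd (nat_lit 78) (nat_lit 836) (nat_lit 0) (XT.lf (nat_lit 76) (nat_lit 211243561) (nat_lit 0) (nat_lit 3658580779) (nat_lit 988) (nat_lit 211243561) (nat_lit 446) (nat_lit 1) (nat_lit 445) (nat_lit 1) (nat_lit 458) (nat_lit 1) (nat_lit 381) (nat_lit 395) (nat_lit 364)) (XT.lf (nat_lit 912) (nat_lit 3549583) (nat_lit 0) (nat_lit 2020629801) (nat_lit 836) (nat_lit 2020629801) (nat_lit 446) (nat_lit 1) (nat_lit 434) (nat_lit 1) (nat_lit 445) (nat_lit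 1) (nat_lit 382) (nat_lit 395) (nat_lit 363)))))) (XT.nd (nat_lit 312) (nat_lit 2432) (nat_lit 0) (XT.nd (nat_lit 156) (nat_lit 836) (nat_lit 0) (XT.nd (nat_lit 78) (nat_lit 0) (nat_lit 0) (XT.lf (nat_lit 988) (nat_lit 3604636783) (nat_lit 0) (nat_lit 202259036) (nat_lit 912) (nat_lit 202259036) (nat_lit 434) (nat_lit 1) (nat_lit 421) (nat_lit 1) (nat_lit 433) (nat_lit 1) (nat_lit 383) (nat_lit 395) (nat_lit 362)) (XT.lf (nat_lit 76) (nat_lit 1572894325) (nat_lit 0) (nat_lit 827942455) (nat_lit 988) (nat_lit 1572894325) (nat_lit 422) (nat_lit 1) (nat_lit 421) (nat_lit 1) (nat_lit 434) (nat_lit 1) (nat_lit 384) (nat_lit 395) (nat_lit 361))) (XT.nd (nat_lit 78) (nat_lit 0) (nat_lit 0) (XT.lf (nat_lit 912) (nat_lit 2690490551) (nat_lit 0) (nat_lit 624202292) (nat_lit 836) (nat_lit 624202292) (nat_lit 422) (nat_lit 1) (nat_lit 410) (nat_lit 1) (nat_lit 421) (nat_lit 1) (nat_lit 385) (nat_lit 395) (nat_lit 360)) (XT.lf (nat_lit 76) (nat_lit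 1113151023) (nat_lit 0) (nat_lit 1678090808) (nat_lit 912) (nat_lit 1113151023) (nat_lit 411) (nat_lit 1) (nat_lit 410) (nat_lit 1) (nat_lit 422) (nat_lit 1) (nat_lit 386) (nat_lit 395) (nat_lit 359)))) (XT.nd (nat_lit 156) (nat_lit 1596) (nat_lit 0) (XT.nd (nat_lit 78) (nat_lit 0) (nat_lit 0) (XT.lf (nat_lit 912) (nat_lit 1760175207) (nat_lit 0) (nat_lit 1055087705) (nat_lit 836) (nat_lit 1055087705) (nat_lit 411) (nat_lit 1) (nat_lit 399) (nat_lit 1) (nat_lit 410) (nat_lit 1) (nat_lit 387) (nat_lit 395) (nat_lit 358)) (XT.lf (nat_lit 76) (nat_lit 645765659) (nat_lit 0) (nat_lit 2545215990) (nat_lit 912) (nat_lit 645765659) (nat_lit 400) (nat_lit 1) (nat_lit 399) (nat_lit 1) (nat_lit 411) (nat_lit 1) (nat_lit 388) (nat_lit 395) (nat_lit 357))) (XT.nd (nat_lit 78) (nat_lit 836) (nat_lit 0) (XT.lf (nat_lit 836) (nat_lit 815331685) (nat_lit 0) (nat_lit 1494071437) (nat_lit 760) (nat_lit 1494071437) (nat_lit 400) (nat_lit 1) (nat_lit 389)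 (nat_lit 1) (nat_lit 399) (nat_lit 1) (nat_lit 389) (nat_lit 395) (nat_lit 356)) (XT.nd (nat_lit 78) (nat_lit 836) (nat_lit 0) (XT.lf (nat_lit 76) (nat_lit 171534875) (nat_lit 0) (nat_lit 3427678593) (nat_lit 836) (nat_lit 171534875) (nat_lit 390) (nat_lit 1) (nat_lit 389) (nat_lit 1) (nat_lit 400) (nat_lit 1) (nat_lit 390) (nat_lit 395) (nat_lit 355)) (XT.lf (nat_lit 76) (nat_lit 1798794587) (nat_lit 0) (nat_lit 140613975) (nat_lit 836) (nat_lit 1798794587) (nat_lit 379) (nat_lit 1) (nat_lit 378) (nat_lit 1) (nat_lit 389) (nat_lit 1) (nat_lit 391) (nat_lit 395) (nat_lit 354))))))))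
noncomputable def ec67 : XT := (XT.nd (nat_lit 1404) (nat_lit 6384) (nat_lit 0) (XT.nd (nat_lit 702) (nat_lit 3192) (nat_lit 0) (XT.nd (nat_lit 312) (nat_lit 2128) (nat_lit 0) (XT.nd (nat_lit 156) (nat_lit 760) (nat_lit 0) (XT.nd (nat_lit 78) (nat_lit 0) (nat_lit 0) (XT.lf (nat_lit 836) (nat_lit 3092682436) (nat_lit 0) (nat_lit 306753939) (nat_lit 760) (nat_lit 306753939) (nat_lit 379) (nat_lit 1) (nat_lit 368) (nat_lit 1) (nat_lit 378) (nat_lit 1) (nat_lit 392) (nat_lit 395) (nat_lit 353)) (XT.lf (nat_lit 76) (nat_lit 1288597244) (nat_lit 0) (nat_lit 1097209097) (nat_lit 836) (nat_lit 1288597244) (nat_lit 369) (nat_lit 1) (nat_lit 368) (nat_lit 1) (nat_lit 379) (nat_lit 1) (nat_lit 393) (nat_lit 395) (nat_lit 352))) (XT.nd (nat_lit 78) (nat_lit 0) (nat_lit 0) (XT.lf (nat_lit 836) (nat_lit 2064595667) (nat_lit 0) (nat_lit 789251460) (nat_lit 760) (nat_lit 789251460) (nat_lit 369) (nat_lit 1) (nat_lit 358) (nat_lit 1) (nat_lit 368) (nat_lit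 1) (nat_lit 394) (nat_lit 395) (nat_lit 351)) (XT.lf (nat_lit 76) (nat_lit 774187492) (nat_lit 0) (nat_lit 2063764336) (nat_lit 836) (nat_lit 774187492) (nat_lit 359) (nat_lit 1) (nat_lit 358) (nat_lit 1) (nat_lit 369) (nat_lit 1) (nat_lit 395) (nat_lit 395) (nat_lit 350)))) (XT.nd (nat_lit 156) (nat_lit 1444) (nat_lit 0) (XT.nd (nat_lit 78) (nat_lit 0) (nat_lit 0) (XT.lf (nat_lit 760) (nat_lit 1028698878) (nat_lit 0) (nat_lit 1276410997) (nat_lit 684) (nat_lit 1276410997) (nat_lit 359) (nat_lit 1) (nat_lit 349) (nat_lit 1) (nat_lit 358) (nat_lit 1) (nat_lit 396) (nat_lit 395) (nat_lit 349)) (XT.lf (nat_lit 76) (nat_lit 256199962) (nat_lit 0) (nat_lit 3038969282) (nat_lit 760) (nat_lit 256199962) (nat_lit 350) (nat_lit 1) (nat_lit 349) (nat_lit 1) (nat_lit 359) (nat_lit 1) (nat_lit 397) (nat_lit 395) (nat_lit 348))) (XT.nd (nat_lit 78) (nat_lit 684) (nat_lit 0) (XT.lf (nat_lit 76) (nat_lit 1753913389) (nat_lit 0) (nat_lit 13588159) (nat_lit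 760) (nat_lit 1753913389) (nat_lit 340) (nat_lit 1) (nat_lit 339) (nat_lit 1) (nat_lit 349) (nat_lit 1) (nat_lit 398) (nat_lit 395) (nat_lit 347)) (XT.nd (nat_lit 78) (nat_lit 0) (nat_lit 0) (XT.lf (nat_lit 760) (nat_lit 2965869911) (nat_lit 0) (nat_lit 263022720) (nat_lit 684) (nat_lit 263022720) (nat_lit 340) (nat_lit 1) (nat_lit 330) (nat_lit 1) (nat_lit 339) (nat_lit 1) (nat_lit 399) (nat_lit 395) (nat_lit 346)) (XT.lf (nat_lit 76) (nat_lit 1207449063) (nat_lit 0) (nat_lit 1047710936) (nat_lit 760) (nat_lit 1207449063) (nat_lit 331) (nat_lit 1) (nat_lit 330) (nat_lit 1) (nat_lit 340) (nat_lit 1) (nat_lit 400) (nat_lit 395) (nat_lit 345)))))) (XT.nd (nat_lit 312) (nat_lit 1900) (nat_lit 0) (XT.nd (nat_lit 156) (nat_lit 608) (nat_lit 0) (XT.nd (nat_lit 78) (nat_lit 0) (nat_lit 0) (XT.lf (nat_lit 760) (nat_lit 1867836875) (nat_lit 0) (nat_lit 782952689) (nat_lit 684) (nat_lit 782952689) (nat_lit 331) (nat_lit 1) (nat_lit 321) (nat_lit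 1) (nat_lit 330) (nat_lit 1) (nat_lit 401) (nat_lit 395) (nat_lit 344)) (XT.lf (nat_lit 76) (nat_lit 659566267) (nat_lit 0) (nat_lit 2086066380) (nat_lit 760) (nat_lit 659566267) (nat_lit 322) (nat_lit 1) (nat_lit 321) (nat_lit 1) (nat_lit 331) (nat_lit 1) (nat_lit 402) (nat_lit 395) (nat_lit 343))) (XT.nd (nat_lit 78) (nat_lit 0) (nat_lit 0) (XT.lf (nat_lit 684) (nat_lit 767462982) (nat_lit 0) (nat_lit 1304741583) (nat_lit 608) (nat_lit 1304741583) (nat_lit 322) (nat_lit 1) (nat_lit 313) (nat_lit 1) (nat_lit 321) (nat_lit 1) (nat_lit 403) (nat_lit 395) (nat_lit 342)) (XT.lf (nat_lit 76) (nat_lit 110763971) (nat_lit 0) (nat_lit 3127619758) (nat_lit 684) (nat_lit 110763971) (nat_lit 314) (nat_lit 1) (nat_lit 313) (nat_lit 1) (nat_lit 322) (nat_lit 1) (nat_lit 404) (nat_lit 395) (nat_lit 341)))) (XT.nd (nat_lit 156) (nat_lit 608) (nat_lit 0) (XT.nd (nat_lit 78) (nat_lit 608) (nat_lit 0) (XT.lf (nat_lit 76) (nat_lit 1495776324) (nat_lit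 0) (nat_lit 329894805) (nat_lit 684) (nat_lit 1495776324) (nat_lit 305) (nat_lit 1) (nat_lit 304) (nat_lit 1) (nat_lit 313) (nat_lit 1) (nat_lit 405) (nat_lit 395) (nat_lit 340)) (XT.lf (nat_lit 684) (nat_lit 2422986896) (nat_lit 0) (nat_lit 435602151) (nat_lit 608) (nat_lit 435602151) (nat_lit 305) (nat_lit 1) (nat_lit 296) (nat_lit 1) (nat_lit 304) (nat_lit 1) (nat_lit 406) (nat_lit 395) (nat_lit 339))) (XT.nd (nat_lit 78) (nat_lit 608) (nat_lit 0) (XT.lf (nat_lit 76) (nat_lit 924761610) (nat_lit 0) (nat_lit 1417631527) (nat_lit 684) (nat_lit 924761610) (nat_lit 297) (nat_lit 1) (nat_lit 296) (nat_lit 1) (nat_lit 305) (nat_lit 1) (nat_lit 407) (nat_lit 395) (nat_lit 338)) (XT.nd (nat_lit 78) (nat_lit 0) (nat_lit 0) (XT.lf (nat_lit 684) (nat_lit 1277977408) (nat_lit 0) (nat_lit 981244071) (nat_lit 608) (nat_lit 981244071) (nat_lit 297) (nat_lit 1) (nat_lit 288) (nat_lit 1) (nat_lit 296) (nat_lit 1) (nat_lit 408) (nat_lit 395) (nat_lit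 337)) (XT.lf (nat_lit 76) (nat_lit 354587474) (nat_lit 0) (nat_lit 2504958772) (nat_lit 684) (nat_lit 354587474) (nat_lit 289) (nat_lit 1) (nat_lit 288) (nat_lit 1) (nat_lit 297) (nat_lit 1) (nat_lit 409) (nat_lit 395) (nat_lit 336))))))) (XT.nd (nat_lit 702) (nat_lit 2964) (nat_lit 0) (XT.nd (nat_lit 312) (nat_lit 1672) (nat_lit 0) (XT.nd (nat_lit 156) (nat_lit 532) (nat_lit 0) (XT.nd (nat_lit 78) (nat_lit 684) (nat_lit 0) (XT.lf (nat_lit 608) (nat_lit 135045488) (nat_lit 0) (nat_lit 1526474788) (nat_lit 532) (nat_lit 1526474788) (nat_lit 289) (nat_lit 1) (nat_lit 281) (nat_lit 1) (nat_lit 288) (nat_lit 1) (nat_lit 410) (nat_lit 395) (nat_lit 335)) (XT.lf (nat_lit 684) (nat_lit 2736339340) (nat_lit 0) (nat_lit 212950170) (nat_lit 608) (nat_lit 212950170) (nat_lit 281) (nat_lit 1) (nat_lit 272) (nat_lit 1) (nat_lit 280) (nat_lit 1) (nat_lit 411) (nat_lit 395) (nat_lit 334))) (XT.nd (nat_lit 78) (nat_lit 532) (nat_lit 0) (XT.lf (nat_lit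 76) (nat_lit 1072369922) (nat_lit 0) (nat_lit 991876945) (nat_lit 684) (nat_lit 1072369922) (nat_lit 273) (nat_lit 1) (nat_lit 272) (nat_lit 1) (nat_lit 281) (nat_lit 1) (nat_lit 412) (nat_lit 395) (nat_lit 333)) (XT.lf (nat_lit 608) (nat_lit 1558214832) (nat_lit 0) (nat_lit 776576762) (nat_lit 532) (nat_lit 776576762) (nat_lit 273) (nat_lit 1) (nat_lit 265) (nat_lit 1) (nat_lit 272) (nat_lit 1) (nat_lit 413) (nat_lit 395) (nat_lit 332)))) (XT.nd (nat_lit 156) (nat_lit 1140) (nat_lit 0) (XT.nd (nat_lit 78) (nat_lit 532) (nat_lit 0) (XT.lf (nat_lit 76) (nat_lit 486435503) (nat_lit 0) (nat_lit 2113541644) (nat_lit 608) (nat_lit 486435503) (nat_lit 266) (nat_lit 1) (nat_lit 265) (nat_lit 1) (nat_lit 273) (nat_lit 1) (nat_lit 414) (nat_lit 395) (nat_lit 331)) (XT.lf (nat_lit 608) (nat_lit 385099631) (nat_lit 0) (nat_lit 1338286998) (nat_lit 532) (nat_lit 1338286998) (nat_lit 266) (nat_lit 1) (nat_lit 258) (nat_lit 1) (nat_lit 265) (nat_lit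 1) (nat_lit 415) (nat_lit 395) (nat_lit 330))) (XT.nd (nat_lit 78) (nat_lit 532) (nat_lit 0) (XT.lf (nat_lit 608) (nat_lit 2844896385) (nat_lit 0) (nat_lit 96211409) (nat_lit 532) (nat_lit 96211409) (nat_lit 258) (nat_lit 1) (nat_lit 250) (nat_lit 1) (nat_lit 257) (nat_lit 1) (nat_lit 416) (nat_lit 395) (nat_lit 329)) (XT.nd (nat_lit 78) (nat_lit 532) (nat_lit 0) (XT.lf (nat_lit 76) (nat_lit 1120441618) (nat_lit 0) (nat_lit 772140636) (nat_lit 608) (nat_lit 1120441618) (nat_lit 251) (nat_lit 1) (nat_lit 250) (nat_lit 1) (nat_lit 258) (nat_lit 1) (nat_lit 417) (nat_lit 395) (nat_lit 328)) (XT.lf (nat_lit 608) (nat_lit 1643633612) (nat_lit 0) (nat_lit 672735852) (nat_lit 532) (nat_lit 672735852) (nat_lit 251) (nat_lit 1) (nat_lit 243) (nat_lit 1) (nat_lit 250) (nat_lit 1) (nat_lit 418) (nat_lit 395) (nat_lit 327)))))) (XT.nd (nat_lit 390) (nat_lit 1444) (nat_lit 0) (XT.nd (nat_lit 156) (nat_lit 1064) (nat_lit 0) (XT.nd (nat_lit 78) (nat_lit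 456) (nat_lit 0) (XT.lf (nat_lit 76) (nat_lit 523604886) (nat_lit 0) (nat_lit 1918232547) (nat_lit 608) (nat_lit 523604886) (nat_lit 244) (nat_lit 1) (nat_lit 243) (nat_lit 1) (nat_lit 251) (nat_lit 1) (nat_lit 419) (nat_lit 395) (nat_lit 326)) (XT.lf (nat_lit 532) (nat_lit 449860567) (nat_lit 0) (nat_lit 1246067643) (nat_lit 456) (nat_lit 1246067643) (nat_lit 244) (nat_lit 1) (nat_lit 237) (nat_lit 1) (nat_lit 243) (nat_lit 1) (nat_lit 420) (nat_lit 395) (nat_lit 325))) (XT.nd (nat_lit 78) (nat_lit 456) (nat_lit 0) (XT.lf (nat_lit 608) (nat_lit 2781072295) (nat_lit 0) (nat_lit 68921127) (nat_lit 532) (nat_lit 68921127) (nat_lit 237) (nat_lit 1) (nat_lit 229) (nat_lit 1) (nat_lit 236) (nat_lit 1) (nat_lit 421) (nat_lit 395) (nat_lit 324)) (XT.nd (nat_lit 78) (nat_lit 456) (nat_lit 0) (XT.lf (nat_lit 76) (nat_lit 1084786838) (nat_lit 0) (nat_lit 726293742) (nat_lit 608) (nat_lit 1084786838) (nat_lit 230) (nat_lit 1) (nat_lit 229) (nat_lit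 1) (nat_lit 237) (nat_lit 1) (nat_lit 422) (nat_lit 395) (nat_lit 323)) (XT.lf (nat_lit 532) (nat_lit 1565286978) (nat_lit 0) (nat_lit 653945761) (nat_lit 456) (nat_lit 653945761) (nat_lit 230) (nat_lit 1) (nat_lit 223) (nat_lit 1) (nat_lit 229) (nat_lit 1) (nat_lit 423) (nat_lit 395) (nat_lit 322))))) (XT.nd (nat_lit 156) (nat_lit 988) (nat_lit 0) (XT.nd (nat_lit 78) (nat_lit 456) (nat_lit 0) (XT.lf (nat_lit 76) (nat_lit 481241449) (nat_lit 0) (nat_lit 1888248305) (nat_lit 532) (nat_lit 481241449) (nat_lit 224) (nat_lit 1) (nat_lit 223) (nat_lit 1) (nat_lit 230) (nat_lit 1) (nat_lit 424) (nat_lit 395) (nat_lit 321)) (XT.lf (nat_lit 532) (nat_lit 359075823) (nat_lit 0) (nat_lit 1234702324) (nat_lit 456) (nat_lit 1234702324) (nat_lit 224) (nat_lit 1) (nat_lit 217) (nat_lit 1) (nat_lit 223) (nat_lit 1) (nat_lit 425) (nat_lit 395) (nat_lit 320))) (XT.nd (nat_lit 78) (nat_lit 456) (nat_lit 0) (XT.lf (nat_lit 532) (nat_lit 2573225715) (nat_lit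 0) (nat_lit 116666239) (nat_lit 456) (nat_lit 116666239) (nat_lit 217) (nat_lit 1) (nat_lit 210) (nat_lit 1) (nat_lit 216) (nat_lit 1) (nat_lit 426) (nat_lit 395) (nat_lit 319)) (XT.nd (nat_lit 78) (nat_lit 456) (nat_lit 0) (XT.lf (nat_lit 76) (nat_lit 979235447) (nat_lit 0) (nat_lit 826215017) (nat_lit 532) (nat_lit 979235447) (nat_lit 211) (nat_lit 1) (nat_lit 210) (nat_lit 1) (nat_lit 217) (nat_lit 1) (nat_lit 427) (nat_lit 395) (nat_lit 318)) (XT.lf (nat_lit 532) (nat_lit 1350334466) (nat_lit 0) (nat_lit 706400726) (nat_lit 456) (nat_lit 706400726) (nat_lit 211) (nat_lit 1) (nat_lit 204) (nat_lit 1) (nat_lit 210) (nat_lit 1) (nat_lit 428) (nat_lit 395) (nat_lit 317))))))))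
noncomputable def ec68 : XT := (XT.nd (nat_lit 53040) (nat_lit 0) (nat_lit 26600) (XT.nd (nat_lit 702) (nat_lit 2204) (nat_lit 0) (XT.nd (nat_lit 312) (nat_lit 1216) (nat_lit 0) (XT.nd (nat_lit 156) (nat_lit 532) (nat_lit 0) (XT.nd (nat_lit 78) (nat_lit 380) (nat_lit 0) (XT.lf (nat_lit 76) (nat_lit 372589834) (nat_lit 0) (nat_lit 1996653458) (nat_lit 532) (nat_lit 372589834) (nat_lit 205) (nat_lit 1) (nat_lit 204) (nat_lit 1) (nat_lit 211) (nat_lit 1) (nat_lit 429) (nat_lit 395) (nat_lit 316)) (XT.lf (nat_lit 456) (nat_lit 138754772) (nat_lit 0) (nat_lit 1290967849) (nat_lit 380) (nat_lit 1290967849) (nat_lit 205) (nat_lit 1) (nat_lit 199) (nat_lit 1) (nat_lit 204) (nat_lit 1) (nat_lit 430) (nat_lit 395) (nat_lit 315))) (XT.nd (nat_lit 78) (nat_lit 0) (nat_lit 0) (XT.lf (nat_lit 532) (nat_lit 2246131603) (nat_lit 0) (nat_lit 226846875) (nat_lit 456) (nat_lit 226846875) (nat_lit 199) (nat_lit 1) (nat_lit 192) (nat_lit 1) (nat_lit 198)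 (nat_lit 1) (nat_lit 431) (nat_lit 395) (nat_lit 314)) (XT.lf (nat_lit 76) (nat_lit 815867562) (nat_lit 0) (nat_lit 1047324900) (nat_lit 532) (nat_lit 815867562) (nat_lit 193) (nat_lit 1) (nat_lit 192) (nat_lit 1) (nat_lit 199) (nat_lit 1) (nat_lit 432) (nat_lit 395) (nat_lit 313)))) (XT.nd (nat_lit 156) (nat_lit 836) (nat_lit 0) (XT.nd (nat_lit 78) (nat_lit 0) (nat_lit 0) (XT.lf (nat_lit 456) (nat_lit 1022495340) (nat_lit 0) (nat_lit 818035707) (nat_lit 380) (nat_lit 818035707) (nat_lit 193) (nat_lit 1) (nat_lit 187) (nat_lit 1) (nat_lit 192) (nat_lit 1) (nat_lit 433) (nat_lit 395) (nat_lit 312)) (XT.lf (nat_lit 76) (nat_lit 209214970) (nat_lit 0) (nat_lit 2219912598) (nat_lit 456) (nat_lit 209214970) (nat_lit 188) (nat_lit 1) (nat_lit 187) (nat_lit 1) (nat_lit 193) (nat_lit 1) (nat_lit 434) (nat_lit 395) (nat_lit 311))) (XT.nd (nat_lit 78) (nat_lit 380) (nat_lit 0) (XT.lf (nat_lit 76) (nat_lit 1216139582) (nat_lit 0) (nat_lit 185924881)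 (nat_lit 456) (nat_lit 1216139582) (nat_lit 182) (nat_lit 1) (nat_lit 181) (nat_lit 1) (nat_lit 187) (nat_lit 1) (nat_lit 435) (nat_lit 395) (nat_lit 310)) (XT.nd (nat_lit 78) (nat_lit 0) (nat_lit 0) (XT.lf (nat_lit 456) (nat_lit 1821399582) (nat_lit 0) (nat_lit 388464982) (nat_lit 380) (nat_lit 388464982) (nat_lit 182) (nat_lit 1) (nat_lit 176) (nat_lit 1) (nat_lit 181) (nat_lit 1) (nat_lit 436) (nat_lit 395) (nat_lit 309)) (XT.lf (nat_lit 76) (nat_lit 605217891) (nat_lit 0) (nat_lit 1368172447) (nat_lit 456) (nat_lit 605217891) (nat_lit 177) (nat_lit 1) (nat_lit 176) (nat_lit 1) (nat_lit 182) (nat_lit 1) (nat_lit 437) (nat_lit 395) (nat_lit 308)))))) (XT.nd (nat_lit 312) (nat_lit 1064) (nat_lit 0) (XT.nd (nat_lit 156) (nat_lit 760) (nat_lit 0) (XT.nd (nat_lit 78) (nat_lit 0) (nat_lit 0) (XT.lf (nat_lit 456) (nat_lit 602450529) (nat_lit 0) (nat_lit 978323291) (nat_lit 380) (nat_lit 978323291) (nat_lit 177) (nat_lit 1) (nat_lit 171) (nat_lit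 1) (nat_lit 176) (nat_lit 1) (nat_lit 438) (nat_lit 395) (nat_lit 307)) (XT.lf (nat_lit 76) (nat_lit 1198408) (nat_lit 0) (nat_lit 2537493516) (nat_lit 456) (nat_lit 1198408) (nat_lit 172) (nat_lit 1) (nat_lit 171) (nat_lit 1) (nat_lit 177) (nat_lit 1) (nat_lit 439) (nat_lit 395) (nat_lit 306))) (XT.nd (nat_lit 78) (nat_lit 380) (nat_lit 0) (XT.lf (nat_lit 76) (nat_lit 962986209) (nat_lit 0) (nat_lit 594682159) (nat_lit 380) (nat_lit 962986209) (nat_lit 167) (nat_lit 1) (nat_lit 166) (nat_lit 1) (nat_lit 171) (nat_lit 1) (nat_lit 440) (nat_lit 395) (nat_lit 305)) (XT.lf (nat_lit 456) (nat_lit 1317844752) (nat_lit 0) (nat_lit 591936957) (nat_lit 380) (nat_lit 591936957) (nat_lit 167) (nat_lit 1) (nat_lit 161) (nat_lit 1) (nat_lit 166) (nat_lit 1) (nat_lit 441) (nat_lit 395) (nat_lit 304)))) (XT.nd (nat_lit 156) (nat_lit 760) (nat_lit 0) (XT.nd (nat_lit 78) (nat_lit 304) (nat_lit 0) (XT.lf (nat_lit 76) (nat_lit 356456855) (nat_lit 0) (nat_lit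 1770069212) (nat_lit 456) (nat_lit 356456855) (nat_lit 162) (nat_lit 1) (nat_lit 161) (nat_lit 1) (nat_lit 167) (nat_lit 1) (nat_lit 442) (nat_lit 395) (nat_lit 303)) (XT.lf (nat_lit 380) (nat_lit 108198869) (nat_lit 0) (nat_lit 1178093670) (nat_lit 304) (nat_lit 1178093670) (nat_lit 162) (nat_lit 1) (nat_lit 157) (nat_lit 1) (nat_lit 161) (nat_lit 1) (nat_lit 443) (nat_lit 395) (nat_lit 302))) (XT.nd (nat_lit 78) (nat_lit 304) (nat_lit 0) (XT.lf (nat_lit 456) (nat_lit 1963831500) (nat_lit 0) (nat_lit 241091054) (nat_lit 380) (nat_lit 241091054) (nat_lit 157) (nat_lit 1) (nat_lit 151) (nat_lit 1) (nat_lit 156) (nat_lit 1) (nat_lit 444) (nat_lit 395) (nat_lit 301)) (XT.nd (nat_lit 78) (nat_lit 304) (nat_lit 0) (XT.lf (nat_lit 76) (nat_lit 677693104) (nat_lit 0) (nat_lit 1072346261) (nat_lit 456) (nat_lit 677693104) (nat_lit 152) (nat_lit 1) (nat_lit 151) (nat_lit 1) (nat_lit 157) (nat_lit 1) (nat_lit 445) (nat_lit 395) (nat_lit 300)) (XT.lf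 (nat_lit 380) (nat_lit 751816309) (nat_lit 0) (nat_lit 828927573) (nat_lit 304) (nat_lit 828927573) (nat_lit 152) (nat_lit 1) (nat_lit 147) (nat_lit 1) (nat_lit 151) (nat_lit 1) (nat_lit 446) (nat_lit 395) (nat_lit 299))))))) (XT.nd (nat_lit 702) (nat_lit 0) (nat_lit 304) (XT.nd (nat_lit 312) (nat_lit 0) (nat_lit 152) (XT.nd (nat_lit 156) (nat_lit 0) (nat_lit 76) (XT.nd (nat_lit 78) (nat_lit 0) (nat_lit 0) (XT.lf (nat_lit 1900) (nat_lit 925951210) (nat_lit 0) (nat_lit 933694315) (nat_lit 1900) (nat_lit 925951210) (nat_lit 522) (nat_lit 1) (nat_lit 497) (nat_lit 0) (nat_lit 522) (nat_lit 0) (nat_lit 348) (nat_lit 396) (nat_lit 396)) (XT.lf (nat_lit 1900) (nat_lit 3661350302) (nat_lit 76) (nat_lit 927551589) (nat_lit 0) (nat_lit 927551589) (nat_lit 522) (nat_lit 1) (nat_lit 498) (nat_lit 1) (nat_lit 497) (nat_lit 0) (nat_lit 349) (nat_lit 396) (nat_lit 395))) (XT.nd (nat_lit 78) (nat_lit 0) (nat_lit 0) (XT.lf (nat_lit 1900) (nat_lit 1797740426)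 (nat_lit 0) (nat_lit 1866830534) (nat_lit 1824) (nat_lit 1797740426) (nat_lit 523) (nat_lit 1) (nat_lit 498) (nat_lit 1) (nat_lit 522) (nat_lit 1) (nat_lit 350) (nat_lit 396) (nat_lit 394)) (XT.lf (nat_lit 1900) (nat_lit 3518621182) (nat_lit 76) (nat_lit 945184450) (nat_lit 0) (nat_lit 945184450) (nat_lit 523) (nat_lit 1) (nat_lit 499) (nat_lit 1) (nat_lit 498) (nat_lit 1) (nat_lit 351) (nat_lit 396) (nat_lit 393)))) (XT.nd (nat_lit 156) (nat_lit 0) (nat_lit 76) (XT.nd (nat_lit 78) (nat_lit 0) (nat_lit 0) (XT.lf (nat_lit 1900) (nat_lit 1709983218) (nat_lit 0) (nat_lit 1936290954) (nat_lit 1824) (nat_lit 1709983218) (nat_lit 524) (nat_lit 1) (nat_lit 499) (nat_lit 1) (nat_lit 523) (nat_lit 1) (nat_lit 352) (nat_lit 396) (nat_lit 392)) (XT.lf (nat_lit 1900) (nat_lit 3310507341) (nat_lit 76) (nat_lit 996900775) (nat_lit 0) (nat_lit 996900775) (nat_lit 524) (nat_lit 1) (nat_lit 500) (nat_lit 1) (nat_lit 499) (nat_lit 1) (nat_lit 353) (nat_lit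 396) (nat_lit 391))) (XT.nd (nat_lit 78) (nat_lit 0) (nat_lit 0) (XT.lf (nat_lit 1900) (nat_lit 1590635306) (nat_lit 0) (nat_lit 2071678499) (nat_lit 1824) (nat_lit 1590635306) (nat_lit 525) (nat_lit 1) (nat_lit 500) (nat_lit 1) (nat_lit 524) (nat_lit 1) (nat_lit 354) (nat_lit 396) (nat_lit 390)) (XT.nd (nat_lit 78) (nat_lit 0) (nat_lit 76) (XT.lf (nat_lit 1900) (nat_lit 3040938475) (nat_lit 76) (nat_lit 1080695333) (nat_lit 0) (nat_lit 1080695333) (nat_lit 525) (nat_lit 1) (nat_lit 501) (nat_lit 1) (nat_lit 500) (nat_lit 1) (nat_lit 355) (nat_lit 396) (nat_lit 389)) (XT.lf (nat_lit 1900) (nat_lit 1441609640) (nat_lit 0) (nat_lit 2269087563) (nat_lit 1824) (nat_lit 1441609640) (nat_lit 526) (nat_lit 1) (nat_lit 501) (nat_lit 1) (nat_lit 525) (nat_lit 1) (nat_lit 356) (nat_lit 396) (nat_lit 388)))))) (XT.nd (nat_lit 312) (nat_lit 0) (nat_lit 152) (XT.nd (nat_lit 156) (nat_lit 0) (nat_lit 76) (XT.nd (nat_lit 78) (nat_lit 0) (nat_lit 76)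 (XT.lf (nat_lit 1900) (nat_lit 2713664414) (nat_lit 76) (nat_lit 1194654126) (nat_lit 0) (nat_lit 1194654126) (nat_lit 526) (nat_lit 1) (nat_lit 502) (nat_lit 1) (nat_lit 501) (nat_lit 1) (nat_lit 357) (nat_lit 396) (nat_lit 387)) (XT.lf (nat_lit 1900) (nat_lit 1264731432) (nat_lit 0) (nat_lit 2524790583) (nat_lit 1824) (nat_lit 1264731432) (nat_lit 527) (nat_lit 1) (nat_lit 502) (nat_lit 1) (nat_lit 526) (nat_lit 1) (nat_lit 358) (nat_lit 396) (nat_lit 386))) (XT.nd (nat_lit 78) (nat_lit 0) (nat_lit 76) (XT.lf (nat_lit 1900) (nat_lit 2332262645) (nat_lit 76) (nat_lit 1336950583) (nat_lit 0) (nat_lit 1336950583) (nat_lit 527) (nat_lit 1) (nat_lit 503) (nat_lit 1) (nat_lit 502) (nat_lit 1) (nat_lit 359) (nat_lit 396) (nat_lit 385)) (XT.lf (nat_lit 1900) (nat_lit 1061741824) (nat_lit 0) (nat_lit 2835230609) (nat_lit 1824) (nat_lit 1061741824) (nat_lit 528) (nat_lit 1) (nat_lit 503) (nat_lit 1) (nat_lit 527) (nat_lit 1) (nat_lit 360) (nat_lit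 396) (nat_lit 384)))) (XT.nd (nat_lit 156) (nat_lit 0) (nat_lit 76) (XT.nd (nat_lit 78) (nat_lit 0) (nat_lit 76) (XT.lf (nat_lit 1900) (nat_lit 1900145525) (nat_lit 76) (nat_lit 1505841910) (nat_lit 0) (nat_lit 1505841910) (nat_lit 528) (nat_lit 1) (nat_lit 504) (nat_lit 1) (nat_lit 503) (nat_lit 1) (nat_lit 361) (nat_lit 396) (nat_lit 383)) (XT.lf (nat_lit 1900) (nat_lit 834301417) (nat_lit 0) (nat_lit 3197014169) (nat_lit 1824) (nat_lit 834301417) (nat_lit 529) (nat_lit 1) (nat_lit 504) (nat_lit 1) (nat_lit 528) (nat_lit 1) (nat_lit 362) (nat_lit 396) (nat_lit 382))) (XT.nd (nat_lit 78) (nat_lit 0) (nat_lit 76) (XT.lf (nat_lit 1900) (nat_lit 1420567210) (nat_lit 76) (nat_lit 1699665583) (nat_lit 0) (nat_lit 1699665583) (nat_lit 529) (nat_lit 1) (nat_lit 505) (nat_lit 1) (nat_lit 504) (nat_lit 1) (nat_lit 363) (nat_lit 396) (nat_lit 381)) (XT.nd (nat_lit 78) (nat_lit 0) (nat_lit 0) (XT.lf (nat_lit 1900) (nat_lit 583993649) (nat_lit 0)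 (nat_lit 3606904429) (nat_lit 1824) (nat_lit 583993649) (nat_lit 530) (nat_lit 1) (nat_lit 505) (nat_lit 1) (nat_lit 529) (nat_lit 1) (nat_lit 364) (nat_lit 396) (nat_lit 380)) (XT.lf (nat_lit 1900) (nat_lit 896630301) (nat_lit 76) (nat_lit 1916835987) (nat_lit 0) (nat_lit 1916835987) (nat_lit 530) (nat_lit 1) (nat_lit 506) (nat_lit 1) (nat_lit 505) (nat_lit 1) (nat_lit 365) (nat_lit 396) (nat_lit 379))))))))
noncomputable def ec69 : XT := (XT.nd (nat_lit 1404) (nat_lit 7372) (nat_lit 0) (XT.nd (nat_lit 702) (nat_lit 4484) (nat_lit 0) (XT.nd (nat_lit 312) (nat_lit 988) (nat_lit 0) (XT.nd (nat_lit 156) (nat_lit 1824) (nat_lit 0) (XT.nd (nat_lit 78) (nat_lit 0) (nat_lit 0) (XT.lf (nat_lit 1900) (nat_lit 312328039) (nat_lit 0) (nat_lit 4061814616) (nat_lit 1824) (nat_lit 312328039) (nat_lit 531) (nat_lit 1) (nat_lit 506) (nat_lit 1) (nat_lit 530) (nat_lit 1) (nat_lit 366) (nat_lit 396) (nat_lit 378)) (XT.lf (nat_lit 1900) (nat_lit 331292220)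 (nat_lit 76) (nat_lit 2155841183) (nat_lit 0) (nat_lit 2155841183) (nat_lit 531) (nat_lit 1) (nat_lit 507) (nat_lit 1) (nat_lit 506) (nat_lit 1) (nat_lit 367) (nat_lit 396) (nat_lit 377))) (XT.nd (nat_lit 78) (nat_lit 1900) (nat_lit 0) (XT.lf (nat_lit 1900) (nat_lit 20743303) (nat_lit 0) (nat_lit 4558801720) (nat_lit 1824) (nat_lit 20743303) (nat_lit 532) (nat_lit 1) (nat_lit 507) (nat_lit 1) (nat_lit 531) (nat_lit 1) (nat_lit 368) (nat_lit 396) (nat_lit 376)) (XT.lf (nat_lit 1976) (nat_lit 2144381240) (nat_lit 0) (nat_lit 269053087) (nat_lit 1900) (nat_lit 2144381240) (nat_lit 508) (nat_lit 1) (nat_lit 482) (nat_lit 1) (nat_lit 507) (nat_lit 1) (nat_lit 369) (nat_lit 396) (nat_lit 375)))) (XT.nd (nat_lit 156) (nat_lit 988) (nat_lit 0) (XT.nd (nat_lit 78) (nat_lit 0) (nat_lit 76) (XT.lf (nat_lit 1976) (nat_lit 3941158742) (nat_lit 76) (nat_lit 287485779) (nat_lit 0) (nat_lit 287485779) (nat_lit 508) (nat_lit 1) (nat_lit 483) (nat_lit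 1) (nat_lit 482) (nat_lit 1) (nat_lit 370) (nat_lit 396) (nat_lit 374)) (XT.lf (nat_lit 1976) (nat_lit 1787135187) (nat_lit 0) (nat_lit 900480247) (nat_lit 1900) (nat_lit 1787135187) (nat_lit 509) (nat_lit 1) (nat_lit 483) (nat_lit 1) (nat_lit 508) (nat_lit 1) (nat_lit 371) (nat_lit 396) (nat_lit 373))) (XT.nd (nat_lit 78) (nat_lit 1064) (nat_lit 0) (XT.lf (nat_lit 1976) (nat_lit 3208651685) (nat_lit 76) (nat_lit 612707231) (nat_lit 0) (nat_lit 612707231) (nat_lit 509) (nat_lit 1) (nat_lit 484) (nat_lit 1) (nat_lit 483) (nat_lit 1) (nat_lit 372) (nat_lit 396) (nat_lit 372)) (XT.nd (nat_lit 78) (nat_lit 1140) (nat_lit 0) (XT.lf (nat_lit 76) (nat_lit 1414476320) (nat_lit 0) (nat_lit 1564810113) (nat_lit 1900) (nat_lit 1414476320) (nat_lit 485) (nat_lit 1) (nat_lit 484) (nat_lit 1) (nat_lit 509) (nat_lit 1) (nat_lit 373) (nat_lit 396) (nat_lit 371)) (XT.lf (nat_lit 1216) (nat_lit 2446403871) (nat_lit 0) (nat_lit 953821946) (nat_lit 1140)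 (nat_lit 953821946) (nat_lit 485) (nat_lit 1) (nat_lit 469) (nat_lit 1) (nat_lit 484) (nat_lit 1) (nat_lit 374) (nat_lit 396) (nat_lit 370)))))) (XT.nd (nat_lit 312) (nat_lit 2660) (nat_lit 0) (XT.nd (nat_lit 156) (nat_lit 912) (nat_lit 0) (XT.nd (nat_lit 78) (nat_lit 912) (nat_lit 0) (XT.lf (nat_lit 76) (nat_lit 1027577354) (nat_lit 0) (nat_lit 2259639117) (nat_lit 1216) (nat_lit 1027577354) (nat_lit 470) (nat_lit 1) (nat_lit 469) (nat_lit 1) (nat_lit 485) (nat_lit 1) (nat_lit 375) (nat_lit 396) (nat_lit 369)) (XT.lf (nat_lit 988) (nat_lit 1656711050) (nat_lit 0) (nat_lit 1309653515) (nat_lit 912) (nat_lit 1309653515) (nat_lit 470) (nat_lit 1) (nat_lit 457) (nat_lit 1) (nat_lit 469) (nat_lit 1) (nat_lit 376) (nat_lit 396) (nat_lit 368))) (XT.nd (nat_lit 78) (nat_lit 912) (nat_lit 0) (XT.lf (nat_lit 76) (nat_lit 627554208) (nat_lit 0) (nat_lit 2982679099) (nat_lit 988) (nat_lit 627554208) (nat_lit 458) (nat_lit 1) (nat_lit 457) (nat_lit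 1) (nat_lit 470) (nat_lit 1) (nat_lit 377) (nat_lit 396) (nat_lit 367)) (XT.lf (nat_lit 988) (nat_lit 841757457) (nat_lit 0) (nat_lit 1679082175) (nat_lit 912) (nat_lit 1679082175) (nat_lit 458) (nat_lit 1) (nat_lit 445) (nat_lit 1) (nat_lit 457) (nat_lit 1) (nat_lit 378) (nat_lit 396) (nat_lit 366)))) (XT.nd (nat_lit 156) (nat_lit 1824) (nat_lit 0) (XT.nd (nat_lit 78) (nat_lit 836) (nat_lit 0) (XT.lf (nat_lit 76) (nat_lit 215468432) (nat_lit 0) (nat_lit 3731752395) (nat_lit 988) (nat_lit 215468432) (nat_lit 446) (nat_lit 1) (nat_lit 445) (nat_lit 1) (nat_lit 458) (nat_lit 1) (nat_lit 379) (nat_lit 396) (nat_lit 365)) (XT.lf (nat_lit 912) (nat_lit 3620575) (nat_lit 0) (nat_lit 2061042397) (nat_lit 836) (nat_lit 2061042397) (nat_lit 446) (nat_lit 1) (nat_lit 434) (nat_lit 1) (nat_lit 445) (nat_lit 1) (nat_lit 380) (nat_lit 396) (nat_lit 364))) (XT.nd (nat_lit 78) (nat_lit 836) (nat_lit 0) (XT.lf (nat_lit 988) (nat_lit 3676729519) (nat_lit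 0) (nat_lit 206304217) (nat_lit 912) (nat_lit 206304217) (nat_lit 434) (nat_lit 1) (nat_lit 421) (nat_lit 1) (nat_lit 433) (nat_lit 1) (nat_lit 381) (nat_lit 396) (nat_lit 363)) (XT.nd (nat_lit 78) (nat_lit 836) (nat_lit 0) (XT.lf (nat_lit 76) (nat_lit 1604352212) (nat_lit 0) (nat_lit 844501304) (nat_lit 988) (nat_lit 1604352212) (nat_lit 422) (nat_lit 1) (nat_lit 421) (nat_lit 1) (nat_lit 434) (nat_lit 1) (nat_lit 382) (nat_lit 396) (nat_lit 362)) (XT.lf (nat_lit 912) (nat_lit 2744300362) (nat_lit 0) (nat_lit 636686338) (nat_lit 836) (nat_lit 636686338) (nat_lit 422) (nat_lit 1) (nat_lit 410) (nat_lit 1) (nat_lit 421) (nat_lit 1) (nat_lit 383) (nat_lit 396) (nat_lit 361))))))) (XT.nd (nat_lit 702) (nat_lit 3420) (nat_lit 0) (XT.nd (nat_lit 312) (nat_lit 2356) (nat_lit 0) (XT.nd (nat_lit 156) (nat_lit 760) (nat_lit 0) (XT.nd (nat_lit 78) (nat_lit 836) (nat_lit 0) (XT.lf (nat_lit 76) (nat_lit 1135414044) (nat_lit 0) (nat_lit 1711652624)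 (nat_lit 912) (nat_lit 1135414044) (nat_lit 411) (nat_lit 1) (nat_lit 410) (nat_lit 1) (nat_lit 422) (nat_lit 1) (nat_lit 384) (nat_lit 396) (nat_lit 360)) (XT.lf (nat_lit 912) (nat_lit 1795378711) (nat_lit 0) (nat_lit 1076189459) (nat_lit 836) (nat_lit 1076189459) (nat_lit 411) (nat_lit 1) (nat_lit 399) (nat_lit 1) (nat_lit 410) (nat_lit 1) (nat_lit 385) (nat_lit 396) (nat_lit 359))) (XT.nd (nat_lit 78) (nat_lit 760) (nat_lit 0) (XT.lf (nat_lit 76) (nat_lit 658680972) (nat_lit 0) (nat_lit 2596120310) (nat_lit 912) (nat_lit 658680972) (nat_lit 400) (nat_lit 1) (nat_lit 399) (nat_lit 1) (nat_lit 411) (nat_lit 1) (nat_lit 386) (nat_lit 396) (nat_lit 358)) (XT.lf (nat_lit 836) (nat_lit 831638319) (nat_lit 0) (nat_lit 1523952866) (nat_lit 760) (nat_lit 1523952866) (nat_lit 400) (nat_lit 1) (nat_lit 389) (nat_lit 1) (nat_lit 399) (nat_lit 1) (nat_lit 387) (nat_lit 396) (nat_lit 357)))) (XT.nd (nat_lit 156) (nat_lit 1520) (nat_lit 0) (XT.nd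 (nat_lit 78) (nat_lit 836) (nat_lit 0) (XT.lf (nat_lit 76) (nat_lit 174965573) (nat_lit 0) (nat_lit 3496232164) (nat_lit 836) (nat_lit 174965573) (nat_lit 390) (nat_lit 1) (nat_lit 389) (nat_lit 1) (nat_lit 400) (nat_lit 1) (nat_lit 388) (nat_lit 396) (nat_lit 356)) (XT.lf (nat_lit 76) (nat_lit 1834770479) (nat_lit 0) (nat_lit 143426254) (nat_lit 836) (nat_lit 1834770479) (nat_lit 379) (nat_lit 1) (nat_lit 378) (nat_lit 1) (nat_lit 389) (nat_lit 1) (nat_lit 389) (nat_lit 396) (nat_lit 355))) (XT.nd (nat_lit 78) (nat_lit 760) (nat_lit 0) (XT.lf (nat_lit 836) (nat_lit 3154536085) (nat_lit 0) (nat_lit 312889017) (nat_lit 760) (nat_lit 312889017) (nat_lit 379) (nat_lit 1) (nat_lit 368) (nat_lit 1) (nat_lit 378) (nat_lit 1) (nat_lit 390) (nat_lit 396) (nat_lit 354)) (XT.nd (nat_lit 78) (nat_lit 760) (nat_lit 0) (XT.lf (nat_lit 76) (nat_lit 1314369189) (nat_lit 0) (nat_lit 1119153279) (nat_lit 836) (nat_lit 1314369189) (nat_lit 369) (nat_lit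 1) (nat_lit 368) (nat_lit 1) (nat_lit 379) (nat_lit 1) (nat_lit 391) (nat_lit 396) (nat_lit 353)) (XT.lf (nat_lit 836) (nat_lit 2105887581) (nat_lit 0) (nat_lit 805036489) (nat_lit 760) (nat_lit 805036489) (nat_lit 369) (nat_lit 1) (nat_lit 358) (nat_lit 1) (nat_lit 368) (nat_lit 1) (nat_lit 392) (nat_lit 396) (nat_lit 352)))))) (XT.nd (nat_lit 390) (nat_lit 1292) (nat_lit 0) (XT.nd (nat_lit 156) (nat_lit 1444) (nat_lit 0) (XT.nd (nat_lit 78) (nat_lit 684) (nat_lit 0) (XT.lf (nat_lit 76) (nat_lit 789671242) (nat_lit 0) (nat_lit 2105039622) (nat_lit 836) (nat_lit 789671242) (nat_lit 359) (nat_lit 1) (nat_lit 358) (nat_lit 1) (nat_lit 369) (nat_lit 1) (nat_lit 393) (nat_lit 396) (nat_lit 351)) (XT.lf (nat_lit 760) (nat_lit 1049272856) (nat_lit 0) (nat_lit 1301939217) (nat_lit 684) (nat_lit 1301939217) (nat_lit 359) (nat_lit 1) (nat_lit 349) (nat_lit 1) (nat_lit 358) (nat_lit 1) (nat_lit 394) (nat_lit 396) (nat_lit 350))) (XT.nd (nat_lit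 78) (nat_lit 1444) (nat_lit 0) (XT.lf (nat_lit 76) (nat_lit 261323961) (nat_lit 0) (nat_lit 3099748667) (nat_lit 760) (nat_lit 261323961) (nat_lit 350) (nat_lit 1) (nat_lit 349) (nat_lit 1) (nat_lit 359) (nat_lit 1) (nat_lit 395) (nat_lit 396) (nat_lit 349)) (XT.nd (nat_lit 78) (nat_lit 684) (nat_lit 0) (XT.lf (nat_lit 76) (nat_lit 1788991657) (nat_lit 0) (nat_lit 13859922) (nat_lit 760) (nat_lit 1788991657) (nat_lit 340) (nat_lit 1) (nat_lit 339) (nat_lit 1) (nat_lit 349) (nat_lit 1) (nat_lit 396) (nat_lit 396) (nat_lit 348)) (XT.lf (nat_lit 760) (nat_lit 3025187310) (nat_lit 0) (nat_lit 268283175) (nat_lit 684) (nat_lit 268283175) (nat_lit 340) (nat_lit 1) (nat_lit 330) (nat_lit 1) (nat_lit 339) (nat_lit 1) (nat_lit 397) (nat_lit 396) (nat_lit 347))))) (XT.nd (nat_lit 156) (nat_lit 608) (nat_lit 0) (XT.nd (nat_lit 78) (nat_lit 684) (nat_lit 0) (XT.lf (nat_lit 76) (nat_lit 1231598044) (nat_lit 0) (nat_lit 1068665155) (nat_lit 760) (nat_lit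 1231598044) (nat_lit 331) (nat_lit 1) (nat_lit 330) (nat_lit 1) (nat_lit 340) (nat_lit 1) (nat_lit 398) (nat_lit 396) (nat_lit 346)) (XT.lf (nat_lit 760) (nat_lit 1905193613) (nat_lit 0) (nat_lit 798611742) (nat_lit 684) (nat_lit 798611742) (nat_lit 331) (nat_lit 1) (nat_lit 321) (nat_lit 1) (nat_lit 330) (nat_lit 1) (nat_lit 399) (nat_lit 396) (nat_lit 345))) (XT.nd (nat_lit 78) (nat_lit 608) (nat_lit 0) (XT.lf (nat_lit 76) (nat_lit 672757592) (nat_lit 0) (nat_lit 2127787707) (nat_lit 760) (nat_lit 672757592) (nat_lit 322) (nat_lit 1) (nat_lit 321) (nat_lit 1) (nat_lit 331) (nat_lit 1) (nat_lit 400) (nat_lit 396) (nat_lit 344)) (XT.nd (nat_lit 78) (nat_lit 0) (nat_lit 0) (XT.lf (nat_lit 684) (nat_lit 782812241) (nat_lit 0) (nat_lit 1330836415) (nat_lit 608) (nat_lit 1330836415) (nat_lit 322) (nat_lit 1) (nat_lit 313) (nat_lit 1) (nat_lit 321) (nat_lit 1) (nat_lit 401) (nat_lit 396) (nat_lit 343)) (XT.lf (nat_lit 76) (nat_lit 112979250)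 (nat_lit 0) (nat_lit 3190172154) (nat_lit 684) (nat_lit 112979250) (nat_lit 314) (nat_lit 1) (nat_lit 313) (nat_lit 1) (nat_lit 322) (nat_lit 1) (nat_lit 402) (nat_lit 396) (nat_lit 342))))))))
noncomputable def ec70 : XT := (XT.nd (nat_lit 1404) (nat_lit 5168) (nat_lit 0) (XT.nd (nat_lit 702) (nat_lit 2736) (nat_lit 0) (XT.nd (nat_lit 312) (nat_lit 1748) (nat_lit 0) (XT.nd (nat_lit 156) (nat_lit 608) (nat_lit 0) (XT.nd (nat_lit 78) (nat_lit 608) (nat_lit 0) (XT.lf (nat_lit 76) (nat_lit 1525691851) (nat_lit 0) (nat_lit 336492701) (nat_lit 684) (nat_lit 1525691851) (nat_lit 305) (nat_lit 1) (nat_lit 304) (nat_lit 1) (nat_lit 313) (nat_lit 1) (nat_lit 403) (nat_lit 396) (nat_lit 341)) (XT.lf (nat_lit 684) (nat_lit 2471446634) (nat_lit 0) (nat_lit 444314194) (nat_lit 608) (nat_lit 444314194) (nat_lit 305) (nat_lit 1) (nat_lit 296) (nat_lit 1) (nat_lit 304) (nat_lit 1) (nat_lit 404) (nat_lit 396) (nat_lit 340))) (XT.nd (nat_lit 78) (nat_lit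 608) (nat_lit 0) (XT.lf (nat_lit 76) (nat_lit 943256842) (nat_lit 0) (nat_lit 1445984158) (nat_lit 684) (nat_lit 943256842) (nat_lit 297) (nat_lit 1) (nat_lit 296) (nat_lit 1) (nat_lit 305) (nat_lit 1) (nat_lit 405) (nat_lit 396) (nat_lit 339)) (XT.lf (nat_lit 684) (nat_lit 1303536956) (nat_lit 0) (nat_lit 1000868953) (nat_lit 608) (nat_lit 1000868953) (nat_lit 297) (nat_lit 1) (nat_lit 288) (nat_lit 1) (nat_lit 296) (nat_lit 1) (nat_lit 406) (nat_lit 396) (nat_lit 338)))) (XT.nd (nat_lit 156) (nat_lit 1216) (nat_lit 0) (XT.nd (nat_lit 78) (nat_lit 532) (nat_lit 0) (XT.lf (nat_lit 76) (nat_lit 361679224) (nat_lit 0) (nat_lit 2555057947) (nat_lit 684) (nat_lit 361679224) (nat_lit 289) (nat_lit 1) (nat_lit 288) (nat_lit 1) (nat_lit 297) (nat_lit 1) (nat_lit 407) (nat_lit 396) (nat_lit 337)) (XT.lf (nat_lit 608) (nat_lit 137746398) (nat_lit 0) (nat_lit 1557004284) (nat_lit 532) (nat_lit 1557004284) (nat_lit 289) (nat_lit 1) (nat_lit 281)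 (nat_lit 1) (nat_lit 288) (nat_lit 1) (nat_lit 408) (nat_lit 396) (nat_lit 336))) (XT.nd (nat_lit 78) (nat_lit 532) (nat_lit 0) (XT.lf (nat_lit 684) (nat_lit 2791066127) (nat_lit 0) (nat_lit 217209173) (nat_lit 608) (nat_lit 217209173) (nat_lit 281) (nat_lit 1) (nat_lit 272) (nat_lit 1) (nat_lit 280) (nat_lit 1) (nat_lit 409) (nat_lit 396) (nat_lit 335)) (XT.nd (nat_lit 78) (nat_lit 532) (nat_lit 0) (XT.lf (nat_lit 76) (nat_lit 1093817320) (nat_lit 0) (nat_lit 1011714484) (nat_lit 684) (nat_lit 1093817320) (nat_lit 273) (nat_lit 1) (nat_lit 272) (nat_lit 1) (nat_lit 281) (nat_lit 1) (nat_lit 410) (nat_lit 396) (nat_lit 334)) (XT.lf (nat_lit 608) (nat_lit 1589379128) (nat_lit 0) (nat_lit 792108297) (nat_lit 532) (nat_lit 792108297) (nat_lit 273) (nat_lit 1) (nat_lit 265) (nat_lit 1) (nat_lit 272) (nat_lit 1) (nat_lit 411) (nat_lit 396) (nat_lit 333)))))) (XT.nd (nat_lit 312) (nat_lit 1596) (nat_lit 0) (XT.nd (nat_lit 156) (nat_lit 608)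 (nat_lit 0) (XT.nd (nat_lit 78) (nat_lit 532) (nat_lit 0) (XT.lf (nat_lit 76) (nat_lit 496164213) (nat_lit 0) (nat_lit 2155812477) (nat_lit 608) (nat_lit 496164213) (nat_lit 266) (nat_lit 1) (nat_lit 265) (nat_lit 1) (nat_lit 273) (nat_lit 1) (nat_lit 412) (nat_lit 396) (nat_lit 332)) (XT.lf (nat_lit 608) (nat_lit 392801624) (nat_lit 0) (nat_lit 1365052738) (nat_lit 532) (nat_lit 1365052738) (nat_lit 266) (nat_lit 1) (nat_lit 258) (nat_lit 1) (nat_lit 265) (nat_lit 1) (nat_lit 413) (nat_lit 396) (nat_lit 331))) (XT.nd (nat_lit 78) (nat_lit 0) (nat_lit 0) (XT.lf (nat_lit 608) (nat_lit 2901794313) (nat_lit 0) (nat_lit 98135637) (nat_lit 532) (nat_lit 98135637) (nat_lit 258) (nat_lit 1) (nat_lit 250) (nat_lit 1) (nat_lit 257) (nat_lit 1) (nat_lit 414) (nat_lit 396) (nat_lit 330)) (XT.lf (nat_lit 76) (nat_lit 1142850451) (nat_lit 0) (nat_lit 787583449) (nat_lit 608) (nat_lit 1142850451) (nat_lit 251) (nat_lit 1) (nat_lit 250) (nat_lit 1)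 (nat_lit 258) (nat_lit 1) (nat_lit 415) (nat_lit 396) (nat_lit 329)))) (XT.nd (nat_lit 156) (nat_lit 1064) (nat_lit 0) (XT.nd (nat_lit 78) (nat_lit 0) (nat_lit 0) (XT.lf (nat_lit 608) (nat_lit 1676506284) (nat_lit 0) (nat_lit 686190569) (nat_lit 532) (nat_lit 686190569) (nat_lit 251) (nat_lit 1) (nat_lit 243) (nat_lit 1) (nat_lit 250) (nat_lit 1) (nat_lit 416) (nat_lit 396) (nat_lit 328)) (XT.lf (nat_lit 76) (nat_lit 534076984) (nat_lit 0) (nat_lit 1956597198) (nat_lit 608) (nat_lit 534076984) (nat_lit 244) (nat_lit 1) (nat_lit 243) (nat_lit 1) (nat_lit 251) (nat_lit 1) (nat_lit 417) (nat_lit 396) (nat_lit 327))) (XT.nd (nat_lit 78) (nat_lit 608) (nat_lit 0) (XT.lf (nat_lit 532) (nat_lit 458857778) (nat_lit 0) (nat_lit 1270988996) (nat_lit 456) (nat_lit 1270988996) (nat_lit 244) (nat_lit 1) (nat_lit 237) (nat_lit 1) (nat_lit 243) (nat_lit 1) (nat_lit 418) (nat_lit 396) (nat_lit 326)) (XT.nd (nat_lit 78) (nat_lit 0) (nat_lit 0) (XT.lf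 (nat_lit 608) (nat_lit 2836693741) (nat_lit 0) (nat_lit 70299549) (nat_lit 532) (nat_lit 70299549) (nat_lit 237) (nat_lit 1) (nat_lit 229) (nat_lit 1) (nat_lit 236) (nat_lit 1) (nat_lit 419) (nat_lit 396) (nat_lit 325)) (XT.lf (nat_lit 76) (nat_lit 1106482574) (nat_lit 0) (nat_lit 740819617) (nat_lit 608) (nat_lit 1106482574) (nat_lit 230) (nat_lit 1) (nat_lit 229) (nat_lit 1) (nat_lit 237) (nat_lit 1) (nat_lit 420) (nat_lit 396) (nat_lit 324))))))) (XT.nd (nat_lit 702) (nat_lit 2356) (nat_lit 0) (XT.nd (nat_lit 312) (nat_lit 1368) (nat_lit 0) (XT.nd (nat_lit 156) (nat_lit 988) (nat_lit 0) (XT.nd (nat_lit 78) (nat_lit 0) (nat_lit 0) (XT.lf (nat_lit 532) (nat_lit 1596592717) (nat_lit 0) (nat_lit 667024676) (nat_lit 456) (nat_lit 667024676) (nat_lit 230) (nat_lit 1) (nat_lit 223) (nat_lit 1) (nat_lit 229) (nat_lit 1) (nat_lit 421) (nat_lit 396) (nat_lit 323)) (XT.lf (nat_lit 76) (nat_lit 490866278) (nat_lit 0) (nat_lit 1926013271) (nat_lit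 532) (nat_lit 490866278) (nat_lit 224) (nat_lit 1) (nat_lit 223) (nat_lit 1) (nat_lit 230) (nat_lit 1) (nat_lit 422) (nat_lit 396) (nat_lit 322))) (XT.nd (nat_lit 78) (nat_lit 532) (nat_lit 0) (XT.lf (nat_lit 532) (nat_lit 366257339) (nat_lit 0) (nat_lit 1259396370) (nat_lit 456) (nat_lit 1259396370) (nat_lit 224) (nat_lit 1) (nat_lit 217) (nat_lit 1) (nat_lit 223) (nat_lit 1) (nat_lit 423) (nat_lit 396) (nat_lit 321)) (XT.lf (nat_lit 532) (nat_lit 2624690230) (nat_lit 0) (nat_lit 118999564) (nat_lit 456) (nat_lit 118999564) (nat_lit 217) (nat_lit 1) (nat_lit 210) (nat_lit 1) (nat_lit 216) (nat_lit 1) (nat_lit 424) (nat_lit 396) (nat_lit 320)))) (XT.nd (nat_lit 156) (nat_lit 912) (nat_lit 0) (XT.nd (nat_lit 78) (nat_lit 456) (nat_lit 0) (XT.lf (nat_lit 76) (nat_lit 998820156) (nat_lit 0) (nat_lit 842739318) (nat_lit 532) (nat_lit 998820156) (nat_lit 211) (nat_lit 1) (nat_lit 210) (nat_lit 1) (nat_lit 217) (nat_lit 1) (nat_lit 425) (nat_lit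 396) (nat_lit 319)) (XT.lf (nat_lit 532) (nat_lit 1377341155) (nat_lit 0) (nat_lit 720528740) (nat_lit 456) (nat_lit 720528740) (nat_lit 211) (nat_lit 1) (nat_lit 204) (nat_lit 1) (nat_lit 210) (nat_lit 1) (nat_lit 426) (nat_lit 396) (nat_lit 318))) (XT.nd (nat_lit 78) (nat_lit 912) (nat_lit 0) (XT.lf (nat_lit 76) (nat_lit 380041630) (nat_lit 0) (nat_lit 2036586528) (nat_lit 532) (nat_lit 380041630) (nat_lit 205) (nat_lit 1) (nat_lit 204) (nat_lit 1) (nat_lit 211) (nat_lit 1) (nat_lit 427) (nat_lit 396) (nat_lit 317)) (XT.nd (nat_lit 78) (nat_lit 532) (nat_lit 0) (XT.lf (nat_lit 456) (nat_lit 141529867) (nat_lit 0) (nat_lit 1316787206) (nat_lit 380) (nat_lit 1316787206) (nat_lit 205) (nat_lit 1) (nat_lit 199) (nat_lit 1) (nat_lit 204) (nat_lit 1) (nat_lit 428) (nat_lit 396) (nat_lit 316)) (XT.lf (nat_lit 532) (nat_lit 2291054235) (nat_lit 0) (nat_lit 231383812) (nat_lit 456) (nat_lit 231383812) (nat_lit 199) (nat_lit 1) (nat_lit 192)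 (nat_lit 1) (nat_lit 198) (nat_lit 1) (nat_lit 429) (nat_lit 396) (nat_lit 315)))))) (XT.nd (nat_lit 390) (nat_lit 1140) (nat_lit 0) (XT.nd (nat_lit 156) (nat_lit 836) (nat_lit 0) (XT.nd (nat_lit 78) (nat_lit 380) (nat_lit 0) (XT.lf (nat_lit 76) (nat_lit 832184913) (nat_lit 0) (nat_lit 1068271398) (nat_lit 532) (nat_lit 832184913) (nat_lit 193) (nat_lit 1) (nat_lit 192) (nat_lit 1) (nat_lit 199) (nat_lit 1) (nat_lit 430) (nat_lit 396) (nat_lit 314)) (XT.lf (nat_lit 456) (nat_lit 1042945247) (nat_lit 0) (nat_lit 834396421) (nat_lit 380) (nat_lit 834396421) (nat_lit 193) (nat_lit 1) (nat_lit 187) (nat_lit 1) (nat_lit 192) (nat_lit 1) (nat_lit 431) (nat_lit 396) (nat_lit 313))) (XT.nd (nat_lit 78) (nat_lit 836) (nat_lit 0) (XT.lf (nat_lit 76) (nat_lit 213399270) (nat_lit 0) (nat_lit 2264310850) (nat_lit 456) (nat_lit 213399270) (nat_lit 188) (nat_lit 1) (nat_lit 187) (nat_lit 1) (nat_lit 193) (nat_lit 1) (nat_lit 432) (nat_lit 396) (nat_lit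 312)) (XT.nd (nat_lit 78) (nat_lit 380) (nat_lit 0) (XT.lf (nat_lit 76) (nat_lit 1240462374) (nat_lit 0) (nat_lit 189643379) (nat_lit 456) (nat_lit 1240462374) (nat_lit 182) (nat_lit 1) (nat_lit 181) (nat_lit 1) (nat_lit 187) (nat_lit 1) (nat_lit 433) (nat_lit 396) (nat_lit 311)) (XT.lf (nat_lit 456) (nat_lit 1857827574) (nat_lit 0) (nat_lit 396234282) (nat_lit 380) (nat_lit 396234282) (nat_lit 182) (nat_lit 1) (nat_lit 176) (nat_lit 1) (nat_lit 181) (nat_lit 1) (nat_lit 434) (nat_lit 396) (nat_lit 310))))) (XT.nd (nat_lit 156) (nat_lit 760) (nat_lit 0) (XT.nd (nat_lit 78) (nat_lit 380) (nat_lit 0) (XT.lf (nat_lit 76) (nat_lit 617322248) (nat_lit 0) (nat_lit 1395535896) (nat_lit 456) (nat_lit 617322248) (nat_lit 177) (nat_lit 1) (nat_lit 176) (nat_lit 1) (nat_lit 182) (nat_lit 1) (nat_lit 435) (nat_lit 396) (nat_lit 309)) (XT.lf (nat_lit 456) (nat_lit 614499539) (nat_lit 0) (nat_lit 997889756) (nat_lit 380) (nat_lit 997889756) (nat_lit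 177) (nat_lit 1) (nat_lit 171) (nat_lit 1) (nat_lit 176) (nat_lit 1) (nat_lit 436) (nat_lit 396) (nat_lit 308))) (XT.nd (nat_lit 78) (nat_lit 760) (nat_lit 0) (XT.lf (nat_lit 76) (nat_lit 1222376) (nat_lit 0) (nat_lit 2588243386) (nat_lit 456) (nat_lit 1222376) (nat_lit 172) (nat_lit 1) (nat_lit 171) (nat_lit 1) (nat_lit 177) (nat_lit 1) (nat_lit 437) (nat_lit 396) (nat_lit 307)) (XT.nd (nat_lit 78) (nat_lit 380) (nat_lit 0) (XT.lf (nat_lit 76) (nat_lit 982245933) (nat_lit 0) (nat_lit 606575802) (nat_lit 380) (nat_lit 982245933) (nat_lit 167) (nat_lit 1) (nat_lit 166) (nat_lit 1) (nat_lit 171) (nat_lit 1) (nat_lit 438) (nat_lit 396) (nat_lit 306)) (XT.lf (nat_lit 456) (nat_lit 1344201647) (nat_lit 0) (nat_lit 603775696) (nat_lit 380) (nat_lit 603775696) (nat_lit 167) (nat_lit 1) (nat_lit 161) (nat_lit 1) (nat_lit 166) (nat_lit 1) (nat_lit 439) (nat_lit 396) (nat_lit 305))))))))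
noncomputable def ec71 : XT := (XT.nd (nat_lit 52884) (nat_lit 0) (nat_lit 23940) (XT.nd (nat_lit 52182) (nat_lit 0) (nat_lit 27056) (XT.nd (nat_lit 312) (nat_lit 684) (nat_lit 0) (XT.nd (nat_lit 156) (nat_lit 456) (nat_lit 0) (XT.nd (nat_lit 78) (nat_lit 304) (nat_lit 0) (XT.lf (nat_lit 76) (nat_lit 363585992) (nat_lit 0) (nat_lit 1805470597) (nat_lit 456) (nat_lit 363585992) (nat_lit 162) (nat_lit 1) (nat_lit 161) (nat_lit 1) (nat_lit 167) (nat_lit 1) (nat_lit 440) (nat_lit 396) (nat_lit 304)) (XT.lf (nat_lit 380) (nat_lit 110362846) (nat_lit 0) (nat_lit 1201655543) (nat_lit 304) (nat_lit 1201655543) (nat_lit 162) (nat_lit 1) (nat_lit 157) (nat_lit 1) (nat_lit 161) (nat_lit 1) (nat_lit 441) (nat_lit 396) (nat_lit 303))) (XT.nd (nat_lit 78) (nat_lit 0) (nat_lit 0) (XT.lf (nat_lit 456) (nat_lit 2003108131) (nat_lit 0) (nat_lit 245912875) (nat_lit 380) (nat_lit 245912875) (nat_lit 157) (nat_lit 1) (nat_lit 151) (nat_lit 1) (nat_lit 156)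 (nat_lit 1) (nat_lit 442) (nat_lit 396) (nat_lit 302)) (XT.lf (nat_lit 76) (nat_lit 691246967) (nat_lit 0) (nat_lit 1093793187) (nat_lit 456) (nat_lit 691246967) (nat_lit 152) (nat_lit 1) (nat_lit 151) (nat_lit 1) (nat_lit 157) (nat_lit 1) (nat_lit 443) (nat_lit 396) (nat_lit 301)))) (XT.nd (nat_lit 156) (nat_lit 380) (nat_lit 0) (XT.nd (nat_lit 78) (nat_lit 0) (nat_lit 0) (XT.lf (nat_lit 380) (nat_lit 766852635) (nat_lit 0) (nat_lit 845506125) (nat_lit 304) (nat_lit 845506125) (nat_lit 152) (nat_lit 1) (nat_lit 147) (nat_lit 1) (nat_lit 151) (nat_lit 1) (nat_lit 444) (nat_lit 396) (nat_lit 300)) (XT.lf (nat_lit 76) (nat_lit 79102120) (nat_lit 0) (nat_lit 2281500051) (nat_lit 380) (nat_lit 79102120) (nat_lit 148) (nat_lit 1) (nat_lit 147) (nat_lit 1) (nat_lit 152) (nat_lit 1) (nat_lit 445) (nat_lit 396) (nat_lit 299))) (XT.nd (nat_lit 51558) (nat_lit 0) (nat_lit 26980) (XT.lf (nat_lit 76) (nat_lit 986987418) (nat_lit 0) (nat_lit 447571748)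 (nat_lit 380) (nat_lit 986987418) (nat_lit 143) (nat_lit 1) (nat_lit 142) (nat_lit 1) (nat_lit 147) (nat_lit 1) (nat_lit 446) (nat_lit 396) (nat_lit 298)) (XT.nd (nat_lit 78) (nat_lit 0) (nat_lit 0) (XT.lf (nat_lit 1900) (nat_lit 944470234) (nat_lit 0) (nat_lit 952368202) (nat_lit 1900) (nat_lit 944470234) (nat_lit 522) (nat_lit 1) (nat_lit 497) (nat_lit 0) (nat_lit 522) (nat_lit 0) (nat_lit 346) (nat_lit 397) (nat_lit 397)) (XT.lf (nat_lit 1900) (nat_lit 3734577308) (nat_lit 76) (nat_lit 946102621) (nat_lit 0) (nat_lit 946102621) (nat_lit 522) (nat_lit 1) (nat_lit 498) (nat_lit 1) (nat_lit 497) (nat_lit 0) (nat_lit 347) (nat_lit 397) (nat_lit 396)))))) (XT.nd (nat_lit 312) (nat_lit 0) (nat_lit 152) (XT.nd (nat_lit 156) (nat_lit 0) (nat_lit 76) (XT.nd (nat_lit 78) (nat_lit 0) (nat_lit 0) (XT.lf (nat_lit 1900) (nat_lit 1833695235) (nat_lit 0) (nat_lit 1904167144) (nat_lit 1824) (nat_lit 1833695235) (nat_lit 523) (nat_lit 1) (nat_lit 498)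 (nat_lit 1) (nat_lit 522) (nat_lit 1) (nat_lit 348) (nat_lit 397) (nat_lit 395)) (XT.lf (nat_lit 1900) (nat_lit 3588993606) (nat_lit 76) (nat_lit 964088139) (nat_lit 0) (nat_lit 964088139) (nat_lit 523) (nat_lit 1) (nat_lit 499) (nat_lit 1) (nat_lit 498) (nat_lit 1) (nat_lit 349) (nat_lit 397) (nat_lit 394))) (XT.nd (nat_lit 78) (nat_lit 0) (nat_lit 0) (XT.lf (nat_lit 1900) (nat_lit 1744182882) (nat_lit 0) (nat_lit 1975016773) (nat_lit 1824) (nat_lit 1744182882) (nat_lit 524) (nat_lit 1) (nat_lit 499) (nat_lit 1) (nat_lit 523) (nat_lit 1) (nat_lit 350) (nat_lit 397) (nat_lit 393)) (XT.lf (nat_lit 1900) (nat_lit 3376717488) (nat_lit 76) (nat_lit 1016838791) (nat_lit 0) (nat_lit 1016838791) (nat_lit 524) (nat_lit 1) (nat_lit 500) (nat_lit 1) (nat_lit 499) (nat_lit 1) (nat_lit 351) (nat_lit 397) (nat_lit 392)))) (XT.nd (nat_lit 156) (nat_lit 0) (nat_lit 76) (XT.nd (nat_lit 78) (nat_lit 0) (nat_lit 0) (XT.lf (nat_lit 1900) (nat_lit 1622448012)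 (nat_lit 0) (nat_lit 2113112069) (nat_lit 1824) (nat_lit 1622448012) (nat_lit 525) (nat_lit 1) (nat_lit 500) (nat_lit 1) (nat_lit 524) (nat_lit 1) (nat_lit 352) (nat_lit 397) (nat_lit 391)) (XT.lf (nat_lit 1900) (nat_lit 3101757244) (nat_lit 76) (nat_lit 1102309240) (nat_lit 0) (nat_lit 1102309240) (nat_lit 525) (nat_lit 1) (nat_lit 501) (nat_lit 1) (nat_lit 500) (nat_lit 1) (nat_lit 353) (nat_lit 397) (nat_lit 390))) (XT.nd (nat_lit 78) (nat_lit 0) (nat_lit 0) (XT.lf (nat_lit 1900) (nat_lit 1470441833) (nat_lit 0) (nat_lit 2314469314) (nat_lit 1824) (nat_lit 1470441833) (nat_lit 526) (nat_lit 1) (nat_lit 501) (nat_lit 1) (nat_lit 525) (nat_lit 1) (nat_lit 354) (nat_lit 397) (nat_lit 389)) (XT.nd (nat_lit 78) (nat_lit 0) (nat_lit 76) (XT.lf (nat_lit 1900) (nat_lit 2767937702) (nat_lit 76) (nat_lit 1218547209) (nat_lit 0) (nat_lit 1218547209) (nat_lit 526) (nat_lit 1) (nat_lit 502) (nat_lit 1) (nat_lit 501) (nat_lit 1) (nat_lit 355) (nat_lit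 397) (nat_lit 388)) (XT.lf (nat_lit 1900) (nat_lit 1290026060) (nat_lit 0) (nat_lit 2575286395) (nat_lit 1824) (nat_lit 1290026060) (nat_lit 527) (nat_lit 1) (nat_lit 502) (nat_lit 1) (nat_lit 526) (nat_lit 1) (nat_lit 356) (nat_lit 397) (nat_lit 387))))))) (XT.nd (nat_lit 702) (nat_lit 3420) (nat_lit 0) (XT.nd (nat_lit 312) (nat_lit 0) (nat_lit 152) (XT.nd (nat_lit 156) (nat_lit 0) (nat_lit 76) (XT.nd (nat_lit 78) (nat_lit 0) (nat_lit 76) (XT.lf (nat_lit 1900) (nat_lit 2378907897) (nat_lit 76) (nat_lit 1363689595) (nat_lit 0) (nat_lit 1363689595) (nat_lit 527) (nat_lit 1) (nat_lit 503) (nat_lit 1) (nat_lit 502) (nat_lit 1) (nat_lit 357) (nat_lit 397) (nat_lit 386)) (XT.lf (nat_lit 1900) (nat_lit 1082976660) (nat_lit 0) (nat_lit 2891935221) (nat_lit 1824) (nat_lit 1082976660) (nat_lit 528) (nat_lit 1) (nat_lit 503) (nat_lit 1) (nat_lit 527) (nat_lit 1) (nat_lit 358) (nat_lit 397) (nat_lit 385))) (XT.nd (nat_lit 78) (nat_lit 0) (nat_lit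 76) (XT.lf (nat_lit 1900) (nat_lit 1938148435) (nat_lit 76) (nat_lit 1535958748) (nat_lit 0) (nat_lit 1535958748) (nat_lit 528) (nat_lit 1) (nat_lit 504) (nat_lit 1) (nat_lit 503) (nat_lit 1) (nat_lit 359) (nat_lit 397) (nat_lit 384)) (XT.lf (nat_lit 1900) (nat_lit 850987446) (nat_lit 0) (nat_lit 3260954453) (nat_lit 1824) (nat_lit 850987446) (nat_lit 529) (nat_lit 1) (nat_lit 504) (nat_lit 1) (nat_lit 528) (nat_lit 1) (nat_lit 360) (nat_lit 397) (nat_lit 383)))) (XT.nd (nat_lit 156) (nat_lit 0) (nat_lit 76) (XT.nd (nat_lit 78) (nat_lit 0) (nat_lit 76) (XT.lf (nat_lit 1900) (nat_lit 1448978555) (nat_lit 76) (nat_lit 1733658895) (nat_lit 0) (nat_lit 1733658895) (nat_lit 529) (nat_lit 1) (nat_lit 505) (nat_lit 1) (nat_lit 504) (nat_lit 1) (nat_lit 361) (nat_lit 397) (nat_lit 382)) (XT.lf (nat_lit 1900) (nat_lit 595673522) (nat_lit 0) (nat_lit 3679042517) (nat_lit 1824) (nat_lit 595673522) (nat_lit 530) (nat_lit 1) (nat_lit 505) (nat_lit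 1) (nat_lit 529) (nat_lit 1) (nat_lit 362) (nat_lit 397) (nat_lit 381))) (XT.nd (nat_lit 78) (nat_lit 0) (nat_lit 76) (XT.lf (nat_lit 1900) (nat_lit 914562907) (nat_lit 76) (nat_lit 1955172707) (nat_lit 0) (nat_lit 1955172707) (nat_lit 530) (nat_lit 1) (nat_lit 506) (nat_lit 1) (nat_lit 505) (nat_lit 1) (nat_lit 363) (nat_lit 397) (nat_lit 380)) (XT.nd (nat_lit 78) (nat_lit 0) (nat_lit 0) (XT.lf (nat_lit 1900) (nat_lit 318574600) (nat_lit 0) (nat_lit 4143050908) (nat_lit 1824) (nat_lit 318574600) (nat_lit 531) (nat_lit 1) (nat_lit 506) (nat_lit 1) (nat_lit 530) (nat_lit 1) (nat_lit 364) (nat_lit 397) (nat_lit 379)) (XT.lf (nat_lit 1900) (nat_lit 337918065) (nat_lit 76) (nat_lit 2198958007) (nat_lit 0) (nat_lit 2198958007) (nat_lit 531) (nat_lit 1) (nat_lit 507) (nat_lit 1) (nat_lit 506) (nat_lit 1) (nat_lit 365) (nat_lit 397) (nat_lit 378)))))) (XT.nd (nat_lit 390) (nat_lit 1900) (nat_lit 0) (XT.nd (nat_lit 156) (nat_lit 0) (nat_lit 0)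 (XT.nd (nat_lit 78) (nat_lit 1900) (nat_lit 0) (XT.lf (nat_lit 1900) (nat_lit 21158169) (nat_lit 0) (nat_lit 4649977754) (nat_lit 1824) (nat_lit 21158169) (nat_lit 532) (nat_lit 1) (nat_lit 507) (nat_lit 1) (nat_lit 531) (nat_lit 1) (nat_lit 366) (nat_lit 397) (nat_lit 377)) (XT.lf (nat_lit 1976) (nat_lit 2187268865) (nat_lit 0) (nat_lit 274434148) (nat_lit 1900) (nat_lit 2187268865) (nat_lit 508) (nat_lit 1) (nat_lit 482) (nat_lit 1) (nat_lit 507) (nat_lit 1) (nat_lit 367) (nat_lit 397) (nat_lit 376))) (XT.nd (nat_lit 78) (nat_lit 0) (nat_lit 76) (XT.lf (nat_lit 1976) (nat_lit 4019981917) (nat_lit 76) (nat_lit 293235495) (nat_lit 0) (nat_lit 293235495) (nat_lit 508) (nat_lit 1) (nat_lit 483) (nat_lit 1) (nat_lit 482) (nat_lit 1) (nat_lit 368) (nat_lit 397) (nat_lit 375)) (XT.nd (nat_lit 78) (nat_lit 0) (nat_lit 0) (XT.lf (nat_lit 1976) (nat_lit 1822877891) (nat_lit 0) (nat_lit 918489852) (nat_lit 1900) (nat_lit 1822877891) (nat_lit 509)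 (nat_lit 1) (nat_lit 483) (nat_lit 1) (nat_lit 508) (nat_lit 1) (nat_lit 369) (nat_lit 397) (nat_lit 374)) (XT.lf (nat_lit 1976) (nat_lit 3272824719) (nat_lit 76) (nat_lit 624961375) (nat_lit 0) (nat_lit 624961375) (nat_lit 509) (nat_lit 1) (nat_lit 484) (nat_lit 1) (nat_lit 483) (nat_lit 1) (nat_lit 370) (nat_lit 397) (nat_lit 373))))) (XT.nd (nat_lit 156) (nat_lit 912) (nat_lit 0) (XT.nd (nat_lit 78) (nat_lit 1140) (nat_lit 0) (XT.lf (nat_lit 76) (nat_lit 1442765846) (nat_lit 0) (nat_lit 1596106316) (nat_lit 1900) (nat_lit 1442765846) (nat_lit 485) (nat_lit 1) (nat_lit 484) (nat_lit 1) (nat_lit 509) (nat_lit 1) (nat_lit 371) (nat_lit 397) (nat_lit 372)) (XT.lf (nat_lit 1216) (nat_lit 2495331948) (nat_lit 0) (nat_lit 972898385) (nat_lit 1140) (nat_lit 972898385) (nat_lit 485) (nat_lit 1) (nat_lit 469) (nat_lit 1) (nat_lit 484) (nat_lit 1) (nat_lit 372) (nat_lit 397) (nat_lit 371))) (XT.nd (nat_lit 78) (nat_lit 912) (nat_lit 0) (XT.lf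 (nat_lit 76) (nat_lit 1048128901) (nat_lit 0) (nat_lit 2304831900) (nat_lit 1216) (nat_lit 1048128901) (nat_lit 470) (nat_lit 1) (nat_lit 469) (nat_lit 1) (nat_lit 485) (nat_lit 1) (nat_lit 373) (nat_lit 397) (nat_lit 370)) (XT.nd (nat_lit 78) (nat_lit 0) (nat_lit 0) (XT.lf (nat_lit 988) (nat_lit 1689845271) (nat_lit 0) (nat_lit 1335846585) (nat_lit 912) (nat_lit 1335846585) (nat_lit 470) (nat_lit 1) (nat_lit 457) (nat_lit 1) (nat_lit 469) (nat_lit 1) (nat_lit 374) (nat_lit 397) (nat_lit 369)) (XT.lf (nat_lit 76) (nat_lit 640105292) (nat_lit 0) (nat_lit 3042332681) (nat_lit 988) (nat_lit 640105292) (nat_lit 458) (nat_lit 1) (nat_lit 457) (nat_lit 1) (nat_lit 470) (nat_lit 1) (nat_lit 375) (nat_lit 397) (nat_lit 368))))))))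
noncomputable def ec72 : XT := (XT.nd (nat_lit 1404) (nat_lit 6916) (nat_lit 0) (XT.nd (nat_lit 702) (nat_lit 3800) (nat_lit 0) (XT.nd (nat_lit 312) (nat_lit 1672) (nat_lit 0) (XT.nd (nat_lit 156) (nat_lit 1824) (nat_lit 0) (XT.nd (nat_lit 78) (nat_lit 0) (nat_lit 0) (XT.lf (nat_lit 988) (nat_lit 858592606) (nat_lit 0) (nat_lit 1712663819) (nat_lit 912) (nat_lit 1712663819) (nat_lit 458) (nat_lit 1) (nat_lit 445) (nat_lit 1) (nat_lit 457) (nat_lit 1) (nat_lit 376) (nat_lit 397) (nat_lit 367)) (XT.lf (nat_lit 76) (nat_lit 219777800) (nat_lit 0) (nat_lit 3806387443) (nat_lit 988) (nat_lit 219777800) (nat_lit 446) (nat_lit 1) (nat_lit 445) (nat_lit 1) (nat_lit 458) (nat_lit 1) (nat_lit 377) (nat_lit 397) (nat_lit 366))) (XT.nd (nat_lit 78) (nat_lit 988) (nat_lit 0) (XT.lf (nat_lit 912) (nat_lit 3692986) (nat_lit 0) (nat_lit 2102263244) (nat_lit 836) (nat_lit 2102263244) (nat_lit 446) (nat_lit 1) (nat_lit 434) (nat_lit 1) (nat_lit 445) (nat_lit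 1) (nat_lit 378) (nat_lit 397) (nat_lit 365)) (XT.lf (nat_lit 988) (nat_lit 3750264109) (nat_lit 0) (nat_lit 210430301) (nat_lit 912) (nat_lit 210430301) (nat_lit 434) (nat_lit 1) (nat_lit 421) (nat_lit 1) (nat_lit 433) (nat_lit 1) (nat_lit 379) (nat_lit 397) (nat_lit 364)))) (XT.nd (nat_lit 156) (nat_lit 836) (nat_lit 0) (XT.nd (nat_lit 78) (nat_lit 836) (nat_lit 0) (XT.lf (nat_lit 76) (nat_lit 1636439256) (nat_lit 0) (nat_lit 861391330) (nat_lit 988) (nat_lit 1636439256) (nat_lit 422) (nat_lit 1) (nat_lit 421) (nat_lit 1) (nat_lit 434) (nat_lit 1) (nat_lit 380) (nat_lit 397) (nat_lit 363)) (XT.lf (nat_lit 912) (nat_lit 2799186369) (nat_lit 0) (nat_lit 649420065) (nat_lit 836) (nat_lit 649420065) (nat_lit 422) (nat_lit 1) (nat_lit 410) (nat_lit 1) (nat_lit 421) (nat_lit 1) (nat_lit 381) (nat_lit 397) (nat_lit 362))) (XT.nd (nat_lit 78) (nat_lit 836) (nat_lit 0) (XT.lf (nat_lit 76) (nat_lit 1158122324) (nat_lit 0) (nat_lit 1745885676)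 (nat_lit 912) (nat_lit 1158122324) (nat_lit 411) (nat_lit 1) (nat_lit 410) (nat_lit 1) (nat_lit 422) (nat_lit 1) (nat_lit 382) (nat_lit 397) (nat_lit 361)) (XT.nd (nat_lit 78) (nat_lit 0) (nat_lit 0) (XT.lf (nat_lit 912) (nat_lit 1831286285) (nat_lit 0) (nat_lit 1097713248) (nat_lit 836) (nat_lit 1097713248) (nat_lit 411) (nat_lit 1) (nat_lit 399) (nat_lit 1) (nat_lit 410) (nat_lit 1) (nat_lit 383) (nat_lit 397) (nat_lit 360)) (XT.lf (nat_lit 76) (nat_lit 671854592) (nat_lit 0) (nat_lit 2648042716) (nat_lit 912) (nat_lit 671854592) (nat_lit 400) (nat_lit 1) (nat_lit 399) (nat_lit 1) (nat_lit 411) (nat_lit 1) (nat_lit 384) (nat_lit 397) (nat_lit 359)))))) (XT.nd (nat_lit 312) (nat_lit 1444) (nat_lit 0) (XT.nd (nat_lit 156) (nat_lit 1596) (nat_lit 0) (XT.nd (nat_lit 78) (nat_lit 0) (nat_lit 0) (XT.lf (nat_lit 836) (nat_lit 848271085) (nat_lit 0) (nat_lit 1554431923) (nat_lit 760) (nat_lit 1554431923) (nat_lit 400) (nat_lit 1) (nat_lit 389)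 (nat_lit 1) (nat_lit 399) (nat_lit 1) (nat_lit 385) (nat_lit 397) (nat_lit 358)) (XT.lf (nat_lit 76) (nat_lit 178464884) (nat_lit 0) (nat_lit 3566156808) (nat_lit 836) (nat_lit 178464884) (nat_lit 390) (nat_lit 1) (nat_lit 389) (nat_lit 1) (nat_lit 400) (nat_lit 1) (nat_lit 386) (nat_lit 397) (nat_lit 357))) (XT.nd (nat_lit 78) (nat_lit 760) (nat_lit 0) (XT.lf (nat_lit 76) (nat_lit 1871465889) (nat_lit 0) (nat_lit 146294779) (nat_lit 836) (nat_lit 1871465889) (nat_lit 379) (nat_lit 1) (nat_lit 378) (nat_lit 1) (nat_lit 389) (nat_lit 1) (nat_lit 387) (nat_lit 397) (nat_lit 356)) (XT.lf (nat_lit 836) (nat_lit 3217626807) (nat_lit 0) (nat_lit 319146798) (nat_lit 760) (nat_lit 319146798) (nat_lit 379) (nat_lit 1) (nat_lit 368) (nat_lit 1) (nat_lit 378) (nat_lit 1) (nat_lit 388) (nat_lit 397) (nat_lit 355)))) (XT.nd (nat_lit 156) (nat_lit 684) (nat_lit 0) (XT.nd (nat_lit 78) (nat_lit 760) (nat_lit 0) (XT.lf (nat_lit 76) (nat_lit 1340656573)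 (nat_lit 0) (nat_lit 1141536345) (nat_lit 836) (nat_lit 1340656573) (nat_lit 369) (nat_lit 1) (nat_lit 368) (nat_lit 1) (nat_lit 379) (nat_lit 1) (nat_lit 389) (nat_lit 397) (nat_lit 354)) (XT.lf (nat_lit 836) (nat_lit 2148005332) (nat_lit 0) (nat_lit 821137219) (nat_lit 760) (nat_lit 821137219) (nat_lit 369) (nat_lit 1) (nat_lit 358) (nat_lit 1) (nat_lit 368) (nat_lit 1) (nat_lit 390) (nat_lit 397) (nat_lit 353))) (XT.nd (nat_lit 78) (nat_lit 684) (nat_lit 0) (XT.lf (nat_lit 76) (nat_lit 805464666) (nat_lit 0) (nat_lit 2147140415) (nat_lit 836) (nat_lit 805464666) (nat_lit 359) (nat_lit 1) (nat_lit 358) (nat_lit 1) (nat_lit 369) (nat_lit 1) (nat_lit 391) (nat_lit 397) (nat_lit 352)) (XT.nd (nat_lit 78) (nat_lit 0) (nat_lit 0) (XT.lf (nat_lit 760) (nat_lit 1070258313) (nat_lit 0) (nat_lit 1327978001) (nat_lit 684) (nat_lit 1327978001) (nat_lit 359) (nat_lit 1) (nat_lit 349) (nat_lit 1) (nat_lit 358) (nat_lit 1) (nat_lit 392) (nat_lit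 397) (nat_lit 351)) (XT.lf (nat_lit 76) (nat_lit 266550440) (nat_lit 0) (nat_lit 3161743641) (nat_lit 760) (nat_lit 266550440) (nat_lit 350) (nat_lit 1) (nat_lit 349) (nat_lit 1) (nat_lit 359) (nat_lit 1) (nat_lit 393) (nat_lit 397) (nat_lit 350))))))) (XT.nd (nat_lit 702) (nat_lit 2888) (nat_lit 0) (XT.nd (nat_lit 312) (nat_lit 1900) (nat_lit 0) (XT.nd (nat_lit 156) (nat_lit 684) (nat_lit 0) (XT.nd (nat_lit 78) (nat_lit 684) (nat_lit 0) (XT.lf (nat_lit 76) (nat_lit 1824771490) (nat_lit 0) (nat_lit 14137121) (nat_lit 760) (nat_lit 1824771490) (nat_lit 340) (nat_lit 1) (nat_lit 339) (nat_lit 1) (nat_lit 349) (nat_lit 1) (nat_lit 394) (nat_lit 397) (nat_lit 349)) (XT.lf (nat_lit 760) (nat_lit 3085691056) (nat_lit 0) (nat_lit 273648838) (nat_lit 684) (nat_lit 273648838) (nat_lit 340) (nat_lit 1) (nat_lit 330) (nat_lit 1) (nat_lit 339) (nat_lit 1) (nat_lit 395) (nat_lit 397) (nat_lit 348))) (XT.nd (nat_lit 78) (nat_lit 684) (nat_lit 0) (XT.lf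 (nat_lit 76) (nat_lit 1256230005) (nat_lit 0) (nat_lit 1090038458) (nat_lit 760) (nat_lit 1256230005) (nat_lit 331) (nat_lit 1) (nat_lit 330) (nat_lit 1) (nat_lit 340) (nat_lit 1) (nat_lit 396) (nat_lit 397) (nat_lit 347)) (XT.lf (nat_lit 760) (nat_lit 1943297485) (nat_lit 0) (nat_lit 814583977) (nat_lit 684) (nat_lit 814583977) (nat_lit 331) (nat_lit 1) (nat_lit 321) (nat_lit 1) (nat_lit 330) (nat_lit 1) (nat_lit 397) (nat_lit 397) (nat_lit 346)))) (XT.nd (nat_lit 156) (nat_lit 1292) (nat_lit 0) (XT.nd (nat_lit 78) (nat_lit 608) (nat_lit 0) (XT.lf (nat_lit 76) (nat_lit 686212744) (nat_lit 0) (nat_lit 2170343461) (nat_lit 760) (nat_lit 686212744) (nat_lit 322) (nat_lit 1) (nat_lit 321) (nat_lit 1) (nat_lit 331) (nat_lit 1) (nat_lit 398) (nat_lit 397) (nat_lit 345)) (XT.lf (nat_lit 684) (nat_lit 798468486) (nat_lit 0) (nat_lit 1357453143) (nat_lit 608) (nat_lit 1357453143) (nat_lit 322) (nat_lit 1) (nat_lit 313) (nat_lit 1) (nat_lit 321)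 (nat_lit 1) (nat_lit 399) (nat_lit 397) (nat_lit 344))) (XT.nd (nat_lit 78) (nat_lit 1292) (nat_lit 0) (XT.lf (nat_lit 76) (nat_lit 115238835) (nat_lit 0) (nat_lit 3253975597) (nat_lit 684) (nat_lit 115238835) (nat_lit 314) (nat_lit 1) (nat_lit 313) (nat_lit 1) (nat_lit 322) (nat_lit 1) (nat_lit 400) (nat_lit 397) (nat_lit 343)) (XT.nd (nat_lit 78) (nat_lit 608) (nat_lit 0) (XT.lf (nat_lit 76) (nat_lit 1556205688) (nat_lit 0) (nat_lit 343222555) (nat_lit 684) (nat_lit 1556205688) (nat_lit 305) (nat_lit 1) (nat_lit 304) (nat_lit 1) (nat_lit 313) (nat_lit 1) (nat_lit 401) (nat_lit 397) (nat_lit 342)) (XT.lf (nat_lit 684) (nat_lit 2520875567) (nat_lit 0) (nat_lit 453200478) (nat_lit 608) (nat_lit 453200478) (nat_lit 305) (nat_lit 1) (nat_lit 296) (nat_lit 1) (nat_lit 304) (nat_lit 1) (nat_lit 402) (nat_lit 397) (nat_lit 341)))))) (XT.nd (nat_lit 312) (nat_lit 1748) (nat_lit 0) (XT.nd (nat_lit 156) (nat_lit 532) (nat_lit 0) (XT.nd (nat_lit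 78) (nat_lit 608) (nat_lit 0) (XT.lf (nat_lit 76) (nat_lit 962121979) (nat_lit 0) (nat_lit 1474903841) (nat_lit 684) (nat_lit 962121979) (nat_lit 297) (nat_lit 1) (nat_lit 296) (nat_lit 1) (nat_lit 305) (nat_lit 1) (nat_lit 403) (nat_lit 397) (nat_lit 340)) (XT.lf (nat_lit 684) (nat_lit 1329607695) (nat_lit 0) (nat_lit 1020886332) (nat_lit 608) (nat_lit 1020886332) (nat_lit 297) (nat_lit 1) (nat_lit 288) (nat_lit 1) (nat_lit 296) (nat_lit 1) (nat_lit 404) (nat_lit 397) (nat_lit 339))) (XT.nd (nat_lit 78) (nat_lit 532) (nat_lit 0) (XT.lf (nat_lit 76) (nat_lit 368912808) (nat_lit 0) (nat_lit 2606159106) (nat_lit 684) (nat_lit 368912808) (nat_lit 289) (nat_lit 1) (nat_lit 288) (nat_lit 1) (nat_lit 297) (nat_lit 1) (nat_lit 405) (nat_lit 397) (nat_lit 338)) (XT.lf (nat_lit 608) (nat_lit 140501326) (nat_lit 0) (nat_lit 1588144370) (nat_lit 532) (nat_lit 1588144370) (nat_lit 289) (nat_lit 1) (nat_lit 281) (nat_lit 1) (nat_lit 288) (nat_lit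 1) (nat_lit 406) (nat_lit 397) (nat_lit 337)))) (XT.nd (nat_lit 156) (nat_lit 1064) (nat_lit 0) (XT.nd (nat_lit 78) (nat_lit 0) (nat_lit 0) (XT.lf (nat_lit 684) (nat_lit 2846887450) (nat_lit 0) (nat_lit 221553357) (nat_lit 608) (nat_lit 221553357) (nat_lit 281) (nat_lit 1) (nat_lit 272) (nat_lit 1) (nat_lit 280) (nat_lit 1) (nat_lit 407) (nat_lit 397) (nat_lit 336)) (XT.lf (nat_lit 76) (nat_lit 1115693667) (nat_lit 0) (nat_lit 1031948773) (nat_lit 684) (nat_lit 1115693667) (nat_lit 273) (nat_lit 1) (nat_lit 272) (nat_lit 1) (nat_lit 281) (nat_lit 1) (nat_lit 408) (nat_lit 397) (nat_lit 335))) (XT.nd (nat_lit 78) (nat_lit 532) (nat_lit 0) (XT.lf (nat_lit 608) (nat_lit 1621166711) (nat_lit 0) (nat_lit 807950463) (nat_lit 532) (nat_lit 807950463) (nat_lit 273) (nat_lit 1) (nat_lit 265) (nat_lit 1) (nat_lit 272) (nat_lit 1) (nat_lit 409) (nat_lit 397) (nat_lit 334)) (XT.nd (nat_lit 78) (nat_lit 532) (nat_lit 0) (XT.lf (nat_lit 76) (nat_lit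 506087497) (nat_lit 0) (nat_lit 2198928726) (nat_lit 608) (nat_lit 506087497) (nat_lit 266) (nat_lit 1) (nat_lit 265) (nat_lit 1) (nat_lit 273) (nat_lit 1) (nat_lit 410) (nat_lit 397) (nat_lit 333)) (XT.lf (nat_lit 608) (nat_lit 400657657) (nat_lit 0) (nat_lit 1392353792) (nat_lit 532) (nat_lit 1392353792) (nat_lit 266) (nat_lit 1) (nat_lit 258) (nat_lit 1) (nat_lit 265) (nat_lit 1) (nat_lit 411) (nat_lit 397) (nat_lit 332))))))))
noncomputable def ec73 : XT := (XT.nd (nat_lit 1404) (nat_lit 3724) (nat_lit 0) (XT.nd (nat_lit 702) (nat_lit 2736) (nat_lit 0) (XT.nd (nat_lit 312) (nat_lit 1520) (nat_lit 0) (XT.nd (nat_lit 156) (nat_lit 532) (nat_lit 0) (XT.nd (nat_lit 78) (nat_lit 0) (nat_lit 0) (XT.lf (nat_lit 608) (nat_lit 2959830199) (nat_lit 0) (nat_lit 100098350) (nat_lit 532) (nat_lit 100098350) (nat_lit 258) (nat_lit 1) (nat_lit 250) (nat_lit 1) (nat_lit 257) (nat_lit 1) (nat_lit 412) (nat_lit 397) (nat_lit 331)) (XT.lf (nat_lit 76)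 (nat_lit 1165707460) (nat_lit 0) (nat_lit 803335118) (nat_lit 608) (nat_lit 1165707460) (nat_lit 251) (nat_lit 1) (nat_lit 250) (nat_lit 1) (nat_lit 258) (nat_lit 1) (nat_lit 413) (nat_lit 397) (nat_lit 330))) (XT.nd (nat_lit 78) (nat_lit 0) (nat_lit 0) (XT.lf (nat_lit 608) (nat_lit 1710036410) (nat_lit 0) (nat_lit 699914381) (nat_lit 532) (nat_lit 699914381) (nat_lit 251) (nat_lit 1) (nat_lit 243) (nat_lit 1) (nat_lit 250) (nat_lit 1) (nat_lit 414) (nat_lit 397) (nat_lit 329)) (XT.lf (nat_lit 76) (nat_lit 544758523) (nat_lit 0) (nat_lit 1995729142) (nat_lit 608) (nat_lit 544758523) (nat_lit 244) (nat_lit 1) (nat_lit 243) (nat_lit 1) (nat_lit 251) (nat_lit 1) (nat_lit 415) (nat_lit 397) (nat_lit 328)))) (XT.nd (nat_lit 156) (nat_lit 456) (nat_lit 0) (XT.nd (nat_lit 78) (nat_lit 608) (nat_lit 0) (XT.lf (nat_lit 532) (nat_lit 468034934) (nat_lit 0) (nat_lit 1296408776) (nat_lit 456) (nat_lit 1296408776) (nat_lit 244) (nat_lit 1) (nat_lit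 237) (nat_lit 1) (nat_lit 243) (nat_lit 1) (nat_lit 416) (nat_lit 397) (nat_lit 327)) (XT.lf (nat_lit 608) (nat_lit 2893427616) (nat_lit 0) (nat_lit 71705540) (nat_lit 532) (nat_lit 71705540) (nat_lit 237) (nat_lit 1) (nat_lit 229) (nat_lit 1) (nat_lit 236) (nat_lit 1) (nat_lit 417) (nat_lit 397) (nat_lit 326))) (XT.nd (nat_lit 78) (nat_lit 456) (nat_lit 0) (XT.lf (nat_lit 76) (nat_lit 1128612226) (nat_lit 0) (nat_lit 755636009) (nat_lit 608) (nat_lit 1128612226) (nat_lit 230) (nat_lit 1) (nat_lit 229) (nat_lit 1) (nat_lit 237) (nat_lit 1) (nat_lit 418) (nat_lit 397) (nat_lit 325)) (XT.nd (nat_lit 78) (nat_lit 0) (nat_lit 0) (XT.lf (nat_lit 532) (nat_lit 1628524572) (nat_lit 0) (nat_lit 680365169) (nat_lit 456) (nat_lit 680365169) (nat_lit 230) (nat_lit 1) (nat_lit 223) (nat_lit 1) (nat_lit 229) (nat_lit 1) (nat_lit 419) (nat_lit 397) (nat_lit 324)) (XT.lf (nat_lit 76) (nat_lit 500683604) (nat_lit 0) (nat_lit 1964533537) (nat_lit 532)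 (nat_lit 500683604) (nat_lit 224) (nat_lit 1) (nat_lit 223) (nat_lit 1) (nat_lit 230) (nat_lit 1) (nat_lit 420) (nat_lit 397) (nat_lit 323)))))) (XT.nd (nat_lit 312) (nat_lit 1292) (nat_lit 0) (XT.nd (nat_lit 156) (nat_lit 456) (nat_lit 0) (XT.nd (nat_lit 78) (nat_lit 532) (nat_lit 0) (XT.lf (nat_lit 532) (nat_lit 373582486) (nat_lit 0) (nat_lit 1284584298) (nat_lit 456) (nat_lit 1284584298) (nat_lit 224) (nat_lit 1) (nat_lit 217) (nat_lit 1) (nat_lit 223) (nat_lit 1) (nat_lit 421) (nat_lit 397) (nat_lit 322)) (XT.lf (nat_lit 532) (nat_lit 2677184034) (nat_lit 0) (nat_lit 121379556) (nat_lit 456) (nat_lit 121379556) (nat_lit 217) (nat_lit 1) (nat_lit 210) (nat_lit 1) (nat_lit 216) (nat_lit 1) (nat_lit 422) (nat_lit 397) (nat_lit 321))) (XT.nd (nat_lit 78) (nat_lit 456) (nat_lit 0) (XT.lf (nat_lit 76) (nat_lit 1018796559) (nat_lit 0) (nat_lit 859594104) (nat_lit 532) (nat_lit 1018796559) (nat_lit 211) (nat_lit 1) (nat_lit 210) (nat_lit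 1) (nat_lit 217) (nat_lit 1) (nat_lit 423) (nat_lit 397) (nat_lit 320)) (XT.lf (nat_lit 532) (nat_lit 1404887978) (nat_lit 0) (nat_lit 734939315) (nat_lit 456) (nat_lit 734939315) (nat_lit 211) (nat_lit 1) (nat_lit 204) (nat_lit 1) (nat_lit 210) (nat_lit 1) (nat_lit 424) (nat_lit 397) (nat_lit 319)))) (XT.nd (nat_lit 156) (nat_lit 912) (nat_lit 0) (XT.nd (nat_lit 78) (nat_lit 380) (nat_lit 0) (XT.lf (nat_lit 76) (nat_lit 387642463) (nat_lit 0) (nat_lit 2077318258) (nat_lit 532) (nat_lit 387642463) (nat_lit 205) (nat_lit 1) (nat_lit 204) (nat_lit 1) (nat_lit 211) (nat_lit 1) (nat_lit 425) (nat_lit 397) (nat_lit 318)) (XT.lf (nat_lit 456) (nat_lit 144360465) (nat_lit 0) (nat_lit 1343122950) (nat_lit 380) (nat_lit 1343122950) (nat_lit 205) (nat_lit 1) (nat_lit 199) (nat_lit 1) (nat_lit 204) (nat_lit 1) (nat_lit 426) (nat_lit 397) (nat_lit 317))) (XT.nd (nat_lit 78) (nat_lit 380) (nat_lit 0) (XT.lf (nat_lit 532) (nat_lit 2336875320) (nat_lit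 0) (nat_lit 236011488) (nat_lit 456) (nat_lit 236011488) (nat_lit 199) (nat_lit 1) (nat_lit 192) (nat_lit 1) (nat_lit 198) (nat_lit 1) (nat_lit 427) (nat_lit 397) (nat_lit 316)) (XT.nd (nat_lit 78) (nat_lit 380) (nat_lit 0) (XT.lf (nat_lit 76) (nat_lit 848828611) (nat_lit 0) (nat_lit 1089636826) (nat_lit 532) (nat_lit 848828611) (nat_lit 193) (nat_lit 1) (nat_lit 192) (nat_lit 1) (nat_lit 199) (nat_lit 1) (nat_lit 428) (nat_lit 397) (nat_lit 315)) (XT.lf (nat_lit 456) (nat_lit 1063804152) (nat_lit 0) (nat_lit 851084350) (nat_lit 380) (nat_lit 851084350) (nat_lit 193) (nat_lit 1) (nat_lit 187) (nat_lit 1) (nat_lit 192) (nat_lit 1) (nat_lit 429) (nat_lit 397) (nat_lit 314))))))) (XT.nd (nat_lit 702) (nat_lit 1748) (nat_lit 0) (XT.nd (nat_lit 312) (nat_lit 1140) (nat_lit 0) (XT.nd (nat_lit 156) (nat_lit 380) (nat_lit 0) (XT.nd (nat_lit 78) (nat_lit 456) (nat_lit 0) (XT.lf (nat_lit 76) (nat_lit 217667255) (nat_lit 0) (nat_lit 2309597067)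 (nat_lit 456) (nat_lit 217667255) (nat_lit 188) (nat_lit 1) (nat_lit 187) (nat_lit 1) (nat_lit 193) (nat_lit 1) (nat_lit 430) (nat_lit 397) (nat_lit 313)) (XT.lf (nat_lit 76) (nat_lit 1265271622) (nat_lit 0) (nat_lit 193436247) (nat_lit 456) (nat_lit 1265271622) (nat_lit 182) (nat_lit 1) (nat_lit 181) (nat_lit 1) (nat_lit 187) (nat_lit 1) (nat_lit 431) (nat_lit 397) (nat_lit 312))) (XT.nd (nat_lit 78) (nat_lit 0) (nat_lit 0) (XT.lf (nat_lit 456) (nat_lit 1894984126) (nat_lit 0) (nat_lit 404158967) (nat_lit 380) (nat_lit 404158967) (nat_lit 182) (nat_lit 1) (nat_lit 176) (nat_lit 1) (nat_lit 181) (nat_lit 1) (nat_lit 432) (nat_lit 397) (nat_lit 311)) (XT.lf (nat_lit 76) (nat_lit 629668693) (nat_lit 0) (nat_lit 1423446614) (nat_lit 456) (nat_lit 629668693) (nat_lit 177) (nat_lit 1) (nat_lit 176) (nat_lit 1) (nat_lit 182) (nat_lit 1) (nat_lit 433) (nat_lit 397) (nat_lit 310)))) (XT.nd (nat_lit 156) (nat_lit 760) (nat_lit 0) (XT.nd (nat_lit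 78) (nat_lit 0) (nat_lit 0) (XT.lf (nat_lit 456) (nat_lit 626789530) (nat_lit 0) (nat_lit 1017847551) (nat_lit 380) (nat_lit 1017847551) (nat_lit 177) (nat_lit 1) (nat_lit 171) (nat_lit 1) (nat_lit 176) (nat_lit 1) (nat_lit 434) (nat_lit 397) (nat_lit 309)) (XT.lf (nat_lit 76) (nat_lit 1246824) (nat_lit 0) (nat_lit 2640008254) (nat_lit 456) (nat_lit 1246824) (nat_lit 172) (nat_lit 1) (nat_lit 171) (nat_lit 1) (nat_lit 177) (nat_lit 1) (nat_lit 435) (nat_lit 397) (nat_lit 308))) (XT.nd (nat_lit 78) (nat_lit 380) (nat_lit 0) (XT.lf (nat_lit 76) (nat_lit 1001890851) (nat_lit 0) (nat_lit 618707318) (nat_lit 380) (nat_lit 1001890851) (nat_lit 167) (nat_lit 1) (nat_lit 166) (nat_lit 1) (nat_lit 171) (nat_lit 1) (nat_lit 436) (nat_lit 397) (nat_lit 307)) (XT.nd (nat_lit 78) (nat_lit 0) (nat_lit 0) (XT.lf (nat_lit 456) (nat_lit 1371085680) (nat_lit 0) (nat_lit 615851210) (nat_lit 380) (nat_lit 615851210) (nat_lit 167) (nat_lit 1) (nat_lit 161)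 (nat_lit 1) (nat_lit 166) (nat_lit 1) (nat_lit 437) (nat_lit 397) (nat_lit 306)) (XT.lf (nat_lit 76) (nat_lit 370857712) (nat_lit 0) (nat_lit 1841580008) (nat_lit 456) (nat_lit 370857712) (nat_lit 162) (nat_lit 1) (nat_lit 161) (nat_lit 1) (nat_lit 167) (nat_lit 1) (nat_lit 438) (nat_lit 397) (nat_lit 305)))))) (XT.nd (nat_lit 390) (nat_lit 684) (nat_lit 0) (XT.nd (nat_lit 156) (nat_lit 304) (nat_lit 0) (XT.nd (nat_lit 78) (nat_lit 456) (nat_lit 0) (XT.lf (nat_lit 380) (nat_lit 112570103) (nat_lit 0) (nat_lit 1225688654) (nat_lit 304) (nat_lit 1225688654) (nat_lit 162) (nat_lit 1) (nat_lit 157) (nat_lit 1) (nat_lit 161) (nat_lit 1) (nat_lit 439) (nat_lit 397) (nat_lit 304)) (XT.lf (nat_lit 456) (nat_lit 2043170293) (nat_lit 0) (nat_lit 250831132) (nat_lit 380) (nat_lit 250831132) (nat_lit 157) (nat_lit 1) (nat_lit 151) (nat_lit 1) (nat_lit 156) (nat_lit 1) (nat_lit 440) (nat_lit 397) (nat_lit 303))) (XT.nd (nat_lit 78) (nat_lit 304) (nat_lit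 0) (XT.lf (nat_lit 76) (nat_lit 705071906) (nat_lit 0) (nat_lit 1115669050) (nat_lit 456) (nat_lit 705071906) (nat_lit 152) (nat_lit 1) (nat_lit 151) (nat_lit 1) (nat_lit 157) (nat_lit 1) (nat_lit 441) (nat_lit 397) (nat_lit 302)) (XT.nd (nat_lit 78) (nat_lit 0) (nat_lit 0) (XT.lf (nat_lit 380) (nat_lit 782189687) (nat_lit 0) (nat_lit 862416247) (nat_lit 304) (nat_lit 862416247) (nat_lit 152) (nat_lit 1) (nat_lit 147) (nat_lit 1) (nat_lit 151) (nat_lit 1) (nat_lit 442) (nat_lit 397) (nat_lit 301)) (XT.lf (nat_lit 76) (nat_lit 80684162) (nat_lit 0) (nat_lit 2327130052) (nat_lit 380) (nat_lit 80684162) (nat_lit 148) (nat_lit 1) (nat_lit 147) (nat_lit 1) (nat_lit 152) (nat_lit 1) (nat_lit 443) (nat_lit 397) (nat_lit 300))))) (XT.nd (nat_lit 51558) (nat_lit 0) (nat_lit 27284) (XT.nd (nat_lit 78) (nat_lit 304) (nat_lit 0) (XT.lf (nat_lit 76) (nat_lit 1006727166) (nat_lit 0) (nat_lit 456523183) (nat_lit 380) (nat_lit 1006727166) (nat_lit 143)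 (nat_lit 1) (nat_lit 142) (nat_lit 1) (nat_lit 147) (nat_lit 1) (nat_lit 444) (nat_lit 397) (nat_lit 299)) (XT.lf (nat_lit 380) (nat_lit 1387516789) (nat_lit 0) (nat_lit 532101452) (nat_lit 304) (nat_lit 532101452) (nat_lit 143) (nat_lit 1) (nat_lit 138) (nat_lit 1) (nat_lit 142) (nat_lit 1) (nat_lit 445) (nat_lit 397) (nat_lit 298))) (XT.nd (nat_lit 78) (nat_lit 0) (nat_lit 0) (XT.lf (nat_lit 1900) (nat_lit 963359638) (nat_lit 0) (nat_lit 971415566) (nat_lit 1900) (nat_lit 963359638) (nat_lit 522) (nat_lit 1) (nat_lit 497) (nat_lit 0) (nat_lit 522) (nat_lit 0) (nat_lit 344) (nat_lit 398) (nat_lit 398)) (XT.nd (nat_lit 78) (nat_lit 0) (nat_lit 76) (XT.lf (nat_lit 1900) (nat_lit 3809268854) (nat_lit 76) (nat_lit 965024674) (nat_lit 0) (nat_lit 965024674) (nat_lit 522) (nat_lit 1) (nat_lit 498) (nat_lit 1) (nat_lit 497) (nat_lit 0) (nat_lit 345) (nat_lit 398) (nat_lit 397)) (XT.lf (nat_lit 1900) (nat_lit 1870369139) (nat_lit 0) (nat_lit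 1942250487) (nat_lit 1824) (nat_lit 1870369139) (nat_lit 523) (nat_lit 1) (nat_lit 498) (nat_lit 1) (nat_lit 522) (nat_lit 1) (nat_lit 346) (nat_lit 398) (nat_lit 396))))))))
noncomputable def ec74 : XT := (XT.nd (nat_lit 1404) (nat_lit 7524) (nat_lit 0) (XT.nd (nat_lit 702) (nat_lit 0) (nat_lit 380) (XT.nd (nat_lit 312) (nat_lit 0) (nat_lit 152) (XT.nd (nat_lit 156) (nat_lit 0) (nat_lit 76) (XT.nd (nat_lit 78) (nat_lit 0) (nat_lit 76) (XT.lf (nat_lit 1900) (nat_lit 3660773478) (nat_lit 76) (nat_lit 983369902) (nat_lit 0) (nat_lit 983369902) (nat_lit 523) (nat_lit 1) (nat_lit 499) (nat_lit 1) (nat_lit 498) (nat_lit 1) (nat_lit 347) (nat_lit 398) (nat_lit 395)) (XT.lf (nat_lit 1900) (nat_lit 1779066540) (nat_lit 0) (nat_lit 2014517108) (nat_lit 1824) (nat_lit 1779066540) (nat_lit 524) (nat_lit 1) (nat_lit 499) (nat_lit 1) (nat_lit 523) (nat_lit 1) (nat_lit 348) (nat_lit 398) (nat_lit 394))) (XT.nd (nat_lit 78) (nat_lit 0) (nat_lit 76)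 (XT.lf (nat_lit 1900) (nat_lit 3444251838) (nat_lit 76) (nat_lit 1037175566) (nat_lit 0) (nat_lit 1037175566) (nat_lit 524) (nat_lit 1) (nat_lit 500) (nat_lit 1) (nat_lit 499) (nat_lit 1) (nat_lit 349) (nat_lit 398) (nat_lit 393)) (XT.lf (nat_lit 1900) (nat_lit 1654896973) (nat_lit 0) (nat_lit 2155374310) (nat_lit 1824) (nat_lit 1654896973) (nat_lit 525) (nat_lit 1) (nat_lit 500) (nat_lit 1) (nat_lit 524) (nat_lit 1) (nat_lit 350) (nat_lit 398) (nat_lit 392)))) (XT.nd (nat_lit 156) (nat_lit 0) (nat_lit 76) (XT.nd (nat_lit 78) (nat_lit 0) (nat_lit 76) (XT.lf (nat_lit 1900) (nat_lit 3163792389) (nat_lit 76) (nat_lit 1124355425) (nat_lit 0) (nat_lit 1124355425) (nat_lit 525) (nat_lit 1) (nat_lit 501) (nat_lit 1) (nat_lit 500) (nat_lit 1) (nat_lit 351) (nat_lit 398) (nat_lit 391)) (XT.lf (nat_lit 1900) (nat_lit 1499850670) (nat_lit 0) (nat_lit 2360758700) (nat_lit 1824) (nat_lit 1499850670) (nat_lit 526) (nat_lit 1) (nat_lit 501) (nat_lit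 1) (nat_lit 525) (nat_lit 1) (nat_lit 352) (nat_lit 398) (nat_lit 390))) (XT.nd (nat_lit 78) (nat_lit 0) (nat_lit 76) (XT.lf (nat_lit 1900) (nat_lit 2823296456) (nat_lit 76) (nat_lit 1242918153) (nat_lit 0) (nat_lit 1242918153) (nat_lit 526) (nat_lit 1) (nat_lit 502) (nat_lit 1) (nat_lit 501) (nat_lit 1) (nat_lit 353) (nat_lit 398) (nat_lit 389)) (XT.nd (nat_lit 78) (nat_lit 0) (nat_lit 0) (XT.lf (nat_lit 1900) (nat_lit 1315826582) (nat_lit 0) (nat_lit 2626792123) (nat_lit 1824) (nat_lit 1315826582) (nat_lit 527) (nat_lit 1) (nat_lit 502) (nat_lit 1) (nat_lit 526) (nat_lit 1) (nat_lit 354) (nat_lit 398) (nat_lit 388)) (XT.lf (nat_lit 1900) (nat_lit 2426486055) (nat_lit 76) (nat_lit 1390963387) (nat_lit 0) (nat_lit 1390963387) (nat_lit 527) (nat_lit 1) (nat_lit 503) (nat_lit 1) (nat_lit 502) (nat_lit 1) (nat_lit 355) (nat_lit 398) (nat_lit 387)))))) (XT.nd (nat_lit 312) (nat_lit 0) (nat_lit 152) (XT.nd (nat_lit 156) (nat_lit 0) (nat_lit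 76) (XT.nd (nat_lit 78) (nat_lit 0) (nat_lit 0) (XT.lf (nat_lit 1900) (nat_lit 1104636194) (nat_lit 0) (nat_lit 2949773925) (nat_lit 1824) (nat_lit 1104636194) (nat_lit 528) (nat_lit 1) (nat_lit 503) (nat_lit 1) (nat_lit 527) (nat_lit 1) (nat_lit 356) (nat_lit 398) (nat_lit 386)) (XT.lf (nat_lit 1900) (nat_lit 1976911404) (nat_lit 76) (nat_lit 1566677923) (nat_lit 0) (nat_lit 1566677923) (nat_lit 528) (nat_lit 1) (nat_lit 504) (nat_lit 1) (nat_lit 503) (nat_lit 1) (nat_lit 357) (nat_lit 398) (nat_lit 385))) (XT.nd (nat_lit 78) (nat_lit 0) (nat_lit 0) (XT.lf (nat_lit 1900) (nat_lit 868007195) (nat_lit 0) (nat_lit 3326173542) (nat_lit 1824) (nat_lit 868007195) (nat_lit 529) (nat_lit 1) (nat_lit 504) (nat_lit 1) (nat_lit 528) (nat_lit 1) (nat_lit 358) (nat_lit 398) (nat_lit 384)) (XT.lf (nat_lit 1900) (nat_lit 1477958126) (nat_lit 76) (nat_lit 1768332073) (nat_lit 0) (nat_lit 1768332073) (nat_lit 529) (nat_lit 1) (nat_lit 505) (nat_lit 1)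 (nat_lit 504) (nat_lit 1) (nat_lit 359) (nat_lit 398) (nat_lit 383)))) (XT.nd (nat_lit 156) (nat_lit 0) (nat_lit 76) (XT.nd (nat_lit 78) (nat_lit 0) (nat_lit 0) (XT.lf (nat_lit 1900) (nat_lit 607586993) (nat_lit 0) (nat_lit 3752623368) (nat_lit 1824) (nat_lit 607586993) (nat_lit 530) (nat_lit 1) (nat_lit 505) (nat_lit 1) (nat_lit 529) (nat_lit 1) (nat_lit 360) (nat_lit 398) (nat_lit 382)) (XT.lf (nat_lit 1900) (nat_lit 932854165) (nat_lit 76) (nat_lit 1994276161) (nat_lit 0) (nat_lit 1994276161) (nat_lit 530) (nat_lit 1) (nat_lit 506) (nat_lit 1) (nat_lit 505) (nat_lit 1) (nat_lit 361) (nat_lit 398) (nat_lit 381))) (XT.nd (nat_lit 78) (nat_lit 0) (nat_lit 0) (XT.lf (nat_lit 1900) (nat_lit 324946092) (nat_lit 0) (nat_lit 4225911926) (nat_lit 1824) (nat_lit 324946092) (nat_lit 531) (nat_lit 1) (nat_lit 506) (nat_lit 1) (nat_lit 530) (nat_lit 1) (nat_lit 362) (nat_lit 398) (nat_lit 380)) (XT.nd (nat_lit 78) (nat_lit 0) (nat_lit 76) (XT.lf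 (nat_lit 1900) (nat_lit 344676426) (nat_lit 76) (nat_lit 2242937167) (nat_lit 0) (nat_lit 2242937167) (nat_lit 531) (nat_lit 1) (nat_lit 507) (nat_lit 1) (nat_lit 506) (nat_lit 1) (nat_lit 363) (nat_lit 398) (nat_lit 379)) (XT.lf (nat_lit 1900) (nat_lit 21581332) (nat_lit 0) (nat_lit 4742977309) (nat_lit 1824) (nat_lit 21581332) (nat_lit 532) (nat_lit 1) (nat_lit 507) (nat_lit 1) (nat_lit 531) (nat_lit 1) (nat_lit 364) (nat_lit 398) (nat_lit 378))))))) (XT.nd (nat_lit 702) (nat_lit 4408) (nat_lit 0) (XT.nd (nat_lit 312) (nat_lit 1900) (nat_lit 0) (XT.nd (nat_lit 156) (nat_lit 0) (nat_lit 76) (XT.nd (nat_lit 78) (nat_lit 0) (nat_lit 0) (XT.lf (nat_lit 1976) (nat_lit 2231014242) (nat_lit 0) (nat_lit 279922831) (nat_lit 1900) (nat_lit 2231014242) (nat_lit 508) (nat_lit 1) (nat_lit 482) (nat_lit 1) (nat_lit 507) (nat_lit 1) (nat_lit 365) (nat_lit 398) (nat_lit 377)) (XT.lf (nat_lit 1976) (nat_lit 4100381556) (nat_lit 76) (nat_lit 299100205)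 (nat_lit 0) (nat_lit 299100205) (nat_lit 508) (nat_lit 1) (nat_lit 483) (nat_lit 1) (nat_lit 482) (nat_lit 1) (nat_lit 366) (nat_lit 398) (nat_lit 376))) (XT.nd (nat_lit 78) (nat_lit 0) (nat_lit 0) (XT.lf (nat_lit 1976) (nat_lit 1859335449) (nat_lit 0) (nat_lit 936859649) (nat_lit 1900) (nat_lit 1859335449) (nat_lit 509) (nat_lit 1) (nat_lit 483) (nat_lit 1) (nat_lit 508) (nat_lit 1) (nat_lit 367) (nat_lit 398) (nat_lit 375)) (XT.lf (nat_lit 1976) (nat_lit 3338281213) (nat_lit 76) (nat_lit 637460603) (nat_lit 0) (nat_lit 637460603) (nat_lit 509) (nat_lit 1) (nat_lit 484) (nat_lit 1) (nat_lit 483) (nat_lit 1) (nat_lit 368) (nat_lit 398) (nat_lit 374)))) (XT.nd (nat_lit 156) (nat_lit 912) (nat_lit 0) (XT.nd (nat_lit 78) (nat_lit 1140) (nat_lit 0) (XT.lf (nat_lit 76) (nat_lit 1471621163) (nat_lit 0) (nat_lit 1628028442) (nat_lit 1900) (nat_lit 1471621163) (nat_lit 485) (nat_lit 1) (nat_lit 484) (nat_lit 1) (nat_lit 509) (nat_lit 1) (nat_lit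 369) (nat_lit 398) (nat_lit 373)) (XT.lf (nat_lit 1216) (nat_lit 2545238587) (nat_lit 0) (nat_lit 992356353) (nat_lit 1140) (nat_lit 992356353) (nat_lit 485) (nat_lit 1) (nat_lit 469) (nat_lit 1) (nat_lit 484) (nat_lit 1) (nat_lit 370) (nat_lit 398) (nat_lit 372))) (XT.nd (nat_lit 78) (nat_lit 912) (nat_lit 0) (XT.lf (nat_lit 76) (nat_lit 1069091479) (nat_lit 0) (nat_lit 2350928538) (nat_lit 1216) (nat_lit 1069091479) (nat_lit 470) (nat_lit 1) (nat_lit 469) (nat_lit 1) (nat_lit 485) (nat_lit 1) (nat_lit 371) (nat_lit 398) (nat_lit 371)) (XT.nd (nat_lit 78) (nat_lit 0) (nat_lit 0) (XT.lf (nat_lit 988) (nat_lit 1723642177) (nat_lit 0) (nat_lit 1362563517) (nat_lit 912) (nat_lit 1362563517) (nat_lit 470) (nat_lit 1) (nat_lit 457) (nat_lit 1) (nat_lit 469) (nat_lit 1) (nat_lit 372) (nat_lit 398) (nat_lit 370)) (XT.lf (nat_lit 76) (nat_lit 652907398) (nat_lit 0) (nat_lit 3103179335) (nat_lit 988) (nat_lit 652907398) (nat_lit 458) (nat_lit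 1) (nat_lit 457) (nat_lit 1) (nat_lit 470) (nat_lit 1) (nat_lit 373) (nat_lit 398) (nat_lit 369)))))) (XT.nd (nat_lit 312) (nat_lit 1672) (nat_lit 0) (XT.nd (nat_lit 156) (nat_lit 1824) (nat_lit 0) (XT.nd (nat_lit 78) (nat_lit 0) (nat_lit 0) (XT.lf (nat_lit 988) (nat_lit 875764458) (nat_lit 0) (nat_lit 1746917095) (nat_lit 912) (nat_lit 1746917095) (nat_lit 458) (nat_lit 1) (nat_lit 445) (nat_lit 1) (nat_lit 457) (nat_lit 1) (nat_lit 374) (nat_lit 398) (nat_lit 368)) (XT.lf (nat_lit 76) (nat_lit 224173356) (nat_lit 0) (nat_lit 3882515192) (nat_lit 988) (nat_lit 224173356) (nat_lit 446) (nat_lit 1) (nat_lit 445) (nat_lit 1) (nat_lit 458) (nat_lit 1) (nat_lit 375) (nat_lit 398) (nat_lit 367))) (XT.nd (nat_lit 78) (nat_lit 988) (nat_lit 0) (XT.lf (nat_lit 912) (nat_lit 3766846) (nat_lit 0) (nat_lit 2144308509) (nat_lit 836) (nat_lit 2144308509) (nat_lit 446) (nat_lit 1) (nat_lit 434) (nat_lit 1) (nat_lit 445) (nat_lit 1) (nat_lit 376) (nat_lit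 398) (nat_lit 366)) (XT.lf (nat_lit 988) (nat_lit 3825269392) (nat_lit 0) (nat_lit 214638907) (nat_lit 912) (nat_lit 214638907) (nat_lit 434) (nat_lit 1) (nat_lit 421) (nat_lit 1) (nat_lit 433) (nat_lit 1) (nat_lit 377) (nat_lit 398) (nat_lit 365)))) (XT.nd (nat_lit 156) (nat_lit 836) (nat_lit 0) (XT.nd (nat_lit 78) (nat_lit 836) (nat_lit 0) (XT.lf (nat_lit 76) (nat_lit 1669168041) (nat_lit 0) (nat_lit 878619157) (nat_lit 988) (nat_lit 1669168041) (nat_lit 422) (nat_lit 1) (nat_lit 421) (nat_lit 1) (nat_lit 434) (nat_lit 1) (nat_lit 378) (nat_lit 398) (nat_lit 364)) (XT.lf (nat_lit 912) (nat_lit 2855170097) (nat_lit 0) (nat_lit 662408466) (nat_lit 836) (nat_lit 662408466) (nat_lit 422) (nat_lit 1) (nat_lit 410) (nat_lit 1) (nat_lit 421) (nat_lit 1) (nat_lit 379) (nat_lit 398) (nat_lit 363))) (XT.nd (nat_lit 78) (nat_lit 836) (nat_lit 0) (XT.lf (nat_lit 76) (nat_lit 1181284771) (nat_lit 0) (nat_lit 1780803390) (nat_lit 912) (nat_lit 1181284771)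 (nat_lit 411) (nat_lit 1) (nat_lit 410) (nat_lit 1) (nat_lit 422) (nat_lit 1) (nat_lit 380) (nat_lit 398) (nat_lit 362)) (XT.nd (nat_lit 78) (nat_lit 0) (nat_lit 0) (XT.lf (nat_lit 912) (nat_lit 1867912011) (nat_lit 0) (nat_lit 1119667513) (nat_lit 836) (nat_lit 1119667513) (nat_lit 411) (nat_lit 1) (nat_lit 399) (nat_lit 1) (nat_lit 410) (nat_lit 1) (nat_lit 381) (nat_lit 398) (nat_lit 361)) (XT.lf (nat_lit 76) (nat_lit 685291684) (nat_lit 0) (nat_lit 2701003571) (nat_lit 912) (nat_lit 685291684) (nat_lit 400) (nat_lit 1) (nat_lit 399) (nat_lit 1) (nat_lit 411) (nat_lit 1) (nat_lit 382) (nat_lit 398) (nat_lit 360))))))))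
noncomputable def ec75 : XT := (XT.nd (nat_lit 1404) (nat_lit 6004) (nat_lit 0) (XT.nd (nat_lit 702) (nat_lit 4028) (nat_lit 0) (XT.nd (nat_lit 312) (nat_lit 1444) (nat_lit 0) (XT.nd (nat_lit 156) (nat_lit 1596) (nat_lit 0) (XT.nd (nat_lit 78) (nat_lit 0) (nat_lit 0) (XT.lf (nat_lit 836) (nat_lit 865236507) (nat_lit 0) (nat_lit 1585520562) (nat_lit 760) (nat_lit 1585520562) (nat_lit 400) (nat_lit 1) (nat_lit 389) (nat_lit 1) (nat_lit 399) (nat_lit 1) (nat_lit 383) (nat_lit 398) (nat_lit 359)) (XT.lf (nat_lit 76) (nat_lit 182034182) (nat_lit 0) (nat_lit 3637479944) (nat_lit 836) (nat_lit 182034182) (nat_lit 390) (nat_lit 1) (nat_lit 389) (nat_lit 1) (nat_lit 400) (nat_lit 1) (nat_lit 384) (nat_lit 398) (nat_lit 358))) (XT.nd (nat_lit 78) (nat_lit 760) (nat_lit 0) (XT.lf (nat_lit 76) (nat_lit 1908895206) (nat_lit 0) (nat_lit 149220675) (nat_lit 836) (nat_lit 1908895206) (nat_lit 379) (nat_lit 1) (nat_lit 378) (nat_lit 1) (nat_lit 389) (nat_lit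 1) (nat_lit 385) (nat_lit 398) (nat_lit 357)) (XT.lf (nat_lit 836) (nat_lit 3281979343) (nat_lit 0) (nat_lit 325529734) (nat_lit 760) (nat_lit 325529734) (nat_lit 379) (nat_lit 1) (nat_lit 368) (nat_lit 1) (nat_lit 378) (nat_lit 1) (nat_lit 386) (nat_lit 398) (nat_lit 356)))) (XT.nd (nat_lit 156) (nat_lit 684) (nat_lit 0) (XT.nd (nat_lit 78) (nat_lit 760) (nat_lit 0) (XT.lf (nat_lit 76) (nat_lit 1367469704) (nat_lit 0) (nat_lit 1164367072) (nat_lit 836) (nat_lit 1367469704) (nat_lit 369) (nat_lit 1) (nat_lit 368) (nat_lit 1) (nat_lit 379) (nat_lit 1) (nat_lit 387) (nat_lit 398) (nat_lit 355)) (XT.lf (nat_lit 836) (nat_lit 2190965439) (nat_lit 0) (nat_lit 837559964) (nat_lit 760) (nat_lit 837559964) (nat_lit 369) (nat_lit 1) (nat_lit 358) (nat_lit 1) (nat_lit 368) (nat_lit 1) (nat_lit 388) (nat_lit 398) (nat_lit 354))) (XT.nd (nat_lit 78) (nat_lit 684) (nat_lit 0) (XT.lf (nat_lit 76) (nat_lit 821573960) (nat_lit 0) (nat_lit 2190083223)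 (nat_lit 836) (nat_lit 821573960) (nat_lit 359) (nat_lit 1) (nat_lit 358) (nat_lit 1) (nat_lit 369) (nat_lit 1) (nat_lit 389) (nat_lit 398) (nat_lit 353)) (XT.nd (nat_lit 78) (nat_lit 0) (nat_lit 0) (XT.lf (nat_lit 760) (nat_lit 1091663479) (nat_lit 0) (nat_lit 1354537561) (nat_lit 684) (nat_lit 1354537561) (nat_lit 359) (nat_lit 1) (nat_lit 349) (nat_lit 1) (nat_lit 358) (nat_lit 1) (nat_lit 390) (nat_lit 398) (nat_lit 352)) (XT.lf (nat_lit 76) (nat_lit 271881449) (nat_lit 0) (nat_lit 3224978514) (nat_lit 760) (nat_lit 271881449) (nat_lit 350) (nat_lit 1) (nat_lit 349) (nat_lit 1) (nat_lit 359) (nat_lit 1) (nat_lit 391) (nat_lit 398) (nat_lit 351)))))) (XT.nd (nat_lit 312) (nat_lit 1900) (nat_lit 0) (XT.nd (nat_lit 156) (nat_lit 684) (nat_lit 0) (XT.nd (nat_lit 78) (nat_lit 684) (nat_lit 0) (XT.lf (nat_lit 76) (nat_lit 1861266920) (nat_lit 0) (nat_lit 14419863) (nat_lit 760) (nat_lit 1861266920) (nat_lit 340) (nat_lit 1) (nat_lit 339)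 (nat_lit 1) (nat_lit 349) (nat_lit 1) (nat_lit 392) (nat_lit 398) (nat_lit 350)) (XT.lf (nat_lit 760) (nat_lit 3147404877) (nat_lit 0) (nat_lit 279121815) (nat_lit 684) (nat_lit 279121815) (nat_lit 340) (nat_lit 1) (nat_lit 330) (nat_lit 1) (nat_lit 339) (nat_lit 1) (nat_lit 393) (nat_lit 398) (nat_lit 349))) (XT.nd (nat_lit 78) (nat_lit 684) (nat_lit 0) (XT.lf (nat_lit 76) (nat_lit 1281354605) (nat_lit 0) (nat_lit 1111839227) (nat_lit 760) (nat_lit 1281354605) (nat_lit 331) (nat_lit 1) (nat_lit 330) (nat_lit 1) (nat_lit 340) (nat_lit 1) (nat_lit 394) (nat_lit 398) (nat_lit 348)) (XT.lf (nat_lit 760) (nat_lit 1982163435) (nat_lit 0) (nat_lit 830875657) (nat_lit 684) (nat_lit 830875657) (nat_lit 331) (nat_lit 1) (nat_lit 321) (nat_lit 1) (nat_lit 330) (nat_lit 1) (nat_lit 395) (nat_lit 398) (nat_lit 347)))) (XT.nd (nat_lit 156) (nat_lit 1292) (nat_lit 0) (XT.nd (nat_lit 78) (nat_lit 608) (nat_lit 0) (XT.lf (nat_lit 76) (nat_lit 699936999)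 (nat_lit 0) (nat_lit 2213750331) (nat_lit 760) (nat_lit 699936999) (nat_lit 322) (nat_lit 1) (nat_lit 321) (nat_lit 1) (nat_lit 331) (nat_lit 1) (nat_lit 396) (nat_lit 398) (nat_lit 346)) (XT.lf (nat_lit 684) (nat_lit 814437856) (nat_lit 0) (nat_lit 1384602206) (nat_lit 608) (nat_lit 1384602206) (nat_lit 322) (nat_lit 1) (nat_lit 313) (nat_lit 1) (nat_lit 321) (nat_lit 1) (nat_lit 397) (nat_lit 398) (nat_lit 345))) (XT.nd (nat_lit 78) (nat_lit 1292) (nat_lit 0) (XT.lf (nat_lit 76) (nat_lit 117543612) (nat_lit 0) (nat_lit 3319055109) (nat_lit 684) (nat_lit 117543612) (nat_lit 314) (nat_lit 1) (nat_lit 313) (nat_lit 1) (nat_lit 322) (nat_lit 1) (nat_lit 398) (nat_lit 398) (nat_lit 344)) (XT.nd (nat_lit 78) (nat_lit 608) (nat_lit 0) (XT.lf (nat_lit 76) (nat_lit 1587329801) (nat_lit 0) (nat_lit 350087006) (nat_lit 684) (nat_lit 1587329801) (nat_lit 305) (nat_lit 1) (nat_lit 304) (nat_lit 1) (nat_lit 313) (nat_lit 1) (nat_lit 399) (nat_lit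 398) (nat_lit 343)) (XT.lf (nat_lit 684) (nat_lit 2571293078) (nat_lit 0) (nat_lit 462264488) (nat_lit 608) (nat_lit 462264488) (nat_lit 305) (nat_lit 1) (nat_lit 296) (nat_lit 1) (nat_lit 304) (nat_lit 1) (nat_lit 400) (nat_lit 398) (nat_lit 342))))))) (XT.nd (nat_lit 702) (nat_lit 3116) (nat_lit 0) (XT.nd (nat_lit 312) (nat_lit 1748) (nat_lit 0) (XT.nd (nat_lit 156) (nat_lit 532) (nat_lit 0) (XT.nd (nat_lit 78) (nat_lit 608) (nat_lit 0) (XT.lf (nat_lit 76) (nat_lit 981364419) (nat_lit 0) (nat_lit 1504401918) (nat_lit 684) (nat_lit 981364419) (nat_lit 297) (nat_lit 1) (nat_lit 296) (nat_lit 1) (nat_lit 305) (nat_lit 1) (nat_lit 401) (nat_lit 398) (nat_lit 341)) (XT.lf (nat_lit 684) (nat_lit 1356199849) (nat_lit 0) (nat_lit 1041304058) (nat_lit 608) (nat_lit 1041304058) (nat_lit 297) (nat_lit 1) (nat_lit 288) (nat_lit 1) (nat_lit 296) (nat_lit 1) (nat_lit 402) (nat_lit 398) (nat_lit 340))) (XT.nd (nat_lit 78) (nat_lit 532) (nat_lit 0)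 (XT.lf (nat_lit 76) (nat_lit 376291065) (nat_lit 0) (nat_lit 2658282289) (nat_lit 684) (nat_lit 376291065) (nat_lit 289) (nat_lit 1) (nat_lit 288) (nat_lit 1) (nat_lit 297) (nat_lit 1) (nat_lit 403) (nat_lit 398) (nat_lit 339)) (XT.lf (nat_lit 608) (nat_lit 143311353) (nat_lit 0) (nat_lit 1619907257) (nat_lit 532) (nat_lit 1619907257) (nat_lit 289) (nat_lit 1) (nat_lit 281) (nat_lit 1) (nat_lit 288) (nat_lit 1) (nat_lit 404) (nat_lit 398) (nat_lit 338)))) (XT.nd (nat_lit 156) (nat_lit 1064) (nat_lit 0) (XT.nd (nat_lit 78) (nat_lit 0) (nat_lit 0) (XT.lf (nat_lit 684) (nat_lit 2903825199) (nat_lit 0) (nat_lit 225984424) (nat_lit 608) (nat_lit 225984424) (nat_lit 281) (nat_lit 1) (nat_lit 272) (nat_lit 1) (nat_lit 280) (nat_lit 1) (nat_lit 405) (nat_lit 398) (nat_lit 337)) (XT.lf (nat_lit 76) (nat_lit 1138007540) (nat_lit 0) (nat_lit 1052587749) (nat_lit 684) (nat_lit 1138007540) (nat_lit 273) (nat_lit 1) (nat_lit 272) (nat_lit 1) (nat_lit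 281) (nat_lit 1) (nat_lit 406) (nat_lit 398) (nat_lit 336))) (XT.nd (nat_lit 78) (nat_lit 532) (nat_lit 0) (XT.lf (nat_lit 608) (nat_lit 1653590045) (nat_lit 0) (nat_lit 824109472) (nat_lit 532) (nat_lit 824109472) (nat_lit 273) (nat_lit 1) (nat_lit 265) (nat_lit 1) (nat_lit 272) (nat_lit 1) (nat_lit 407) (nat_lit 398) (nat_lit 335)) (XT.nd (nat_lit 78) (nat_lit 532) (nat_lit 0) (XT.lf (nat_lit 76) (nat_lit 516209247) (nat_lit 0) (nat_lit 2242907301) (nat_lit 608) (nat_lit 516209247) (nat_lit 266) (nat_lit 1) (nat_lit 265) (nat_lit 1) (nat_lit 273) (nat_lit 1) (nat_lit 408) (nat_lit 398) (nat_lit 334)) (XT.lf (nat_lit 608) (nat_lit 408670810) (nat_lit 0) (nat_lit 1420200868) (nat_lit 532) (nat_lit 1420200868) (nat_lit 266) (nat_lit 1) (nat_lit 258) (nat_lit 1) (nat_lit 265) (nat_lit 1) (nat_lit 409) (nat_lit 398) (nat_lit 333)))))) (XT.nd (nat_lit 390) (nat_lit 1520) (nat_lit 0) (XT.nd (nat_lit 156) (nat_lit 988) (nat_lit 0) (XT.nd (nat_lit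 78) (nat_lit 0) (nat_lit 0) (XT.lf (nat_lit 608) (nat_lit 3019026803) (nat_lit 0) (nat_lit 102100317) (nat_lit 532) (nat_lit 102100317) (nat_lit 258) (nat_lit 1) (nat_lit 250) (nat_lit 1) (nat_lit 257) (nat_lit 1) (nat_lit 410) (nat_lit 398) (nat_lit 332)) (XT.lf (nat_lit 76) (nat_lit 1189021609) (nat_lit 0) (nat_lit 819401820) (nat_lit 608) (nat_lit 1189021609) (nat_lit 251) (nat_lit 1) (nat_lit 250) (nat_lit 1) (nat_lit 258) (nat_lit 1) (nat_lit 411) (nat_lit 398) (nat_lit 331))) (XT.nd (nat_lit 78) (nat_lit 456) (nat_lit 0) (XT.lf (nat_lit 608) (nat_lit 1744237138) (nat_lit 0) (nat_lit 713912668) (nat_lit 532) (nat_lit 713912668) (nat_lit 251) (nat_lit 1) (nat_lit 243) (nat_lit 1) (nat_lit 250) (nat_lit 1) (nat_lit 412) (nat_lit 398) (nat_lit 330)) (XT.nd (nat_lit 78) (nat_lit 456) (nat_lit 0) (XT.lf (nat_lit 76) (nat_lit 555653694) (nat_lit 0) (nat_lit 2035643725) (nat_lit 608) (nat_lit 555653694) (nat_lit 244) (nat_lit 1) (nat_lit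 243) (nat_lit 1) (nat_lit 251) (nat_lit 1) (nat_lit 413) (nat_lit 398) (nat_lit 329)) (XT.lf (nat_lit 532) (nat_lit 477395633) (nat_lit 0) (nat_lit 1322336951) (nat_lit 456) (nat_lit 1322336951) (nat_lit 244) (nat_lit 1) (nat_lit 237) (nat_lit 1) (nat_lit 243) (nat_lit 1) (nat_lit 414) (nat_lit 398) (nat_lit 328))))) (XT.nd (nat_lit 156) (nat_lit 912) (nat_lit 0) (XT.nd (nat_lit 78) (nat_lit 0) (nat_lit 0) (XT.lf (nat_lit 608) (nat_lit 2951296168) (nat_lit 0) (nat_lit 73139651) (nat_lit 532) (nat_lit 73139651) (nat_lit 237) (nat_lit 1) (nat_lit 229) (nat_lit 1) (nat_lit 236) (nat_lit 1) (nat_lit 415) (nat_lit 398) (nat_lit 327)) (XT.lf (nat_lit 76) (nat_lit 1151184471) (nat_lit 0) (nat_lit 770748729) (nat_lit 608) (nat_lit 1151184471) (nat_lit 230) (nat_lit 1) (nat_lit 229) (nat_lit 1) (nat_lit 237) (nat_lit 1) (nat_lit 416) (nat_lit 398) (nat_lit 326))) (XT.nd (nat_lit 78) (nat_lit 456) (nat_lit 0) (XT.lf (nat_lit 532) (nat_lit 1661095063)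 (nat_lit 0) (nat_lit 693972473) (nat_lit 456) (nat_lit 693972473) (nat_lit 230) (nat_lit 1) (nat_lit 223) (nat_lit 1) (nat_lit 229) (nat_lit 1) (nat_lit 417) (nat_lit 398) (nat_lit 325)) (XT.nd (nat_lit 78) (nat_lit 456) (nat_lit 0) (XT.lf (nat_lit 76) (nat_lit 510697276) (nat_lit 0) (nat_lit 2003824208) (nat_lit 532) (nat_lit 510697276) (nat_lit 224) (nat_lit 1) (nat_lit 223) (nat_lit 1) (nat_lit 230) (nat_lit 1) (nat_lit 418) (nat_lit 398) (nat_lit 324)) (XT.lf (nat_lit 532) (nat_lit 381054135) (nat_lit 0) (nat_lit 1310275984) (nat_lit 456) (nat_lit 1310275984) (nat_lit 224) (nat_lit 1) (nat_lit 217) (nat_lit 1) (nat_lit 223) (nat_lit 1) (nat_lit 419) (nat_lit 398) (nat_lit 323))))))))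
noncomputable def ec76 : XT := (XT.nd (nat_lit 1404) (nat_lit 1748) (nat_lit 0) (XT.nd (nat_lit 702) (nat_lit 2280) (nat_lit 0) (XT.nd (nat_lit 312) (nat_lit 1292) (nat_lit 0) (XT.nd (nat_lit 156) (nat_lit 456) (nat_lit 0) (XT.nd (nat_lit 78) (nat_lit 0) (nat_lit 0) (XT.lf (nat_lit 532) (nat_lit 2730727715) (nat_lit 0) (nat_lit 123807147) (nat_lit 456) (nat_lit 123807147) (nat_lit 217) (nat_lit 1) (nat_lit 210) (nat_lit 1) (nat_lit 216) (nat_lit 1) (nat_lit 420) (nat_lit 398) (nat_lit 322)) (XT.lf (nat_lit 76) (nat_lit 1039172490) (nat_lit 0) (nat_lit 876785986) (nat_lit 532) (nat_lit 1039172490) (nat_lit 211) (nat_lit 1) (nat_lit 210) (nat_lit 1) (nat_lit 217) (nat_lit 1) (nat_lit 421) (nat_lit 398) (nat_lit 321))) (XT.nd (nat_lit 78) (nat_lit 0) (nat_lit 0) (XT.lf (nat_lit 532) (nat_lit 1432985738) (nat_lit 0) (nat_lit 749638101) (nat_lit 456) (nat_lit 749638101) (nat_lit 211) (nat_lit 1) (nat_lit 204) (nat_lit 1) (nat_lit 210) (nat_lit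 1) (nat_lit 422) (nat_lit 398) (nat_lit 320)) (XT.lf (nat_lit 76) (nat_lit 395395312) (nat_lit 0) (nat_lit 2118864623) (nat_lit 532) (nat_lit 395395312) (nat_lit 205) (nat_lit 1) (nat_lit 204) (nat_lit 1) (nat_lit 211) (nat_lit 1) (nat_lit 423) (nat_lit 398) (nat_lit 319)))) (XT.nd (nat_lit 156) (nat_lit 380) (nat_lit 0) (XT.nd (nat_lit 78) (nat_lit 532) (nat_lit 0) (XT.lf (nat_lit 456) (nat_lit 147247674) (nat_lit 0) (nat_lit 1369985409) (nat_lit 380) (nat_lit 1369985409) (nat_lit 205) (nat_lit 1) (nat_lit 199) (nat_lit 1) (nat_lit 204) (nat_lit 1) (nat_lit 424) (nat_lit 398) (nat_lit 318)) (XT.lf (nat_lit 532) (nat_lit 2383612827) (nat_lit 0) (nat_lit 240731718) (nat_lit 456) (nat_lit 240731718) (nat_lit 199) (nat_lit 1) (nat_lit 192) (nat_lit 1) (nat_lit 198) (nat_lit 1) (nat_lit 425) (nat_lit 398) (nat_lit 317))) (XT.nd (nat_lit 78) (nat_lit 380) (nat_lit 0) (XT.lf (nat_lit 76) (nat_lit 865805184) (nat_lit 0) (nat_lit 1111429562)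 (nat_lit 532) (nat_lit 865805184) (nat_lit 193) (nat_lit 1) (nat_lit 192) (nat_lit 1) (nat_lit 199) (nat_lit 1) (nat_lit 426) (nat_lit 398) (nat_lit 316)) (XT.nd (nat_lit 78) (nat_lit 0) (nat_lit 0) (XT.lf (nat_lit 456) (nat_lit 1085080235) (nat_lit 0) (nat_lit 868106037) (nat_lit 380) (nat_lit 868106037) (nat_lit 193) (nat_lit 1) (nat_lit 187) (nat_lit 1) (nat_lit 192) (nat_lit 1) (nat_lit 427) (nat_lit 398) (nat_lit 315)) (XT.lf (nat_lit 76) (nat_lit 222020600) (nat_lit 0) (nat_lit 2355789008) (nat_lit 456) (nat_lit 222020600) (nat_lit 188) (nat_lit 1) (nat_lit 187) (nat_lit 1) (nat_lit 193) (nat_lit 1) (nat_lit 428) (nat_lit 398) (nat_lit 314)))))) (XT.nd (nat_lit 312) (nat_lit 1064) (nat_lit 0) (XT.nd (nat_lit 156) (nat_lit 380) (nat_lit 0) (XT.nd (nat_lit 78) (nat_lit 380) (nat_lit 0) (XT.lf (nat_lit 76) (nat_lit 1290577054) (nat_lit 0) (nat_lit 197304972) (nat_lit 456) (nat_lit 1290577054) (nat_lit 182) (nat_lit 1) (nat_lit 181)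 (nat_lit 1) (nat_lit 187) (nat_lit 1) (nat_lit 429) (nat_lit 398) (nat_lit 313)) (XT.lf (nat_lit 456) (nat_lit 1932883808) (nat_lit 0) (nat_lit 412242147) (nat_lit 380) (nat_lit 412242147) (nat_lit 182) (nat_lit 1) (nat_lit 176) (nat_lit 1) (nat_lit 181) (nat_lit 1) (nat_lit 430) (nat_lit 398) (nat_lit 312))) (XT.nd (nat_lit 78) (nat_lit 380) (nat_lit 0) (XT.lf (nat_lit 76) (nat_lit 642262067) (nat_lit 0) (nat_lit 1451915546) (nat_lit 456) (nat_lit 642262067) (nat_lit 177) (nat_lit 1) (nat_lit 176) (nat_lit 1) (nat_lit 182) (nat_lit 1) (nat_lit 431) (nat_lit 398) (nat_lit 311)) (XT.lf (nat_lit 456) (nat_lit 639325321) (nat_lit 0) (nat_lit 1038204503) (nat_lit 380) (nat_lit 1038204503) (nat_lit 177) (nat_lit 1) (nat_lit 171) (nat_lit 1) (nat_lit 176) (nat_lit 1) (nat_lit 432) (nat_lit 398) (nat_lit 310)))) (XT.nd (nat_lit 156) (nat_lit 684) (nat_lit 0) (XT.nd (nat_lit 78) (nat_lit 380) (nat_lit 0) (XT.lf (nat_lit 76) (nat_lit 1271760)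 (nat_lit 0) (nat_lit 2692808419) (nat_lit 456) (nat_lit 1271760) (nat_lit 172) (nat_lit 1) (nat_lit 171) (nat_lit 1) (nat_lit 177) (nat_lit 1) (nat_lit 433) (nat_lit 398) (nat_lit 309)) (XT.lf (nat_lit 76) (nat_lit 1021928668) (nat_lit 0) (nat_lit 631081464) (nat_lit 380) (nat_lit 1021928668) (nat_lit 167) (nat_lit 1) (nat_lit 166) (nat_lit 1) (nat_lit 171) (nat_lit 1) (nat_lit 434) (nat_lit 398) (nat_lit 308))) (XT.nd (nat_lit 78) (nat_lit 304) (nat_lit 0) (XT.lf (nat_lit 456) (nat_lit 1398507394) (nat_lit 0) (nat_lit 628168234) (nat_lit 380) (nat_lit 628168234) (nat_lit 167) (nat_lit 1) (nat_lit 161) (nat_lit 1) (nat_lit 166) (nat_lit 1) (nat_lit 435) (nat_lit 398) (nat_lit 307)) (XT.nd (nat_lit 78) (nat_lit 304) (nat_lit 0) (XT.lf (nat_lit 76) (nat_lit 378274866) (nat_lit 0) (nat_lit 1878411609) (nat_lit 456) (nat_lit 378274866) (nat_lit 162) (nat_lit 1) (nat_lit 161) (nat_lit 1) (nat_lit 167) (nat_lit 1) (nat_lit 436) (nat_lit 398)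 (nat_lit 306)) (XT.lf (nat_lit 380) (nat_lit 114821505) (nat_lit 0) (nat_lit 1250202427) (nat_lit 304) (nat_lit 1250202427) (nat_lit 162) (nat_lit 1) (nat_lit 157) (nat_lit 1) (nat_lit 161) (nat_lit 1) (nat_lit 437) (nat_lit 398) (nat_lit 305))))))) (XT.nd (nat_lit 51948) (nat_lit 0) (nat_lit 27588) (XT.nd (nat_lit 312) (nat_lit 988) (nat_lit 0) (XT.nd (nat_lit 156) (nat_lit 304) (nat_lit 0) (XT.nd (nat_lit 78) (nat_lit 0) (nat_lit 0) (XT.lf (nat_lit 456) (nat_lit 2084033699) (nat_lit 0) (nat_lit 255847755) (nat_lit 380) (nat_lit 255847755) (nat_lit 157) (nat_lit 1) (nat_lit 151) (nat_lit 1) (nat_lit 156) (nat_lit 1) (nat_lit 438) (nat_lit 398) (nat_lit 304)) (XT.lf (nat_lit 76) (nat_lit 719173344) (nat_lit 0) (nat_lit 1137982431) (nat_lit 456) (nat_lit 719173344) (nat_lit 152) (nat_lit 1) (nat_lit 151) (nat_lit 1) (nat_lit 157) (nat_lit 1) (nat_lit 439) (nat_lit 398) (nat_lit 303))) (XT.nd (nat_lit 78) (nat_lit 0) (nat_lit 0) (XT.lf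 (nat_lit 380) (nat_lit 797833481) (nat_lit 0) (nat_lit 879664572) (nat_lit 304) (nat_lit 879664572) (nat_lit 152) (nat_lit 1) (nat_lit 147) (nat_lit 1) (nat_lit 151) (nat_lit 1) (nat_lit 440) (nat_lit 398) (nat_lit 302)) (XT.lf (nat_lit 76) (nat_lit 82297845) (nat_lit 0) (nat_lit 2373672653) (nat_lit 380) (nat_lit 82297845) (nat_lit 148) (nat_lit 1) (nat_lit 147) (nat_lit 1) (nat_lit 152) (nat_lit 1) (nat_lit 441) (nat_lit 398) (nat_lit 301)))) (XT.nd (nat_lit 156) (nat_lit 304) (nat_lit 0) (XT.nd (nat_lit 78) (nat_lit 304) (nat_lit 0) (XT.lf (nat_lit 76) (nat_lit 1026861710) (nat_lit 0) (nat_lit 465653647) (nat_lit 380) (nat_lit 1026861710) (nat_lit 143) (nat_lit 1) (nat_lit 142) (nat_lit 1) (nat_lit 147) (nat_lit 1) (nat_lit 442) (nat_lit 398) (nat_lit 300)) (XT.lf (nat_lit 380) (nat_lit 1415267125) (nat_lit 0) (nat_lit 542743482) (nat_lit 304) (nat_lit 542743482) (nat_lit 143) (nat_lit 1) (nat_lit 138) (nat_lit 1) (nat_lit 142) (nat_lit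 1) (nat_lit 443) (nat_lit 398) (nat_lit 299))) (XT.nd (nat_lit 78) (nat_lit 304) (nat_lit 0) (XT.lf (nat_lit 76) (nat_lit 389978475) (nat_lit 0) (nat_lit 1702355539) (nat_lit 380) (nat_lit 389978475) (nat_lit 139) (nat_lit 1) (nat_lit 138) (nat_lit 1) (nat_lit 143) (nat_lit 1) (nat_lit 444) (nat_lit 398) (nat_lit 298)) (XT.nd (nat_lit 51324) (nat_lit 0) (nat_lit 27588) (XT.lf (nat_lit 380) (nat_lit 145904132) (nat_lit 0) (nat_lit 1159054378) (nat_lit 304) (nat_lit 1159054378) (nat_lit 139) (nat_lit 1) (nat_lit 134) (nat_lit 1) (nat_lit 138) (nat_lit 1) (nat_lit 445) (nat_lit 398) (nat_lit 297)) (XT.lf (nat_lit 1900) (nat_lit 982626831) (nat_lit 0) (nat_lit 990843877) (nat_lit 1900) (nat_lit 982626831) (nat_lit 522) (nat_lit 1) (nat_lit 497) (nat_lit 0) (nat_lit 522) (nat_lit 0) (nat_lit 342) (nat_lit 399) (nat_lit 399)))))) (XT.nd (nat_lit 312) (nat_lit 0) (nat_lit 152) (XT.nd (nat_lit 156) (nat_lit 0) (nat_lit 76) (XT.nd (nat_lit 78)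 (nat_lit 0) (nat_lit 76) (XT.lf (nat_lit 1900) (nat_lit 3885454231) (nat_lit 76) (nat_lit 984325167) (nat_lit 0) (nat_lit 984325167) (nat_lit 522) (nat_lit 1) (nat_lit 498) (nat_lit 1) (nat_lit 497) (nat_lit 0) (nat_lit 343) (nat_lit 399) (nat_lit 398)) (XT.lf (nat_lit 1900) (nat_lit 1907776522) (nat_lit 0) (nat_lit 1981095497) (nat_lit 1824) (nat_lit 1907776522) (nat_lit 523) (nat_lit 1) (nat_lit 498) (nat_lit 1) (nat_lit 522) (nat_lit 1) (nat_lit 344) (nat_lit 399) (nat_lit 397))) (XT.nd (nat_lit 78) (nat_lit 0) (nat_lit 76) (XT.lf (nat_lit 1900) (nat_lit 3733988947) (nat_lit 76) (nat_lit 1003037300) (nat_lit 0) (nat_lit 1003037300) (nat_lit 523) (nat_lit 1) (nat_lit 499) (nat_lit 1) (nat_lit 498) (nat_lit 1) (nat_lit 345) (nat_lit 399) (nat_lit 396)) (XT.lf (nat_lit 1900) (nat_lit 1814647871) (nat_lit 0) (nat_lit 2054807450) (nat_lit 1824) (nat_lit 1814647871) (nat_lit 524) (nat_lit 1) (nat_lit 499) (nat_lit 1) (nat_lit 523) (nat_lit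 1) (nat_lit 346) (nat_lit 399) (nat_lit 395)))) (XT.nd (nat_lit 156) (nat_lit 0) (nat_lit 76) (XT.nd (nat_lit 78) (nat_lit 0) (nat_lit 76) (XT.lf (nat_lit 1900) (nat_lit 3513136875) (nat_lit 76) (nat_lit 1057919078) (nat_lit 0) (nat_lit 1057919078) (nat_lit 524) (nat_lit 1) (nat_lit 500) (nat_lit 1) (nat_lit 499) (nat_lit 1) (nat_lit 347) (nat_lit 399) (nat_lit 394)) (XT.lf (nat_lit 1900) (nat_lit 1687994912) (nat_lit 0) (nat_lit 2198481796) (nat_lit 1824) (nat_lit 1687994912) (nat_lit 525) (nat_lit 1) (nat_lit 500) (nat_lit 1) (nat_lit 524) (nat_lit 1) (nat_lit 348) (nat_lit 399) (nat_lit 393))) (XT.nd (nat_lit 78) (nat_lit 0) (nat_lit 76) (XT.lf (nat_lit 1900) (nat_lit 3227068237) (nat_lit 76) (nat_lit 1146842533) (nat_lit 0) (nat_lit 1146842533) (nat_lit 525) (nat_lit 1) (nat_lit 501) (nat_lit 1) (nat_lit 500) (nat_lit 1) (nat_lit 349) (nat_lit 399) (nat_lit 392)) (XT.nd (nat_lit 78) (nat_lit 0) (nat_lit 0) (XT.lf (nat_lit 1900) (nat_lit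 1529847683) (nat_lit 0) (nat_lit 2407973874) (nat_lit 1824) (nat_lit 1529847683) (nat_lit 526) (nat_lit 1) (nat_lit 501) (nat_lit 1) (nat_lit 525) (nat_lit 1) (nat_lit 350) (nat_lit 399) (nat_lit 391)) (XT.lf (nat_lit 1900) (nat_lit 2879762385) (nat_lit 76) (nat_lit 1267776516) (nat_lit 0) (nat_lit 1267776516) (nat_lit 526) (nat_lit 1) (nat_lit 502) (nat_lit 1) (nat_lit 501) (nat_lit 1) (nat_lit 351) (nat_lit 399) (nat_lit 390))))))))
noncomputable def ec77 : XT := (XT.nd (nat_lit 1404) (nat_lit 9120) (nat_lit 0) (XT.nd (nat_lit 702) (nat_lit 2508) (nat_lit 0) (XT.nd (nat_lit 312) (nat_lit 0) (nat_lit 152) (XT.nd (nat_lit 156) (nat_lit 0) (nat_lit 76) (XT.nd (nat_lit 78) (nat_lit 0) (nat_lit 0) (XT.lf (nat_lit 1900) (nat_lit 1342143113) (nat_lit 0) (nat_lit 2679327965) (nat_lit 1824) (nat_lit 1342143113) (nat_lit 527) (nat_lit 1) (nat_lit 502) (nat_lit 1) (nat_lit 526) (nat_lit 1) (nat_lit 352) (nat_lit 399) (nat_lit 389)) (XT.lf (nat_lit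 1900) (nat_lit 2475015777) (nat_lit 76) (nat_lit 1418782654) (nat_lit 0) (nat_lit 1418782654) (nat_lit 527) (nat_lit 1) (nat_lit 503) (nat_lit 1) (nat_lit 502) (nat_lit 1) (nat_lit 353) (nat_lit 399) (nat_lit 388))) (XT.nd (nat_lit 78) (nat_lit 0) (nat_lit 0) (XT.lf (nat_lit 1900) (nat_lit 1126728918) (nat_lit 0) (nat_lit 3008769404) (nat_lit 1824) (nat_lit 1126728918) (nat_lit 528) (nat_lit 1) (nat_lit 503) (nat_lit 1) (nat_lit 527) (nat_lit 1) (nat_lit 354) (nat_lit 399) (nat_lit 387)) (XT.lf (nat_lit 1900) (nat_lit 2016449632) (nat_lit 76) (nat_lit 1598011481) (nat_lit 0) (nat_lit 1598011481) (nat_lit 528) (nat_lit 1) (nat_lit 504) (nat_lit 1) (nat_lit 503) (nat_lit 1) (nat_lit 355) (nat_lit 399) (nat_lit 386)))) (XT.nd (nat_lit 156) (nat_lit 0) (nat_lit 76) (XT.nd (nat_lit 78) (nat_lit 0) (nat_lit 0) (XT.lf (nat_lit 1900) (nat_lit 885367339) (nat_lit 0) (nat_lit 3392697013) (nat_lit 1824) (nat_lit 885367339) (nat_lit 529) (nat_lit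 1) (nat_lit 504) (nat_lit 1) (nat_lit 528) (nat_lit 1) (nat_lit 356) (nat_lit 399) (nat_lit 385)) (XT.lf (nat_lit 1900) (nat_lit 1507517288) (nat_lit 76) (nat_lit 1803698714) (nat_lit 0) (nat_lit 1803698714) (nat_lit 529) (nat_lit 1) (nat_lit 505) (nat_lit 1) (nat_lit 504) (nat_lit 1) (nat_lit 357) (nat_lit 399) (nat_lit 384))) (XT.nd (nat_lit 78) (nat_lit 0) (nat_lit 0) (XT.lf (nat_lit 1900) (nat_lit 619738733) (nat_lit 0) (nat_lit 3827675835) (nat_lit 1824) (nat_lit 619738733) (nat_lit 530) (nat_lit 1) (nat_lit 505) (nat_lit 1) (nat_lit 529) (nat_lit 1) (nat_lit 358) (nat_lit 399) (nat_lit 383)) (XT.nd (nat_lit 78) (nat_lit 0) (nat_lit 76) (XT.lf (nat_lit 1900) (nat_lit 951511248) (nat_lit 76) (nat_lit 2034161684) (nat_lit 0) (nat_lit 2034161684) (nat_lit 530) (nat_lit 1) (nat_lit 506) (nat_lit 1) (nat_lit 505) (nat_lit 1) (nat_lit 359) (nat_lit 399) (nat_lit 382)) (XT.lf (nat_lit 1900) (nat_lit 331445014) (nat_lit 0) (nat_lit 4310430165)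 (nat_lit 1824) (nat_lit 331445014) (nat_lit 531) (nat_lit 1) (nat_lit 506) (nat_lit 1) (nat_lit 530) (nat_lit 1) (nat_lit 360) (nat_lit 399) (nat_lit 381)))))) (XT.nd (nat_lit 312) (nat_lit 988) (nat_lit 0) (XT.nd (nat_lit 156) (nat_lit 1824) (nat_lit 0) (XT.nd (nat_lit 78) (nat_lit 0) (nat_lit 76) (XT.lf (nat_lit 1900) (nat_lit 351569955) (nat_lit 76) (nat_lit 2287795911) (nat_lit 0) (nat_lit 2287795911) (nat_lit 531) (nat_lit 1) (nat_lit 507) (nat_lit 1) (nat_lit 506) (nat_lit 1) (nat_lit 361) (nat_lit 399) (nat_lit 380)) (XT.lf (nat_lit 1900) (nat_lit 22012959) (nat_lit 0) (nat_lit 4837836855) (nat_lit 1824) (nat_lit 22012959) (nat_lit 532) (nat_lit 1) (nat_lit 507) (nat_lit 1) (nat_lit 531) (nat_lit 1) (nat_lit 362) (nat_lit 399) (nat_lit 379))) (XT.nd (nat_lit 78) (nat_lit 0) (nat_lit 0) (XT.lf (nat_lit 1976) (nat_lit 2275634527) (nat_lit 0) (nat_lit 285521288) (nat_lit 1900) (nat_lit 2275634527) (nat_lit 508) (nat_lit 1) (nat_lit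 482) (nat_lit 1) (nat_lit 507) (nat_lit 1) (nat_lit 363) (nat_lit 399) (nat_lit 378)) (XT.lf (nat_lit 1976) (nat_lit 4182389187) (nat_lit 76) (nat_lit 305082209) (nat_lit 0) (nat_lit 305082209) (nat_lit 508) (nat_lit 1) (nat_lit 483) (nat_lit 1) (nat_lit 482) (nat_lit 1) (nat_lit 364) (nat_lit 399) (nat_lit 377)))) (XT.nd (nat_lit 156) (nat_lit 1064) (nat_lit 0) (XT.nd (nat_lit 78) (nat_lit 0) (nat_lit 0) (XT.lf (nat_lit 1976) (nat_lit 1896522158) (nat_lit 0) (nat_lit 955596842) (nat_lit 1900) (nat_lit 1896522158) (nat_lit 509) (nat_lit 1) (nat_lit 483) (nat_lit 1) (nat_lit 508) (nat_lit 1) (nat_lit 365) (nat_lit 399) (nat_lit 376)) (XT.lf (nat_lit 1976) (nat_lit 3405046837) (nat_lit 76) (nat_lit 650209815) (nat_lit 0) (nat_lit 650209815) (nat_lit 509) (nat_lit 1) (nat_lit 484) (nat_lit 1) (nat_lit 483) (nat_lit 1) (nat_lit 366) (nat_lit 399) (nat_lit 375))) (XT.nd (nat_lit 78) (nat_lit 1140) (nat_lit 0) (XT.lf (nat_lit 76) (nat_lit 1501053586)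 (nat_lit 0) (nat_lit 1660589011) (nat_lit 1900) (nat_lit 1501053586) (nat_lit 485) (nat_lit 1) (nat_lit 484) (nat_lit 1) (nat_lit 509) (nat_lit 1) (nat_lit 367) (nat_lit 399) (nat_lit 374)) (XT.nd (nat_lit 78) (nat_lit 0) (nat_lit 0) (XT.lf (nat_lit 1216) (nat_lit 2596143359) (nat_lit 0) (nat_lit 1012203480) (nat_lit 1140) (nat_lit 1012203480) (nat_lit 485) (nat_lit 1) (nat_lit 469) (nat_lit 1) (nat_lit 484) (nat_lit 1) (nat_lit 368) (nat_lit 399) (nat_lit 373)) (XT.lf (nat_lit 76) (nat_lit 1090473308) (nat_lit 0) (nat_lit 2397947108) (nat_lit 1216) (nat_lit 1090473308) (nat_lit 470) (nat_lit 1) (nat_lit 469) (nat_lit 1) (nat_lit 485) (nat_lit 1) (nat_lit 369) (nat_lit 399) (nat_lit 372))))))) (XT.nd (nat_lit 702) (nat_lit 4636) (nat_lit 0) (XT.nd (nat_lit 312) (nat_lit 2660) (nat_lit 0) (XT.nd (nat_lit 156) (nat_lit 912) (nat_lit 0) (XT.nd (nat_lit 78) (nat_lit 0) (nat_lit 0) (XT.lf (nat_lit 988) (nat_lit 1758115020) (nat_lit 0) (nat_lit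 1389814787) (nat_lit 912) (nat_lit 1389814787) (nat_lit 470) (nat_lit 1) (nat_lit 457) (nat_lit 1) (nat_lit 469) (nat_lit 1) (nat_lit 370) (nat_lit 399) (nat_lit 371)) (XT.lf (nat_lit 76) (nat_lit 665965546) (nat_lit 0) (nat_lit 3165242921) (nat_lit 988) (nat_lit 665965546) (nat_lit 458) (nat_lit 1) (nat_lit 457) (nat_lit 1) (nat_lit 470) (nat_lit 1) (nat_lit 371) (nat_lit 399) (nat_lit 370))) (XT.nd (nat_lit 78) (nat_lit 0) (nat_lit 0) (XT.lf (nat_lit 988) (nat_lit 893279747) (nat_lit 0) (nat_lit 1781855437) (nat_lit 912) (nat_lit 1781855437) (nat_lit 458) (nat_lit 1) (nat_lit 445) (nat_lit 1) (nat_lit 457) (nat_lit 1) (nat_lit 372) (nat_lit 399) (nat_lit 369)) (XT.lf (nat_lit 76) (nat_lit 228656824) (nat_lit 0) (nat_lit 3960165496) (nat_lit 988) (nat_lit 228656824) (nat_lit 446) (nat_lit 1) (nat_lit 445) (nat_lit 1) (nat_lit 458) (nat_lit 1) (nat_lit 373) (nat_lit 399) (nat_lit 368)))) (XT.nd (nat_lit 156) (nat_lit 836) (nat_lit 0)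 (XT.nd (nat_lit 78) (nat_lit 988) (nat_lit 0) (XT.lf (nat_lit 912) (nat_lit 3842183) (nat_lit 0) (nat_lit 2187194680) (nat_lit 836) (nat_lit 2187194680) (nat_lit 446) (nat_lit 1) (nat_lit 434) (nat_lit 1) (nat_lit 445) (nat_lit 1) (nat_lit 374) (nat_lit 399) (nat_lit 367)) (XT.lf (nat_lit 988) (nat_lit 3901774779) (nat_lit 0) (nat_lit 218931685) (nat_lit 912) (nat_lit 218931685) (nat_lit 434) (nat_lit 1) (nat_lit 421) (nat_lit 1) (nat_lit 433) (nat_lit 1) (nat_lit 375) (nat_lit 399) (nat_lit 366))) (XT.nd (nat_lit 78) (nat_lit 836) (nat_lit 0) (XT.lf (nat_lit 76) (nat_lit 1702551402) (nat_lit 0) (nat_lit 896191540) (nat_lit 988) (nat_lit 1702551402) (nat_lit 422) (nat_lit 1) (nat_lit 421) (nat_lit 1) (nat_lit 434) (nat_lit 1) (nat_lit 376) (nat_lit 399) (nat_lit 365)) (XT.nd (nat_lit 78) (nat_lit 0) (nat_lit 0) (XT.lf (nat_lit 912) (nat_lit 2912273499) (nat_lit 0) (nat_lit 675656635) (nat_lit 836) (nat_lit 675656635) (nat_lit 422) (nat_lit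 1) (nat_lit 410) (nat_lit 1) (nat_lit 421) (nat_lit 1) (nat_lit 377) (nat_lit 399) (nat_lit 364)) (XT.lf (nat_lit 76) (nat_lit 1204910466) (nat_lit 0) (nat_lit 1816419458) (nat_lit 912) (nat_lit 1204910466) (nat_lit 411) (nat_lit 1) (nat_lit 410) (nat_lit 1) (nat_lit 422) (nat_lit 1) (nat_lit 378) (nat_lit 399) (nat_lit 363)))))) (XT.nd (nat_lit 390) (nat_lit 2204) (nat_lit 0) (XT.nd (nat_lit 156) (nat_lit 1596) (nat_lit 0) (XT.nd (nat_lit 78) (nat_lit 0) (nat_lit 0) (XT.lf (nat_lit 912) (nat_lit 1905270251) (nat_lit 0) (nat_lit 1142060863) (nat_lit 836) (nat_lit 1142060863) (nat_lit 411) (nat_lit 1) (nat_lit 399) (nat_lit 1) (nat_lit 410) (nat_lit 1) (nat_lit 379) (nat_lit 399) (nat_lit 362)) (XT.lf (nat_lit 76) (nat_lit 698997517) (nat_lit 0) (nat_lit 2755023642) (nat_lit 912) (nat_lit 698997517) (nat_lit 400) (nat_lit 1) (nat_lit 399) (nat_lit 1) (nat_lit 411) (nat_lit 1) (nat_lit 380) (nat_lit 399) (nat_lit 361))) (XT.nd (nat_lit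 78) (nat_lit 836) (nat_lit 0) (XT.lf (nat_lit 836) (nat_lit 882541237) (nat_lit 0) (nat_lit 1617230973) (nat_lit 760) (nat_lit 1617230973) (nat_lit 400) (nat_lit 1) (nat_lit 389) (nat_lit 1) (nat_lit 399) (nat_lit 1) (nat_lit 381) (nat_lit 399) (nat_lit 360)) (XT.nd (nat_lit 78) (nat_lit 836) (nat_lit 0) (XT.lf (nat_lit 76) (nat_lit 185674866) (nat_lit 0) (nat_lit 3710229543) (nat_lit 836) (nat_lit 185674866) (nat_lit 390) (nat_lit 1) (nat_lit 389) (nat_lit 1) (nat_lit 400) (nat_lit 1) (nat_lit 382) (nat_lit 399) (nat_lit 359)) (XT.lf (nat_lit 76) (nat_lit 1947073111) (nat_lit 0) (nat_lit 152205088) (nat_lit 836) (nat_lit 1947073111) (nat_lit 379) (nat_lit 1) (nat_lit 378) (nat_lit 1) (nat_lit 389) (nat_lit 1) (nat_lit 383) (nat_lit 399) (nat_lit 358))))) (XT.nd (nat_lit 156) (nat_lit 1444) (nat_lit 0) (XT.nd (nat_lit 78) (nat_lit 0) (nat_lit 0) (XT.lf (nat_lit 836) (nat_lit 3347618930) (nat_lit 0) (nat_lit 332040328) (nat_lit 760) (nat_lit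 332040328) (nat_lit 379) (nat_lit 1) (nat_lit 368) (nat_lit 1) (nat_lit 378) (nat_lit 1) (nat_lit 384) (nat_lit 399) (nat_lit 357)) (XT.lf (nat_lit 76) (nat_lit 1394819098) (nat_lit 0) (nat_lit 1187654413) (nat_lit 836) (nat_lit 1394819098) (nat_lit 369) (nat_lit 1) (nat_lit 368) (nat_lit 1) (nat_lit 379) (nat_lit 1) (nat_lit 385) (nat_lit 399) (nat_lit 356))) (XT.nd (nat_lit 78) (nat_lit 684) (nat_lit 0) (XT.lf (nat_lit 836) (nat_lit 2234784748) (nat_lit 0) (nat_lit 854311163) (nat_lit 760) (nat_lit 854311163) (nat_lit 369) (nat_lit 1) (nat_lit 358) (nat_lit 1) (nat_lit 368) (nat_lit 1) (nat_lit 386) (nat_lit 399) (nat_lit 355)) (XT.nd (nat_lit 78) (nat_lit 684) (nat_lit 0) (XT.lf (nat_lit 76) (nat_lit 838005439) (nat_lit 0) (nat_lit 2233884888) (nat_lit 836) (nat_lit 838005439) (nat_lit 359) (nat_lit 1) (nat_lit 358) (nat_lit 1) (nat_lit 369) (nat_lit 1) (nat_lit 387) (nat_lit 399) (nat_lit 354)) (XT.lf (nat_lit 760) (nat_lit 1113496749)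 (nat_lit 0) (nat_lit 1381628312) (nat_lit 684) (nat_lit 1381628312) (nat_lit 359) (nat_lit 1) (nat_lit 349) (nat_lit 1) (nat_lit 358) (nat_lit 1) (nat_lit 388) (nat_lit 399) (nat_lit 353))))))))
noncomputable def ec78 : XT := (XT.nd (nat_lit 1404) (nat_lit 5928) (nat_lit 0) (XT.nd (nat_lit 702) (nat_lit 2964) (nat_lit 0) (XT.nd (nat_lit 312) (nat_lit 1976) (nat_lit 0) (XT.nd (nat_lit 156) (nat_lit 684) (nat_lit 0) (XT.nd (nat_lit 78) (nat_lit 760) (nat_lit 0) (XT.lf (nat_lit 76) (nat_lit 277319078) (nat_lit 0) (nat_lit 3289478084) (nat_lit 760) (nat_lit 277319078) (nat_lit 350) (nat_lit 1) (nat_lit 349) (nat_lit 1) (nat_lit 359) (nat_lit 1) (nat_lit 389) (nat_lit 399) (nat_lit 352)) (XT.lf (nat_lit 76) (nat_lit 1898492258) (nat_lit 0) (nat_lit 14708260) (nat_lit 760) (nat_lit 1898492258) (nat_lit 340) (nat_lit 1) (nat_lit 339) (nat_lit 1) (nat_lit 349) (nat_lit 1) (nat_lit 390) (nat_lit 399) (nat_lit 351))) (XT.nd (nat_lit 78) (nat_lit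 0) (nat_lit 0) (XT.lf (nat_lit 760) (nat_lit 3210352974) (nat_lit 0) (nat_lit 284704251) (nat_lit 684) (nat_lit 284704251) (nat_lit 340) (nat_lit 1) (nat_lit 330) (nat_lit 1) (nat_lit 339) (nat_lit 1) (nat_lit 391) (nat_lit 399) (nat_lit 350)) (XT.lf (nat_lit 76) (nat_lit 1306981698) (nat_lit 0) (nat_lit 1134076012) (nat_lit 760) (nat_lit 1306981698) (nat_lit 331) (nat_lit 1) (nat_lit 330) (nat_lit 1) (nat_lit 340) (nat_lit 1) (nat_lit 392) (nat_lit 399) (nat_lit 349)))) (XT.nd (nat_lit 156) (nat_lit 1292) (nat_lit 0) (XT.nd (nat_lit 78) (nat_lit 0) (nat_lit 0) (XT.lf (nat_lit 760) (nat_lit 2021806704) (nat_lit 0) (nat_lit 847493170) (nat_lit 684) (nat_lit 847493170) (nat_lit 331) (nat_lit 1) (nat_lit 321) (nat_lit 1) (nat_lit 330) (nat_lit 1) (nat_lit 393) (nat_lit 399) (nat_lit 348)) (XT.lf (nat_lit 76) (nat_lit 713935739) (nat_lit 0) (nat_lit 2258025337) (nat_lit 760) (nat_lit 713935739) (nat_lit 322) (nat_lit 1) (nat_lit 321) (nat_lit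 1) (nat_lit 331) (nat_lit 1) (nat_lit 394) (nat_lit 399) (nat_lit 347))) (XT.nd (nat_lit 78) (nat_lit 684) (nat_lit 0) (XT.lf (nat_lit 684) (nat_lit 830726613) (nat_lit 0) (nat_lit 1412294250) (nat_lit 608) (nat_lit 1412294250) (nat_lit 322) (nat_lit 1) (nat_lit 313) (nat_lit 1) (nat_lit 321) (nat_lit 1) (nat_lit 395) (nat_lit 399) (nat_lit 346)) (XT.nd (nat_lit 78) (nat_lit 684) (nat_lit 0) (XT.lf (nat_lit 76) (nat_lit 119894484) (nat_lit 0) (nat_lit 3385436211) (nat_lit 684) (nat_lit 119894484) (nat_lit 314) (nat_lit 1) (nat_lit 313) (nat_lit 1) (nat_lit 322) (nat_lit 1) (nat_lit 396) (nat_lit 399) (nat_lit 345)) (XT.lf (nat_lit 76) (nat_lit 1619076397) (nat_lit 0) (nat_lit 357088746) (nat_lit 684) (nat_lit 1619076397) (nat_lit 305) (nat_lit 1) (nat_lit 304) (nat_lit 1) (nat_lit 313) (nat_lit 1) (nat_lit 397) (nat_lit 399) (nat_lit 344)))))) (XT.nd (nat_lit 312) (nat_lit 1748) (nat_lit 0) (XT.nd (nat_lit 156) (nat_lit 608) (nat_lit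 0) (XT.nd (nat_lit 78) (nat_lit 0) (nat_lit 0) (XT.lf (nat_lit 684) (nat_lit 2622718940) (nat_lit 0) (nat_lit 471509778) (nat_lit 608) (nat_lit 471509778) (nat_lit 305) (nat_lit 1) (nat_lit 296) (nat_lit 1) (nat_lit 304) (nat_lit 1) (nat_lit 398) (nat_lit 399) (nat_lit 343)) (XT.lf (nat_lit 76) (nat_lit 1000991707) (nat_lit 0) (nat_lit 1534489956) (nat_lit 684) (nat_lit 1000991707) (nat_lit 297) (nat_lit 1) (nat_lit 296) (nat_lit 1) (nat_lit 305) (nat_lit 1) (nat_lit 399) (nat_lit 399) (nat_lit 342))) (XT.nd (nat_lit 78) (nat_lit 0) (nat_lit 0) (XT.lf (nat_lit 684) (nat_lit 1383323846) (nat_lit 0) (nat_lit 1062130139) (nat_lit 608) (nat_lit 1062130139) (nat_lit 297) (nat_lit 1) (nat_lit 288) (nat_lit 1) (nat_lit 296) (nat_lit 1) (nat_lit 400) (nat_lit 399) (nat_lit 341)) (XT.lf (nat_lit 76) (nat_lit 383816886) (nat_lit 0) (nat_lit 2711447934) (nat_lit 684) (nat_lit 383816886) (nat_lit 289) (nat_lit 1) (nat_lit 288) (nat_lit 1) (nat_lit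 297) (nat_lit 1) (nat_lit 401) (nat_lit 399) (nat_lit 340)))) (XT.nd (nat_lit 156) (nat_lit 532) (nat_lit 0) (XT.nd (nat_lit 78) (nat_lit 684) (nat_lit 0) (XT.lf (nat_lit 608) (nat_lit 146177580) (nat_lit 0) (nat_lit 1652305402) (nat_lit 532) (nat_lit 1652305402) (nat_lit 289) (nat_lit 1) (nat_lit 281) (nat_lit 1) (nat_lit 288) (nat_lit 1) (nat_lit 402) (nat_lit 399) (nat_lit 339)) (XT.lf (nat_lit 684) (nat_lit 2961901703) (nat_lit 0) (nat_lit 230504112) (nat_lit 608) (nat_lit 230504112) (nat_lit 281) (nat_lit 1) (nat_lit 272) (nat_lit 1) (nat_lit 280) (nat_lit 1) (nat_lit 403) (nat_lit 399) (nat_lit 338))) (XT.nd (nat_lit 78) (nat_lit 532) (nat_lit 0) (XT.lf (nat_lit 76) (nat_lit 1160767691) (nat_lit 0) (nat_lit 1073639504) (nat_lit 684) (nat_lit 1160767691) (nat_lit 273) (nat_lit 1) (nat_lit 272) (nat_lit 1) (nat_lit 281) (nat_lit 1) (nat_lit 404) (nat_lit 399) (nat_lit 337)) (XT.nd (nat_lit 78) (nat_lit 0) (nat_lit 0) (XT.lf (nat_lit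 608) (nat_lit 1686661846) (nat_lit 0) (nat_lit 840591661) (nat_lit 532) (nat_lit 840591661) (nat_lit 273) (nat_lit 1) (nat_lit 265) (nat_lit 1) (nat_lit 272) (nat_lit 1) (nat_lit 405) (nat_lit 399) (nat_lit 336)) (XT.lf (nat_lit 76) (nat_lit 526533432) (nat_lit 0) (nat_lit 2287765447) (nat_lit 608) (nat_lit 526533432) (nat_lit 266) (nat_lit 1) (nat_lit 265) (nat_lit 1) (nat_lit 273) (nat_lit 1) (nat_lit 406) (nat_lit 399) (nat_lit 335))))))) (XT.nd (nat_lit 702) (nat_lit 2736) (nat_lit 0) (XT.nd (nat_lit 312) (nat_lit 1520) (nat_lit 0) (XT.nd (nat_lit 156) (nat_lit 532) (nat_lit 0) (XT.nd (nat_lit 78) (nat_lit 608) (nat_lit 0) (XT.lf (nat_lit 608) (nat_lit 416844226) (nat_lit 0) (nat_lit 1448604886) (nat_lit 532) (nat_lit 1448604886) (nat_lit 266) (nat_lit 1) (nat_lit 258) (nat_lit 1) (nat_lit 265) (nat_lit 1) (nat_lit 407) (nat_lit 399) (nat_lit 334)) (XT.lf (nat_lit 608) (nat_lit 3079407339) (nat_lit 0) (nat_lit 104142323) (nat_lit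 532) (nat_lit 104142323) (nat_lit 258) (nat_lit 1) (nat_lit 250) (nat_lit 1) (nat_lit 257) (nat_lit 1) (nat_lit 408) (nat_lit 399) (nat_lit 333))) (XT.nd (nat_lit 78) (nat_lit 532) (nat_lit 0) (XT.lf (nat_lit 76) (nat_lit 1212802041) (nat_lit 0) (nat_lit 835789857) (nat_lit 608) (nat_lit 1212802041) (nat_lit 251) (nat_lit 1) (nat_lit 250) (nat_lit 1) (nat_lit 258) (nat_lit 1) (nat_lit 409) (nat_lit 399) (nat_lit 332)) (XT.lf (nat_lit 608) (nat_lit 1779121881) (nat_lit 0) (nat_lit 728190922) (nat_lit 532) (nat_lit 728190922) (nat_lit 251) (nat_lit 1) (nat_lit 243) (nat_lit 1) (nat_lit 250) (nat_lit 1) (nat_lit 410) (nat_lit 399) (nat_lit 331)))) (XT.nd (nat_lit 156) (nat_lit 1064) (nat_lit 0) (XT.nd (nat_lit 78) (nat_lit 456) (nat_lit 0) (XT.lf (nat_lit 76) (nat_lit 566766768) (nat_lit 0) (nat_lit 2076356600) (nat_lit 608) (nat_lit 566766768) (nat_lit 244) (nat_lit 1) (nat_lit 243) (nat_lit 1) (nat_lit 251) (nat_lit 1) (nat_lit 411) (nat_lit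 399) (nat_lit 330)) (XT.lf (nat_lit 532) (nat_lit 486943545) (nat_lit 0) (nat_lit 1348783690) (nat_lit 456) (nat_lit 1348783690) (nat_lit 244) (nat_lit 1) (nat_lit 237) (nat_lit 1) (nat_lit 243) (nat_lit 1) (nat_lit 412) (nat_lit 399) (nat_lit 329))) (XT.nd (nat_lit 78) (nat_lit 456) (nat_lit 0) (XT.lf (nat_lit 608) (nat_lit 3010322091) (nat_lit 0) (nat_lit 74602444) (nat_lit 532) (nat_lit 74602444) (nat_lit 237) (nat_lit 1) (nat_lit 229) (nat_lit 1) (nat_lit 236) (nat_lit 1) (nat_lit 413) (nat_lit 399) (nat_lit 328)) (XT.nd (nat_lit 78) (nat_lit 456) (nat_lit 0) (XT.lf (nat_lit 76) (nat_lit 1174208160) (nat_lit 0) (nat_lit 786163704) (nat_lit 608) (nat_lit 1174208160) (nat_lit 230) (nat_lit 1) (nat_lit 229) (nat_lit 1) (nat_lit 237) (nat_lit 1) (nat_lit 414) (nat_lit 399) (nat_lit 327)) (XT.lf (nat_lit 532) (nat_lit 1694316964) (nat_lit 0) (nat_lit 707851922) (nat_lit 456) (nat_lit 707851922) (nat_lit 230) (nat_lit 1) (nat_lit 223) (nat_lit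 1) (nat_lit 229) (nat_lit 1) (nat_lit 415) (nat_lit 399) (nat_lit 326)))))) (XT.nd (nat_lit 390) (nat_lit 1292) (nat_lit 0) (XT.nd (nat_lit 156) (nat_lit 988) (nat_lit 0) (XT.nd (nat_lit 78) (nat_lit 456) (nat_lit 0) (XT.lf (nat_lit 76) (nat_lit 520911222) (nat_lit 0) (nat_lit 2043900692) (nat_lit 532) (nat_lit 520911222) (nat_lit 224) (nat_lit 1) (nat_lit 223) (nat_lit 1) (nat_lit 230) (nat_lit 1) (nat_lit 416) (nat_lit 399) (nat_lit 325)) (XT.lf (nat_lit 532) (nat_lit 388675218) (nat_lit 0) (nat_lit 1336481503) (nat_lit 456) (nat_lit 1336481503) (nat_lit 224) (nat_lit 1) (nat_lit 217) (nat_lit 1) (nat_lit 223) (nat_lit 1) (nat_lit 417) (nat_lit 399) (nat_lit 324))) (XT.nd (nat_lit 78) (nat_lit 456) (nat_lit 0) (XT.lf (nat_lit 532) (nat_lit 2785342269) (nat_lit 0) (nat_lit 126283290) (nat_lit 456) (nat_lit 126283290) (nat_lit 217) (nat_lit 1) (nat_lit 210) (nat_lit 1) (nat_lit 216) (nat_lit 1) (nat_lit 418) (nat_lit 399) (nat_lit 323))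 (XT.nd (nat_lit 78) (nat_lit 456) (nat_lit 0) (XT.lf (nat_lit 76) (nat_lit 1059955940) (nat_lit 0) (nat_lit 894321706) (nat_lit 532) (nat_lit 1059955940) (nat_lit 211) (nat_lit 1) (nat_lit 210) (nat_lit 1) (nat_lit 217) (nat_lit 1) (nat_lit 419) (nat_lit 399) (nat_lit 322)) (XT.lf (nat_lit 532) (nat_lit 1461645452) (nat_lit 0) (nat_lit 764630863) (nat_lit 456) (nat_lit 764630863) (nat_lit 211) (nat_lit 1) (nat_lit 204) (nat_lit 1) (nat_lit 210) (nat_lit 1) (nat_lit 420) (nat_lit 399) (nat_lit 321))))) (XT.nd (nat_lit 156) (nat_lit 912) (nat_lit 0) (XT.nd (nat_lit 78) (nat_lit 380) (nat_lit 0) (XT.lf (nat_lit 76) (nat_lit 403303218) (nat_lit 0) (nat_lit 2161241916) (nat_lit 532) (nat_lit 403303218) (nat_lit 205) (nat_lit 1) (nat_lit 204) (nat_lit 1) (nat_lit 211) (nat_lit 1) (nat_lit 421) (nat_lit 399) (nat_lit 320)) (XT.lf (nat_lit 456) (nat_lit 150192628) (nat_lit 0) (nat_lit 1397385117) (nat_lit 380) (nat_lit 1397385117) (nat_lit 205)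 (nat_lit 1) (nat_lit 199) (nat_lit 1) (nat_lit 204) (nat_lit 1) (nat_lit 422) (nat_lit 399) (nat_lit 319))) (XT.nd (nat_lit 78) (nat_lit 380) (nat_lit 0) (XT.lf (nat_lit 532) (nat_lit 2431285083) (nat_lit 0) (nat_lit 245546353) (nat_lit 456) (nat_lit 245546353) (nat_lit 199) (nat_lit 1) (nat_lit 192) (nat_lit 1) (nat_lit 198) (nat_lit 1) (nat_lit 423) (nat_lit 399) (nat_lit 318)) (XT.nd (nat_lit 78) (nat_lit 380) (nat_lit 0) (XT.lf (nat_lit 76) (nat_lit 883121287) (nat_lit 0) (nat_lit 1133658153) (nat_lit 532) (nat_lit 883121287) (nat_lit 193) (nat_lit 1) (nat_lit 192) (nat_lit 1) (nat_lit 199) (nat_lit 1) (nat_lit 424) (nat_lit 399) (nat_lit 317)) (XT.lf (nat_lit 456) (nat_lit 1106781839) (nat_lit 0) (nat_lit 885468157) (nat_lit 380) (nat_lit 885468157) (nat_lit 193) (nat_lit 1) (nat_lit 187) (nat_lit 1) (nat_lit 192) (nat_lit 1) (nat_lit 425) (nat_lit 399) (nat_lit 316))))))))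
noncomputable def ec79 : XT := (XT.nd (nat_lit 1404) (nat_lit 380) (nat_lit 0) (XT.nd (nat_lit 702) (nat_lit 2052) (nat_lit 0) (XT.nd (nat_lit 312) (nat_lit 1140) (nat_lit 0) (XT.nd (nat_lit 156) (nat_lit 380) (nat_lit 0) (XT.nd (nat_lit 78) (nat_lit 456) (nat_lit 0) (XT.lf (nat_lit 76) (nat_lit 226461012) (nat_lit 0) (nat_lit 2402904788) (nat_lit 456) (nat_lit 226461012) (nat_lit 188) (nat_lit 1) (nat_lit 187) (nat_lit 1) (nat_lit 193) (nat_lit 1) (nat_lit 426) (nat_lit 399) (nat_lit 315)) (XT.lf (nat_lit 76) (nat_lit 1316388595) (nat_lit 0) (nat_lit 201251071) (nat_lit 456) (nat_lit 1316388595) (nat_lit 182) (nat_lit 1) (nat_lit 181) (nat_lit 1) (nat_lit 187) (nat_lit 1) (nat_lit 427) (nat_lit 399) (nat_lit 314))) (XT.nd (nat_lit 78) (nat_lit 0) (nat_lit 0) (XT.lf (nat_lit 456) (nat_lit 1971541484) (nat_lit 0) (nat_lit 420486990) (nat_lit 380) (nat_lit 420486990) (nat_lit 182) (nat_lit 1) (nat_lit 176) (nat_lit 1) (nat_lit 181) (nat_lit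 1) (nat_lit 428) (nat_lit 399) (nat_lit 313)) (XT.lf (nat_lit 76) (nat_lit 655107309) (nat_lit 0) (nat_lit 1480953857) (nat_lit 456) (nat_lit 655107309) (nat_lit 177) (nat_lit 1) (nat_lit 176) (nat_lit 1) (nat_lit 182) (nat_lit 1) (nat_lit 429) (nat_lit 399) (nat_lit 312)))) (XT.nd (nat_lit 156) (nat_lit 760) (nat_lit 0) (XT.nd (nat_lit 78) (nat_lit 0) (nat_lit 0) (XT.lf (nat_lit 456) (nat_lit 652111827) (nat_lit 0) (nat_lit 1058968593) (nat_lit 380) (nat_lit 1058968593) (nat_lit 177) (nat_lit 1) (nat_lit 171) (nat_lit 1) (nat_lit 176) (nat_lit 1) (nat_lit 430) (nat_lit 399) (nat_lit 311)) (XT.lf (nat_lit 76) (nat_lit 1297195) (nat_lit 0) (nat_lit 2746664587) (nat_lit 456) (nat_lit 1297195) (nat_lit 172) (nat_lit 1) (nat_lit 171) (nat_lit 1) (nat_lit 177) (nat_lit 1) (nat_lit 431) (nat_lit 399) (nat_lit 310))) (XT.nd (nat_lit 78) (nat_lit 380) (nat_lit 0) (XT.lf (nat_lit 76) (nat_lit 1042367242) (nat_lit 0) (nat_lit 643703094) (nat_lit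 380) (nat_lit 1042367242) (nat_lit 167) (nat_lit 1) (nat_lit 166) (nat_lit 1) (nat_lit 171) (nat_lit 1) (nat_lit 432) (nat_lit 399) (nat_lit 309)) (XT.nd (nat_lit 78) (nat_lit 0) (nat_lit 0) (XT.lf (nat_lit 456) (nat_lit 1426477542) (nat_lit 0) (nat_lit 640731599) (nat_lit 380) (nat_lit 640731599) (nat_lit 167) (nat_lit 1) (nat_lit 161) (nat_lit 1) (nat_lit 166) (nat_lit 1) (nat_lit 433) (nat_lit 399) (nat_lit 308)) (XT.lf (nat_lit 76) (nat_lit 385840363) (nat_lit 0) (nat_lit 1915979841) (nat_lit 456) (nat_lit 385840363) (nat_lit 162) (nat_lit 1) (nat_lit 161) (nat_lit 1) (nat_lit 167) (nat_lit 1) (nat_lit 434) (nat_lit 399) (nat_lit 307)))))) (XT.nd (nat_lit 312) (nat_lit 988) (nat_lit 0) (XT.nd (nat_lit 156) (nat_lit 304) (nat_lit 0) (XT.nd (nat_lit 78) (nat_lit 456) (nat_lit 0) (XT.lf (nat_lit 380) (nat_lit 117117935) (nat_lit 0) (nat_lit 1275206476) (nat_lit 304) (nat_lit 1275206476) (nat_lit 162) (nat_lit 1) (nat_lit 157) (nat_lit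 1) (nat_lit 161) (nat_lit 1) (nat_lit 435) (nat_lit 399) (nat_lit 306)) (XT.lf (nat_lit 456) (nat_lit 2125714373) (nat_lit 0) (nat_lit 260964710) (nat_lit 380) (nat_lit 260964710) (nat_lit 157) (nat_lit 1) (nat_lit 151) (nat_lit 1) (nat_lit 156) (nat_lit 1) (nat_lit 436) (nat_lit 399) (nat_lit 305))) (XT.nd (nat_lit 78) (nat_lit 304) (nat_lit 0) (XT.lf (nat_lit 76) (nat_lit 733556811) (nat_lit 0) (nat_lit 1160742080) (nat_lit 456) (nat_lit 733556811) (nat_lit 152) (nat_lit 1) (nat_lit 151) (nat_lit 1) (nat_lit 157) (nat_lit 1) (nat_lit 437) (nat_lit 399) (nat_lit 304)) (XT.lf (nat_lit 380) (nat_lit 813790151) (nat_lit 0) (nat_lit 897257863) (nat_lit 304) (nat_lit 897257863) (nat_lit 152) (nat_lit 1) (nat_lit 147) (nat_lit 1) (nat_lit 151) (nat_lit 1) (nat_lit 438) (nat_lit 399) (nat_lit 303)))) (XT.nd (nat_lit 156) (nat_lit 608) (nat_lit 0) (XT.nd (nat_lit 78) (nat_lit 380) (nat_lit 0) (XT.lf (nat_lit 76) (nat_lit 83943802) (nat_lit 0)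 (nat_lit 2421146106) (nat_lit 380) (nat_lit 83943802) (nat_lit 148) (nat_lit 1) (nat_lit 147) (nat_lit 1) (nat_lit 152) (nat_lit 1) (nat_lit 439) (nat_lit 399) (nat_lit 302)) (XT.lf (nat_lit 76) (nat_lit 1047398944) (nat_lit 0) (nat_lit 474966720) (nat_lit 380) (nat_lit 1047398944) (nat_lit 143) (nat_lit 1) (nat_lit 142) (nat_lit 1) (nat_lit 147) (nat_lit 1) (nat_lit 440) (nat_lit 399) (nat_lit 301))) (XT.nd (nat_lit 78) (nat_lit 304) (nat_lit 0) (XT.lf (nat_lit 380) (nat_lit 1443572467) (nat_lit 0) (nat_lit 553598351) (nat_lit 304) (nat_lit 553598351) (nat_lit 143) (nat_lit 1) (nat_lit 138) (nat_lit 1) (nat_lit 142) (nat_lit 1) (nat_lit 441) (nat_lit 399) (nat_lit 300)) (XT.nd (nat_lit 78) (nat_lit 304) (nat_lit 0) (XT.lf (nat_lit 76) (nat_lit 397778045) (nat_lit 0) (nat_lit 1736402650) (nat_lit 380) (nat_lit 397778045) (nat_lit 139) (nat_lit 1) (nat_lit 138) (nat_lit 1) (nat_lit 143) (nat_lit 1) (nat_lit 442) (nat_lit 399) (nat_lit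 299)) (XT.lf (nat_lit 380) (nat_lit 148822215) (nat_lit 0) (nat_lit 1182235466) (nat_lit 304) (nat_lit 1182235466) (nat_lit 139) (nat_lit 1) (nat_lit 134) (nat_lit 1) (nat_lit 138) (nat_lit 1) (nat_lit 443) (nat_lit 399) (nat_lit 298))))))) (XT.nd (nat_lit 51792) (nat_lit 0) (nat_lit 28196) (XT.nd (nat_lit 51402) (nat_lit 0) (nat_lit 28044) (XT.nd (nat_lit 51246) (nat_lit 0) (nat_lit 27968) (XT.nd (nat_lit 78) (nat_lit 0) (nat_lit 0) (XT.lf (nat_lit 380) (nat_lit 2011830134) (nat_lit 0) (nat_lit 241508695) (nat_lit 304) (nat_lit 241508695) (nat_lit 134) (nat_lit 1) (nat_lit 129) (nat_lit 1) (nat_lit 133) (nat_lit 1) (nat_lit 444) (nat_lit 399) (nat_lit 297)) (XT.lf (nat_lit 76) (nat_lit 681433415) (nat_lit 0) (nat_lit 1113616561) (nat_lit 380) (nat_lit 681433415) (nat_lit 130) (nat_lit 1) (nat_lit 129) (nat_lit 1) (nat_lit 134) (nat_lit 1) (nat_lit 445) (nat_lit 399) (nat_lit 296))) (XT.nd (nat_lit 78) (nat_lit 0) (nat_lit 0) (XT.lf (nat_lit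 1900) (nat_lit 1002279368) (nat_lit 0) (nat_lit 1010660754) (nat_lit 1900) (nat_lit 1002279368) (nat_lit 522) (nat_lit 1) (nat_lit 497) (nat_lit 0) (nat_lit 522) (nat_lit 0) (nat_lit 340) (nat_lit 400) (nat_lit 400)) (XT.lf (nat_lit 1900) (nat_lit 3963163316) (nat_lit 76) (nat_lit 1004011671) (nat_lit 0) (nat_lit 1004011671) (nat_lit 522) (nat_lit 1) (nat_lit 498) (nat_lit 1) (nat_lit 497) (nat_lit 0) (nat_lit 341) (nat_lit 400) (nat_lit 399)))) (XT.nd (nat_lit 156) (nat_lit 0) (nat_lit 76) (XT.nd (nat_lit 78) (nat_lit 0) (nat_lit 0) (XT.lf (nat_lit 1900) (nat_lit 1945932053) (nat_lit 0) (nat_lit 2020717407) (nat_lit 1824) (nat_lit 1945932053) (nat_lit 523) (nat_lit 1) (nat_lit 498) (nat_lit 1) (nat_lit 522) (nat_lit 1) (nat_lit 342) (nat_lit 400) (nat_lit 398)) (XT.lf (nat_lit 1900) (nat_lit 3808668726) (nat_lit 76) (nat_lit 1023098046) (nat_lit 0) (nat_lit 1023098046) (nat_lit 523) (nat_lit 1) (nat_lit 499) (nat_lit 1) (nat_lit 498)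 (nat_lit 1) (nat_lit 343) (nat_lit 400) (nat_lit 397))) (XT.nd (nat_lit 78) (nat_lit 0) (nat_lit 0) (XT.lf (nat_lit 1900) (nat_lit 1850940828) (nat_lit 0) (nat_lit 2095903599) (nat_lit 1824) (nat_lit 1850940828) (nat_lit 524) (nat_lit 1) (nat_lit 499) (nat_lit 1) (nat_lit 523) (nat_lit 1) (nat_lit 344) (nat_lit 400) (nat_lit 396)) (XT.nd (nat_lit 78) (nat_lit 0) (nat_lit 76) (XT.lf (nat_lit 1900) (nat_lit 3583399612) (nat_lit 76) (nat_lit 1079077459) (nat_lit 0) (nat_lit 1079077459) (nat_lit 524) (nat_lit 1) (nat_lit 500) (nat_lit 1) (nat_lit 499) (nat_lit 1) (nat_lit 345) (nat_lit 400) (nat_lit 395)) (XT.lf (nat_lit 1900) (nat_lit 1721754810) (nat_lit 0) (nat_lit 2242451432) (nat_lit 1824) (nat_lit 1721754810) (nat_lit 525) (nat_lit 1) (nat_lit 500) (nat_lit 1) (nat_lit 524) (nat_lit 1) (nat_lit 346) (nat_lit 400) (nat_lit 394)))))) (XT.nd (nat_lit 390) (nat_lit 0) (nat_lit 228) (XT.nd (nat_lit 156) (nat_lit 0) (nat_lit 76) (XT.nd (nat_lit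 78) (nat_lit 0) (nat_lit 76) (XT.lf (nat_lit 1900) (nat_lit 3291609602) (nat_lit 76) (nat_lit 1169779384) (nat_lit 0) (nat_lit 1169779384) (nat_lit 525) (nat_lit 1) (nat_lit 501) (nat_lit 1) (nat_lit 500) (nat_lit 1) (nat_lit 347) (nat_lit 400) (nat_lit 393)) (XT.lf (nat_lit 1900) (nat_lit 1560444637) (nat_lit 0) (nat_lit 2456133352) (nat_lit 1824) (nat_lit 1560444637) (nat_lit 526) (nat_lit 1) (nat_lit 501) (nat_lit 1) (nat_lit 525) (nat_lit 1) (nat_lit 348) (nat_lit 400) (nat_lit 392))) (XT.nd (nat_lit 78) (nat_lit 0) (nat_lit 76) (XT.lf (nat_lit 1900) (nat_lit 2937357633) (nat_lit 76) (nat_lit 1293132046) (nat_lit 0) (nat_lit 1293132046) (nat_lit 526) (nat_lit 1) (nat_lit 502) (nat_lit 1) (nat_lit 501) (nat_lit 1) (nat_lit 349) (nat_lit 400) (nat_lit 391)) (XT.nd (nat_lit 78) (nat_lit 0) (nat_lit 0) (XT.lf (nat_lit 1900) (nat_lit 1368985975) (nat_lit 0) (nat_lit 2732914524) (nat_lit 1824) (nat_lit 1368985975) (nat_lit 527) (nat_lit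 1) (nat_lit 502) (nat_lit 1) (nat_lit 526) (nat_lit 1) (nat_lit 350) (nat_lit 400) (nat_lit 390)) (XT.lf (nat_lit 1900) (nat_lit 2524516092) (nat_lit 76) (nat_lit 1447158307) (nat_lit 0) (nat_lit 1447158307) (nat_lit 527) (nat_lit 1) (nat_lit 503) (nat_lit 1) (nat_lit 502) (nat_lit 1) (nat_lit 351) (nat_lit 400) (nat_lit 389))))) (XT.nd (nat_lit 156) (nat_lit 0) (nat_lit 76) (XT.nd (nat_lit 78) (nat_lit 0) (nat_lit 0) (XT.lf (nat_lit 1900) (nat_lit 1149263496) (nat_lit 0) (nat_lit 3068944792) (nat_lit 1824) (nat_lit 1149263496) (nat_lit 528) (nat_lit 1) (nat_lit 503) (nat_lit 1) (nat_lit 527) (nat_lit 1) (nat_lit 352) (nat_lit 400) (nat_lit 388)) (XT.lf (nat_lit 1900) (nat_lit 2056778625) (nat_lit 76) (nat_lit 1629971711) (nat_lit 0) (nat_lit 1629971711) (nat_lit 528) (nat_lit 1) (nat_lit 504) (nat_lit 1) (nat_lit 503) (nat_lit 1) (nat_lit 353) (nat_lit 400) (nat_lit 387))) (XT.nd (nat_lit 78) (nat_lit 0) (nat_lit 0) (XT.lf (nat_lit 1900)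 (nat_lit 903074685) (nat_lit 0) (nat_lit 3460550953) (nat_lit 1824) (nat_lit 903074685) (nat_lit 529) (nat_lit 1) (nat_lit 504) (nat_lit 1) (nat_lit 528) (nat_lit 1) (nat_lit 354) (nat_lit 400) (nat_lit 386)) (XT.nd (nat_lit 78) (nat_lit 0) (nat_lit 76) (XT.lf (nat_lit 1900) (nat_lit 1537667634) (nat_lit 76) (nat_lit 1839772688) (nat_lit 0) (nat_lit 1839772688) (nat_lit 529) (nat_lit 1) (nat_lit 505) (nat_lit 1) (nat_lit 504) (nat_lit 1) (nat_lit 355) (nat_lit 400) (nat_lit 385)) (XT.lf (nat_lit 1900) (nat_lit 632133507) (nat_lit 0) (nat_lit 3904229352) (nat_lit 1824) (nat_lit 632133507) (nat_lit 530) (nat_lit 1) (nat_lit 505) (nat_lit 1) (nat_lit 529) (nat_lit 1) (nat_lit 356) (nat_lit 400) (nat_lit 384))))))))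
noncomputable def ec80 : XT := (XT.nd (nat_lit 1404) (nat_lit 7600) (nat_lit 0) (XT.nd (nat_lit 702) (nat_lit 4636) (nat_lit 0) (XT.nd (nat_lit 312) (nat_lit 1748) (nat_lit 0) (XT.nd (nat_lit 156) (nat_lit 0) (nat_lit 76) (XT.nd (nat_lit 78) (nat_lit 0) (nat_lit 76) (XT.lf (nat_lit 1900) (nat_lit 970541473) (nat_lit 76) (nat_lit 2074844918) (nat_lit 0) (nat_lit 2074844918) (nat_lit 530) (nat_lit 1) (nat_lit 506) (nat_lit 1) (nat_lit 505) (nat_lit 1) (nat_lit 357) (nat_lit 400) (nat_lit 383)) (XT.lf (nat_lit 1900) (nat_lit 338073914) (nat_lit 0) (nat_lit 4396638768) (nat_lit 1824) (nat_lit 338073914) (nat_lit 531) (nat_lit 1) (nat_lit 506) (nat_lit 1) (nat_lit 530) (nat_lit 1) (nat_lit 358) (nat_lit 400) (nat_lit 382))) (XT.nd (nat_lit 78) (nat_lit 0) (nat_lit 76) (XT.lf (nat_lit 1900) (nat_lit 358601354) (nat_lit 76) (nat_lit 2333551829) (nat_lit 0) (nat_lit 2333551829) (nat_lit 531) (nat_lit 1) (nat_lit 507) (nat_lit 1) (nat_lit 506)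 (nat_lit 1) (nat_lit 359) (nat_lit 400) (nat_lit 381)) (XT.lf (nat_lit 1900) (nat_lit 22453218) (nat_lit 0) (nat_lit 4934593592) (nat_lit 1824) (nat_lit 22453218) (nat_lit 532) (nat_lit 1) (nat_lit 507) (nat_lit 1) (nat_lit 531) (nat_lit 1) (nat_lit 360) (nat_lit 400) (nat_lit 380)))) (XT.nd (nat_lit 156) (nat_lit 0) (nat_lit 76) (XT.nd (nat_lit 78) (nat_lit 0) (nat_lit 0) (XT.lf (nat_lit 1976) (nat_lit 2321147217) (nat_lit 0) (nat_lit 291231714) (nat_lit 1900) (nat_lit 2321147217) (nat_lit 508) (nat_lit 1) (nat_lit 482) (nat_lit 1) (nat_lit 507) (nat_lit 1) (nat_lit 361) (nat_lit 400) (nat_lit 379)) (XT.lf (nat_lit 1976) (nat_lit 4266036971) (nat_lit 76) (nat_lit 311183853) (nat_lit 0) (nat_lit 311183853) (nat_lit 508) (nat_lit 1) (nat_lit 483) (nat_lit 1) (nat_lit 482) (nat_lit 1) (nat_lit 362) (nat_lit 400) (nat_lit 378))) (XT.nd (nat_lit 78) (nat_lit 0) (nat_lit 0) (XT.lf (nat_lit 1976) (nat_lit 1934452601) (nat_lit 0) (nat_lit 974708778)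 (nat_lit 1900) (nat_lit 1934452601) (nat_lit 509) (nat_lit 1) (nat_lit 483) (nat_lit 1) (nat_lit 508) (nat_lit 1) (nat_lit 363) (nat_lit 400) (nat_lit 377)) (XT.nd (nat_lit 78) (nat_lit 0) (nat_lit 76) (XT.lf (nat_lit 1976) (nat_lit 3473147774) (nat_lit 76) (nat_lit 663214011) (nat_lit 0) (nat_lit 663214011) (nat_lit 509) (nat_lit 1) (nat_lit 484) (nat_lit 1) (nat_lit 483) (nat_lit 1) (nat_lit 364) (nat_lit 400) (nat_lit 376)) (XT.lf (nat_lit 76) (nat_lit 1531074658) (nat_lit 0) (nat_lit 1693800791) (nat_lit 1900) (nat_lit 1531074658) (nat_lit 485) (nat_lit 1) (nat_lit 484) (nat_lit 1) (nat_lit 509) (nat_lit 1) (nat_lit 365) (nat_lit 400) (nat_lit 375)))))) (XT.nd (nat_lit 312) (nat_lit 2736) (nat_lit 0) (XT.nd (nat_lit 156) (nat_lit 912) (nat_lit 0) (XT.nd (nat_lit 78) (nat_lit 0) (nat_lit 0) (XT.lf (nat_lit 1216) (nat_lit 2648066226) (nat_lit 0) (nat_lit 1032447549) (nat_lit 1140) (nat_lit 1032447549) (nat_lit 485) (nat_lit 1) (nat_lit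 469) (nat_lit 1) (nat_lit 484) (nat_lit 1) (nat_lit 366) (nat_lit 400) (nat_lit 374)) (XT.lf (nat_lit 76) (nat_lit 1112282775) (nat_lit 0) (nat_lit 2445906051) (nat_lit 1216) (nat_lit 1112282775) (nat_lit 470) (nat_lit 1) (nat_lit 469) (nat_lit 1) (nat_lit 485) (nat_lit 1) (nat_lit 367) (nat_lit 400) (nat_lit 373))) (XT.nd (nat_lit 78) (nat_lit 0) (nat_lit 0) (XT.lf (nat_lit 988) (nat_lit 1793277321) (nat_lit 0) (nat_lit 1417611083) (nat_lit 912) (nat_lit 1417611083) (nat_lit 470) (nat_lit 1) (nat_lit 457) (nat_lit 1) (nat_lit 469) (nat_lit 1) (nat_lit 368) (nat_lit 400) (nat_lit 372)) (XT.lf (nat_lit 76) (nat_lit 679284857) (nat_lit 0) (nat_lit 3228547780) (nat_lit 988) (nat_lit 679284857) (nat_lit 458) (nat_lit 1) (nat_lit 457) (nat_lit 1) (nat_lit 470) (nat_lit 1) (nat_lit 369) (nat_lit 400) (nat_lit 371)))) (XT.nd (nat_lit 156) (nat_lit 1824) (nat_lit 0) (XT.nd (nat_lit 78) (nat_lit 0) (nat_lit 0) (XT.lf (nat_lit 988) (nat_lit 911145342)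 (nat_lit 0) (nat_lit 1817492546) (nat_lit 912) (nat_lit 1817492546) (nat_lit 458) (nat_lit 1) (nat_lit 445) (nat_lit 1) (nat_lit 457) (nat_lit 1) (nat_lit 370) (nat_lit 400) (nat_lit 370)) (XT.lf (nat_lit 76) (nat_lit 233229960) (nat_lit 0) (nat_lit 4039368806) (nat_lit 988) (nat_lit 233229960) (nat_lit 446) (nat_lit 1) (nat_lit 445) (nat_lit 1) (nat_lit 458) (nat_lit 1) (nat_lit 371) (nat_lit 400) (nat_lit 369))) (XT.nd (nat_lit 78) (nat_lit 988) (nat_lit 0) (XT.lf (nat_lit 912) (nat_lit 3919027) (nat_lit 0) (nat_lit 2230938573) (nat_lit 836) (nat_lit 2230938573) (nat_lit 446) (nat_lit 1) (nat_lit 434) (nat_lit 1) (nat_lit 445) (nat_lit 1) (nat_lit 372) (nat_lit 400) (nat_lit 368)) (XT.nd (nat_lit 78) (nat_lit 0) (nat_lit 0) (XT.lf (nat_lit 988) (nat_lit 3979810275) (nat_lit 0) (nat_lit 223310319) (nat_lit 912) (nat_lit 223310319) (nat_lit 434) (nat_lit 1) (nat_lit 421) (nat_lit 1) (nat_lit 433) (nat_lit 1) (nat_lit 373) (nat_lit 400)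 (nat_lit 367)) (XT.lf (nat_lit 76) (nat_lit 1736602430) (nat_lit 0) (nat_lit 914115371) (nat_lit 988) (nat_lit 1736602430) (nat_lit 422) (nat_lit 1) (nat_lit 421) (nat_lit 1) (nat_lit 434) (nat_lit 1) (nat_lit 374) (nat_lit 400) (nat_lit 366))))))) (XT.nd (nat_lit 702) (nat_lit 3572) (nat_lit 0) (XT.nd (nat_lit 312) (nat_lit 2356) (nat_lit 0) (XT.nd (nat_lit 156) (nat_lit 836) (nat_lit 0) (XT.nd (nat_lit 78) (nat_lit 0) (nat_lit 0) (XT.lf (nat_lit 912) (nat_lit 2970518969) (nat_lit 0) (nat_lit 689169768) (nat_lit 836) (nat_lit 689169768) (nat_lit 422) (nat_lit 1) (nat_lit 410) (nat_lit 1) (nat_lit 421) (nat_lit 1) (nat_lit 375) (nat_lit 400) (nat_lit 365)) (XT.lf (nat_lit 76) (nat_lit 1229008676) (nat_lit 0) (nat_lit 1852747847) (nat_lit 912) (nat_lit 1229008676) (nat_lit 411) (nat_lit 1) (nat_lit 410) (nat_lit 1) (nat_lit 422) (nat_lit 1) (nat_lit 376) (nat_lit 400) (nat_lit 364))) (XT.nd (nat_lit 78) (nat_lit 0) (nat_lit 0) (XT.lf (nat_lit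 912) (nat_lit 1943375656) (nat_lit 0) (nat_lit 1164902081) (nat_lit 836) (nat_lit 1164902081) (nat_lit 411) (nat_lit 1) (nat_lit 399) (nat_lit 1) (nat_lit 410) (nat_lit 1) (nat_lit 377) (nat_lit 400) (nat_lit 363)) (XT.lf (nat_lit 76) (nat_lit 712977468) (nat_lit 0) (nat_lit 2810124115) (nat_lit 912) (nat_lit 712977468) (nat_lit 400) (nat_lit 1) (nat_lit 399) (nat_lit 1) (nat_lit 411) (nat_lit 1) (nat_lit 378) (nat_lit 400) (nat_lit 362)))) (XT.nd (nat_lit 156) (nat_lit 1596) (nat_lit 0) (XT.nd (nat_lit 78) (nat_lit 0) (nat_lit 0) (XT.lf (nat_lit 836) (nat_lit 900192062) (nat_lit 0) (nat_lit 1649575592) (nat_lit 760) (nat_lit 1649575592) (nat_lit 400) (nat_lit 1) (nat_lit 389) (nat_lit 1) (nat_lit 399) (nat_lit 1) (nat_lit 379) (nat_lit 400) (nat_lit 361)) (XT.lf (nat_lit 76) (nat_lit 189388363) (nat_lit 0) (nat_lit 3784434134) (nat_lit 836) (nat_lit 189388363) (nat_lit 390) (nat_lit 1) (nat_lit 389) (nat_lit 1) (nat_lit 400) (nat_lit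 1) (nat_lit 380) (nat_lit 400) (nat_lit 360))) (XT.nd (nat_lit 78) (nat_lit 760) (nat_lit 0) (XT.lf (nat_lit 76) (nat_lit 1986014573) (nat_lit 0) (nat_lit 155249190) (nat_lit 836) (nat_lit 1986014573) (nat_lit 379) (nat_lit 1) (nat_lit 378) (nat_lit 1) (nat_lit 389) (nat_lit 1) (nat_lit 381) (nat_lit 400) (nat_lit 359)) (XT.nd (nat_lit 78) (nat_lit 0) (nat_lit 0) (XT.lf (nat_lit 836) (nat_lit 3414571308) (nat_lit 0) (nat_lit 338681135) (nat_lit 760) (nat_lit 338681135) (nat_lit 379) (nat_lit 1) (nat_lit 368) (nat_lit 1) (nat_lit 378) (nat_lit 1) (nat_lit 382) (nat_lit 400) (nat_lit 358)) (XT.lf (nat_lit 76) (nat_lit 1422715480) (nat_lit 0) (nat_lit 1211407501) (nat_lit 836) (nat_lit 1422715480) (nat_lit 369) (nat_lit 1) (nat_lit 368) (nat_lit 1) (nat_lit 379) (nat_lit 1) (nat_lit 383) (nat_lit 400) (nat_lit 357)))))) (XT.nd (nat_lit 312) (nat_lit 2128) (nat_lit 0) (XT.nd (nat_lit 156) (nat_lit 684) (nat_lit 0) (XT.nd (nat_lit 78) (nat_lit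 0) (nat_lit 0) (XT.lf (nat_lit 836) (nat_lit 2279480443) (nat_lit 0) (nat_lit 871397386) (nat_lit 760) (nat_lit 871397386) (nat_lit 369) (nat_lit 1) (nat_lit 358) (nat_lit 1) (nat_lit 368) (nat_lit 1) (nat_lit 384) (nat_lit 400) (nat_lit 356)) (XT.lf (nat_lit 76) (nat_lit 854765548) (nat_lit 0) (nat_lit 2278562585) (nat_lit 836) (nat_lit 854765548) (nat_lit 359) (nat_lit 1) (nat_lit 358) (nat_lit 1) (nat_lit 369) (nat_lit 1) (nat_lit 385) (nat_lit 400) (nat_lit 355))) (XT.nd (nat_lit 78) (nat_lit 0) (nat_lit 0) (XT.lf (nat_lit 760) (nat_lit 1135766684) (nat_lit 0) (nat_lit 1409260879) (nat_lit 684) (nat_lit 1409260879) (nat_lit 359) (nat_lit 1) (nat_lit 349) (nat_lit 1) (nat_lit 358) (nat_lit 1) (nat_lit 386) (nat_lit 400) (nat_lit 354)) (XT.lf (nat_lit 76) (nat_lit 282865460) (nat_lit 0) (nat_lit 3355267646) (nat_lit 760) (nat_lit 282865460) (nat_lit 350) (nat_lit 1) (nat_lit 349) (nat_lit 1) (nat_lit 359) (nat_lit 1) (nat_lit 387) (nat_lit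 400) (nat_lit 353)))) (XT.nd (nat_lit 156) (nat_lit 684) (nat_lit 0) (XT.nd (nat_lit 78) (nat_lit 684) (nat_lit 0) (XT.lf (nat_lit 76) (nat_lit 1936462103) (nat_lit 0) (nat_lit 15002426) (nat_lit 760) (nat_lit 1936462103) (nat_lit 340) (nat_lit 1) (nat_lit 339) (nat_lit 1) (nat_lit 349) (nat_lit 1) (nat_lit 388) (nat_lit 400) (nat_lit 352)) (XT.lf (nat_lit 760) (nat_lit 3274560034) (nat_lit 0) (nat_lit 290398336) (nat_lit 684) (nat_lit 290398336) (nat_lit 340) (nat_lit 1) (nat_lit 330) (nat_lit 1) (nat_lit 339) (nat_lit 1) (nat_lit 389) (nat_lit 400) (nat_lit 351))) (XT.nd (nat_lit 78) (nat_lit 684) (nat_lit 0) (XT.lf (nat_lit 76) (nat_lit 1333121332) (nat_lit 0) (nat_lit 1156757532) (nat_lit 760) (nat_lit 1333121332) (nat_lit 331) (nat_lit 1) (nat_lit 330) (nat_lit 1) (nat_lit 340) (nat_lit 1) (nat_lit 390) (nat_lit 400) (nat_lit 350)) (XT.nd (nat_lit 78) (nat_lit 0) (nat_lit 0) (XT.lf (nat_lit 760) (nat_lit 2062242838) (nat_lit 0) (nat_lit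 864443033) (nat_lit 684) (nat_lit 864443033) (nat_lit 331) (nat_lit 1) (nat_lit 321) (nat_lit 1) (nat_lit 330) (nat_lit 1) (nat_lit 391) (nat_lit 400) (nat_lit 349)) (XT.lf (nat_lit 76) (nat_lit 728214454) (nat_lit 0) (nat_lit 2303185844) (nat_lit 760) (nat_lit 728214454) (nat_lit 322) (nat_lit 1) (nat_lit 321) (nat_lit 1) (nat_lit 331) (nat_lit 1) (nat_lit 392) (nat_lit 400) (nat_lit 348))))))))
noncomputable def ec81 : XT := (XT.nd (nat_lit 1404) (nat_lit 5016) (nat_lit 0) (XT.nd (nat_lit 702) (nat_lit 2660) (nat_lit 0) (XT.nd (nat_lit 312) (nat_lit 1824) (nat_lit 0) (XT.nd (nat_lit 156) (nat_lit 1292) (nat_lit 0) (XT.nd (nat_lit 78) (nat_lit 0) (nat_lit 0) (XT.lf (nat_lit 684) (nat_lit 847341145) (nat_lit 0) (nat_lit 1440540135) (nat_lit 608) (nat_lit 1440540135) (nat_lit 322) (nat_lit 1) (nat_lit 313) (nat_lit 1) (nat_lit 321) (nat_lit 1) (nat_lit 393) (nat_lit 400) (nat_lit 347)) (XT.lf (nat_lit 76) (nat_lit 122292374) (nat_lit 0)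 (nat_lit 3453144935) (nat_lit 684) (nat_lit 122292374) (nat_lit 314) (nat_lit 1) (nat_lit 313) (nat_lit 1) (nat_lit 322) (nat_lit 1) (nat_lit 394) (nat_lit 400) (nat_lit 346))) (XT.nd (nat_lit 78) (nat_lit 608) (nat_lit 0) (XT.lf (nat_lit 76) (nat_lit 1651457925) (nat_lit 0) (nat_lit 364230521) (nat_lit 684) (nat_lit 1651457925) (nat_lit 305) (nat_lit 1) (nat_lit 304) (nat_lit 1) (nat_lit 313) (nat_lit 1) (nat_lit 395) (nat_lit 400) (nat_lit 345)) (XT.lf (nat_lit 684) (nat_lit 2675173318) (nat_lit 0) (nat_lit 480939973) (nat_lit 608) (nat_lit 480939973) (nat_lit 305) (nat_lit 1) (nat_lit 296) (nat_lit 1) (nat_lit 304) (nat_lit 1) (nat_lit 396) (nat_lit 400) (nat_lit 344)))) (XT.nd (nat_lit 156) (nat_lit 1216) (nat_lit 0) (XT.nd (nat_lit 78) (nat_lit 608) (nat_lit 0) (XT.lf (nat_lit 76) (nat_lit 1021011541) (nat_lit 0) (nat_lit 1565179755) (nat_lit 684) (nat_lit 1021011541) (nat_lit 297) (nat_lit 1) (nat_lit 296) (nat_lit 1) (nat_lit 305)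 (nat_lit 1) (nat_lit 397) (nat_lit 400) (nat_lit 343)) (XT.lf (nat_lit 684) (nat_lit 1410990323) (nat_lit 0) (nat_lit 1083372742) (nat_lit 608) (nat_lit 1083372742) (nat_lit 297) (nat_lit 1) (nat_lit 288) (nat_lit 1) (nat_lit 296) (nat_lit 1) (nat_lit 398) (nat_lit 400) (nat_lit 342))) (XT.nd (nat_lit 78) (nat_lit 1216) (nat_lit 0) (XT.lf (nat_lit 76) (nat_lit 391493224) (nat_lit 0) (nat_lit 2765676893) (nat_lit 684) (nat_lit 391493224) (nat_lit 289) (nat_lit 1) (nat_lit 288) (nat_lit 1) (nat_lit 297) (nat_lit 1) (nat_lit 399) (nat_lit 400) (nat_lit 341)) (XT.nd (nat_lit 78) (nat_lit 684) (nat_lit 0) (XT.lf (nat_lit 608) (nat_lit 149101131) (nat_lit 0) (nat_lit 1685351510) (nat_lit 532) (nat_lit 1685351510) (nat_lit 289) (nat_lit 1) (nat_lit 281) (nat_lit 1) (nat_lit 288) (nat_lit 1) (nat_lit 400) (nat_lit 400) (nat_lit 340)) (XT.lf (nat_lit 684) (nat_lit 3021139737) (nat_lit 0) (nat_lit 235114195) (nat_lit 608) (nat_lit 235114195) (nat_lit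 281) (nat_lit 1) (nat_lit 272) (nat_lit 1) (nat_lit 280) (nat_lit 1) (nat_lit 401) (nat_lit 400) (nat_lit 339)))))) (XT.nd (nat_lit 312) (nat_lit 1596) (nat_lit 0) (XT.nd (nat_lit 156) (nat_lit 532) (nat_lit 0) (XT.nd (nat_lit 78) (nat_lit 532) (nat_lit 0) (XT.lf (nat_lit 76) (nat_lit 1183983045) (nat_lit 0) (nat_lit 1095112294) (nat_lit 684) (nat_lit 1183983045) (nat_lit 273) (nat_lit 1) (nat_lit 272) (nat_lit 1) (nat_lit 281) (nat_lit 1) (nat_lit 402) (nat_lit 400) (nat_lit 338)) (XT.lf (nat_lit 608) (nat_lit 1720395083) (nat_lit 0) (nat_lit 857403495) (nat_lit 532) (nat_lit 857403495) (nat_lit 273) (nat_lit 1) (nat_lit 265) (nat_lit 1) (nat_lit 272) (nat_lit 1) (nat_lit 403) (nat_lit 400) (nat_lit 337))) (XT.nd (nat_lit 78) (nat_lit 532) (nat_lit 0) (XT.lf (nat_lit 76) (nat_lit 537064101) (nat_lit 0) (nat_lit 2333520756) (nat_lit 608) (nat_lit 537064101) (nat_lit 266) (nat_lit 1) (nat_lit 265) (nat_lit 1) (nat_lit 273) (nat_lit 1)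 (nat_lit 404) (nat_lit 400) (nat_lit 336)) (XT.lf (nat_lit 608) (nat_lit 425181110) (nat_lit 0) (nat_lit 1477576983) (nat_lit 532) (nat_lit 1477576983) (nat_lit 266) (nat_lit 1) (nat_lit 258) (nat_lit 1) (nat_lit 265) (nat_lit 1) (nat_lit 405) (nat_lit 400) (nat_lit 335)))) (XT.nd (nat_lit 156) (nat_lit 988) (nat_lit 0) (XT.nd (nat_lit 78) (nat_lit 0) (nat_lit 0) (XT.lf (nat_lit 608) (nat_lit 3140995486) (nat_lit 0) (nat_lit 106225170) (nat_lit 532) (nat_lit 106225170) (nat_lit 258) (nat_lit 1) (nat_lit 250) (nat_lit 1) (nat_lit 257) (nat_lit 1) (nat_lit 406) (nat_lit 400) (nat_lit 334)) (XT.lf (nat_lit 76) (nat_lit 1237058082) (nat_lit 0) (nat_lit 852505654) (nat_lit 608) (nat_lit 1237058082) (nat_lit 251) (nat_lit 1) (nat_lit 250) (nat_lit 1) (nat_lit 258) (nat_lit 1) (nat_lit 407) (nat_lit 400) (nat_lit 333))) (XT.nd (nat_lit 78) (nat_lit 456) (nat_lit 0) (XT.lf (nat_lit 608) (nat_lit 1814704318) (nat_lit 0) (nat_lit 742754740) (nat_lit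 532) (nat_lit 742754740) (nat_lit 251) (nat_lit 1) (nat_lit 243) (nat_lit 1) (nat_lit 250) (nat_lit 1) (nat_lit 408) (nat_lit 400) (nat_lit 332)) (XT.nd (nat_lit 78) (nat_lit 456) (nat_lit 0) (XT.lf (nat_lit 76) (nat_lit 578102103) (nat_lit 0) (nat_lit 2117883732) (nat_lit 608) (nat_lit 578102103) (nat_lit 244) (nat_lit 1) (nat_lit 243) (nat_lit 1) (nat_lit 251) (nat_lit 1) (nat_lit 409) (nat_lit 400) (nat_lit 331)) (XT.lf (nat_lit 532) (nat_lit 496682416) (nat_lit 0) (nat_lit 1375759364) (nat_lit 456) (nat_lit 1375759364) (nat_lit 244) (nat_lit 1) (nat_lit 237) (nat_lit 1) (nat_lit 243) (nat_lit 1) (nat_lit 410) (nat_lit 400) (nat_lit 330))))))) (XT.nd (nat_lit 702) (nat_lit 2508) (nat_lit 0) (XT.nd (nat_lit 312) (nat_lit 1444) (nat_lit 0) (XT.nd (nat_lit 156) (nat_lit 456) (nat_lit 0) (XT.nd (nat_lit 78) (nat_lit 0) (nat_lit 0) (XT.lf (nat_lit 608) (nat_lit 3070528533) (nat_lit 0) (nat_lit 76094493) (nat_lit 532) (nat_lit 76094493)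 (nat_lit 237) (nat_lit 1) (nat_lit 229) (nat_lit 1) (nat_lit 236) (nat_lit 1) (nat_lit 411) (nat_lit 400) (nat_lit 329)) (XT.lf (nat_lit 76) (nat_lit 1197692323) (nat_lit 0) (nat_lit 801886978) (nat_lit 608) (nat_lit 1197692323) (nat_lit 230) (nat_lit 1) (nat_lit 229) (nat_lit 1) (nat_lit 237) (nat_lit 1) (nat_lit 412) (nat_lit 400) (nat_lit 328))) (XT.nd (nat_lit 78) (nat_lit 0) (nat_lit 0) (XT.lf (nat_lit 532) (nat_lit 1728203304) (nat_lit 0) (nat_lit 722008961) (nat_lit 456) (nat_lit 722008961) (nat_lit 230) (nat_lit 1) (nat_lit 223) (nat_lit 1) (nat_lit 229) (nat_lit 1) (nat_lit 413) (nat_lit 400) (nat_lit 327)) (XT.lf (nat_lit 76) (nat_lit 531329446) (nat_lit 0) (nat_lit 2084778706) (nat_lit 532) (nat_lit 531329446) (nat_lit 224) (nat_lit 1) (nat_lit 223) (nat_lit 1) (nat_lit 230) (nat_lit 1) (nat_lit 414) (nat_lit 400) (nat_lit 326)))) (XT.nd (nat_lit 156) (nat_lit 456) (nat_lit 0) (XT.nd (nat_lit 78) (nat_lit 532) (nat_lit 0) (XT.lf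 (nat_lit 532) (nat_lit 396448723) (nat_lit 0) (nat_lit 1363211133) (nat_lit 456) (nat_lit 1363211133) (nat_lit 224) (nat_lit 1) (nat_lit 217) (nat_lit 1) (nat_lit 223) (nat_lit 1) (nat_lit 415) (nat_lit 400) (nat_lit 325)) (XT.lf (nat_lit 532) (nat_lit 2841049115) (nat_lit 0) (nat_lit 128808955) (nat_lit 456) (nat_lit 128808955) (nat_lit 217) (nat_lit 1) (nat_lit 210) (nat_lit 1) (nat_lit 216) (nat_lit 1) (nat_lit 416) (nat_lit 400) (nat_lit 324))) (XT.nd (nat_lit 78) (nat_lit 456) (nat_lit 0) (XT.lf (nat_lit 76) (nat_lit 1081155059) (nat_lit 0) (nat_lit 912208140) (nat_lit 532) (nat_lit 1081155059) (nat_lit 211) (nat_lit 1) (nat_lit 210) (nat_lit 1) (nat_lit 217) (nat_lit 1) (nat_lit 417) (nat_lit 400) (nat_lit 323)) (XT.nd (nat_lit 78) (nat_lit 0) (nat_lit 0) (XT.lf (nat_lit 532) (nat_lit 1490878361) (nat_lit 0) (nat_lit 779923481) (nat_lit 456) (nat_lit 779923481) (nat_lit 211) (nat_lit 1) (nat_lit 204) (nat_lit 1) (nat_lit 210) (nat_lit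 1) (nat_lit 418) (nat_lit 400) (nat_lit 322)) (XT.lf (nat_lit 76) (nat_lit 411369283) (nat_lit 0) (nat_lit 2204466754) (nat_lit 532) (nat_lit 411369283) (nat_lit 205) (nat_lit 1) (nat_lit 204) (nat_lit 1) (nat_lit 211) (nat_lit 1) (nat_lit 419) (nat_lit 400) (nat_lit 321)))))) (XT.nd (nat_lit 390) (nat_lit 1216) (nat_lit 0) (XT.nd (nat_lit 156) (nat_lit 380) (nat_lit 0) (XT.nd (nat_lit 78) (nat_lit 532) (nat_lit 0) (XT.lf (nat_lit 456) (nat_lit 153196480) (nat_lit 0) (nat_lit 1425332820) (nat_lit 380) (nat_lit 1425332820) (nat_lit 205) (nat_lit 1) (nat_lit 199) (nat_lit 1) (nat_lit 204) (nat_lit 1) (nat_lit 420) (nat_lit 400) (nat_lit 320)) (XT.lf (nat_lit 532) (nat_lit 2479910785) (nat_lit 0) (nat_lit 250457280) (nat_lit 456) (nat_lit 250457280) (nat_lit 199) (nat_lit 1) (nat_lit 192) (nat_lit 1) (nat_lit 198) (nat_lit 1) (nat_lit 421) (nat_lit 400) (nat_lit 319))) (XT.nd (nat_lit 78) (nat_lit 380) (nat_lit 0) (XT.lf (nat_lit 76) (nat_lit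 900783713) (nat_lit 0) (nat_lit 1156331316) (nat_lit 532) (nat_lit 900783713) (nat_lit 193) (nat_lit 1) (nat_lit 192) (nat_lit 1) (nat_lit 199) (nat_lit 1) (nat_lit 422) (nat_lit 400) (nat_lit 318)) (XT.nd (nat_lit 78) (nat_lit 0) (nat_lit 0) (XT.lf (nat_lit 456) (nat_lit 1128917476) (nat_lit 0) (nat_lit 903177520) (nat_lit 380) (nat_lit 903177520) (nat_lit 193) (nat_lit 1) (nat_lit 187) (nat_lit 1) (nat_lit 192) (nat_lit 1) (nat_lit 423) (nat_lit 400) (nat_lit 317)) (XT.lf (nat_lit 76) (nat_lit 230990232) (nat_lit 0) (nat_lit 2450962884) (nat_lit 456) (nat_lit 230990232) (nat_lit 188) (nat_lit 1) (nat_lit 187) (nat_lit 1) (nat_lit 193) (nat_lit 1) (nat_lit 424) (nat_lit 400) (nat_lit 316))))) (XT.nd (nat_lit 156) (nat_lit 380) (nat_lit 0) (XT.nd (nat_lit 78) (nat_lit 380) (nat_lit 0) (XT.lf (nat_lit 76) (nat_lit 1342716367) (nat_lit 0) (nat_lit 205276092) (nat_lit 456) (nat_lit 1342716367) (nat_lit 182) (nat_lit 1) (nat_lit 181) (nat_lit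 1) (nat_lit 187) (nat_lit 1) (nat_lit 425) (nat_lit 400) (nat_lit 315)) (XT.lf (nat_lit 456) (nat_lit 2010972314) (nat_lit 0) (nat_lit 428896730) (nat_lit 380) (nat_lit 428896730) (nat_lit 182) (nat_lit 1) (nat_lit 176) (nat_lit 1) (nat_lit 181) (nat_lit 1) (nat_lit 426) (nat_lit 400) (nat_lit 314))) (XT.nd (nat_lit 78) (nat_lit 380) (nat_lit 0) (XT.lf (nat_lit 76) (nat_lit 668209455) (nat_lit 0) (nat_lit 1510572934) (nat_lit 456) (nat_lit 668209455) (nat_lit 177) (nat_lit 1) (nat_lit 176) (nat_lit 1) (nat_lit 182) (nat_lit 1) (nat_lit 427) (nat_lit 400) (nat_lit 313)) (XT.nd (nat_lit 78) (nat_lit 0) (nat_lit 0) (XT.lf (nat_lit 456) (nat_lit 665154064) (nat_lit 0) (nat_lit 1080147964) (nat_lit 380) (nat_lit 1080147964) (nat_lit 177) (nat_lit 1) (nat_lit 171) (nat_lit 1) (nat_lit 176) (nat_lit 1) (nat_lit 428) (nat_lit 400) (nat_lit 312)) (XT.lf (nat_lit 76) (nat_lit 1323139) (nat_lit 0) (nat_lit 2801597879) (nat_lit 456) (nat_lit 1323139)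 (nat_lit 172) (nat_lit 1) (nat_lit 171) (nat_lit 1) (nat_lit 177) (nat_lit 1) (nat_lit 429) (nat_lit 400) (nat_lit 311))))))))
noncomputable def ec82 : XT := (XT.nd (nat_lit 52416) (nat_lit 0) (nat_lit 28348) (XT.nd (nat_lit 702) (nat_lit 1292) (nat_lit 0) (XT.nd (nat_lit 312) (nat_lit 1140) (nat_lit 0) (XT.nd (nat_lit 156) (nat_lit 304) (nat_lit 0) (XT.nd (nat_lit 78) (nat_lit 380) (nat_lit 0) (XT.lf (nat_lit 76) (nat_lit 1063214587) (nat_lit 0) (nat_lit 656577156) (nat_lit 380) (nat_lit 1063214587) (nat_lit 167) (nat_lit 1) (nat_lit 166) (nat_lit 1) (nat_lit 171) (nat_lit 1) (nat_lit 430) (nat_lit 400) (nat_lit 310)) (XT.lf (nat_lit 456) (nat_lit 1455007093) (nat_lit 0) (nat_lit 653546231) (nat_lit 380) (nat_lit 653546231) (nat_lit 167) (nat_lit 1) (nat_lit 161) (nat_lit 1) (nat_lit 166) (nat_lit 1) (nat_lit 431) (nat_lit 400) (nat_lit 309))) (XT.nd (nat_lit 78) (nat_lit 304) (nat_lit 0) (XT.lf (nat_lit 76) (nat_lit 393557171) (nat_lit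 0) (nat_lit 1954299438) (nat_lit 456) (nat_lit 393557171) (nat_lit 162) (nat_lit 1) (nat_lit 161) (nat_lit 1) (nat_lit 167) (nat_lit 1) (nat_lit 432) (nat_lit 400) (nat_lit 308)) (XT.lf (nat_lit 380) (nat_lit 119460294) (nat_lit 0) (nat_lit 1300710605) (nat_lit 304) (nat_lit 1300710605) (nat_lit 162) (nat_lit 1) (nat_lit 157) (nat_lit 1) (nat_lit 161) (nat_lit 1) (nat_lit 433) (nat_lit 400) (nat_lit 307)))) (XT.nd (nat_lit 156) (nat_lit 684) (nat_lit 0) (XT.nd (nat_lit 78) (nat_lit 0) (nat_lit 0) (XT.lf (nat_lit 456) (nat_lit 2168228660) (nat_lit 0) (nat_lit 266184004) (nat_lit 380) (nat_lit 266184004) (nat_lit 157) (nat_lit 1) (nat_lit 151) (nat_lit 1) (nat_lit 156) (nat_lit 1) (nat_lit 434) (nat_lit 400) (nat_lit 306)) (XT.lf (nat_lit 76) (nat_lit 748227947) (nat_lit 0) (nat_lit 1183956922) (nat_lit 456) (nat_lit 748227947) (nat_lit 152) (nat_lit 1) (nat_lit 151) (nat_lit 1) (nat_lit 157) (nat_lit 1) (nat_lit 435) (nat_lit 400) (nat_lit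 305))) (XT.nd (nat_lit 78) (nat_lit 380) (nat_lit 0) (XT.lf (nat_lit 380) (nat_lit 830065954) (nat_lit 0) (nat_lit 915203021) (nat_lit 304) (nat_lit 915203021) (nat_lit 152) (nat_lit 1) (nat_lit 147) (nat_lit 1) (nat_lit 151) (nat_lit 1) (nat_lit 436) (nat_lit 400) (nat_lit 304)) (XT.nd (nat_lit 78) (nat_lit 380) (nat_lit 0) (XT.lf (nat_lit 76) (nat_lit 85622678) (nat_lit 0) (nat_lit 2469569028) (nat_lit 380) (nat_lit 85622678) (nat_lit 148) (nat_lit 1) (nat_lit 147) (nat_lit 1) (nat_lit 152) (nat_lit 1) (nat_lit 437) (nat_lit 400) (nat_lit 303)) (XT.lf (nat_lit 76) (nat_lit 1068346923) (nat_lit 0) (nat_lit 484466054) (nat_lit 380) (nat_lit 1068346923) (nat_lit 143) (nat_lit 1) (nat_lit 142) (nat_lit 1) (nat_lit 147) (nat_lit 1) (nat_lit 438) (nat_lit 400) (nat_lit 302)))))) (XT.nd (nat_lit 312) (nat_lit 304) (nat_lit 0) (XT.nd (nat_lit 156) (nat_lit 684) (nat_lit 0) (XT.nd (nat_lit 78) (nat_lit 0) (nat_lit 0) (XT.lf (nat_lit 380) (nat_lit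 1472443917) (nat_lit 0) (nat_lit 564670318) (nat_lit 304) (nat_lit 564670318) (nat_lit 143) (nat_lit 1) (nat_lit 138) (nat_lit 1) (nat_lit 142) (nat_lit 1) (nat_lit 439) (nat_lit 400) (nat_lit 301)) (XT.lf (nat_lit 76) (nat_lit 405733606) (nat_lit 0) (nat_lit 1771130703) (nat_lit 380) (nat_lit 405733606) (nat_lit 139) (nat_lit 1) (nat_lit 138) (nat_lit 1) (nat_lit 143) (nat_lit 1) (nat_lit 440) (nat_lit 400) (nat_lit 300))) (XT.nd (nat_lit 78) (nat_lit 380) (nat_lit 0) (XT.lf (nat_lit 380) (nat_lit 151798659) (nat_lit 0) (nat_lit 1205880175) (nat_lit 304) (nat_lit 1205880175) (nat_lit 139) (nat_lit 1) (nat_lit 134) (nat_lit 1) (nat_lit 138) (nat_lit 1) (nat_lit 441) (nat_lit 400) (nat_lit 299)) (XT.lf (nat_lit 380) (nat_lit 2052066737) (nat_lit 0) (nat_lit 246338869) (nat_lit 304) (nat_lit 246338869) (nat_lit 134) (nat_lit 1) (nat_lit 129) (nat_lit 1) (nat_lit 133) (nat_lit 1) (nat_lit 442) (nat_lit 400) (nat_lit 298)))) (XT.nd (nat_lit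 51168) (nat_lit 0) (nat_lit 28272) (XT.nd (nat_lit 78) (nat_lit 304) (nat_lit 0) (XT.lf (nat_lit 76) (nat_lit 695062083) (nat_lit 0) (nat_lit 1135888892) (nat_lit 380) (nat_lit 695062083) (nat_lit 130) (nat_lit 1) (nat_lit 129) (nat_lit 1) (nat_lit 134) (nat_lit 1) (nat_lit 443) (nat_lit 400) (nat_lit 297)) (XT.lf (nat_lit 380) (nat_lit 733687910) (nat_lit 0) (nat_lit 886907244) (nat_lit 304) (nat_lit 886907244) (nat_lit 130) (nat_lit 1) (nat_lit 125) (nat_lit 1) (nat_lit 129) (nat_lit 1) (nat_lit 444) (nat_lit 400) (nat_lit 296))) (XT.nd (nat_lit 78) (nat_lit 0) (nat_lit 0) (XT.lf (nat_lit 1900) (nat_lit 1022324955) (nat_lit 0) (nat_lit 1030873970) (nat_lit 1900) (nat_lit 1022324955) (nat_lit 522) (nat_lit 1) (nat_lit 497) (nat_lit 0) (nat_lit 522) (nat_lit 0) (nat_lit 338) (nat_lit 401) (nat_lit 401)) (XT.nd (nat_lit 78) (nat_lit 0) (nat_lit 76) (XT.lf (nat_lit 1900) (nat_lit 4042426582) (nat_lit 76) (nat_lit 1024091904) (nat_lit 0)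 (nat_lit 1024091904) (nat_lit 522) (nat_lit 1) (nat_lit 498) (nat_lit 1) (nat_lit 497) (nat_lit 0) (nat_lit 339) (nat_lit 401) (nat_lit 400)) (XT.lf (nat_lit 1900) (nat_lit 1984850694) (nat_lit 0) (nat_lit 2061131755) (nat_lit 1824) (nat_lit 1984850694) (nat_lit 523) (nat_lit 1) (nat_lit 498) (nat_lit 1) (nat_lit 522) (nat_lit 1) (nat_lit 340) (nat_lit 401) (nat_lit 399))))))) (XT.nd (nat_lit 702) (nat_lit 0) (nat_lit 380) (XT.nd (nat_lit 312) (nat_lit 0) (nat_lit 152) (XT.nd (nat_lit 156) (nat_lit 0) (nat_lit 76) (XT.nd (nat_lit 78) (nat_lit 0) (nat_lit 76) (XT.lf (nat_lit 1900) (nat_lit 3884842101) (nat_lit 76) (nat_lit 1043560007) (nat_lit 0) (nat_lit 1043560007) (nat_lit 523) (nat_lit 1) (nat_lit 499) (nat_lit 1) (nat_lit 498) (nat_lit 1) (nat_lit 341) (nat_lit 401) (nat_lit 398)) (XT.lf (nat_lit 1900) (nat_lit 1887959645) (nat_lit 0) (nat_lit 2137821671) (nat_lit 1824) (nat_lit 1887959645) (nat_lit 524) (nat_lit 1) (nat_lit 499)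 (nat_lit 1) (nat_lit 523) (nat_lit 1) (nat_lit 342) (nat_lit 401) (nat_lit 397))) (XT.nd (nat_lit 78) (nat_lit 0) (nat_lit 76) (XT.lf (nat_lit 1900) (nat_lit 3655067604) (nat_lit 76) (nat_lit 1100659009) (nat_lit 0) (nat_lit 1100659009) (nat_lit 524) (nat_lit 1) (nat_lit 500) (nat_lit 1) (nat_lit 499) (nat_lit 1) (nat_lit 343) (nat_lit 401) (nat_lit 396)) (XT.lf (nat_lit 1900) (nat_lit 1756189907) (nat_lit 0) (nat_lit 2287300461) (nat_lit 1824) (nat_lit 1756189907) (nat_lit 525) (nat_lit 1) (nat_lit 500) (nat_lit 1) (nat_lit 524) (nat_lit 1) (nat_lit 344) (nat_lit 401) (nat_lit 395)))) (XT.nd (nat_lit 156) (nat_lit 0) (nat_lit 76) (XT.nd (nat_lit 78) (nat_lit 0) (nat_lit 76) (XT.lf (nat_lit 1900) (nat_lit 3357441794) (nat_lit 76) (nat_lit 1193174972) (nat_lit 0) (nat_lit 1193174972) (nat_lit 525) (nat_lit 1) (nat_lit 501) (nat_lit 1) (nat_lit 500) (nat_lit 1) (nat_lit 345) (nat_lit 401) (nat_lit 394)) (XT.lf (nat_lit 1900) (nat_lit 1591653530)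 (nat_lit 0) (nat_lit 2505256019) (nat_lit 1824) (nat_lit 1591653530) (nat_lit 526) (nat_lit 1) (nat_lit 501) (nat_lit 1) (nat_lit 525) (nat_lit 1) (nat_lit 346) (nat_lit 401) (nat_lit 393))) (XT.nd (nat_lit 78) (nat_lit 0) (nat_lit 76) (XT.lf (nat_lit 1900) (nat_lit 2996104786) (nat_lit 76) (nat_lit 1318994687) (nat_lit 0) (nat_lit 1318994687) (nat_lit 526) (nat_lit 1) (nat_lit 502) (nat_lit 1) (nat_lit 501) (nat_lit 1) (nat_lit 347) (nat_lit 401) (nat_lit 392)) (XT.nd (nat_lit 78) (nat_lit 0) (nat_lit 0) (XT.lf (nat_lit 1900) (nat_lit 1396365695) (nat_lit 0) (nat_lit 2787572815) (nat_lit 1824) (nat_lit 1396365695) (nat_lit 527) (nat_lit 1) (nat_lit 502) (nat_lit 1) (nat_lit 526) (nat_lit 1) (nat_lit 348) (nat_lit 401) (nat_lit 391)) (XT.lf (nat_lit 1900) (nat_lit 2575006414) (nat_lit 76) (nat_lit 1476101474) (nat_lit 0) (nat_lit 1476101474) (nat_lit 527) (nat_lit 1) (nat_lit 503) (nat_lit 1) (nat_lit 502) (nat_lit 1) (nat_lit 349) (nat_lit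 401) (nat_lit 390)))))) (XT.nd (nat_lit 312) (nat_lit 0) (nat_lit 152) (XT.nd (nat_lit 156) (nat_lit 0) (nat_lit 76) (XT.nd (nat_lit 78) (nat_lit 0) (nat_lit 0) (XT.lf (nat_lit 1900) (nat_lit 1172248766) (nat_lit 0) (nat_lit 3130323688) (nat_lit 1824) (nat_lit 1172248766) (nat_lit 528) (nat_lit 1) (nat_lit 503) (nat_lit 1) (nat_lit 527) (nat_lit 1) (nat_lit 350) (nat_lit 401) (nat_lit 389)) (XT.lf (nat_lit 1900) (nat_lit 2097914197) (nat_lit 76) (nat_lit 1662571145) (nat_lit 0) (nat_lit 1662571145) (nat_lit 528) (nat_lit 1) (nat_lit 504) (nat_lit 1) (nat_lit 503) (nat_lit 1) (nat_lit 351) (nat_lit 401) (nat_lit 388))) (XT.nd (nat_lit 78) (nat_lit 0) (nat_lit 0) (XT.lf (nat_lit 1900) (nat_lit 921136179) (nat_lit 0) (nat_lit 3529761972) (nat_lit 1824) (nat_lit 921136179) (nat_lit 529) (nat_lit 1) (nat_lit 504) (nat_lit 1) (nat_lit 528) (nat_lit 1) (nat_lit 352) (nat_lit 401) (nat_lit 387)) (XT.lf (nat_lit 1900) (nat_lit 1568420987) (nat_lit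 76) (nat_lit 1876568142) (nat_lit 0) (nat_lit 1876568142) (nat_lit 529) (nat_lit 1) (nat_lit 505) (nat_lit 1) (nat_lit 504) (nat_lit 1) (nat_lit 353) (nat_lit 401) (nat_lit 386)))) (XT.nd (nat_lit 156) (nat_lit 0) (nat_lit 76) (XT.nd (nat_lit 78) (nat_lit 0) (nat_lit 0) (XT.lf (nat_lit 1900) (nat_lit 644776177) (nat_lit 0) (nat_lit 3982313939) (nat_lit 1824) (nat_lit 644776177) (nat_lit 530) (nat_lit 1) (nat_lit 505) (nat_lit 1) (nat_lit 529) (nat_lit 1) (nat_lit 354) (nat_lit 401) (nat_lit 385)) (XT.lf (nat_lit 1900) (nat_lit 989952303) (nat_lit 76) (nat_lit 2116341816) (nat_lit 0) (nat_lit 2116341816) (nat_lit 530) (nat_lit 1) (nat_lit 506) (nat_lit 1) (nat_lit 505) (nat_lit 1) (nat_lit 355) (nat_lit 401) (nat_lit 384))) (XT.nd (nat_lit 78) (nat_lit 0) (nat_lit 0) (XT.lf (nat_lit 1900) (nat_lit 344835392) (nat_lit 0) (nat_lit 4484571544) (nat_lit 1824) (nat_lit 344835392) (nat_lit 531) (nat_lit 1) (nat_lit 506) (nat_lit 1) (nat_lit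 530) (nat_lit 1) (nat_lit 356) (nat_lit 401) (nat_lit 383)) (XT.nd (nat_lit 78) (nat_lit 0) (nat_lit 76) (XT.lf (nat_lit 1900) (nat_lit 365773381) (nat_lit 76) (nat_lit 2380222865) (nat_lit 0) (nat_lit 2380222865) (nat_lit 531) (nat_lit 1) (nat_lit 507) (nat_lit 1) (nat_lit 506) (nat_lit 1) (nat_lit 357) (nat_lit 401) (nat_lit 382)) (XT.lf (nat_lit 1900) (nat_lit 22902283) (nat_lit 0) (nat_lit 5033285464) (nat_lit 1824) (nat_lit 22902283) (nat_lit 532) (nat_lit 1) (nat_lit 507) (nat_lit 1) (nat_lit 531) (nat_lit 1) (nat_lit 358) (nat_lit 401) (nat_lit 381))))))))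
noncomputable def ec83 : XT := (XT.nd (nat_lit 1404) (nat_lit 7828) (nat_lit 0) (XT.nd (nat_lit 702) (nat_lit 4408) (nat_lit 0) (XT.nd (nat_lit 312) (nat_lit 1900) (nat_lit 0) (XT.nd (nat_lit 156) (nat_lit 0) (nat_lit 76) (XT.nd (nat_lit 78) (nat_lit 0) (nat_lit 0) (XT.lf (nat_lit 1976) (nat_lit 2367570162) (nat_lit 0) (nat_lit 297056348) (nat_lit 1900) (nat_lit 2367570162) (nat_lit 508) (nat_lit 1) (nat_lit 482) (nat_lit 1) (nat_lit 507) (nat_lit 1) (nat_lit 359) (nat_lit 401) (nat_lit 380)) (XT.lf (nat_lit 1976) (nat_lit 4351357710) (nat_lit 76) (nat_lit 317407530) (nat_lit 0) (nat_lit 317407530) (nat_lit 508) (nat_lit 1) (nat_lit 483) (nat_lit 1) (nat_lit 482) (nat_lit 1) (nat_lit 360) (nat_lit 401) (nat_lit 379))) (XT.nd (nat_lit 78) (nat_lit 0) (nat_lit 0) (XT.lf (nat_lit 1976) (nat_lit 1973141653) (nat_lit 0) (nat_lit 994202954) (nat_lit 1900) (nat_lit 1973141653) (nat_lit 509) (nat_lit 1) (nat_lit 483) (nat_lit 1) (nat_lit 508)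 (nat_lit 1) (nat_lit 361) (nat_lit 401) (nat_lit 378)) (XT.lf (nat_lit 1976) (nat_lit 3542610730) (nat_lit 76) (nat_lit 676478292) (nat_lit 0) (nat_lit 676478292) (nat_lit 509) (nat_lit 1) (nat_lit 484) (nat_lit 1) (nat_lit 483) (nat_lit 1) (nat_lit 362) (nat_lit 401) (nat_lit 377)))) (XT.nd (nat_lit 156) (nat_lit 912) (nat_lit 0) (XT.nd (nat_lit 78) (nat_lit 1140) (nat_lit 0) (XT.lf (nat_lit 76) (nat_lit 1561696151) (nat_lit 0) (nat_lit 1727676807) (nat_lit 1900) (nat_lit 1561696151) (nat_lit 485) (nat_lit 1) (nat_lit 484) (nat_lit 1) (nat_lit 509) (nat_lit 1) (nat_lit 363) (nat_lit 401) (nat_lit 376)) (XT.lf (nat_lit 1216) (nat_lit 2701027551) (nat_lit 0) (nat_lit 1053096500) (nat_lit 1140) (nat_lit 1053096500) (nat_lit 485) (nat_lit 1) (nat_lit 469) (nat_lit 1) (nat_lit 484) (nat_lit 1) (nat_lit 364) (nat_lit 401) (nat_lit 375))) (XT.nd (nat_lit 78) (nat_lit 912) (nat_lit 0) (XT.lf (nat_lit 76) (nat_lit 1134528430) (nat_lit 0) (nat_lit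 2494824172) (nat_lit 1216) (nat_lit 1134528430) (nat_lit 470) (nat_lit 1) (nat_lit 469) (nat_lit 1) (nat_lit 485) (nat_lit 1) (nat_lit 365) (nat_lit 401) (nat_lit 374)) (XT.nd (nat_lit 78) (nat_lit 0) (nat_lit 0) (XT.lf (nat_lit 988) (nat_lit 1829142867) (nat_lit 0) (nat_lit 1445963305) (nat_lit 912) (nat_lit 1445963305) (nat_lit 470) (nat_lit 1) (nat_lit 457) (nat_lit 1) (nat_lit 469) (nat_lit 1) (nat_lit 366) (nat_lit 401) (nat_lit 373)) (XT.lf (nat_lit 76) (nat_lit 692870554) (nat_lit 0) (nat_lit 3293118735) (nat_lit 988) (nat_lit 692870554) (nat_lit 458) (nat_lit 1) (nat_lit 457) (nat_lit 1) (nat_lit 470) (nat_lit 1) (nat_lit 367) (nat_lit 401) (nat_lit 372)))))) (XT.nd (nat_lit 312) (nat_lit 1672) (nat_lit 0) (XT.nd (nat_lit 156) (nat_lit 1824) (nat_lit 0) (XT.nd (nat_lit 78) (nat_lit 0) (nat_lit 0) (XT.lf (nat_lit 988) (nat_lit 929368249) (nat_lit 0) (nat_lit 1853842397) (nat_lit 912) (nat_lit 1853842397) (nat_lit 458) (nat_lit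 1) (nat_lit 445) (nat_lit 1) (nat_lit 457) (nat_lit 1) (nat_lit 368) (nat_lit 401) (nat_lit 371)) (XT.lf (nat_lit 76) (nat_lit 237894559) (nat_lit 0) (nat_lit 4120156182) (nat_lit 988) (nat_lit 237894559) (nat_lit 446) (nat_lit 1) (nat_lit 445) (nat_lit 1) (nat_lit 458) (nat_lit 1) (nat_lit 369) (nat_lit 401) (nat_lit 370))) (XT.nd (nat_lit 78) (nat_lit 988) (nat_lit 0) (XT.lf (nat_lit 912) (nat_lit 3997407) (nat_lit 0) (nat_lit 2275557345) (nat_lit 836) (nat_lit 2275557345) (nat_lit 446) (nat_lit 1) (nat_lit 434) (nat_lit 1) (nat_lit 445) (nat_lit 1) (nat_lit 370) (nat_lit 401) (nat_lit 369)) (XT.lf (nat_lit 988) (nat_lit 4059406480) (nat_lit 0) (nat_lit 227776525) (nat_lit 912) (nat_lit 227776525) (nat_lit 434) (nat_lit 1) (nat_lit 421) (nat_lit 1) (nat_lit 433) (nat_lit 1) (nat_lit 371) (nat_lit 401) (nat_lit 368)))) (XT.nd (nat_lit 156) (nat_lit 836) (nat_lit 0) (XT.nd (nat_lit 78) (nat_lit 836) (nat_lit 0) (XT.lf (nat_lit 76) (nat_lit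 1771334479) (nat_lit 0) (nat_lit 932397678) (nat_lit 988) (nat_lit 1771334479) (nat_lit 422) (nat_lit 1) (nat_lit 421) (nat_lit 1) (nat_lit 434) (nat_lit 1) (nat_lit 372) (nat_lit 401) (nat_lit 367)) (XT.lf (nat_lit 912) (nat_lit 3029929348) (nat_lit 0) (nat_lit 702953163) (nat_lit 836) (nat_lit 702953163) (nat_lit 422) (nat_lit 1) (nat_lit 410) (nat_lit 1) (nat_lit 421) (nat_lit 1) (nat_lit 373) (nat_lit 401) (nat_lit 366))) (XT.nd (nat_lit 78) (nat_lit 836) (nat_lit 0) (XT.lf (nat_lit 76) (nat_lit 1253588849) (nat_lit 0) (nat_lit 1889802804) (nat_lit 912) (nat_lit 1253588849) (nat_lit 411) (nat_lit 1) (nat_lit 410) (nat_lit 1) (nat_lit 422) (nat_lit 1) (nat_lit 374) (nat_lit 401) (nat_lit 365)) (XT.nd (nat_lit 78) (nat_lit 0) (nat_lit 0) (XT.lf (nat_lit 912) (nat_lit 1982243169) (nat_lit 0) (nat_lit 1188200122) (nat_lit 836) (nat_lit 1188200122) (nat_lit 411) (nat_lit 1) (nat_lit 399) (nat_lit 1) (nat_lit 410) (nat_lit 1) (nat_lit 375)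 (nat_lit 401) (nat_lit 364)) (XT.lf (nat_lit 76) (nat_lit 727237017) (nat_lit 0) (nat_lit 2866326597) (nat_lit 912) (nat_lit 727237017) (nat_lit 400) (nat_lit 1) (nat_lit 399) (nat_lit 1) (nat_lit 411) (nat_lit 1) (nat_lit 376) (nat_lit 401) (nat_lit 363))))))) (XT.nd (nat_lit 702) (nat_lit 4028) (nat_lit 0) (XT.nd (nat_lit 312) (nat_lit 1444) (nat_lit 0) (XT.nd (nat_lit 156) (nat_lit 1596) (nat_lit 0) (XT.nd (nat_lit 78) (nat_lit 0) (nat_lit 0) (XT.lf (nat_lit 836) (nat_lit 918195903) (nat_lit 0) (nat_lit 1682567104) (nat_lit 760) (nat_lit 1682567104) (nat_lit 400) (nat_lit 1) (nat_lit 389) (nat_lit 1) (nat_lit 399) (nat_lit 1) (nat_lit 377) (nat_lit 401) (nat_lit 362)) (XT.lf (nat_lit 76) (nat_lit 193176130) (nat_lit 0) (nat_lit 3860122816) (nat_lit 836) (nat_lit 193176130) (nat_lit 390) (nat_lit 1) (nat_lit 389) (nat_lit 1) (nat_lit 400) (nat_lit 1) (nat_lit 378) (nat_lit 401) (nat_lit 361))) (XT.nd (nat_lit 78) (nat_lit 760) (nat_lit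 0) (XT.lf (nat_lit 76) (nat_lit 2025734864) (nat_lit 0) (nat_lit 158354174) (nat_lit 836) (nat_lit 2025734864) (nat_lit 379) (nat_lit 1) (nat_lit 378) (nat_lit 1) (nat_lit 389) (nat_lit 1) (nat_lit 379) (nat_lit 401) (nat_lit 360)) (XT.lf (nat_lit 836) (nat_lit 3482862734) (nat_lit 0) (nat_lit 345454758) (nat_lit 760) (nat_lit 345454758) (nat_lit 379) (nat_lit 1) (nat_lit 368) (nat_lit 1) (nat_lit 378) (nat_lit 1) (nat_lit 380) (nat_lit 401) (nat_lit 359)))) (XT.nd (nat_lit 156) (nat_lit 684) (nat_lit 0) (XT.nd (nat_lit 78) (nat_lit 760) (nat_lit 0) (XT.lf (nat_lit 76) (nat_lit 1451169790) (nat_lit 0) (nat_lit 1235635651) (nat_lit 836) (nat_lit 1451169790) (nat_lit 369) (nat_lit 1) (nat_lit 368) (nat_lit 1) (nat_lit 379) (nat_lit 1) (nat_lit 381) (nat_lit 401) (nat_lit 358)) (XT.lf (nat_lit 836) (nat_lit 2325070052) (nat_lit 0) (nat_lit 888825334) (nat_lit 760) (nat_lit 888825334) (nat_lit 369) (nat_lit 1) (nat_lit 358) (nat_lit 1) (nat_lit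 368) (nat_lit 1) (nat_lit 382) (nat_lit 401) (nat_lit 357))) (XT.nd (nat_lit 78) (nat_lit 684) (nat_lit 0) (XT.lf (nat_lit 76) (nat_lit 871860859) (nat_lit 0) (nat_lit 2324133837) (nat_lit 836) (nat_lit 871860859) (nat_lit 359) (nat_lit 1) (nat_lit 358) (nat_lit 1) (nat_lit 369) (nat_lit 1) (nat_lit 383) (nat_lit 401) (nat_lit 356)) (XT.nd (nat_lit 78) (nat_lit 0) (nat_lit 0) (XT.lf (nat_lit 760) (nat_lit 1158482017) (nat_lit 0) (nat_lit 1437446096) (nat_lit 684) (nat_lit 1437446096) (nat_lit 359) (nat_lit 1) (nat_lit 349) (nat_lit 1) (nat_lit 358) (nat_lit 1) (nat_lit 384) (nat_lit 401) (nat_lit 355)) (XT.lf (nat_lit 76) (nat_lit 288522769) (nat_lit 0) (nat_lit 3422372999) (nat_lit 760) (nat_lit 288522769) (nat_lit 350) (nat_lit 1) (nat_lit 349) (nat_lit 1) (nat_lit 359) (nat_lit 1) (nat_lit 385) (nat_lit 401) (nat_lit 354)))))) (XT.nd (nat_lit 390) (nat_lit 1900) (nat_lit 0) (XT.nd (nat_lit 156) (nat_lit 684) (nat_lit 0) (XT.nd (nat_lit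 78) (nat_lit 684) (nat_lit 0) (XT.lf (nat_lit 76) (nat_lit 1975191345) (nat_lit 0) (nat_lit 15302474) (nat_lit 760) (nat_lit 1975191345) (nat_lit 340) (nat_lit 1) (nat_lit 339) (nat_lit 1) (nat_lit 349) (nat_lit 1) (nat_lit 386) (nat_lit 401) (nat_lit 353)) (XT.lf (nat_lit 760) (nat_lit 3340051235) (nat_lit 0) (nat_lit 296206303) (nat_lit 684) (nat_lit 296206303) (nat_lit 340) (nat_lit 1) (nat_lit 330) (nat_lit 1) (nat_lit 339) (nat_lit 1) (nat_lit 387) (nat_lit 401) (nat_lit 352))) (XT.nd (nat_lit 78) (nat_lit 684) (nat_lit 0) (XT.lf (nat_lit 76) (nat_lit 1359783758) (nat_lit 0) (nat_lit 1179892683) (nat_lit 760) (nat_lit 1359783758) (nat_lit 331) (nat_lit 1) (nat_lit 330) (nat_lit 1) (nat_lit 340) (nat_lit 1) (nat_lit 388) (nat_lit 401) (nat_lit 351)) (XT.nd (nat_lit 78) (nat_lit 0) (nat_lit 0) (XT.lf (nat_lit 760) (nat_lit 2103487694) (nat_lit 0) (nat_lit 881731894) (nat_lit 684) (nat_lit 881731894) (nat_lit 331) (nat_lit 1) (nat_lit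 321) (nat_lit 1) (nat_lit 330) (nat_lit 1) (nat_lit 389) (nat_lit 401) (nat_lit 350)) (XT.lf (nat_lit 76) (nat_lit 742778743) (nat_lit 0) (nat_lit 2349249561) (nat_lit 760) (nat_lit 742778743) (nat_lit 322) (nat_lit 1) (nat_lit 321) (nat_lit 1) (nat_lit 331) (nat_lit 1) (nat_lit 390) (nat_lit 401) (nat_lit 349))))) (XT.nd (nat_lit 156) (nat_lit 1292) (nat_lit 0) (XT.nd (nat_lit 78) (nat_lit 0) (nat_lit 0) (XT.lf (nat_lit 684) (nat_lit 864287968) (nat_lit 0) (nat_lit 1469350938) (nat_lit 608) (nat_lit 1469350938) (nat_lit 322) (nat_lit 1) (nat_lit 313) (nat_lit 1) (nat_lit 321) (nat_lit 1) (nat_lit 391) (nat_lit 401) (nat_lit 348)) (XT.lf (nat_lit 76) (nat_lit 124738221) (nat_lit 0) (nat_lit 3522207834) (nat_lit 684) (nat_lit 124738221) (nat_lit 314) (nat_lit 1) (nat_lit 313) (nat_lit 1) (nat_lit 322) (nat_lit 1) (nat_lit 392) (nat_lit 401) (nat_lit 347))) (XT.nd (nat_lit 78) (nat_lit 608) (nat_lit 0) (XT.lf (nat_lit 76) (nat_lit 1684487084)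 (nat_lit 0) (nat_lit 371515132) (nat_lit 684) (nat_lit 1684487084) (nat_lit 305) (nat_lit 1) (nat_lit 304) (nat_lit 1) (nat_lit 313) (nat_lit 1) (nat_lit 393) (nat_lit 401) (nat_lit 346)) (XT.nd (nat_lit 78) (nat_lit 0) (nat_lit 0) (XT.lf (nat_lit 684) (nat_lit 2728676785) (nat_lit 0) (nat_lit 490558773) (nat_lit 608) (nat_lit 490558773) (nat_lit 305) (nat_lit 1) (nat_lit 296) (nat_lit 1) (nat_lit 304) (nat_lit 1) (nat_lit 394) (nat_lit 401) (nat_lit 345)) (XT.lf (nat_lit 76) (nat_lit 1041431772) (nat_lit 0) (nat_lit 1596483351) (nat_lit 684) (nat_lit 1041431772) (nat_lit 297) (nat_lit 1) (nat_lit 296) (nat_lit 1) (nat_lit 305) (nat_lit 1) (nat_lit 395) (nat_lit 401) (nat_lit 344))))))))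
noncomputable def ec84 : XT := (XT.nd (nat_lit 1404) (nat_lit 4560) (nat_lit 0) (XT.nd (nat_lit 702) (nat_lit 2508) (nat_lit 0) (XT.nd (nat_lit 312) (nat_lit 1672) (nat_lit 0) (XT.nd (nat_lit 156) (nat_lit 1216) (nat_lit 0) (XT.nd (nat_lit 78) (nat_lit 0) (nat_lit 0) (XT.lf (nat_lit 684) (nat_lit 1439210130) (nat_lit 0) (nat_lit 1105040197) (nat_lit 608) (nat_lit 1105040197) (nat_lit 297) (nat_lit 1) (nat_lit 288) (nat_lit 1) (nat_lit 296) (nat_lit 1) (nat_lit 396) (nat_lit 401) (nat_lit 343)) (XT.lf (nat_lit 76) (nat_lit 399323088) (nat_lit 0) (nat_lit 2820990431) (nat_lit 684) (nat_lit 399323088) (nat_lit 289) (nat_lit 1) (nat_lit 288) (nat_lit 1) (nat_lit 297) (nat_lit 1) (nat_lit 397) (nat_lit 401) (nat_lit 342))) (XT.nd (nat_lit 78) (nat_lit 684) (nat_lit 0) (XT.lf (nat_lit 608) (nat_lit 152083154) (nat_lit 0) (nat_lit 1719058541) (nat_lit 532) (nat_lit 1719058541) (nat_lit 289) (nat_lit 1) (nat_lit 281) (nat_lit 1) (nat_lit 288)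 (nat_lit 1) (nat_lit 398) (nat_lit 401) (nat_lit 341)) (XT.lf (nat_lit 684) (nat_lit 3081562532) (nat_lit 0) (nat_lit 239816479) (nat_lit 608) (nat_lit 239816479) (nat_lit 281) (nat_lit 1) (nat_lit 272) (nat_lit 1) (nat_lit 280) (nat_lit 1) (nat_lit 399) (nat_lit 401) (nat_lit 340)))) (XT.nd (nat_lit 156) (nat_lit 1140) (nat_lit 0) (XT.nd (nat_lit 78) (nat_lit 532) (nat_lit 0) (XT.lf (nat_lit 76) (nat_lit 1207662706) (nat_lit 0) (nat_lit 1117014540) (nat_lit 684) (nat_lit 1207662706) (nat_lit 273) (nat_lit 1) (nat_lit 272) (nat_lit 1) (nat_lit 281) (nat_lit 1) (nat_lit 400) (nat_lit 401) (nat_lit 339)) (XT.lf (nat_lit 608) (nat_lit 1754802985) (nat_lit 0) (nat_lit 874551565) (nat_lit 532) (nat_lit 874551565) (nat_lit 273) (nat_lit 1) (nat_lit 265) (nat_lit 1) (nat_lit 272) (nat_lit 1) (nat_lit 401) (nat_lit 401) (nat_lit 338))) (XT.nd (nat_lit 78) (nat_lit 1140) (nat_lit 0) (XT.lf (nat_lit 76) (nat_lit 547805383) (nat_lit 0) (nat_lit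 2380191171) (nat_lit 608) (nat_lit 547805383) (nat_lit 266) (nat_lit 1) (nat_lit 265) (nat_lit 1) (nat_lit 273) (nat_lit 1) (nat_lit 402) (nat_lit 401) (nat_lit 337)) (XT.nd (nat_lit 78) (nat_lit 608) (nat_lit 0) (XT.lf (nat_lit 608) (nat_lit 433684733) (nat_lit 0) (nat_lit 1507128523) (nat_lit 532) (nat_lit 1507128523) (nat_lit 266) (nat_lit 1) (nat_lit 258) (nat_lit 1) (nat_lit 265) (nat_lit 1) (nat_lit 403) (nat_lit 401) (nat_lit 336)) (XT.lf (nat_lit 608) (nat_lit 3203815396) (nat_lit 0) (nat_lit 108349673) (nat_lit 532) (nat_lit 108349673) (nat_lit 258) (nat_lit 1) (nat_lit 250) (nat_lit 1) (nat_lit 257) (nat_lit 1) (nat_lit 404) (nat_lit 401) (nat_lit 335)))))) (XT.nd (nat_lit 312) (nat_lit 1520) (nat_lit 0) (XT.nd (nat_lit 156) (nat_lit 456) (nat_lit 0) (XT.nd (nat_lit 78) (nat_lit 532) (nat_lit 0) (XT.lf (nat_lit 76) (nat_lit 1261799244) (nat_lit 0) (nat_lit 869555767) (nat_lit 608) (nat_lit 1261799244) (nat_lit 251) (nat_lit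 1) (nat_lit 250) (nat_lit 1) (nat_lit 258) (nat_lit 1) (nat_lit 405) (nat_lit 401) (nat_lit 334)) (XT.lf (nat_lit 608) (nat_lit 1850998405) (nat_lit 0) (nat_lit 757609835) (nat_lit 532) (nat_lit 757609835) (nat_lit 251) (nat_lit 1) (nat_lit 243) (nat_lit 1) (nat_lit 250) (nat_lit 1) (nat_lit 406) (nat_lit 401) (nat_lit 333))) (XT.nd (nat_lit 78) (nat_lit 456) (nat_lit 0) (XT.lf (nat_lit 76) (nat_lit 589664145) (nat_lit 0) (nat_lit 2160241406) (nat_lit 608) (nat_lit 589664145) (nat_lit 244) (nat_lit 1) (nat_lit 243) (nat_lit 1) (nat_lit 251) (nat_lit 1) (nat_lit 407) (nat_lit 401) (nat_lit 332)) (XT.lf (nat_lit 532) (nat_lit 506616065) (nat_lit 0) (nat_lit 1403274551) (nat_lit 456) (nat_lit 1403274551) (nat_lit 244) (nat_lit 1) (nat_lit 237) (nat_lit 1) (nat_lit 243) (nat_lit 1) (nat_lit 408) (nat_lit 401) (nat_lit 331)))) (XT.nd (nat_lit 156) (nat_lit 912) (nat_lit 0) (XT.nd (nat_lit 78) (nat_lit 0) (nat_lit 0) (XT.lf (nat_lit 608) (nat_lit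 3131939104) (nat_lit 0) (nat_lit 77616383) (nat_lit 532) (nat_lit 77616383) (nat_lit 237) (nat_lit 1) (nat_lit 229) (nat_lit 1) (nat_lit 236) (nat_lit 1) (nat_lit 409) (nat_lit 401) (nat_lit 330)) (XT.lf (nat_lit 76) (nat_lit 1221646170) (nat_lit 0) (nat_lit 817924717) (nat_lit 608) (nat_lit 1221646170) (nat_lit 230) (nat_lit 1) (nat_lit 229) (nat_lit 1) (nat_lit 237) (nat_lit 1) (nat_lit 410) (nat_lit 401) (nat_lit 329))) (XT.nd (nat_lit 78) (nat_lit 456) (nat_lit 0) (XT.lf (nat_lit 532) (nat_lit 1762767370) (nat_lit 0) (nat_lit 736449140) (nat_lit 456) (nat_lit 736449140) (nat_lit 230) (nat_lit 1) (nat_lit 223) (nat_lit 1) (nat_lit 229) (nat_lit 1) (nat_lit 411) (nat_lit 401) (nat_lit 328)) (XT.nd (nat_lit 78) (nat_lit 456) (nat_lit 0) (XT.lf (nat_lit 76) (nat_lit 541956035) (nat_lit 0) (nat_lit 2126474280) (nat_lit 532) (nat_lit 541956035) (nat_lit 224) (nat_lit 1) (nat_lit 223) (nat_lit 1) (nat_lit 230) (nat_lit 1) (nat_lit 412) (nat_lit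 401) (nat_lit 327)) (XT.lf (nat_lit 532) (nat_lit 404377697) (nat_lit 0) (nat_lit 1390475356) (nat_lit 456) (nat_lit 1390475356) (nat_lit 224) (nat_lit 1) (nat_lit 217) (nat_lit 1) (nat_lit 223) (nat_lit 1) (nat_lit 413) (nat_lit 401) (nat_lit 326))))))) (XT.nd (nat_lit 702) (nat_lit 2280) (nat_lit 0) (XT.nd (nat_lit 312) (nat_lit 1292) (nat_lit 0) (XT.nd (nat_lit 156) (nat_lit 456) (nat_lit 0) (XT.nd (nat_lit 78) (nat_lit 0) (nat_lit 0) (XT.lf (nat_lit 532) (nat_lit 2897870097) (nat_lit 0) (nat_lit 131385134) (nat_lit 456) (nat_lit 131385134) (nat_lit 217) (nat_lit 1) (nat_lit 210) (nat_lit 1) (nat_lit 216) (nat_lit 1) (nat_lit 414) (nat_lit 401) (nat_lit 325)) (XT.lf (nat_lit 76) (nat_lit 1102778160) (nat_lit 0) (nat_lit 930452303) (nat_lit 532) (nat_lit 1102778160) (nat_lit 211) (nat_lit 1) (nat_lit 210) (nat_lit 1) (nat_lit 217) (nat_lit 1) (nat_lit 415) (nat_lit 401) (nat_lit 324))) (XT.nd (nat_lit 78) (nat_lit 0) (nat_lit 0) (XT.lf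 (nat_lit 532) (nat_lit 1520695929) (nat_lit 0) (nat_lit 795521950) (nat_lit 456) (nat_lit 795521950) (nat_lit 211) (nat_lit 1) (nat_lit 204) (nat_lit 1) (nat_lit 210) (nat_lit 1) (nat_lit 416) (nat_lit 401) (nat_lit 323)) (XT.lf (nat_lit 76) (nat_lit 419596668) (nat_lit 0) (nat_lit 2248556089) (nat_lit 532) (nat_lit 419596668) (nat_lit 205) (nat_lit 1) (nat_lit 204) (nat_lit 1) (nat_lit 211) (nat_lit 1) (nat_lit 417) (nat_lit 401) (nat_lit 322)))) (XT.nd (nat_lit 156) (nat_lit 380) (nat_lit 0) (XT.nd (nat_lit 78) (nat_lit 532) (nat_lit 0) (XT.lf (nat_lit 456) (nat_lit 156260410) (nat_lit 0) (nat_lit 1453839476) (nat_lit 380) (nat_lit 1453839476) (nat_lit 205) (nat_lit 1) (nat_lit 199) (nat_lit 1) (nat_lit 204) (nat_lit 1) (nat_lit 418) (nat_lit 401) (nat_lit 321)) (XT.lf (nat_lit 532) (nat_lit 2529509000) (nat_lit 0) (nat_lit 255466425) (nat_lit 456) (nat_lit 255466425) (nat_lit 199) (nat_lit 1) (nat_lit 192) (nat_lit 1) (nat_lit 198)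 (nat_lit 1) (nat_lit 419) (nat_lit 401) (nat_lit 320))) (XT.nd (nat_lit 78) (nat_lit 380) (nat_lit 0) (XT.lf (nat_lit 76) (nat_lit 918799387) (nat_lit 0) (nat_lit 1179457943) (nat_lit 532) (nat_lit 918799387) (nat_lit 193) (nat_lit 1) (nat_lit 192) (nat_lit 1) (nat_lit 199) (nat_lit 1) (nat_lit 420) (nat_lit 401) (nat_lit 319)) (XT.nd (nat_lit 78) (nat_lit 0) (nat_lit 0) (XT.lf (nat_lit 456) (nat_lit 1151495826) (nat_lit 0) (nat_lit 921241071) (nat_lit 380) (nat_lit 921241071) (nat_lit 193) (nat_lit 1) (nat_lit 187) (nat_lit 1) (nat_lit 192) (nat_lit 1) (nat_lit 421) (nat_lit 401) (nat_lit 318)) (XT.lf (nat_lit 76) (nat_lit 235610037) (nat_lit 0) (nat_lit 2499982142) (nat_lit 456) (nat_lit 235610037) (nat_lit 188) (nat_lit 1) (nat_lit 187) (nat_lit 1) (nat_lit 193) (nat_lit 1) (nat_lit 422) (nat_lit 401) (nat_lit 317)))))) (XT.nd (nat_lit 312) (nat_lit 1064) (nat_lit 0) (XT.nd (nat_lit 156) (nat_lit 380) (nat_lit 0) (XT.nd (nat_lit 78)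 (nat_lit 380) (nat_lit 0) (XT.lf (nat_lit 76) (nat_lit 1369570694) (nat_lit 0) (nat_lit 209381614) (nat_lit 456) (nat_lit 1369570694) (nat_lit 182) (nat_lit 1) (nat_lit 181) (nat_lit 1) (nat_lit 187) (nat_lit 1) (nat_lit 423) (nat_lit 401) (nat_lit 316)) (XT.lf (nat_lit 456) (nat_lit 2051191760) (nat_lit 0) (nat_lit 437474664) (nat_lit 380) (nat_lit 437474664) (nat_lit 182) (nat_lit 1) (nat_lit 176) (nat_lit 1) (nat_lit 181) (nat_lit 1) (nat_lit 424) (nat_lit 401) (nat_lit 315))) (XT.nd (nat_lit 78) (nat_lit 380) (nat_lit 0) (XT.lf (nat_lit 76) (nat_lit 681573644) (nat_lit 0) (nat_lit 1540784393) (nat_lit 456) (nat_lit 681573644) (nat_lit 177) (nat_lit 1) (nat_lit 176) (nat_lit 1) (nat_lit 182) (nat_lit 1) (nat_lit 425) (nat_lit 401) (nat_lit 314)) (XT.lf (nat_lit 456) (nat_lit 678457145) (nat_lit 0) (nat_lit 1101750924) (nat_lit 380) (nat_lit 1101750924) (nat_lit 177) (nat_lit 1) (nat_lit 171) (nat_lit 1) (nat_lit 176) (nat_lit 1) (nat_lit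 426) (nat_lit 401) (nat_lit 313)))) (XT.nd (nat_lit 156) (nat_lit 684) (nat_lit 0) (XT.nd (nat_lit 78) (nat_lit 380) (nat_lit 0) (XT.lf (nat_lit 76) (nat_lit 1349602) (nat_lit 0) (nat_lit 2857629837) (nat_lit 456) (nat_lit 1349602) (nat_lit 172) (nat_lit 1) (nat_lit 171) (nat_lit 1) (nat_lit 177) (nat_lit 1) (nat_lit 427) (nat_lit 401) (nat_lit 312)) (XT.lf (nat_lit 76) (nat_lit 1084478878) (nat_lit 0) (nat_lit 669708699) (nat_lit 380) (nat_lit 1084478878) (nat_lit 167) (nat_lit 1) (nat_lit 166) (nat_lit 1) (nat_lit 171) (nat_lit 1) (nat_lit 428) (nat_lit 401) (nat_lit 311))) (XT.nd (nat_lit 78) (nat_lit 304) (nat_lit 0) (XT.lf (nat_lit 456) (nat_lit 1484107235) (nat_lit 0) (nat_lit 666617155) (nat_lit 380) (nat_lit 666617155) (nat_lit 167) (nat_lit 1) (nat_lit 161) (nat_lit 1) (nat_lit 166) (nat_lit 1) (nat_lit 429) (nat_lit 401) (nat_lit 310)) (XT.nd (nat_lit 78) (nat_lit 304) (nat_lit 0) (XT.lf (nat_lit 76) (nat_lit 401428314) (nat_lit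 0) (nat_lit 1993385426) (nat_lit 456) (nat_lit 401428314) (nat_lit 162) (nat_lit 1) (nat_lit 161) (nat_lit 1) (nat_lit 167) (nat_lit 1) (nat_lit 430) (nat_lit 401) (nat_lit 309)) (XT.lf (nat_lit 380) (nat_lit 121849500) (nat_lit 0) (nat_lit 1326724817) (nat_lit 304) (nat_lit 1326724817) (nat_lit 162) (nat_lit 1) (nat_lit 157) (nat_lit 1) (nat_lit 161) (nat_lit 1) (nat_lit 431) (nat_lit 401) (nat_lit 308))))))))
noncomputable def ec85 : XT := (XT.nd (nat_lit 52260) (nat_lit 0) (nat_lit 27436) (XT.nd (nat_lit 702) (nat_lit 608) (nat_lit 0) (XT.nd (nat_lit 312) (nat_lit 1368) (nat_lit 0) (XT.nd (nat_lit 156) (nat_lit 304) (nat_lit 0) (XT.nd (nat_lit 78) (nat_lit 0) (nat_lit 0) (XT.lf (nat_lit 456) (nat_lit 2211593234) (nat_lit 0) (nat_lit 271507684) (nat_lit 380) (nat_lit 271507684) (nat_lit 157) (nat_lit 1) (nat_lit 151) (nat_lit 1) (nat_lit 156) (nat_lit 1) (nat_lit 432) (nat_lit 401) (nat_lit 307)) (XT.lf (nat_lit 76) (nat_lit 763192506)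 (nat_lit 0) (nat_lit 1207636060) (nat_lit 456) (nat_lit 763192506) (nat_lit 152) (nat_lit 1) (nat_lit 151) (nat_lit 1) (nat_lit 157) (nat_lit 1) (nat_lit 433) (nat_lit 401) (nat_lit 306))) (XT.nd (nat_lit 78) (nat_lit 0) (nat_lit 0) (XT.lf (nat_lit 380) (nat_lit 846667273) (nat_lit 0) (nat_lit 933507081) (nat_lit 304) (nat_lit 933507081) (nat_lit 152) (nat_lit 1) (nat_lit 147) (nat_lit 1) (nat_lit 151) (nat_lit 1) (nat_lit 434) (nat_lit 401) (nat_lit 305)) (XT.lf (nat_lit 76) (nat_lit 87335132) (nat_lit 0) (nat_lit 2518960409) (nat_lit 380) (nat_lit 87335132) (nat_lit 148) (nat_lit 1) (nat_lit 147) (nat_lit 1) (nat_lit 152) (nat_lit 1) (nat_lit 435) (nat_lit 401) (nat_lit 304)))) (XT.nd (nat_lit 156) (nat_lit 684) (nat_lit 0) (XT.nd (nat_lit 78) (nat_lit 304) (nat_lit 0) (XT.lf (nat_lit 76) (nat_lit 1089713861) (nat_lit 0) (nat_lit 494155375) (nat_lit 380) (nat_lit 1089713861) (nat_lit 143) (nat_lit 1) (nat_lit 142) (nat_lit 1) (nat_lit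 147) (nat_lit 1) (nat_lit 436) (nat_lit 401) (nat_lit 303)) (XT.lf (nat_lit 380) (nat_lit 1501892795) (nat_lit 0) (nat_lit 575963725) (nat_lit 304) (nat_lit 575963725) (nat_lit 143) (nat_lit 1) (nat_lit 138) (nat_lit 1) (nat_lit 142) (nat_lit 1) (nat_lit 437) (nat_lit 401) (nat_lit 302))) (XT.nd (nat_lit 78) (nat_lit 684) (nat_lit 0) (XT.lf (nat_lit 76) (nat_lit 413848278) (nat_lit 0) (nat_lit 1806553317) (nat_lit 380) (nat_lit 413848278) (nat_lit 139) (nat_lit 1) (nat_lit 138) (nat_lit 1) (nat_lit 143) (nat_lit 1) (nat_lit 438) (nat_lit 401) (nat_lit 301)) (XT.nd (nat_lit 78) (nat_lit 380) (nat_lit 0) (XT.lf (nat_lit 380) (nat_lit 154834632) (nat_lit 0) (nat_lit 1229997779) (nat_lit 304) (nat_lit 1229997779) (nat_lit 139) (nat_lit 1) (nat_lit 134) (nat_lit 1) (nat_lit 138) (nat_lit 1) (nat_lit 439) (nat_lit 401) (nat_lit 300)) (XT.lf (nat_lit 380) (nat_lit 2093108071) (nat_lit 0) (nat_lit 251265646) (nat_lit 304) (nat_lit 251265646)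 (nat_lit 134) (nat_lit 1) (nat_lit 129) (nat_lit 1) (nat_lit 133) (nat_lit 1) (nat_lit 440) (nat_lit 401) (nat_lit 299)))))) (XT.nd (nat_lit 51168) (nat_lit 0) (nat_lit 28576) (XT.nd (nat_lit 156) (nat_lit 304) (nat_lit 0) (XT.nd (nat_lit 78) (nat_lit 304) (nat_lit 0) (XT.lf (nat_lit 76) (nat_lit 708963325) (nat_lit 0) (nat_lit 1158606670) (nat_lit 380) (nat_lit 708963325) (nat_lit 130) (nat_lit 1) (nat_lit 129) (nat_lit 1) (nat_lit 134) (nat_lit 1) (nat_lit 441) (nat_lit 401) (nat_lit 298)) (XT.lf (nat_lit 380) (nat_lit 748361668) (nat_lit 0) (nat_lit 904645389) (nat_lit 304) (nat_lit 904645389) (nat_lit 130) (nat_lit 1) (nat_lit 125) (nat_lit 1) (nat_lit 129) (nat_lit 1) (nat_lit 442) (nat_lit 401) (nat_lit 297))) (XT.nd (nat_lit 78) (nat_lit 304) (nat_lit 0) (XT.lf (nat_lit 76) (nat_lit 43484687) (nat_lit 0) (nat_lit 2452075233) (nat_lit 380) (nat_lit 43484687) (nat_lit 126) (nat_lit 1) (nat_lit 125) (nat_lit 1) (nat_lit 130) (nat_lit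 1) (nat_lit 443) (nat_lit 401) (nat_lit 296)) (XT.lf (nat_lit 76) (nat_lit 975199472) (nat_lit 0) (nat_lit 570011366) (nat_lit 304) (nat_lit 975199472) (nat_lit 122) (nat_lit 1) (nat_lit 121) (nat_lit 1) (nat_lit 125) (nat_lit 1) (nat_lit 444) (nat_lit 401) (nat_lit 295)))) (XT.nd (nat_lit 156) (nat_lit 0) (nat_lit 76) (XT.nd (nat_lit 78) (nat_lit 0) (nat_lit 0) (XT.lf (nat_lit 1900) (nat_lit 1042771454) (nat_lit 0) (nat_lit 1051491449) (nat_lit 1900) (nat_lit 1042771454) (nat_lit 522) (nat_lit 1) (nat_lit 497) (nat_lit 0) (nat_lit 522) (nat_lit 0) (nat_lit 336) (nat_lit 402) (nat_lit 402)) (XT.lf (nat_lit 1900) (nat_lit 4123275114) (nat_lit 76) (nat_lit 1044573742) (nat_lit 0) (nat_lit 1044573742) (nat_lit 522) (nat_lit 1) (nat_lit 498) (nat_lit 1) (nat_lit 497) (nat_lit 0) (nat_lit 337) (nat_lit 402) (nat_lit 401))) (XT.nd (nat_lit 78) (nat_lit 0) (nat_lit 0) (XT.lf (nat_lit 1900) (nat_lit 2024547708) (nat_lit 0) (nat_lit 2102354390)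 (nat_lit 1824) (nat_lit 2024547708) (nat_lit 523) (nat_lit 1) (nat_lit 498) (nat_lit 1) (nat_lit 522) (nat_lit 1) (nat_lit 338) (nat_lit 402) (nat_lit 400)) (XT.nd (nat_lit 78) (nat_lit 0) (nat_lit 76) (XT.lf (nat_lit 1900) (nat_lit 3962538943) (nat_lit 76) (nat_lit 1064431207) (nat_lit 0) (nat_lit 1064431207) (nat_lit 523) (nat_lit 1) (nat_lit 499) (nat_lit 1) (nat_lit 498) (nat_lit 1) (nat_lit 339) (nat_lit 402) (nat_lit 399)) (XT.lf (nat_lit 1900) (nat_lit 1925718838) (nat_lit 0) (nat_lit 2180578105) (nat_lit 1824) (nat_lit 1925718838) (nat_lit 524) (nat_lit 1) (nat_lit 499) (nat_lit 1) (nat_lit 523) (nat_lit 1) (nat_lit 340) (nat_lit 402) (nat_lit 398))))))) (XT.nd (nat_lit 702) (nat_lit 1292) (nat_lit 0) (XT.nd (nat_lit 312) (nat_lit 0) (nat_lit 152) (XT.nd (nat_lit 156) (nat_lit 0) (nat_lit 76) (XT.nd (nat_lit 78) (nat_lit 0) (nat_lit 76) (XT.lf (nat_lit 1900) (nat_lit 3728168956) (nat_lit 76) (nat_lit 1122672189) (nat_lit 0) (nat_lit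 1122672189) (nat_lit 524) (nat_lit 1) (nat_lit 500) (nat_lit 1) (nat_lit 499) (nat_lit 1) (nat_lit 341) (nat_lit 402) (nat_lit 397)) (XT.lf (nat_lit 1900) (nat_lit 1791313705) (nat_lit 0) (nat_lit 2333046470) (nat_lit 1824) (nat_lit 1791313705) (nat_lit 525) (nat_lit 1) (nat_lit 500) (nat_lit 1) (nat_lit 524) (nat_lit 1) (nat_lit 342) (nat_lit 402) (nat_lit 396))) (XT.nd (nat_lit 78) (nat_lit 0) (nat_lit 76) (XT.lf (nat_lit 1900) (nat_lit 3424590630) (nat_lit 76) (nat_lit 1217038471) (nat_lit 0) (nat_lit 1217038471) (nat_lit 525) (nat_lit 1) (nat_lit 501) (nat_lit 1) (nat_lit 500) (nat_lit 1) (nat_lit 343) (nat_lit 402) (nat_lit 395)) (XT.lf (nat_lit 1900) (nat_lit 1623486600) (nat_lit 0) (nat_lit 2555361139) (nat_lit 1824) (nat_lit 1623486600) (nat_lit 526) (nat_lit 1) (nat_lit 501) (nat_lit 1) (nat_lit 525) (nat_lit 1) (nat_lit 344) (nat_lit 402) (nat_lit 394)))) (XT.nd (nat_lit 156) (nat_lit 0) (nat_lit 76) (XT.nd (nat_lit 78) (nat_lit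 0) (nat_lit 76) (XT.lf (nat_lit 1900) (nat_lit 3056026881) (nat_lit 76) (nat_lit 1345374581) (nat_lit 0) (nat_lit 1345374581) (nat_lit 526) (nat_lit 1) (nat_lit 502) (nat_lit 1) (nat_lit 501) (nat_lit 1) (nat_lit 345) (nat_lit 402) (nat_lit 393)) (XT.lf (nat_lit 1900) (nat_lit 1424293009) (nat_lit 0) (nat_lit 2843324271) (nat_lit 1824) (nat_lit 1424293009) (nat_lit 527) (nat_lit 1) (nat_lit 502) (nat_lit 1) (nat_lit 526) (nat_lit 1) (nat_lit 346) (nat_lit 402) (nat_lit 392))) (XT.nd (nat_lit 78) (nat_lit 0) (nat_lit 76) (XT.lf (nat_lit 1900) (nat_lit 2626506542) (nat_lit 76) (nat_lit 1505623503) (nat_lit 0) (nat_lit 1505623503) (nat_lit 527) (nat_lit 1) (nat_lit 503) (nat_lit 1) (nat_lit 502) (nat_lit 1) (nat_lit 347) (nat_lit 402) (nat_lit 391)) (XT.nd (nat_lit 78) (nat_lit 0) (nat_lit 0) (XT.lf (nat_lit 1900) (nat_lit 1195693741) (nat_lit 0) (nat_lit 3192930162) (nat_lit 1824) (nat_lit 1195693741) (nat_lit 528) (nat_lit 1) (nat_lit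 503) (nat_lit 1) (nat_lit 527) (nat_lit 1) (nat_lit 348) (nat_lit 402) (nat_lit 390)) (XT.lf (nat_lit 1900) (nat_lit 2139872481) (nat_lit 76) (nat_lit 1695822568) (nat_lit 0) (nat_lit 1695822568) (nat_lit 528) (nat_lit 1) (nat_lit 504) (nat_lit 1) (nat_lit 503) (nat_lit 1) (nat_lit 349) (nat_lit 402) (nat_lit 389)))))) (XT.nd (nat_lit 390) (nat_lit 1672) (nat_lit 0) (XT.nd (nat_lit 156) (nat_lit 0) (nat_lit 76) (XT.nd (nat_lit 78) (nat_lit 0) (nat_lit 0) (XT.lf (nat_lit 1900) (nat_lit 939558903) (nat_lit 0) (nat_lit 3600357211) (nat_lit 1824) (nat_lit 939558903) (nat_lit 529) (nat_lit 1) (nat_lit 504) (nat_lit 1) (nat_lit 528) (nat_lit 1) (nat_lit 350) (nat_lit 402) (nat_lit 388)) (XT.lf (nat_lit 1900) (nat_lit 1599789406) (nat_lit 76) (nat_lit 1914099505) (nat_lit 0) (nat_lit 1914099505) (nat_lit 529) (nat_lit 1) (nat_lit 505) (nat_lit 1) (nat_lit 504) (nat_lit 1) (nat_lit 351) (nat_lit 402) (nat_lit 387))) (XT.nd (nat_lit 78) (nat_lit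 0) (nat_lit 0) (XT.lf (nat_lit 1900) (nat_lit 657671701) (nat_lit 0) (nat_lit 4061960218) (nat_lit 1824) (nat_lit 657671701) (nat_lit 530) (nat_lit 1) (nat_lit 505) (nat_lit 1) (nat_lit 529) (nat_lit 1) (nat_lit 352) (nat_lit 402) (nat_lit 386)) (XT.nd (nat_lit 78) (nat_lit 0) (nat_lit 76) (XT.lf (nat_lit 1900) (nat_lit 1009751349) (nat_lit 76) (nat_lit 2158668652) (nat_lit 0) (nat_lit 2158668652) (nat_lit 530) (nat_lit 1) (nat_lit 506) (nat_lit 1) (nat_lit 505) (nat_lit 1) (nat_lit 353) (nat_lit 402) (nat_lit 385)) (XT.lf (nat_lit 1900) (nat_lit 351732100) (nat_lit 0) (nat_lit 4574262975) (nat_lit 1824) (nat_lit 351732100) (nat_lit 531) (nat_lit 1) (nat_lit 506) (nat_lit 1) (nat_lit 530) (nat_lit 1) (nat_lit 354) (nat_lit 402) (nat_lit 384))))) (XT.nd (nat_lit 156) (nat_lit 1824) (nat_lit 0) (XT.nd (nat_lit 78) (nat_lit 0) (nat_lit 76) (XT.lf (nat_lit 1900) (nat_lit 373088849) (nat_lit 76) (nat_lit 2427827323) (nat_lit 0) (nat_lit 2427827323)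 (nat_lit 531) (nat_lit 1) (nat_lit 507) (nat_lit 1) (nat_lit 506) (nat_lit 1) (nat_lit 355) (nat_lit 402) (nat_lit 383)) (XT.lf (nat_lit 1900) (nat_lit 23360328) (nat_lit 0) (nat_lit 5133951174) (nat_lit 1824) (nat_lit 23360328) (nat_lit 532) (nat_lit 1) (nat_lit 507) (nat_lit 1) (nat_lit 531) (nat_lit 1) (nat_lit 356) (nat_lit 402) (nat_lit 382))) (XT.nd (nat_lit 78) (nat_lit 0) (nat_lit 0) (XT.lf (nat_lit 1976) (nat_lit 2414921565) (nat_lit 0) (nat_lit 302997475) (nat_lit 1900) (nat_lit 2414921565) (nat_lit 508) (nat_lit 1) (nat_lit 482) (nat_lit 1) (nat_lit 507) (nat_lit 1) (nat_lit 357) (nat_lit 402) (nat_lit 381)) (XT.nd (nat_lit 78) (nat_lit 0) (nat_lit 76) (XT.lf (nat_lit 1976) (nat_lit 4438384864) (nat_lit 76) (nat_lit 323755681) (nat_lit 0) (nat_lit 323755681) (nat_lit 508) (nat_lit 1) (nat_lit 483) (nat_lit 1) (nat_lit 482) (nat_lit 1) (nat_lit 358) (nat_lit 402) (nat_lit 380)) (XT.lf (nat_lit 1976) (nat_lit 2012604486) (nat_lit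 0) (nat_lit 1014087013) (nat_lit 1900) (nat_lit 2012604486) (nat_lit 509) (nat_lit 1) (nat_lit 483) (nat_lit 1) (nat_lit 508) (nat_lit 1) (nat_lit 359) (nat_lit 402) (nat_lit 379))))))))
noncomputable def ec86 : XT := (XT.nd (nat_lit 1404) (nat_lit 7372) (nat_lit 0) (XT.nd (nat_lit 702) (nat_lit 4256) (nat_lit 0) (XT.nd (nat_lit 312) (nat_lit 2660) (nat_lit 0) (XT.nd (nat_lit 156) (nat_lit 1064) (nat_lit 0) (XT.nd (nat_lit 78) (nat_lit 0) (nat_lit 76) (XT.lf (nat_lit 1976) (nat_lit 3613462944) (nat_lit 76) (nat_lit 690007857) (nat_lit 0) (nat_lit 690007857) (nat_lit 509) (nat_lit 1) (nat_lit 484) (nat_lit 1) (nat_lit 483) (nat_lit 1) (nat_lit 360) (nat_lit 402) (nat_lit 378)) (XT.lf (nat_lit 76) (nat_lit 1592930074) (nat_lit 0) (nat_lit 1762230343) (nat_lit 1900) (nat_lit 1592930074) (nat_lit 485) (nat_lit 1) (nat_lit 484) (nat_lit 1) (nat_lit 509) (nat_lit 1) (nat_lit 361) (nat_lit 402) (nat_lit 377))) (XT.nd (nat_lit 78) (nat_lit 0)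 (nat_lit 0) (XT.lf (nat_lit 1216) (nat_lit 2755048102) (nat_lit 0) (nat_lit 1074158430) (nat_lit 1140) (nat_lit 1074158430) (nat_lit 485) (nat_lit 1) (nat_lit 469) (nat_lit 1) (nat_lit 484) (nat_lit 1) (nat_lit 362) (nat_lit 402) (nat_lit 376)) (XT.lf (nat_lit 76) (nat_lit 1157218999) (nat_lit 0) (nat_lit 2544720655) (nat_lit 1216) (nat_lit 1157218999) (nat_lit 470) (nat_lit 1) (nat_lit 469) (nat_lit 1) (nat_lit 485) (nat_lit 1) (nat_lit 363) (nat_lit 402) (nat_lit 375)))) (XT.nd (nat_lit 156) (nat_lit 1748) (nat_lit 0) (XT.nd (nat_lit 78) (nat_lit 0) (nat_lit 0) (XT.lf (nat_lit 988) (nat_lit 1865725725) (nat_lit 0) (nat_lit 1474882571) (nat_lit 912) (nat_lit 1474882571) (nat_lit 470) (nat_lit 1) (nat_lit 457) (nat_lit 1) (nat_lit 469) (nat_lit 1) (nat_lit 364) (nat_lit 402) (nat_lit 374)) (XT.lf (nat_lit 76) (nat_lit 706727966) (nat_lit 0) (nat_lit 3358981110) (nat_lit 988) (nat_lit 706727966) (nat_lit 458) (nat_lit 1) (nat_lit 457)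 (nat_lit 1) (nat_lit 470) (nat_lit 1) (nat_lit 365) (nat_lit 402) (nat_lit 373))) (XT.nd (nat_lit 78) (nat_lit 836) (nat_lit 0) (XT.lf (nat_lit 988) (nat_lit 947955614) (nat_lit 0) (nat_lit 1890919245) (nat_lit 912) (nat_lit 1890919245) (nat_lit 458) (nat_lit 1) (nat_lit 445) (nat_lit 1) (nat_lit 457) (nat_lit 1) (nat_lit 366) (nat_lit 402) (nat_lit 372)) (XT.nd (nat_lit 78) (nat_lit 836) (nat_lit 0) (XT.lf (nat_lit 76) (nat_lit 242652450) (nat_lit 0) (nat_lit 4202559305) (nat_lit 988) (nat_lit 242652450) (nat_lit 446) (nat_lit 1) (nat_lit 445) (nat_lit 1) (nat_lit 458) (nat_lit 1) (nat_lit 367) (nat_lit 402) (nat_lit 371)) (XT.lf (nat_lit 912) (nat_lit 4077355) (nat_lit 0) (nat_lit 2321068492) (nat_lit 836) (nat_lit 2321068492) (nat_lit 446) (nat_lit 1) (nat_lit 434) (nat_lit 1) (nat_lit 445) (nat_lit 1) (nat_lit 368) (nat_lit 402) (nat_lit 370)))))) (XT.nd (nat_lit 312) (nat_lit 2432) (nat_lit 0) (XT.nd (nat_lit 156) (nat_lit 836) (nat_lit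 0) (XT.nd (nat_lit 78) (nat_lit 0) (nat_lit 0) (XT.lf (nat_lit 988) (nat_lit 4140594610) (nat_lit 0) (nat_lit 232332056) (nat_lit 912) (nat_lit 232332056) (nat_lit 434) (nat_lit 1) (nat_lit 421) (nat_lit 1) (nat_lit 433) (nat_lit 1) (nat_lit 369) (nat_lit 402) (nat_lit 369)) (XT.lf (nat_lit 76) (nat_lit 1806761168) (nat_lit 0) (nat_lit 951045632) (nat_lit 988) (nat_lit 1806761168) (nat_lit 422) (nat_lit 1) (nat_lit 421) (nat_lit 1) (nat_lit 434) (nat_lit 1) (nat_lit 370) (nat_lit 402) (nat_lit 368))) (XT.nd (nat_lit 78) (nat_lit 0) (nat_lit 0) (XT.lf (nat_lit 912) (nat_lit 3090527935) (nat_lit 0) (nat_lit 717012227) (nat_lit 836) (nat_lit 717012227) (nat_lit 422) (nat_lit 1) (nat_lit 410) (nat_lit 1) (nat_lit 421) (nat_lit 1) (nat_lit 371) (nat_lit 402) (nat_lit 367)) (XT.lf (nat_lit 76) (nat_lit 1278660626) (nat_lit 0) (nat_lit 1927598860) (nat_lit 912) (nat_lit 1278660626) (nat_lit 411) (nat_lit 1) (nat_lit 410) (nat_lit 1) (nat_lit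 422) (nat_lit 1) (nat_lit 372) (nat_lit 402) (nat_lit 366)))) (XT.nd (nat_lit 156) (nat_lit 1596) (nat_lit 0) (XT.nd (nat_lit 78) (nat_lit 0) (nat_lit 0) (XT.lf (nat_lit 912) (nat_lit 2021888032) (nat_lit 0) (nat_lit 1211964125) (nat_lit 836) (nat_lit 1211964125) (nat_lit 411) (nat_lit 1) (nat_lit 399) (nat_lit 1) (nat_lit 410) (nat_lit 1) (nat_lit 373) (nat_lit 402) (nat_lit 365)) (XT.lf (nat_lit 76) (nat_lit 741781757) (nat_lit 0) (nat_lit 2923653129) (nat_lit 912) (nat_lit 741781757) (nat_lit 400) (nat_lit 1) (nat_lit 399) (nat_lit 1) (nat_lit 411) (nat_lit 1) (nat_lit 374) (nat_lit 402) (nat_lit 364))) (XT.nd (nat_lit 78) (nat_lit 836) (nat_lit 0) (XT.lf (nat_lit 836) (nat_lit 936559821) (nat_lit 0) (nat_lit 1716218446) (nat_lit 760) (nat_lit 1716218446) (nat_lit 400) (nat_lit 1) (nat_lit 389) (nat_lit 1) (nat_lit 399) (nat_lit 1) (nat_lit 375) (nat_lit 402) (nat_lit 363)) (XT.nd (nat_lit 78) (nat_lit 836) (nat_lit 0) (XT.lf (nat_lit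 76) (nat_lit 197039653) (nat_lit 0) (nat_lit 3937325273) (nat_lit 836) (nat_lit 197039653) (nat_lit 390) (nat_lit 1) (nat_lit 389) (nat_lit 1) (nat_lit 400) (nat_lit 1) (nat_lit 376) (nat_lit 402) (nat_lit 362)) (XT.lf (nat_lit 76) (nat_lit 2066249562) (nat_lit 0) (nat_lit 161521257) (nat_lit 836) (nat_lit 2066249562) (nat_lit 379) (nat_lit 1) (nat_lit 378) (nat_lit 1) (nat_lit 389) (nat_lit 1) (nat_lit 377) (nat_lit 402) (nat_lit 361))))))) (XT.nd (nat_lit 702) (nat_lit 3724) (nat_lit 0) (XT.nd (nat_lit 312) (nat_lit 2128) (nat_lit 0) (XT.nd (nat_lit 156) (nat_lit 760) (nat_lit 0) (XT.nd (nat_lit 78) (nat_lit 0) (nat_lit 0) (XT.lf (nat_lit 836) (nat_lit 3552519989) (nat_lit 0) (nat_lit 352363853) (nat_lit 760) (nat_lit 352363853) (nat_lit 379) (nat_lit 1) (nat_lit 368) (nat_lit 1) (nat_lit 378) (nat_lit 1) (nat_lit 378) (nat_lit 402) (nat_lit 360)) (XT.lf (nat_lit 76) (nat_lit 1480193186) (nat_lit 0) (nat_lit 1260348364) (nat_lit 836)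 (nat_lit 1480193186) (nat_lit 369) (nat_lit 1) (nat_lit 368) (nat_lit 1) (nat_lit 379) (nat_lit 1) (nat_lit 379) (nat_lit 402) (nat_lit 359))) (XT.nd (nat_lit 78) (nat_lit 0) (nat_lit 0) (XT.lf (nat_lit 836) (nat_lit 2371571453) (nat_lit 0) (nat_lit 906601841) (nat_lit 760) (nat_lit 906601841) (nat_lit 369) (nat_lit 1) (nat_lit 358) (nat_lit 1) (nat_lit 368) (nat_lit 1) (nat_lit 380) (nat_lit 402) (nat_lit 358)) (XT.lf (nat_lit 76) (nat_lit 889298076) (nat_lit 0) (nat_lit 2370616514) (nat_lit 836) (nat_lit 889298076) (nat_lit 359) (nat_lit 1) (nat_lit 358) (nat_lit 1) (nat_lit 369) (nat_lit 1) (nat_lit 381) (nat_lit 402) (nat_lit 357)))) (XT.nd (nat_lit 156) (nat_lit 1444) (nat_lit 0) (XT.nd (nat_lit 78) (nat_lit 0) (nat_lit 0) (XT.lf (nat_lit 760) (nat_lit 1181651658) (nat_lit 0) (nat_lit 1466195018) (nat_lit 684) (nat_lit 1466195018) (nat_lit 359) (nat_lit 1) (nat_lit 349) (nat_lit 1) (nat_lit 358) (nat_lit 1) (nat_lit 382) (nat_lit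 402) (nat_lit 356)) (XT.lf (nat_lit 76) (nat_lit 294293224) (nat_lit 0) (nat_lit 3490820459) (nat_lit 760) (nat_lit 294293224) (nat_lit 350) (nat_lit 1) (nat_lit 349) (nat_lit 1) (nat_lit 359) (nat_lit 1) (nat_lit 383) (nat_lit 402) (nat_lit 355))) (XT.nd (nat_lit 78) (nat_lit 684) (nat_lit 0) (XT.lf (nat_lit 76) (nat_lit 2014695172) (nat_lit 0) (nat_lit 15608524) (nat_lit 760) (nat_lit 2014695172) (nat_lit 340) (nat_lit 1) (nat_lit 339) (nat_lit 1) (nat_lit 349) (nat_lit 1) (nat_lit 384) (nat_lit 402) (nat_lit 354)) (XT.nd (nat_lit 78) (nat_lit 0) (nat_lit 0) (XT.lf (nat_lit 760) (nat_lit 3406852259) (nat_lit 0) (nat_lit 302130429) (nat_lit 684) (nat_lit 302130429) (nat_lit 340) (nat_lit 1) (nat_lit 330) (nat_lit 1) (nat_lit 339) (nat_lit 1) (nat_lit 385) (nat_lit 402) (nat_lit 353)) (XT.lf (nat_lit 76) (nat_lit 1386979433) (nat_lit 0) (nat_lit 1203490537) (nat_lit 760) (nat_lit 1386979433) (nat_lit 331) (nat_lit 1) (nat_lit 330) (nat_lit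 1) (nat_lit 340) (nat_lit 1) (nat_lit 386) (nat_lit 402) (nat_lit 352)))))) (XT.nd (nat_lit 390) (nat_lit 1748) (nat_lit 0) (XT.nd (nat_lit 156) (nat_lit 1292) (nat_lit 0) (XT.nd (nat_lit 78) (nat_lit 0) (nat_lit 0) (XT.lf (nat_lit 760) (nat_lit 2145557448) (nat_lit 0) (nat_lit 899366532) (nat_lit 684) (nat_lit 899366532) (nat_lit 331) (nat_lit 1) (nat_lit 321) (nat_lit 1) (nat_lit 330) (nat_lit 1) (nat_lit 387) (nat_lit 402) (nat_lit 351)) (XT.lf (nat_lit 76) (nat_lit 757634318) (nat_lit 0) (nat_lit 2396234552) (nat_lit 760) (nat_lit 757634318) (nat_lit 322) (nat_lit 1) (nat_lit 321) (nat_lit 1) (nat_lit 331) (nat_lit 1) (nat_lit 388) (nat_lit 402) (nat_lit 350))) (XT.nd (nat_lit 78) (nat_lit 684) (nat_lit 0) (XT.lf (nat_lit 684) (nat_lit 881573727) (nat_lit 0) (nat_lit 1498737957) (nat_lit 608) (nat_lit 1498737957) (nat_lit 322) (nat_lit 1) (nat_lit 313) (nat_lit 1) (nat_lit 321) (nat_lit 1) (nat_lit 389) (nat_lit 402) (nat_lit 349))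 (XT.nd (nat_lit 78) (nat_lit 684) (nat_lit 0) (XT.lf (nat_lit 76) (nat_lit 127232986) (nat_lit 0) (nat_lit 3592651990) (nat_lit 684) (nat_lit 127232986) (nat_lit 314) (nat_lit 1) (nat_lit 313) (nat_lit 1) (nat_lit 322) (nat_lit 1) (nat_lit 390) (nat_lit 402) (nat_lit 348)) (XT.lf (nat_lit 76) (nat_lit 1718176826) (nat_lit 0) (nat_lit 378945434) (nat_lit 684) (nat_lit 1718176826) (nat_lit 305) (nat_lit 1) (nat_lit 304) (nat_lit 1) (nat_lit 313) (nat_lit 1) (nat_lit 391) (nat_lit 402) (nat_lit 347))))) (XT.nd (nat_lit 156) (nat_lit 1140) (nat_lit 0) (XT.nd (nat_lit 78) (nat_lit 0) (nat_lit 0) (XT.lf (nat_lit 684) (nat_lit 2783250321) (nat_lit 0) (nat_lit 500369948) (nat_lit 608) (nat_lit 500369948) (nat_lit 305) (nat_lit 1) (nat_lit 296) (nat_lit 1) (nat_lit 304) (nat_lit 1) (nat_lit 392) (nat_lit 402) (nat_lit 346)) (XT.lf (nat_lit 76) (nat_lit 1062260408) (nat_lit 0) (nat_lit 1628413018) (nat_lit 684) (nat_lit 1062260408) (nat_lit 297)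 (nat_lit 1) (nat_lit 296) (nat_lit 1) (nat_lit 305) (nat_lit 1) (nat_lit 393) (nat_lit 402) (nat_lit 345))) (XT.nd (nat_lit 78) (nat_lit 532) (nat_lit 0) (XT.lf (nat_lit 684) (nat_lit 1467994332) (nat_lit 0) (nat_lit 1127141001) (nat_lit 608) (nat_lit 1127141001) (nat_lit 297) (nat_lit 1) (nat_lit 288) (nat_lit 1) (nat_lit 296) (nat_lit 1) (nat_lit 394) (nat_lit 402) (nat_lit 344)) (XT.nd (nat_lit 78) (nat_lit 532) (nat_lit 0) (XT.lf (nat_lit 76) (nat_lit 407309550) (nat_lit 0) (nat_lit 2877410240) (nat_lit 684) (nat_lit 407309550) (nat_lit 289) (nat_lit 1) (nat_lit 288) (nat_lit 1) (nat_lit 297) (nat_lit 1) (nat_lit 395) (nat_lit 402) (nat_lit 343)) (XT.lf (nat_lit 608) (nat_lit 155124817) (nat_lit 0) (nat_lit 1753439711) (nat_lit 532) (nat_lit 1753439711) (nat_lit 289) (nat_lit 1) (nat_lit 281) (nat_lit 1) (nat_lit 288) (nat_lit 1) (nat_lit 396) (nat_lit 402) (nat_lit 342))))))))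
noncomputable def ec87 : XT := (XT.nd (nat_lit 1404) (nat_lit 4332) (nat_lit 0) (XT.nd (nat_lit 702) (nat_lit 2964) (nat_lit 0) (XT.nd (nat_lit 312) (nat_lit 1672) (nat_lit 0) (XT.nd (nat_lit 156) (nat_lit 532) (nat_lit 0) (XT.nd (nat_lit 78) (nat_lit 0) (nat_lit 0) (XT.lf (nat_lit 684) (nat_lit 3143193782) (nat_lit 0) (nat_lit 244612808) (nat_lit 608) (nat_lit 244612808) (nat_lit 281) (nat_lit 1) (nat_lit 272) (nat_lit 1) (nat_lit 280) (nat_lit 1) (nat_lit 397) (nat_lit 402) (nat_lit 341)) (XT.lf (nat_lit 76) (nat_lit 1231815960) (nat_lit 0) (nat_lit 1139354830) (nat_lit 684) (nat_lit 1231815960) (nat_lit 273) (nat_lit 1) (nat_lit 272) (nat_lit 1) (nat_lit 281) (nat_lit 1) (nat_lit 398) (nat_lit 402) (nat_lit 340))) (XT.nd (nat_lit 78) (nat_lit 0) (nat_lit 0) (XT.lf (nat_lit 608) (nat_lit 1789899044) (nat_lit 0) (nat_lit 892042596) (nat_lit 532) (nat_lit 892042596) (nat_lit 273) (nat_lit 1) (nat_lit 265) (nat_lit 1) (nat_lit 272) (nat_lit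 1) (nat_lit 399) (nat_lit 402) (nat_lit 339)) (XT.lf (nat_lit 76) (nat_lit 558761490) (nat_lit 0) (nat_lit 2427794994) (nat_lit 608) (nat_lit 558761490) (nat_lit 266) (nat_lit 1) (nat_lit 265) (nat_lit 1) (nat_lit 273) (nat_lit 1) (nat_lit 400) (nat_lit 402) (nat_lit 338)))) (XT.nd (nat_lit 156) (nat_lit 532) (nat_lit 0) (XT.nd (nat_lit 78) (nat_lit 608) (nat_lit 0) (XT.lf (nat_lit 608) (nat_lit 442358427) (nat_lit 0) (nat_lit 1537271094) (nat_lit 532) (nat_lit 1537271094) (nat_lit 266) (nat_lit 1) (nat_lit 258) (nat_lit 1) (nat_lit 265) (nat_lit 1) (nat_lit 401) (nat_lit 402) (nat_lit 337)) (XT.lf (nat_lit 608) (nat_lit 3267891704) (nat_lit 0) (nat_lit 110516667) (nat_lit 532) (nat_lit 110516667) (nat_lit 258) (nat_lit 1) (nat_lit 250) (nat_lit 1) (nat_lit 257) (nat_lit 1) (nat_lit 402) (nat_lit 402) (nat_lit 336))) (XT.nd (nat_lit 78) (nat_lit 532) (nat_lit 0) (XT.lf (nat_lit 76) (nat_lit 1287035229) (nat_lit 0) (nat_lit 886946882)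 (nat_lit 608) (nat_lit 1287035229) (nat_lit 251) (nat_lit 1) (nat_lit 250) (nat_lit 1) (nat_lit 258) (nat_lit 1) (nat_lit 403) (nat_lit 402) (nat_lit 335)) (XT.nd (nat_lit 78) (nat_lit 0) (nat_lit 0) (XT.lf (nat_lit 608) (nat_lit 1888018373) (nat_lit 0) (nat_lit 772762032) (nat_lit 532) (nat_lit 772762032) (nat_lit 251) (nat_lit 1) (nat_lit 243) (nat_lit 1) (nat_lit 250) (nat_lit 1) (nat_lit 404) (nat_lit 402) (nat_lit 334)) (XT.lf (nat_lit 76) (nat_lit 601457428) (nat_lit 0) (nat_lit 2203446235) (nat_lit 608) (nat_lit 601457428) (nat_lit 244) (nat_lit 1) (nat_lit 243) (nat_lit 1) (nat_lit 251) (nat_lit 1) (nat_lit 405) (nat_lit 402) (nat_lit 333)))))) (XT.nd (nat_lit 312) (nat_lit 1444) (nat_lit 0) (XT.nd (nat_lit 156) (nat_lit 456) (nat_lit 0) (XT.nd (nat_lit 78) (nat_lit 608) (nat_lit 0) (XT.lf (nat_lit 532) (nat_lit 516748386) (nat_lit 0) (nat_lit 1431340042) (nat_lit 456) (nat_lit 1431340042) (nat_lit 244) (nat_lit 1) (nat_lit 237)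 (nat_lit 1) (nat_lit 243) (nat_lit 1) (nat_lit 406) (nat_lit 402) (nat_lit 332)) (XT.lf (nat_lit 608) (nat_lit 3194577886) (nat_lit 0) (nat_lit 79168711) (nat_lit 532) (nat_lit 79168711) (nat_lit 237) (nat_lit 1) (nat_lit 229) (nat_lit 1) (nat_lit 236) (nat_lit 1) (nat_lit 407) (nat_lit 402) (nat_lit 331))) (XT.nd (nat_lit 78) (nat_lit 456) (nat_lit 0) (XT.lf (nat_lit 76) (nat_lit 1246079093) (nat_lit 0) (nat_lit 834283212) (nat_lit 608) (nat_lit 1246079093) (nat_lit 230) (nat_lit 1) (nat_lit 229) (nat_lit 1) (nat_lit 237) (nat_lit 1) (nat_lit 408) (nat_lit 402) (nat_lit 330)) (XT.lf (nat_lit 532) (nat_lit 1798022717) (nat_lit 0) (nat_lit 751178123) (nat_lit 456) (nat_lit 751178123) (nat_lit 230) (nat_lit 1) (nat_lit 223) (nat_lit 1) (nat_lit 229) (nat_lit 1) (nat_lit 409) (nat_lit 402) (nat_lit 329)))) (XT.nd (nat_lit 156) (nat_lit 988) (nat_lit 0) (XT.nd (nat_lit 78) (nat_lit 456) (nat_lit 0) (XT.lf (nat_lit 76) (nat_lit 552795156)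 (nat_lit 0) (nat_lit 2169003765) (nat_lit 532) (nat_lit 552795156) (nat_lit 224) (nat_lit 1) (nat_lit 223) (nat_lit 1) (nat_lit 230) (nat_lit 1) (nat_lit 410) (nat_lit 402) (nat_lit 328)) (XT.lf (nat_lit 532) (nat_lit 412465251) (nat_lit 0) (nat_lit 1418284863) (nat_lit 456) (nat_lit 1418284863) (nat_lit 224) (nat_lit 1) (nat_lit 217) (nat_lit 1) (nat_lit 223) (nat_lit 1) (nat_lit 411) (nat_lit 402) (nat_lit 327))) (XT.nd (nat_lit 78) (nat_lit 456) (nat_lit 0) (XT.lf (nat_lit 532) (nat_lit 2955827499) (nat_lit 0) (nat_lit 134012837) (nat_lit 456) (nat_lit 134012837) (nat_lit 217) (nat_lit 1) (nat_lit 210) (nat_lit 1) (nat_lit 216) (nat_lit 1) (nat_lit 412) (nat_lit 402) (nat_lit 326)) (XT.nd (nat_lit 78) (nat_lit 456) (nat_lit 0) (XT.lf (nat_lit 76) (nat_lit 1124833724) (nat_lit 0) (nat_lit 949061349) (nat_lit 532) (nat_lit 1124833724) (nat_lit 211) (nat_lit 1) (nat_lit 210) (nat_lit 1) (nat_lit 217) (nat_lit 1) (nat_lit 413) (nat_lit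 402) (nat_lit 325)) (XT.lf (nat_lit 532) (nat_lit 1551109847) (nat_lit 0) (nat_lit 811432389) (nat_lit 456) (nat_lit 811432389) (nat_lit 211) (nat_lit 1) (nat_lit 204) (nat_lit 1) (nat_lit 210) (nat_lit 1) (nat_lit 414) (nat_lit 402) (nat_lit 324))))))) (XT.nd (nat_lit 702) (nat_lit 2204) (nat_lit 0) (XT.nd (nat_lit 312) (nat_lit 1216) (nat_lit 0) (XT.nd (nat_lit 156) (nat_lit 532) (nat_lit 0) (XT.nd (nat_lit 78) (nat_lit 380) (nat_lit 0) (XT.lf (nat_lit 76) (nat_lit 427988602) (nat_lit 0) (nat_lit 2293527211) (nat_lit 532) (nat_lit 427988602) (nat_lit 205) (nat_lit 1) (nat_lit 204) (nat_lit 1) (nat_lit 211) (nat_lit 1) (nat_lit 415) (nat_lit 402) (nat_lit 323)) (XT.lf (nat_lit 456) (nat_lit 159385618) (nat_lit 0) (nat_lit 1482916266) (nat_lit 380) (nat_lit 1482916266) (nat_lit 205) (nat_lit 1) (nat_lit 199) (nat_lit 1) (nat_lit 204) (nat_lit 1) (nat_lit 416) (nat_lit 402) (nat_lit 322))) (XT.nd (nat_lit 78) (nat_lit 0) (nat_lit 0) (XT.lf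 (nat_lit 532) (nat_lit 2580099180) (nat_lit 0) (nat_lit 260575754) (nat_lit 456) (nat_lit 260575754) (nat_lit 199) (nat_lit 1) (nat_lit 192) (nat_lit 1) (nat_lit 198) (nat_lit 1) (nat_lit 417) (nat_lit 402) (nat_lit 321)) (XT.lf (nat_lit 76) (nat_lit 937175375) (nat_lit 0) (nat_lit 1203047102) (nat_lit 532) (nat_lit 937175375) (nat_lit 193) (nat_lit 1) (nat_lit 192) (nat_lit 1) (nat_lit 199) (nat_lit 1) (nat_lit 418) (nat_lit 402) (nat_lit 320)))) (XT.nd (nat_lit 156) (nat_lit 836) (nat_lit 0) (XT.nd (nat_lit 78) (nat_lit 0) (nat_lit 0) (XT.lf (nat_lit 456) (nat_lit 1174525742) (nat_lit 0) (nat_lit 939665892) (nat_lit 380) (nat_lit 939665892) (nat_lit 193) (nat_lit 1) (nat_lit 187) (nat_lit 1) (nat_lit 192) (nat_lit 1) (nat_lit 419) (nat_lit 402) (nat_lit 319)) (XT.lf (nat_lit 76) (nat_lit 240322238) (nat_lit 0) (nat_lit 2549981785) (nat_lit 456) (nat_lit 240322238) (nat_lit 188) (nat_lit 1) (nat_lit 187) (nat_lit 1) (nat_lit 193) (nat_lit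 1) (nat_lit 420) (nat_lit 402) (nat_lit 318))) (XT.nd (nat_lit 78) (nat_lit 380) (nat_lit 0) (XT.lf (nat_lit 76) (nat_lit 1396962108) (nat_lit 0) (nat_lit 213569247) (nat_lit 456) (nat_lit 1396962108) (nat_lit 182) (nat_lit 1) (nat_lit 181) (nat_lit 1) (nat_lit 187) (nat_lit 1) (nat_lit 421) (nat_lit 402) (nat_lit 317)) (XT.nd (nat_lit 78) (nat_lit 0) (nat_lit 0) (XT.lf (nat_lit 456) (nat_lit 2092215595) (nat_lit 0) (nat_lit 446224157) (nat_lit 380) (nat_lit 446224157) (nat_lit 182) (nat_lit 1) (nat_lit 176) (nat_lit 1) (nat_lit 181) (nat_lit 1) (nat_lit 422) (nat_lit 402) (nat_lit 316)) (XT.lf (nat_lit 76) (nat_lit 695205117) (nat_lit 0) (nat_lit 1571600081) (nat_lit 456) (nat_lit 695205117) (nat_lit 177) (nat_lit 1) (nat_lit 176) (nat_lit 1) (nat_lit 182) (nat_lit 1) (nat_lit 423) (nat_lit 402) (nat_lit 315)))))) (XT.nd (nat_lit 390) (nat_lit 1064) (nat_lit 0) (XT.nd (nat_lit 156) (nat_lit 760) (nat_lit 0) (XT.nd (nat_lit 78) (nat_lit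 0) (nat_lit 0) (XT.lf (nat_lit 456) (nat_lit 692026288) (nat_lit 0) (nat_lit 1123785942) (nat_lit 380) (nat_lit 1123785942) (nat_lit 177) (nat_lit 1) (nat_lit 171) (nat_lit 1) (nat_lit 176) (nat_lit 1) (nat_lit 424) (nat_lit 402) (nat_lit 314)) (XT.lf (nat_lit 76) (nat_lit 1376594) (nat_lit 0) (nat_lit 2914782433) (nat_lit 456) (nat_lit 1376594) (nat_lit 172) (nat_lit 1) (nat_lit 171) (nat_lit 1) (nat_lit 177) (nat_lit 1) (nat_lit 425) (nat_lit 402) (nat_lit 313))) (XT.nd (nat_lit 78) (nat_lit 380) (nat_lit 0) (XT.lf (nat_lit 76) (nat_lit 1106168456) (nat_lit 0) (nat_lit 683102873) (nat_lit 380) (nat_lit 1106168456) (nat_lit 167) (nat_lit 1) (nat_lit 166) (nat_lit 1) (nat_lit 171) (nat_lit 1) (nat_lit 426) (nat_lit 402) (nat_lit 312)) (XT.nd (nat_lit 78) (nat_lit 0) (nat_lit 0) (XT.lf (nat_lit 456) (nat_lit 1513789379) (nat_lit 0) (nat_lit 679949499) (nat_lit 380) (nat_lit 679949499) (nat_lit 167) (nat_lit 1) (nat_lit 161) (nat_lit 1)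 (nat_lit 166) (nat_lit 1) (nat_lit 427) (nat_lit 402) (nat_lit 311)) (XT.lf (nat_lit 76) (nat_lit 409456880) (nat_lit 0) (nat_lit 2033253135) (nat_lit 456) (nat_lit 409456880) (nat_lit 162) (nat_lit 1) (nat_lit 161) (nat_lit 1) (nat_lit 167) (nat_lit 1) (nat_lit 428) (nat_lit 402) (nat_lit 310))))) (XT.nd (nat_lit 156) (nat_lit 304) (nat_lit 0) (XT.nd (nat_lit 78) (nat_lit 456) (nat_lit 0) (XT.lf (nat_lit 380) (nat_lit 124286490) (nat_lit 0) (nat_lit 1353259314) (nat_lit 304) (nat_lit 1353259314) (nat_lit 162) (nat_lit 1) (nat_lit 157) (nat_lit 1) (nat_lit 161) (nat_lit 1) (nat_lit 429) (nat_lit 402) (nat_lit 309)) (XT.lf (nat_lit 456) (nat_lit 2255825098) (nat_lit 0) (nat_lit 276937838) (nat_lit 380) (nat_lit 276937838) (nat_lit 157) (nat_lit 1) (nat_lit 151) (nat_lit 1) (nat_lit 156) (nat_lit 1) (nat_lit 430) (nat_lit 402) (nat_lit 308))) (XT.nd (nat_lit 78) (nat_lit 304) (nat_lit 0) (XT.lf (nat_lit 76) (nat_lit 778456356) (nat_lit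 0) (nat_lit 1231788781) (nat_lit 456) (nat_lit 778456356) (nat_lit 152) (nat_lit 1) (nat_lit 151) (nat_lit 1) (nat_lit 157) (nat_lit 1) (nat_lit 431) (nat_lit 402) (nat_lit 307)) (XT.nd (nat_lit 78) (nat_lit 0) (nat_lit 0) (XT.lf (nat_lit 380) (nat_lit 863600618) (nat_lit 0) (nat_lit 952177223) (nat_lit 304) (nat_lit 952177223) (nat_lit 152) (nat_lit 1) (nat_lit 147) (nat_lit 1) (nat_lit 151) (nat_lit 1) (nat_lit 432) (nat_lit 402) (nat_lit 306)) (XT.lf (nat_lit 76) (nat_lit 89081834) (nat_lit 0) (nat_lit 2569339617) (nat_lit 380) (nat_lit 89081834) (nat_lit 148) (nat_lit 1) (nat_lit 147) (nat_lit 1) (nat_lit 152) (nat_lit 1) (nat_lit 433) (nat_lit 402) (nat_lit 305))))))))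
noncomputable def ec88 : XT := (XT.nd (nat_lit 52104) (nat_lit 0) (nat_lit 27740) (XT.nd (nat_lit 702) (nat_lit 304) (nat_lit 0) (XT.nd (nat_lit 312) (nat_lit 988) (nat_lit 0) (XT.nd (nat_lit 156) (nat_lit 304) (nat_lit 0) (XT.nd (nat_lit 78) (nat_lit 304) (nat_lit 0) (XT.lf (nat_lit 76) (nat_lit 1111508138) (nat_lit 0) (nat_lit 504038483) (nat_lit 380) (nat_lit 1111508138) (nat_lit 143) (nat_lit 1) (nat_lit 142) (nat_lit 1) (nat_lit 147) (nat_lit 1) (nat_lit 434) (nat_lit 402) (nat_lit 304)) (XT.lf (nat_lit 380) (nat_lit 1531930651) (nat_lit 0) (nat_lit 587482999) (nat_lit 304) (nat_lit 587482999) (nat_lit 143) (nat_lit 1) (nat_lit 138) (nat_lit 1) (nat_lit 142) (nat_lit 1) (nat_lit 435) (nat_lit 402) (nat_lit 303))) (XT.nd (nat_lit 78) (nat_lit 304) (nat_lit 0) (XT.lf (nat_lit 76) (nat_lit 422125243) (nat_lit 0) (nat_lit 1842684383) (nat_lit 380) (nat_lit 422125243) (nat_lit 139) (nat_lit 1) (nat_lit 138) (nat_lit 1) (nat_lit 143) (nat_lit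 1) (nat_lit 436) (nat_lit 402) (nat_lit 302)) (XT.lf (nat_lit 380) (nat_lit 157931325) (nat_lit 0) (nat_lit 1254597734) (nat_lit 304) (nat_lit 1254597734) (nat_lit 139) (nat_lit 1) (nat_lit 134) (nat_lit 1) (nat_lit 138) (nat_lit 1) (nat_lit 437) (nat_lit 402) (nat_lit 301)))) (XT.nd (nat_lit 156) (nat_lit 608) (nat_lit 0) (XT.nd (nat_lit 78) (nat_lit 0) (nat_lit 0) (XT.lf (nat_lit 380) (nat_lit 2134970233) (nat_lit 0) (nat_lit 256290959) (nat_lit 304) (nat_lit 256290959) (nat_lit 134) (nat_lit 1) (nat_lit 129) (nat_lit 1) (nat_lit 133) (nat_lit 1) (nat_lit 438) (nat_lit 402) (nat_lit 300)) (XT.lf (nat_lit 76) (nat_lit 723142591) (nat_lit 0) (nat_lit 1181778803) (nat_lit 380) (nat_lit 723142591) (nat_lit 130) (nat_lit 1) (nat_lit 129) (nat_lit 1) (nat_lit 134) (nat_lit 1) (nat_lit 439) (nat_lit 402) (nat_lit 299))) (XT.nd (nat_lit 78) (nat_lit 304) (nat_lit 0) (XT.lf (nat_lit 380) (nat_lit 763328901) (nat_lit 0) (nat_lit 922738296) (nat_lit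 304) (nat_lit 922738296) (nat_lit 130) (nat_lit 1) (nat_lit 125) (nat_lit 1) (nat_lit 129) (nat_lit 1) (nat_lit 440) (nat_lit 402) (nat_lit 298)) (XT.nd (nat_lit 78) (nat_lit 304) (nat_lit 0) (XT.lf (nat_lit 76) (nat_lit 44354380) (nat_lit 0) (nat_lit 2501116738) (nat_lit 380) (nat_lit 44354380) (nat_lit 126) (nat_lit 1) (nat_lit 125) (nat_lit 1) (nat_lit 130) (nat_lit 1) (nat_lit 441) (nat_lit 402) (nat_lit 297)) (XT.lf (nat_lit 76) (nat_lit 994703462) (nat_lit 0) (nat_lit 581411594) (nat_lit 304) (nat_lit 994703462) (nat_lit 122) (nat_lit 1) (nat_lit 121) (nat_lit 1) (nat_lit 125) (nat_lit 1) (nat_lit 442) (nat_lit 402) (nat_lit 296)))))) (XT.nd (nat_lit 51012) (nat_lit 0) (nat_lit 28956) (XT.nd (nat_lit 50856) (nat_lit 0) (nat_lit 28880) (XT.nd (nat_lit 78) (nat_lit 0) (nat_lit 0) (XT.lf (nat_lit 380) (nat_lit 1310516315) (nat_lit 0) (nat_lit 620785121) (nat_lit 304) (nat_lit 620785121) (nat_lit 122) (nat_lit 1) (nat_lit 117) (nat_lit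 1) (nat_lit 121) (nat_lit 1) (nat_lit 443) (nat_lit 402) (nat_lit 295)) (XT.lf (nat_lit 76) (nat_lit 318129186) (nat_lit 0) (nat_lit 1897293345) (nat_lit 380) (nat_lit 318129186) (nat_lit 118) (nat_lit 1) (nat_lit 117) (nat_lit 1) (nat_lit 122) (nat_lit 1) (nat_lit 444) (nat_lit 402) (nat_lit 294))) (XT.nd (nat_lit 78) (nat_lit 0) (nat_lit 0) (XT.lf (nat_lit 1900) (nat_lit 1063626883) (nat_lit 0) (nat_lit 1072521278) (nat_lit 1900) (nat_lit 1063626883) (nat_lit 522) (nat_lit 1) (nat_lit 497) (nat_lit 0) (nat_lit 522) (nat_lit 0) (nat_lit 334) (nat_lit 403) (nat_lit 403)) (XT.lf (nat_lit 1900) (nat_lit 4205740616) (nat_lit 76) (nat_lit 1065465217) (nat_lit 0) (nat_lit 1065465217) (nat_lit 522) (nat_lit 1) (nat_lit 498) (nat_lit 1) (nat_lit 497) (nat_lit 0) (nat_lit 335) (nat_lit 403) (nat_lit 402)))) (XT.nd (nat_lit 156) (nat_lit 0) (nat_lit 76) (XT.nd (nat_lit 78) (nat_lit 0) (nat_lit 0) (XT.lf (nat_lit 1900) (nat_lit 2065038662) (nat_lit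 0) (nat_lit 2144401478) (nat_lit 1824) (nat_lit 2065038662) (nat_lit 523) (nat_lit 1) (nat_lit 498) (nat_lit 1) (nat_lit 522) (nat_lit 1) (nat_lit 336) (nat_lit 403) (nat_lit 401)) (XT.lf (nat_lit 1900) (nat_lit 4041789722) (nat_lit 76) (nat_lit 1085719831) (nat_lit 0) (nat_lit 1085719831) (nat_lit 523) (nat_lit 1) (nat_lit 499) (nat_lit 1) (nat_lit 498) (nat_lit 1) (nat_lit 337) (nat_lit 403) (nat_lit 400))) (XT.nd (nat_lit 78) (nat_lit 0) (nat_lit 0) (XT.lf (nat_lit 1900) (nat_lit 1964233214) (nat_lit 0) (nat_lit 2224189667) (nat_lit 1824) (nat_lit 1964233214) (nat_lit 524) (nat_lit 1) (nat_lit 499) (nat_lit 1) (nat_lit 523) (nat_lit 1) (nat_lit 338) (nat_lit 403) (nat_lit 399)) (XT.nd (nat_lit 78) (nat_lit 0) (nat_lit 76) (XT.lf (nat_lit 1900) (nat_lit 3802732336) (nat_lit 76) (nat_lit 1145125633) (nat_lit 0) (nat_lit 1145125633) (nat_lit 524) (nat_lit 1) (nat_lit 500) (nat_lit 1) (nat_lit 499) (nat_lit 1) (nat_lit 339) (nat_lit 403)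 (nat_lit 398)) (XT.lf (nat_lit 1900) (nat_lit 1827139979) (nat_lit 0) (nat_lit 2379707399) (nat_lit 1824) (nat_lit 1827139979) (nat_lit 525) (nat_lit 1) (nat_lit 500) (nat_lit 1) (nat_lit 524) (nat_lit 1) (nat_lit 340) (nat_lit 403) (nat_lit 397))))))) (XT.nd (nat_lit 702) (nat_lit 1368) (nat_lit 0) (XT.nd (nat_lit 312) (nat_lit 0) (nat_lit 152) (XT.nd (nat_lit 156) (nat_lit 0) (nat_lit 76) (XT.nd (nat_lit 78) (nat_lit 0) (nat_lit 76) (XT.lf (nat_lit 1900) (nat_lit 3493082442) (nat_lit 76) (nat_lit 1241379240) (nat_lit 0) (nat_lit 1241379240) (nat_lit 525) (nat_lit 1) (nat_lit 501) (nat_lit 1) (nat_lit 500) (nat_lit 1) (nat_lit 341) (nat_lit 403) (nat_lit 396)) (XT.lf (nat_lit 1900) (nat_lit 1655956332) (nat_lit 0) (nat_lit 2606468362) (nat_lit 1824) (nat_lit 1655956332) (nat_lit 526) (nat_lit 1) (nat_lit 501) (nat_lit 1) (nat_lit 525) (nat_lit 1) (nat_lit 342) (nat_lit 403) (nat_lit 395))) (XT.nd (nat_lit 78) (nat_lit 0) (nat_lit 76)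 (XT.lf (nat_lit 1900) (nat_lit 3117147419) (nat_lit 76) (nat_lit 1372282072) (nat_lit 0) (nat_lit 1372282072) (nat_lit 526) (nat_lit 1) (nat_lit 502) (nat_lit 1) (nat_lit 501) (nat_lit 1) (nat_lit 343) (nat_lit 403) (nat_lit 394)) (XT.lf (nat_lit 1900) (nat_lit 1452778869) (nat_lit 0) (nat_lit 2900190757) (nat_lit 1824) (nat_lit 1452778869) (nat_lit 527) (nat_lit 1) (nat_lit 502) (nat_lit 1) (nat_lit 526) (nat_lit 1) (nat_lit 344) (nat_lit 403) (nat_lit 393)))) (XT.nd (nat_lit 156) (nat_lit 0) (nat_lit 76) (XT.nd (nat_lit 78) (nat_lit 0) (nat_lit 76) (XT.lf (nat_lit 1900) (nat_lit 2679036673) (nat_lit 76) (nat_lit 1535735973) (nat_lit 0) (nat_lit 1535735973) (nat_lit 527) (nat_lit 1) (nat_lit 503) (nat_lit 1) (nat_lit 502) (nat_lit 1) (nat_lit 345) (nat_lit 403) (nat_lit 392)) (XT.lf (nat_lit 1900) (nat_lit 1219607616) (nat_lit 0) (nat_lit 3256788765) (nat_lit 1824) (nat_lit 1219607616) (nat_lit 528) (nat_lit 1) (nat_lit 503) (nat_lit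 1) (nat_lit 527) (nat_lit 1) (nat_lit 346) (nat_lit 403) (nat_lit 391))) (XT.nd (nat_lit 78) (nat_lit 0) (nat_lit 76) (XT.lf (nat_lit 1900) (nat_lit 2182669931) (nat_lit 76) (nat_lit 1729739020) (nat_lit 0) (nat_lit 1729739020) (nat_lit 528) (nat_lit 1) (nat_lit 504) (nat_lit 1) (nat_lit 503) (nat_lit 1) (nat_lit 347) (nat_lit 403) (nat_lit 390)) (XT.nd (nat_lit 78) (nat_lit 0) (nat_lit 0) (XT.lf (nat_lit 1900) (nat_lit 958350081) (nat_lit 0) (nat_lit 3672364356) (nat_lit 1824) (nat_lit 958350081) (nat_lit 529) (nat_lit 1) (nat_lit 504) (nat_lit 1) (nat_lit 528) (nat_lit 1) (nat_lit 348) (nat_lit 403) (nat_lit 389)) (XT.lf (nat_lit 1900) (nat_lit 1631785195) (nat_lit 76) (nat_lit 1952381495) (nat_lit 0) (nat_lit 1952381495) (nat_lit 529) (nat_lit 1) (nat_lit 505) (nat_lit 1) (nat_lit 504) (nat_lit 1) (nat_lit 349) (nat_lit 403) (nat_lit 388)))))) (XT.nd (nat_lit 312) (nat_lit 1748) (nat_lit 0) (XT.nd (nat_lit 156) (nat_lit 0) (nat_lit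 76) (XT.nd (nat_lit 78) (nat_lit 0) (nat_lit 0) (XT.lf (nat_lit 1900) (nat_lit 670825135) (nat_lit 0) (nat_lit 4143199422) (nat_lit 1824) (nat_lit 670825135) (nat_lit 530) (nat_lit 1) (nat_lit 505) (nat_lit 1) (nat_lit 529) (nat_lit 1) (nat_lit 350) (nat_lit 403) (nat_lit 387)) (XT.lf (nat_lit 1900) (nat_lit 1029946376) (nat_lit 76) (nat_lit 2201842025) (nat_lit 0) (nat_lit 2201842025) (nat_lit 530) (nat_lit 1) (nat_lit 506) (nat_lit 1) (nat_lit 505) (nat_lit 1) (nat_lit 351) (nat_lit 403) (nat_lit 386))) (XT.nd (nat_lit 78) (nat_lit 0) (nat_lit 0) (XT.lf (nat_lit 1900) (nat_lit 358766742) (nat_lit 0) (nat_lit 4665748234) (nat_lit 1824) (nat_lit 358766742) (nat_lit 531) (nat_lit 1) (nat_lit 506) (nat_lit 1) (nat_lit 530) (nat_lit 1) (nat_lit 352) (nat_lit 403) (nat_lit 385)) (XT.lf (nat_lit 1900) (nat_lit 380550626) (nat_lit 76) (nat_lit 2476383869) (nat_lit 0) (nat_lit 2476383869) (nat_lit 531) (nat_lit 1) (nat_lit 507) (nat_lit 1) (nat_lit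 506) (nat_lit 1) (nat_lit 353) (nat_lit 403) (nat_lit 384)))) (XT.nd (nat_lit 156) (nat_lit 0) (nat_lit 0) (XT.nd (nat_lit 78) (nat_lit 1900) (nat_lit 0) (XT.lf (nat_lit 1900) (nat_lit 23827535) (nat_lit 0) (nat_lit 5236630197) (nat_lit 1824) (nat_lit 23827535) (nat_lit 532) (nat_lit 1) (nat_lit 507) (nat_lit 1) (nat_lit 531) (nat_lit 1) (nat_lit 354) (nat_lit 403) (nat_lit 383)) (XT.lf (nat_lit 1976) (nat_lit 2463219996) (nat_lit 0) (nat_lit 309057425) (nat_lit 1900) (nat_lit 2463219996) (nat_lit 508) (nat_lit 1) (nat_lit 482) (nat_lit 1) (nat_lit 507) (nat_lit 1) (nat_lit 355) (nat_lit 403) (nat_lit 382))) (XT.nd (nat_lit 78) (nat_lit 0) (nat_lit 76) (XT.lf (nat_lit 1976) (nat_lit 4527152561) (nat_lit 76) (nat_lit 330230794) (nat_lit 0) (nat_lit 330230794) (nat_lit 508) (nat_lit 1) (nat_lit 483) (nat_lit 1) (nat_lit 482) (nat_lit 1) (nat_lit 356) (nat_lit 403) (nat_lit 381)) (XT.nd (nat_lit 78) (nat_lit 0) (nat_lit 0) (XT.lf (nat_lit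 1976) (nat_lit 2052856576) (nat_lit 0) (nat_lit 1034368753) (nat_lit 1900) (nat_lit 2052856576) (nat_lit 509) (nat_lit 1) (nat_lit 483) (nat_lit 1) (nat_lit 508) (nat_lit 1) (nat_lit 357) (nat_lit 403) (nat_lit 380)) (XT.lf (nat_lit 1976) (nat_lit 3685732203) (nat_lit 76) (nat_lit 703808015) (nat_lit 0) (nat_lit 703808015) (nat_lit 509) (nat_lit 1) (nat_lit 484) (nat_lit 1) (nat_lit 483) (nat_lit 1) (nat_lit 358) (nat_lit 403) (nat_lit 379))))))))
noncomputable def ec89 : XT := (XT.nd (nat_lit 1404) (nat_lit 7296) (nat_lit 0) (XT.nd (nat_lit 702) (nat_lit 4028) (nat_lit 0) (XT.nd (nat_lit 312) (nat_lit 2736) (nat_lit 0) (XT.nd (nat_lit 156) (nat_lit 912) (nat_lit 0) (XT.nd (nat_lit 78) (nat_lit 1140) (nat_lit 0) (XT.lf (nat_lit 76) (nat_lit 1624788676) (nat_lit 0) (nat_lit 1797474950) (nat_lit 1900) (nat_lit 1624788676) (nat_lit 485) (nat_lit 1) (nat_lit 484) (nat_lit 1) (nat_lit 509) (nat_lit 1) (nat_lit 359) (nat_lit 403) (nat_lit 378))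 (XT.lf (nat_lit 1216) (nat_lit 2810149064) (nat_lit 0) (nat_lit 1095641599) (nat_lit 1140) (nat_lit 1095641599) (nat_lit 485) (nat_lit 1) (nat_lit 469) (nat_lit 1) (nat_lit 484) (nat_lit 1) (nat_lit 360) (nat_lit 403) (nat_lit 377))) (XT.nd (nat_lit 78) (nat_lit 912) (nat_lit 0) (XT.lf (nat_lit 76) (nat_lit 1180363379) (nat_lit 0) (nat_lit 2595615068) (nat_lit 1216) (nat_lit 1180363379) (nat_lit 470) (nat_lit 1) (nat_lit 469) (nat_lit 1) (nat_lit 485) (nat_lit 1) (nat_lit 361) (nat_lit 403) (nat_lit 376)) (XT.lf (nat_lit 988) (nat_lit 1903040239) (nat_lit 0) (nat_lit 1504380222) (nat_lit 912) (nat_lit 1504380222) (nat_lit 470) (nat_lit 1) (nat_lit 457) (nat_lit 1) (nat_lit 469) (nat_lit 1) (nat_lit 362) (nat_lit 403) (nat_lit 375)))) (XT.nd (nat_lit 156) (nat_lit 1824) (nat_lit 0) (XT.nd (nat_lit 78) (nat_lit 912) (nat_lit 0) (XT.lf (nat_lit 76) (nat_lit 720862525) (nat_lit 0) (nat_lit 3426160732) (nat_lit 988) (nat_lit 720862525) (nat_lit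 458) (nat_lit 1) (nat_lit 457) (nat_lit 1) (nat_lit 470) (nat_lit 1) (nat_lit 363) (nat_lit 403) (nat_lit 374)) (XT.lf (nat_lit 988) (nat_lit 966914726) (nat_lit 0) (nat_lit 1928737630) (nat_lit 912) (nat_lit 1928737630) (nat_lit 458) (nat_lit 1) (nat_lit 445) (nat_lit 1) (nat_lit 457) (nat_lit 1) (nat_lit 364) (nat_lit 403) (nat_lit 373))) (XT.nd (nat_lit 78) (nat_lit 1824) (nat_lit 0) (XT.lf (nat_lit 76) (nat_lit 247505499) (nat_lit 0) (nat_lit 4286610491) (nat_lit 988) (nat_lit 247505499) (nat_lit 446) (nat_lit 1) (nat_lit 445) (nat_lit 1) (nat_lit 458) (nat_lit 1) (nat_lit 365) (nat_lit 403) (nat_lit 372)) (XT.nd (nat_lit 78) (nat_lit 988) (nat_lit 0) (XT.lf (nat_lit 912) (nat_lit 4158902) (nat_lit 0) (nat_lit 2367489861) (nat_lit 836) (nat_lit 2367489861) (nat_lit 446) (nat_lit 1) (nat_lit 434) (nat_lit 1) (nat_lit 445) (nat_lit 1) (nat_lit 366) (nat_lit 403) (nat_lit 371)) (XT.lf (nat_lit 988) (nat_lit 4223406502) (nat_lit 0) (nat_lit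 236978697) (nat_lit 912) (nat_lit 236978697) (nat_lit 434) (nat_lit 1) (nat_lit 421) (nat_lit 1) (nat_lit 433) (nat_lit 1) (nat_lit 367) (nat_lit 403) (nat_lit 370)))))) (XT.nd (nat_lit 312) (nat_lit 2356) (nat_lit 0) (XT.nd (nat_lit 156) (nat_lit 836) (nat_lit 0) (XT.nd (nat_lit 78) (nat_lit 836) (nat_lit 0) (XT.lf (nat_lit 76) (nat_lit 1842896392) (nat_lit 0) (nat_lit 970066544) (nat_lit 988) (nat_lit 1842896392) (nat_lit 422) (nat_lit 1) (nat_lit 421) (nat_lit 1) (nat_lit 434) (nat_lit 1) (nat_lit 368) (nat_lit 403) (nat_lit 369)) (XT.lf (nat_lit 912) (nat_lit 3152338494) (nat_lit 0) (nat_lit 731352471) (nat_lit 836) (nat_lit 731352471) (nat_lit 422) (nat_lit 1) (nat_lit 410) (nat_lit 1) (nat_lit 421) (nat_lit 1) (nat_lit 369) (nat_lit 403) (nat_lit 368))) (XT.nd (nat_lit 78) (nat_lit 836) (nat_lit 0) (XT.lf (nat_lit 76) (nat_lit 1304233839) (nat_lit 0) (nat_lit 1966150837) (nat_lit 912) (nat_lit 1304233839) (nat_lit 411) (nat_lit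 1) (nat_lit 410) (nat_lit 1) (nat_lit 422) (nat_lit 1) (nat_lit 370) (nat_lit 403) (nat_lit 367)) (XT.lf (nat_lit 912) (nat_lit 2062325793) (nat_lit 0) (nat_lit 1236203407) (nat_lit 836) (nat_lit 1236203407) (nat_lit 411) (nat_lit 1) (nat_lit 399) (nat_lit 1) (nat_lit 410) (nat_lit 1) (nat_lit 371) (nat_lit 403) (nat_lit 366)))) (XT.nd (nat_lit 156) (nat_lit 1596) (nat_lit 0) (XT.nd (nat_lit 78) (nat_lit 760) (nat_lit 0) (XT.lf (nat_lit 76) (nat_lit 756617393) (nat_lit 0) (nat_lit 2982126192) (nat_lit 912) (nat_lit 756617393) (nat_lit 400) (nat_lit 1) (nat_lit 399) (nat_lit 1) (nat_lit 411) (nat_lit 1) (nat_lit 372) (nat_lit 403) (nat_lit 365)) (XT.lf (nat_lit 836) (nat_lit 955291018) (nat_lit 0) (nat_lit 1750542815) (nat_lit 760) (nat_lit 1750542815) (nat_lit 400) (nat_lit 1) (nat_lit 389) (nat_lit 1) (nat_lit 399) (nat_lit 1) (nat_lit 373) (nat_lit 403) (nat_lit 364))) (XT.nd (nat_lit 78) (nat_lit 1596) (nat_lit 0) (XT.lf (nat_lit 76)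 (nat_lit 200980446) (nat_lit 0) (nat_lit 4016071778) (nat_lit 836) (nat_lit 200980446) (nat_lit 390) (nat_lit 1) (nat_lit 389) (nat_lit 1) (nat_lit 400) (nat_lit 1) (nat_lit 374) (nat_lit 403) (nat_lit 363)) (XT.nd (nat_lit 78) (nat_lit 760) (nat_lit 0) (XT.lf (nat_lit 76) (nat_lit 2107574553) (nat_lit 0) (nat_lit 164751683) (nat_lit 836) (nat_lit 2107574553) (nat_lit 379) (nat_lit 1) (nat_lit 378) (nat_lit 1) (nat_lit 389) (nat_lit 1) (nat_lit 375) (nat_lit 403) (nat_lit 362)) (XT.lf (nat_lit 836) (nat_lit 3623570389) (nat_lit 0) (nat_lit 359411130) (nat_lit 760) (nat_lit 359411130) (nat_lit 379) (nat_lit 1) (nat_lit 368) (nat_lit 1) (nat_lit 378) (nat_lit 1) (nat_lit 376) (nat_lit 403) (nat_lit 361))))))) (XT.nd (nat_lit 702) (nat_lit 3724) (nat_lit 0) (XT.nd (nat_lit 312) (nat_lit 2128) (nat_lit 0) (XT.nd (nat_lit 156) (nat_lit 684) (nat_lit 0) (XT.nd (nat_lit 78) (nat_lit 760) (nat_lit 0) (XT.lf (nat_lit 76) (nat_lit 1509797050) (nat_lit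 0) (nat_lit 1285555332) (nat_lit 836) (nat_lit 1509797050) (nat_lit 369) (nat_lit 1) (nat_lit 368) (nat_lit 1) (nat_lit 379) (nat_lit 1) (nat_lit 377) (nat_lit 403) (nat_lit 360)) (XT.lf (nat_lit 836) (nat_lit 2419002882) (nat_lit 0) (nat_lit 924733877) (nat_lit 760) (nat_lit 924733877) (nat_lit 369) (nat_lit 1) (nat_lit 358) (nat_lit 1) (nat_lit 368) (nat_lit 1) (nat_lit 378) (nat_lit 403) (nat_lit 359))) (XT.nd (nat_lit 78) (nat_lit 684) (nat_lit 0) (XT.lf (nat_lit 76) (nat_lit 907084037) (nat_lit 0) (nat_lit 2418028844) (nat_lit 836) (nat_lit 907084037) (nat_lit 359) (nat_lit 1) (nat_lit 358) (nat_lit 1) (nat_lit 369) (nat_lit 1) (nat_lit 379) (nat_lit 403) (nat_lit 358)) (XT.lf (nat_lit 760) (nat_lit 1205284691) (nat_lit 0) (nat_lit 1495518918) (nat_lit 684) (nat_lit 1495518918) (nat_lit 359) (nat_lit 1) (nat_lit 349) (nat_lit 1) (nat_lit 358) (nat_lit 1) (nat_lit 380) (nat_lit 403) (nat_lit 357)))) (XT.nd (nat_lit 156) (nat_lit 1368)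 (nat_lit 0) (XT.nd (nat_lit 78) (nat_lit 760) (nat_lit 0) (XT.lf (nat_lit 76) (nat_lit 300179089) (nat_lit 0) (nat_lit 3560636868) (nat_lit 760) (nat_lit 300179089) (nat_lit 350) (nat_lit 1) (nat_lit 349) (nat_lit 1) (nat_lit 359) (nat_lit 1) (nat_lit 381) (nat_lit 403) (nat_lit 356)) (XT.lf (nat_lit 76) (nat_lit 2054989076) (nat_lit 0) (nat_lit 15920694) (nat_lit 760) (nat_lit 2054989076) (nat_lit 340) (nat_lit 1) (nat_lit 339) (nat_lit 1) (nat_lit 349) (nat_lit 1) (nat_lit 382) (nat_lit 403) (nat_lit 355))) (XT.nd (nat_lit 78) (nat_lit 684) (nat_lit 0) (XT.lf (nat_lit 760) (nat_lit 3474989305) (nat_lit 0) (nat_lit 308173038) (nat_lit 684) (nat_lit 308173038) (nat_lit 340) (nat_lit 1) (nat_lit 330) (nat_lit 1) (nat_lit 339) (nat_lit 1) (nat_lit 383) (nat_lit 403) (nat_lit 354)) (XT.nd (nat_lit 78) (nat_lit 684) (nat_lit 0) (XT.lf (nat_lit 76) (nat_lit 1414719022) (nat_lit 0) (nat_lit 1227560347) (nat_lit 760) (nat_lit 1414719022) (nat_lit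 331) (nat_lit 1) (nat_lit 330) (nat_lit 1) (nat_lit 340) (nat_lit 1) (nat_lit 384) (nat_lit 403) (nat_lit 353)) (XT.lf (nat_lit 760) (nat_lit 2188468597) (nat_lit 0) (nat_lit 917353863) (nat_lit 684) (nat_lit 917353863) (nat_lit 331) (nat_lit 1) (nat_lit 321) (nat_lit 1) (nat_lit 330) (nat_lit 1) (nat_lit 385) (nat_lit 403) (nat_lit 352)))))) (XT.nd (nat_lit 390) (nat_lit 1824) (nat_lit 0) (XT.nd (nat_lit 156) (nat_lit 1292) (nat_lit 0) (XT.nd (nat_lit 78) (nat_lit 608) (nat_lit 0) (XT.lf (nat_lit 76) (nat_lit 772787004) (nat_lit 0) (nat_lit 2444159243) (nat_lit 760) (nat_lit 772787004) (nat_lit 322) (nat_lit 1) (nat_lit 321) (nat_lit 1) (nat_lit 331) (nat_lit 1) (nat_lit 386) (nat_lit 403) (nat_lit 351)) (XT.lf (nat_lit 684) (nat_lit 899205202) (nat_lit 0) (nat_lit 1528712716) (nat_lit 608) (nat_lit 1528712716) (nat_lit 322) (nat_lit 1) (nat_lit 313) (nat_lit 1) (nat_lit 321) (nat_lit 1) (nat_lit 387) (nat_lit 403) (nat_lit 350))) (XT.nd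 (nat_lit 78) (nat_lit 1292) (nat_lit 0) (XT.lf (nat_lit 76) (nat_lit 129777646) (nat_lit 0) (nat_lit 3664505030) (nat_lit 684) (nat_lit 129777646) (nat_lit 314) (nat_lit 1) (nat_lit 313) (nat_lit 1) (nat_lit 322) (nat_lit 1) (nat_lit 388) (nat_lit 403) (nat_lit 349)) (XT.nd (nat_lit 78) (nat_lit 608) (nat_lit 0) (XT.lf (nat_lit 76) (nat_lit 1752540362) (nat_lit 0) (nat_lit 386524343) (nat_lit 684) (nat_lit 1752540362) (nat_lit 305) (nat_lit 1) (nat_lit 304) (nat_lit 1) (nat_lit 313) (nat_lit 1) (nat_lit 389) (nat_lit 403) (nat_lit 348)) (XT.lf (nat_lit 684) (nat_lit 2838915327) (nat_lit 0) (nat_lit 510377347) (nat_lit 608) (nat_lit 510377347) (nat_lit 305) (nat_lit 1) (nat_lit 296) (nat_lit 1) (nat_lit 304) (nat_lit 1) (nat_lit 390) (nat_lit 403) (nat_lit 347))))) (XT.nd (nat_lit 156) (nat_lit 1216) (nat_lit 0) (XT.nd (nat_lit 78) (nat_lit 608) (nat_lit 0) (XT.lf (nat_lit 76) (nat_lit 1083505616) (nat_lit 0) (nat_lit 1660981278) (nat_lit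 684) (nat_lit 1083505616) (nat_lit 297) (nat_lit 1) (nat_lit 296) (nat_lit 1) (nat_lit 305) (nat_lit 1) (nat_lit 391) (nat_lit 403) (nat_lit 346)) (XT.lf (nat_lit 684) (nat_lit 1497354219) (nat_lit 0) (nat_lit 1149683821) (nat_lit 608) (nat_lit 1149683821) (nat_lit 297) (nat_lit 1) (nat_lit 288) (nat_lit 1) (nat_lit 296) (nat_lit 1) (nat_lit 392) (nat_lit 403) (nat_lit 345))) (XT.nd (nat_lit 78) (nat_lit 1216) (nat_lit 0) (XT.lf (nat_lit 76) (nat_lit 415455741) (nat_lit 0) (nat_lit 2934958444) (nat_lit 684) (nat_lit 415455741) (nat_lit 289) (nat_lit 1) (nat_lit 288) (nat_lit 1) (nat_lit 297) (nat_lit 1) (nat_lit 393) (nat_lit 403) (nat_lit 344)) (XT.nd (nat_lit 78) (nat_lit 684) (nat_lit 0) (XT.lf (nat_lit 608) (nat_lit 158227313) (nat_lit 0) (nat_lit 1788508506) (nat_lit 532) (nat_lit 1788508506) (nat_lit 289) (nat_lit 1) (nat_lit 281) (nat_lit 1) (nat_lit 288) (nat_lit 1) (nat_lit 394) (nat_lit 403) (nat_lit 343)) (XT.lf (nat_lit 684)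 (nat_lit 3206057658) (nat_lit 0) (nat_lit 249505064) (nat_lit 608) (nat_lit 249505064) (nat_lit 281) (nat_lit 1) (nat_lit 272) (nat_lit 1) (nat_lit 280) (nat_lit 1) (nat_lit 395) (nat_lit 403) (nat_lit 342))))))))
noncomputable def ec90 : XT := (XT.nd (nat_lit 1404) (nat_lit 4332) (nat_lit 0) (XT.nd (nat_lit 702) (nat_lit 2508) (nat_lit 0) (XT.nd (nat_lit 312) (nat_lit 1596) (nat_lit 0) (XT.nd (nat_lit 156) (nat_lit 532) (nat_lit 0) (XT.nd (nat_lit 78) (nat_lit 532) (nat_lit 0) (XT.lf (nat_lit 76) (nat_lit 1256452279) (nat_lit 0) (nat_lit 1162141927) (nat_lit 684) (nat_lit 1256452279) (nat_lit 273) (nat_lit 1) (nat_lit 272) (nat_lit 1) (nat_lit 281) (nat_lit 1) (nat_lit 396) (nat_lit 403) (nat_lit 341)) (XT.lf (nat_lit 608) (nat_lit 1825697025) (nat_lit 0) (nat_lit 909883448) (nat_lit 532) (nat_lit 909883448) (nat_lit 273) (nat_lit 1) (nat_lit 265) (nat_lit 1) (nat_lit 272) (nat_lit 1) (nat_lit 397) (nat_lit 403) (nat_lit 340))) (XT.nd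 (nat_lit 78) (nat_lit 532) (nat_lit 0) (XT.lf (nat_lit 76) (nat_lit 569936720) (nat_lit 0) (nat_lit 2476350894) (nat_lit 608) (nat_lit 569936720) (nat_lit 266) (nat_lit 1) (nat_lit 265) (nat_lit 1) (nat_lit 273) (nat_lit 1) (nat_lit 398) (nat_lit 403) (nat_lit 339)) (XT.lf (nat_lit 608) (nat_lit 451205596) (nat_lit 0) (nat_lit 1568016515) (nat_lit 532) (nat_lit 1568016515) (nat_lit 266) (nat_lit 1) (nat_lit 258) (nat_lit 1) (nat_lit 265) (nat_lit 1) (nat_lit 399) (nat_lit 403) (nat_lit 338)))) (XT.nd (nat_lit 156) (nat_lit 988) (nat_lit 0) (XT.nd (nat_lit 78) (nat_lit 0) (nat_lit 0) (XT.lf (nat_lit 608) (nat_lit 3333249538) (nat_lit 0) (nat_lit 112727000) (nat_lit 532) (nat_lit 112727000) (nat_lit 258) (nat_lit 1) (nat_lit 250) (nat_lit 1) (nat_lit 257) (nat_lit 1) (nat_lit 400) (nat_lit 403) (nat_lit 337)) (XT.lf (nat_lit 76) (nat_lit 1312775933) (nat_lit 0) (nat_lit 904685820) (nat_lit 608) (nat_lit 1312775933) (nat_lit 251) (nat_lit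 1) (nat_lit 250) (nat_lit 1) (nat_lit 258) (nat_lit 1) (nat_lit 401) (nat_lit 403) (nat_lit 336))) (XT.nd (nat_lit 78) (nat_lit 456) (nat_lit 0) (XT.lf (nat_lit 608) (nat_lit 1925778740) (nat_lit 0) (nat_lit 788217272) (nat_lit 532) (nat_lit 788217272) (nat_lit 251) (nat_lit 1) (nat_lit 243) (nat_lit 1) (nat_lit 250) (nat_lit 1) (nat_lit 402) (nat_lit 403) (nat_lit 335)) (XT.nd (nat_lit 78) (nat_lit 456) (nat_lit 0) (XT.lf (nat_lit 76) (nat_lit 613486577) (nat_lit 0) (nat_lit 2247515159) (nat_lit 608) (nat_lit 613486577) (nat_lit 244) (nat_lit 1) (nat_lit 243) (nat_lit 1) (nat_lit 251) (nat_lit 1) (nat_lit 403) (nat_lit 403) (nat_lit 334)) (XT.lf (nat_lit 532) (nat_lit 527083354) (nat_lit 0) (nat_lit 1459966843) (nat_lit 456) (nat_lit 1459966843) (nat_lit 244) (nat_lit 1) (nat_lit 237) (nat_lit 1) (nat_lit 243) (nat_lit 1) (nat_lit 404) (nat_lit 403) (nat_lit 333)))))) (XT.nd (nat_lit 312) (nat_lit 1444) (nat_lit 0) (XT.nd (nat_lit 156)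 (nat_lit 456) (nat_lit 0) (XT.nd (nat_lit 78) (nat_lit 0) (nat_lit 0) (XT.lf (nat_lit 608) (nat_lit 3258469444) (nat_lit 0) (nat_lit 80752085) (nat_lit 532) (nat_lit 80752085) (nat_lit 237) (nat_lit 1) (nat_lit 229) (nat_lit 1) (nat_lit 236) (nat_lit 1) (nat_lit 405) (nat_lit 403) (nat_lit 332)) (XT.lf (nat_lit 76) (nat_lit 1271000675) (nat_lit 0) (nat_lit 850968876) (nat_lit 608) (nat_lit 1271000675) (nat_lit 230) (nat_lit 1) (nat_lit 229) (nat_lit 1) (nat_lit 237) (nat_lit 1) (nat_lit 406) (nat_lit 403) (nat_lit 331))) (XT.nd (nat_lit 78) (nat_lit 0) (nat_lit 0) (XT.lf (nat_lit 532) (nat_lit 1833983171) (nat_lit 0) (nat_lit 766201685) (nat_lit 456) (nat_lit 766201685) (nat_lit 230) (nat_lit 1) (nat_lit 223) (nat_lit 1) (nat_lit 229) (nat_lit 1) (nat_lit 407) (nat_lit 403) (nat_lit 330)) (XT.lf (nat_lit 76) (nat_lit 563851059) (nat_lit 0) (nat_lit 2212383841) (nat_lit 532) (nat_lit 563851059) (nat_lit 224) (nat_lit 1) (nat_lit 223) (nat_lit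 1) (nat_lit 230) (nat_lit 1) (nat_lit 408) (nat_lit 403) (nat_lit 329)))) (XT.nd (nat_lit 156) (nat_lit 456) (nat_lit 0) (XT.nd (nat_lit 78) (nat_lit 532) (nat_lit 0) (XT.lf (nat_lit 532) (nat_lit 420714556) (nat_lit 0) (nat_lit 1446650561) (nat_lit 456) (nat_lit 1446650561) (nat_lit 224) (nat_lit 1) (nat_lit 217) (nat_lit 1) (nat_lit 223) (nat_lit 1) (nat_lit 409) (nat_lit 403) (nat_lit 328)) (XT.lf (nat_lit 532) (nat_lit 3014944049) (nat_lit 0) (nat_lit 136693094) (nat_lit 456) (nat_lit 136693094) (nat_lit 217) (nat_lit 1) (nat_lit 210) (nat_lit 1) (nat_lit 216) (nat_lit 1) (nat_lit 410) (nat_lit 403) (nat_lit 327))) (XT.nd (nat_lit 78) (nat_lit 456) (nat_lit 0) (XT.lf (nat_lit 76) (nat_lit 1147330398) (nat_lit 0) (nat_lit 968042576) (nat_lit 532) (nat_lit 1147330398) (nat_lit 211) (nat_lit 1) (nat_lit 210) (nat_lit 1) (nat_lit 217) (nat_lit 1) (nat_lit 411) (nat_lit 403) (nat_lit 326)) (XT.nd (nat_lit 78) (nat_lit 0) (nat_lit 0) (XT.lf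 (nat_lit 532) (nat_lit 1582132044) (nat_lit 0) (nat_lit 827661037) (nat_lit 456) (nat_lit 827661037) (nat_lit 211) (nat_lit 1) (nat_lit 204) (nat_lit 1) (nat_lit 210) (nat_lit 1) (nat_lit 412) (nat_lit 403) (nat_lit 325)) (XT.lf (nat_lit 76) (nat_lit 436548374) (nat_lit 0) (nat_lit 2339397755) (nat_lit 532) (nat_lit 436548374) (nat_lit 205) (nat_lit 1) (nat_lit 204) (nat_lit 1) (nat_lit 211) (nat_lit 1) (nat_lit 413) (nat_lit 403) (nat_lit 324))))))) (XT.nd (nat_lit 702) (nat_lit 1824) (nat_lit 0) (XT.nd (nat_lit 312) (nat_lit 1216) (nat_lit 0) (XT.nd (nat_lit 156) (nat_lit 380) (nat_lit 0) (XT.nd (nat_lit 78) (nat_lit 532) (nat_lit 0) (XT.lf (nat_lit 456) (nat_lit 162573330) (nat_lit 0) (nat_lit 1512574591) (nat_lit 380) (nat_lit 1512574591) (nat_lit 205) (nat_lit 1) (nat_lit 199) (nat_lit 1) (nat_lit 204) (nat_lit 1) (nat_lit 414) (nat_lit 403) (nat_lit 323)) (XT.lf (nat_lit 532) (nat_lit 2631701164) (nat_lit 0) (nat_lit 265787269)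 (nat_lit 456) (nat_lit 265787269) (nat_lit 199) (nat_lit 1) (nat_lit 192) (nat_lit 1) (nat_lit 198) (nat_lit 1) (nat_lit 415) (nat_lit 403) (nat_lit 322))) (XT.nd (nat_lit 78) (nat_lit 380) (nat_lit 0) (XT.lf (nat_lit 76) (nat_lit 955918883) (nat_lit 0) (nat_lit 1227108044) (nat_lit 532) (nat_lit 955918883) (nat_lit 193) (nat_lit 1) (nat_lit 192) (nat_lit 1) (nat_lit 199) (nat_lit 1) (nat_lit 416) (nat_lit 403) (nat_lit 321)) (XT.lf (nat_lit 456) (nat_lit 1198016257) (nat_lit 0) (nat_lit 958459210) (nat_lit 380) (nat_lit 958459210) (nat_lit 193) (nat_lit 1) (nat_lit 187) (nat_lit 1) (nat_lit 192) (nat_lit 1) (nat_lit 417) (nat_lit 403) (nat_lit 320)))) (XT.nd (nat_lit 156) (nat_lit 760) (nat_lit 0) (XT.nd (nat_lit 78) (nat_lit 456) (nat_lit 0) (XT.lf (nat_lit 76) (nat_lit 245128683) (nat_lit 0) (nat_lit 2600981420) (nat_lit 456) (nat_lit 245128683) (nat_lit 188) (nat_lit 1) (nat_lit 187) (nat_lit 1) (nat_lit 193) (nat_lit 1) (nat_lit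 418) (nat_lit 403) (nat_lit 319)) (XT.lf (nat_lit 76) (nat_lit 1424901350) (nat_lit 0) (nat_lit 217840632) (nat_lit 456) (nat_lit 1424901350) (nat_lit 182) (nat_lit 1) (nat_lit 181) (nat_lit 1) (nat_lit 187) (nat_lit 1) (nat_lit 419) (nat_lit 403) (nat_lit 318))) (XT.nd (nat_lit 78) (nat_lit 380) (nat_lit 0) (XT.lf (nat_lit 456) (nat_lit 2134059907) (nat_lit 0) (nat_lit 455148641) (nat_lit 380) (nat_lit 455148641) (nat_lit 182) (nat_lit 1) (nat_lit 176) (nat_lit 1) (nat_lit 181) (nat_lit 1) (nat_lit 420) (nat_lit 403) (nat_lit 317)) (XT.nd (nat_lit 78) (nat_lit 380) (nat_lit 0) (XT.lf (nat_lit 76) (nat_lit 709109219) (nat_lit 0) (nat_lit 1603032083) (nat_lit 456) (nat_lit 709109219) (nat_lit 177) (nat_lit 1) (nat_lit 176) (nat_lit 1) (nat_lit 182) (nat_lit 1) (nat_lit 421) (nat_lit 403) (nat_lit 316)) (XT.lf (nat_lit 456) (nat_lit 705866814) (nat_lit 0) (nat_lit 1146261661) (nat_lit 380) (nat_lit 1146261661) (nat_lit 177) (nat_lit 1)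 (nat_lit 171) (nat_lit 1) (nat_lit 176) (nat_lit 1) (nat_lit 422) (nat_lit 403) (nat_lit 315)))))) (XT.nd (nat_lit 312) (nat_lit 1064) (nat_lit 0) (XT.nd (nat_lit 156) (nat_lit 380) (nat_lit 0) (XT.nd (nat_lit 78) (nat_lit 380) (nat_lit 0) (XT.lf (nat_lit 76) (nat_lit 1404126) (nat_lit 0) (nat_lit 2973078082) (nat_lit 456) (nat_lit 1404126) (nat_lit 172) (nat_lit 1) (nat_lit 171) (nat_lit 1) (nat_lit 177) (nat_lit 1) (nat_lit 423) (nat_lit 403) (nat_lit 314)) (XT.lf (nat_lit 76) (nat_lit 1128291825) (nat_lit 0) (nat_lit 696764930) (nat_lit 380) (nat_lit 1128291825) (nat_lit 167) (nat_lit 1) (nat_lit 166) (nat_lit 1) (nat_lit 171) (nat_lit 1) (nat_lit 424) (nat_lit 403) (nat_lit 313))) (XT.nd (nat_lit 78) (nat_lit 0) (nat_lit 0) (XT.lf (nat_lit 456) (nat_lit 1544065167) (nat_lit 0) (nat_lit 693548489) (nat_lit 380) (nat_lit 693548489) (nat_lit 167) (nat_lit 1) (nat_lit 161) (nat_lit 1) (nat_lit 166) (nat_lit 1) (nat_lit 425) (nat_lit 403)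 (nat_lit 312)) (XT.lf (nat_lit 76) (nat_lit 417646018) (nat_lit 0) (nat_lit 2073918198) (nat_lit 456) (nat_lit 417646018) (nat_lit 162) (nat_lit 1) (nat_lit 161) (nat_lit 1) (nat_lit 167) (nat_lit 1) (nat_lit 426) (nat_lit 403) (nat_lit 311)))) (XT.nd (nat_lit 156) (nat_lit 304) (nat_lit 0) (XT.nd (nat_lit 78) (nat_lit 456) (nat_lit 0) (XT.lf (nat_lit 380) (nat_lit 126772220) (nat_lit 0) (nat_lit 1380324500) (nat_lit 304) (nat_lit 1380324500) (nat_lit 162) (nat_lit 1) (nat_lit 157) (nat_lit 1) (nat_lit 161) (nat_lit 1) (nat_lit 427) (nat_lit 403) (nat_lit 310)) (XT.lf (nat_lit 456) (nat_lit 2300941600) (nat_lit 0) (nat_lit 282476595) (nat_lit 380) (nat_lit 282476595) (nat_lit 157) (nat_lit 1) (nat_lit 151) (nat_lit 1) (nat_lit 156) (nat_lit 1) (nat_lit 428) (nat_lit 403) (nat_lit 309))) (XT.nd (nat_lit 78) (nat_lit 304) (nat_lit 0) (XT.lf (nat_lit 76) (nat_lit 794025483) (nat_lit 0) (nat_lit 1256424557) (nat_lit 456) (nat_lit 794025483)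 (nat_lit 152) (nat_lit 1) (nat_lit 151) (nat_lit 1) (nat_lit 157) (nat_lit 1) (nat_lit 429) (nat_lit 403) (nat_lit 308)) (XT.nd (nat_lit 78) (nat_lit 0) (nat_lit 0) (XT.lf (nat_lit 380) (nat_lit 880872631) (nat_lit 0) (nat_lit 971220767) (nat_lit 304) (nat_lit 971220767) (nat_lit 152) (nat_lit 1) (nat_lit 147) (nat_lit 1) (nat_lit 151) (nat_lit 1) (nat_lit 430) (nat_lit 403) (nat_lit 307)) (XT.lf (nat_lit 76) (nat_lit 90863471) (nat_lit 0) (nat_lit 2620726409) (nat_lit 380) (nat_lit 90863471) (nat_lit 148) (nat_lit 1) (nat_lit 147) (nat_lit 1) (nat_lit 152) (nat_lit 1) (nat_lit 431) (nat_lit 403) (nat_lit 306))))))))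
noncomputable def ec91 : XT := (XT.nd (nat_lit 52026) (nat_lit 0) (nat_lit 28044) (XT.nd (nat_lit 702) (nat_lit 608) (nat_lit 0) (XT.nd (nat_lit 312) (nat_lit 988) (nat_lit 0) (XT.nd (nat_lit 156) (nat_lit 304) (nat_lit 0) (XT.nd (nat_lit 78) (nat_lit 304) (nat_lit 0) (XT.lf (nat_lit 76) (nat_lit 1133738301) (nat_lit 0) (nat_lit 514119252) (nat_lit 380) (nat_lit 1133738301) (nat_lit 143) (nat_lit 1) (nat_lit 142) (nat_lit 1) (nat_lit 147) (nat_lit 1) (nat_lit 432) (nat_lit 403) (nat_lit 305)) (XT.lf (nat_lit 380) (nat_lit 1562569264) (nat_lit 0) (nat_lit 599232659) (nat_lit 304) (nat_lit 599232659) (nat_lit 143) (nat_lit 1) (nat_lit 138) (nat_lit 1) (nat_lit 142) (nat_lit 1) (nat_lit 433) (nat_lit 403) (nat_lit 304))) (XT.nd (nat_lit 78) (nat_lit 304) (nat_lit 0) (XT.lf (nat_lit 76) (nat_lit 430567748) (nat_lit 0) (nat_lit 1879538071) (nat_lit 380) (nat_lit 430567748) (nat_lit 139) (nat_lit 1) (nat_lit 138) (nat_lit 1) (nat_lit 143) (nat_lit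 1) (nat_lit 434) (nat_lit 403) (nat_lit 303)) (XT.lf (nat_lit 380) (nat_lit 161089951) (nat_lit 0) (nat_lit 1279689689) (nat_lit 304) (nat_lit 1279689689) (nat_lit 139) (nat_lit 1) (nat_lit 134) (nat_lit 1) (nat_lit 138) (nat_lit 1) (nat_lit 435) (nat_lit 403) (nat_lit 302)))) (XT.nd (nat_lit 156) (nat_lit 608) (nat_lit 0) (XT.nd (nat_lit 78) (nat_lit 0) (nat_lit 0) (XT.lf (nat_lit 380) (nat_lit 2177669637) (nat_lit 0) (nat_lit 261416778) (nat_lit 304) (nat_lit 261416778) (nat_lit 134) (nat_lit 1) (nat_lit 129) (nat_lit 1) (nat_lit 133) (nat_lit 1) (nat_lit 436) (nat_lit 403) (nat_lit 301)) (XT.lf (nat_lit 76) (nat_lit 737605443) (nat_lit 0) (nat_lit 1205414380) (nat_lit 380) (nat_lit 737605443) (nat_lit 130) (nat_lit 1) (nat_lit 129) (nat_lit 1) (nat_lit 134) (nat_lit 1) (nat_lit 437) (nat_lit 403) (nat_lit 300))) (XT.nd (nat_lit 78) (nat_lit 304) (nat_lit 0) (XT.lf (nat_lit 380) (nat_lit 778595479) (nat_lit 0) (nat_lit 941193062) (nat_lit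 304) (nat_lit 941193062) (nat_lit 130) (nat_lit 1) (nat_lit 125) (nat_lit 1) (nat_lit 129) (nat_lit 1) (nat_lit 438) (nat_lit 403) (nat_lit 299)) (XT.nd (nat_lit 78) (nat_lit 304) (nat_lit 0) (XT.lf (nat_lit 76) (nat_lit 45241468) (nat_lit 0) (nat_lit 2551139073) (nat_lit 380) (nat_lit 45241468) (nat_lit 126) (nat_lit 1) (nat_lit 125) (nat_lit 1) (nat_lit 130) (nat_lit 1) (nat_lit 439) (nat_lit 403) (nat_lit 298)) (XT.lf (nat_lit 76) (nat_lit 1014597531) (nat_lit 0) (nat_lit 593039826) (nat_lit 304) (nat_lit 1014597531) (nat_lit 122) (nat_lit 1) (nat_lit 121) (nat_lit 1) (nat_lit 125) (nat_lit 1) (nat_lit 440) (nat_lit 403) (nat_lit 297)))))) (XT.nd (nat_lit 50934) (nat_lit 0) (nat_lit 29184) (XT.nd (nat_lit 156) (nat_lit 304) (nat_lit 0) (XT.nd (nat_lit 78) (nat_lit 0) (nat_lit 0) (XT.lf (nat_lit 380) (nat_lit 1336726642) (nat_lit 0) (nat_lit 633200823) (nat_lit 304) (nat_lit 633200823) (nat_lit 122) (nat_lit 1) (nat_lit 117) (nat_lit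 1) (nat_lit 121) (nat_lit 1) (nat_lit 441) (nat_lit 403) (nat_lit 296)) (XT.lf (nat_lit 76) (nat_lit 324491769) (nat_lit 0) (nat_lit 1935239212) (nat_lit 380) (nat_lit 324491769) (nat_lit 118) (nat_lit 1) (nat_lit 117) (nat_lit 1) (nat_lit 122) (nat_lit 1) (nat_lit 442) (nat_lit 403) (nat_lit 295))) (XT.nd (nat_lit 50700) (nat_lit 0) (nat_lit 29184) (XT.lf (nat_lit 76) (nat_lit 1263962774) (nat_lit 0) (nat_lit 37507782) (nat_lit 304) (nat_lit 1263962774) (nat_lit 114) (nat_lit 1) (nat_lit 113) (nat_lit 1) (nat_lit 117) (nat_lit 1) (nat_lit 443) (nat_lit 403) (nat_lit 294)) (XT.lf (nat_lit 1900) (nat_lit 1084899421) (nat_lit 0) (nat_lit 1093971703) (nat_lit 1900) (nat_lit 1084899421) (nat_lit 522) (nat_lit 1) (nat_lit 497) (nat_lit 0) (nat_lit 522) (nat_lit 0) (nat_lit 332) (nat_lit 404) (nat_lit 404)))) (XT.nd (nat_lit 156) (nat_lit 0) (nat_lit 76) (XT.nd (nat_lit 78) (nat_lit 0) (nat_lit 76) (XT.lf (nat_lit 1900) (nat_lit 4289855429)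 (nat_lit 76) (nat_lit 1086774521) (nat_lit 0) (nat_lit 1086774521) (nat_lit 522) (nat_lit 1) (nat_lit 498) (nat_lit 1) (nat_lit 497) (nat_lit 0) (nat_lit 333) (nat_lit 404) (nat_lit 403)) (XT.lf (nat_lit 1900) (nat_lit 2106339435) (nat_lit 0) (nat_lit 2187289508) (nat_lit 1824) (nat_lit 2106339435) (nat_lit 523) (nat_lit 1) (nat_lit 498) (nat_lit 1) (nat_lit 522) (nat_lit 1) (nat_lit 334) (nat_lit 404) (nat_lit 402))) (XT.nd (nat_lit 78) (nat_lit 0) (nat_lit 76) (XT.lf (nat_lit 1900) (nat_lit 4122625516) (nat_lit 76) (nat_lit 1107434228) (nat_lit 0) (nat_lit 1107434228) (nat_lit 523) (nat_lit 1) (nat_lit 499) (nat_lit 1) (nat_lit 498) (nat_lit 1) (nat_lit 335) (nat_lit 404) (nat_lit 401)) (XT.nd (nat_lit 78) (nat_lit 0) (nat_lit 0) (XT.lf (nat_lit 1900) (nat_lit 2003517879) (nat_lit 0) (nat_lit 2268673460) (nat_lit 1824) (nat_lit 2003517879) (nat_lit 524) (nat_lit 1) (nat_lit 499) (nat_lit 1) (nat_lit 523) (nat_lit 1) (nat_lit 336) (nat_lit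 404) (nat_lit 400)) (XT.lf (nat_lit 1900) (nat_lit 3878786982) (nat_lit 76) (nat_lit 1168028145) (nat_lit 0) (nat_lit 1168028145) (nat_lit 524) (nat_lit 1) (nat_lit 500) (nat_lit 1) (nat_lit 499) (nat_lit 1) (nat_lit 337) (nat_lit 404) (nat_lit 399))))))) (XT.nd (nat_lit 702) (nat_lit 1368) (nat_lit 0) (XT.nd (nat_lit 312) (nat_lit 0) (nat_lit 152) (XT.nd (nat_lit 156) (nat_lit 0) (nat_lit 76) (XT.nd (nat_lit 78) (nat_lit 0) (nat_lit 0) (XT.lf (nat_lit 1900) (nat_lit 1863682778) (nat_lit 0) (nat_lit 2427301547) (nat_lit 1824) (nat_lit 1863682778) (nat_lit 525) (nat_lit 1) (nat_lit 500) (nat_lit 1) (nat_lit 524) (nat_lit 1) (nat_lit 338) (nat_lit 404) (nat_lit 398)) (XT.lf (nat_lit 1900) (nat_lit 3562944091) (nat_lit 76) (nat_lit 1266206825) (nat_lit 0) (nat_lit 1266206825) (nat_lit 525) (nat_lit 1) (nat_lit 501) (nat_lit 1) (nat_lit 500) (nat_lit 1) (nat_lit 339) (nat_lit 404) (nat_lit 397))) (XT.nd (nat_lit 78) (nat_lit 0) (nat_lit 0)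 (XT.lf (nat_lit 1900) (nat_lit 1689075459) (nat_lit 0) (nat_lit 2658597729) (nat_lit 1824) (nat_lit 1689075459) (nat_lit 526) (nat_lit 1) (nat_lit 501) (nat_lit 1) (nat_lit 525) (nat_lit 1) (nat_lit 340) (nat_lit 404) (nat_lit 396)) (XT.lf (nat_lit 1900) (nat_lit 3179490367) (nat_lit 76) (nat_lit 1399727714) (nat_lit 0) (nat_lit 1399727714) (nat_lit 526) (nat_lit 1) (nat_lit 502) (nat_lit 1) (nat_lit 501) (nat_lit 1) (nat_lit 341) (nat_lit 404) (nat_lit 395)))) (XT.nd (nat_lit 156) (nat_lit 0) (nat_lit 76) (XT.nd (nat_lit 78) (nat_lit 0) (nat_lit 0) (XT.lf (nat_lit 1900) (nat_lit 1481834446) (nat_lit 0) (nat_lit 2958194572) (nat_lit 1824) (nat_lit 1481834446) (nat_lit 527) (nat_lit 1) (nat_lit 502) (nat_lit 1) (nat_lit 526) (nat_lit 1) (nat_lit 342) (nat_lit 404) (nat_lit 394)) (XT.lf (nat_lit 1900) (nat_lit 2732617407) (nat_lit 76) (nat_lit 1566450693) (nat_lit 0) (nat_lit 1566450693) (nat_lit 527) (nat_lit 1) (nat_lit 503) (nat_lit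 1) (nat_lit 502) (nat_lit 1) (nat_lit 343) (nat_lit 404) (nat_lit 393))) (XT.nd (nat_lit 78) (nat_lit 0) (nat_lit 0) (XT.lf (nat_lit 1900) (nat_lit 1243999768) (nat_lit 0) (nat_lit 3321924540) (nat_lit 1824) (nat_lit 1243999768) (nat_lit 528) (nat_lit 1) (nat_lit 503) (nat_lit 1) (nat_lit 527) (nat_lit 1) (nat_lit 344) (nat_lit 404) (nat_lit 392)) (XT.nd (nat_lit 78) (nat_lit 0) (nat_lit 76) (XT.lf (nat_lit 1900) (nat_lit 2226323330) (nat_lit 76) (nat_lit 1764333800) (nat_lit 0) (nat_lit 1764333800) (nat_lit 528) (nat_lit 1) (nat_lit 504) (nat_lit 1) (nat_lit 503) (nat_lit 1) (nat_lit 345) (nat_lit 404) (nat_lit 391)) (XT.lf (nat_lit 1900) (nat_lit 977517082) (nat_lit 0) (nat_lit 3745811643) (nat_lit 1824) (nat_lit 977517082) (nat_lit 529) (nat_lit 1) (nat_lit 504) (nat_lit 1) (nat_lit 528) (nat_lit 1) (nat_lit 346) (nat_lit 404) (nat_lit 390)))))) (XT.nd (nat_lit 390) (nat_lit 1672) (nat_lit 0) (XT.nd (nat_lit 156) (nat_lit 0) (nat_lit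 76) (XT.nd (nat_lit 78) (nat_lit 0) (nat_lit 76) (XT.lf (nat_lit 1900) (nat_lit 1664420898) (nat_lit 76) (nat_lit 1991429125) (nat_lit 0) (nat_lit 1991429125) (nat_lit 529) (nat_lit 1) (nat_lit 505) (nat_lit 1) (nat_lit 504) (nat_lit 1) (nat_lit 347) (nat_lit 404) (nat_lit 389)) (XT.lf (nat_lit 1900) (nat_lit 684241638) (nat_lit 0) (nat_lit 4226063410) (nat_lit 1824) (nat_lit 684241638) (nat_lit 530) (nat_lit 1) (nat_lit 505) (nat_lit 1) (nat_lit 529) (nat_lit 1) (nat_lit 348) (nat_lit 404) (nat_lit 388))) (XT.nd (nat_lit 78) (nat_lit 0) (nat_lit 76) (XT.lf (nat_lit 1900) (nat_lit 1050545303) (nat_lit 76) (nat_lit 2245878866) (nat_lit 0) (nat_lit 2245878866) (nat_lit 530) (nat_lit 1) (nat_lit 506) (nat_lit 1) (nat_lit 505) (nat_lit 1) (nat_lit 349) (nat_lit 404) (nat_lit 387)) (XT.nd (nat_lit 78) (nat_lit 0) (nat_lit 0) (XT.lf (nat_lit 1900) (nat_lit 365942077) (nat_lit 0) (nat_lit 4759063199) (nat_lit 1824) (nat_lit 365942077) (nat_lit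 531) (nat_lit 1) (nat_lit 506) (nat_lit 1) (nat_lit 530) (nat_lit 1) (nat_lit 350) (nat_lit 404) (nat_lit 386)) (XT.lf (nat_lit 1900) (nat_lit 388161638) (nat_lit 76) (nat_lit 2525911547) (nat_lit 0) (nat_lit 2525911547) (nat_lit 531) (nat_lit 1) (nat_lit 507) (nat_lit 1) (nat_lit 506) (nat_lit 1) (nat_lit 351) (nat_lit 404) (nat_lit 385))))) (XT.nd (nat_lit 156) (nat_lit 0) (nat_lit 0) (XT.nd (nat_lit 78) (nat_lit 1900) (nat_lit 0) (XT.lf (nat_lit 1900) (nat_lit 24304085) (nat_lit 0) (nat_lit 5341362801) (nat_lit 1824) (nat_lit 24304085) (nat_lit 532) (nat_lit 1) (nat_lit 507) (nat_lit 1) (nat_lit 531) (nat_lit 1) (nat_lit 352) (nat_lit 404) (nat_lit 384)) (XT.lf (nat_lit 1976) (nat_lit 2512484396) (nat_lit 0) (nat_lit 315238573) (nat_lit 1900) (nat_lit 2512484396) (nat_lit 508) (nat_lit 1) (nat_lit 482) (nat_lit 1) (nat_lit 507) (nat_lit 1) (nat_lit 353) (nat_lit 404) (nat_lit 383))) (XT.nd (nat_lit 78) (nat_lit 0) (nat_lit 76) (XT.lf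 (nat_lit 1976) (nat_lit 4617695613) (nat_lit 76) (nat_lit 336835410) (nat_lit 0) (nat_lit 336835410) (nat_lit 508) (nat_lit 1) (nat_lit 483) (nat_lit 1) (nat_lit 482) (nat_lit 1) (nat_lit 354) (nat_lit 404) (nat_lit 382)) (XT.nd (nat_lit 78) (nat_lit 0) (nat_lit 0) (XT.lf (nat_lit 1976) (nat_lit 2093913707) (nat_lit 0) (nat_lit 1055056128) (nat_lit 1900) (nat_lit 2093913707) (nat_lit 509) (nat_lit 1) (nat_lit 483) (nat_lit 1) (nat_lit 508) (nat_lit 1) (nat_lit 355) (nat_lit 404) (nat_lit 381)) (XT.lf (nat_lit 1976) (nat_lit 3759446847) (nat_lit 76) (nat_lit 717884175) (nat_lit 0) (nat_lit 717884175) (nat_lit 509) (nat_lit 1) (nat_lit 484) (nat_lit 1) (nat_lit 483) (nat_lit 1) (nat_lit 356) (nat_lit 404) (nat_lit 380))))))))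
noncomputable def ec92 : XT := (XT.nd (nat_lit 1404) (nat_lit 6612) (nat_lit 0) (XT.nd (nat_lit 702) (nat_lit 4028) (nat_lit 0) (XT.nd (nat_lit 312) (nat_lit 2736) (nat_lit 0) (XT.nd (nat_lit 156) (nat_lit 912) (nat_lit 0) (XT.nd (nat_lit 78) (nat_lit 1140) (nat_lit 0) (XT.lf (nat_lit 76) (nat_lit 1657284449) (nat_lit 0) (nat_lit 1833424449) (nat_lit 1900) (nat_lit 1657284449) (nat_lit 485) (nat_lit 1) (nat_lit 484) (nat_lit 1) (nat_lit 509) (nat_lit 1) (nat_lit 357) (nat_lit 404) (nat_lit 379)) (XT.lf (nat_lit 1216) (nat_lit 2866352045) (nat_lit 0) (nat_lit 1117554431) (nat_lit 1140) (nat_lit 1117554431) (nat_lit 485) (nat_lit 1) (nat_lit 469) (nat_lit 1) (nat_lit 484) (nat_lit 1) (nat_lit 358) (nat_lit 404) (nat_lit 378))) (XT.nd (nat_lit 78) (nat_lit 912) (nat_lit 0) (XT.lf (nat_lit 76) (nat_lit 1203970646) (nat_lit 0) (nat_lit 2647527370) (nat_lit 1216) (nat_lit 1203970646) (nat_lit 470) (nat_lit 1) (nat_lit 469) (nat_lit 1) (nat_lit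 485) (nat_lit 1) (nat_lit 359) (nat_lit 404) (nat_lit 377)) (XT.lf (nat_lit 988) (nat_lit 1941101044) (nat_lit 0) (nat_lit 1534467827) (nat_lit 912) (nat_lit 1534467827) (nat_lit 470) (nat_lit 1) (nat_lit 457) (nat_lit 1) (nat_lit 469) (nat_lit 1) (nat_lit 360) (nat_lit 404) (nat_lit 376)))) (XT.nd (nat_lit 156) (nat_lit 1824) (nat_lit 0) (XT.nd (nat_lit 78) (nat_lit 912) (nat_lit 0) (XT.lf (nat_lit 76) (nat_lit 735279775) (nat_lit 0) (nat_lit 3494683947) (nat_lit 988) (nat_lit 735279775) (nat_lit 458) (nat_lit 1) (nat_lit 457) (nat_lit 1) (nat_lit 470) (nat_lit 1) (nat_lit 361) (nat_lit 404) (nat_lit 375)) (XT.lf (nat_lit 988) (nat_lit 986253021) (nat_lit 0) (nat_lit 1967312382) (nat_lit 912) (nat_lit 1967312382) (nat_lit 458) (nat_lit 1) (nat_lit 445) (nat_lit 1) (nat_lit 457) (nat_lit 1) (nat_lit 362) (nat_lit 404) (nat_lit 374))) (XT.nd (nat_lit 78) (nat_lit 1824) (nat_lit 0) (XT.lf (nat_lit 76) (nat_lit 252455609) (nat_lit 0) (nat_lit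 4372342701) (nat_lit 988) (nat_lit 252455609) (nat_lit 446) (nat_lit 1) (nat_lit 445) (nat_lit 1) (nat_lit 458) (nat_lit 1) (nat_lit 363) (nat_lit 404) (nat_lit 373)) (XT.nd (nat_lit 78) (nat_lit 988) (nat_lit 0) (XT.lf (nat_lit 912) (nat_lit 4242080) (nat_lit 0) (nat_lit 2414839659) (nat_lit 836) (nat_lit 2414839659) (nat_lit 446) (nat_lit 1) (nat_lit 434) (nat_lit 1) (nat_lit 445) (nat_lit 1) (nat_lit 364) (nat_lit 404) (nat_lit 372)) (XT.lf (nat_lit 988) (nat_lit 4307874632) (nat_lit 0) (nat_lit 241718271) (nat_lit 912) (nat_lit 241718271) (nat_lit 434) (nat_lit 1) (nat_lit 421) (nat_lit 1) (nat_lit 433) (nat_lit 1) (nat_lit 365) (nat_lit 404) (nat_lit 371)))))) (XT.nd (nat_lit 312) (nat_lit 2356) (nat_lit 0) (XT.nd (nat_lit 156) (nat_lit 836) (nat_lit 0) (XT.nd (nat_lit 78) (nat_lit 836) (nat_lit 0) (XT.lf (nat_lit 76) (nat_lit 1879754319) (nat_lit 0) (nat_lit 989467875) (nat_lit 988) (nat_lit 1879754319) (nat_lit 422) (nat_lit 1)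 (nat_lit 421) (nat_lit 1) (nat_lit 434) (nat_lit 1) (nat_lit 366) (nat_lit 404) (nat_lit 370)) (XT.lf (nat_lit 912) (nat_lit 3215385264) (nat_lit 0) (nat_lit 745979521) (nat_lit 836) (nat_lit 745979521) (nat_lit 422) (nat_lit 1) (nat_lit 410) (nat_lit 1) (nat_lit 421) (nat_lit 1) (nat_lit 367) (nat_lit 404) (nat_lit 369))) (XT.nd (nat_lit 78) (nat_lit 836) (nat_lit 0) (XT.lf (nat_lit 76) (nat_lit 1330318516) (nat_lit 0) (nat_lit 2005473854) (nat_lit 912) (nat_lit 1330318516) (nat_lit 411) (nat_lit 1) (nat_lit 410) (nat_lit 1) (nat_lit 422) (nat_lit 1) (nat_lit 368) (nat_lit 404) (nat_lit 368)) (XT.lf (nat_lit 912) (nat_lit 2103572309) (nat_lit 0) (nat_lit 1260927475) (nat_lit 836) (nat_lit 1260927475) (nat_lit 411) (nat_lit 1) (nat_lit 399) (nat_lit 1) (nat_lit 410) (nat_lit 1) (nat_lit 369) (nat_lit 404) (nat_lit 367)))) (XT.nd (nat_lit 156) (nat_lit 1596) (nat_lit 0) (XT.nd (nat_lit 78) (nat_lit 760) (nat_lit 0) (XT.lf (nat_lit 76)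 (nat_lit 771749741) (nat_lit 0) (nat_lit 3041768716) (nat_lit 912) (nat_lit 771749741) (nat_lit 400) (nat_lit 1) (nat_lit 399) (nat_lit 1) (nat_lit 411) (nat_lit 1) (nat_lit 370) (nat_lit 404) (nat_lit 366)) (XT.lf (nat_lit 836) (nat_lit 974396838) (nat_lit 0) (nat_lit 1785553672) (nat_lit 760) (nat_lit 1785553672) (nat_lit 400) (nat_lit 1) (nat_lit 389) (nat_lit 1) (nat_lit 399) (nat_lit 1) (nat_lit 371) (nat_lit 404) (nat_lit 365))) (XT.nd (nat_lit 78) (nat_lit 1596) (nat_lit 0) (XT.lf (nat_lit 76) (nat_lit 205000055) (nat_lit 0) (nat_lit 4096393214) (nat_lit 836) (nat_lit 205000055) (nat_lit 390) (nat_lit 1) (nat_lit 389) (nat_lit 1) (nat_lit 400) (nat_lit 1) (nat_lit 372) (nat_lit 404) (nat_lit 364)) (XT.nd (nat_lit 78) (nat_lit 760) (nat_lit 0) (XT.lf (nat_lit 76) (nat_lit 2149726044) (nat_lit 0) (nat_lit 168046716) (nat_lit 836) (nat_lit 2149726044) (nat_lit 379) (nat_lit 1) (nat_lit 378) (nat_lit 1) (nat_lit 389) (nat_lit 1) (nat_lit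 373) (nat_lit 404) (nat_lit 363)) (XT.lf (nat_lit 836) (nat_lit 3696041797) (nat_lit 0) (nat_lit 366599353) (nat_lit 760) (nat_lit 366599353) (nat_lit 379) (nat_lit 1) (nat_lit 368) (nat_lit 1) (nat_lit 378) (nat_lit 1) (nat_lit 374) (nat_lit 404) (nat_lit 362))))))) (XT.nd (nat_lit 702) (nat_lit 3040) (nat_lit 0) (XT.nd (nat_lit 312) (nat_lit 2128) (nat_lit 0) (XT.nd (nat_lit 156) (nat_lit 684) (nat_lit 0) (XT.nd (nat_lit 78) (nat_lit 760) (nat_lit 0) (XT.lf (nat_lit 76) (nat_lit 1539992991) (nat_lit 0) (nat_lit 1311266438) (nat_lit 836) (nat_lit 1539992991) (nat_lit 369) (nat_lit 1) (nat_lit 368) (nat_lit 1) (nat_lit 379) (nat_lit 1) (nat_lit 375) (nat_lit 404) (nat_lit 361)) (XT.lf (nat_lit 836) (nat_lit 2467382939) (nat_lit 0) (nat_lit 943228555) (nat_lit 760) (nat_lit 943228555) (nat_lit 369) (nat_lit 1) (nat_lit 358) (nat_lit 1) (nat_lit 368) (nat_lit 1) (nat_lit 376) (nat_lit 404) (nat_lit 360))) (XT.nd (nat_lit 78) (nat_lit 684)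 (nat_lit 0) (XT.lf (nat_lit 76) (nat_lit 925225718) (nat_lit 0) (nat_lit 2466389421) (nat_lit 836) (nat_lit 925225718) (nat_lit 359) (nat_lit 1) (nat_lit 358) (nat_lit 1) (nat_lit 369) (nat_lit 1) (nat_lit 377) (nat_lit 404) (nat_lit 359)) (XT.lf (nat_lit 760) (nat_lit 1229390385) (nat_lit 0) (nat_lit 1525429297) (nat_lit 684) (nat_lit 1525429297) (nat_lit 359) (nat_lit 1) (nat_lit 349) (nat_lit 1) (nat_lit 358) (nat_lit 1) (nat_lit 378) (nat_lit 404) (nat_lit 358)))) (XT.nd (nat_lit 156) (nat_lit 1368) (nat_lit 0) (XT.nd (nat_lit 78) (nat_lit 760) (nat_lit 0) (XT.lf (nat_lit 76) (nat_lit 306182671) (nat_lit 0) (nat_lit 3631849605) (nat_lit 760) (nat_lit 306182671) (nat_lit 350) (nat_lit 1) (nat_lit 349) (nat_lit 1) (nat_lit 359) (nat_lit 1) (nat_lit 379) (nat_lit 404) (nat_lit 357)) (XT.lf (nat_lit 76) (nat_lit 2096088857) (nat_lit 0) (nat_lit 16239108) (nat_lit 760) (nat_lit 2096088857) (nat_lit 340) (nat_lit 1) (nat_lit 339) (nat_lit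 1) (nat_lit 349) (nat_lit 1) (nat_lit 380) (nat_lit 404) (nat_lit 356))) (XT.nd (nat_lit 78) (nat_lit 684) (nat_lit 0) (XT.lf (nat_lit 760) (nat_lit 3544489091) (nat_lit 0) (nat_lit 314336499) (nat_lit 684) (nat_lit 314336499) (nat_lit 340) (nat_lit 1) (nat_lit 330) (nat_lit 1) (nat_lit 339) (nat_lit 1) (nat_lit 381) (nat_lit 404) (nat_lit 355)) (XT.nd (nat_lit 78) (nat_lit 684) (nat_lit 0) (XT.lf (nat_lit 76) (nat_lit 1443013402) (nat_lit 0) (nat_lit 1252111554) (nat_lit 760) (nat_lit 1443013402) (nat_lit 331) (nat_lit 1) (nat_lit 330) (nat_lit 1) (nat_lit 340) (nat_lit 1) (nat_lit 382) (nat_lit 404) (nat_lit 354)) (XT.lf (nat_lit 760) (nat_lit 2232237969) (nat_lit 0) (nat_lit 935700940) (nat_lit 684) (nat_lit 935700940) (nat_lit 331) (nat_lit 1) (nat_lit 321) (nat_lit 1) (nat_lit 330) (nat_lit 1) (nat_lit 383) (nat_lit 404) (nat_lit 353)))))) (XT.nd (nat_lit 312) (nat_lit 1748) (nat_lit 0) (XT.nd (nat_lit 156) (nat_lit 684) (nat_lit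 0) (XT.nd (nat_lit 78) (nat_lit 608) (nat_lit 0) (XT.lf (nat_lit 76) (nat_lit 788242744) (nat_lit 0) (nat_lit 2493042428) (nat_lit 760) (nat_lit 788242744) (nat_lit 322) (nat_lit 1) (nat_lit 321) (nat_lit 1) (nat_lit 331) (nat_lit 1) (nat_lit 384) (nat_lit 404) (nat_lit 352)) (XT.lf (nat_lit 684) (nat_lit 917189306) (nat_lit 0) (nat_lit 1559286970) (nat_lit 608) (nat_lit 1559286970) (nat_lit 322) (nat_lit 1) (nat_lit 313) (nat_lit 1) (nat_lit 321) (nat_lit 1) (nat_lit 385) (nat_lit 404) (nat_lit 351))) (XT.nd (nat_lit 78) (nat_lit 684) (nat_lit 0) (XT.lf (nat_lit 76) (nat_lit 132373199) (nat_lit 0) (nat_lit 3737795131) (nat_lit 684) (nat_lit 132373199) (nat_lit 314) (nat_lit 1) (nat_lit 313) (nat_lit 1) (nat_lit 322) (nat_lit 1) (nat_lit 386) (nat_lit 404) (nat_lit 350)) (XT.lf (nat_lit 76) (nat_lit 1787591169) (nat_lit 0) (nat_lit 394254830) (nat_lit 684) (nat_lit 1787591169) (nat_lit 305) (nat_lit 1) (nat_lit 304) (nat_lit 1) (nat_lit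 313) (nat_lit 1) (nat_lit 387) (nat_lit 404) (nat_lit 349)))) (XT.nd (nat_lit 156) (nat_lit 1140) (nat_lit 0) (XT.nd (nat_lit 78) (nat_lit 0) (nat_lit 0) (XT.lf (nat_lit 684) (nat_lit 2895693633) (nat_lit 0) (nat_lit 520584894) (nat_lit 608) (nat_lit 520584894) (nat_lit 305) (nat_lit 1) (nat_lit 296) (nat_lit 1) (nat_lit 304) (nat_lit 1) (nat_lit 388) (nat_lit 404) (nat_lit 348)) (XT.lf (nat_lit 76) (nat_lit 1105175728) (nat_lit 0) (nat_lit 1694200904) (nat_lit 684) (nat_lit 1105175728) (nat_lit 297) (nat_lit 1) (nat_lit 296) (nat_lit 1) (nat_lit 305) (nat_lit 1) (nat_lit 389) (nat_lit 404) (nat_lit 347))) (XT.nd (nat_lit 78) (nat_lit 532) (nat_lit 0) (XT.lf (nat_lit 684) (nat_lit 1527301303) (nat_lit 0) (nat_lit 1172677497) (nat_lit 608) (nat_lit 1172677497) (nat_lit 297) (nat_lit 1) (nat_lit 288) (nat_lit 1) (nat_lit 296) (nat_lit 1) (nat_lit 390) (nat_lit 404) (nat_lit 346)) (XT.nd (nat_lit 78) (nat_lit 532) (nat_lit 0) (XT.lf (nat_lit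 76) (nat_lit 423764856) (nat_lit 0) (nat_lit 2993657613) (nat_lit 684) (nat_lit 423764856) (nat_lit 289) (nat_lit 1) (nat_lit 288) (nat_lit 1) (nat_lit 297) (nat_lit 1) (nat_lit 391) (nat_lit 404) (nat_lit 345)) (XT.lf (nat_lit 608) (nat_lit 161391860) (nat_lit 0) (nat_lit 1824278676) (nat_lit 532) (nat_lit 1824278676) (nat_lit 289) (nat_lit 1) (nat_lit 281) (nat_lit 1) (nat_lit 288) (nat_lit 1) (nat_lit 392) (nat_lit 404) (nat_lit 344))))))))
noncomputable def ec93 : XT := (XT.nd (nat_lit 1404) (nat_lit 4332) (nat_lit 0) (XT.nd (nat_lit 702) (nat_lit 2964) (nat_lit 0) (XT.nd (nat_lit 312) (nat_lit 1672) (nat_lit 0) (XT.nd (nat_lit 156) (nat_lit 532) (nat_lit 0) (XT.nd (nat_lit 78) (nat_lit 0) (nat_lit 0) (XT.lf (nat_lit 684) (nat_lit 3270178811) (nat_lit 0) (nat_lit 254495166) (nat_lit 608) (nat_lit 254495166) (nat_lit 281) (nat_lit 1) (nat_lit 272) (nat_lit 1) (nat_lit 280) (nat_lit 1) (nat_lit 393) (nat_lit 404) (nat_lit 343)) (XT.lf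 (nat_lit 76) (nat_lit 1281581324) (nat_lit 0) (nat_lit 1185384766) (nat_lit 684) (nat_lit 1281581324) (nat_lit 273) (nat_lit 1) (nat_lit 272) (nat_lit 1) (nat_lit 281) (nat_lit 1) (nat_lit 394) (nat_lit 404) (nat_lit 342))) (XT.nd (nat_lit 78) (nat_lit 0) (nat_lit 0) (XT.lf (nat_lit 608) (nat_lit 1862210966) (nat_lit 0) (nat_lit 928081117) (nat_lit 532) (nat_lit 928081117) (nat_lit 273) (nat_lit 1) (nat_lit 265) (nat_lit 1) (nat_lit 272) (nat_lit 1) (nat_lit 395) (nat_lit 404) (nat_lit 341)) (XT.lf (nat_lit 76) (nat_lit 581335455) (nat_lit 0) (nat_lit 2525877912) (nat_lit 608) (nat_lit 581335455) (nat_lit 266) (nat_lit 1) (nat_lit 265) (nat_lit 1) (nat_lit 273) (nat_lit 1) (nat_lit 396) (nat_lit 404) (nat_lit 340)))) (XT.nd (nat_lit 156) (nat_lit 532) (nat_lit 0) (XT.nd (nat_lit 78) (nat_lit 608) (nat_lit 0) (XT.lf (nat_lit 608) (nat_lit 460229708) (nat_lit 0) (nat_lit 1599376846) (nat_lit 532) (nat_lit 1599376846) (nat_lit 266) (nat_lit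 1) (nat_lit 258) (nat_lit 1) (nat_lit 265) (nat_lit 1) (nat_lit 397) (nat_lit 404) (nat_lit 339)) (XT.lf (nat_lit 608) (nat_lit 3399914529) (nat_lit 0) (nat_lit 114981540) (nat_lit 532) (nat_lit 114981540) (nat_lit 258) (nat_lit 1) (nat_lit 250) (nat_lit 1) (nat_lit 257) (nat_lit 1) (nat_lit 398) (nat_lit 404) (nat_lit 338))) (XT.nd (nat_lit 78) (nat_lit 532) (nat_lit 0) (XT.lf (nat_lit 76) (nat_lit 1339031452) (nat_lit 0) (nat_lit 922779536) (nat_lit 608) (nat_lit 1339031452) (nat_lit 251) (nat_lit 1) (nat_lit 250) (nat_lit 1) (nat_lit 258) (nat_lit 1) (nat_lit 399) (nat_lit 404) (nat_lit 337)) (XT.nd (nat_lit 78) (nat_lit 0) (nat_lit 0) (XT.lf (nat_lit 608) (nat_lit 1964294315) (nat_lit 0) (nat_lit 803981618) (nat_lit 532) (nat_lit 803981618) (nat_lit 251) (nat_lit 1) (nat_lit 243) (nat_lit 1) (nat_lit 250) (nat_lit 1) (nat_lit 400) (nat_lit 404) (nat_lit 336)) (XT.lf (nat_lit 76) (nat_lit 625756308) (nat_lit 0) (nat_lit 2292465462)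 (nat_lit 608) (nat_lit 625756308) (nat_lit 244) (nat_lit 1) (nat_lit 243) (nat_lit 1) (nat_lit 251) (nat_lit 1) (nat_lit 401) (nat_lit 404) (nat_lit 335)))))) (XT.nd (nat_lit 312) (nat_lit 1444) (nat_lit 0) (XT.nd (nat_lit 156) (nat_lit 456) (nat_lit 0) (XT.nd (nat_lit 78) (nat_lit 608) (nat_lit 0) (XT.lf (nat_lit 532) (nat_lit 537625021) (nat_lit 0) (nat_lit 1489166180) (nat_lit 456) (nat_lit 1489166180) (nat_lit 244) (nat_lit 1) (nat_lit 237) (nat_lit 1) (nat_lit 243) (nat_lit 1) (nat_lit 402) (nat_lit 404) (nat_lit 334)) (XT.lf (nat_lit 608) (nat_lit 3323638833) (nat_lit 0) (nat_lit 82367127) (nat_lit 532) (nat_lit 82367127) (nat_lit 237) (nat_lit 1) (nat_lit 229) (nat_lit 1) (nat_lit 236) (nat_lit 1) (nat_lit 403) (nat_lit 404) (nat_lit 333))) (XT.nd (nat_lit 78) (nat_lit 456) (nat_lit 0) (XT.lf (nat_lit 76) (nat_lit 1296420688) (nat_lit 0) (nat_lit 867988253) (nat_lit 608) (nat_lit 1296420688) (nat_lit 230) (nat_lit 1) (nat_lit 229)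 (nat_lit 1) (nat_lit 237) (nat_lit 1) (nat_lit 404) (nat_lit 404) (nat_lit 332)) (XT.lf (nat_lit 532) (nat_lit 1870662835) (nat_lit 0) (nat_lit 781525719) (nat_lit 456) (nat_lit 781525719) (nat_lit 230) (nat_lit 1) (nat_lit 223) (nat_lit 1) (nat_lit 229) (nat_lit 1) (nat_lit 405) (nat_lit 404) (nat_lit 331)))) (XT.nd (nat_lit 156) (nat_lit 988) (nat_lit 0) (XT.nd (nat_lit 78) (nat_lit 456) (nat_lit 0) (XT.lf (nat_lit 76) (nat_lit 575128080) (nat_lit 0) (nat_lit 2256631518) (nat_lit 532) (nat_lit 575128080) (nat_lit 224) (nat_lit 1) (nat_lit 223) (nat_lit 1) (nat_lit 230) (nat_lit 1) (nat_lit 406) (nat_lit 404) (nat_lit 330)) (XT.lf (nat_lit 532) (nat_lit 429128847) (nat_lit 0) (nat_lit 1475583572) (nat_lit 456) (nat_lit 1475583572) (nat_lit 224) (nat_lit 1) (nat_lit 217) (nat_lit 1) (nat_lit 223) (nat_lit 1) (nat_lit 407) (nat_lit 404) (nat_lit 329))) (XT.nd (nat_lit 78) (nat_lit 456) (nat_lit 0) (XT.lf (nat_lit 532) (nat_lit 3075242930)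 (nat_lit 0) (nat_lit 139426956) (nat_lit 456) (nat_lit 139426956) (nat_lit 217) (nat_lit 1) (nat_lit 210) (nat_lit 1) (nat_lit 216) (nat_lit 1) (nat_lit 408) (nat_lit 404) (nat_lit 328)) (XT.nd (nat_lit 78) (nat_lit 456) (nat_lit 0) (XT.lf (nat_lit 76) (nat_lit 1170277006) (nat_lit 0) (nat_lit 987403427) (nat_lit 532) (nat_lit 1170277006) (nat_lit 211) (nat_lit 1) (nat_lit 210) (nat_lit 1) (nat_lit 217) (nat_lit 1) (nat_lit 409) (nat_lit 404) (nat_lit 327)) (XT.lf (nat_lit 532) (nat_lit 1613774685) (nat_lit 0) (nat_lit 844214258) (nat_lit 456) (nat_lit 844214258) (nat_lit 211) (nat_lit 1) (nat_lit 204) (nat_lit 1) (nat_lit 210) (nat_lit 1) (nat_lit 410) (nat_lit 404) (nat_lit 326))))))) (XT.nd (nat_lit 702) (nat_lit 2204) (nat_lit 0) (XT.nd (nat_lit 312) (nat_lit 1216) (nat_lit 0) (XT.nd (nat_lit 156) (nat_lit 532) (nat_lit 0) (XT.nd (nat_lit 78) (nat_lit 380) (nat_lit 0) (XT.lf (nat_lit 76) (nat_lit 445279341) (nat_lit 0) (nat_lit 2386185710)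 (nat_lit 532) (nat_lit 445279341) (nat_lit 205) (nat_lit 1) (nat_lit 204) (nat_lit 1) (nat_lit 211) (nat_lit 1) (nat_lit 411) (nat_lit 404) (nat_lit 325)) (XT.lf (nat_lit 456) (nat_lit 165824797) (nat_lit 0) (nat_lit 1542826083) (nat_lit 380) (nat_lit 1542826083) (nat_lit 205) (nat_lit 1) (nat_lit 199) (nat_lit 1) (nat_lit 204) (nat_lit 1) (nat_lit 412) (nat_lit 404) (nat_lit 324))) (XT.nd (nat_lit 78) (nat_lit 0) (nat_lit 0) (XT.lf (nat_lit 532) (nat_lit 2684335187) (nat_lit 0) (nat_lit 271103014) (nat_lit 456) (nat_lit 271103014) (nat_lit 199) (nat_lit 1) (nat_lit 192) (nat_lit 1) (nat_lit 198) (nat_lit 1) (nat_lit 413) (nat_lit 404) (nat_lit 323)) (XT.lf (nat_lit 76) (nat_lit 975037260) (nat_lit 0) (nat_lit 1251650205) (nat_lit 532) (nat_lit 975037260) (nat_lit 193) (nat_lit 1) (nat_lit 192) (nat_lit 1) (nat_lit 199) (nat_lit 1) (nat_lit 414) (nat_lit 404) (nat_lit 322)))) (XT.nd (nat_lit 156) (nat_lit 836) (nat_lit 0) (XT.nd (nat_lit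 78) (nat_lit 0) (nat_lit 0) (XT.lf (nat_lit 456) (nat_lit 1221976582) (nat_lit 0) (nat_lit 977628394) (nat_lit 380) (nat_lit 977628394) (nat_lit 193) (nat_lit 1) (nat_lit 187) (nat_lit 1) (nat_lit 192) (nat_lit 1) (nat_lit 415) (nat_lit 404) (nat_lit 321)) (XT.lf (nat_lit 76) (nat_lit 250031256) (nat_lit 0) (nat_lit 2653001049) (nat_lit 456) (nat_lit 250031256) (nat_lit 188) (nat_lit 1) (nat_lit 187) (nat_lit 1) (nat_lit 193) (nat_lit 1) (nat_lit 416) (nat_lit 404) (nat_lit 320))) (XT.nd (nat_lit 78) (nat_lit 380) (nat_lit 0) (XT.lf (nat_lit 76) (nat_lit 1453399377) (nat_lit 0) (nat_lit 222197444) (nat_lit 456) (nat_lit 1453399377) (nat_lit 182) (nat_lit 1) (nat_lit 181) (nat_lit 1) (nat_lit 187) (nat_lit 1) (nat_lit 417) (nat_lit 404) (nat_lit 319)) (XT.nd (nat_lit 78) (nat_lit 0) (nat_lit 0) (XT.lf (nat_lit 456) (nat_lit 2176741106) (nat_lit 0) (nat_lit 464251613) (nat_lit 380) (nat_lit 464251613) (nat_lit 182) (nat_lit 1) (nat_lit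 176) (nat_lit 1) (nat_lit 181) (nat_lit 1) (nat_lit 418) (nat_lit 404) (nat_lit 318)) (XT.lf (nat_lit 76) (nat_lit 723291404) (nat_lit 0) (nat_lit 1635092724) (nat_lit 456) (nat_lit 723291404) (nat_lit 177) (nat_lit 1) (nat_lit 176) (nat_lit 1) (nat_lit 182) (nat_lit 1) (nat_lit 419) (nat_lit 404) (nat_lit 317)))))) (XT.nd (nat_lit 390) (nat_lit 1064) (nat_lit 0) (XT.nd (nat_lit 156) (nat_lit 760) (nat_lit 0) (XT.nd (nat_lit 78) (nat_lit 0) (nat_lit 0) (XT.lf (nat_lit 456) (nat_lit 719984150) (nat_lit 0) (nat_lit 1169186894) (nat_lit 380) (nat_lit 1169186894) (nat_lit 177) (nat_lit 1) (nat_lit 171) (nat_lit 1) (nat_lit 176) (nat_lit 1) (nat_lit 420) (nat_lit 404) (nat_lit 316)) (XT.lf (nat_lit 76) (nat_lit 1432209) (nat_lit 0) (nat_lit 3032539644) (nat_lit 456) (nat_lit 1432209) (nat_lit 172) (nat_lit 1) (nat_lit 171) (nat_lit 1) (nat_lit 177) (nat_lit 1) (nat_lit 421) (nat_lit 404) (nat_lit 315))) (XT.nd (nat_lit 78) (nat_lit 380) (nat_lit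 0) (XT.lf (nat_lit 76) (nat_lit 1150857662) (nat_lit 0) (nat_lit 710700229) (nat_lit 380) (nat_lit 1150857662) (nat_lit 167) (nat_lit 1) (nat_lit 166) (nat_lit 1) (nat_lit 171) (nat_lit 1) (nat_lit 422) (nat_lit 404) (nat_lit 314)) (XT.nd (nat_lit 78) (nat_lit 0) (nat_lit 0) (XT.lf (nat_lit 456) (nat_lit 1574946470) (nat_lit 0) (nat_lit 707419458) (nat_lit 380) (nat_lit 707419458) (nat_lit 167) (nat_lit 1) (nat_lit 161) (nat_lit 1) (nat_lit 166) (nat_lit 1) (nat_lit 423) (nat_lit 404) (nat_lit 313)) (XT.lf (nat_lit 76) (nat_lit 425998938) (nat_lit 0) (nat_lit 2115396562) (nat_lit 456) (nat_lit 425998938) (nat_lit 162) (nat_lit 1) (nat_lit 161) (nat_lit 1) (nat_lit 167) (nat_lit 1) (nat_lit 424) (nat_lit 404) (nat_lit 312))))) (XT.nd (nat_lit 156) (nat_lit 304) (nat_lit 0) (XT.nd (nat_lit 78) (nat_lit 456) (nat_lit 0) (XT.lf (nat_lit 380) (nat_lit 129307664) (nat_lit 0) (nat_lit 1407930990) (nat_lit 304) (nat_lit 1407930990) (nat_lit 162)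 (nat_lit 1) (nat_lit 157) (nat_lit 1) (nat_lit 161) (nat_lit 1) (nat_lit 425) (nat_lit 404) (nat_lit 311)) (XT.lf (nat_lit 456) (nat_lit 2346960432) (nat_lit 0) (nat_lit 288126127) (nat_lit 380) (nat_lit 288126127) (nat_lit 157) (nat_lit 1) (nat_lit 151) (nat_lit 1) (nat_lit 156) (nat_lit 1) (nat_lit 426) (nat_lit 404) (nat_lit 310))) (XT.nd (nat_lit 78) (nat_lit 304) (nat_lit 0) (XT.lf (nat_lit 76) (nat_lit 809905993) (nat_lit 0) (nat_lit 1281553048) (nat_lit 456) (nat_lit 809905993) (nat_lit 152) (nat_lit 1) (nat_lit 151) (nat_lit 1) (nat_lit 157) (nat_lit 1) (nat_lit 427) (nat_lit 404) (nat_lit 309)) (XT.nd (nat_lit 78) (nat_lit 0) (nat_lit 0) (XT.lf (nat_lit 380) (nat_lit 898490083) (nat_lit 0) (nat_lit 990645183) (nat_lit 304) (nat_lit 990645183) (nat_lit 152) (nat_lit 1) (nat_lit 147) (nat_lit 1) (nat_lit 151) (nat_lit 1) (nat_lit 428) (nat_lit 404) (nat_lit 308)) (XT.lf (nat_lit 76) (nat_lit 92680740) (nat_lit 0) (nat_lit 2673140937)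 (nat_lit 380) (nat_lit 92680740) (nat_lit 148) (nat_lit 1) (nat_lit 147) (nat_lit 1) (nat_lit 152) (nat_lit 1) (nat_lit 429) (nat_lit 404) (nat_lit 307))))))))
noncomputable def ec94 : XT := (XT.nd (nat_lit 51870) (nat_lit 0) (nat_lit 28348) (XT.nd (nat_lit 702) (nat_lit 912) (nat_lit 0) (XT.nd (nat_lit 312) (nat_lit 988) (nat_lit 0) (XT.nd (nat_lit 156) (nat_lit 304) (nat_lit 0) (XT.nd (nat_lit 78) (nat_lit 304) (nat_lit 0) (XT.lf (nat_lit 76) (nat_lit 1156413067) (nat_lit 0) (nat_lit 524401637) (nat_lit 380) (nat_lit 1156413067) (nat_lit 143) (nat_lit 1) (nat_lit 142) (nat_lit 1) (nat_lit 147) (nat_lit 1) (nat_lit 430) (nat_lit 404) (nat_lit 306)) (XT.lf (nat_lit 380) (nat_lit 1593820649) (nat_lit 0) (nat_lit 611217312) (nat_lit 304) (nat_lit 611217312) (nat_lit 143) (nat_lit 1) (nat_lit 138) (nat_lit 1) (nat_lit 142) (nat_lit 1) (nat_lit 431) (nat_lit 404) (nat_lit 305))) (XT.nd (nat_lit 78) (nat_lit 304) (nat_lit 0) (XT.lf (nat_lit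 76) (nat_lit 439179103) (nat_lit 0) (nat_lit 1917128832) (nat_lit 380) (nat_lit 439179103) (nat_lit 139) (nat_lit 1) (nat_lit 138) (nat_lit 1) (nat_lit 143) (nat_lit 1) (nat_lit 432) (nat_lit 404) (nat_lit 304)) (XT.lf (nat_lit 380) (nat_lit 164311751) (nat_lit 0) (nat_lit 1305283483) (nat_lit 304) (nat_lit 1305283483) (nat_lit 139) (nat_lit 1) (nat_lit 134) (nat_lit 1) (nat_lit 138) (nat_lit 1) (nat_lit 433) (nat_lit 404) (nat_lit 303)))) (XT.nd (nat_lit 156) (nat_lit 608) (nat_lit 0) (XT.nd (nat_lit 78) (nat_lit 0) (nat_lit 0) (XT.lf (nat_lit 380) (nat_lit 2221223030) (nat_lit 0) (nat_lit 266645114) (nat_lit 304) (nat_lit 266645114) (nat_lit 134) (nat_lit 1) (nat_lit 129) (nat_lit 1) (nat_lit 133) (nat_lit 1) (nat_lit 434) (nat_lit 404) (nat_lit 302)) (XT.lf (nat_lit 76) (nat_lit 752357552) (nat_lit 0) (nat_lit 1229522667) (nat_lit 380) (nat_lit 752357552) (nat_lit 130) (nat_lit 1) (nat_lit 129) (nat_lit 1) (nat_lit 134) (nat_lit 1)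 (nat_lit 435) (nat_lit 404) (nat_lit 301))) (XT.nd (nat_lit 78) (nat_lit 304) (nat_lit 0) (XT.lf (nat_lit 380) (nat_lit 794167389) (nat_lit 0) (nat_lit 960016923) (nat_lit 304) (nat_lit 960016923) (nat_lit 130) (nat_lit 1) (nat_lit 125) (nat_lit 1) (nat_lit 129) (nat_lit 1) (nat_lit 436) (nat_lit 404) (nat_lit 300)) (XT.nd (nat_lit 78) (nat_lit 304) (nat_lit 0) (XT.lf (nat_lit 76) (nat_lit 46146297) (nat_lit 0) (nat_lit 2602161854) (nat_lit 380) (nat_lit 46146297) (nat_lit 126) (nat_lit 1) (nat_lit 125) (nat_lit 1) (nat_lit 130) (nat_lit 1) (nat_lit 437) (nat_lit 404) (nat_lit 299)) (XT.lf (nat_lit 76) (nat_lit 1034889481) (nat_lit 0) (nat_lit 604900622) (nat_lit 304) (nat_lit 1034889481) (nat_lit 122) (nat_lit 1) (nat_lit 121) (nat_lit 1) (nat_lit 125) (nat_lit 1) (nat_lit 438) (nat_lit 404) (nat_lit 298)))))) (XT.nd (nat_lit 312) (nat_lit 0) (nat_lit 0) (XT.nd (nat_lit 156) (nat_lit 608) (nat_lit 0) (XT.nd (nat_lit 78) (nat_lit 0) (nat_lit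 0) (XT.lf (nat_lit 380) (nat_lit 1363461174) (nat_lit 0) (nat_lit 645864840) (nat_lit 304) (nat_lit 645864840) (nat_lit 122) (nat_lit 1) (nat_lit 117) (nat_lit 1) (nat_lit 121) (nat_lit 1) (nat_lit 439) (nat_lit 404) (nat_lit 297)) (XT.lf (nat_lit 76) (nat_lit 330981605) (nat_lit 0) (nat_lit 1973943997) (nat_lit 380) (nat_lit 330981605) (nat_lit 118) (nat_lit 1) (nat_lit 117) (nat_lit 1) (nat_lit 122) (nat_lit 1) (nat_lit 440) (nat_lit 404) (nat_lit 296))) (XT.nd (nat_lit 78) (nat_lit 304) (nat_lit 0) (XT.lf (nat_lit 76) (nat_lit 1289242030) (nat_lit 0) (nat_lit 38257938) (nat_lit 304) (nat_lit 1289242030) (nat_lit 114) (nat_lit 1) (nat_lit 113) (nat_lit 1) (nat_lit 117) (nat_lit 1) (nat_lit 441) (nat_lit 404) (nat_lit 295)) (XT.lf (nat_lit 380) (nat_lit 1877052139) (nat_lit 0) (nat_lit 360363196) (nat_lit 304) (nat_lit 360363196) (nat_lit 114) (nat_lit 1) (nat_lit 109) (nat_lit 1) (nat_lit 113) (nat_lit 1) (nat_lit 442) (nat_lit 404)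 (nat_lit 294)))) (XT.nd (nat_lit 50622) (nat_lit 0) (nat_lit 29488) (XT.nd (nat_lit 50544) (nat_lit 0) (nat_lit 29488) (XT.lf (nat_lit 76) (nat_lit 588471488) (nat_lit 0) (nat_lit 1402000181) (nat_lit 380) (nat_lit 588471488) (nat_lit 110) (nat_lit 1) (nat_lit 109) (nat_lit 1) (nat_lit 114) (nat_lit 1) (nat_lit 443) (nat_lit 404) (nat_lit 293)) (XT.lf (nat_lit 1900) (nat_lit 1106597410) (nat_lit 0) (nat_lit 1115851138) (nat_lit 1900) (nat_lit 1106597410) (nat_lit 522) (nat_lit 1) (nat_lit 497) (nat_lit 0) (nat_lit 522) (nat_lit 0) (nat_lit 330) (nat_lit 405) (nat_lit 405))) (XT.nd (nat_lit 78) (nat_lit 0) (nat_lit 76) (XT.lf (nat_lit 1900) (nat_lit 4375652537) (nat_lit 76) (nat_lit 1108510012) (nat_lit 0) (nat_lit 1108510012) (nat_lit 522) (nat_lit 1) (nat_lit 498) (nat_lit 1) (nat_lit 497) (nat_lit 0) (nat_lit 331) (nat_lit 405) (nat_lit 404)) (XT.nd (nat_lit 78) (nat_lit 0) (nat_lit 0) (XT.lf (nat_lit 1900) (nat_lit 2148466224) (nat_lit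 0) (nat_lit 2231035298) (nat_lit 1824) (nat_lit 2148466224) (nat_lit 523) (nat_lit 1) (nat_lit 498) (nat_lit 1) (nat_lit 522) (nat_lit 1) (nat_lit 332) (nat_lit 405) (nat_lit 403)) (XT.lf (nat_lit 1900) (nat_lit 4205078026) (nat_lit 76) (nat_lit 1129582912) (nat_lit 0) (nat_lit 1129582912) (nat_lit 523) (nat_lit 1) (nat_lit 499) (nat_lit 1) (nat_lit 498) (nat_lit 1) (nat_lit 333) (nat_lit 405) (nat_lit 402))))))) (XT.nd (nat_lit 702) (nat_lit 1292) (nat_lit 0) (XT.nd (nat_lit 312) (nat_lit 0) (nat_lit 152) (XT.nd (nat_lit 156) (nat_lit 0) (nat_lit 76) (XT.nd (nat_lit 78) (nat_lit 0) (nat_lit 0) (XT.lf (nat_lit 1900) (nat_lit 2043588236) (nat_lit 0) (nat_lit 2314046929) (nat_lit 1824) (nat_lit 2043588236) (nat_lit 524) (nat_lit 1) (nat_lit 499) (nat_lit 1) (nat_lit 523) (nat_lit 1) (nat_lit 334) (nat_lit 405) (nat_lit 401)) (XT.lf (nat_lit 1900) (nat_lit 3956362722) (nat_lit 76) (nat_lit 1191388708) (nat_lit 0) (nat_lit 1191388708) (nat_lit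 524) (nat_lit 1) (nat_lit 500) (nat_lit 1) (nat_lit 499) (nat_lit 1) (nat_lit 335) (nat_lit 405) (nat_lit 400))) (XT.nd (nat_lit 78) (nat_lit 0) (nat_lit 0) (XT.lf (nat_lit 1900) (nat_lit 1900956434) (nat_lit 0) (nat_lit 2475847578) (nat_lit 1824) (nat_lit 1900956434) (nat_lit 525) (nat_lit 1) (nat_lit 500) (nat_lit 1) (nat_lit 524) (nat_lit 1) (nat_lit 336) (nat_lit 405) (nat_lit 399)) (XT.lf (nat_lit 1900) (nat_lit 3634202973) (nat_lit 76) (nat_lit 1291530962) (nat_lit 0) (nat_lit 1291530962) (nat_lit 525) (nat_lit 1) (nat_lit 501) (nat_lit 1) (nat_lit 500) (nat_lit 1) (nat_lit 337) (nat_lit 405) (nat_lit 398)))) (XT.nd (nat_lit 156) (nat_lit 0) (nat_lit 76) (XT.nd (nat_lit 78) (nat_lit 0) (nat_lit 0) (XT.lf (nat_lit 1900) (nat_lit 1722856968) (nat_lit 0) (nat_lit 2711769684) (nat_lit 1824) (nat_lit 1722856968) (nat_lit 526) (nat_lit 1) (nat_lit 501) (nat_lit 1) (nat_lit 525) (nat_lit 1) (nat_lit 338) (nat_lit 405) (nat_lit 397)) (XT.lf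 (nat_lit 1900) (nat_lit 3243080175) (nat_lit 76) (nat_lit 1427722268) (nat_lit 0) (nat_lit 1427722268) (nat_lit 526) (nat_lit 1) (nat_lit 502) (nat_lit 1) (nat_lit 501) (nat_lit 1) (nat_lit 339) (nat_lit 405) (nat_lit 396))) (XT.nd (nat_lit 78) (nat_lit 0) (nat_lit 0) (XT.lf (nat_lit 1900) (nat_lit 1511471135) (nat_lit 0) (nat_lit 3017358463) (nat_lit 1824) (nat_lit 1511471135) (nat_lit 527) (nat_lit 1) (nat_lit 502) (nat_lit 1) (nat_lit 526) (nat_lit 1) (nat_lit 340) (nat_lit 405) (nat_lit 395)) (XT.nd (nat_lit 78) (nat_lit 0) (nat_lit 76) (XT.lf (nat_lit 1900) (nat_lit 2787269755) (nat_lit 76) (nat_lit 1597779706) (nat_lit 0) (nat_lit 1597779706) (nat_lit 527) (nat_lit 1) (nat_lit 503) (nat_lit 1) (nat_lit 502) (nat_lit 1) (nat_lit 341) (nat_lit 405) (nat_lit 394)) (XT.lf (nat_lit 1900) (nat_lit 1268879764) (nat_lit 0) (nat_lit 3388363031) (nat_lit 1824) (nat_lit 1268879764) (nat_lit 528) (nat_lit 1) (nat_lit 503) (nat_lit 1) (nat_lit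 527) (nat_lit 1) (nat_lit 342) (nat_lit 405) (nat_lit 393)))))) (XT.nd (nat_lit 390) (nat_lit 1596) (nat_lit 0) (XT.nd (nat_lit 156) (nat_lit 0) (nat_lit 76) (XT.nd (nat_lit 78) (nat_lit 0) (nat_lit 76) (XT.lf (nat_lit 1900) (nat_lit 2270849796) (nat_lit 76) (nat_lit 1799620476) (nat_lit 0) (nat_lit 1799620476) (nat_lit 528) (nat_lit 1) (nat_lit 504) (nat_lit 1) (nat_lit 503) (nat_lit 1) (nat_lit 343) (nat_lit 405) (nat_lit 392)) (XT.lf (nat_lit 1900) (nat_lit 997067424) (nat_lit 0) (nat_lit 3820727876) (nat_lit 1824) (nat_lit 997067424) (nat_lit 529) (nat_lit 1) (nat_lit 504) (nat_lit 1) (nat_lit 528) (nat_lit 1) (nat_lit 344) (nat_lit 405) (nat_lit 391))) (XT.nd (nat_lit 78) (nat_lit 0) (nat_lit 76) (XT.lf (nat_lit 1900) (nat_lit 1697709316) (nat_lit 76) (nat_lit 2031257708) (nat_lit 0) (nat_lit 2031257708) (nat_lit 529) (nat_lit 1) (nat_lit 505) (nat_lit 1) (nat_lit 504) (nat_lit 1) (nat_lit 345) (nat_lit 405) (nat_lit 390)) (XT.nd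 (nat_lit 78) (nat_lit 0) (nat_lit 0) (XT.lf (nat_lit 1900) (nat_lit 697926471) (nat_lit 0) (nat_lit 4310584679) (nat_lit 1824) (nat_lit 697926471) (nat_lit 530) (nat_lit 1) (nat_lit 505) (nat_lit 1) (nat_lit 529) (nat_lit 1) (nat_lit 346) (nat_lit 405) (nat_lit 389)) (XT.lf (nat_lit 1900) (nat_lit 1071556209) (nat_lit 76) (nat_lit 2290796443) (nat_lit 0) (nat_lit 2290796443) (nat_lit 530) (nat_lit 1) (nat_lit 506) (nat_lit 1) (nat_lit 505) (nat_lit 1) (nat_lit 347) (nat_lit 405) (nat_lit 388))))) (XT.nd (nat_lit 156) (nat_lit 1824) (nat_lit 0) (XT.nd (nat_lit 78) (nat_lit 0) (nat_lit 0) (XT.lf (nat_lit 1900) (nat_lit 373260919) (nat_lit 0) (nat_lit 4854244463) (nat_lit 1824) (nat_lit 373260919) (nat_lit 531) (nat_lit 1) (nat_lit 506) (nat_lit 1) (nat_lit 530) (nat_lit 1) (nat_lit 348) (nat_lit 405) (nat_lit 387)) (XT.lf (nat_lit 1900) (nat_lit 395924871) (nat_lit 76) (nat_lit 2576429777) (nat_lit 0) (nat_lit 2576429777) (nat_lit 531)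 (nat_lit 1) (nat_lit 507) (nat_lit 1) (nat_lit 506) (nat_lit 1) (nat_lit 349) (nat_lit 405) (nat_lit 386))) (XT.nd (nat_lit 78) (nat_lit 1900) (nat_lit 0) (XT.lf (nat_lit 1900) (nat_lit 24790167) (nat_lit 0) (nat_lit 5448190057) (nat_lit 1824) (nat_lit 24790167) (nat_lit 532) (nat_lit 1) (nat_lit 507) (nat_lit 1) (nat_lit 531) (nat_lit 1) (nat_lit 350) (nat_lit 405) (nat_lit 385)) (XT.nd (nat_lit 78) (nat_lit 0) (nat_lit 0) (XT.lf (nat_lit 1976) (nat_lit 2562734084) (nat_lit 0) (nat_lit 321543345) (nat_lit 1900) (nat_lit 2562734084) (nat_lit 508) (nat_lit 1) (nat_lit 482) (nat_lit 1) (nat_lit 507) (nat_lit 1) (nat_lit 351) (nat_lit 405) (nat_lit 384)) (XT.lf (nat_lit 1976) (nat_lit 4710049525) (nat_lit 76) (nat_lit 343572118) (nat_lit 0) (nat_lit 343572118) (nat_lit 508) (nat_lit 1) (nat_lit 483) (nat_lit 1) (nat_lit 482) (nat_lit 1) (nat_lit 352) (nat_lit 405) (nat_lit 383))))))))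
noncomputable def ec95 : XT := (XT.nd (nat_lit 1404) (nat_lit 7676) (nat_lit 0) (XT.nd (nat_lit 702) (nat_lit 4256) (nat_lit 0) (XT.nd (nat_lit 312) (nat_lit 1824) (nat_lit 0) (XT.nd (nat_lit 156) (nat_lit 1064) (nat_lit 0) (XT.nd (nat_lit 78) (nat_lit 0) (nat_lit 0) (XT.lf (nat_lit 1976) (nat_lit 2135791982) (nat_lit 0) (nat_lit 1076157251) (nat_lit 1900) (nat_lit 2135791982) (nat_lit 509) (nat_lit 1) (nat_lit 483) (nat_lit 1) (nat_lit 508) (nat_lit 1) (nat_lit 353) (nat_lit 405) (nat_lit 382)) (XT.lf (nat_lit 1976) (nat_lit 3834635784) (nat_lit 76) (nat_lit 732241858) (nat_lit 0) (nat_lit 732241858) (nat_lit 509) (nat_lit 1) (nat_lit 484) (nat_lit 1) (nat_lit 483) (nat_lit 1) (nat_lit 354) (nat_lit 405) (nat_lit 381))) (XT.nd (nat_lit 78) (nat_lit 1140) (nat_lit 0) (XT.lf (nat_lit 76) (nat_lit 1690430138) (nat_lit 0) (nat_lit 1870092938) (nat_lit 1900) (nat_lit 1690430138) (nat_lit 485) (nat_lit 1) (nat_lit 484) (nat_lit 1) (nat_lit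 509) (nat_lit 1) (nat_lit 355) (nat_lit 405) (nat_lit 380)) (XT.lf (nat_lit 1216) (nat_lit 2923679086) (nat_lit 0) (nat_lit 1139905520) (nat_lit 1140) (nat_lit 1139905520) (nat_lit 485) (nat_lit 1) (nat_lit 469) (nat_lit 1) (nat_lit 484) (nat_lit 1) (nat_lit 356) (nat_lit 405) (nat_lit 379)))) (XT.nd (nat_lit 156) (nat_lit 912) (nat_lit 0) (XT.nd (nat_lit 78) (nat_lit 912) (nat_lit 0) (XT.lf (nat_lit 76) (nat_lit 1228050059) (nat_lit 0) (nat_lit 2700477917) (nat_lit 1216) (nat_lit 1228050059) (nat_lit 470) (nat_lit 1) (nat_lit 469) (nat_lit 1) (nat_lit 485) (nat_lit 1) (nat_lit 357) (nat_lit 405) (nat_lit 378)) (XT.lf (nat_lit 988) (nat_lit 1979923065) (nat_lit 0) (nat_lit 1565157183) (nat_lit 912) (nat_lit 1565157183) (nat_lit 470) (nat_lit 1) (nat_lit 457) (nat_lit 1) (nat_lit 469) (nat_lit 1) (nat_lit 358) (nat_lit 405) (nat_lit 377))) (XT.nd (nat_lit 78) (nat_lit 912) (nat_lit 0) (XT.lf (nat_lit 76) (nat_lit 749985371) (nat_lit 0)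 (nat_lit 3564577626) (nat_lit 988) (nat_lit 749985371) (nat_lit 458) (nat_lit 1) (nat_lit 457) (nat_lit 1) (nat_lit 470) (nat_lit 1) (nat_lit 359) (nat_lit 405) (nat_lit 376)) (XT.nd (nat_lit 78) (nat_lit 0) (nat_lit 0) (XT.lf (nat_lit 988) (nat_lit 1005978081) (nat_lit 0) (nat_lit 2006658630) (nat_lit 912) (nat_lit 2006658630) (nat_lit 458) (nat_lit 1) (nat_lit 445) (nat_lit 1) (nat_lit 457) (nat_lit 1) (nat_lit 360) (nat_lit 405) (nat_lit 375)) (XT.lf (nat_lit 76) (nat_lit 257504722) (nat_lit 0) (nat_lit 4459789555) (nat_lit 988) (nat_lit 257504722) (nat_lit 446) (nat_lit 1) (nat_lit 445) (nat_lit 1) (nat_lit 458) (nat_lit 1) (nat_lit 361) (nat_lit 405) (nat_lit 374)))))) (XT.nd (nat_lit 312) (nat_lit 1596) (nat_lit 0) (XT.nd (nat_lit 156) (nat_lit 836) (nat_lit 0) (XT.nd (nat_lit 78) (nat_lit 988) (nat_lit 0) (XT.lf (nat_lit 912) (nat_lit 4326922) (nat_lit 0) (nat_lit 2463136452) (nat_lit 836) (nat_lit 2463136452) (nat_lit 446) (nat_lit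 1) (nat_lit 434) (nat_lit 1) (nat_lit 445) (nat_lit 1) (nat_lit 362) (nat_lit 405) (nat_lit 373)) (XT.lf (nat_lit 988) (nat_lit 4394032125) (nat_lit 0) (nat_lit 246552636) (nat_lit 912) (nat_lit 246552636) (nat_lit 434) (nat_lit 1) (nat_lit 421) (nat_lit 1) (nat_lit 433) (nat_lit 1) (nat_lit 363) (nat_lit 405) (nat_lit 372))) (XT.nd (nat_lit 78) (nat_lit 836) (nat_lit 0) (XT.lf (nat_lit 76) (nat_lit 1917349406) (nat_lit 0) (nat_lit 1009257233) (nat_lit 988) (nat_lit 1917349406) (nat_lit 422) (nat_lit 1) (nat_lit 421) (nat_lit 1) (nat_lit 434) (nat_lit 1) (nat_lit 364) (nat_lit 405) (nat_lit 371)) (XT.lf (nat_lit 912) (nat_lit 3279692969) (nat_lit 0) (nat_lit 760899111) (nat_lit 836) (nat_lit 760899111) (nat_lit 422) (nat_lit 1) (nat_lit 410) (nat_lit 1) (nat_lit 421) (nat_lit 1) (nat_lit 365) (nat_lit 405) (nat_lit 370)))) (XT.nd (nat_lit 156) (nat_lit 760) (nat_lit 0) (XT.nd (nat_lit 78) (nat_lit 836) (nat_lit 0) (XT.lf (nat_lit 76)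 (nat_lit 1356924886) (nat_lit 0) (nat_lit 2045583331) (nat_lit 912) (nat_lit 1356924886) (nat_lit 411) (nat_lit 1) (nat_lit 410) (nat_lit 1) (nat_lit 422) (nat_lit 1) (nat_lit 366) (nat_lit 405) (nat_lit 369)) (XT.lf (nat_lit 912) (nat_lit 2145643755) (nat_lit 0) (nat_lit 1286146025) (nat_lit 836) (nat_lit 1286146025) (nat_lit 411) (nat_lit 1) (nat_lit 399) (nat_lit 1) (nat_lit 410) (nat_lit 1) (nat_lit 367) (nat_lit 405) (nat_lit 368))) (XT.nd (nat_lit 78) (nat_lit 760) (nat_lit 0) (XT.lf (nat_lit 76) (nat_lit 787184735) (nat_lit 0) (nat_lit 3102604090) (nat_lit 912) (nat_lit 787184735) (nat_lit 400) (nat_lit 1) (nat_lit 399) (nat_lit 1) (nat_lit 411) (nat_lit 1) (nat_lit 368) (nat_lit 405) (nat_lit 367)) (XT.nd (nat_lit 78) (nat_lit 0) (nat_lit 0) (XT.lf (nat_lit 836) (nat_lit 993884775) (nat_lit 0) (nat_lit 1821264745) (nat_lit 760) (nat_lit 1821264745) (nat_lit 400) (nat_lit 1) (nat_lit 389) (nat_lit 1) (nat_lit 399) (nat_lit 1) (nat_lit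 369) (nat_lit 405) (nat_lit 366)) (XT.lf (nat_lit 76) (nat_lit 209100056) (nat_lit 0) (nat_lit 4178321078) (nat_lit 836) (nat_lit 209100056) (nat_lit 390) (nat_lit 1) (nat_lit 389) (nat_lit 1) (nat_lit 400) (nat_lit 1) (nat_lit 370) (nat_lit 405) (nat_lit 365))))))) (XT.nd (nat_lit 702) (nat_lit 3192) (nat_lit 0) (XT.nd (nat_lit 312) (nat_lit 2128) (nat_lit 0) (XT.nd (nat_lit 156) (nat_lit 760) (nat_lit 0) (XT.nd (nat_lit 78) (nat_lit 760) (nat_lit 0) (XT.lf (nat_lit 76) (nat_lit 2192720565) (nat_lit 0) (nat_lit 171407651) (nat_lit 836) (nat_lit 2192720565) (nat_lit 379) (nat_lit 1) (nat_lit 378) (nat_lit 1) (nat_lit 389) (nat_lit 1) (nat_lit 371) (nat_lit 405) (nat_lit 364)) (XT.lf (nat_lit 836) (nat_lit 3769962633) (nat_lit 0) (nat_lit 373931340) (nat_lit 760) (nat_lit 373931340) (nat_lit 379) (nat_lit 1) (nat_lit 368) (nat_lit 1) (nat_lit 378) (nat_lit 1) (nat_lit 372) (nat_lit 405) (nat_lit 363))) (XT.nd (nat_lit 78) (nat_lit 760)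 (nat_lit 0) (XT.lf (nat_lit 76) (nat_lit 1570792850) (nat_lit 0) (nat_lit 1337491767) (nat_lit 836) (nat_lit 1570792850) (nat_lit 369) (nat_lit 1) (nat_lit 368) (nat_lit 1) (nat_lit 379) (nat_lit 1) (nat_lit 373) (nat_lit 405) (nat_lit 362)) (XT.lf (nat_lit 836) (nat_lit 2516730598) (nat_lit 0) (nat_lit 962093126) (nat_lit 760) (nat_lit 962093126) (nat_lit 369) (nat_lit 1) (nat_lit 358) (nat_lit 1) (nat_lit 368) (nat_lit 1) (nat_lit 374) (nat_lit 405) (nat_lit 361)))) (XT.nd (nat_lit 156) (nat_lit 1444) (nat_lit 0) (XT.nd (nat_lit 78) (nat_lit 684) (nat_lit 0) (XT.lf (nat_lit 76) (nat_lit 943730233) (nat_lit 0) (nat_lit 2515717209) (nat_lit 836) (nat_lit 943730233) (nat_lit 359) (nat_lit 1) (nat_lit 358) (nat_lit 1) (nat_lit 369) (nat_lit 1) (nat_lit 375) (nat_lit 405) (nat_lit 360)) (XT.lf (nat_lit 760) (nat_lit 1253978192) (nat_lit 0) (nat_lit 1555937883) (nat_lit 684) (nat_lit 1555937883) (nat_lit 359) (nat_lit 1) (nat_lit 349) (nat_lit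 1) (nat_lit 358) (nat_lit 1) (nat_lit 376) (nat_lit 405) (nat_lit 359))) (XT.nd (nat_lit 78) (nat_lit 1444) (nat_lit 0) (XT.lf (nat_lit 76) (nat_lit 312306324) (nat_lit 0) (nat_lit 3704486597) (nat_lit 760) (nat_lit 312306324) (nat_lit 350) (nat_lit 1) (nat_lit 349) (nat_lit 1) (nat_lit 359) (nat_lit 1) (nat_lit 377) (nat_lit 405) (nat_lit 358)) (XT.nd (nat_lit 78) (nat_lit 684) (nat_lit 0) (XT.lf (nat_lit 76) (nat_lit 2138010634) (nat_lit 0) (nat_lit 16563890) (nat_lit 760) (nat_lit 2138010634) (nat_lit 340) (nat_lit 1) (nat_lit 339) (nat_lit 1) (nat_lit 349) (nat_lit 1) (nat_lit 378) (nat_lit 405) (nat_lit 357)) (XT.lf (nat_lit 760) (nat_lit 3615378872) (nat_lit 0) (nat_lit 320623229) (nat_lit 684) (nat_lit 320623229) (nat_lit 340) (nat_lit 1) (nat_lit 330) (nat_lit 1) (nat_lit 339) (nat_lit 1) (nat_lit 379) (nat_lit 405) (nat_lit 356)))))) (XT.nd (nat_lit 390) (nat_lit 1900) (nat_lit 0) (XT.nd (nat_lit 156) (nat_lit 608) (nat_lit 0)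 (XT.nd (nat_lit 78) (nat_lit 684) (nat_lit 0) (XT.lf (nat_lit 76) (nat_lit 1471873671) (nat_lit 0) (nat_lit 1277153785) (nat_lit 760) (nat_lit 1471873671) (nat_lit 331) (nat_lit 1) (nat_lit 330) (nat_lit 1) (nat_lit 340) (nat_lit 1) (nat_lit 380) (nat_lit 405) (nat_lit 355)) (XT.lf (nat_lit 760) (nat_lit 2276882729) (nat_lit 0) (nat_lit 954414959) (nat_lit 684) (nat_lit 954414959) (nat_lit 331) (nat_lit 1) (nat_lit 321) (nat_lit 1) (nat_lit 330) (nat_lit 1) (nat_lit 381) (nat_lit 405) (nat_lit 354))) (XT.nd (nat_lit 78) (nat_lit 608) (nat_lit 0) (XT.lf (nat_lit 76) (nat_lit 804007599) (nat_lit 0) (nat_lit 2542903277) (nat_lit 760) (nat_lit 804007599) (nat_lit 322) (nat_lit 1) (nat_lit 321) (nat_lit 1) (nat_lit 331) (nat_lit 1) (nat_lit 382) (nat_lit 405) (nat_lit 353)) (XT.nd (nat_lit 78) (nat_lit 0) (nat_lit 0) (XT.lf (nat_lit 684) (nat_lit 935533092) (nat_lit 0) (nat_lit 1590472709) (nat_lit 608) (nat_lit 1590472709) (nat_lit 322) (nat_lit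 1) (nat_lit 313) (nat_lit 1) (nat_lit 321) (nat_lit 1) (nat_lit 383) (nat_lit 405) (nat_lit 352)) (XT.lf (nat_lit 76) (nat_lit 135020663) (nat_lit 0) (nat_lit 3812551033) (nat_lit 684) (nat_lit 135020663) (nat_lit 314) (nat_lit 1) (nat_lit 313) (nat_lit 1) (nat_lit 322) (nat_lit 1) (nat_lit 384) (nat_lit 405) (nat_lit 351))))) (XT.nd (nat_lit 156) (nat_lit 608) (nat_lit 0) (XT.nd (nat_lit 78) (nat_lit 608) (nat_lit 0) (XT.lf (nat_lit 76) (nat_lit 1823342993) (nat_lit 0) (nat_lit 402139926) (nat_lit 684) (nat_lit 1823342993) (nat_lit 305) (nat_lit 1) (nat_lit 304) (nat_lit 1) (nat_lit 313) (nat_lit 1) (nat_lit 385) (nat_lit 405) (nat_lit 350)) (XT.lf (nat_lit 684) (nat_lit 2953607506) (nat_lit 0) (nat_lit 530996592) (nat_lit 608) (nat_lit 530996592) (nat_lit 305) (nat_lit 1) (nat_lit 296) (nat_lit 1) (nat_lit 304) (nat_lit 1) (nat_lit 386) (nat_lit 405) (nat_lit 349))) (XT.nd (nat_lit 78) (nat_lit 608) (nat_lit 0) (XT.lf (nat_lit 76) (nat_lit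 1127279243) (nat_lit 0) (nat_lit 1728084922) (nat_lit 684) (nat_lit 1127279243) (nat_lit 297) (nat_lit 1) (nat_lit 296) (nat_lit 1) (nat_lit 305) (nat_lit 1) (nat_lit 387) (nat_lit 405) (nat_lit 348)) (XT.nd (nat_lit 78) (nat_lit 0) (nat_lit 0) (XT.lf (nat_lit 684) (nat_lit 1557847329) (nat_lit 0) (nat_lit 1196131047) (nat_lit 608) (nat_lit 1196131047) (nat_lit 297) (nat_lit 1) (nat_lit 288) (nat_lit 1) (nat_lit 296) (nat_lit 1) (nat_lit 388) (nat_lit 405) (nat_lit 347)) (XT.lf (nat_lit 76) (nat_lit 432240153) (nat_lit 0) (nat_lit 3053530765) (nat_lit 684) (nat_lit 432240153) (nat_lit 289) (nat_lit 1) (nat_lit 288) (nat_lit 1) (nat_lit 297) (nat_lit 1) (nat_lit 389) (nat_lit 405) (nat_lit 346))))))))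
noncomputable def ec96 : XT := (XT.nd (nat_lit 1404) (nat_lit 4484) (nat_lit 0) (XT.nd (nat_lit 702) (nat_lit 2508) (nat_lit 0) (XT.nd (nat_lit 312) (nat_lit 1672) (nat_lit 0) (XT.nd (nat_lit 156) (nat_lit 532) (nat_lit 0) (XT.nd (nat_lit 78) (nat_lit 684) (nat_lit 0) (XT.lf (nat_lit 608) (nat_lit 164619697) (nat_lit 0) (nat_lit 1860764249) (nat_lit 532) (nat_lit 1860764249) (nat_lit 289) (nat_lit 1) (nat_lit 281) (nat_lit 1) (nat_lit 288) (nat_lit 1) (nat_lit 390) (nat_lit 405) (nat_lit 345)) (XT.lf (nat_lit 684) (nat_lit 3335582387) (nat_lit 0) (nat_lit 259585069) (nat_lit 608) (nat_lit 259585069) (nat_lit 281) (nat_lit 1) (nat_lit 272) (nat_lit 1) (nat_lit 280) (nat_lit 1) (nat_lit 391) (nat_lit 405) (nat_lit 344))) (XT.nd (nat_lit 78) (nat_lit 532) (nat_lit 0) (XT.lf (nat_lit 76) (nat_lit 1307212951) (nat_lit 0) (nat_lit 1209092461) (nat_lit 684) (nat_lit 1307212951) (nat_lit 273) (nat_lit 1) (nat_lit 272) (nat_lit 1) (nat_lit 281)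 (nat_lit 1) (nat_lit 392) (nat_lit 405) (nat_lit 343)) (XT.lf (nat_lit 608) (nat_lit 1899455185) (nat_lit 0) (nat_lit 946642739) (nat_lit 532) (nat_lit 946642739) (nat_lit 273) (nat_lit 1) (nat_lit 265) (nat_lit 1) (nat_lit 272) (nat_lit 1) (nat_lit 393) (nat_lit 405) (nat_lit 342)))) (XT.nd (nat_lit 156) (nat_lit 1140) (nat_lit 0) (XT.nd (nat_lit 78) (nat_lit 532) (nat_lit 0) (XT.lf (nat_lit 76) (nat_lit 592962164) (nat_lit 0) (nat_lit 2576395470) (nat_lit 608) (nat_lit 592962164) (nat_lit 266) (nat_lit 1) (nat_lit 265) (nat_lit 1) (nat_lit 273) (nat_lit 1) (nat_lit 394) (nat_lit 405) (nat_lit 341)) (XT.lf (nat_lit 608) (nat_lit 469434302) (nat_lit 0) (nat_lit 1631364383) (nat_lit 532) (nat_lit 1631364383) (nat_lit 266) (nat_lit 1) (nat_lit 258) (nat_lit 1) (nat_lit 265) (nat_lit 1) (nat_lit 395) (nat_lit 405) (nat_lit 340))) (XT.nd (nat_lit 78) (nat_lit 532) (nat_lit 0) (XT.lf (nat_lit 608) (nat_lit 3467912819) (nat_lit 0) (nat_lit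 117281171) (nat_lit 532) (nat_lit 117281171) (nat_lit 258) (nat_lit 1) (nat_lit 250) (nat_lit 1) (nat_lit 257) (nat_lit 1) (nat_lit 396) (nat_lit 405) (nat_lit 339)) (XT.nd (nat_lit 78) (nat_lit 532) (nat_lit 0) (XT.lf (nat_lit 76) (nat_lit 1365812081) (nat_lit 0) (nat_lit 941235127) (nat_lit 608) (nat_lit 1365812081) (nat_lit 251) (nat_lit 1) (nat_lit 250) (nat_lit 1) (nat_lit 258) (nat_lit 1) (nat_lit 397) (nat_lit 405) (nat_lit 338)) (XT.lf (nat_lit 608) (nat_lit 2003580201) (nat_lit 0) (nat_lit 820061250) (nat_lit 532) (nat_lit 820061250) (nat_lit 251) (nat_lit 1) (nat_lit 243) (nat_lit 1) (nat_lit 250) (nat_lit 1) (nat_lit 398) (nat_lit 405) (nat_lit 337)))))) (XT.nd (nat_lit 312) (nat_lit 1444) (nat_lit 0) (XT.nd (nat_lit 156) (nat_lit 608) (nat_lit 0) (XT.nd (nat_lit 78) (nat_lit 456) (nat_lit 0) (XT.lf (nat_lit 76) (nat_lit 638271434) (nat_lit 0) (nat_lit 2338314772) (nat_lit 608) (nat_lit 638271434) (nat_lit 244) (nat_lit 1)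 (nat_lit 243) (nat_lit 1) (nat_lit 251) (nat_lit 1) (nat_lit 399) (nat_lit 405) (nat_lit 336)) (XT.lf (nat_lit 532) (nat_lit 548377521) (nat_lit 0) (nat_lit 1518949504) (nat_lit 456) (nat_lit 1518949504) (nat_lit 244) (nat_lit 1) (nat_lit 237) (nat_lit 1) (nat_lit 243) (nat_lit 1) (nat_lit 400) (nat_lit 405) (nat_lit 335))) (XT.nd (nat_lit 78) (nat_lit 0) (nat_lit 0) (XT.lf (nat_lit 608) (nat_lit 3390111609) (nat_lit 0) (nat_lit 84014469) (nat_lit 532) (nat_lit 84014469) (nat_lit 237) (nat_lit 1) (nat_lit 229) (nat_lit 1) (nat_lit 236) (nat_lit 1) (nat_lit 401) (nat_lit 405) (nat_lit 334)) (XT.lf (nat_lit 76) (nat_lit 1322349102) (nat_lit 0) (nat_lit 885348018) (nat_lit 608) (nat_lit 1322349102) (nat_lit 230) (nat_lit 1) (nat_lit 229) (nat_lit 1) (nat_lit 237) (nat_lit 1) (nat_lit 402) (nat_lit 405) (nat_lit 333)))) (XT.nd (nat_lit 156) (nat_lit 988) (nat_lit 0) (XT.nd (nat_lit 78) (nat_lit 0) (nat_lit 0) (XT.lf (nat_lit 532) (nat_lit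 1908076092) (nat_lit 0) (nat_lit 797156233) (nat_lit 456) (nat_lit 797156233) (nat_lit 230) (nat_lit 1) (nat_lit 223) (nat_lit 1) (nat_lit 229) (nat_lit 1) (nat_lit 403) (nat_lit 405) (nat_lit 332)) (XT.lf (nat_lit 76) (nat_lit 586630642) (nat_lit 0) (nat_lit 2301764148) (nat_lit 532) (nat_lit 586630642) (nat_lit 224) (nat_lit 1) (nat_lit 223) (nat_lit 1) (nat_lit 230) (nat_lit 1) (nat_lit 404) (nat_lit 405) (nat_lit 331))) (XT.nd (nat_lit 78) (nat_lit 532) (nat_lit 0) (XT.lf (nat_lit 532) (nat_lit 437711424) (nat_lit 0) (nat_lit 1505095243) (nat_lit 456) (nat_lit 1505095243) (nat_lit 224) (nat_lit 1) (nat_lit 217) (nat_lit 1) (nat_lit 223) (nat_lit 1) (nat_lit 405) (nat_lit 405) (nat_lit 330)) (XT.nd (nat_lit 78) (nat_lit 0) (nat_lit 0) (XT.lf (nat_lit 532) (nat_lit 3136747788) (nat_lit 0) (nat_lit 142215495) (nat_lit 456) (nat_lit 142215495) (nat_lit 217) (nat_lit 1) (nat_lit 210) (nat_lit 1) (nat_lit 216) (nat_lit 1) (nat_lit 406)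 (nat_lit 405) (nat_lit 329)) (XT.lf (nat_lit 76) (nat_lit 1193682546) (nat_lit 0) (nat_lit 1007151496) (nat_lit 532) (nat_lit 1193682546) (nat_lit 211) (nat_lit 1) (nat_lit 210) (nat_lit 1) (nat_lit 217) (nat_lit 1) (nat_lit 407) (nat_lit 405) (nat_lit 328))))))) (XT.nd (nat_lit 702) (nat_lit 1900) (nat_lit 0) (XT.nd (nat_lit 312) (nat_lit 1216) (nat_lit 0) (XT.nd (nat_lit 156) (nat_lit 912) (nat_lit 0) (XT.nd (nat_lit 78) (nat_lit 0) (nat_lit 0) (XT.lf (nat_lit 532) (nat_lit 1646050179) (nat_lit 0) (nat_lit 861098543) (nat_lit 456) (nat_lit 861098543) (nat_lit 211) (nat_lit 1) (nat_lit 204) (nat_lit 1) (nat_lit 210) (nat_lit 1) (nat_lit 408) (nat_lit 405) (nat_lit 327)) (XT.lf (nat_lit 76) (nat_lit 454184928) (nat_lit 0) (nat_lit 2433909425) (nat_lit 532) (nat_lit 454184928) (nat_lit 205) (nat_lit 1) (nat_lit 204) (nat_lit 1) (nat_lit 211) (nat_lit 1) (nat_lit 409) (nat_lit 405) (nat_lit 326))) (XT.nd (nat_lit 78) (nat_lit 532) (nat_lit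 0) (XT.lf (nat_lit 456) (nat_lit 169141293) (nat_lit 0) (nat_lit 1573682604) (nat_lit 380) (nat_lit 1573682604) (nat_lit 205) (nat_lit 1) (nat_lit 199) (nat_lit 1) (nat_lit 204) (nat_lit 1) (nat_lit 410) (nat_lit 405) (nat_lit 325)) (XT.lf (nat_lit 532) (nat_lit 2738021891) (nat_lit 0) (nat_lit 276525075) (nat_lit 456) (nat_lit 276525075) (nat_lit 199) (nat_lit 1) (nat_lit 192) (nat_lit 1) (nat_lit 198) (nat_lit 1) (nat_lit 411) (nat_lit 405) (nat_lit 324)))) (XT.nd (nat_lit 156) (nat_lit 836) (nat_lit 0) (XT.nd (nat_lit 78) (nat_lit 380) (nat_lit 0) (XT.lf (nat_lit 76) (nat_lit 994538006) (nat_lit 0) (nat_lit 1276683209) (nat_lit 532) (nat_lit 994538006) (nat_lit 193) (nat_lit 1) (nat_lit 192) (nat_lit 1) (nat_lit 199) (nat_lit 1) (nat_lit 412) (nat_lit 405) (nat_lit 323)) (XT.lf (nat_lit 456) (nat_lit 1246416114) (nat_lit 0) (nat_lit 997180962) (nat_lit 380) (nat_lit 997180962) (nat_lit 193) (nat_lit 1) (nat_lit 187) (nat_lit 1) (nat_lit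 192) (nat_lit 1) (nat_lit 413) (nat_lit 405) (nat_lit 322))) (XT.nd (nat_lit 78) (nat_lit 836) (nat_lit 0) (XT.lf (nat_lit 76) (nat_lit 255031881) (nat_lit 0) (nat_lit 2706061070) (nat_lit 456) (nat_lit 255031881) (nat_lit 188) (nat_lit 1) (nat_lit 187) (nat_lit 1) (nat_lit 193) (nat_lit 1) (nat_lit 414) (nat_lit 405) (nat_lit 321)) (XT.nd (nat_lit 78) (nat_lit 380) (nat_lit 0) (XT.lf (nat_lit 76) (nat_lit 1482467365) (nat_lit 0) (nat_lit 226641393) (nat_lit 456) (nat_lit 1482467365) (nat_lit 182) (nat_lit 1) (nat_lit 181) (nat_lit 1) (nat_lit 187) (nat_lit 1) (nat_lit 415) (nat_lit 405) (nat_lit 320)) (XT.lf (nat_lit 456) (nat_lit 2220275928) (nat_lit 0) (nat_lit 473536646) (nat_lit 380) (nat_lit 473536646) (nat_lit 182) (nat_lit 1) (nat_lit 176) (nat_lit 1) (nat_lit 181) (nat_lit 1) (nat_lit 416) (nat_lit 405) (nat_lit 319)))))) (XT.nd (nat_lit 312) (nat_lit 1140) (nat_lit 0) (XT.nd (nat_lit 156) (nat_lit 380) (nat_lit 0) (XT.nd (nat_lit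 78) (nat_lit 380) (nat_lit 0) (XT.lf (nat_lit 76) (nat_lit 737757232) (nat_lit 0) (nat_lit 1667794579) (nat_lit 456) (nat_lit 737757232) (nat_lit 177) (nat_lit 1) (nat_lit 176) (nat_lit 1) (nat_lit 182) (nat_lit 1) (nat_lit 417) (nat_lit 405) (nat_lit 318)) (XT.lf (nat_lit 456) (nat_lit 734383833) (nat_lit 0) (nat_lit 1192570632) (nat_lit 380) (nat_lit 1192570632) (nat_lit 177) (nat_lit 1) (nat_lit 171) (nat_lit 1) (nat_lit 176) (nat_lit 1) (nat_lit 418) (nat_lit 405) (nat_lit 317))) (XT.nd (nat_lit 78) (nat_lit 380) (nat_lit 0) (XT.lf (nat_lit 76) (nat_lit 1460853) (nat_lit 0) (nat_lit 3093190437) (nat_lit 456) (nat_lit 1460853) (nat_lit 172) (nat_lit 1) (nat_lit 171) (nat_lit 1) (nat_lit 177) (nat_lit 1) (nat_lit 419) (nat_lit 405) (nat_lit 316)) (XT.lf (nat_lit 76) (nat_lit 1173874815) (nat_lit 0) (nat_lit 724914233) (nat_lit 380) (nat_lit 1173874815) (nat_lit 167) (nat_lit 1) (nat_lit 166) (nat_lit 1) (nat_lit 171) (nat_lit 1) (nat_lit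 420) (nat_lit 405) (nat_lit 315)))) (XT.nd (nat_lit 156) (nat_lit 760) (nat_lit 0) (XT.nd (nat_lit 78) (nat_lit 0) (nat_lit 0) (XT.lf (nat_lit 456) (nat_lit 1606445400) (nat_lit 0) (nat_lit 721567847) (nat_lit 380) (nat_lit 721567847) (nat_lit 167) (nat_lit 1) (nat_lit 161) (nat_lit 1) (nat_lit 166) (nat_lit 1) (nat_lit 421) (nat_lit 405) (nat_lit 314)) (XT.lf (nat_lit 76) (nat_lit 434518917) (nat_lit 0) (nat_lit 2157704493) (nat_lit 456) (nat_lit 434518917) (nat_lit 162) (nat_lit 1) (nat_lit 161) (nat_lit 1) (nat_lit 167) (nat_lit 1) (nat_lit 422) (nat_lit 405) (nat_lit 313))) (XT.nd (nat_lit 78) (nat_lit 456) (nat_lit 0) (XT.lf (nat_lit 380) (nat_lit 131893817) (nat_lit 0) (nat_lit 1436089610) (nat_lit 304) (nat_lit 1436089610) (nat_lit 162) (nat_lit 1) (nat_lit 157) (nat_lit 1) (nat_lit 161) (nat_lit 1) (nat_lit 423) (nat_lit 405) (nat_lit 312)) (XT.nd (nat_lit 78) (nat_lit 0) (nat_lit 0) (XT.lf (nat_lit 456) (nat_lit 2393899641) (nat_lit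 0) (nat_lit 293888649) (nat_lit 380) (nat_lit 293888649) (nat_lit 157) (nat_lit 1) (nat_lit 151) (nat_lit 1) (nat_lit 156) (nat_lit 1) (nat_lit 424) (nat_lit 405) (nat_lit 311)) (XT.lf (nat_lit 76) (nat_lit 826104113) (nat_lit 0) (nat_lit 1307184109) (nat_lit 456) (nat_lit 826104113) (nat_lit 152) (nat_lit 1) (nat_lit 151) (nat_lit 1) (nat_lit 157) (nat_lit 1) (nat_lit 425) (nat_lit 405) (nat_lit 310))))))))
noncomputable def ec97 : XT := (XT.nd (nat_lit 51714) (nat_lit 0) (nat_lit 30096) (XT.nd (nat_lit 702) (nat_lit 1824) (nat_lit 0) (XT.nd (nat_lit 312) (nat_lit 988) (nat_lit 0) (XT.nd (nat_lit 156) (nat_lit 684) (nat_lit 0) (XT.nd (nat_lit 78) (nat_lit 0) (nat_lit 0) (XT.lf (nat_lit 380) (nat_lit 916459885) (nat_lit 0) (nat_lit 1010458086) (nat_lit 304) (nat_lit 1010458086) (nat_lit 152) (nat_lit 1) (nat_lit 147) (nat_lit 1) (nat_lit 151) (nat_lit 1) (nat_lit 426) (nat_lit 405) (nat_lit 309)) (XT.lf (nat_lit 76) (nat_lit 94534355)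 (nat_lit 0) (nat_lit 2726603756) (nat_lit 380) (nat_lit 94534355) (nat_lit 148) (nat_lit 1) (nat_lit 147) (nat_lit 1) (nat_lit 152) (nat_lit 1) (nat_lit 427) (nat_lit 405) (nat_lit 308))) (XT.nd (nat_lit 78) (nat_lit 304) (nat_lit 0) (XT.lf (nat_lit 76) (nat_lit 1179541329) (nat_lit 0) (nat_lit 534889670) (nat_lit 380) (nat_lit 1179541329) (nat_lit 143) (nat_lit 1) (nat_lit 142) (nat_lit 1) (nat_lit 147) (nat_lit 1) (nat_lit 428) (nat_lit 405) (nat_lit 307)) (XT.lf (nat_lit 380) (nat_lit 1625697062) (nat_lit 0) (nat_lit 623441659) (nat_lit 304) (nat_lit 623441659) (nat_lit 143) (nat_lit 1) (nat_lit 138) (nat_lit 1) (nat_lit 142) (nat_lit 1) (nat_lit 429) (nat_lit 405) (nat_lit 306)))) (XT.nd (nat_lit 156) (nat_lit 684) (nat_lit 0) (XT.nd (nat_lit 78) (nat_lit 304) (nat_lit 0) (XT.lf (nat_lit 76) (nat_lit 447962685) (nat_lit 0) (nat_lit 1955471409) (nat_lit 380) (nat_lit 447962685) (nat_lit 139) (nat_lit 1) (nat_lit 138) (nat_lit 1) (nat_lit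 143) (nat_lit 1) (nat_lit 430) (nat_lit 405) (nat_lit 305)) (XT.lf (nat_lit 380) (nat_lit 167597986) (nat_lit 0) (nat_lit 1331389152) (nat_lit 304) (nat_lit 1331389152) (nat_lit 139) (nat_lit 1) (nat_lit 134) (nat_lit 1) (nat_lit 138) (nat_lit 1) (nat_lit 431) (nat_lit 405) (nat_lit 304))) (XT.nd (nat_lit 78) (nat_lit 304) (nat_lit 0) (XT.lf (nat_lit 380) (nat_lit 2265647491) (nat_lit 0) (nat_lit 271978016) (nat_lit 304) (nat_lit 271978016) (nat_lit 134) (nat_lit 1) (nat_lit 129) (nat_lit 1) (nat_lit 133) (nat_lit 1) (nat_lit 432) (nat_lit 405) (nat_lit 303)) (XT.nd (nat_lit 78) (nat_lit 304) (nat_lit 0) (XT.lf (nat_lit 76) (nat_lit 767404703) (nat_lit 0) (nat_lit 1254113120) (nat_lit 380) (nat_lit 767404703) (nat_lit 130) (nat_lit 1) (nat_lit 129) (nat_lit 1) (nat_lit 134) (nat_lit 1) (nat_lit 433) (nat_lit 405) (nat_lit 302)) (XT.lf (nat_lit 380) (nat_lit 810050737) (nat_lit 0) (nat_lit 979217262) (nat_lit 304) (nat_lit 979217262) (nat_lit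 130) (nat_lit 1) (nat_lit 125) (nat_lit 1) (nat_lit 129) (nat_lit 1) (nat_lit 434) (nat_lit 405) (nat_lit 301)))))) (XT.nd (nat_lit 312) (nat_lit 1216) (nat_lit 0) (XT.nd (nat_lit 156) (nat_lit 304) (nat_lit 0) (XT.nd (nat_lit 78) (nat_lit 304) (nat_lit 0) (XT.lf (nat_lit 76) (nat_lit 47069223) (nat_lit 0) (nat_lit 2654205091) (nat_lit 380) (nat_lit 47069223) (nat_lit 126) (nat_lit 1) (nat_lit 125) (nat_lit 1) (nat_lit 130) (nat_lit 1) (nat_lit 435) (nat_lit 405) (nat_lit 300)) (XT.lf (nat_lit 76) (nat_lit 1055587271) (nat_lit 0) (nat_lit 616998635) (nat_lit 304) (nat_lit 1055587271) (nat_lit 122) (nat_lit 1) (nat_lit 121) (nat_lit 1) (nat_lit 125) (nat_lit 1) (nat_lit 436) (nat_lit 405) (nat_lit 299))) (XT.nd (nat_lit 78) (nat_lit 0) (nat_lit 0) (XT.lf (nat_lit 380) (nat_lit 1390730398) (nat_lit 0) (nat_lit 658782137) (nat_lit 304) (nat_lit 658782137) (nat_lit 122) (nat_lit 1) (nat_lit 117) (nat_lit 1) (nat_lit 121) (nat_lit 1) (nat_lit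 437) (nat_lit 405) (nat_lit 298)) (XT.lf (nat_lit 76) (nat_lit 337601237) (nat_lit 0) (nat_lit 2013422877) (nat_lit 380) (nat_lit 337601237) (nat_lit 118) (nat_lit 1) (nat_lit 117) (nat_lit 1) (nat_lit 122) (nat_lit 1) (nat_lit 438) (nat_lit 405) (nat_lit 297)))) (XT.nd (nat_lit 156) (nat_lit 608) (nat_lit 0) (XT.nd (nat_lit 78) (nat_lit 304) (nat_lit 0) (XT.lf (nat_lit 76) (nat_lit 1315026870) (nat_lit 0) (nat_lit 39023096) (nat_lit 304) (nat_lit 1315026870) (nat_lit 114) (nat_lit 1) (nat_lit 113) (nat_lit 1) (nat_lit 117) (nat_lit 1) (nat_lit 439) (nat_lit 405) (nat_lit 296)) (XT.lf (nat_lit 380) (nat_lit 1914593182) (nat_lit 0) (nat_lit 367570460) (nat_lit 304) (nat_lit 367570460) (nat_lit 114) (nat_lit 1) (nat_lit 109) (nat_lit 1) (nat_lit 113) (nat_lit 1) (nat_lit 440) (nat_lit 405) (nat_lit 295))) (XT.nd (nat_lit 78) (nat_lit 608) (nat_lit 0) (XT.lf (nat_lit 76) (nat_lit 600240917) (nat_lit 0) (nat_lit 1430040185) (nat_lit 380)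 (nat_lit 600240917) (nat_lit 110) (nat_lit 1) (nat_lit 109) (nat_lit 1) (nat_lit 114) (nat_lit 1) (nat_lit 441) (nat_lit 405) (nat_lit 294)) (XT.nd (nat_lit 78) (nat_lit 380) (nat_lit 0) (XT.lf (nat_lit 304) (nat_lit 490964513) (nat_lit 0) (nat_lit 1060268829) (nat_lit 228) (nat_lit 1060268829) (nat_lit 110) (nat_lit 1) (nat_lit 106) (nat_lit 1) (nat_lit 109) (nat_lit 1) (nat_lit 442) (nat_lit 405) (nat_lit 293)) (XT.lf (nat_lit 380) (nat_lit 2386212923) (nat_lit 0) (nat_lit 103262206) (nat_lit 304) (nat_lit 103262206) (nat_lit 106) (nat_lit 1) (nat_lit 101) (nat_lit 1) (nat_lit 105) (nat_lit 1) (nat_lit 443) (nat_lit 405) (nat_lit 292))))))) (XT.nd (nat_lit 702) (nat_lit 0) (nat_lit 304) (XT.nd (nat_lit 312) (nat_lit 0) (nat_lit 152) (XT.nd (nat_lit 156) (nat_lit 0) (nat_lit 76) (XT.nd (nat_lit 78) (nat_lit 0) (nat_lit 0) (XT.lf (nat_lit 1900) (nat_lit 1128729358) (nat_lit 0) (nat_lit 1138168160) (nat_lit 1900) (nat_lit 1128729358) (nat_lit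 522) (nat_lit 1) (nat_lit 497) (nat_lit 0) (nat_lit 522) (nat_lit 0) (nat_lit 328) (nat_lit 406) (nat_lit 406)) (XT.lf (nat_lit 1900) (nat_lit 4463165588) (nat_lit 76) (nat_lit 1130680212) (nat_lit 0) (nat_lit 1130680212) (nat_lit 522) (nat_lit 1) (nat_lit 498) (nat_lit 1) (nat_lit 497) (nat_lit 0) (nat_lit 329) (nat_lit 406) (nat_lit 405))) (XT.nd (nat_lit 78) (nat_lit 0) (nat_lit 0) (XT.lf (nat_lit 1900) (nat_lit 2191435548) (nat_lit 0) (nat_lit 2275656004) (nat_lit 1824) (nat_lit 2191435548) (nat_lit 523) (nat_lit 1) (nat_lit 498) (nat_lit 1) (nat_lit 522) (nat_lit 1) (nat_lit 330) (nat_lit 406) (nat_lit 404)) (XT.lf (nat_lit 1900) (nat_lit 4289179587) (nat_lit 76) (nat_lit 1152174571) (nat_lit 0) (nat_lit 1152174571) (nat_lit 523) (nat_lit 1) (nat_lit 499) (nat_lit 1) (nat_lit 498) (nat_lit 1) (nat_lit 331) (nat_lit 406) (nat_lit 403)))) (XT.nd (nat_lit 156) (nat_lit 0) (nat_lit 76) (XT.nd (nat_lit 78) (nat_lit 0) (nat_lit 0) (XT.lf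 (nat_lit 1900) (nat_lit 2084460001) (nat_lit 0) (nat_lit 2360327868) (nat_lit 1824) (nat_lit 2084460001) (nat_lit 524) (nat_lit 1) (nat_lit 499) (nat_lit 1) (nat_lit 523) (nat_lit 1) (nat_lit 332) (nat_lit 406) (nat_lit 402)) (XT.lf (nat_lit 1900) (nat_lit 4035489976) (nat_lit 76) (nat_lit 1215216482) (nat_lit 0) (nat_lit 1215216482) (nat_lit 524) (nat_lit 1) (nat_lit 500) (nat_lit 1) (nat_lit 499) (nat_lit 1) (nat_lit 333) (nat_lit 406) (nat_lit 401))) (XT.nd (nat_lit 78) (nat_lit 0) (nat_lit 0) (XT.lf (nat_lit 1900) (nat_lit 1938975563) (nat_lit 0) (nat_lit 2525364530) (nat_lit 1824) (nat_lit 1938975563) (nat_lit 525) (nat_lit 1) (nat_lit 500) (nat_lit 1) (nat_lit 524) (nat_lit 1) (nat_lit 334) (nat_lit 406) (nat_lit 400)) (XT.nd (nat_lit 78) (nat_lit 0) (nat_lit 76) (XT.lf (nat_lit 1900) (nat_lit 3706887032) (nat_lit 76) (nat_lit 1317361581) (nat_lit 0) (nat_lit 1317361581) (nat_lit 525) (nat_lit 1) (nat_lit 501) (nat_lit 1) (nat_lit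 500) (nat_lit 1) (nat_lit 335) (nat_lit 406) (nat_lit 399)) (XT.lf (nat_lit 1900) (nat_lit 1757314108) (nat_lit 0) (nat_lit 2766005078) (nat_lit 1824) (nat_lit 1757314108) (nat_lit 526) (nat_lit 1) (nat_lit 501) (nat_lit 1) (nat_lit 525) (nat_lit 1) (nat_lit 336) (nat_lit 406) (nat_lit 398)))))) (XT.nd (nat_lit 390) (nat_lit 0) (nat_lit 228) (XT.nd (nat_lit 156) (nat_lit 0) (nat_lit 76) (XT.nd (nat_lit 78) (nat_lit 0) (nat_lit 76) (XT.lf (nat_lit 1900) (nat_lit 3307941778) (nat_lit 76) (nat_lit 1456276714) (nat_lit 0) (nat_lit 1456276714) (nat_lit 526) (nat_lit 1) (nat_lit 502) (nat_lit 1) (nat_lit 501) (nat_lit 1) (nat_lit 337) (nat_lit 406) (nat_lit 397)) (XT.lf (nat_lit 1900) (nat_lit 1541700558) (nat_lit 0) (nat_lit 3077705633) (nat_lit 1824) (nat_lit 1541700558) (nat_lit 527) (nat_lit 1) (nat_lit 502) (nat_lit 1) (nat_lit 526) (nat_lit 1) (nat_lit 338) (nat_lit 406) (nat_lit 396))) (XT.nd (nat_lit 78) (nat_lit 0) (nat_lit 76) (XT.lf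 (nat_lit 1900) (nat_lit 2843015150) (nat_lit 76) (nat_lit 1629735301) (nat_lit 0) (nat_lit 1629735301) (nat_lit 527) (nat_lit 1) (nat_lit 503) (nat_lit 1) (nat_lit 502) (nat_lit 1) (nat_lit 339) (nat_lit 406) (nat_lit 395)) (XT.nd (nat_lit 78) (nat_lit 0) (nat_lit 0) (XT.lf (nat_lit 1900) (nat_lit 1294257359) (nat_lit 0) (nat_lit 3456130292) (nat_lit 1824) (nat_lit 1294257359) (nat_lit 528) (nat_lit 1) (nat_lit 503) (nat_lit 1) (nat_lit 527) (nat_lit 1) (nat_lit 340) (nat_lit 406) (nat_lit 394)) (XT.lf (nat_lit 1900) (nat_lit 2316266792) (nat_lit 76) (nat_lit 1835612885) (nat_lit 0) (nat_lit 1835612885) (nat_lit 528) (nat_lit 1) (nat_lit 504) (nat_lit 1) (nat_lit 503) (nat_lit 1) (nat_lit 341) (nat_lit 406) (nat_lit 393))))) (XT.nd (nat_lit 156) (nat_lit 0) (nat_lit 76) (XT.nd (nat_lit 78) (nat_lit 0) (nat_lit 0) (XT.lf (nat_lit 1900) (nat_lit 1017008772) (nat_lit 0) (nat_lit 3897142433) (nat_lit 1824) (nat_lit 1017008772) (nat_lit 529)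 (nat_lit 1) (nat_lit 504) (nat_lit 1) (nat_lit 528) (nat_lit 1) (nat_lit 342) (nat_lit 406) (nat_lit 392)) (XT.lf (nat_lit 1900) (nat_lit 1731663503) (nat_lit 76) (nat_lit 2071882862) (nat_lit 0) (nat_lit 2071882862) (nat_lit 529) (nat_lit 1) (nat_lit 505) (nat_lit 1) (nat_lit 504) (nat_lit 1) (nat_lit 343) (nat_lit 406) (nat_lit 391))) (XT.nd (nat_lit 78) (nat_lit 0) (nat_lit 0) (XT.lf (nat_lit 1900) (nat_lit 711885000) (nat_lit 0) (nat_lit 4396796372) (nat_lit 1824) (nat_lit 711885000) (nat_lit 530) (nat_lit 1) (nat_lit 505) (nat_lit 1) (nat_lit 529) (nat_lit 1) (nat_lit 344) (nat_lit 406) (nat_lit 390)) (XT.nd (nat_lit 78) (nat_lit 0) (nat_lit 76) (XT.lf (nat_lit 1900) (nat_lit 1092987334) (nat_lit 76) (nat_lit 2336612372) (nat_lit 0) (nat_lit 2336612372) (nat_lit 530) (nat_lit 1) (nat_lit 506) (nat_lit 1) (nat_lit 505) (nat_lit 1) (nat_lit 345) (nat_lit 406) (nat_lit 389)) (XT.lf (nat_lit 1900) (nat_lit 380726137) (nat_lit 0) (nat_lit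 4951329352) (nat_lit 1824) (nat_lit 380726137) (nat_lit 531) (nat_lit 1) (nat_lit 506) (nat_lit 1) (nat_lit 530) (nat_lit 1) (nat_lit 346) (nat_lit 406) (nat_lit 388))))))))
noncomputable def ec98 : XT := (XT.nd (nat_lit 1404) (nat_lit 7372) (nat_lit 0) (XT.nd (nat_lit 702) (nat_lit 4484) (nat_lit 0) (XT.nd (nat_lit 312) (nat_lit 988) (nat_lit 0) (XT.nd (nat_lit 156) (nat_lit 1824) (nat_lit 0) (XT.nd (nat_lit 78) (nat_lit 0) (nat_lit 76) (XT.lf (nat_lit 1900) (nat_lit 403843368) (nat_lit 76) (nat_lit 2627958373) (nat_lit 0) (nat_lit 2627958373) (nat_lit 531) (nat_lit 1) (nat_lit 507) (nat_lit 1) (nat_lit 506) (nat_lit 1) (nat_lit 347) (nat_lit 406) (nat_lit 387)) (XT.lf (nat_lit 1900) (nat_lit 25285971) (nat_lit 0) (nat_lit 5557153858) (nat_lit 1824) (nat_lit 25285971) (nat_lit 532) (nat_lit 1) (nat_lit 507) (nat_lit 1) (nat_lit 531) (nat_lit 1) (nat_lit 348) (nat_lit 406) (nat_lit 386))) (XT.nd (nat_lit 78) (nat_lit 0) (nat_lit 0) (XT.lf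 (nat_lit 1976) (nat_lit 2613988766) (nat_lit 0) (nat_lit 327974211) (nat_lit 1900) (nat_lit 2613988766) (nat_lit 508) (nat_lit 1) (nat_lit 482) (nat_lit 1) (nat_lit 507) (nat_lit 1) (nat_lit 349) (nat_lit 406) (nat_lit 385)) (XT.lf (nat_lit 1976) (nat_lit 4804250515) (nat_lit 76) (nat_lit 350443561) (nat_lit 0) (nat_lit 350443561) (nat_lit 508) (nat_lit 1) (nat_lit 483) (nat_lit 1) (nat_lit 482) (nat_lit 1) (nat_lit 350) (nat_lit 406) (nat_lit 384)))) (XT.nd (nat_lit 156) (nat_lit 1064) (nat_lit 0) (XT.nd (nat_lit 78) (nat_lit 0) (nat_lit 0) (XT.lf (nat_lit 1976) (nat_lit 2178507821) (nat_lit 0) (nat_lit 1097680396) (nat_lit 1900) (nat_lit 2178507821) (nat_lit 509) (nat_lit 1) (nat_lit 483) (nat_lit 1) (nat_lit 508) (nat_lit 1) (nat_lit 351) (nat_lit 406) (nat_lit 383)) (XT.lf (nat_lit 1976) (nat_lit 3911328500) (nat_lit 76) (nat_lit 746886696) (nat_lit 0) (nat_lit 746886696) (nat_lit 509) (nat_lit 1) (nat_lit 484) (nat_lit 1) (nat_lit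 483) (nat_lit 1) (nat_lit 352) (nat_lit 406) (nat_lit 382))) (XT.nd (nat_lit 78) (nat_lit 1140) (nat_lit 0) (XT.lf (nat_lit 76) (nat_lit 1724238741) (nat_lit 0) (nat_lit 1907494797) (nat_lit 1900) (nat_lit 1724238741) (nat_lit 485) (nat_lit 1) (nat_lit 484) (nat_lit 1) (nat_lit 509) (nat_lit 1) (nat_lit 353) (nat_lit 406) (nat_lit 381)) (XT.nd (nat_lit 78) (nat_lit 0) (nat_lit 0) (XT.lf (nat_lit 1216) (nat_lit 2982152668) (nat_lit 0) (nat_lit 1162703630) (nat_lit 1140) (nat_lit 1162703630) (nat_lit 485) (nat_lit 1) (nat_lit 469) (nat_lit 1) (nat_lit 484) (nat_lit 1) (nat_lit 354) (nat_lit 406) (nat_lit 380)) (XT.lf (nat_lit 76) (nat_lit 1252611060) (nat_lit 0) (nat_lit 2754487475) (nat_lit 1216) (nat_lit 1252611060) (nat_lit 470) (nat_lit 1) (nat_lit 469) (nat_lit 1) (nat_lit 485) (nat_lit 1) (nat_lit 355) (nat_lit 406) (nat_lit 379)))))) (XT.nd (nat_lit 312) (nat_lit 2660) (nat_lit 0) (XT.nd (nat_lit 156) (nat_lit 912) (nat_lit 0) (XT.nd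 (nat_lit 78) (nat_lit 0) (nat_lit 0) (XT.lf (nat_lit 988) (nat_lit 2019521526) (nat_lit 0) (nat_lit 1596460327) (nat_lit 912) (nat_lit 1596460327) (nat_lit 470) (nat_lit 1) (nat_lit 457) (nat_lit 1) (nat_lit 469) (nat_lit 1) (nat_lit 356) (nat_lit 406) (nat_lit 378)) (XT.lf (nat_lit 76) (nat_lit 764985078) (nat_lit 0) (nat_lit 3635869178) (nat_lit 988) (nat_lit 764985078) (nat_lit 458) (nat_lit 1) (nat_lit 457) (nat_lit 1) (nat_lit 470) (nat_lit 1) (nat_lit 357) (nat_lit 406) (nat_lit 377))) (XT.nd (nat_lit 78) (nat_lit 0) (nat_lit 0) (XT.lf (nat_lit 988) (nat_lit 1026097643) (nat_lit 0) (nat_lit 2046791803) (nat_lit 912) (nat_lit 2046791803) (nat_lit 458) (nat_lit 1) (nat_lit 445) (nat_lit 1) (nat_lit 457) (nat_lit 1) (nat_lit 358) (nat_lit 406) (nat_lit 376)) (XT.lf (nat_lit 76) (nat_lit 262654816) (nat_lit 0) (nat_lit 4548985346) (nat_lit 988) (nat_lit 262654816) (nat_lit 446) (nat_lit 1) (nat_lit 445) (nat_lit 1) (nat_lit 458) (nat_lit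 1) (nat_lit 359) (nat_lit 406) (nat_lit 375)))) (XT.nd (nat_lit 156) (nat_lit 836) (nat_lit 0) (XT.nd (nat_lit 78) (nat_lit 988) (nat_lit 0) (XT.lf (nat_lit 912) (nat_lit 4413460) (nat_lit 0) (nat_lit 2512399181) (nat_lit 836) (nat_lit 2512399181) (nat_lit 446) (nat_lit 1) (nat_lit 434) (nat_lit 1) (nat_lit 445) (nat_lit 1) (nat_lit 360) (nat_lit 406) (nat_lit 374)) (XT.lf (nat_lit 988) (nat_lit 4481912768) (nat_lit 0) (nat_lit 251483689) (nat_lit 912) (nat_lit 251483689) (nat_lit 434) (nat_lit 1) (nat_lit 421) (nat_lit 1) (nat_lit 433) (nat_lit 1) (nat_lit 361) (nat_lit 406) (nat_lit 373))) (XT.nd (nat_lit 78) (nat_lit 836) (nat_lit 0) (XT.lf (nat_lit 76) (nat_lit 1955696394) (nat_lit 0) (nat_lit 1029442377) (nat_lit 988) (nat_lit 1955696394) (nat_lit 422) (nat_lit 1) (nat_lit 421) (nat_lit 1) (nat_lit 434) (nat_lit 1) (nat_lit 362) (nat_lit 406) (nat_lit 372)) (XT.nd (nat_lit 78) (nat_lit 0) (nat_lit 0) (XT.lf (nat_lit 912) (nat_lit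 3345286828) (nat_lit 0) (nat_lit 776117093) (nat_lit 836) (nat_lit 776117093) (nat_lit 422) (nat_lit 1) (nat_lit 410) (nat_lit 1) (nat_lit 421) (nat_lit 1) (nat_lit 363) (nat_lit 406) (nat_lit 371)) (XT.lf (nat_lit 76) (nat_lit 1384063384) (nat_lit 0) (nat_lit 2086494998) (nat_lit 912) (nat_lit 1384063384) (nat_lit 411) (nat_lit 1) (nat_lit 410) (nat_lit 1) (nat_lit 422) (nat_lit 1) (nat_lit 364) (nat_lit 406) (nat_lit 370))))))) (XT.nd (nat_lit 702) (nat_lit 3420) (nat_lit 0) (XT.nd (nat_lit 312) (nat_lit 2356) (nat_lit 0) (XT.nd (nat_lit 156) (nat_lit 760) (nat_lit 0) (XT.nd (nat_lit 78) (nat_lit 0) (nat_lit 0) (XT.lf (nat_lit 912) (nat_lit 2188556630) (nat_lit 0) (nat_lit 1311868945) (nat_lit 836) (nat_lit 1311868945) (nat_lit 411) (nat_lit 1) (nat_lit 399) (nat_lit 1) (nat_lit 410) (nat_lit 1) (nat_lit 365) (nat_lit 406) (nat_lit 369)) (XT.lf (nat_lit 76) (nat_lit 802928430) (nat_lit 0) (nat_lit 3164656172) (nat_lit 912) (nat_lit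 802928430) (nat_lit 400) (nat_lit 1) (nat_lit 399) (nat_lit 1) (nat_lit 411) (nat_lit 1) (nat_lit 366) (nat_lit 406) (nat_lit 368))) (XT.nd (nat_lit 78) (nat_lit 0) (nat_lit 0) (XT.lf (nat_lit 836) (nat_lit 1013762470) (nat_lit 0) (nat_lit 1857690040) (nat_lit 760) (nat_lit 1857690040) (nat_lit 400) (nat_lit 1) (nat_lit 389) (nat_lit 1) (nat_lit 399) (nat_lit 1) (nat_lit 367) (nat_lit 406) (nat_lit 367)) (XT.lf (nat_lit 76) (nat_lit 213282057) (nat_lit 0) (nat_lit 4261887500) (nat_lit 836) (nat_lit 213282057) (nat_lit 390) (nat_lit 1) (nat_lit 389) (nat_lit 1) (nat_lit 400) (nat_lit 1) (nat_lit 368) (nat_lit 406) (nat_lit 366)))) (XT.nd (nat_lit 156) (nat_lit 760) (nat_lit 0) (XT.nd (nat_lit 78) (nat_lit 760) (nat_lit 0) (XT.lf (nat_lit 76) (nat_lit 2236574976) (nat_lit 0) (nat_lit 174835804) (nat_lit 836) (nat_lit 2236574976) (nat_lit 379) (nat_lit 1) (nat_lit 378) (nat_lit 1) (nat_lit 389) (nat_lit 1) (nat_lit 369) (nat_lit 406) (nat_lit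 365)) (XT.lf (nat_lit 836) (nat_lit 3845361885) (nat_lit 0) (nat_lit 381409966) (nat_lit 760) (nat_lit 381409966) (nat_lit 379) (nat_lit 1) (nat_lit 368) (nat_lit 1) (nat_lit 378) (nat_lit 1) (nat_lit 370) (nat_lit 406) (nat_lit 364))) (XT.nd (nat_lit 78) (nat_lit 760) (nat_lit 0) (XT.lf (nat_lit 76) (nat_lit 1602208707) (nat_lit 0) (nat_lit 1364241603) (nat_lit 836) (nat_lit 1602208707) (nat_lit 369) (nat_lit 1) (nat_lit 368) (nat_lit 1) (nat_lit 379) (nat_lit 1) (nat_lit 371) (nat_lit 406) (nat_lit 363)) (XT.nd (nat_lit 78) (nat_lit 0) (nat_lit 0) (XT.lf (nat_lit 836) (nat_lit 2567065210) (nat_lit 0) (nat_lit 981334989) (nat_lit 760) (nat_lit 981334989) (nat_lit 369) (nat_lit 1) (nat_lit 358) (nat_lit 1) (nat_lit 368) (nat_lit 1) (nat_lit 372) (nat_lit 406) (nat_lit 362)) (XT.lf (nat_lit 76) (nat_lit 962604837) (nat_lit 0) (nat_lit 2566031554) (nat_lit 836) (nat_lit 962604837) (nat_lit 359) (nat_lit 1) (nat_lit 358) (nat_lit 1) (nat_lit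 369) (nat_lit 1) (nat_lit 373) (nat_lit 406) (nat_lit 361)))))) (XT.nd (nat_lit 312) (nat_lit 1292) (nat_lit 0) (XT.nd (nat_lit 156) (nat_lit 1444) (nat_lit 0) (XT.nd (nat_lit 78) (nat_lit 0) (nat_lit 0) (XT.lf (nat_lit 760) (nat_lit 1279057756) (nat_lit 0) (nat_lit 1587056640) (nat_lit 684) (nat_lit 1587056640) (nat_lit 359) (nat_lit 1) (nat_lit 349) (nat_lit 1) (nat_lit 358) (nat_lit 1) (nat_lit 374) (nat_lit 406) (nat_lit 360)) (XT.lf (nat_lit 76) (nat_lit 318552451) (nat_lit 0) (nat_lit 3778576329) (nat_lit 760) (nat_lit 318552451) (nat_lit 350) (nat_lit 1) (nat_lit 349) (nat_lit 1) (nat_lit 359) (nat_lit 1) (nat_lit 375) (nat_lit 406) (nat_lit 359))) (XT.nd (nat_lit 78) (nat_lit 684) (nat_lit 0) (XT.lf (nat_lit 76) (nat_lit 2180770847) (nat_lit 0) (nat_lit 16895168) (nat_lit 760) (nat_lit 2180770847) (nat_lit 340) (nat_lit 1) (nat_lit 339) (nat_lit 1) (nat_lit 349) (nat_lit 1) (nat_lit 376) (nat_lit 406) (nat_lit 358)) (XT.lf (nat_lit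 760) (nat_lit 3687686450) (nat_lit 0) (nat_lit 327035693) (nat_lit 684) (nat_lit 327035693) (nat_lit 340) (nat_lit 1) (nat_lit 330) (nat_lit 1) (nat_lit 339) (nat_lit 1) (nat_lit 377) (nat_lit 406) (nat_lit 357)))) (XT.nd (nat_lit 156) (nat_lit 608) (nat_lit 0) (XT.nd (nat_lit 78) (nat_lit 684) (nat_lit 0) (XT.lf (nat_lit 76) (nat_lit 1501311144) (nat_lit 0) (nat_lit 1302696861) (nat_lit 760) (nat_lit 1501311144) (nat_lit 331) (nat_lit 1) (nat_lit 330) (nat_lit 1) (nat_lit 340) (nat_lit 1) (nat_lit 378) (nat_lit 406) (nat_lit 356)) (XT.lf (nat_lit 760) (nat_lit 2322420383) (nat_lit 0) (nat_lit 973503258) (nat_lit 684) (nat_lit 973503258) (nat_lit 331) (nat_lit 1) (nat_lit 321) (nat_lit 1) (nat_lit 330) (nat_lit 1) (nat_lit 379) (nat_lit 406) (nat_lit 355))) (XT.nd (nat_lit 78) (nat_lit 608) (nat_lit 0) (XT.lf (nat_lit 76) (nat_lit 820087751) (nat_lit 0) (nat_lit 2593761342) (nat_lit 760) (nat_lit 820087751) (nat_lit 322) (nat_lit 1) (nat_lit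 321) (nat_lit 1) (nat_lit 331) (nat_lit 1) (nat_lit 380) (nat_lit 406) (nat_lit 354)) (XT.nd (nat_lit 78) (nat_lit 0) (nat_lit 0) (XT.lf (nat_lit 684) (nat_lit 954243754) (nat_lit 0) (nat_lit 1622282164) (nat_lit 608) (nat_lit 1622282164) (nat_lit 322) (nat_lit 1) (nat_lit 313) (nat_lit 1) (nat_lit 321) (nat_lit 1) (nat_lit 381) (nat_lit 406) (nat_lit 353)) (XT.lf (nat_lit 76) (nat_lit 137721076) (nat_lit 0) (nat_lit 3888802054) (nat_lit 684) (nat_lit 137721076) (nat_lit 314) (nat_lit 1) (nat_lit 313) (nat_lit 1) (nat_lit 322) (nat_lit 1) (nat_lit 382) (nat_lit 406) (nat_lit 352))))))))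
noncomputable def ec99 : XT := (XT.nd (nat_lit 1404) (nat_lit 5168) (nat_lit 0) (XT.nd (nat_lit 702) (nat_lit 2736) (nat_lit 0) (XT.nd (nat_lit 312) (nat_lit 1748) (nat_lit 0) (XT.nd (nat_lit 156) (nat_lit 608) (nat_lit 0) (XT.nd (nat_lit 78) (nat_lit 608) (nat_lit 0) (XT.lf (nat_lit 76) (nat_lit 1859809853) (nat_lit 0) (nat_lit 410182725) (nat_lit 684) (nat_lit 1859809853) (nat_lit 305) (nat_lit 1) (nat_lit 304) (nat_lit 1) (nat_lit 313) (nat_lit 1) (nat_lit 383) (nat_lit 406) (nat_lit 351)) (XT.lf (nat_lit 684) (nat_lit 3012679656) (nat_lit 0) (nat_lit 541616524) (nat_lit 608) (nat_lit 541616524) (nat_lit 305) (nat_lit 1) (nat_lit 296) (nat_lit 1) (nat_lit 304) (nat_lit 1) (nat_lit 384) (nat_lit 406) (nat_lit 350))) (XT.nd (nat_lit 78) (nat_lit 608) (nat_lit 0) (XT.lf (nat_lit 76) (nat_lit 1149824828) (nat_lit 0) (nat_lit 1762646620) (nat_lit 684) (nat_lit 1149824828) (nat_lit 297) (nat_lit 1) (nat_lit 296) (nat_lit 1) (nat_lit 305)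 (nat_lit 1) (nat_lit 385) (nat_lit 406) (nat_lit 349)) (XT.lf (nat_lit 684) (nat_lit 1589004276) (nat_lit 0) (nat_lit 1220053668) (nat_lit 608) (nat_lit 1220053668) (nat_lit 297) (nat_lit 1) (nat_lit 288) (nat_lit 1) (nat_lit 296) (nat_lit 1) (nat_lit 386) (nat_lit 406) (nat_lit 348)))) (XT.nd (nat_lit 156) (nat_lit 1216) (nat_lit 0) (XT.nd (nat_lit 78) (nat_lit 532) (nat_lit 0) (XT.lf (nat_lit 76) (nat_lit 440884956) (nat_lit 0) (nat_lit 3114601381) (nat_lit 684) (nat_lit 440884956) (nat_lit 289) (nat_lit 1) (nat_lit 288) (nat_lit 1) (nat_lit 297) (nat_lit 1) (nat_lit 387) (nat_lit 406) (nat_lit 347)) (XT.lf (nat_lit 608) (nat_lit 167912091) (nat_lit 0) (nat_lit 1897979534) (nat_lit 532) (nat_lit 1897979534) (nat_lit 289) (nat_lit 1) (nat_lit 281) (nat_lit 1) (nat_lit 288) (nat_lit 1) (nat_lit 388) (nat_lit 406) (nat_lit 346))) (XT.nd (nat_lit 78) (nat_lit 532) (nat_lit 0) (XT.lf (nat_lit 684) (nat_lit 3402294035) (nat_lit 0) (nat_lit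 264776770) (nat_lit 608) (nat_lit 264776770) (nat_lit 281) (nat_lit 1) (nat_lit 272) (nat_lit 1) (nat_lit 280) (nat_lit 1) (nat_lit 389) (nat_lit 406) (nat_lit 345)) (XT.nd (nat_lit 78) (nat_lit 532) (nat_lit 0) (XT.lf (nat_lit 76) (nat_lit 1333357210) (nat_lit 0) (nat_lit 1233274310) (nat_lit 684) (nat_lit 1333357210) (nat_lit 273) (nat_lit 1) (nat_lit 272) (nat_lit 1) (nat_lit 281) (nat_lit 1) (nat_lit 390) (nat_lit 406) (nat_lit 344)) (XT.lf (nat_lit 608) (nat_lit 1937444289) (nat_lit 0) (nat_lit 965575594) (nat_lit 532) (nat_lit 965575594) (nat_lit 273) (nat_lit 1) (nat_lit 265) (nat_lit 1) (nat_lit 272) (nat_lit 1) (nat_lit 391) (nat_lit 406) (nat_lit 343)))))) (XT.nd (nat_lit 312) (nat_lit 1596) (nat_lit 0) (XT.nd (nat_lit 156) (nat_lit 608) (nat_lit 0) (XT.nd (nat_lit 78) (nat_lit 532) (nat_lit 0) (XT.lf (nat_lit 76) (nat_lit 604821407) (nat_lit 0) (nat_lit 2627923380) (nat_lit 608) (nat_lit 604821407) (nat_lit 266) (nat_lit 1)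 (nat_lit 265) (nat_lit 1) (nat_lit 273) (nat_lit 1) (nat_lit 392) (nat_lit 406) (nat_lit 342)) (XT.lf (nat_lit 608) (nat_lit 478822988) (nat_lit 0) (nat_lit 1663991670) (nat_lit 532) (nat_lit 1663991670) (nat_lit 266) (nat_lit 1) (nat_lit 258) (nat_lit 1) (nat_lit 265) (nat_lit 1) (nat_lit 393) (nat_lit 406) (nat_lit 341))) (XT.nd (nat_lit 78) (nat_lit 0) (nat_lit 0) (XT.lf (nat_lit 608) (nat_lit 3537271076) (nat_lit 0) (nat_lit 119626794) (nat_lit 532) (nat_lit 119626794) (nat_lit 258) (nat_lit 1) (nat_lit 250) (nat_lit 1) (nat_lit 257) (nat_lit 1) (nat_lit 394) (nat_lit 406) (nat_lit 340)) (XT.lf (nat_lit 76) (nat_lit 1393128322) (nat_lit 0) (nat_lit 960059830) (nat_lit 608) (nat_lit 1393128322) (nat_lit 251) (nat_lit 1) (nat_lit 250) (nat_lit 1) (nat_lit 258) (nat_lit 1) (nat_lit 395) (nat_lit 406) (nat_lit 339)))) (XT.nd (nat_lit 156) (nat_lit 1064) (nat_lit 0) (XT.nd (nat_lit 78) (nat_lit 0) (nat_lit 0) (XT.lf (nat_lit 608) (nat_lit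 2043651805) (nat_lit 0) (nat_lit 836462475) (nat_lit 532) (nat_lit 836462475) (nat_lit 251) (nat_lit 1) (nat_lit 243) (nat_lit 1) (nat_lit 250) (nat_lit 1) (nat_lit 396) (nat_lit 406) (nat_lit 338)) (XT.lf (nat_lit 76) (nat_lit 651036863) (nat_lit 0) (nat_lit 2385081067) (nat_lit 608) (nat_lit 651036863) (nat_lit 244) (nat_lit 1) (nat_lit 243) (nat_lit 1) (nat_lit 251) (nat_lit 1) (nat_lit 397) (nat_lit 406) (nat_lit 337))) (XT.nd (nat_lit 78) (nat_lit 608) (nat_lit 0) (XT.lf (nat_lit 532) (nat_lit 559345072) (nat_lit 0) (nat_lit 1549328494) (nat_lit 456) (nat_lit 1549328494) (nat_lit 244) (nat_lit 1) (nat_lit 237) (nat_lit 1) (nat_lit 243) (nat_lit 1) (nat_lit 398) (nat_lit 406) (nat_lit 336)) (XT.nd (nat_lit 78) (nat_lit 0) (nat_lit 0) (XT.lf (nat_lit 608) (nat_lit 3457913841) (nat_lit 0) (nat_lit 85694759) (nat_lit 532) (nat_lit 85694759) (nat_lit 237) (nat_lit 1) (nat_lit 229) (nat_lit 1) (nat_lit 236) (nat_lit 1) (nat_lit 399) (nat_lit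 406) (nat_lit 335)) (XT.lf (nat_lit 76) (nat_lit 1348796084) (nat_lit 0) (nat_lit 903054979) (nat_lit 608) (nat_lit 1348796084) (nat_lit 230) (nat_lit 1) (nat_lit 229) (nat_lit 1) (nat_lit 237) (nat_lit 1) (nat_lit 400) (nat_lit 406) (nat_lit 334))))))) (XT.nd (nat_lit 702) (nat_lit 2356) (nat_lit 0) (XT.nd (nat_lit 312) (nat_lit 1368) (nat_lit 0) (XT.nd (nat_lit 156) (nat_lit 988) (nat_lit 0) (XT.nd (nat_lit 78) (nat_lit 0) (nat_lit 0) (XT.lf (nat_lit 532) (nat_lit 1946237613) (nat_lit 0) (nat_lit 813099358) (nat_lit 456) (nat_lit 813099358) (nat_lit 230) (nat_lit 1) (nat_lit 223) (nat_lit 1) (nat_lit 229) (nat_lit 1) (nat_lit 401) (nat_lit 406) (nat_lit 333)) (XT.lf (nat_lit 76) (nat_lit 598363254) (nat_lit 0) (nat_lit 2347799431) (nat_lit 532) (nat_lit 598363254) (nat_lit 224) (nat_lit 1) (nat_lit 223) (nat_lit 1) (nat_lit 230) (nat_lit 1) (nat_lit 402) (nat_lit 406) (nat_lit 332))) (XT.nd (nat_lit 78) (nat_lit 532) (nat_lit 0) (XT.lf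 (nat_lit 532) (nat_lit 446465653) (nat_lit 0) (nat_lit 1535197148) (nat_lit 456) (nat_lit 1535197148) (nat_lit 224) (nat_lit 1) (nat_lit 217) (nat_lit 1) (nat_lit 223) (nat_lit 1) (nat_lit 403) (nat_lit 406) (nat_lit 331)) (XT.lf (nat_lit 532) (nat_lit 3199482744) (nat_lit 0) (nat_lit 145059805) (nat_lit 456) (nat_lit 145059805) (nat_lit 217) (nat_lit 1) (nat_lit 210) (nat_lit 1) (nat_lit 216) (nat_lit 1) (nat_lit 404) (nat_lit 406) (nat_lit 330)))) (XT.nd (nat_lit 156) (nat_lit 912) (nat_lit 0) (XT.nd (nat_lit 78) (nat_lit 456) (nat_lit 0) (XT.lf (nat_lit 76) (nat_lit 1217556197) (nat_lit 0) (nat_lit 1027294526) (nat_lit 532) (nat_lit 1217556197) (nat_lit 211) (nat_lit 1) (nat_lit 210) (nat_lit 1) (nat_lit 217) (nat_lit 1) (nat_lit 405) (nat_lit 406) (nat_lit 329)) (XT.lf (nat_lit 532) (nat_lit 1678971182) (nat_lit 0) (nat_lit 878320514) (nat_lit 456) (nat_lit 878320514) (nat_lit 211) (nat_lit 1) (nat_lit 204) (nat_lit 1) (nat_lit 210)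 (nat_lit 1) (nat_lit 406) (nat_lit 406) (nat_lit 328))) (XT.nd (nat_lit 78) (nat_lit 912) (nat_lit 0) (XT.lf (nat_lit 76) (nat_lit 463268627) (nat_lit 0) (nat_lit 2482587613) (nat_lit 532) (nat_lit 463268627) (nat_lit 205) (nat_lit 1) (nat_lit 204) (nat_lit 1) (nat_lit 211) (nat_lit 1) (nat_lit 407) (nat_lit 406) (nat_lit 327)) (XT.nd (nat_lit 78) (nat_lit 532) (nat_lit 0) (XT.lf (nat_lit 456) (nat_lit 172524119) (nat_lit 0) (nat_lit 1605156256) (nat_lit 380) (nat_lit 1605156256) (nat_lit 205) (nat_lit 1) (nat_lit 199) (nat_lit 1) (nat_lit 204) (nat_lit 1) (nat_lit 408) (nat_lit 406) (nat_lit 326)) (XT.lf (nat_lit 532) (nat_lit 2792782329) (nat_lit 0) (nat_lit 282055576) (nat_lit 456) (nat_lit 282055576) (nat_lit 199) (nat_lit 1) (nat_lit 192) (nat_lit 1) (nat_lit 198) (nat_lit 1) (nat_lit 409) (nat_lit 406) (nat_lit 325)))))) (XT.nd (nat_lit 390) (nat_lit 1140) (nat_lit 0) (XT.nd (nat_lit 156) (nat_lit 836) (nat_lit 0) (XT.nd (nat_lit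 78) (nat_lit 380) (nat_lit 0) (XT.lf (nat_lit 76) (nat_lit 1014428766) (nat_lit 0) (nat_lit 1302216873) (nat_lit 532) (nat_lit 1014428766) (nat_lit 193) (nat_lit 1) (nat_lit 192) (nat_lit 1) (nat_lit 199) (nat_lit 1) (nat_lit 410) (nat_lit 406) (nat_lit 324)) (XT.lf (nat_lit 456) (nat_lit 1271344436) (nat_lit 0) (nat_lit 1017124582) (nat_lit 380) (nat_lit 1017124582) (nat_lit 193) (nat_lit 1) (nat_lit 187) (nat_lit 1) (nat_lit 192) (nat_lit 1) (nat_lit 411) (nat_lit 406) (nat_lit 323))) (XT.nd (nat_lit 78) (nat_lit 836) (nat_lit 0) (XT.lf (nat_lit 76) (nat_lit 260132519) (nat_lit 0) (nat_lit 2760182291) (nat_lit 456) (nat_lit 260132519) (nat_lit 188) (nat_lit 1) (nat_lit 187) (nat_lit 1) (nat_lit 193) (nat_lit 1) (nat_lit 412) (nat_lit 406) (nat_lit 322)) (XT.nd (nat_lit 78) (nat_lit 380) (nat_lit 0) (XT.lf (nat_lit 76) (nat_lit 1512116712) (nat_lit 0) (nat_lit 231174221) (nat_lit 456) (nat_lit 1512116712) (nat_lit 182) (nat_lit 1) (nat_lit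 181) (nat_lit 1) (nat_lit 187) (nat_lit 1) (nat_lit 413) (nat_lit 406) (nat_lit 321)) (XT.lf (nat_lit 456) (nat_lit 2264681446) (nat_lit 0) (nat_lit 483007379) (nat_lit 380) (nat_lit 483007379) (nat_lit 182) (nat_lit 1) (nat_lit 176) (nat_lit 1) (nat_lit 181) (nat_lit 1) (nat_lit 414) (nat_lit 406) (nat_lit 320))))) (XT.nd (nat_lit 156) (nat_lit 760) (nat_lit 0) (XT.nd (nat_lit 78) (nat_lit 380) (nat_lit 0) (XT.lf (nat_lit 76) (nat_lit 752512376) (nat_lit 0) (nat_lit 1701150470) (nat_lit 456) (nat_lit 752512376) (nat_lit 177) (nat_lit 1) (nat_lit 176) (nat_lit 1) (nat_lit 182) (nat_lit 1) (nat_lit 415) (nat_lit 406) (nat_lit 319)) (XT.lf (nat_lit 456) (nat_lit 749071510) (nat_lit 0) (nat_lit 1216422045) (nat_lit 380) (nat_lit 1216422045) (nat_lit 177) (nat_lit 1) (nat_lit 171) (nat_lit 1) (nat_lit 176) (nat_lit 1) (nat_lit 416) (nat_lit 406) (nat_lit 318))) (XT.nd (nat_lit 78) (nat_lit 760) (nat_lit 0) (XT.lf (nat_lit 76) (nat_lit 1490070)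 (nat_lit 0) (nat_lit 3155054245) (nat_lit 456) (nat_lit 1490070) (nat_lit 172) (nat_lit 1) (nat_lit 171) (nat_lit 1) (nat_lit 177) (nat_lit 1) (nat_lit 417) (nat_lit 406) (nat_lit 317)) (XT.nd (nat_lit 78) (nat_lit 380) (nat_lit 0) (XT.lf (nat_lit 76) (nat_lit 1197352311) (nat_lit 0) (nat_lit 739412518) (nat_lit 380) (nat_lit 1197352311) (nat_lit 167) (nat_lit 1) (nat_lit 166) (nat_lit 1) (nat_lit 171) (nat_lit 1) (nat_lit 418) (nat_lit 406) (nat_lit 316)) (XT.lf (nat_lit 456) (nat_lit 1638574308) (nat_lit 0) (nat_lit 735999204) (nat_lit 380) (nat_lit 735999204) (nat_lit 167) (nat_lit 1) (nat_lit 161) (nat_lit 1) (nat_lit 166) (nat_lit 1) (nat_lit 419) (nat_lit 406) (nat_lit 315))))))))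
noncomputable def ec100 : XT := (XT.nd (nat_lit 1404) (nat_lit 912) (nat_lit 0) (XT.nd (nat_lit 702) (nat_lit 1900) (nat_lit 0) (XT.nd (nat_lit 312) (nat_lit 988) (nat_lit 0) (XT.nd (nat_lit 156) (nat_lit 456) (nat_lit 0) (XT.nd (nat_lit 78) (nat_lit 304) (nat_lit 0) (XT.lf (nat_lit 76) (nat_lit 443209295) (nat_lit 0) (nat_lit 2200858583) (nat_lit 456) (nat_lit 443209295) (nat_lit 162) (nat_lit 1) (nat_lit 161) (nat_lit 1) (nat_lit 167) (nat_lit 1) (nat_lit 420) (nat_lit 406) (nat_lit 314)) (XT.lf (nat_lit 380) (nat_lit 134531694) (nat_lit 0) (nat_lit 1464811402) (nat_lit 304) (nat_lit 1464811402) (nat_lit 162) (nat_lit 1) (nat_lit 157) (nat_lit 1) (nat_lit 161) (nat_lit 1) (nat_lit 421) (nat_lit 406) (nat_lit 313))) (XT.nd (nat_lit 78) (nat_lit 0) (nat_lit 0) (XT.lf (nat_lit 456) (nat_lit 2441777634) (nat_lit 0) (nat_lit 299766422) (nat_lit 380) (nat_lit 299766422) (nat_lit 157) (nat_lit 1) (nat_lit 151) (nat_lit 1) (nat_lit 156) (nat_lit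 1) (nat_lit 422) (nat_lit 406) (nat_lit 312)) (XT.lf (nat_lit 76) (nat_lit 842626195) (nat_lit 0) (nat_lit 1333327791) (nat_lit 456) (nat_lit 842626195) (nat_lit 152) (nat_lit 1) (nat_lit 151) (nat_lit 1) (nat_lit 157) (nat_lit 1) (nat_lit 423) (nat_lit 406) (nat_lit 311)))) (XT.nd (nat_lit 156) (nat_lit 684) (nat_lit 0) (XT.nd (nat_lit 78) (nat_lit 0) (nat_lit 0) (XT.lf (nat_lit 380) (nat_lit 934789083) (nat_lit 0) (nat_lit 1030667248) (nat_lit 304) (nat_lit 1030667248) (nat_lit 152) (nat_lit 1) (nat_lit 147) (nat_lit 1) (nat_lit 151) (nat_lit 1) (nat_lit 424) (nat_lit 406) (nat_lit 310)) (XT.lf (nat_lit 76) (nat_lit 96425042) (nat_lit 0) (nat_lit 2781135831) (nat_lit 380) (nat_lit 96425042) (nat_lit 148) (nat_lit 1) (nat_lit 147) (nat_lit 1) (nat_lit 152) (nat_lit 1) (nat_lit 425) (nat_lit 406) (nat_lit 309))) (XT.nd (nat_lit 78) (nat_lit 304) (nat_lit 0) (XT.lf (nat_lit 76) (nat_lit 1203132155) (nat_lit 0) (nat_lit 545587464) (nat_lit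 380) (nat_lit 1203132155) (nat_lit 143) (nat_lit 1) (nat_lit 142) (nat_lit 1) (nat_lit 147) (nat_lit 1) (nat_lit 426) (nat_lit 406) (nat_lit 308)) (XT.nd (nat_lit 78) (nat_lit 0) (nat_lit 0) (XT.lf (nat_lit 380) (nat_lit 1658211004) (nat_lit 0) (nat_lit 635910492) (nat_lit 304) (nat_lit 635910492) (nat_lit 143) (nat_lit 1) (nat_lit 138) (nat_lit 1) (nat_lit 142) (nat_lit 1) (nat_lit 427) (nat_lit 406) (nat_lit 307)) (XT.lf (nat_lit 76) (nat_lit 456921939) (nat_lit 0) (nat_lit 1994580837) (nat_lit 380) (nat_lit 456921939) (nat_lit 139) (nat_lit 1) (nat_lit 138) (nat_lit 1) (nat_lit 143) (nat_lit 1) (nat_lit 428) (nat_lit 406) (nat_lit 306)))))) (XT.nd (nat_lit 312) (nat_lit 912) (nat_lit 0) (XT.nd (nat_lit 156) (nat_lit 304) (nat_lit 0) (XT.nd (nat_lit 78) (nat_lit 380) (nat_lit 0) (XT.lf (nat_lit 380) (nat_lit 170949945) (nat_lit 0) (nat_lit 1358016935) (nat_lit 304) (nat_lit 1358016935) (nat_lit 139) (nat_lit 1) (nat_lit 134) (nat_lit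 1) (nat_lit 138) (nat_lit 1) (nat_lit 429) (nat_lit 406) (nat_lit 305)) (XT.lf (nat_lit 380) (nat_lit 2310960441) (nat_lit 0) (nat_lit 277417576) (nat_lit 304) (nat_lit 277417576) (nat_lit 134) (nat_lit 1) (nat_lit 129) (nat_lit 1) (nat_lit 133) (nat_lit 1) (nat_lit 430) (nat_lit 406) (nat_lit 304))) (XT.nd (nat_lit 78) (nat_lit 304) (nat_lit 0) (XT.lf (nat_lit 76) (nat_lit 782752797) (nat_lit 0) (nat_lit 1279195383) (nat_lit 380) (nat_lit 782752797) (nat_lit 130) (nat_lit 1) (nat_lit 129) (nat_lit 1) (nat_lit 134) (nat_lit 1) (nat_lit 431) (nat_lit 406) (nat_lit 303)) (XT.lf (nat_lit 380) (nat_lit 826251752) (nat_lit 0) (nat_lit 998801607) (nat_lit 304) (nat_lit 998801607) (nat_lit 130) (nat_lit 1) (nat_lit 125) (nat_lit 1) (nat_lit 129) (nat_lit 1) (nat_lit 432) (nat_lit 406) (nat_lit 302)))) (XT.nd (nat_lit 156) (nat_lit 608) (nat_lit 0) (XT.nd (nat_lit 78) (nat_lit 304) (nat_lit 0) (XT.lf (nat_lit 76) (nat_lit 48010608) (nat_lit 0)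 (nat_lit 2707289193) (nat_lit 380) (nat_lit 48010608) (nat_lit 126) (nat_lit 1) (nat_lit 125) (nat_lit 1) (nat_lit 130) (nat_lit 1) (nat_lit 433) (nat_lit 406) (nat_lit 301)) (XT.lf (nat_lit 76) (nat_lit 1076699017) (nat_lit 0) (nat_lit 629338607) (nat_lit 304) (nat_lit 1076699017) (nat_lit 122) (nat_lit 1) (nat_lit 121) (nat_lit 1) (nat_lit 125) (nat_lit 1) (nat_lit 434) (nat_lit 406) (nat_lit 300))) (XT.nd (nat_lit 78) (nat_lit 304) (nat_lit 0) (XT.lf (nat_lit 380) (nat_lit 1418545006) (nat_lit 0) (nat_lit 671957780) (nat_lit 304) (nat_lit 671957780) (nat_lit 122) (nat_lit 1) (nat_lit 117) (nat_lit 1) (nat_lit 121) (nat_lit 1) (nat_lit 435) (nat_lit 406) (nat_lit 299)) (XT.nd (nat_lit 78) (nat_lit 304) (nat_lit 0) (XT.lf (nat_lit 76) (nat_lit 344353261) (nat_lit 0) (nat_lit 2053691334) (nat_lit 380) (nat_lit 344353261) (nat_lit 118) (nat_lit 1) (nat_lit 117) (nat_lit 1) (nat_lit 122) (nat_lit 1) (nat_lit 436) (nat_lit 406) (nat_lit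 298)) (XT.lf (nat_lit 76) (nat_lit 1341327408) (nat_lit 0) (nat_lit 39803558) (nat_lit 304) (nat_lit 1341327408) (nat_lit 114) (nat_lit 1) (nat_lit 113) (nat_lit 1) (nat_lit 117) (nat_lit 1) (nat_lit 437) (nat_lit 406) (nat_lit 297))))))) (XT.nd (nat_lit 50934) (nat_lit 0) (nat_lit 30248) (XT.nd (nat_lit 312) (nat_lit 0) (nat_lit 0) (XT.nd (nat_lit 156) (nat_lit 608) (nat_lit 0) (XT.nd (nat_lit 78) (nat_lit 0) (nat_lit 0) (XT.lf (nat_lit 380) (nat_lit 1952885045) (nat_lit 0) (nat_lit 374921869) (nat_lit 304) (nat_lit 374921869) (nat_lit 114) (nat_lit 1) (nat_lit 109) (nat_lit 1) (nat_lit 113) (nat_lit 1) (nat_lit 438) (nat_lit 406) (nat_lit 296)) (XT.lf (nat_lit 76) (nat_lit 612245736) (nat_lit 0) (nat_lit 1458640989) (nat_lit 380) (nat_lit 612245736) (nat_lit 110) (nat_lit 1) (nat_lit 109) (nat_lit 1) (nat_lit 114) (nat_lit 1) (nat_lit 439) (nat_lit 406) (nat_lit 295))) (XT.nd (nat_lit 78) (nat_lit 380) (nat_lit 0) (XT.lf (nat_lit 304)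 (nat_lit 500783803) (nat_lit 0) (nat_lit 1081474206) (nat_lit 228) (nat_lit 1081474206) (nat_lit 110) (nat_lit 1) (nat_lit 106) (nat_lit 1) (nat_lit 109) (nat_lit 1) (nat_lit 440) (nat_lit 406) (nat_lit 294)) (XT.lf (nat_lit 380) (nat_lit 2433937181) (nat_lit 0) (nat_lit 105327450) (nat_lit 304) (nat_lit 105327450) (nat_lit 106) (nat_lit 1) (nat_lit 101) (nat_lit 1) (nat_lit 105) (nat_lit 1) (nat_lit 441) (nat_lit 406) (nat_lit 293)))) (XT.nd (nat_lit 50388) (nat_lit 0) (nat_lit 30096) (XT.nd (nat_lit 50310) (nat_lit 0) (nat_lit 30096) (XT.lf (nat_lit 76) (nat_lit 853969982) (nat_lit 0) (nat_lit 917507475) (nat_lit 380) (nat_lit 853969982) (nat_lit 102) (nat_lit 1) (nat_lit 101) (nat_lit 1) (nat_lit 106) (nat_lit 1) (nat_lit 442) (nat_lit 406) (nat_lit 292)) (XT.lf (nat_lit 1900) (nat_lit 1151303945) (nat_lit 0) (nat_lit 1160931524) (nat_lit 1900) (nat_lit 1151303945) (nat_lit 522) (nat_lit 1) (nat_lit 497) (nat_lit 0) (nat_lit 522) (nat_lit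 0) (nat_lit 326) (nat_lit 407) (nat_lit 407))) (XT.nd (nat_lit 78) (nat_lit 0) (nat_lit 76) (XT.lf (nat_lit 1900) (nat_lit 4552428900) (nat_lit 76) (nat_lit 1153293816) (nat_lit 0) (nat_lit 1153293816) (nat_lit 522) (nat_lit 1) (nat_lit 498) (nat_lit 1) (nat_lit 497) (nat_lit 0) (nat_lit 327) (nat_lit 407) (nat_lit 406)) (XT.nd (nat_lit 78) (nat_lit 0) (nat_lit 0) (XT.lf (nat_lit 1900) (nat_lit 2235264259) (nat_lit 0) (nat_lit 2321169124) (nat_lit 1824) (nat_lit 2235264259) (nat_lit 523) (nat_lit 1) (nat_lit 498) (nat_lit 1) (nat_lit 522) (nat_lit 1) (nat_lit 328) (nat_lit 407) (nat_lit 405)) (XT.lf (nat_lit 1900) (nat_lit 4374963179) (nat_lit 76) (nat_lit 1175218062) (nat_lit 0) (nat_lit 1175218062) (nat_lit 523) (nat_lit 1) (nat_lit 499) (nat_lit 1) (nat_lit 498) (nat_lit 1) (nat_lit 329) (nat_lit 407) (nat_lit 404)))))) (XT.nd (nat_lit 312) (nat_lit 0) (nat_lit 152) (XT.nd (nat_lit 156) (nat_lit 0) (nat_lit 76) (XT.nd (nat_lit 78)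 (nat_lit 0) (nat_lit 0) (XT.lf (nat_lit 1900) (nat_lit 2126149201) (nat_lit 0) (nat_lit 2407534425) (nat_lit 1824) (nat_lit 2126149201) (nat_lit 524) (nat_lit 1) (nat_lit 499) (nat_lit 1) (nat_lit 523) (nat_lit 1) (nat_lit 330) (nat_lit 407) (nat_lit 403)) (XT.lf (nat_lit 1900) (nat_lit 4116199776) (nat_lit 76) (nat_lit 1239520812) (nat_lit 0) (nat_lit 1239520812) (nat_lit 524) (nat_lit 1) (nat_lit 500) (nat_lit 1) (nat_lit 499) (nat_lit 1) (nat_lit 331) (nat_lit 407) (nat_lit 402))) (XT.nd (nat_lit 78) (nat_lit 0) (nat_lit 0) (XT.lf (nat_lit 1900) (nat_lit 1977755074) (nat_lit 0) (nat_lit 2575871821) (nat_lit 1824) (nat_lit 1977755074) (nat_lit 525) (nat_lit 1) (nat_lit 500) (nat_lit 1) (nat_lit 524) (nat_lit 1) (nat_lit 332) (nat_lit 407) (nat_lit 401)) (XT.lf (nat_lit 1900) (nat_lit 3781024773) (nat_lit 76) (nat_lit 1343708813) (nat_lit 0) (nat_lit 1343708813) (nat_lit 525) (nat_lit 1) (nat_lit 501) (nat_lit 1) (nat_lit 500) (nat_lit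 1) (nat_lit 333) (nat_lit 407) (nat_lit 400)))) (XT.nd (nat_lit 156) (nat_lit 0) (nat_lit 76) (XT.nd (nat_lit 78) (nat_lit 0) (nat_lit 0) (XT.lf (nat_lit 1900) (nat_lit 1792460390) (nat_lit 0) (nat_lit 2821325179) (nat_lit 1824) (nat_lit 1792460390) (nat_lit 526) (nat_lit 1) (nat_lit 501) (nat_lit 1) (nat_lit 525) (nat_lit 1) (nat_lit 334) (nat_lit 407) (nat_lit 399)) (XT.lf (nat_lit 1900) (nat_lit 3374100614) (nat_lit 76) (nat_lit 1485402248) (nat_lit 0) (nat_lit 1485402248) (nat_lit 526) (nat_lit 1) (nat_lit 502) (nat_lit 1) (nat_lit 501) (nat_lit 1) (nat_lit 335) (nat_lit 407) (nat_lit 398))) (XT.nd (nat_lit 78) (nat_lit 0) (nat_lit 0) (XT.lf (nat_lit 1900) (nat_lit 1572534569) (nat_lit 0) (nat_lit 3139259745) (nat_lit 1824) (nat_lit 1572534569) (nat_lit 527) (nat_lit 1) (nat_lit 502) (nat_lit 1) (nat_lit 526) (nat_lit 1) (nat_lit 336) (nat_lit 407) (nat_lit 397)) (XT.nd (nat_lit 78) (nat_lit 0) (nat_lit 76) (XT.lf (nat_lit 1900) (nat_lit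 2899875453) (nat_lit 76) (nat_lit 1662330007) (nat_lit 0) (nat_lit 1662330007) (nat_lit 527) (nat_lit 1) (nat_lit 503) (nat_lit 1) (nat_lit 502) (nat_lit 1) (nat_lit 337) (nat_lit 407) (nat_lit 396)) (XT.lf (nat_lit 1900) (nat_lit 1320142506) (nat_lit 0) (nat_lit 3525252898) (nat_lit 1824) (nat_lit 1320142506) (nat_lit 528) (nat_lit 1) (nat_lit 503) (nat_lit 1) (nat_lit 527) (nat_lit 1) (nat_lit 338) (nat_lit 407) (nat_lit 395))))))))
noncomputable def ec101 : XT := (XT.nd (nat_lit 1404) (nat_lit 8740) (nat_lit 0) (XT.nd (nat_lit 702) (nat_lit 2812) (nat_lit 0) (XT.nd (nat_lit 312) (nat_lit 1596) (nat_lit 0) (XT.nd (nat_lit 156) (nat_lit 0) (nat_lit 76) (XT.nd (nat_lit 78) (nat_lit 0) (nat_lit 76) (XT.lf (nat_lit 1900) (nat_lit 2362592128) (nat_lit 76) (nat_lit 1872325143) (nat_lit 0) (nat_lit 1872325143) (nat_lit 528) (nat_lit 1) (nat_lit 504) (nat_lit 1) (nat_lit 503) (nat_lit 1) (nat_lit 339) (nat_lit 407) (nat_lit 394)) (XT.lf (nat_lit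 1900) (nat_lit 1037348948) (nat_lit 0) (nat_lit 3975085282) (nat_lit 1824) (nat_lit 1037348948) (nat_lit 529) (nat_lit 1) (nat_lit 504) (nat_lit 1) (nat_lit 528) (nat_lit 1) (nat_lit 340) (nat_lit 407) (nat_lit 393))) (XT.nd (nat_lit 78) (nat_lit 0) (nat_lit 76) (XT.lf (nat_lit 1900) (nat_lit 1766296773) (nat_lit 76) (nat_lit 2113320519) (nat_lit 0) (nat_lit 2113320519) (nat_lit 529) (nat_lit 1) (nat_lit 505) (nat_lit 1) (nat_lit 504) (nat_lit 1) (nat_lit 341) (nat_lit 407) (nat_lit 392)) (XT.lf (nat_lit 1900) (nat_lit 726122700) (nat_lit 0) (nat_lit 4484732300) (nat_lit 1824) (nat_lit 726122700) (nat_lit 530) (nat_lit 1) (nat_lit 505) (nat_lit 1) (nat_lit 529) (nat_lit 1) (nat_lit 342) (nat_lit 407) (nat_lit 391)))) (XT.nd (nat_lit 156) (nat_lit 1748) (nat_lit 0) (XT.nd (nat_lit 78) (nat_lit 0) (nat_lit 76) (XT.lf (nat_lit 1900) (nat_lit 1114847080) (nat_lit 76) (nat_lit 2383344620) (nat_lit 0) (nat_lit 2383344620) (nat_lit 530) (nat_lit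 1) (nat_lit 506) (nat_lit 1) (nat_lit 505) (nat_lit 1) (nat_lit 343) (nat_lit 407) (nat_lit 390)) (XT.lf (nat_lit 1900) (nat_lit 388340660) (nat_lit 0) (nat_lit 5050355939) (nat_lit 1824) (nat_lit 388340660) (nat_lit 531) (nat_lit 1) (nat_lit 506) (nat_lit 1) (nat_lit 530) (nat_lit 1) (nat_lit 344) (nat_lit 407) (nat_lit 389))) (XT.nd (nat_lit 78) (nat_lit 1824) (nat_lit 0) (XT.lf (nat_lit 1900) (nat_lit 411920236) (nat_lit 76) (nat_lit 2680517541) (nat_lit 0) (nat_lit 2680517541) (nat_lit 531) (nat_lit 1) (nat_lit 507) (nat_lit 1) (nat_lit 506) (nat_lit 1) (nat_lit 345) (nat_lit 407) (nat_lit 388)) (XT.nd (nat_lit 78) (nat_lit 1900) (nat_lit 0) (XT.lf (nat_lit 1900) (nat_lit 25791690) (nat_lit 0) (nat_lit 5668296935) (nat_lit 1824) (nat_lit 25791690) (nat_lit 532) (nat_lit 1) (nat_lit 507) (nat_lit 1) (nat_lit 531) (nat_lit 1) (nat_lit 346) (nat_lit 407) (nat_lit 387)) (XT.lf (nat_lit 1976) (nat_lit 2666268541) (nat_lit 0) (nat_lit 334533696)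 (nat_lit 1900) (nat_lit 2666268541) (nat_lit 508) (nat_lit 1) (nat_lit 482) (nat_lit 1) (nat_lit 507) (nat_lit 1) (nat_lit 347) (nat_lit 407) (nat_lit 386)))))) (XT.nd (nat_lit 312) (nat_lit 2812) (nat_lit 0) (XT.nd (nat_lit 156) (nat_lit 0) (nat_lit 76) (XT.nd (nat_lit 78) (nat_lit 0) (nat_lit 76) (XT.lf (nat_lit 1976) (nat_lit 4900335526) (nat_lit 76) (nat_lit 357452432) (nat_lit 0) (nat_lit 357452432) (nat_lit 508) (nat_lit 1) (nat_lit 483) (nat_lit 1) (nat_lit 482) (nat_lit 1) (nat_lit 348) (nat_lit 407) (nat_lit 385)) (XT.lf (nat_lit 1976) (nat_lit 2222077978) (nat_lit 0) (nat_lit 1119634004) (nat_lit 1900) (nat_lit 2222077978) (nat_lit 509) (nat_lit 1) (nat_lit 483) (nat_lit 1) (nat_lit 508) (nat_lit 1) (nat_lit 349) (nat_lit 407) (nat_lit 384))) (XT.nd (nat_lit 78) (nat_lit 0) (nat_lit 76) (XT.lf (nat_lit 1976) (nat_lit 3989555070) (nat_lit 76) (nat_lit 761824429) (nat_lit 0) (nat_lit 761824429) (nat_lit 509) (nat_lit 1) (nat_lit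 484) (nat_lit 1) (nat_lit 483) (nat_lit 1) (nat_lit 350) (nat_lit 407) (nat_lit 383)) (XT.lf (nat_lit 76) (nat_lit 1758723516) (nat_lit 0) (nat_lit 1945644693) (nat_lit 1900) (nat_lit 1758723516) (nat_lit 485) (nat_lit 1) (nat_lit 484) (nat_lit 1) (nat_lit 509) (nat_lit 1) (nat_lit 351) (nat_lit 407) (nat_lit 382)))) (XT.nd (nat_lit 156) (nat_lit 1824) (nat_lit 0) (XT.nd (nat_lit 78) (nat_lit 0) (nat_lit 0) (XT.lf (nat_lit 1216) (nat_lit 3041795721) (nat_lit 0) (nat_lit 1185957703) (nat_lit 1140) (nat_lit 1185957703) (nat_lit 485) (nat_lit 1) (nat_lit 469) (nat_lit 1) (nat_lit 484) (nat_lit 1) (nat_lit 352) (nat_lit 407) (nat_lit 381)) (XT.lf (nat_lit 76) (nat_lit 1277663282) (nat_lit 0) (nat_lit 2809577225) (nat_lit 1216) (nat_lit 1277663282) (nat_lit 470) (nat_lit 1) (nat_lit 469) (nat_lit 1) (nat_lit 485) (nat_lit 1) (nat_lit 353) (nat_lit 407) (nat_lit 380))) (XT.nd (nat_lit 78) (nat_lit 912) (nat_lit 0) (XT.lf (nat_lit 988) (nat_lit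 2059911957) (nat_lit 0) (nat_lit 1628389534) (nat_lit 912) (nat_lit 1628389534) (nat_lit 470) (nat_lit 1) (nat_lit 457) (nat_lit 1) (nat_lit 469) (nat_lit 1) (nat_lit 354) (nat_lit 407) (nat_lit 379)) (XT.nd (nat_lit 78) (nat_lit 912) (nat_lit 0) (XT.lf (nat_lit 76) (nat_lit 780284780) (nat_lit 0) (nat_lit 3708586562) (nat_lit 988) (nat_lit 780284780) (nat_lit 458) (nat_lit 1) (nat_lit 457) (nat_lit 1) (nat_lit 470) (nat_lit 1) (nat_lit 355) (nat_lit 407) (nat_lit 378)) (XT.lf (nat_lit 988) (nat_lit 1046619595) (nat_lit 0) (nat_lit 2087727639) (nat_lit 912) (nat_lit 2087727639) (nat_lit 458) (nat_lit 1) (nat_lit 445) (nat_lit 1) (nat_lit 457) (nat_lit 1) (nat_lit 356) (nat_lit 407) (nat_lit 377))))))) (XT.nd (nat_lit 702) (nat_lit 4484) (nat_lit 0) (XT.nd (nat_lit 312) (nat_lit 2432) (nat_lit 0) (XT.nd (nat_lit 156) (nat_lit 988) (nat_lit 0) (XT.nd (nat_lit 78) (nat_lit 836) (nat_lit 0) (XT.lf (nat_lit 76) (nat_lit 267907912) (nat_lit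 0) (nat_lit 4639965053) (nat_lit 988) (nat_lit 267907912) (nat_lit 446) (nat_lit 1) (nat_lit 445) (nat_lit 1) (nat_lit 458) (nat_lit 1) (nat_lit 357) (nat_lit 407) (nat_lit 376)) (XT.lf (nat_lit 912) (nat_lit 4501730) (nat_lit 0) (nat_lit 2562647165) (nat_lit 836) (nat_lit 2562647165) (nat_lit 446) (nat_lit 1) (nat_lit 434) (nat_lit 1) (nat_lit 445) (nat_lit 1) (nat_lit 358) (nat_lit 407) (nat_lit 375))) (XT.nd (nat_lit 78) (nat_lit 0) (nat_lit 0) (XT.lf (nat_lit 988) (nat_lit 4571551023) (nat_lit 0) (nat_lit 256513363) (nat_lit 912) (nat_lit 256513363) (nat_lit 434) (nat_lit 1) (nat_lit 421) (nat_lit 1) (nat_lit 433) (nat_lit 1) (nat_lit 359) (nat_lit 407) (nat_lit 374)) (XT.lf (nat_lit 76) (nat_lit 1994810322) (nat_lit 0) (nat_lit 1050031225) (nat_lit 988) (nat_lit 1994810322) (nat_lit 422) (nat_lit 1) (nat_lit 421) (nat_lit 1) (nat_lit 434) (nat_lit 1) (nat_lit 360) (nat_lit 407) (nat_lit 373)))) (XT.nd (nat_lit 156) (nat_lit 1596)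 (nat_lit 0) (XT.nd (nat_lit 78) (nat_lit 0) (nat_lit 0) (XT.lf (nat_lit 912) (nat_lit 3412192565) (nat_lit 0) (nat_lit 791639435) (nat_lit 836) (nat_lit 791639435) (nat_lit 422) (nat_lit 1) (nat_lit 410) (nat_lit 1) (nat_lit 421) (nat_lit 1) (nat_lit 361) (nat_lit 407) (nat_lit 372)) (XT.lf (nat_lit 76) (nat_lit 1411744651) (nat_lit 0) (nat_lit 2128224898) (nat_lit 912) (nat_lit 1411744651) (nat_lit 411) (nat_lit 1) (nat_lit 410) (nat_lit 1) (nat_lit 422) (nat_lit 1) (nat_lit 362) (nat_lit 407) (nat_lit 371))) (XT.nd (nat_lit 78) (nat_lit 760) (nat_lit 0) (XT.lf (nat_lit 912) (nat_lit 2232327763) (nat_lit 0) (nat_lit 1338106324) (nat_lit 836) (nat_lit 1338106324) (nat_lit 411) (nat_lit 1) (nat_lit 399) (nat_lit 1) (nat_lit 410) (nat_lit 1) (nat_lit 363) (nat_lit 407) (nat_lit 370)) (XT.nd (nat_lit 78) (nat_lit 760) (nat_lit 0) (XT.lf (nat_lit 76) (nat_lit 818986999) (nat_lit 0) (nat_lit 3227949295) (nat_lit 912) (nat_lit 818986999) (nat_lit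 400) (nat_lit 1) (nat_lit 399) (nat_lit 1) (nat_lit 411) (nat_lit 1) (nat_lit 364) (nat_lit 407) (nat_lit 369)) (XT.lf (nat_lit 836) (nat_lit 1034037720) (nat_lit 0) (nat_lit 1894843841) (nat_lit 760) (nat_lit 1894843841) (nat_lit 400) (nat_lit 1) (nat_lit 389) (nat_lit 1) (nat_lit 399) (nat_lit 1) (nat_lit 365) (nat_lit 407) (nat_lit 368)))))) (XT.nd (nat_lit 390) (nat_lit 2128) (nat_lit 0) (XT.nd (nat_lit 156) (nat_lit 1520) (nat_lit 0) (XT.nd (nat_lit 78) (nat_lit 836) (nat_lit 0) (XT.lf (nat_lit 76) (nat_lit 217547698) (nat_lit 0) (nat_lit 4347125250) (nat_lit 836) (nat_lit 217547698) (nat_lit 390) (nat_lit 1) (nat_lit 389) (nat_lit 1) (nat_lit 400) (nat_lit 1) (nat_lit 366) (nat_lit 407) (nat_lit 367)) (XT.lf (nat_lit 76) (nat_lit 2281306476) (nat_lit 0) (nat_lit 178332520) (nat_lit 836) (nat_lit 2281306476) (nat_lit 379) (nat_lit 1) (nat_lit 378) (nat_lit 1) (nat_lit 389) (nat_lit 1) (nat_lit 367) (nat_lit 407) (nat_lit 366))) (XT.nd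 (nat_lit 78) (nat_lit 760) (nat_lit 0) (XT.lf (nat_lit 836) (nat_lit 3922269123) (nat_lit 0) (nat_lit 389038166) (nat_lit 760) (nat_lit 389038166) (nat_lit 379) (nat_lit 1) (nat_lit 368) (nat_lit 1) (nat_lit 378) (nat_lit 1) (nat_lit 368) (nat_lit 407) (nat_lit 365)) (XT.nd (nat_lit 78) (nat_lit 760) (nat_lit 0) (XT.lf (nat_lit 76) (nat_lit 1634252882) (nat_lit 0) (nat_lit 1391526435) (nat_lit 836) (nat_lit 1634252882) (nat_lit 369) (nat_lit 1) (nat_lit 368) (nat_lit 1) (nat_lit 379) (nat_lit 1) (nat_lit 369) (nat_lit 407) (nat_lit 364)) (XT.lf (nat_lit 836) (nat_lit 2618406514) (nat_lit 0) (nat_lit 1000961688) (nat_lit 760) (nat_lit 1000961688) (nat_lit 369) (nat_lit 1) (nat_lit 358) (nat_lit 1) (nat_lit 368) (nat_lit 1) (nat_lit 370) (nat_lit 407) (nat_lit 363))))) (XT.nd (nat_lit 156) (nat_lit 1444) (nat_lit 0) (XT.nd (nat_lit 78) (nat_lit 684) (nat_lit 0) (XT.lf (nat_lit 76) (nat_lit 981856934) (nat_lit 0) (nat_lit 2617352185) (nat_lit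 836) (nat_lit 981856934) (nat_lit 359) (nat_lit 1) (nat_lit 358) (nat_lit 1) (nat_lit 369) (nat_lit 1) (nat_lit 371) (nat_lit 407) (nat_lit 362)) (XT.lf (nat_lit 760) (nat_lit 1304638911) (nat_lit 0) (nat_lit 1618797773) (nat_lit 684) (nat_lit 1618797773) (nat_lit 359) (nat_lit 1) (nat_lit 349) (nat_lit 1) (nat_lit 358) (nat_lit 1) (nat_lit 372) (nat_lit 407) (nat_lit 361))) (XT.nd (nat_lit 78) (nat_lit 1444) (nat_lit 0) (XT.lf (nat_lit 76) (nat_lit 324923500) (nat_lit 0) (nat_lit 3854147856) (nat_lit 760) (nat_lit 324923500) (nat_lit 350) (nat_lit 1) (nat_lit 349) (nat_lit 1) (nat_lit 359) (nat_lit 1) (nat_lit 373) (nat_lit 407) (nat_lit 360)) (XT.nd (nat_lit 78) (nat_lit 684) (nat_lit 0) (XT.lf (nat_lit 76) (nat_lit 2224386264) (nat_lit 0) (nat_lit 17233071) (nat_lit 760) (nat_lit 2224386264) (nat_lit 340) (nat_lit 1) (nat_lit 339) (nat_lit 1) (nat_lit 349) (nat_lit 1) (nat_lit 374) (nat_lit 407) (nat_lit 359)) (XT.lf (nat_lit 760)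 (nat_lit 3761440179) (nat_lit 0) (nat_lit 333576407) (nat_lit 684) (nat_lit 333576407) (nat_lit 340) (nat_lit 1) (nat_lit 330) (nat_lit 1) (nat_lit 339) (nat_lit 1) (nat_lit 375) (nat_lit 407) (nat_lit 358))))))))
noncomputable def ec102 : XT := (XT.nd (nat_lit 1404) (nat_lit 5624) (nat_lit 0) (XT.nd (nat_lit 702) (nat_lit 2888) (nat_lit 0) (XT.nd (nat_lit 312) (nat_lit 1900) (nat_lit 0) (XT.nd (nat_lit 156) (nat_lit 608) (nat_lit 0) (XT.nd (nat_lit 78) (nat_lit 684) (nat_lit 0) (XT.lf (nat_lit 76) (nat_lit 1531337367) (nat_lit 0) (nat_lit 1328750798) (nat_lit 760) (nat_lit 1531337367) (nat_lit 331) (nat_lit 1) (nat_lit 330) (nat_lit 1) (nat_lit 340) (nat_lit 1) (nat_lit 376) (nat_lit 407) (nat_lit 357)) (XT.lf (nat_lit 760) (nat_lit 2368868791) (nat_lit 0) (nat_lit 992973323) (nat_lit 684) (nat_lit 992973323) (nat_lit 331) (nat_lit 1) (nat_lit 321) (nat_lit 1) (nat_lit 330) (nat_lit 1) (nat_lit 377) (nat_lit 407) (nat_lit 356))) (XT.nd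 (nat_lit 78) (nat_lit 608) (nat_lit 0) (XT.lf (nat_lit 76) (nat_lit 836489506) (nat_lit 0) (nat_lit 2645636569) (nat_lit 760) (nat_lit 836489506) (nat_lit 322) (nat_lit 1) (nat_lit 321) (nat_lit 1) (nat_lit 331) (nat_lit 1) (nat_lit 378) (nat_lit 407) (nat_lit 355)) (XT.lf (nat_lit 684) (nat_lit 973328629) (nat_lit 0) (nat_lit 1654727807) (nat_lit 608) (nat_lit 1654727807) (nat_lit 322) (nat_lit 1) (nat_lit 313) (nat_lit 1) (nat_lit 321) (nat_lit 1) (nat_lit 379) (nat_lit 407) (nat_lit 354)))) (XT.nd (nat_lit 156) (nat_lit 1216) (nat_lit 0) (XT.nd (nat_lit 78) (nat_lit 684) (nat_lit 0) (XT.lf (nat_lit 76) (nat_lit 140475497) (nat_lit 0) (nat_lit 3966578095) (nat_lit 684) (nat_lit 140475497) (nat_lit 314) (nat_lit 1) (nat_lit 313) (nat_lit 1) (nat_lit 322) (nat_lit 1) (nat_lit 380) (nat_lit 407) (nat_lit 353)) (XT.lf (nat_lit 76) (nat_lit 1897006050) (nat_lit 0) (nat_lit 418386380) (nat_lit 684) (nat_lit 1897006050) (nat_lit 305) (nat_lit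 1) (nat_lit 304) (nat_lit 1) (nat_lit 313) (nat_lit 1) (nat_lit 381) (nat_lit 407) (nat_lit 352))) (XT.nd (nat_lit 78) (nat_lit 608) (nat_lit 0) (XT.lf (nat_lit 684) (nat_lit 3072933249) (nat_lit 0) (nat_lit 552448854) (nat_lit 608) (nat_lit 552448854) (nat_lit 305) (nat_lit 1) (nat_lit 296) (nat_lit 1) (nat_lit 304) (nat_lit 1) (nat_lit 382) (nat_lit 407) (nat_lit 351)) (XT.nd (nat_lit 78) (nat_lit 608) (nat_lit 0) (XT.lf (nat_lit 76) (nat_lit 1172821324) (nat_lit 0) (nat_lit 1797899552) (nat_lit 684) (nat_lit 1172821324) (nat_lit 297) (nat_lit 1) (nat_lit 296) (nat_lit 1) (nat_lit 305) (nat_lit 1) (nat_lit 383) (nat_lit 407) (nat_lit 350)) (XT.lf (nat_lit 684) (nat_lit 1620784362) (nat_lit 0) (nat_lit 1244454742) (nat_lit 608) (nat_lit 1244454742) (nat_lit 297) (nat_lit 1) (nat_lit 288) (nat_lit 1) (nat_lit 296) (nat_lit 1) (nat_lit 384) (nat_lit 407) (nat_lit 349)))))) (XT.nd (nat_lit 312) (nat_lit 1672) (nat_lit 0) (XT.nd (nat_lit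 156) (nat_lit 684) (nat_lit 0) (XT.nd (nat_lit 78) (nat_lit 532) (nat_lit 0) (XT.lf (nat_lit 76) (nat_lit 449702655) (nat_lit 0) (nat_lit 3176893408) (nat_lit 684) (nat_lit 449702655) (nat_lit 289) (nat_lit 1) (nat_lit 288) (nat_lit 1) (nat_lit 297) (nat_lit 1) (nat_lit 385) (nat_lit 407) (nat_lit 348)) (XT.lf (nat_lit 608) (nat_lit 171270333) (nat_lit 0) (nat_lit 1935939125) (nat_lit 532) (nat_lit 1935939125) (nat_lit 289) (nat_lit 1) (nat_lit 281) (nat_lit 1) (nat_lit 288) (nat_lit 1) (nat_lit 386) (nat_lit 407) (nat_lit 347))) (XT.nd (nat_lit 78) (nat_lit 0) (nat_lit 0) (XT.lf (nat_lit 684) (nat_lit 3470339916) (nat_lit 0) (nat_lit 270072306) (nat_lit 608) (nat_lit 270072306) (nat_lit 281) (nat_lit 1) (nat_lit 272) (nat_lit 1) (nat_lit 280) (nat_lit 1) (nat_lit 387) (nat_lit 407) (nat_lit 346)) (XT.lf (nat_lit 76) (nat_lit 1360024354) (nat_lit 0) (nat_lit 1257939796) (nat_lit 684) (nat_lit 1360024354) (nat_lit 273) (nat_lit 1) (nat_lit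 272) (nat_lit 1) (nat_lit 281) (nat_lit 1) (nat_lit 388) (nat_lit 407) (nat_lit 345)))) (XT.nd (nat_lit 156) (nat_lit 1140) (nat_lit 0) (XT.nd (nat_lit 78) (nat_lit 0) (nat_lit 0) (XT.lf (nat_lit 608) (nat_lit 1976193175) (nat_lit 0) (nat_lit 984887106) (nat_lit 532) (nat_lit 984887106) (nat_lit 273) (nat_lit 1) (nat_lit 265) (nat_lit 1) (nat_lit 272) (nat_lit 1) (nat_lit 389) (nat_lit 407) (nat_lit 344)) (XT.lf (nat_lit 76) (nat_lit 616917835) (nat_lit 0) (nat_lit 2680481847) (nat_lit 608) (nat_lit 616917835) (nat_lit 266) (nat_lit 1) (nat_lit 265) (nat_lit 1) (nat_lit 273) (nat_lit 1) (nat_lit 390) (nat_lit 407) (nat_lit 343))) (XT.nd (nat_lit 78) (nat_lit 608) (nat_lit 0) (XT.lf (nat_lit 608) (nat_lit 488399448) (nat_lit 0) (nat_lit 1697271504) (nat_lit 532) (nat_lit 1697271504) (nat_lit 266) (nat_lit 1) (nat_lit 258) (nat_lit 1) (nat_lit 265) (nat_lit 1) (nat_lit 391) (nat_lit 407) (nat_lit 342)) (XT.nd (nat_lit 78) (nat_lit 0) (nat_lit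 0) (XT.lf (nat_lit 608) (nat_lit 3608016497) (nat_lit 0) (nat_lit 122019330) (nat_lit 532) (nat_lit 122019330) (nat_lit 258) (nat_lit 1) (nat_lit 250) (nat_lit 1) (nat_lit 257) (nat_lit 1) (nat_lit 392) (nat_lit 407) (nat_lit 341)) (XT.lf (nat_lit 76) (nat_lit 1420990889) (nat_lit 0) (nat_lit 979261026) (nat_lit 608) (nat_lit 1420990889) (nat_lit 251) (nat_lit 1) (nat_lit 250) (nat_lit 1) (nat_lit 258) (nat_lit 1) (nat_lit 393) (nat_lit 407) (nat_lit 340))))))) (XT.nd (nat_lit 702) (nat_lit 2584) (nat_lit 0) (XT.nd (nat_lit 312) (nat_lit 1444) (nat_lit 0) (XT.nd (nat_lit 156) (nat_lit 1064) (nat_lit 0) (XT.nd (nat_lit 78) (nat_lit 0) (nat_lit 0) (XT.lf (nat_lit 608) (nat_lit 2084524841) (nat_lit 0) (nat_lit 853191725) (nat_lit 532) (nat_lit 853191725) (nat_lit 251) (nat_lit 1) (nat_lit 243) (nat_lit 1) (nat_lit 250) (nat_lit 1) (nat_lit 394) (nat_lit 407) (nat_lit 339)) (XT.lf (nat_lit 76) (nat_lit 664057600) (nat_lit 0) (nat_lit 2432782688)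 (nat_lit 608) (nat_lit 664057600) (nat_lit 244) (nat_lit 1) (nat_lit 243) (nat_lit 1) (nat_lit 251) (nat_lit 1) (nat_lit 395) (nat_lit 407) (nat_lit 338))) (XT.nd (nat_lit 78) (nat_lit 608) (nat_lit 0) (XT.lf (nat_lit 532) (nat_lit 570531973) (nat_lit 0) (nat_lit 1580315064) (nat_lit 456) (nat_lit 1580315064) (nat_lit 244) (nat_lit 1) (nat_lit 237) (nat_lit 1) (nat_lit 243) (nat_lit 1) (nat_lit 396) (nat_lit 407) (nat_lit 337)) (XT.lf (nat_lit 608) (nat_lit 3527072118) (nat_lit 0) (nat_lit 87408654) (nat_lit 532) (nat_lit 87408654) (nat_lit 237) (nat_lit 1) (nat_lit 229) (nat_lit 1) (nat_lit 236) (nat_lit 1) (nat_lit 397) (nat_lit 407) (nat_lit 336)))) (XT.nd (nat_lit 156) (nat_lit 988) (nat_lit 0) (XT.nd (nat_lit 78) (nat_lit 456) (nat_lit 0) (XT.lf (nat_lit 76) (nat_lit 1375772006) (nat_lit 0) (nat_lit 921116078) (nat_lit 608) (nat_lit 1375772006) (nat_lit 230) (nat_lit 1) (nat_lit 229) (nat_lit 1) (nat_lit 237) (nat_lit 1) (nat_lit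 398) (nat_lit 407) (nat_lit 335)) (XT.lf (nat_lit 532) (nat_lit 1985162366) (nat_lit 0) (nat_lit 829361345) (nat_lit 456) (nat_lit 829361345) (nat_lit 230) (nat_lit 1) (nat_lit 223) (nat_lit 1) (nat_lit 229) (nat_lit 1) (nat_lit 399) (nat_lit 407) (nat_lit 334))) (XT.nd (nat_lit 78) (nat_lit 988) (nat_lit 0) (XT.lf (nat_lit 76) (nat_lit 610330520) (nat_lit 0) (nat_lit 2394755420) (nat_lit 532) (nat_lit 610330520) (nat_lit 224) (nat_lit 1) (nat_lit 223) (nat_lit 1) (nat_lit 230) (nat_lit 1) (nat_lit 400) (nat_lit 407) (nat_lit 333)) (XT.nd (nat_lit 78) (nat_lit 532) (nat_lit 0) (XT.lf (nat_lit 532) (nat_lit 455394966) (nat_lit 0) (nat_lit 1565901091) (nat_lit 456) (nat_lit 1565901091) (nat_lit 224) (nat_lit 1) (nat_lit 217) (nat_lit 1) (nat_lit 223) (nat_lit 1) (nat_lit 401) (nat_lit 407) (nat_lit 332)) (XT.lf (nat_lit 532) (nat_lit 3263472399) (nat_lit 0) (nat_lit 147961001) (nat_lit 456) (nat_lit 147961001) (nat_lit 217) (nat_lit 1)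 (nat_lit 210) (nat_lit 1) (nat_lit 216) (nat_lit 1) (nat_lit 402) (nat_lit 407) (nat_lit 331)))))) (XT.nd (nat_lit 390) (nat_lit 1216) (nat_lit 0) (XT.nd (nat_lit 156) (nat_lit 912) (nat_lit 0) (XT.nd (nat_lit 78) (nat_lit 456) (nat_lit 0) (XT.lf (nat_lit 76) (nat_lit 1241907321) (nat_lit 0) (nat_lit 1047840416) (nat_lit 532) (nat_lit 1241907321) (nat_lit 211) (nat_lit 1) (nat_lit 210) (nat_lit 1) (nat_lit 217) (nat_lit 1) (nat_lit 403) (nat_lit 407) (nat_lit 330)) (XT.lf (nat_lit 532) (nat_lit 1712550606) (nat_lit 0) (nat_lit 895886924) (nat_lit 456) (nat_lit 895886924) (nat_lit 211) (nat_lit 1) (nat_lit 204) (nat_lit 1) (nat_lit 210) (nat_lit 1) (nat_lit 404) (nat_lit 407) (nat_lit 329))) (XT.nd (nat_lit 78) (nat_lit 912) (nat_lit 0) (XT.lf (nat_lit 76) (nat_lit 472533999) (nat_lit 0) (nat_lit 2532239365) (nat_lit 532) (nat_lit 472533999) (nat_lit 205) (nat_lit 1) (nat_lit 204) (nat_lit 1) (nat_lit 211) (nat_lit 1) (nat_lit 405) (nat_lit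 407) (nat_lit 328)) (XT.nd (nat_lit 78) (nat_lit 532) (nat_lit 0) (XT.lf (nat_lit 456) (nat_lit 175974601) (nat_lit 0) (nat_lit 1637259382) (nat_lit 380) (nat_lit 1637259382) (nat_lit 205) (nat_lit 1) (nat_lit 199) (nat_lit 1) (nat_lit 204) (nat_lit 1) (nat_lit 406) (nat_lit 407) (nat_lit 327)) (XT.lf (nat_lit 532) (nat_lit 2848637976) (nat_lit 0) (nat_lit 287696688) (nat_lit 456) (nat_lit 287696688) (nat_lit 199) (nat_lit 1) (nat_lit 192) (nat_lit 1) (nat_lit 198) (nat_lit 1) (nat_lit 407) (nat_lit 407) (nat_lit 326))))) (XT.nd (nat_lit 156) (nat_lit 836) (nat_lit 0) (XT.nd (nat_lit 78) (nat_lit 380) (nat_lit 0) (XT.lf (nat_lit 76) (nat_lit 1034717341) (nat_lit 0) (nat_lit 1328261210) (nat_lit 532) (nat_lit 1034717341) (nat_lit 193) (nat_lit 1) (nat_lit 192) (nat_lit 1) (nat_lit 199) (nat_lit 1) (nat_lit 408) (nat_lit 407) (nat_lit 325)) (XT.lf (nat_lit 456) (nat_lit 1296771325) (nat_lit 0) (nat_lit 1037467073) (nat_lit 380) (nat_lit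 1037467073) (nat_lit 193) (nat_lit 1) (nat_lit 187) (nat_lit 1) (nat_lit 192) (nat_lit 1) (nat_lit 409) (nat_lit 407) (nat_lit 324))) (XT.nd (nat_lit 78) (nat_lit 836) (nat_lit 0) (XT.lf (nat_lit 76) (nat_lit 265335170) (nat_lit 0) (nat_lit 2815385937) (nat_lit 456) (nat_lit 265335170) (nat_lit 188) (nat_lit 1) (nat_lit 187) (nat_lit 1) (nat_lit 193) (nat_lit 1) (nat_lit 410) (nat_lit 407) (nat_lit 323)) (XT.nd (nat_lit 78) (nat_lit 380) (nat_lit 0) (XT.lf (nat_lit 76) (nat_lit 1542359047) (nat_lit 0) (nat_lit 235797705) (nat_lit 456) (nat_lit 1542359047) (nat_lit 182) (nat_lit 1) (nat_lit 181) (nat_lit 1) (nat_lit 187) (nat_lit 1) (nat_lit 411) (nat_lit 407) (nat_lit 322)) (XT.lf (nat_lit 456) (nat_lit 2309975075) (nat_lit 0) (nat_lit 492667526) (nat_lit 380) (nat_lit 492667526) (nat_lit 182) (nat_lit 1) (nat_lit 176) (nat_lit 1) (nat_lit 181) (nat_lit 1) (nat_lit 412) (nat_lit 407) (nat_lit 321))))))))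
noncomputable def ec103 : XT := (XT.nd (nat_lit 1404) (nat_lit 2052) (nat_lit 0) (XT.nd (nat_lit 702) (nat_lit 1976) (nat_lit 0) (XT.nd (nat_lit 312) (nat_lit 1140) (nat_lit 0) (XT.nd (nat_lit 156) (nat_lit 380) (nat_lit 0) (XT.nd (nat_lit 78) (nat_lit 380) (nat_lit 0) (XT.lf (nat_lit 76) (nat_lit 767562624) (nat_lit 0) (nat_lit 1735173480) (nat_lit 456) (nat_lit 767562624) (nat_lit 177) (nat_lit 1) (nat_lit 176) (nat_lit 1) (nat_lit 182) (nat_lit 1) (nat_lit 413) (nat_lit 407) (nat_lit 320)) (XT.lf (nat_lit 456) (nat_lit 764052940) (nat_lit 0) (nat_lit 1240750486) (nat_lit 380) (nat_lit 1240750486) (nat_lit 177) (nat_lit 1) (nat_lit 171) (nat_lit 1) (nat_lit 176) (nat_lit 1) (nat_lit 414) (nat_lit 407) (nat_lit 319))) (XT.nd (nat_lit 78) (nat_lit 380) (nat_lit 0) (XT.lf (nat_lit 76) (nat_lit 1519871) (nat_lit 0) (nat_lit 3218155330) (nat_lit 456) (nat_lit 1519871) (nat_lit 172) (nat_lit 1) (nat_lit 171) (nat_lit 1) (nat_lit 177) (nat_lit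 1) (nat_lit 415) (nat_lit 407) (nat_lit 318)) (XT.lf (nat_lit 76) (nat_lit 1221299357) (nat_lit 0) (nat_lit 754200768) (nat_lit 380) (nat_lit 1221299357) (nat_lit 167) (nat_lit 1) (nat_lit 166) (nat_lit 1) (nat_lit 171) (nat_lit 1) (nat_lit 416) (nat_lit 407) (nat_lit 317)))) (XT.nd (nat_lit 156) (nat_lit 760) (nat_lit 0) (XT.nd (nat_lit 78) (nat_lit 0) (nat_lit 0) (XT.lf (nat_lit 456) (nat_lit 1671345794) (nat_lit 0) (nat_lit 750719189) (nat_lit 380) (nat_lit 750719189) (nat_lit 167) (nat_lit 1) (nat_lit 161) (nat_lit 1) (nat_lit 166) (nat_lit 1) (nat_lit 417) (nat_lit 407) (nat_lit 316)) (XT.lf (nat_lit 76) (nat_lit 452073481) (nat_lit 0) (nat_lit 2244875754) (nat_lit 456) (nat_lit 452073481) (nat_lit 162) (nat_lit 1) (nat_lit 161) (nat_lit 1) (nat_lit 167) (nat_lit 1) (nat_lit 418) (nat_lit 407) (nat_lit 315))) (XT.nd (nat_lit 78) (nat_lit 456) (nat_lit 0) (XT.lf (nat_lit 380) (nat_lit 137222327) (nat_lit 0) (nat_lit 1494107630) (nat_lit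 304) (nat_lit 1494107630) (nat_lit 162) (nat_lit 1) (nat_lit 157) (nat_lit 1) (nat_lit 161) (nat_lit 1) (nat_lit 419) (nat_lit 407) (nat_lit 314)) (XT.nd (nat_lit 78) (nat_lit 0) (nat_lit 0) (XT.lf (nat_lit 456) (nat_lit 2490613187) (nat_lit 0) (nat_lit 305761751) (nat_lit 380) (nat_lit 305761751) (nat_lit 157) (nat_lit 1) (nat_lit 151) (nat_lit 1) (nat_lit 156) (nat_lit 1) (nat_lit 420) (nat_lit 407) (nat_lit 313)) (XT.lf (nat_lit 76) (nat_lit 859478719) (nat_lit 0) (nat_lit 1359994347) (nat_lit 456) (nat_lit 859478719) (nat_lit 152) (nat_lit 1) (nat_lit 151) (nat_lit 1) (nat_lit 157) (nat_lit 1) (nat_lit 421) (nat_lit 407) (nat_lit 312)))))) (XT.nd (nat_lit 312) (nat_lit 988) (nat_lit 0) (XT.nd (nat_lit 156) (nat_lit 684) (nat_lit 0) (XT.nd (nat_lit 78) (nat_lit 0) (nat_lit 0) (XT.lf (nat_lit 380) (nat_lit 953484864) (nat_lit 0) (nat_lit 1051280593) (nat_lit 304) (nat_lit 1051280593) (nat_lit 152) (nat_lit 1) (nat_lit 147) (nat_lit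 1) (nat_lit 151) (nat_lit 1) (nat_lit 422) (nat_lit 407) (nat_lit 311)) (XT.lf (nat_lit 76) (nat_lit 98353543) (nat_lit 0) (nat_lit 2836758548) (nat_lit 380) (nat_lit 98353543) (nat_lit 148) (nat_lit 1) (nat_lit 147) (nat_lit 1) (nat_lit 152) (nat_lit 1) (nat_lit 423) (nat_lit 407) (nat_lit 310))) (XT.nd (nat_lit 78) (nat_lit 304) (nat_lit 0) (XT.lf (nat_lit 76) (nat_lit 1227194798) (nat_lit 0) (nat_lit 556499213) (nat_lit 380) (nat_lit 1227194798) (nat_lit 143) (nat_lit 1) (nat_lit 142) (nat_lit 1) (nat_lit 147) (nat_lit 1) (nat_lit 424) (nat_lit 407) (nat_lit 309)) (XT.lf (nat_lit 380) (nat_lit 1691375224) (nat_lit 0) (nat_lit 648628702) (nat_lit 304) (nat_lit 648628702) (nat_lit 143) (nat_lit 1) (nat_lit 138) (nat_lit 1) (nat_lit 142) (nat_lit 1) (nat_lit 425) (nat_lit 407) (nat_lit 308)))) (XT.nd (nat_lit 156) (nat_lit 684) (nat_lit 0) (XT.nd (nat_lit 78) (nat_lit 304) (nat_lit 0) (XT.lf (nat_lit 76) (nat_lit 466060378) (nat_lit 0)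 (nat_lit 2034472454) (nat_lit 380) (nat_lit 466060378) (nat_lit 139) (nat_lit 1) (nat_lit 138) (nat_lit 1) (nat_lit 143) (nat_lit 1) (nat_lit 426) (nat_lit 407) (nat_lit 307)) (XT.lf (nat_lit 380) (nat_lit 174368944) (nat_lit 0) (nat_lit 1385177274) (nat_lit 304) (nat_lit 1385177274) (nat_lit 139) (nat_lit 1) (nat_lit 134) (nat_lit 1) (nat_lit 138) (nat_lit 1) (nat_lit 427) (nat_lit 407) (nat_lit 306))) (XT.nd (nat_lit 78) (nat_lit 304) (nat_lit 0) (XT.lf (nat_lit 380) (nat_lit 2357179649) (nat_lit 0) (nat_lit 282965928) (nat_lit 304) (nat_lit 282965928) (nat_lit 134) (nat_lit 1) (nat_lit 129) (nat_lit 1) (nat_lit 133) (nat_lit 1) (nat_lit 428) (nat_lit 407) (nat_lit 305)) (XT.nd (nat_lit 78) (nat_lit 304) (nat_lit 0) (XT.lf (nat_lit 76) (nat_lit 798407853) (nat_lit 0) (nat_lit 1304779291) (nat_lit 380) (nat_lit 798407853) (nat_lit 130) (nat_lit 1) (nat_lit 129) (nat_lit 1) (nat_lit 134) (nat_lit 1) (nat_lit 429) (nat_lit 407) (nat_lit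 304)) (XT.lf (nat_lit 380) (nat_lit 842776787) (nat_lit 0) (nat_lit 1018777639) (nat_lit 304) (nat_lit 1018777639) (nat_lit 130) (nat_lit 1) (nat_lit 125) (nat_lit 1) (nat_lit 129) (nat_lit 1) (nat_lit 430) (nat_lit 407) (nat_lit 303))))))) (XT.nd (nat_lit 702) (nat_lit 228) (nat_lit 0) (XT.nd (nat_lit 312) (nat_lit 1216) (nat_lit 0) (XT.nd (nat_lit 156) (nat_lit 304) (nat_lit 0) (XT.nd (nat_lit 78) (nat_lit 304) (nat_lit 0) (XT.lf (nat_lit 76) (nat_lit 48970820) (nat_lit 0) (nat_lit 2761434977) (nat_lit 380) (nat_lit 48970820) (nat_lit 126) (nat_lit 1) (nat_lit 125) (nat_lit 1) (nat_lit 130) (nat_lit 1) (nat_lit 431) (nat_lit 407) (nat_lit 302)) (XT.lf (nat_lit 76) (nat_lit 1098232997) (nat_lit 0) (nat_lit 641925380) (nat_lit 304) (nat_lit 1098232997) (nat_lit 122) (nat_lit 1) (nat_lit 121) (nat_lit 1) (nat_lit 125) (nat_lit 1) (nat_lit 432) (nat_lit 407) (nat_lit 301))) (XT.nd (nat_lit 78) (nat_lit 0) (nat_lit 0) (XT.lf (nat_lit 380)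 (nat_lit 1446915906) (nat_lit 0) (nat_lit 685396935) (nat_lit 304) (nat_lit 685396935) (nat_lit 122) (nat_lit 1) (nat_lit 117) (nat_lit 1) (nat_lit 121) (nat_lit 1) (nat_lit 433) (nat_lit 407) (nat_lit 300)) (XT.lf (nat_lit 76) (nat_lit 351240327) (nat_lit 0) (nat_lit 2094765161) (nat_lit 380) (nat_lit 351240327) (nat_lit 118) (nat_lit 1) (nat_lit 117) (nat_lit 1) (nat_lit 122) (nat_lit 1) (nat_lit 434) (nat_lit 407) (nat_lit 299)))) (XT.nd (nat_lit 156) (nat_lit 608) (nat_lit 0) (XT.nd (nat_lit 78) (nat_lit 304) (nat_lit 0) (XT.lf (nat_lit 76) (nat_lit 1368153956) (nat_lit 0) (nat_lit 40599630) (nat_lit 304) (nat_lit 1368153956) (nat_lit 114) (nat_lit 1) (nat_lit 113) (nat_lit 1) (nat_lit 117) (nat_lit 1) (nat_lit 435) (nat_lit 407) (nat_lit 298)) (XT.lf (nat_lit 380) (nat_lit 1991942746) (nat_lit 0) (nat_lit 382420307) (nat_lit 304) (nat_lit 382420307) (nat_lit 114) (nat_lit 1) (nat_lit 109) (nat_lit 1) (nat_lit 113) (nat_lit 1) (nat_lit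 436) (nat_lit 407) (nat_lit 297))) (XT.nd (nat_lit 78) (nat_lit 608) (nat_lit 0) (XT.lf (nat_lit 76) (nat_lit 624490650) (nat_lit 0) (nat_lit 1487813808) (nat_lit 380) (nat_lit 624490650) (nat_lit 110) (nat_lit 1) (nat_lit 109) (nat_lit 1) (nat_lit 114) (nat_lit 1) (nat_lit 437) (nat_lit 407) (nat_lit 296)) (XT.nd (nat_lit 78) (nat_lit 380) (nat_lit 0) (XT.lf (nat_lit 304) (nat_lit 510799479) (nat_lit 0) (nat_lit 1103103690) (nat_lit 228) (nat_lit 1103103690) (nat_lit 110) (nat_lit 1) (nat_lit 106) (nat_lit 1) (nat_lit 109) (nat_lit 1) (nat_lit 438) (nat_lit 407) (nat_lit 295)) (XT.lf (nat_lit 380) (nat_lit 2482615925) (nat_lit 0) (nat_lit 107433999) (nat_lit 304) (nat_lit 107433999) (nat_lit 106) (nat_lit 1) (nat_lit 101) (nat_lit 1) (nat_lit 105) (nat_lit 1) (nat_lit 439) (nat_lit 407) (nat_lit 294)))))) (XT.nd (nat_lit 50466) (nat_lit 0) (nat_lit 30400) (XT.nd (nat_lit 156) (nat_lit 0) (nat_lit 0) (XT.nd (nat_lit 78) (nat_lit 228)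 (nat_lit 0) (XT.lf (nat_lit 76) (nat_lit 871049381) (nat_lit 0) (nat_lit 935857625) (nat_lit 380) (nat_lit 871049381) (nat_lit 102) (nat_lit 1) (nat_lit 101) (nat_lit 1) (nat_lit 106) (nat_lit 1) (nat_lit 440) (nat_lit 407) (nat_lit 293)) (XT.lf (nat_lit 304) (nat_lit 1009944587) (nat_lit 0) (nat_lit 824373216) (nat_lit 228) (nat_lit 824373216) (nat_lit 102) (nat_lit 1) (nat_lit 98) (nat_lit 1) (nat_lit 101) (nat_lit 1) (nat_lit 441) (nat_lit 407) (nat_lit 292))) (XT.nd (nat_lit 50154) (nat_lit 0) (nat_lit 30324) (XT.lf (nat_lit 76) (nat_lit 142729000) (nat_lit 0) (nat_lit 2354214257) (nat_lit 304) (nat_lit 142729000) (nat_lit 99) (nat_lit 1) (nat_lit 98) (nat_lit 1) (nat_lit 102) (nat_lit 1) (nat_lit 442) (nat_lit 407) (nat_lit 291)) (XT.nd (nat_lit 78) (nat_lit 0) (nat_lit 0) (XT.lf (nat_lit 1900) (nat_lit 1174330024) (nat_lit 0) (nat_lit 1184150154) (nat_lit 1900) (nat_lit 1174330024) (nat_lit 522) (nat_lit 1) (nat_lit 497) (nat_lit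 0) (nat_lit 522) (nat_lit 0) (nat_lit 324) (nat_lit 408) (nat_lit 408)) (XT.lf (nat_lit 1900) (nat_lit 4643477478) (nat_lit 76) (nat_lit 1176359692) (nat_lit 0) (nat_lit 1176359692) (nat_lit 522) (nat_lit 1) (nat_lit 498) (nat_lit 1) (nat_lit 497) (nat_lit 0) (nat_lit 325) (nat_lit 408) (nat_lit 407))))) (XT.nd (nat_lit 156) (nat_lit 0) (nat_lit 76) (XT.nd (nat_lit 78) (nat_lit 0) (nat_lit 0) (XT.lf (nat_lit 1900) (nat_lit 2279969544) (nat_lit 0) (nat_lit 2367592506) (nat_lit 1824) (nat_lit 2279969544) (nat_lit 523) (nat_lit 1) (nat_lit 498) (nat_lit 1) (nat_lit 522) (nat_lit 1) (nat_lit 326) (nat_lit 408) (nat_lit 406)) (XT.lf (nat_lit 1900) (nat_lit 4462462442) (nat_lit 76) (nat_lit 1198722423) (nat_lit 0) (nat_lit 1198722423) (nat_lit 523) (nat_lit 1) (nat_lit 499) (nat_lit 1) (nat_lit 498) (nat_lit 1) (nat_lit 327) (nat_lit 408) (nat_lit 405))) (XT.nd (nat_lit 78) (nat_lit 0) (nat_lit 0) (XT.lf (nat_lit 1900) (nat_lit 2168672185)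 (nat_lit 0) (nat_lit 2455685114) (nat_lit 1824) (nat_lit 2168672185) (nat_lit 524) (nat_lit 1) (nat_lit 499) (nat_lit 1) (nat_lit 523) (nat_lit 1) (nat_lit 328) (nat_lit 408) (nat_lit 404)) (XT.nd (nat_lit 78) (nat_lit 0) (nat_lit 76) (XT.lf (nat_lit 1900) (nat_lit 4198523771) (nat_lit 76) (nat_lit 1264311228) (nat_lit 0) (nat_lit 1264311228) (nat_lit 524) (nat_lit 1) (nat_lit 500) (nat_lit 1) (nat_lit 499) (nat_lit 1) (nat_lit 329) (nat_lit 408) (nat_lit 403)) (XT.lf (nat_lit 1900) (nat_lit 2017310175) (nat_lit 0) (nat_lit 2627389257) (nat_lit 1824) (nat_lit 2017310175) (nat_lit 525) (nat_lit 1) (nat_lit 500) (nat_lit 1) (nat_lit 524) (nat_lit 1) (nat_lit 330) (nat_lit 408) (nat_lit 402))))))))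
noncomputable def ec104 : XT := (XT.nd (nat_lit 1404) (nat_lit 8664) (nat_lit 0) (XT.nd (nat_lit 702) (nat_lit 1368) (nat_lit 0) (XT.nd (nat_lit 312) (nat_lit 0) (nat_lit 152) (XT.nd (nat_lit 156) (nat_lit 0) (nat_lit 76) (XT.nd (nat_lit 78) (nat_lit 0) (nat_lit 76) (XT.lf (nat_lit 1900) (nat_lit 3856645268) (nat_lit 76) (nat_lit 1370582989) (nat_lit 0) (nat_lit 1370582989) (nat_lit 525) (nat_lit 1) (nat_lit 501) (nat_lit 1) (nat_lit 500) (nat_lit 1) (nat_lit 331) (nat_lit 408) (nat_lit 401)) (XT.lf (nat_lit 1900) (nat_lit 1828309598) (nat_lit 0) (nat_lit 2877751683) (nat_lit 1824) (nat_lit 1828309598) (nat_lit 526) (nat_lit 1) (nat_lit 501) (nat_lit 1) (nat_lit 525) (nat_lit 1) (nat_lit 332) (nat_lit 408) (nat_lit 400))) (XT.nd (nat_lit 78) (nat_lit 0) (nat_lit 76) (XT.lf (nat_lit 1900) (nat_lit 3441582626) (nat_lit 76) (nat_lit 1515110293) (nat_lit 0) (nat_lit 1515110293) (nat_lit 526) (nat_lit 1) (nat_lit 502) (nat_lit 1) (nat_lit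 501) (nat_lit 1) (nat_lit 333) (nat_lit 408) (nat_lit 399)) (XT.lf (nat_lit 1900) (nat_lit 1603985261) (nat_lit 0) (nat_lit 3202044940) (nat_lit 1824) (nat_lit 1603985261) (nat_lit 527) (nat_lit 1) (nat_lit 502) (nat_lit 1) (nat_lit 526) (nat_lit 1) (nat_lit 334) (nat_lit 408) (nat_lit 398)))) (XT.nd (nat_lit 156) (nat_lit 0) (nat_lit 76) (XT.nd (nat_lit 78) (nat_lit 0) (nat_lit 76) (XT.lf (nat_lit 1900) (nat_lit 2957872962) (nat_lit 76) (nat_lit 1695576607) (nat_lit 0) (nat_lit 1695576607) (nat_lit 527) (nat_lit 1) (nat_lit 503) (nat_lit 1) (nat_lit 502) (nat_lit 1) (nat_lit 335) (nat_lit 408) (nat_lit 397)) (XT.lf (nat_lit 1900) (nat_lit 1346545356) (nat_lit 0) (nat_lit 3595757955) (nat_lit 1824) (nat_lit 1346545356) (nat_lit 528) (nat_lit 1) (nat_lit 503) (nat_lit 1) (nat_lit 527) (nat_lit 1) (nat_lit 336) (nat_lit 408) (nat_lit 396))) (XT.nd (nat_lit 78) (nat_lit 0) (nat_lit 76) (XT.lf (nat_lit 1900) (nat_lit 2409843971) (nat_lit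 76) (nat_lit 1909771646) (nat_lit 0) (nat_lit 1909771646) (nat_lit 528) (nat_lit 1) (nat_lit 504) (nat_lit 1) (nat_lit 503) (nat_lit 1) (nat_lit 337) (nat_lit 408) (nat_lit 395)) (XT.nd (nat_lit 78) (nat_lit 0) (nat_lit 0) (XT.lf (nat_lit 1900) (nat_lit 1058095927) (nat_lit 0) (nat_lit 4054586988) (nat_lit 1824) (nat_lit 1058095927) (nat_lit 529) (nat_lit 1) (nat_lit 504) (nat_lit 1) (nat_lit 528) (nat_lit 1) (nat_lit 338) (nat_lit 408) (nat_lit 394)) (XT.lf (nat_lit 1900) (nat_lit 1801622708) (nat_lit 76) (nat_lit 2155586929) (nat_lit 0) (nat_lit 2155586929) (nat_lit 529) (nat_lit 1) (nat_lit 505) (nat_lit 1) (nat_lit 504) (nat_lit 1) (nat_lit 339) (nat_lit 408) (nat_lit 393)))))) (XT.nd (nat_lit 312) (nat_lit 1748) (nat_lit 0) (XT.nd (nat_lit 156) (nat_lit 0) (nat_lit 76) (XT.nd (nat_lit 78) (nat_lit 0) (nat_lit 0) (XT.lf (nat_lit 1900) (nat_lit 740645154) (nat_lit 0) (nat_lit 4574426946) (nat_lit 1824) (nat_lit 740645154) (nat_lit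 530) (nat_lit 1) (nat_lit 505) (nat_lit 1) (nat_lit 529) (nat_lit 1) (nat_lit 340) (nat_lit 408) (nat_lit 392)) (XT.lf (nat_lit 1900) (nat_lit 1137144022) (nat_lit 76) (nat_lit 2431011512) (nat_lit 0) (nat_lit 2431011512) (nat_lit 530) (nat_lit 1) (nat_lit 506) (nat_lit 1) (nat_lit 505) (nat_lit 1) (nat_lit 341) (nat_lit 408) (nat_lit 391))) (XT.nd (nat_lit 78) (nat_lit 0) (nat_lit 0) (XT.lf (nat_lit 1900) (nat_lit 396107473) (nat_lit 0) (nat_lit 5151363058) (nat_lit 1824) (nat_lit 396107473) (nat_lit 531) (nat_lit 1) (nat_lit 506) (nat_lit 1) (nat_lit 530) (nat_lit 1) (nat_lit 342) (nat_lit 408) (nat_lit 390)) (XT.lf (nat_lit 1900) (nat_lit 420158640) (nat_lit 76) (nat_lit 2734127891) (nat_lit 0) (nat_lit 2734127891) (nat_lit 531) (nat_lit 1) (nat_lit 507) (nat_lit 1) (nat_lit 506) (nat_lit 1) (nat_lit 343) (nat_lit 408) (nat_lit 389)))) (XT.nd (nat_lit 156) (nat_lit 0) (nat_lit 0) (XT.nd (nat_lit 78) (nat_lit 1900) (nat_lit 0) (XT.lf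 (nat_lit 1900) (nat_lit 26307524) (nat_lit 0) (nat_lit 5781662874) (nat_lit 1824) (nat_lit 26307524) (nat_lit 532) (nat_lit 1) (nat_lit 507) (nat_lit 1) (nat_lit 531) (nat_lit 1) (nat_lit 344) (nat_lit 408) (nat_lit 388)) (XT.lf (nat_lit 1976) (nat_lit 2719593912) (nat_lit 0) (nat_lit 341224370) (nat_lit 1900) (nat_lit 2719593912) (nat_lit 508) (nat_lit 1) (nat_lit 482) (nat_lit 1) (nat_lit 507) (nat_lit 1) (nat_lit 345) (nat_lit 408) (nat_lit 387))) (XT.nd (nat_lit 78) (nat_lit 0) (nat_lit 76) (XT.lf (nat_lit 1976) (nat_lit 4998342236) (nat_lit 76) (nat_lit 364601481) (nat_lit 0) (nat_lit 364601481) (nat_lit 508) (nat_lit 1) (nat_lit 483) (nat_lit 1) (nat_lit 482) (nat_lit 1) (nat_lit 346) (nat_lit 408) (nat_lit 386)) (XT.nd (nat_lit 78) (nat_lit 0) (nat_lit 0) (XT.lf (nat_lit 1976) (nat_lit 2266519537) (nat_lit 0) (nat_lit 1142026684) (nat_lit 1900) (nat_lit 2266519537) (nat_lit 509) (nat_lit 1) (nat_lit 483) (nat_lit 1) (nat_lit 508)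 (nat_lit 1) (nat_lit 347) (nat_lit 408) (nat_lit 385)) (XT.lf (nat_lit 1976) (nat_lit 4069346171) (nat_lit 76) (nat_lit 777060918) (nat_lit 0) (nat_lit 777060918) (nat_lit 509) (nat_lit 1) (nat_lit 484) (nat_lit 1) (nat_lit 483) (nat_lit 1) (nat_lit 348) (nat_lit 408) (nat_lit 384))))))) (XT.nd (nat_lit 702) (nat_lit 4028) (nat_lit 0) (XT.nd (nat_lit 312) (nat_lit 2736) (nat_lit 0) (XT.nd (nat_lit 156) (nat_lit 912) (nat_lit 0) (XT.nd (nat_lit 78) (nat_lit 1140) (nat_lit 0) (XT.lf (nat_lit 76) (nat_lit 1793897986) (nat_lit 0) (nat_lit 1984557587) (nat_lit 1900) (nat_lit 1793897986) (nat_lit 485) (nat_lit 1) (nat_lit 484) (nat_lit 1) (nat_lit 509) (nat_lit 1) (nat_lit 349) (nat_lit 408) (nat_lit 383)) (XT.lf (nat_lit 1216) (nat_lit 3102631636) (nat_lit 0) (nat_lit 1209676857) (nat_lit 1140) (nat_lit 1209676857) (nat_lit 485) (nat_lit 1) (nat_lit 469) (nat_lit 1) (nat_lit 484) (nat_lit 1) (nat_lit 350) (nat_lit 408) (nat_lit 382))) (XT.nd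 (nat_lit 78) (nat_lit 912) (nat_lit 0) (XT.lf (nat_lit 76) (nat_lit 1303216547) (nat_lit 0) (nat_lit 2865768769) (nat_lit 1216) (nat_lit 1303216547) (nat_lit 470) (nat_lit 1) (nat_lit 469) (nat_lit 1) (nat_lit 485) (nat_lit 1) (nat_lit 351) (nat_lit 408) (nat_lit 381)) (XT.lf (nat_lit 988) (nat_lit 2101110196) (nat_lit 0) (nat_lit 1660957324) (nat_lit 912) (nat_lit 1660957324) (nat_lit 470) (nat_lit 1) (nat_lit 457) (nat_lit 1) (nat_lit 469) (nat_lit 1) (nat_lit 352) (nat_lit 408) (nat_lit 380)))) (XT.nd (nat_lit 156) (nat_lit 1824) (nat_lit 0) (XT.nd (nat_lit 78) (nat_lit 912) (nat_lit 0) (XT.lf (nat_lit 76) (nat_lit 795890475) (nat_lit 0) (nat_lit 3782758293) (nat_lit 988) (nat_lit 795890475) (nat_lit 458) (nat_lit 1) (nat_lit 457) (nat_lit 1) (nat_lit 470) (nat_lit 1) (nat_lit 353) (nat_lit 408) (nat_lit 379)) (XT.lf (nat_lit 988) (nat_lit 1067551987) (nat_lit 0) (nat_lit 2129482191) (nat_lit 912) (nat_lit 2129482191) (nat_lit 458)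 (nat_lit 1) (nat_lit 445) (nat_lit 1) (nat_lit 457) (nat_lit 1) (nat_lit 354) (nat_lit 408) (nat_lit 378))) (XT.nd (nat_lit 78) (nat_lit 1824) (nat_lit 0) (XT.lf (nat_lit 76) (nat_lit 273266071) (nat_lit 0) (nat_lit 4732764354) (nat_lit 988) (nat_lit 273266071) (nat_lit 446) (nat_lit 1) (nat_lit 445) (nat_lit 1) (nat_lit 458) (nat_lit 1) (nat_lit 355) (nat_lit 408) (nat_lit 377)) (XT.nd (nat_lit 78) (nat_lit 988) (nat_lit 0) (XT.lf (nat_lit 912) (nat_lit 4591764) (nat_lit 0) (nat_lit 2613900108) (nat_lit 836) (nat_lit 2613900108) (nat_lit 446) (nat_lit 1) (nat_lit 434) (nat_lit 1) (nat_lit 445) (nat_lit 1) (nat_lit 356) (nat_lit 408) (nat_lit 376)) (XT.lf (nat_lit 988) (nat_lit 4662982043) (nat_lit 0) (nat_lit 261643630) (nat_lit 912) (nat_lit 261643630) (nat_lit 434) (nat_lit 1) (nat_lit 421) (nat_lit 1) (nat_lit 433) (nat_lit 1) (nat_lit 357) (nat_lit 408) (nat_lit 375)))))) (XT.nd (nat_lit 312) (nat_lit 2356) (nat_lit 0) (XT.nd (nat_lit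 156) (nat_lit 836) (nat_lit 0) (XT.nd (nat_lit 78) (nat_lit 836) (nat_lit 0) (XT.lf (nat_lit 76) (nat_lit 2034706528) (nat_lit 0) (nat_lit 1071031849) (nat_lit 988) (nat_lit 2034706528) (nat_lit 422) (nat_lit 1) (nat_lit 421) (nat_lit 1) (nat_lit 434) (nat_lit 1) (nat_lit 358) (nat_lit 408) (nat_lit 374)) (XT.lf (nat_lit 912) (nat_lit 3480436416) (nat_lit 0) (nat_lit 807472224) (nat_lit 836) (nat_lit 807472224) (nat_lit 422) (nat_lit 1) (nat_lit 410) (nat_lit 1) (nat_lit 421) (nat_lit 1) (nat_lit 359) (nat_lit 408) (nat_lit 373))) (XT.nd (nat_lit 78) (nat_lit 836) (nat_lit 0) (XT.lf (nat_lit 76) (nat_lit 1439979544) (nat_lit 0) (nat_lit 2170789395) (nat_lit 912) (nat_lit 1439979544) (nat_lit 411) (nat_lit 1) (nat_lit 410) (nat_lit 1) (nat_lit 422) (nat_lit 1) (nat_lit 360) (nat_lit 408) (nat_lit 372)) (XT.lf (nat_lit 912) (nat_lit 2276974318) (nat_lit 0) (nat_lit 1364868451) (nat_lit 836) (nat_lit 1364868451) (nat_lit 411) (nat_lit 1)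 (nat_lit 399) (nat_lit 1) (nat_lit 410) (nat_lit 1) (nat_lit 361) (nat_lit 408) (nat_lit 371)))) (XT.nd (nat_lit 156) (nat_lit 1596) (nat_lit 0) (XT.nd (nat_lit 78) (nat_lit 760) (nat_lit 0) (XT.lf (nat_lit 76) (nat_lit 835366739) (nat_lit 0) (nat_lit 3292508281) (nat_lit 912) (nat_lit 835366739) (nat_lit 400) (nat_lit 1) (nat_lit 399) (nat_lit 1) (nat_lit 411) (nat_lit 1) (nat_lit 362) (nat_lit 408) (nat_lit 370)) (XT.lf (nat_lit 836) (nat_lit 1054718474) (nat_lit 0) (nat_lit 1932740718) (nat_lit 760) (nat_lit 1932740718) (nat_lit 400) (nat_lit 1) (nat_lit 389) (nat_lit 1) (nat_lit 399) (nat_lit 1) (nat_lit 363) (nat_lit 408) (nat_lit 369))) (XT.nd (nat_lit 78) (nat_lit 1596) (nat_lit 0) (XT.lf (nat_lit 76) (nat_lit 221898652) (nat_lit 0) (nat_lit 4434067755) (nat_lit 836) (nat_lit 221898652) (nat_lit 390) (nat_lit 1) (nat_lit 389) (nat_lit 1) (nat_lit 400) (nat_lit 1) (nat_lit 364) (nat_lit 408) (nat_lit 368)) (XT.nd (nat_lit 78) (nat_lit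 760) (nat_lit 0) (XT.lf (nat_lit 76) (nat_lit 2326932605) (nat_lit 0) (nat_lit 181899170) (nat_lit 836) (nat_lit 2326932605) (nat_lit 379) (nat_lit 1) (nat_lit 378) (nat_lit 1) (nat_lit 389) (nat_lit 1) (nat_lit 365) (nat_lit 408) (nat_lit 367)) (XT.lf (nat_lit 836) (nat_lit 4000714506) (nat_lit 0) (nat_lit 396818929) (nat_lit 760) (nat_lit 396818929) (nat_lit 379) (nat_lit 1) (nat_lit 368) (nat_lit 1) (nat_lit 378) (nat_lit 1) (nat_lit 366) (nat_lit 408) (nat_lit 366))))))))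
noncomputable def ec105 : XT := (XT.nd (nat_lit 1404) (nat_lit 5852) (nat_lit 0) (XT.nd (nat_lit 702) (nat_lit 3040) (nat_lit 0) (XT.nd (nat_lit 312) (nat_lit 2128) (nat_lit 0) (XT.nd (nat_lit 156) (nat_lit 684) (nat_lit 0) (XT.nd (nat_lit 78) (nat_lit 760) (nat_lit 0) (XT.lf (nat_lit 76) (nat_lit 1666937939) (nat_lit 0) (nat_lit 1419356963) (nat_lit 836) (nat_lit 1666937939) (nat_lit 369) (nat_lit 1) (nat_lit 368) (nat_lit 1) (nat_lit 379) (nat_lit 1) (nat_lit 367) (nat_lit 408) (nat_lit 365)) (XT.lf (nat_lit 836) (nat_lit 2670774645) (nat_lit 0) (nat_lit 1020980922) (nat_lit 760) (nat_lit 1020980922) (nat_lit 369) (nat_lit 1) (nat_lit 358) (nat_lit 1) (nat_lit 368) (nat_lit 1) (nat_lit 368) (nat_lit 408) (nat_lit 364))) (XT.nd (nat_lit 78) (nat_lit 684) (nat_lit 0) (XT.lf (nat_lit 76) (nat_lit 1001494073) (nat_lit 0) (nat_lit 2669699228) (nat_lit 836) (nat_lit 1001494073) (nat_lit 359) (nat_lit 1) (nat_lit 358) (nat_lit 1) (nat_lit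 369) (nat_lit 1) (nat_lit 369) (nat_lit 408) (nat_lit 363)) (XT.lf (nat_lit 760) (nat_lit 1330731690) (nat_lit 0) (nat_lit 1651173729) (nat_lit 684) (nat_lit 1651173729) (nat_lit 359) (nat_lit 1) (nat_lit 349) (nat_lit 1) (nat_lit 358) (nat_lit 1) (nat_lit 370) (nat_lit 408) (nat_lit 362)))) (XT.nd (nat_lit 156) (nat_lit 1368) (nat_lit 0) (XT.nd (nat_lit 78) (nat_lit 760) (nat_lit 0) (XT.lf (nat_lit 76) (nat_lit 331421970) (nat_lit 0) (nat_lit 3931230813) (nat_lit 760) (nat_lit 331421970) (nat_lit 350) (nat_lit 1) (nat_lit 349) (nat_lit 1) (nat_lit 359) (nat_lit 1) (nat_lit 371) (nat_lit 408) (nat_lit 361)) (XT.lf (nat_lit 76) (nat_lit 2268873989) (nat_lit 0) (nat_lit 17577733) (nat_lit 760) (nat_lit 2268873989) (nat_lit 340) (nat_lit 1) (nat_lit 339) (nat_lit 1) (nat_lit 349) (nat_lit 1) (nat_lit 372) (nat_lit 408) (nat_lit 360))) (XT.nd (nat_lit 78) (nat_lit 684) (nat_lit 0) (XT.lf (nat_lit 760) (nat_lit 3836668983) (nat_lit 0) (nat_lit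 340247935) (nat_lit 684) (nat_lit 340247935) (nat_lit 340) (nat_lit 1) (nat_lit 330) (nat_lit 1) (nat_lit 339) (nat_lit 1) (nat_lit 373) (nat_lit 408) (nat_lit 359)) (XT.nd (nat_lit 78) (nat_lit 684) (nat_lit 0) (XT.lf (nat_lit 76) (nat_lit 1561964114) (nat_lit 0) (nat_lit 1355325814) (nat_lit 760) (nat_lit 1561964114) (nat_lit 331) (nat_lit 1) (nat_lit 330) (nat_lit 1) (nat_lit 340) (nat_lit 1) (nat_lit 374) (nat_lit 408) (nat_lit 358)) (XT.lf (nat_lit 760) (nat_lit 2416246167) (nat_lit 0) (nat_lit 1012832789) (nat_lit 684) (nat_lit 1012832789) (nat_lit 331) (nat_lit 1) (nat_lit 321) (nat_lit 1) (nat_lit 330) (nat_lit 1) (nat_lit 375) (nat_lit 408) (nat_lit 357)))))) (XT.nd (nat_lit 312) (nat_lit 1748) (nat_lit 0) (XT.nd (nat_lit 156) (nat_lit 684) (nat_lit 0) (XT.nd (nat_lit 78) (nat_lit 608) (nat_lit 0) (XT.lf (nat_lit 76) (nat_lit 853219296) (nat_lit 0) (nat_lit 2698549300) (nat_lit 760) (nat_lit 853219296) (nat_lit 322) (nat_lit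 1) (nat_lit 321) (nat_lit 1) (nat_lit 331) (nat_lit 1) (nat_lit 376) (nat_lit 408) (nat_lit 356)) (XT.lf (nat_lit 684) (nat_lit 992795202) (nat_lit 0) (nat_lit 1687822363) (nat_lit 608) (nat_lit 1687822363) (nat_lit 322) (nat_lit 1) (nat_lit 313) (nat_lit 1) (nat_lit 321) (nat_lit 1) (nat_lit 377) (nat_lit 408) (nat_lit 355))) (XT.nd (nat_lit 78) (nat_lit 684) (nat_lit 0) (XT.lf (nat_lit 76) (nat_lit 143285007) (nat_lit 0) (nat_lit 4045909657) (nat_lit 684) (nat_lit 143285007) (nat_lit 314) (nat_lit 1) (nat_lit 313) (nat_lit 1) (nat_lit 322) (nat_lit 1) (nat_lit 378) (nat_lit 408) (nat_lit 354)) (XT.lf (nat_lit 76) (nat_lit 1934946171) (nat_lit 0) (nat_lit 426754107) (nat_lit 684) (nat_lit 1934946171) (nat_lit 305) (nat_lit 1) (nat_lit 304) (nat_lit 1) (nat_lit 313) (nat_lit 1) (nat_lit 379) (nat_lit 408) (nat_lit 353)))) (XT.nd (nat_lit 156) (nat_lit 1140) (nat_lit 0) (XT.nd (nat_lit 78) (nat_lit 0) (nat_lit 0) (XT.lf (nat_lit 684) (nat_lit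 3134391914) (nat_lit 0) (nat_lit 563497831) (nat_lit 608) (nat_lit 563497831) (nat_lit 305) (nat_lit 1) (nat_lit 296) (nat_lit 1) (nat_lit 304) (nat_lit 1) (nat_lit 380) (nat_lit 408) (nat_lit 352)) (XT.lf (nat_lit 76) (nat_lit 1196277751) (nat_lit 0) (nat_lit 1833857544) (nat_lit 684) (nat_lit 1196277751) (nat_lit 297) (nat_lit 1) (nat_lit 296) (nat_lit 1) (nat_lit 305) (nat_lit 1) (nat_lit 381) (nat_lit 408) (nat_lit 351))) (XT.nd (nat_lit 78) (nat_lit 532) (nat_lit 0) (XT.lf (nat_lit 684) (nat_lit 1653200049) (nat_lit 0) (nat_lit 1269343837) (nat_lit 608) (nat_lit 1269343837) (nat_lit 297) (nat_lit 1) (nat_lit 288) (nat_lit 1) (nat_lit 296) (nat_lit 1) (nat_lit 382) (nat_lit 408) (nat_lit 350)) (XT.nd (nat_lit 78) (nat_lit 532) (nat_lit 0) (XT.lf (nat_lit 76) (nat_lit 458696708) (nat_lit 0) (nat_lit 3240431277) (nat_lit 684) (nat_lit 458696708) (nat_lit 289) (nat_lit 1) (nat_lit 288) (nat_lit 1) (nat_lit 297) (nat_lit 1) (nat_lit 383)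 (nat_lit 408) (nat_lit 349)) (XT.lf (nat_lit 608) (nat_lit 174695739) (nat_lit 0) (nat_lit 1974657908) (nat_lit 532) (nat_lit 1974657908) (nat_lit 289) (nat_lit 1) (nat_lit 281) (nat_lit 1) (nat_lit 288) (nat_lit 1) (nat_lit 384) (nat_lit 408) (nat_lit 348))))))) (XT.nd (nat_lit 702) (nat_lit 2964) (nat_lit 0) (XT.nd (nat_lit 312) (nat_lit 1672) (nat_lit 0) (XT.nd (nat_lit 156) (nat_lit 532) (nat_lit 0) (XT.nd (nat_lit 78) (nat_lit 0) (nat_lit 0) (XT.lf (nat_lit 684) (nat_lit 3539746714) (nat_lit 0) (nat_lit 275473752) (nat_lit 608) (nat_lit 275473752) (nat_lit 281) (nat_lit 1) (nat_lit 272) (nat_lit 1) (nat_lit 280) (nat_lit 1) (nat_lit 385) (nat_lit 408) (nat_lit 347)) (XT.lf (nat_lit 76) (nat_lit 1387224841) (nat_lit 0) (nat_lit 1283098592) (nat_lit 684) (nat_lit 1387224841) (nat_lit 273) (nat_lit 1) (nat_lit 272) (nat_lit 1) (nat_lit 281) (nat_lit 1) (nat_lit 386) (nat_lit 408) (nat_lit 346))) (XT.nd (nat_lit 78) (nat_lit 0) (nat_lit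 0) (XT.lf (nat_lit 608) (nat_lit 2015717038) (nat_lit 0) (nat_lit 1004584848) (nat_lit 532) (nat_lit 1004584848) (nat_lit 273) (nat_lit 1) (nat_lit 265) (nat_lit 1) (nat_lit 272) (nat_lit 1) (nat_lit 387) (nat_lit 408) (nat_lit 345)) (XT.lf (nat_lit 76) (nat_lit 629256192) (nat_lit 0) (nat_lit 2734091484) (nat_lit 608) (nat_lit 629256192) (nat_lit 266) (nat_lit 1) (nat_lit 265) (nat_lit 1) (nat_lit 273) (nat_lit 1) (nat_lit 388) (nat_lit 408) (nat_lit 344)))) (XT.nd (nat_lit 156) (nat_lit 532) (nat_lit 0) (XT.nd (nat_lit 78) (nat_lit 608) (nat_lit 0) (XT.lf (nat_lit 608) (nat_lit 498167437) (nat_lit 0) (nat_lit 1731216934) (nat_lit 532) (nat_lit 1731216934) (nat_lit 266) (nat_lit 1) (nat_lit 258) (nat_lit 1) (nat_lit 265) (nat_lit 1) (nat_lit 389) (nat_lit 408) (nat_lit 343)) (XT.lf (nat_lit 608) (nat_lit 3680176827) (nat_lit 0) (nat_lit 124459717) (nat_lit 532) (nat_lit 124459717) (nat_lit 258) (nat_lit 1) (nat_lit 250) (nat_lit 1) (nat_lit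 257) (nat_lit 1) (nat_lit 390) (nat_lit 408) (nat_lit 342))) (XT.nd (nat_lit 78) (nat_lit 532) (nat_lit 0) (XT.lf (nat_lit 76) (nat_lit 1449410707) (nat_lit 0) (nat_lit 998846247) (nat_lit 608) (nat_lit 1449410707) (nat_lit 251) (nat_lit 1) (nat_lit 250) (nat_lit 1) (nat_lit 258) (nat_lit 1) (nat_lit 391) (nat_lit 408) (nat_lit 341)) (XT.nd (nat_lit 78) (nat_lit 0) (nat_lit 0) (XT.lf (nat_lit 608) (nat_lit 2126215338) (nat_lit 0) (nat_lit 870255559) (nat_lit 532) (nat_lit 870255559) (nat_lit 251) (nat_lit 1) (nat_lit 243) (nat_lit 1) (nat_lit 250) (nat_lit 1) (nat_lit 392) (nat_lit 408) (nat_lit 340)) (XT.lf (nat_lit 76) (nat_lit 677338752) (nat_lit 0) (nat_lit 2481438342) (nat_lit 608) (nat_lit 677338752) (nat_lit 244) (nat_lit 1) (nat_lit 243) (nat_lit 1) (nat_lit 251) (nat_lit 1) (nat_lit 393) (nat_lit 408) (nat_lit 339)))))) (XT.nd (nat_lit 390) (nat_lit 1444) (nat_lit 0) (XT.nd (nat_lit 156) (nat_lit 456) (nat_lit 0) (XT.nd (nat_lit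 78) (nat_lit 608) (nat_lit 0) (XT.lf (nat_lit 532) (nat_lit 581942612) (nat_lit 0) (nat_lit 1611921365) (nat_lit 456) (nat_lit 1611921365) (nat_lit 244) (nat_lit 1) (nat_lit 237) (nat_lit 1) (nat_lit 243) (nat_lit 1) (nat_lit 394) (nat_lit 408) (nat_lit 338)) (XT.lf (nat_lit 608) (nat_lit 3597613561) (nat_lit 0) (nat_lit 89156827) (nat_lit 532) (nat_lit 89156827) (nat_lit 237) (nat_lit 1) (nat_lit 229) (nat_lit 1) (nat_lit 236) (nat_lit 1) (nat_lit 395) (nat_lit 408) (nat_lit 337))) (XT.nd (nat_lit 78) (nat_lit 456) (nat_lit 0) (XT.lf (nat_lit 76) (nat_lit 1403287446) (nat_lit 0) (nat_lit 939538400) (nat_lit 608) (nat_lit 1403287446) (nat_lit 230) (nat_lit 1) (nat_lit 229) (nat_lit 1) (nat_lit 237) (nat_lit 1) (nat_lit 396) (nat_lit 408) (nat_lit 336)) (XT.nd (nat_lit 78) (nat_lit 0) (nat_lit 0) (XT.lf (nat_lit 532) (nat_lit 2024865613) (nat_lit 0) (nat_lit 845948572) (nat_lit 456) (nat_lit 845948572) (nat_lit 230) (nat_lit 1) (nat_lit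 223) (nat_lit 1) (nat_lit 229) (nat_lit 1) (nat_lit 397) (nat_lit 408) (nat_lit 335)) (XT.lf (nat_lit 76) (nat_lit 622537130) (nat_lit 0) (nat_lit 2442650528) (nat_lit 532) (nat_lit 622537130) (nat_lit 224) (nat_lit 1) (nat_lit 223) (nat_lit 1) (nat_lit 230) (nat_lit 1) (nat_lit 398) (nat_lit 408) (nat_lit 334))))) (XT.nd (nat_lit 156) (nat_lit 456) (nat_lit 0) (XT.nd (nat_lit 78) (nat_lit 532) (nat_lit 0) (XT.lf (nat_lit 532) (nat_lit 464502865) (nat_lit 0) (nat_lit 1597219113) (nat_lit 456) (nat_lit 1597219113) (nat_lit 224) (nat_lit 1) (nat_lit 217) (nat_lit 1) (nat_lit 223) (nat_lit 1) (nat_lit 399) (nat_lit 408) (nat_lit 333)) (XT.lf (nat_lit 532) (nat_lit 3328741847) (nat_lit 0) (nat_lit 150920221) (nat_lit 456) (nat_lit 150920221) (nat_lit 217) (nat_lit 1) (nat_lit 210) (nat_lit 1) (nat_lit 216) (nat_lit 1) (nat_lit 400) (nat_lit 408) (nat_lit 332))) (XT.nd (nat_lit 78) (nat_lit 456) (nat_lit 0) (XT.lf (nat_lit 76) (nat_lit 1266745467)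 (nat_lit 0) (nat_lit 1068797225) (nat_lit 532) (nat_lit 1266745467) (nat_lit 211) (nat_lit 1) (nat_lit 210) (nat_lit 1) (nat_lit 217) (nat_lit 1) (nat_lit 401) (nat_lit 408) (nat_lit 331)) (XT.nd (nat_lit 78) (nat_lit 0) (nat_lit 0) (XT.lf (nat_lit 532) (nat_lit 1746801618) (nat_lit 0) (nat_lit 913804663) (nat_lit 456) (nat_lit 913804663) (nat_lit 211) (nat_lit 1) (nat_lit 204) (nat_lit 1) (nat_lit 210) (nat_lit 1) (nat_lit 402) (nat_lit 408) (nat_lit 330)) (XT.lf (nat_lit 76) (nat_lit 481984679) (nat_lit 0) (nat_lit 2582884153) (nat_lit 532) (nat_lit 481984679) (nat_lit 205) (nat_lit 1) (nat_lit 204) (nat_lit 1) (nat_lit 211) (nat_lit 1) (nat_lit 403) (nat_lit 408) (nat_lit 329))))))))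
noncomputable def ec106 : XT := (XT.nd (nat_lit 1404) (nat_lit 3724) (nat_lit 0) (XT.nd (nat_lit 702) (nat_lit 1824) (nat_lit 0) (XT.nd (nat_lit 312) (nat_lit 1216) (nat_lit 0) (XT.nd (nat_lit 156) (nat_lit 380) (nat_lit 0) (XT.nd (nat_lit 78) (nat_lit 532) (nat_lit 0) (XT.lf (nat_lit 456) (nat_lit 179494093) (nat_lit 0) (nat_lit 1670004569) (nat_lit 380) (nat_lit 1670004569) (nat_lit 205) (nat_lit 1) (nat_lit 199) (nat_lit 1) (nat_lit 204) (nat_lit 1) (nat_lit 404) (nat_lit 408) (nat_lit 328)) (XT.lf (nat_lit 532) (nat_lit 2905610735) (nat_lit 0) (nat_lit 293450621) (nat_lit 456) (nat_lit 293450621) (nat_lit 199) (nat_lit 1) (nat_lit 192) (nat_lit 1) (nat_lit 198) (nat_lit 1) (nat_lit 405) (nat_lit 408) (nat_lit 327))) (XT.nd (nat_lit 78) (nat_lit 380) (nat_lit 0) (XT.lf (nat_lit 76) (nat_lit 1055411688) (nat_lit 0) (nat_lit 1354826434) (nat_lit 532) (nat_lit 1055411688) (nat_lit 193) (nat_lit 1) (nat_lit 192) (nat_lit 1) (nat_lit 199)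 (nat_lit 1) (nat_lit 406) (nat_lit 408) (nat_lit 326)) (XT.lf (nat_lit 456) (nat_lit 1322706751) (nat_lit 0) (nat_lit 1058216415) (nat_lit 380) (nat_lit 1058216415) (nat_lit 193) (nat_lit 1) (nat_lit 187) (nat_lit 1) (nat_lit 192) (nat_lit 1) (nat_lit 407) (nat_lit 408) (nat_lit 325)))) (XT.nd (nat_lit 156) (nat_lit 760) (nat_lit 0) (XT.nd (nat_lit 78) (nat_lit 456) (nat_lit 0) (XT.lf (nat_lit 76) (nat_lit 270641873) (nat_lit 0) (nat_lit 2871693656) (nat_lit 456) (nat_lit 270641873) (nat_lit 188) (nat_lit 1) (nat_lit 187) (nat_lit 1) (nat_lit 193) (nat_lit 1) (nat_lit 408) (nat_lit 408) (nat_lit 324)) (XT.lf (nat_lit 76) (nat_lit 1573206228) (nat_lit 0) (nat_lit 240513660) (nat_lit 456) (nat_lit 1573206228) (nat_lit 182) (nat_lit 1) (nat_lit 181) (nat_lit 1) (nat_lit 187) (nat_lit 1) (nat_lit 409) (nat_lit 408) (nat_lit 323))) (XT.nd (nat_lit 78) (nat_lit 380) (nat_lit 0) (XT.lf (nat_lit 456) (nat_lit 2356174577) (nat_lit 0) (nat_lit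 502520877) (nat_lit 380) (nat_lit 502520877) (nat_lit 182) (nat_lit 1) (nat_lit 176) (nat_lit 1) (nat_lit 181) (nat_lit 1) (nat_lit 410) (nat_lit 408) (nat_lit 322)) (XT.nd (nat_lit 78) (nat_lit 380) (nat_lit 0) (XT.lf (nat_lit 76) (nat_lit 782913876) (nat_lit 0) (nat_lit 1769876949) (nat_lit 456) (nat_lit 782913876) (nat_lit 177) (nat_lit 1) (nat_lit 176) (nat_lit 1) (nat_lit 182) (nat_lit 1) (nat_lit 411) (nat_lit 408) (nat_lit 321)) (XT.lf (nat_lit 456) (nat_lit 779333999) (nat_lit 0) (nat_lit 1265565496) (nat_lit 380) (nat_lit 1265565496) (nat_lit 177) (nat_lit 1) (nat_lit 171) (nat_lit 1) (nat_lit 176) (nat_lit 1) (nat_lit 412) (nat_lit 408) (nat_lit 320)))))) (XT.nd (nat_lit 312) (nat_lit 1064) (nat_lit 0) (XT.nd (nat_lit 156) (nat_lit 380) (nat_lit 0) (XT.nd (nat_lit 78) (nat_lit 380) (nat_lit 0) (XT.lf (nat_lit 76) (nat_lit 1550269) (nat_lit 0) (nat_lit 3282518437) (nat_lit 456) (nat_lit 1550269) (nat_lit 172) (nat_lit 1) (nat_lit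 171) (nat_lit 1) (nat_lit 177) (nat_lit 1) (nat_lit 413) (nat_lit 408) (nat_lit 319)) (XT.lf (nat_lit 76) (nat_lit 1245725345) (nat_lit 0) (nat_lit 769284784) (nat_lit 380) (nat_lit 1245725345) (nat_lit 167) (nat_lit 1) (nat_lit 166) (nat_lit 1) (nat_lit 171) (nat_lit 1) (nat_lit 414) (nat_lit 408) (nat_lit 318))) (XT.nd (nat_lit 78) (nat_lit 0) (nat_lit 0) (XT.lf (nat_lit 456) (nat_lit 1704772710) (nat_lit 0) (nat_lit 765733572) (nat_lit 380) (nat_lit 765733572) (nat_lit 167) (nat_lit 1) (nat_lit 161) (nat_lit 1) (nat_lit 166) (nat_lit 1) (nat_lit 415) (nat_lit 408) (nat_lit 317)) (XT.lf (nat_lit 76) (nat_lit 461114951) (nat_lit 0) (nat_lit 2289773270) (nat_lit 456) (nat_lit 461114951) (nat_lit 162) (nat_lit 1) (nat_lit 161) (nat_lit 1) (nat_lit 167) (nat_lit 1) (nat_lit 416) (nat_lit 408) (nat_lit 316)))) (XT.nd (nat_lit 156) (nat_lit 304) (nat_lit 0) (XT.nd (nat_lit 78) (nat_lit 456) (nat_lit 0) (XT.lf (nat_lit 380) (nat_lit 139966774)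 (nat_lit 0) (nat_lit 1523989783) (nat_lit 304) (nat_lit 1523989783) (nat_lit 162) (nat_lit 1) (nat_lit 157) (nat_lit 1) (nat_lit 161) (nat_lit 1) (nat_lit 417) (nat_lit 408) (nat_lit 315)) (XT.lf (nat_lit 456) (nat_lit 2540425450) (nat_lit 0) (nat_lit 311876986) (nat_lit 380) (nat_lit 311876986) (nat_lit 157) (nat_lit 1) (nat_lit 151) (nat_lit 1) (nat_lit 156) (nat_lit 1) (nat_lit 418) (nat_lit 408) (nat_lit 314))) (XT.nd (nat_lit 78) (nat_lit 304) (nat_lit 0) (XT.lf (nat_lit 76) (nat_lit 876668293) (nat_lit 0) (nat_lit 1387194234) (nat_lit 456) (nat_lit 876668293) (nat_lit 152) (nat_lit 1) (nat_lit 151) (nat_lit 1) (nat_lit 157) (nat_lit 1) (nat_lit 419) (nat_lit 408) (nat_lit 313)) (XT.nd (nat_lit 78) (nat_lit 0) (nat_lit 0) (XT.lf (nat_lit 380) (nat_lit 972554562) (nat_lit 0) (nat_lit 1072306205) (nat_lit 304) (nat_lit 1072306205) (nat_lit 152) (nat_lit 1) (nat_lit 147) (nat_lit 1) (nat_lit 151) (nat_lit 1) (nat_lit 420) (nat_lit 408)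 (nat_lit 312)) (XT.lf (nat_lit 76) (nat_lit 100320614) (nat_lit 0) (nat_lit 2893493719) (nat_lit 380) (nat_lit 100320614) (nat_lit 148) (nat_lit 1) (nat_lit 147) (nat_lit 1) (nat_lit 152) (nat_lit 1) (nat_lit 421) (nat_lit 408) (nat_lit 311))))))) (XT.nd (nat_lit 702) (nat_lit 1748) (nat_lit 0) (XT.nd (nat_lit 312) (nat_lit 988) (nat_lit 0) (XT.nd (nat_lit 156) (nat_lit 304) (nat_lit 0) (XT.nd (nat_lit 78) (nat_lit 304) (nat_lit 0) (XT.lf (nat_lit 76) (nat_lit 1251738694) (nat_lit 0) (nat_lit 567629197) (nat_lit 380) (nat_lit 1251738694) (nat_lit 143) (nat_lit 1) (nat_lit 142) (nat_lit 1) (nat_lit 147) (nat_lit 1) (nat_lit 422) (nat_lit 408) (nat_lit 310)) (XT.lf (nat_lit 380) (nat_lit 1725202728) (nat_lit 0) (nat_lit 661601276) (nat_lit 304) (nat_lit 661601276) (nat_lit 143) (nat_lit 1) (nat_lit 138) (nat_lit 1) (nat_lit 142) (nat_lit 1) (nat_lit 423) (nat_lit 408) (nat_lit 309))) (XT.nd (nat_lit 78) (nat_lit 304) (nat_lit 0) (XT.lf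 (nat_lit 76) (nat_lit 475381585) (nat_lit 0) (nat_lit 2075161903) (nat_lit 380) (nat_lit 475381585) (nat_lit 139) (nat_lit 1) (nat_lit 138) (nat_lit 1) (nat_lit 143) (nat_lit 1) (nat_lit 424) (nat_lit 408) (nat_lit 308)) (XT.lf (nat_lit 380) (nat_lit 177856323) (nat_lit 0) (nat_lit 1412880820) (nat_lit 304) (nat_lit 1412880820) (nat_lit 139) (nat_lit 1) (nat_lit 134) (nat_lit 1) (nat_lit 138) (nat_lit 1) (nat_lit 425) (nat_lit 408) (nat_lit 307)))) (XT.nd (nat_lit 156) (nat_lit 608) (nat_lit 0) (XT.nd (nat_lit 78) (nat_lit 0) (nat_lit 0) (XT.lf (nat_lit 380) (nat_lit 2404323242) (nat_lit 0) (nat_lit 288625247) (nat_lit 304) (nat_lit 288625247) (nat_lit 134) (nat_lit 1) (nat_lit 129) (nat_lit 1) (nat_lit 133) (nat_lit 1) (nat_lit 426) (nat_lit 408) (nat_lit 306)) (XT.lf (nat_lit 76) (nat_lit 814376010) (nat_lit 0) (nat_lit 1330874876) (nat_lit 380) (nat_lit 814376010) (nat_lit 130) (nat_lit 1) (nat_lit 129) (nat_lit 1) (nat_lit 134) (nat_lit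 1) (nat_lit 427) (nat_lit 408) (nat_lit 305))) (XT.nd (nat_lit 78) (nat_lit 304) (nat_lit 0) (XT.lf (nat_lit 380) (nat_lit 859632322) (nat_lit 0) (nat_lit 1039153192) (nat_lit 304) (nat_lit 1039153192) (nat_lit 130) (nat_lit 1) (nat_lit 125) (nat_lit 1) (nat_lit 129) (nat_lit 1) (nat_lit 428) (nat_lit 408) (nat_lit 304)) (XT.nd (nat_lit 78) (nat_lit 304) (nat_lit 0) (XT.lf (nat_lit 76) (nat_lit 49950236) (nat_lit 0) (nat_lit 2816663677) (nat_lit 380) (nat_lit 49950236) (nat_lit 126) (nat_lit 1) (nat_lit 125) (nat_lit 1) (nat_lit 130) (nat_lit 1) (nat_lit 429) (nat_lit 408) (nat_lit 303)) (XT.lf (nat_lit 76) (nat_lit 1120197657) (nat_lit 0) (nat_lit 654763887) (nat_lit 304) (nat_lit 1120197657) (nat_lit 122) (nat_lit 1) (nat_lit 121) (nat_lit 1) (nat_lit 125) (nat_lit 1) (nat_lit 430) (nat_lit 408) (nat_lit 302)))))) (XT.nd (nat_lit 312) (nat_lit 836) (nat_lit 0) (XT.nd (nat_lit 156) (nat_lit 608) (nat_lit 0) (XT.nd (nat_lit 78) (nat_lit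 0) (nat_lit 0) (XT.lf (nat_lit 380) (nat_lit 1475854224) (nat_lit 0) (nat_lit 699104874) (nat_lit 304) (nat_lit 699104874) (nat_lit 122) (nat_lit 1) (nat_lit 117) (nat_lit 1) (nat_lit 121) (nat_lit 1) (nat_lit 431) (nat_lit 408) (nat_lit 301)) (XT.lf (nat_lit 76) (nat_lit 358265133) (nat_lit 0) (nat_lit 2136660464) (nat_lit 380) (nat_lit 358265133) (nat_lit 118) (nat_lit 1) (nat_lit 117) (nat_lit 1) (nat_lit 122) (nat_lit 1) (nat_lit 432) (nat_lit 408) (nat_lit 300))) (XT.nd (nat_lit 78) (nat_lit 304) (nat_lit 0) (XT.lf (nat_lit 76) (nat_lit 1395517035) (nat_lit 0) (nat_lit 41411622) (nat_lit 304) (nat_lit 1395517035) (nat_lit 114) (nat_lit 1) (nat_lit 113) (nat_lit 1) (nat_lit 117) (nat_lit 1) (nat_lit 433) (nat_lit 408) (nat_lit 299)) (XT.lf (nat_lit 380) (nat_lit 2031781601) (nat_lit 0) (nat_lit 390068713) (nat_lit 304) (nat_lit 390068713) (nat_lit 114) (nat_lit 1) (nat_lit 109) (nat_lit 1) (nat_lit 113) (nat_lit 1) (nat_lit 434) (nat_lit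 408) (nat_lit 298)))) (XT.nd (nat_lit 156) (nat_lit 608) (nat_lit 0) (XT.nd (nat_lit 78) (nat_lit 228) (nat_lit 0) (XT.lf (nat_lit 76) (nat_lit 636980463) (nat_lit 0) (nat_lit 1517570084) (nat_lit 380) (nat_lit 636980463) (nat_lit 110) (nat_lit 1) (nat_lit 109) (nat_lit 1) (nat_lit 114) (nat_lit 1) (nat_lit 435) (nat_lit 408) (nat_lit 297)) (XT.lf (nat_lit 304) (nat_lit 521015469) (nat_lit 0) (nat_lit 1125165764) (nat_lit 228) (nat_lit 1125165764) (nat_lit 110) (nat_lit 1) (nat_lit 106) (nat_lit 1) (nat_lit 109) (nat_lit 1) (nat_lit 436) (nat_lit 408) (nat_lit 296))) (XT.nd (nat_lit 78) (nat_lit 228) (nat_lit 0) (XT.lf (nat_lit 380) (nat_lit 2532268243) (nat_lit 0) (nat_lit 109582679) (nat_lit 304) (nat_lit 109582679) (nat_lit 106) (nat_lit 1) (nat_lit 101) (nat_lit 1) (nat_lit 105) (nat_lit 1) (nat_lit 437) (nat_lit 408) (nat_lit 295)) (XT.nd (nat_lit 78) (nat_lit 228) (nat_lit 0) (XT.lf (nat_lit 76) (nat_lit 888470369) (nat_lit 0) (nat_lit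 954574777) (nat_lit 380) (nat_lit 888470369) (nat_lit 102) (nat_lit 1) (nat_lit 101) (nat_lit 1) (nat_lit 106) (nat_lit 1) (nat_lit 438) (nat_lit 408) (nat_lit 294)) (XT.lf (nat_lit 304) (nat_lit 1030143479) (nat_lit 0) (nat_lit 840860680) (nat_lit 228) (nat_lit 840860680) (nat_lit 102) (nat_lit 1) (nat_lit 98) (nat_lit 1) (nat_lit 101) (nat_lit 1) (nat_lit 439) (nat_lit 408) (nat_lit 293))))))))
noncomputable def ec107 : XT := (XT.nd (nat_lit 51324) (nat_lit 0) (nat_lit 25080) (XT.nd (nat_lit 50622) (nat_lit 0) (nat_lit 31084) (XT.nd (nat_lit 50232) (nat_lit 0) (nat_lit 30856) (XT.nd (nat_lit 156) (nat_lit 228) (nat_lit 0) (XT.nd (nat_lit 78) (nat_lit 304) (nat_lit 0) (XT.lf (nat_lit 76) (nat_lit 145583580) (nat_lit 0) (nat_lit 2401298543) (nat_lit 304) (nat_lit 145583580) (nat_lit 99) (nat_lit 1) (nat_lit 98) (nat_lit 1) (nat_lit 102) (nat_lit 1) (nat_lit 440) (nat_lit 408) (nat_lit 292)) (XT.lf (nat_lit 76) (nat_lit 1114925837) (nat_lit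 0) (nat_lit 443227185) (nat_lit 304) (nat_lit 1114925837) (nat_lit 95) (nat_lit 1) (nat_lit 94) (nat_lit 1) (nat_lit 98) (nat_lit 1) (nat_lit 441) (nat_lit 408) (nat_lit 291))) (XT.nd (nat_lit 49998) (nat_lit 0) (nat_lit 30856) (XT.lf (nat_lit 304) (nat_lit 1489738166) (nat_lit 0) (nat_lit 582101211) (nat_lit 228) (nat_lit 582101211) (nat_lit 95) (nat_lit 1) (nat_lit 91) (nat_lit 1) (nat_lit 94) (nat_lit 1) (nat_lit 442) (nat_lit 408) (nat_lit 290)) (XT.lf (nat_lit 1900) (nat_lit 1197816624) (nat_lit 0) (nat_lit 1207833157) (nat_lit 1900) (nat_lit 1197816624) (nat_lit 522) (nat_lit 1) (nat_lit 497) (nat_lit 0) (nat_lit 522) (nat_lit 0) (nat_lit 322) (nat_lit 409) (nat_lit 409)))) (XT.nd (nat_lit 156) (nat_lit 0) (nat_lit 76) (XT.nd (nat_lit 78) (nat_lit 0) (nat_lit 76) (XT.lf (nat_lit 1900) (nat_lit 4736347027) (nat_lit 76) (nat_lit 1199886886) (nat_lit 0) (nat_lit 1199886886) (nat_lit 522) (nat_lit 1) (nat_lit 498) (nat_lit 1) (nat_lit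 497) (nat_lit 0) (nat_lit 323) (nat_lit 409) (nat_lit 408)) (XT.lf (nat_lit 1900) (nat_lit 2325568935) (nat_lit 0) (nat_lit 2414944357) (nat_lit 1824) (nat_lit 2325568935) (nat_lit 523) (nat_lit 1) (nat_lit 498) (nat_lit 1) (nat_lit 522) (nat_lit 1) (nat_lit 324) (nat_lit 409) (nat_lit 407))) (XT.nd (nat_lit 78) (nat_lit 0) (nat_lit 76) (XT.lf (nat_lit 1900) (nat_lit 4551711691) (nat_lit 76) (nat_lit 1222696872) (nat_lit 0) (nat_lit 1222696872) (nat_lit 523) (nat_lit 1) (nat_lit 499) (nat_lit 1) (nat_lit 498) (nat_lit 1) (nat_lit 325) (nat_lit 409) (nat_lit 406)) (XT.nd (nat_lit 78) (nat_lit 0) (nat_lit 0) (XT.lf (nat_lit 1900) (nat_lit 2212045629) (nat_lit 0) (nat_lit 2504798816) (nat_lit 1824) (nat_lit 2212045629) (nat_lit 524) (nat_lit 1) (nat_lit 499) (nat_lit 1) (nat_lit 523) (nat_lit 1) (nat_lit 326) (nat_lit 409) (nat_lit 405)) (XT.lf (nat_lit 1900) (nat_lit 4282494247) (nat_lit 76) (nat_lit 1289597453) (nat_lit 0) (nat_lit 1289597453)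 (nat_lit 524) (nat_lit 1) (nat_lit 500) (nat_lit 1) (nat_lit 499) (nat_lit 1) (nat_lit 327) (nat_lit 409) (nat_lit 404)))))) (XT.nd (nat_lit 312) (nat_lit 0) (nat_lit 152) (XT.nd (nat_lit 156) (nat_lit 0) (nat_lit 76) (XT.nd (nat_lit 78) (nat_lit 0) (nat_lit 0) (XT.lf (nat_lit 1900) (nat_lit 2057656379) (nat_lit 0) (nat_lit 2679937042) (nat_lit 1824) (nat_lit 2057656379) (nat_lit 525) (nat_lit 1) (nat_lit 500) (nat_lit 1) (nat_lit 524) (nat_lit 1) (nat_lit 328) (nat_lit 409) (nat_lit 403)) (XT.lf (nat_lit 1900) (nat_lit 3933778174) (nat_lit 76) (nat_lit 1397994649) (nat_lit 0) (nat_lit 1397994649) (nat_lit 525) (nat_lit 1) (nat_lit 501) (nat_lit 1) (nat_lit 500) (nat_lit 1) (nat_lit 329) (nat_lit 409) (nat_lit 402))) (XT.nd (nat_lit 78) (nat_lit 0) (nat_lit 0) (XT.lf (nat_lit 1900) (nat_lit 1864875790) (nat_lit 0) (nat_lit 2935306716) (nat_lit 1824) (nat_lit 1864875790) (nat_lit 526) (nat_lit 1) (nat_lit 501) (nat_lit 1) (nat_lit 525)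 (nat_lit 1) (nat_lit 330) (nat_lit 409) (nat_lit 401)) (XT.lf (nat_lit 1900) (nat_lit 3510414279) (nat_lit 76) (nat_lit 1545412499) (nat_lit 0) (nat_lit 1545412499) (nat_lit 526) (nat_lit 1) (nat_lit 502) (nat_lit 1) (nat_lit 501) (nat_lit 1) (nat_lit 331) (nat_lit 409) (nat_lit 400)))) (XT.nd (nat_lit 156) (nat_lit 0) (nat_lit 76) (XT.nd (nat_lit 78) (nat_lit 0) (nat_lit 0) (XT.lf (nat_lit 1900) (nat_lit 1636064966) (nat_lit 0) (nat_lit 3266085839) (nat_lit 1824) (nat_lit 1636064966) (nat_lit 527) (nat_lit 1) (nat_lit 502) (nat_lit 1) (nat_lit 526) (nat_lit 1) (nat_lit 332) (nat_lit 409) (nat_lit 399)) (XT.lf (nat_lit 1900) (nat_lit 3017030421) (nat_lit 76) (nat_lit 1729488139) (nat_lit 0) (nat_lit 1729488139) (nat_lit 527) (nat_lit 1) (nat_lit 503) (nat_lit 1) (nat_lit 502) (nat_lit 1) (nat_lit 333) (nat_lit 409) (nat_lit 398))) (XT.nd (nat_lit 78) (nat_lit 0) (nat_lit 0) (XT.lf (nat_lit 1900) (nat_lit 1373476263) (nat_lit 0) (nat_lit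 3667673115) (nat_lit 1824) (nat_lit 1373476263) (nat_lit 528) (nat_lit 1) (nat_lit 503) (nat_lit 1) (nat_lit 527) (nat_lit 1) (nat_lit 334) (nat_lit 409) (nat_lit 397)) (XT.nd (nat_lit 78) (nat_lit 0) (nat_lit 76) (XT.lf (nat_lit 1900) (nat_lit 2458040850) (nat_lit 76) (nat_lit 1947967079) (nat_lit 0) (nat_lit 1947967079) (nat_lit 528) (nat_lit 1) (nat_lit 504) (nat_lit 1) (nat_lit 503) (nat_lit 1) (nat_lit 335) (nat_lit 409) (nat_lit 396)) (XT.lf (nat_lit 1900) (nat_lit 1079257845) (nat_lit 0) (nat_lit 4135678727) (nat_lit 1824) (nat_lit 1079257845) (nat_lit 529) (nat_lit 1) (nat_lit 504) (nat_lit 1) (nat_lit 528) (nat_lit 1) (nat_lit 336) (nat_lit 409) (nat_lit 395))))))) (XT.nd (nat_lit 702) (nat_lit 4636) (nat_lit 0) (XT.nd (nat_lit 312) (nat_lit 1672) (nat_lit 0) (XT.nd (nat_lit 156) (nat_lit 0) (nat_lit 76) (XT.nd (nat_lit 78) (nat_lit 0) (nat_lit 76) (XT.lf (nat_lit 1900) (nat_lit 1837655162) (nat_lit 76) (nat_lit 2198698668) (nat_lit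 0) (nat_lit 2198698668) (nat_lit 529) (nat_lit 1) (nat_lit 505) (nat_lit 1) (nat_lit 504) (nat_lit 1) (nat_lit 337) (nat_lit 409) (nat_lit 394)) (XT.lf (nat_lit 1900) (nat_lit 755458057) (nat_lit 0) (nat_lit 4665915485) (nat_lit 1824) (nat_lit 755458057) (nat_lit 530) (nat_lit 1) (nat_lit 505) (nat_lit 1) (nat_lit 529) (nat_lit 1) (nat_lit 338) (nat_lit 409) (nat_lit 393))) (XT.nd (nat_lit 78) (nat_lit 0) (nat_lit 76) (XT.lf (nat_lit 1900) (nat_lit 1159886902) (nat_lit 76) (nat_lit 2479631742) (nat_lit 0) (nat_lit 2479631742) (nat_lit 530) (nat_lit 1) (nat_lit 506) (nat_lit 1) (nat_lit 505) (nat_lit 1) (nat_lit 339) (nat_lit 409) (nat_lit 392)) (XT.lf (nat_lit 1900) (nat_lit 404029623) (nat_lit 0) (nat_lit 5254390319) (nat_lit 1824) (nat_lit 404029623) (nat_lit 531) (nat_lit 1) (nat_lit 506) (nat_lit 1) (nat_lit 530) (nat_lit 1) (nat_lit 340) (nat_lit 409) (nat_lit 391)))) (XT.nd (nat_lit 156) (nat_lit 1824) (nat_lit 0) (XT.nd (nat_lit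 78) (nat_lit 0) (nat_lit 76) (XT.lf (nat_lit 1900) (nat_lit 428561813) (nat_lit 76) (nat_lit 2788810449) (nat_lit 0) (nat_lit 2788810449) (nat_lit 531) (nat_lit 1) (nat_lit 507) (nat_lit 1) (nat_lit 506) (nat_lit 1) (nat_lit 341) (nat_lit 409) (nat_lit 390)) (XT.lf (nat_lit 1900) (nat_lit 26833674) (nat_lit 0) (nat_lit 5897296132) (nat_lit 1824) (nat_lit 26833674) (nat_lit 532) (nat_lit 1) (nat_lit 507) (nat_lit 1) (nat_lit 531) (nat_lit 1) (nat_lit 342) (nat_lit 409) (nat_lit 389))) (XT.nd (nat_lit 78) (nat_lit 0) (nat_lit 0) (XT.lf (nat_lit 1976) (nat_lit 2773985790) (nat_lit 0) (nat_lit 348048857) (nat_lit 1900) (nat_lit 2773985790) (nat_lit 508) (nat_lit 1) (nat_lit 482) (nat_lit 1) (nat_lit 507) (nat_lit 1) (nat_lit 343) (nat_lit 409) (nat_lit 388)) (XT.nd (nat_lit 78) (nat_lit 0) (nat_lit 76) (XT.lf (nat_lit 1976) (nat_lit 5098309081) (nat_lit 76) (nat_lit 371893510) (nat_lit 0) (nat_lit 371893510) (nat_lit 508) (nat_lit 1) (nat_lit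 483) (nat_lit 1) (nat_lit 482) (nat_lit 1) (nat_lit 344) (nat_lit 409) (nat_lit 387)) (XT.lf (nat_lit 1976) (nat_lit 2311849928) (nat_lit 0) (nat_lit 1164867218) (nat_lit 1900) (nat_lit 2311849928) (nat_lit 509) (nat_lit 1) (nat_lit 483) (nat_lit 1) (nat_lit 508) (nat_lit 1) (nat_lit 345) (nat_lit 409) (nat_lit 386)))))) (XT.nd (nat_lit 390) (nat_lit 2736) (nat_lit 0) (XT.nd (nat_lit 156) (nat_lit 1976) (nat_lit 0) (XT.nd (nat_lit 78) (nat_lit 0) (nat_lit 76) (XT.lf (nat_lit 1976) (nat_lit 4150733095) (nat_lit 76) (nat_lit 792602136) (nat_lit 0) (nat_lit 792602136) (nat_lit 509) (nat_lit 1) (nat_lit 484) (nat_lit 1) (nat_lit 483) (nat_lit 1) (nat_lit 346) (nat_lit 409) (nat_lit 385)) (XT.lf (nat_lit 76) (nat_lit 1829775946) (nat_lit 0) (nat_lit 2024248738) (nat_lit 1900) (nat_lit 1829775946) (nat_lit 485) (nat_lit 1) (nat_lit 484) (nat_lit 1) (nat_lit 509) (nat_lit 1) (nat_lit 347) (nat_lit 409) (nat_lit 384))) (XT.nd (nat_lit 78) (nat_lit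 912) (nat_lit 0) (XT.lf (nat_lit 1216) (nat_lit 3164684268) (nat_lit 0) (nat_lit 1233870394) (nat_lit 1140) (nat_lit 1233870394) (nat_lit 485) (nat_lit 1) (nat_lit 469) (nat_lit 1) (nat_lit 484) (nat_lit 1) (nat_lit 348) (nat_lit 409) (nat_lit 383)) (XT.nd (nat_lit 78) (nat_lit 912) (nat_lit 0) (XT.lf (nat_lit 76) (nat_lit 1329280878) (nat_lit 0) (nat_lit 2923084145) (nat_lit 1216) (nat_lit 1329280878) (nat_lit 470) (nat_lit 1) (nat_lit 469) (nat_lit 1) (nat_lit 485) (nat_lit 1) (nat_lit 349) (nat_lit 409) (nat_lit 382)) (XT.lf (nat_lit 988) (nat_lit 2143132400) (nat_lit 0) (nat_lit 1694176471) (nat_lit 912) (nat_lit 1694176471) (nat_lit 470) (nat_lit 1) (nat_lit 457) (nat_lit 1) (nat_lit 469) (nat_lit 1) (nat_lit 350) (nat_lit 409) (nat_lit 381))))) (XT.nd (nat_lit 156) (nat_lit 1824) (nat_lit 0) (XT.nd (nat_lit 78) (nat_lit 912) (nat_lit 0) (XT.lf (nat_lit 76) (nat_lit 811808285) (nat_lit 0) (nat_lit 3858413459) (nat_lit 988) (nat_lit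 811808285) (nat_lit 458) (nat_lit 1) (nat_lit 457) (nat_lit 1) (nat_lit 470) (nat_lit 1) (nat_lit 351) (nat_lit 409) (nat_lit 380)) (XT.lf (nat_lit 988) (nat_lit 1088903027) (nat_lit 0) (nat_lit 2172071835) (nat_lit 912) (nat_lit 2172071835) (nat_lit 458) (nat_lit 1) (nat_lit 445) (nat_lit 1) (nat_lit 457) (nat_lit 1) (nat_lit 352) (nat_lit 409) (nat_lit 379))) (XT.nd (nat_lit 78) (nat_lit 1824) (nat_lit 0) (XT.lf (nat_lit 76) (nat_lit 278731392) (nat_lit 0) (nat_lit 4827419642) (nat_lit 988) (nat_lit 278731392) (nat_lit 446) (nat_lit 1) (nat_lit 445) (nat_lit 1) (nat_lit 458) (nat_lit 1) (nat_lit 353) (nat_lit 409) (nat_lit 378)) (XT.nd (nat_lit 78) (nat_lit 988) (nat_lit 0) (XT.lf (nat_lit 912) (nat_lit 4683600) (nat_lit 0) (nat_lit 2666178110) (nat_lit 836) (nat_lit 2666178110) (nat_lit 446) (nat_lit 1) (nat_lit 434) (nat_lit 1) (nat_lit 445) (nat_lit 1) (nat_lit 354) (nat_lit 409) (nat_lit 377)) (XT.lf (nat_lit 988) (nat_lit 4756241684)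 (nat_lit 0) (nat_lit 266876503) (nat_lit 912) (nat_lit 266876503) (nat_lit 434) (nat_lit 1) (nat_lit 421) (nat_lit 1) (nat_lit 433) (nat_lit 1) (nat_lit 355) (nat_lit 409) (nat_lit 376))))))))
noncomputable def ec108 : XT := (XT.nd (nat_lit 1404) (nat_lit 5928) (nat_lit 0) (XT.nd (nat_lit 702) (nat_lit 3572) (nat_lit 0) (XT.nd (nat_lit 312) (nat_lit 2356) (nat_lit 0) (XT.nd (nat_lit 156) (nat_lit 836) (nat_lit 0) (XT.nd (nat_lit 78) (nat_lit 836) (nat_lit 0) (XT.lf (nat_lit 76) (nat_lit 2075400659) (nat_lit 0) (nat_lit 1092452486) (nat_lit 988) (nat_lit 2075400659) (nat_lit 422) (nat_lit 1) (nat_lit 421) (nat_lit 1) (nat_lit 434) (nat_lit 1) (nat_lit 356) (nat_lit 409) (nat_lit 375)) (XT.lf (nat_lit 912) (nat_lit 3550045145) (nat_lit 0) (nat_lit 823621668) (nat_lit 836) (nat_lit 823621668) (nat_lit 422) (nat_lit 1) (nat_lit 410) (nat_lit 1) (nat_lit 421) (nat_lit 1) (nat_lit 357) (nat_lit 409) (nat_lit 374))) (XT.nd (nat_lit 78) (nat_lit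 836) (nat_lit 0) (XT.lf (nat_lit 76) (nat_lit 1468779135) (nat_lit 0) (nat_lit 2214205183) (nat_lit 912) (nat_lit 1468779135) (nat_lit 411) (nat_lit 1) (nat_lit 410) (nat_lit 1) (nat_lit 422) (nat_lit 1) (nat_lit 358) (nat_lit 409) (nat_lit 373)) (XT.lf (nat_lit 912) (nat_lit 2322513805) (nat_lit 0) (nat_lit 1392165820) (nat_lit 836) (nat_lit 1392165820) (nat_lit 411) (nat_lit 1) (nat_lit 399) (nat_lit 1) (nat_lit 410) (nat_lit 1) (nat_lit 359) (nat_lit 409) (nat_lit 372)))) (XT.nd (nat_lit 156) (nat_lit 1596) (nat_lit 0) (XT.nd (nat_lit 78) (nat_lit 760) (nat_lit 0) (XT.lf (nat_lit 76) (nat_lit 852074073) (nat_lit 0) (nat_lit 3358358447) (nat_lit 912) (nat_lit 852074073) (nat_lit 400) (nat_lit 1) (nat_lit 399) (nat_lit 1) (nat_lit 411) (nat_lit 1) (nat_lit 360) (nat_lit 409) (nat_lit 371)) (XT.lf (nat_lit 836) (nat_lit 1075812844) (nat_lit 0) (nat_lit 1971395532) (nat_lit 760) (nat_lit 1971395532) (nat_lit 400) (nat_lit 1) (nat_lit 389)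 (nat_lit 1) (nat_lit 399) (nat_lit 1) (nat_lit 361) (nat_lit 409) (nat_lit 370))) (XT.nd (nat_lit 78) (nat_lit 1596) (nat_lit 0) (XT.lf (nat_lit 76) (nat_lit 226336625) (nat_lit 0) (nat_lit 4522749110) (nat_lit 836) (nat_lit 226336625) (nat_lit 390) (nat_lit 1) (nat_lit 389) (nat_lit 1) (nat_lit 400) (nat_lit 1) (nat_lit 362) (nat_lit 409) (nat_lit 369)) (XT.nd (nat_lit 78) (nat_lit 760) (nat_lit 0) (XT.lf (nat_lit 76) (nat_lit 2373471257) (nat_lit 0) (nat_lit 185537154) (nat_lit 836) (nat_lit 2373471257) (nat_lit 379) (nat_lit 1) (nat_lit 378) (nat_lit 1) (nat_lit 389) (nat_lit 1) (nat_lit 363) (nat_lit 409) (nat_lit 368)) (XT.lf (nat_lit 836) (nat_lit 4080728796) (nat_lit 0) (nat_lit 404755308) (nat_lit 760) (nat_lit 404755308) (nat_lit 379) (nat_lit 1) (nat_lit 368) (nat_lit 1) (nat_lit 378) (nat_lit 1) (nat_lit 364) (nat_lit 409) (nat_lit 367)))))) (XT.nd (nat_lit 312) (nat_lit 2128) (nat_lit 0) (XT.nd (nat_lit 156) (nat_lit 684)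 (nat_lit 0) (XT.nd (nat_lit 78) (nat_lit 760) (nat_lit 0) (XT.lf (nat_lit 76) (nat_lit 1700276698) (nat_lit 0) (nat_lit 1447744103) (nat_lit 836) (nat_lit 1700276698) (nat_lit 369) (nat_lit 1) (nat_lit 368) (nat_lit 1) (nat_lit 379) (nat_lit 1) (nat_lit 365) (nat_lit 409) (nat_lit 366)) (XT.lf (nat_lit 836) (nat_lit 2724190137) (nat_lit 0) (nat_lit 1041400541) (nat_lit 760) (nat_lit 1041400541) (nat_lit 369) (nat_lit 1) (nat_lit 358) (nat_lit 1) (nat_lit 368) (nat_lit 1) (nat_lit 366) (nat_lit 409) (nat_lit 365))) (XT.nd (nat_lit 78) (nat_lit 684) (nat_lit 0) (XT.lf (nat_lit 76) (nat_lit 1021523954) (nat_lit 0) (nat_lit 2723093213) (nat_lit 836) (nat_lit 1021523954) (nat_lit 359) (nat_lit 1) (nat_lit 358) (nat_lit 1) (nat_lit 369) (nat_lit 1) (nat_lit 367) (nat_lit 409) (nat_lit 364)) (XT.lf (nat_lit 760) (nat_lit 1357346323) (nat_lit 0) (nat_lit 1684197203) (nat_lit 684) (nat_lit 1684197203) (nat_lit 359) (nat_lit 1) (nat_lit 349) (nat_lit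 1) (nat_lit 358) (nat_lit 1) (nat_lit 368) (nat_lit 409) (nat_lit 363)))) (XT.nd (nat_lit 156) (nat_lit 1368) (nat_lit 0) (XT.nd (nat_lit 78) (nat_lit 760) (nat_lit 0) (XT.lf (nat_lit 76) (nat_lit 338050409) (nat_lit 0) (nat_lit 4009855429) (nat_lit 760) (nat_lit 338050409) (nat_lit 350) (nat_lit 1) (nat_lit 349) (nat_lit 1) (nat_lit 359) (nat_lit 1) (nat_lit 369) (nat_lit 409) (nat_lit 362)) (XT.lf (nat_lit 76) (nat_lit 2314251469) (nat_lit 0) (nat_lit 17929287) (nat_lit 760) (nat_lit 2314251469) (nat_lit 340) (nat_lit 1) (nat_lit 339) (nat_lit 1) (nat_lit 349) (nat_lit 1) (nat_lit 370) (nat_lit 409) (nat_lit 361))) (XT.nd (nat_lit 78) (nat_lit 684) (nat_lit 0) (XT.lf (nat_lit 760) (nat_lit 3913402362) (nat_lit 0) (nat_lit 347052894) (nat_lit 684) (nat_lit 347052894) (nat_lit 340) (nat_lit 1) (nat_lit 330) (nat_lit 1) (nat_lit 339) (nat_lit 1) (nat_lit 371) (nat_lit 409) (nat_lit 360)) (XT.nd (nat_lit 78) (nat_lit 684) (nat_lit 0) (XT.lf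 (nat_lit 76) (nat_lit 1593203396) (nat_lit 0) (nat_lit 1382432331) (nat_lit 760) (nat_lit 1593203396) (nat_lit 331) (nat_lit 1) (nat_lit 330) (nat_lit 1) (nat_lit 340) (nat_lit 1) (nat_lit 372) (nat_lit 409) (nat_lit 359)) (XT.lf (nat_lit 760) (nat_lit 2464571090) (nat_lit 0) (nat_lit 1033089445) (nat_lit 684) (nat_lit 1033089445) (nat_lit 331) (nat_lit 1) (nat_lit 321) (nat_lit 1) (nat_lit 330) (nat_lit 1) (nat_lit 373) (nat_lit 409) (nat_lit 358))))))) (XT.nd (nat_lit 702) (nat_lit 2888) (nat_lit 0) (XT.nd (nat_lit 312) (nat_lit 1748) (nat_lit 0) (XT.nd (nat_lit 156) (nat_lit 684) (nat_lit 0) (XT.nd (nat_lit 78) (nat_lit 608) (nat_lit 0) (XT.lf (nat_lit 76) (nat_lit 870283682) (nat_lit 0) (nat_lit 2752520286) (nat_lit 760) (nat_lit 870283682) (nat_lit 322) (nat_lit 1) (nat_lit 321) (nat_lit 1) (nat_lit 331) (nat_lit 1) (nat_lit 374) (nat_lit 409) (nat_lit 357)) (XT.lf (nat_lit 684) (nat_lit 1012651106) (nat_lit 0) (nat_lit 1721578810)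 (nat_lit 608) (nat_lit 1721578810) (nat_lit 322) (nat_lit 1) (nat_lit 313) (nat_lit 1) (nat_lit 321) (nat_lit 1) (nat_lit 375) (nat_lit 409) (nat_lit 356))) (XT.nd (nat_lit 78) (nat_lit 684) (nat_lit 0) (XT.lf (nat_lit 76) (nat_lit 146150707) (nat_lit 0) (nat_lit 4126827850) (nat_lit 684) (nat_lit 146150707) (nat_lit 314) (nat_lit 1) (nat_lit 313) (nat_lit 1) (nat_lit 322) (nat_lit 1) (nat_lit 376) (nat_lit 409) (nat_lit 355)) (XT.lf (nat_lit 76) (nat_lit 1973645094) (nat_lit 0) (nat_lit 435289189) (nat_lit 684) (nat_lit 1973645094) (nat_lit 305) (nat_lit 1) (nat_lit 304) (nat_lit 1) (nat_lit 313) (nat_lit 1) (nat_lit 377) (nat_lit 409) (nat_lit 354)))) (XT.nd (nat_lit 156) (nat_lit 1140) (nat_lit 0) (XT.nd (nat_lit 78) (nat_lit 0) (nat_lit 0) (XT.lf (nat_lit 684) (nat_lit 3197079753) (nat_lit 0) (nat_lit 574767788) (nat_lit 608) (nat_lit 574767788) (nat_lit 305) (nat_lit 1) (nat_lit 296) (nat_lit 1) (nat_lit 304) (nat_lit 1) (nat_lit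 378) (nat_lit 409) (nat_lit 353)) (XT.lf (nat_lit 76) (nat_lit 1220203306) (nat_lit 0) (nat_lit 1870534694) (nat_lit 684) (nat_lit 1220203306) (nat_lit 297) (nat_lit 1) (nat_lit 296) (nat_lit 1) (nat_lit 305) (nat_lit 1) (nat_lit 379) (nat_lit 409) (nat_lit 352))) (XT.nd (nat_lit 78) (nat_lit 532) (nat_lit 0) (XT.lf (nat_lit 684) (nat_lit 1686264050) (nat_lit 0) (nat_lit 1294730713) (nat_lit 608) (nat_lit 1294730713) (nat_lit 297) (nat_lit 1) (nat_lit 288) (nat_lit 1) (nat_lit 296) (nat_lit 1) (nat_lit 380) (nat_lit 409) (nat_lit 351)) (XT.nd (nat_lit 78) (nat_lit 532) (nat_lit 0) (XT.lf (nat_lit 76) (nat_lit 467870642) (nat_lit 0) (nat_lit 3305239902) (nat_lit 684) (nat_lit 467870642) (nat_lit 289) (nat_lit 1) (nat_lit 288) (nat_lit 1) (nat_lit 297) (nat_lit 1) (nat_lit 381) (nat_lit 409) (nat_lit 350)) (XT.lf (nat_lit 608) (nat_lit 178189654) (nat_lit 0) (nat_lit 2014151066) (nat_lit 532) (nat_lit 2014151066) (nat_lit 289) (nat_lit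 1) (nat_lit 281) (nat_lit 1) (nat_lit 288) (nat_lit 1) (nat_lit 382) (nat_lit 409) (nat_lit 349)))))) (XT.nd (nat_lit 312) (nat_lit 1672) (nat_lit 0) (XT.nd (nat_lit 156) (nat_lit 532) (nat_lit 0) (XT.nd (nat_lit 78) (nat_lit 0) (nat_lit 0) (XT.lf (nat_lit 684) (nat_lit 3610541648) (nat_lit 0) (nat_lit 280983227) (nat_lit 608) (nat_lit 280983227) (nat_lit 281) (nat_lit 1) (nat_lit 272) (nat_lit 1) (nat_lit 280) (nat_lit 1) (nat_lit 383) (nat_lit 409) (nat_lit 348)) (XT.lf (nat_lit 76) (nat_lit 1414969338) (nat_lit 0) (nat_lit 1308760564) (nat_lit 684) (nat_lit 1414969338) (nat_lit 273) (nat_lit 1) (nat_lit 272) (nat_lit 1) (nat_lit 281) (nat_lit 1) (nat_lit 384) (nat_lit 409) (nat_lit 347))) (XT.nd (nat_lit 78) (nat_lit 0) (nat_lit 0) (XT.lf (nat_lit 608) (nat_lit 2056031379) (nat_lit 0) (nat_lit 1024676545) (nat_lit 532) (nat_lit 1024676545) (nat_lit 273) (nat_lit 1) (nat_lit 265) (nat_lit 1) (nat_lit 272) (nat_lit 1) (nat_lit 385) (nat_lit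 409) (nat_lit 346)) (XT.lf (nat_lit 76) (nat_lit 641841316) (nat_lit 0) (nat_lit 2788773314) (nat_lit 608) (nat_lit 641841316) (nat_lit 266) (nat_lit 1) (nat_lit 265) (nat_lit 1) (nat_lit 273) (nat_lit 1) (nat_lit 386) (nat_lit 409) (nat_lit 345)))) (XT.nd (nat_lit 156) (nat_lit 532) (nat_lit 0) (XT.nd (nat_lit 78) (nat_lit 608) (nat_lit 0) (XT.lf (nat_lit 608) (nat_lit 508130786) (nat_lit 0) (nat_lit 1765841273) (nat_lit 532) (nat_lit 1765841273) (nat_lit 266) (nat_lit 1) (nat_lit 258) (nat_lit 1) (nat_lit 265) (nat_lit 1) (nat_lit 387) (nat_lit 409) (nat_lit 344)) (XT.lf (nat_lit 608) (nat_lit 3753780364) (nat_lit 0) (nat_lit 126948911) (nat_lit 532) (nat_lit 126948911) (nat_lit 258) (nat_lit 1) (nat_lit 250) (nat_lit 1) (nat_lit 257) (nat_lit 1) (nat_lit 388) (nat_lit 409) (nat_lit 343))) (XT.nd (nat_lit 78) (nat_lit 532) (nat_lit 0) (XT.lf (nat_lit 76) (nat_lit 1478398921) (nat_lit 0) (nat_lit 1018823172) (nat_lit 608) (nat_lit 1478398921)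 (nat_lit 251) (nat_lit 1) (nat_lit 250) (nat_lit 1) (nat_lit 258) (nat_lit 1) (nat_lit 389) (nat_lit 409) (nat_lit 342)) (XT.nd (nat_lit 78) (nat_lit 0) (nat_lit 0) (XT.lf (nat_lit 608) (nat_lit 2168739645) (nat_lit 0) (nat_lit 887660670) (nat_lit 532) (nat_lit 887660670) (nat_lit 251) (nat_lit 1) (nat_lit 243) (nat_lit 1) (nat_lit 250) (nat_lit 1) (nat_lit 390) (nat_lit 409) (nat_lit 341)) (XT.lf (nat_lit 76) (nat_lit 690885527) (nat_lit 0) (nat_lit 2531067109) (nat_lit 608) (nat_lit 690885527) (nat_lit 244) (nat_lit 1) (nat_lit 243) (nat_lit 1) (nat_lit 251) (nat_lit 1) (nat_lit 391) (nat_lit 409) (nat_lit 340))))))))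
noncomputable def ec109 : XT := (XT.nd (nat_lit 1404) (nat_lit 4180) (nat_lit 0) (XT.nd (nat_lit 702) (nat_lit 2128) (nat_lit 0) (XT.nd (nat_lit 312) (nat_lit 1444) (nat_lit 0) (XT.nd (nat_lit 156) (nat_lit 456) (nat_lit 0) (XT.nd (nat_lit 78) (nat_lit 608) (nat_lit 0) (XT.lf (nat_lit 532) (nat_lit 593581465) (nat_lit 0) (nat_lit 1644159792) (nat_lit 456) (nat_lit 1644159792) (nat_lit 244) (nat_lit 1) (nat_lit 237) (nat_lit 1) (nat_lit 243) (nat_lit 1) (nat_lit 392) (nat_lit 409) (nat_lit 339)) (XT.lf (nat_lit 608) (nat_lit 3669565832) (nat_lit 0) (nat_lit 90939963) (nat_lit 532) (nat_lit 90939963) (nat_lit 237) (nat_lit 1) (nat_lit 229) (nat_lit 1) (nat_lit 236) (nat_lit 1) (nat_lit 393) (nat_lit 409) (nat_lit 338))) (XT.nd (nat_lit 78) (nat_lit 456) (nat_lit 0) (XT.lf (nat_lit 76) (nat_lit 1431353195) (nat_lit 0) (nat_lit 958329168) (nat_lit 608) (nat_lit 1431353195) (nat_lit 230) (nat_lit 1) (nat_lit 229) (nat_lit 1) (nat_lit 237)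 (nat_lit 1) (nat_lit 394) (nat_lit 409) (nat_lit 337)) (XT.lf (nat_lit 532) (nat_lit 2065362925) (nat_lit 0) (nat_lit 862867544) (nat_lit 456) (nat_lit 862867544) (nat_lit 230) (nat_lit 1) (nat_lit 223) (nat_lit 1) (nat_lit 229) (nat_lit 1) (nat_lit 395) (nat_lit 409) (nat_lit 336)))) (XT.nd (nat_lit 156) (nat_lit 988) (nat_lit 0) (XT.nd (nat_lit 78) (nat_lit 456) (nat_lit 0) (XT.lf (nat_lit 76) (nat_lit 634987873) (nat_lit 0) (nat_lit 2491503538) (nat_lit 532) (nat_lit 634987873) (nat_lit 224) (nat_lit 1) (nat_lit 223) (nat_lit 1) (nat_lit 230) (nat_lit 1) (nat_lit 396) (nat_lit 409) (nat_lit 335)) (XT.lf (nat_lit 532) (nat_lit 473792922) (nat_lit 0) (nat_lit 1629163495) (nat_lit 456) (nat_lit 1629163495) (nat_lit 224) (nat_lit 1) (nat_lit 217) (nat_lit 1) (nat_lit 223) (nat_lit 1) (nat_lit 397) (nat_lit 409) (nat_lit 334))) (XT.nd (nat_lit 78) (nat_lit 456) (nat_lit 0) (XT.lf (nat_lit 532) (nat_lit 3395316684) (nat_lit 0) (nat_lit 153938625)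 (nat_lit 456) (nat_lit 153938625) (nat_lit 217) (nat_lit 1) (nat_lit 210) (nat_lit 1) (nat_lit 216) (nat_lit 1) (nat_lit 398) (nat_lit 409) (nat_lit 333)) (XT.nd (nat_lit 78) (nat_lit 456) (nat_lit 0) (XT.lf (nat_lit 76) (nat_lit 1292080377) (nat_lit 0) (nat_lit 1090173169) (nat_lit 532) (nat_lit 1292080377) (nat_lit 211) (nat_lit 1) (nat_lit 210) (nat_lit 1) (nat_lit 217) (nat_lit 1) (nat_lit 399) (nat_lit 409) (nat_lit 332)) (XT.lf (nat_lit 532) (nat_lit 1781737651) (nat_lit 0) (nat_lit 932080756) (nat_lit 456) (nat_lit 932080756) (nat_lit 211) (nat_lit 1) (nat_lit 204) (nat_lit 1) (nat_lit 210) (nat_lit 1) (nat_lit 400) (nat_lit 409) (nat_lit 331)))))) (XT.nd (nat_lit 312) (nat_lit 1216) (nat_lit 0) (XT.nd (nat_lit 156) (nat_lit 532) (nat_lit 0) (XT.nd (nat_lit 78) (nat_lit 380) (nat_lit 0) (XT.lf (nat_lit 76) (nat_lit 491624373) (nat_lit 0) (nat_lit 2634541836) (nat_lit 532) (nat_lit 491624373) (nat_lit 205) (nat_lit 1) (nat_lit 204)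 (nat_lit 1) (nat_lit 211) (nat_lit 1) (nat_lit 401) (nat_lit 409) (nat_lit 330)) (XT.lf (nat_lit 456) (nat_lit 183083975) (nat_lit 0) (nat_lit 1703404661) (nat_lit 380) (nat_lit 1703404661) (nat_lit 205) (nat_lit 1) (nat_lit 199) (nat_lit 1) (nat_lit 204) (nat_lit 1) (nat_lit 402) (nat_lit 409) (nat_lit 329))) (XT.nd (nat_lit 78) (nat_lit 0) (nat_lit 0) (XT.lf (nat_lit 532) (nat_lit 2963722950) (nat_lit 0) (nat_lit 299319634) (nat_lit 456) (nat_lit 299319634) (nat_lit 199) (nat_lit 1) (nat_lit 192) (nat_lit 1) (nat_lit 198) (nat_lit 1) (nat_lit 403) (nat_lit 409) (nat_lit 328)) (XT.lf (nat_lit 76) (nat_lit 1076519922) (nat_lit 0) (nat_lit 1381922963) (nat_lit 532) (nat_lit 1076519922) (nat_lit 193) (nat_lit 1) (nat_lit 192) (nat_lit 1) (nat_lit 199) (nat_lit 1) (nat_lit 404) (nat_lit 409) (nat_lit 327)))) (XT.nd (nat_lit 156) (nat_lit 836) (nat_lit 0) (XT.nd (nat_lit 78) (nat_lit 0) (nat_lit 0) (XT.lf (nat_lit 456) (nat_lit 1349160886)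 (nat_lit 0) (nat_lit 1079380743) (nat_lit 380) (nat_lit 1079380743) (nat_lit 193) (nat_lit 1) (nat_lit 187) (nat_lit 1) (nat_lit 192) (nat_lit 1) (nat_lit 405) (nat_lit 409) (nat_lit 326)) (XT.lf (nat_lit 76) (nat_lit 276054710) (nat_lit 0) (nat_lit 2929127529) (nat_lit 456) (nat_lit 276054710) (nat_lit 188) (nat_lit 1) (nat_lit 187) (nat_lit 1) (nat_lit 193) (nat_lit 1) (nat_lit 406) (nat_lit 409) (nat_lit 325))) (XT.nd (nat_lit 78) (nat_lit 380) (nat_lit 0) (XT.lf (nat_lit 76) (nat_lit 1604670352) (nat_lit 0) (nat_lit 245323933) (nat_lit 456) (nat_lit 1604670352) (nat_lit 182) (nat_lit 1) (nat_lit 181) (nat_lit 1) (nat_lit 187) (nat_lit 1) (nat_lit 407) (nat_lit 409) (nat_lit 324)) (XT.nd (nat_lit 78) (nat_lit 0) (nat_lit 0) (XT.lf (nat_lit 456) (nat_lit 2403298068) (nat_lit 0) (nat_lit 512571294) (nat_lit 380) (nat_lit 512571294) (nat_lit 182) (nat_lit 1) (nat_lit 176) (nat_lit 1) (nat_lit 181) (nat_lit 1) (nat_lit 408) (nat_lit 409)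 (nat_lit 323)) (XT.lf (nat_lit 76) (nat_lit 798572154) (nat_lit 0) (nat_lit 1805274488) (nat_lit 456) (nat_lit 798572154) (nat_lit 177) (nat_lit 1) (nat_lit 176) (nat_lit 1) (nat_lit 182) (nat_lit 1) (nat_lit 409) (nat_lit 409) (nat_lit 322))))))) (XT.nd (nat_lit 702) (nat_lit 1976) (nat_lit 0) (XT.nd (nat_lit 312) (nat_lit 1064) (nat_lit 0) (XT.nd (nat_lit 156) (nat_lit 760) (nat_lit 0) (XT.nd (nat_lit 78) (nat_lit 0) (nat_lit 0) (XT.lf (nat_lit 456) (nat_lit 794920679) (nat_lit 0) (nat_lit 1290876805) (nat_lit 380) (nat_lit 1290876805) (nat_lit 177) (nat_lit 1) (nat_lit 171) (nat_lit 1) (nat_lit 176) (nat_lit 1) (nat_lit 410) (nat_lit 409) (nat_lit 321)) (XT.lf (nat_lit 76) (nat_lit 1581274) (nat_lit 0) (nat_lit 3348168806) (nat_lit 456) (nat_lit 1581274) (nat_lit 172) (nat_lit 1) (nat_lit 171) (nat_lit 1) (nat_lit 177) (nat_lit 1) (nat_lit 411) (nat_lit 409) (nat_lit 320))) (XT.nd (nat_lit 78) (nat_lit 380) (nat_lit 0) (XT.lf (nat_lit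 76) (nat_lit 1270639852) (nat_lit 0) (nat_lit 784670479) (nat_lit 380) (nat_lit 1270639852) (nat_lit 167) (nat_lit 1) (nat_lit 166) (nat_lit 1) (nat_lit 171) (nat_lit 1) (nat_lit 412) (nat_lit 409) (nat_lit 319)) (XT.lf (nat_lit 456) (nat_lit 1738868164) (nat_lit 0) (nat_lit 781048244) (nat_lit 380) (nat_lit 781048244) (nat_lit 167) (nat_lit 1) (nat_lit 161) (nat_lit 1) (nat_lit 166) (nat_lit 1) (nat_lit 413) (nat_lit 409) (nat_lit 318)))) (XT.nd (nat_lit 156) (nat_lit 760) (nat_lit 0) (XT.nd (nat_lit 78) (nat_lit 304) (nat_lit 0) (XT.lf (nat_lit 76) (nat_lit 470337250) (nat_lit 0) (nat_lit 2335568735) (nat_lit 456) (nat_lit 470337250) (nat_lit 162) (nat_lit 1) (nat_lit 161) (nat_lit 1) (nat_lit 167) (nat_lit 1) (nat_lit 414) (nat_lit 409) (nat_lit 317)) (XT.lf (nat_lit 380) (nat_lit 142766110) (nat_lit 0) (nat_lit 1554469578) (nat_lit 304) (nat_lit 1554469578) (nat_lit 162) (nat_lit 1) (nat_lit 157) (nat_lit 1) (nat_lit 161) (nat_lit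 1) (nat_lit 415) (nat_lit 409) (nat_lit 316))) (XT.nd (nat_lit 78) (nat_lit 304) (nat_lit 0) (XT.lf (nat_lit 456) (nat_lit 2591233959) (nat_lit 0) (nat_lit 318114525) (nat_lit 380) (nat_lit 318114525) (nat_lit 157) (nat_lit 1) (nat_lit 151) (nat_lit 1) (nat_lit 156) (nat_lit 1) (nat_lit 416) (nat_lit 409) (nat_lit 315)) (XT.nd (nat_lit 78) (nat_lit 304) (nat_lit 0) (XT.lf (nat_lit 76) (nat_lit 894201659) (nat_lit 0) (nat_lit 1414938119) (nat_lit 456) (nat_lit 894201659) (nat_lit 152) (nat_lit 1) (nat_lit 151) (nat_lit 1) (nat_lit 157) (nat_lit 1) (nat_lit 417) (nat_lit 409) (nat_lit 314)) (XT.lf (nat_lit 380) (nat_lit 992005653) (nat_lit 0) (nat_lit 1093752329) (nat_lit 304) (nat_lit 1093752329) (nat_lit 152) (nat_lit 1) (nat_lit 147) (nat_lit 1) (nat_lit 151) (nat_lit 1) (nat_lit 418) (nat_lit 409) (nat_lit 313)))))) (XT.nd (nat_lit 390) (nat_lit 988) (nat_lit 0) (XT.nd (nat_lit 156) (nat_lit 608) (nat_lit 0) (XT.nd (nat_lit 78) (nat_lit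 380) (nat_lit 0) (XT.lf (nat_lit 76) (nat_lit 102327026) (nat_lit 0) (nat_lit 2951363593) (nat_lit 380) (nat_lit 102327026) (nat_lit 148) (nat_lit 1) (nat_lit 147) (nat_lit 1) (nat_lit 152) (nat_lit 1) (nat_lit 419) (nat_lit 409) (nat_lit 312)) (XT.lf (nat_lit 76) (nat_lit 1276773468) (nat_lit 0) (nat_lit 578981781) (nat_lit 380) (nat_lit 1276773468) (nat_lit 143) (nat_lit 1) (nat_lit 142) (nat_lit 1) (nat_lit 147) (nat_lit 1) (nat_lit 420) (nat_lit 409) (nat_lit 311))) (XT.nd (nat_lit 78) (nat_lit 304) (nat_lit 0) (XT.lf (nat_lit 380) (nat_lit 1759706783) (nat_lit 0) (nat_lit 674833301) (nat_lit 304) (nat_lit 674833301) (nat_lit 143) (nat_lit 1) (nat_lit 138) (nat_lit 1) (nat_lit 142) (nat_lit 1) (nat_lit 421) (nat_lit 409) (nat_lit 310)) (XT.nd (nat_lit 78) (nat_lit 304) (nat_lit 0) (XT.lf (nat_lit 76) (nat_lit 484889217) (nat_lit 0) (nat_lit 2116665141) (nat_lit 380) (nat_lit 484889217) (nat_lit 139) (nat_lit 1) (nat_lit 138) (nat_lit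 1) (nat_lit 143) (nat_lit 1) (nat_lit 422) (nat_lit 409) (nat_lit 309)) (XT.lf (nat_lit 380) (nat_lit 181413450) (nat_lit 0) (nat_lit 1441138436) (nat_lit 304) (nat_lit 1441138436) (nat_lit 139) (nat_lit 1) (nat_lit 134) (nat_lit 1) (nat_lit 138) (nat_lit 1) (nat_lit 423) (nat_lit 409) (nat_lit 308))))) (XT.nd (nat_lit 156) (nat_lit 608) (nat_lit 0) (XT.nd (nat_lit 78) (nat_lit 0) (nat_lit 0) (XT.lf (nat_lit 380) (nat_lit 2452409707) (nat_lit 0) (nat_lit 294397751) (nat_lit 304) (nat_lit 294397751) (nat_lit 134) (nat_lit 1) (nat_lit 129) (nat_lit 1) (nat_lit 133) (nat_lit 1) (nat_lit 424) (nat_lit 409) (nat_lit 307)) (XT.lf (nat_lit 76) (nat_lit 830663530) (nat_lit 0) (nat_lit 1357492374) (nat_lit 380) (nat_lit 830663530) (nat_lit 130) (nat_lit 1) (nat_lit 129) (nat_lit 1) (nat_lit 134) (nat_lit 1) (nat_lit 425) (nat_lit 409) (nat_lit 306))) (XT.nd (nat_lit 78) (nat_lit 304) (nat_lit 0) (XT.lf (nat_lit 380) (nat_lit 876824969) (nat_lit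 0) (nat_lit 1059936256) (nat_lit 304) (nat_lit 1059936256) (nat_lit 130) (nat_lit 1) (nat_lit 125) (nat_lit 1) (nat_lit 129) (nat_lit 1) (nat_lit 426) (nat_lit 409) (nat_lit 305)) (XT.nd (nat_lit 78) (nat_lit 304) (nat_lit 0) (XT.lf (nat_lit 76) (nat_lit 50949241) (nat_lit 0) (nat_lit 2872996950) (nat_lit 380) (nat_lit 50949241) (nat_lit 126) (nat_lit 1) (nat_lit 125) (nat_lit 1) (nat_lit 130) (nat_lit 1) (nat_lit 427) (nat_lit 409) (nat_lit 304)) (XT.lf (nat_lit 76) (nat_lit 1142601610) (nat_lit 0) (nat_lit 667859165) (nat_lit 304) (nat_lit 1142601610) (nat_lit 122) (nat_lit 1) (nat_lit 121) (nat_lit 1) (nat_lit 125) (nat_lit 1) (nat_lit 428) (nat_lit 409) (nat_lit 303))))))))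
noncomputable def ec110 : XT := (XT.nd (nat_lit 51246) (nat_lit 0) (nat_lit 29716) (XT.nd (nat_lit 702) (nat_lit 532) (nat_lit 0) (XT.nd (nat_lit 312) (nat_lit 836) (nat_lit 0) (XT.nd (nat_lit 156) (nat_lit 608) (nat_lit 0) (XT.nd (nat_lit 78) (nat_lit 0) (nat_lit 0) (XT.lf (nat_lit 380) (nat_lit 1505371309) (nat_lit 0) (nat_lit 713086971) (nat_lit 304) (nat_lit 713086971) (nat_lit 122) (nat_lit 1) (nat_lit 117) (nat_lit 1) (nat_lit 121) (nat_lit 1) (nat_lit 429) (nat_lit 409) (nat_lit 302)) (XT.lf (nat_lit 76) (nat_lit 365430436) (nat_lit 0) (nat_lit 2179393673) (nat_lit 380) (nat_lit 365430436) (nat_lit 118) (nat_lit 1) (nat_lit 117) (nat_lit 1) (nat_lit 122) (nat_lit 1) (nat_lit 430) (nat_lit 409) (nat_lit 301))) (XT.nd (nat_lit 78) (nat_lit 304) (nat_lit 0) (XT.lf (nat_lit 76) (nat_lit 1423427376) (nat_lit 0) (nat_lit 42239855) (nat_lit 304) (nat_lit 1423427376) (nat_lit 114) (nat_lit 1) (nat_lit 113) (nat_lit 1) (nat_lit 117) (nat_lit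 1) (nat_lit 431) (nat_lit 409) (nat_lit 300)) (XT.lf (nat_lit 380) (nat_lit 2072417233) (nat_lit 0) (nat_lit 397870087) (nat_lit 304) (nat_lit 397870087) (nat_lit 114) (nat_lit 1) (nat_lit 109) (nat_lit 1) (nat_lit 113) (nat_lit 1) (nat_lit 432) (nat_lit 409) (nat_lit 299)))) (XT.nd (nat_lit 156) (nat_lit 608) (nat_lit 0) (XT.nd (nat_lit 78) (nat_lit 228) (nat_lit 0) (XT.lf (nat_lit 76) (nat_lit 649720073) (nat_lit 0) (nat_lit 1547921486) (nat_lit 380) (nat_lit 649720073) (nat_lit 110) (nat_lit 1) (nat_lit 109) (nat_lit 1) (nat_lit 114) (nat_lit 1) (nat_lit 433) (nat_lit 409) (nat_lit 298)) (XT.lf (nat_lit 304) (nat_lit 531435778) (nat_lit 0) (nat_lit 1147669079) (nat_lit 228) (nat_lit 1147669079) (nat_lit 110) (nat_lit 1) (nat_lit 106) (nat_lit 1) (nat_lit 109) (nat_lit 1) (nat_lit 434) (nat_lit 409) (nat_lit 297))) (XT.nd (nat_lit 78) (nat_lit 228) (nat_lit 0) (XT.lf (nat_lit 380) (nat_lit 2582913608) (nat_lit 0) (nat_lit 111774333)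 (nat_lit 304) (nat_lit 111774333) (nat_lit 106) (nat_lit 1) (nat_lit 101) (nat_lit 1) (nat_lit 105) (nat_lit 1) (nat_lit 435) (nat_lit 409) (nat_lit 296)) (XT.nd (nat_lit 78) (nat_lit 228) (nat_lit 0) (XT.lf (nat_lit 76) (nat_lit 906239776) (nat_lit 0) (nat_lit 973666273) (nat_lit 380) (nat_lit 906239776) (nat_lit 102) (nat_lit 1) (nat_lit 101) (nat_lit 1) (nat_lit 106) (nat_lit 1) (nat_lit 436) (nat_lit 409) (nat_lit 295)) (XT.lf (nat_lit 304) (nat_lit 1050746349) (nat_lit 0) (nat_lit 857677894) (nat_lit 228) (nat_lit 857677894) (nat_lit 102) (nat_lit 1) (nat_lit 98) (nat_lit 1) (nat_lit 101) (nat_lit 1) (nat_lit 437) (nat_lit 409) (nat_lit 294)))))) (XT.nd (nat_lit 50154) (nat_lit 0) (nat_lit 30856) (XT.nd (nat_lit 156) (nat_lit 228) (nat_lit 0) (XT.nd (nat_lit 78) (nat_lit 304) (nat_lit 0) (XT.lf (nat_lit 76) (nat_lit 148495252) (nat_lit 0) (nat_lit 2449324513) (nat_lit 304) (nat_lit 148495252) (nat_lit 99) (nat_lit 1) (nat_lit 98)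 (nat_lit 1) (nat_lit 102) (nat_lit 1) (nat_lit 438) (nat_lit 409) (nat_lit 293)) (XT.lf (nat_lit 76) (nat_lit 1137224353) (nat_lit 0) (nat_lit 452091729) (nat_lit 304) (nat_lit 1137224353) (nat_lit 95) (nat_lit 1) (nat_lit 94) (nat_lit 1) (nat_lit 98) (nat_lit 1) (nat_lit 439) (nat_lit 409) (nat_lit 292))) (XT.nd (nat_lit 78) (nat_lit 0) (nat_lit 0) (XT.lf (nat_lit 304) (nat_lit 1519532929) (nat_lit 0) (nat_lit 593743235) (nat_lit 228) (nat_lit 593743235) (nat_lit 95) (nat_lit 1) (nat_lit 91) (nat_lit 1) (nat_lit 94) (nat_lit 1) (nat_lit 440) (nat_lit 409) (nat_lit 291)) (XT.lf (nat_lit 76) (nat_lit 384678144) (nat_lit 0) (nat_lit 1918327523) (nat_lit 304) (nat_lit 384678144) (nat_lit 92) (nat_lit 1) (nat_lit 91) (nat_lit 1) (nat_lit 95) (nat_lit 1) (nat_lit 441) (nat_lit 409) (nat_lit 290)))) (XT.nd (nat_lit 156) (nat_lit 0) (nat_lit 76) (XT.nd (nat_lit 78) (nat_lit 0) (nat_lit 0) (XT.lf (nat_lit 1900) (nat_lit 1221772957) (nat_lit 0)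 (nat_lit 1231989820) (nat_lit 1900) (nat_lit 1221772957) (nat_lit 522) (nat_lit 1) (nat_lit 497) (nat_lit 0) (nat_lit 522) (nat_lit 0) (nat_lit 320) (nat_lit 410) (nat_lit 410)) (XT.lf (nat_lit 1900) (nat_lit 4831073968) (nat_lit 76) (nat_lit 1223884624) (nat_lit 0) (nat_lit 1223884624) (nat_lit 522) (nat_lit 1) (nat_lit 498) (nat_lit 1) (nat_lit 497) (nat_lit 0) (nat_lit 321) (nat_lit 410) (nat_lit 409))) (XT.nd (nat_lit 78) (nat_lit 0) (nat_lit 0) (XT.lf (nat_lit 1900) (nat_lit 2372080314) (nat_lit 0) (nat_lit 2463243244) (nat_lit 1824) (nat_lit 2372080314) (nat_lit 523) (nat_lit 1) (nat_lit 498) (nat_lit 1) (nat_lit 522) (nat_lit 1) (nat_lit 322) (nat_lit 410) (nat_lit 408)) (XT.nd (nat_lit 78) (nat_lit 0) (nat_lit 76) (XT.lf (nat_lit 1900) (nat_lit 4642745925) (nat_lit 76) (nat_lit 1247150809) (nat_lit 0) (nat_lit 1247150809) (nat_lit 523) (nat_lit 1) (nat_lit 499) (nat_lit 1) (nat_lit 498) (nat_lit 1) (nat_lit 323) (nat_lit 410)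 (nat_lit 407)) (XT.lf (nat_lit 1900) (nat_lit 2256286541) (nat_lit 0) (nat_lit 2554894792) (nat_lit 1824) (nat_lit 2256286541) (nat_lit 524) (nat_lit 1) (nat_lit 499) (nat_lit 1) (nat_lit 523) (nat_lit 1) (nat_lit 324) (nat_lit 410) (nat_lit 406))))))) (XT.nd (nat_lit 702) (nat_lit 1292) (nat_lit 0) (XT.nd (nat_lit 312) (nat_lit 0) (nat_lit 152) (XT.nd (nat_lit 156) (nat_lit 0) (nat_lit 76) (XT.nd (nat_lit 78) (nat_lit 0) (nat_lit 76) (XT.lf (nat_lit 1900) (nat_lit 4368144132) (nat_lit 76) (nat_lit 1315389402) (nat_lit 0) (nat_lit 1315389402) (nat_lit 524) (nat_lit 1) (nat_lit 500) (nat_lit 1) (nat_lit 499) (nat_lit 1) (nat_lit 325) (nat_lit 410) (nat_lit 405)) (XT.lf (nat_lit 1900) (nat_lit 2098809507) (nat_lit 0) (nat_lit 2733535783) (nat_lit 1824) (nat_lit 2098809507) (nat_lit 525) (nat_lit 1) (nat_lit 500) (nat_lit 1) (nat_lit 524) (nat_lit 1) (nat_lit 326) (nat_lit 410) (nat_lit 404))) (XT.nd (nat_lit 78) (nat_lit 0) (nat_lit 76)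 (XT.lf (nat_lit 1900) (nat_lit 4012453737) (nat_lit 76) (nat_lit 1425954542) (nat_lit 0) (nat_lit 1425954542) (nat_lit 525) (nat_lit 1) (nat_lit 501) (nat_lit 1) (nat_lit 500) (nat_lit 1) (nat_lit 327) (nat_lit 410) (nat_lit 403)) (XT.lf (nat_lit 1900) (nat_lit 1902173305) (nat_lit 0) (nat_lit 2994012851) (nat_lit 1824) (nat_lit 1902173305) (nat_lit 526) (nat_lit 1) (nat_lit 501) (nat_lit 1) (nat_lit 525) (nat_lit 1) (nat_lit 328) (nat_lit 410) (nat_lit 402)))) (XT.nd (nat_lit 156) (nat_lit 0) (nat_lit 76) (XT.nd (nat_lit 78) (nat_lit 0) (nat_lit 76) (XT.lf (nat_lit 1900) (nat_lit 3580622564) (nat_lit 76) (nat_lit 1576320749) (nat_lit 0) (nat_lit 1576320749) (nat_lit 526) (nat_lit 1) (nat_lit 502) (nat_lit 1) (nat_lit 501) (nat_lit 1) (nat_lit 329) (nat_lit 410) (nat_lit 401)) (XT.lf (nat_lit 1900) (nat_lit 1668786265) (nat_lit 0) (nat_lit 3331407556) (nat_lit 1824) (nat_lit 1668786265) (nat_lit 527) (nat_lit 1) (nat_lit 502) (nat_lit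 1) (nat_lit 526) (nat_lit 1) (nat_lit 330) (nat_lit 410) (nat_lit 400))) (XT.nd (nat_lit 78) (nat_lit 0) (nat_lit 76) (XT.lf (nat_lit 1900) (nat_lit 3077371030) (nat_lit 76) (nat_lit 1764077902) (nat_lit 0) (nat_lit 1764077902) (nat_lit 527) (nat_lit 1) (nat_lit 503) (nat_lit 1) (nat_lit 502) (nat_lit 1) (nat_lit 331) (nat_lit 410) (nat_lit 399)) (XT.nd (nat_lit 78) (nat_lit 0) (nat_lit 0) (XT.lf (nat_lit 1900) (nat_lit 1400945789) (nat_lit 0) (nat_lit 3741026577) (nat_lit 1824) (nat_lit 1400945789) (nat_lit 528) (nat_lit 1) (nat_lit 503) (nat_lit 1) (nat_lit 527) (nat_lit 1) (nat_lit 332) (nat_lit 410) (nat_lit 398)) (XT.lf (nat_lit 1900) (nat_lit 2507201667) (nat_lit 76) (nat_lit 1986926421) (nat_lit 0) (nat_lit 1986926421) (nat_lit 528) (nat_lit 1) (nat_lit 504) (nat_lit 1) (nat_lit 503) (nat_lit 1) (nat_lit 333) (nat_lit 410) (nat_lit 397)))))) (XT.nd (nat_lit 390) (nat_lit 1672) (nat_lit 0) (XT.nd (nat_lit 156) (nat_lit 0) (nat_lit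 76) (XT.nd (nat_lit 78) (nat_lit 0) (nat_lit 0) (XT.lf (nat_lit 1900) (nat_lit 1100843002) (nat_lit 0) (nat_lit 4218392302) (nat_lit 1824) (nat_lit 1100843002) (nat_lit 529) (nat_lit 1) (nat_lit 504) (nat_lit 1) (nat_lit 528) (nat_lit 1) (nat_lit 334) (nat_lit 410) (nat_lit 396)) (XT.lf (nat_lit 1900) (nat_lit 1874408266) (nat_lit 76) (nat_lit 2242672641) (nat_lit 0) (nat_lit 2242672641) (nat_lit 529) (nat_lit 1) (nat_lit 505) (nat_lit 1) (nat_lit 504) (nat_lit 1) (nat_lit 335) (nat_lit 410) (nat_lit 395))) (XT.nd (nat_lit 78) (nat_lit 0) (nat_lit 0) (XT.lf (nat_lit 1900) (nat_lit 770567218) (nat_lit 0) (nat_lit 4759233794) (nat_lit 1824) (nat_lit 770567218) (nat_lit 530) (nat_lit 1) (nat_lit 505) (nat_lit 1) (nat_lit 529) (nat_lit 1) (nat_lit 336) (nat_lit 410) (nat_lit 394)) (XT.nd (nat_lit 78) (nat_lit 0) (nat_lit 76) (XT.lf (nat_lit 1900) (nat_lit 1183084640) (nat_lit 76) (nat_lit 2529224377) (nat_lit 0) (nat_lit 2529224377) (nat_lit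 530) (nat_lit 1) (nat_lit 506) (nat_lit 1) (nat_lit 505) (nat_lit 1) (nat_lit 337) (nat_lit 410) (nat_lit 393)) (XT.lf (nat_lit 1900) (nat_lit 412110215) (nat_lit 0) (nat_lit 5359478125) (nat_lit 1824) (nat_lit 412110215) (nat_lit 531) (nat_lit 1) (nat_lit 506) (nat_lit 1) (nat_lit 530) (nat_lit 1) (nat_lit 338) (nat_lit 410) (nat_lit 392))))) (XT.nd (nat_lit 156) (nat_lit 1824) (nat_lit 0) (XT.nd (nat_lit 78) (nat_lit 0) (nat_lit 76) (XT.lf (nat_lit 1900) (nat_lit 437133049) (nat_lit 76) (nat_lit 2844586658) (nat_lit 0) (nat_lit 2844586658) (nat_lit 531) (nat_lit 1) (nat_lit 507) (nat_lit 1) (nat_lit 506) (nat_lit 1) (nat_lit 339) (nat_lit 410) (nat_lit 391)) (XT.lf (nat_lit 1900) (nat_lit 27370348) (nat_lit 0) (nat_lit 6015242054) (nat_lit 1824) (nat_lit 27370348) (nat_lit 532) (nat_lit 1) (nat_lit 507) (nat_lit 1) (nat_lit 531) (nat_lit 1) (nat_lit 340) (nat_lit 410) (nat_lit 390))) (XT.nd (nat_lit 78) (nat_lit 0) (nat_lit 0) (XT.lf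 (nat_lit 1976) (nat_lit 2829465506) (nat_lit 0) (nat_lit 355009834) (nat_lit 1900) (nat_lit 2829465506) (nat_lit 508) (nat_lit 1) (nat_lit 482) (nat_lit 1) (nat_lit 507) (nat_lit 1) (nat_lit 341) (nat_lit 410) (nat_lit 389)) (XT.nd (nat_lit 78) (nat_lit 0) (nat_lit 76) (XT.lf (nat_lit 1976) (nat_lit 5200275263) (nat_lit 76) (nat_lit 379331381) (nat_lit 0) (nat_lit 379331381) (nat_lit 508) (nat_lit 1) (nat_lit 483) (nat_lit 1) (nat_lit 482) (nat_lit 1) (nat_lit 342) (nat_lit 410) (nat_lit 388)) (XT.lf (nat_lit 1976) (nat_lit 2358086926) (nat_lit 0) (nat_lit 1188164562) (nat_lit 1900) (nat_lit 2358086926) (nat_lit 509) (nat_lit 1) (nat_lit 483) (nat_lit 1) (nat_lit 508) (nat_lit 1) (nat_lit 343) (nat_lit 410) (nat_lit 387))))))))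
noncomputable def ec111 : XT := (XT.nd (nat_lit 1404) (nat_lit 7372) (nat_lit 0) (XT.nd (nat_lit 702) (nat_lit 4256) (nat_lit 0) (XT.nd (nat_lit 312) (nat_lit 2660) (nat_lit 0) (XT.nd (nat_lit 156) (nat_lit 1064) (nat_lit 0) (XT.nd (nat_lit 78) (nat_lit 0) (nat_lit 76) (XT.lf (nat_lit 1976) (nat_lit 4233747757) (nat_lit 76) (nat_lit 808454179) (nat_lit 0) (nat_lit 808454179) (nat_lit 509) (nat_lit 1) (nat_lit 484) (nat_lit 1) (nat_lit 483) (nat_lit 1) (nat_lit 344) (nat_lit 410) (nat_lit 386)) (XT.lf (nat_lit 76) (nat_lit 1866371465) (nat_lit 0) (nat_lit 2064733713) (nat_lit 1900) (nat_lit 1866371465) (nat_lit 485) (nat_lit 1) (nat_lit 484) (nat_lit 1) (nat_lit 509) (nat_lit 1) (nat_lit 345) (nat_lit 410) (nat_lit 385))) (XT.nd (nat_lit 78) (nat_lit 0) (nat_lit 0) (XT.lf (nat_lit 1216) (nat_lit 3227977954) (nat_lit 0) (nat_lit 1258547802) (nat_lit 1140) (nat_lit 1258547802) (nat_lit 485) (nat_lit 1) (nat_lit 469) (nat_lit 1) (nat_lit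 484) (nat_lit 1) (nat_lit 346) (nat_lit 410) (nat_lit 384)) (XT.lf (nat_lit 76) (nat_lit 1355866496) (nat_lit 0) (nat_lit 2981545828) (nat_lit 1216) (nat_lit 1355866496) (nat_lit 470) (nat_lit 1) (nat_lit 469) (nat_lit 1) (nat_lit 485) (nat_lit 1) (nat_lit 347) (nat_lit 410) (nat_lit 383)))) (XT.nd (nat_lit 156) (nat_lit 1748) (nat_lit 0) (XT.nd (nat_lit 78) (nat_lit 0) (nat_lit 0) (XT.lf (nat_lit 988) (nat_lit 2185995048) (nat_lit 0) (nat_lit 1728060000) (nat_lit 912) (nat_lit 1728060000) (nat_lit 470) (nat_lit 1) (nat_lit 457) (nat_lit 1) (nat_lit 469) (nat_lit 1) (nat_lit 348) (nat_lit 410) (nat_lit 382)) (XT.lf (nat_lit 76) (nat_lit 828044451) (nat_lit 0) (nat_lit 3935581728) (nat_lit 988) (nat_lit 828044451) (nat_lit 458) (nat_lit 1) (nat_lit 457) (nat_lit 1) (nat_lit 470) (nat_lit 1) (nat_lit 349) (nat_lit 410) (nat_lit 381))) (XT.nd (nat_lit 78) (nat_lit 836) (nat_lit 0) (XT.lf (nat_lit 988) (nat_lit 1110681088) (nat_lit 0) (nat_lit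 2215513272) (nat_lit 912) (nat_lit 2215513272) (nat_lit 458) (nat_lit 1) (nat_lit 445) (nat_lit 1) (nat_lit 457) (nat_lit 1) (nat_lit 350) (nat_lit 410) (nat_lit 380)) (XT.nd (nat_lit 78) (nat_lit 836) (nat_lit 0) (XT.lf (nat_lit 76) (nat_lit 284306020) (nat_lit 0) (nat_lit 4923968034) (nat_lit 988) (nat_lit 284306020) (nat_lit 446) (nat_lit 1) (nat_lit 445) (nat_lit 1) (nat_lit 458) (nat_lit 1) (nat_lit 351) (nat_lit 410) (nat_lit 379)) (XT.lf (nat_lit 912) (nat_lit 4777272) (nat_lit 0) (nat_lit 2719501672) (nat_lit 836) (nat_lit 2719501672) (nat_lit 446) (nat_lit 1) (nat_lit 434) (nat_lit 1) (nat_lit 445) (nat_lit 1) (nat_lit 352) (nat_lit 410) (nat_lit 378)))))) (XT.nd (nat_lit 312) (nat_lit 2432) (nat_lit 0) (XT.nd (nat_lit 156) (nat_lit 836) (nat_lit 0) (XT.nd (nat_lit 78) (nat_lit 0) (nat_lit 0) (XT.lf (nat_lit 988) (nat_lit 4851366518) (nat_lit 0) (nat_lit 272214033) (nat_lit 912) (nat_lit 272214033) (nat_lit 434) (nat_lit 1) (nat_lit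 421) (nat_lit 1) (nat_lit 433) (nat_lit 1) (nat_lit 353) (nat_lit 410) (nat_lit 377)) (XT.lf (nat_lit 76) (nat_lit 2116908672) (nat_lit 0) (nat_lit 1114301536) (nat_lit 988) (nat_lit 2116908672) (nat_lit 422) (nat_lit 1) (nat_lit 421) (nat_lit 1) (nat_lit 434) (nat_lit 1) (nat_lit 354) (nat_lit 410) (nat_lit 376))) (XT.nd (nat_lit 78) (nat_lit 0) (nat_lit 0) (XT.lf (nat_lit 912) (nat_lit 3621046047) (nat_lit 0) (nat_lit 840094102) (nat_lit 836) (nat_lit 840094102) (nat_lit 422) (nat_lit 1) (nat_lit 410) (nat_lit 1) (nat_lit 421) (nat_lit 1) (nat_lit 355) (nat_lit 410) (nat_lit 375)) (XT.lf (nat_lit 76) (nat_lit 1498154718) (nat_lit 0) (nat_lit 2258489287) (nat_lit 912) (nat_lit 1498154718) (nat_lit 411) (nat_lit 1) (nat_lit 410) (nat_lit 1) (nat_lit 422) (nat_lit 1) (nat_lit 356) (nat_lit 410) (nat_lit 374)))) (XT.nd (nat_lit 156) (nat_lit 1596) (nat_lit 0) (XT.nd (nat_lit 78) (nat_lit 0) (nat_lit 0) (XT.lf (nat_lit 912) (nat_lit 2368964081)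 (nat_lit 0) (nat_lit 1420009136) (nat_lit 836) (nat_lit 1420009136) (nat_lit 411) (nat_lit 1) (nat_lit 399) (nat_lit 1) (nat_lit 410) (nat_lit 1) (nat_lit 357) (nat_lit 410) (nat_lit 373)) (XT.lf (nat_lit 76) (nat_lit 869115555) (nat_lit 0) (nat_lit 3425525616) (nat_lit 912) (nat_lit 869115555) (nat_lit 400) (nat_lit 1) (nat_lit 399) (nat_lit 1) (nat_lit 411) (nat_lit 1) (nat_lit 358) (nat_lit 410) (nat_lit 372))) (XT.nd (nat_lit 78) (nat_lit 836) (nat_lit 0) (XT.lf (nat_lit 836) (nat_lit 1097329100) (nat_lit 0) (nat_lit 2010823443) (nat_lit 760) (nat_lit 2010823443) (nat_lit 400) (nat_lit 1) (nat_lit 389) (nat_lit 1) (nat_lit 399) (nat_lit 1) (nat_lit 359) (nat_lit 410) (nat_lit 371)) (XT.nd (nat_lit 78) (nat_lit 836) (nat_lit 0) (XT.lf (nat_lit 76) (nat_lit 230863358) (nat_lit 0) (nat_lit 4613204092) (nat_lit 836) (nat_lit 230863358) (nat_lit 390) (nat_lit 1) (nat_lit 389) (nat_lit 1) (nat_lit 400) (nat_lit 1) (nat_lit 360) (nat_lit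 410) (nat_lit 370)) (XT.lf (nat_lit 76) (nat_lit 2420940682) (nat_lit 0) (nat_lit 189247897) (nat_lit 836) (nat_lit 2420940682) (nat_lit 379) (nat_lit 1) (nat_lit 378) (nat_lit 1) (nat_lit 389) (nat_lit 1) (nat_lit 361) (nat_lit 410) (nat_lit 369))))))) (XT.nd (nat_lit 702) (nat_lit 3724) (nat_lit 0) (XT.nd (nat_lit 312) (nat_lit 2128) (nat_lit 0) (XT.nd (nat_lit 156) (nat_lit 760) (nat_lit 0) (XT.nd (nat_lit 78) (nat_lit 0) (nat_lit 0) (XT.lf (nat_lit 836) (nat_lit 4162343372) (nat_lit 0) (nat_lit 412850414) (nat_lit 760) (nat_lit 412850414) (nat_lit 379) (nat_lit 1) (nat_lit 368) (nat_lit 1) (nat_lit 378) (nat_lit 1) (nat_lit 362) (nat_lit 410) (nat_lit 368)) (XT.lf (nat_lit 76) (nat_lit 1734282232) (nat_lit 0) (nat_lit 1476698985) (nat_lit 836) (nat_lit 1734282232) (nat_lit 369) (nat_lit 1) (nat_lit 368) (nat_lit 1) (nat_lit 379) (nat_lit 1) (nat_lit 363) (nat_lit 410) (nat_lit 367))) (XT.nd (nat_lit 78) (nat_lit 0) (nat_lit 0) (XT.lf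 (nat_lit 836) (nat_lit 2778673940) (nat_lit 0) (nat_lit 1062228552) (nat_lit 760) (nat_lit 1062228552) (nat_lit 369) (nat_lit 1) (nat_lit 358) (nat_lit 1) (nat_lit 368) (nat_lit 1) (nat_lit 364) (nat_lit 410) (nat_lit 366)) (XT.lf (nat_lit 76) (nat_lit 1041954433) (nat_lit 0) (nat_lit 2777555077) (nat_lit 836) (nat_lit 1041954433) (nat_lit 359) (nat_lit 1) (nat_lit 358) (nat_lit 1) (nat_lit 369) (nat_lit 1) (nat_lit 365) (nat_lit 410) (nat_lit 365)))) (XT.nd (nat_lit 156) (nat_lit 1444) (nat_lit 0) (XT.nd (nat_lit 78) (nat_lit 0) (nat_lit 0) (XT.lf (nat_lit 760) (nat_lit 1384493250) (nat_lit 0) (nat_lit 1717881147) (nat_lit 684) (nat_lit 1717881147) (nat_lit 359) (nat_lit 1) (nat_lit 349) (nat_lit 1) (nat_lit 358) (nat_lit 1) (nat_lit 366) (nat_lit 410) (nat_lit 364)) (XT.lf (nat_lit 76) (nat_lit 344811417) (nat_lit 0) (nat_lit 4090052538) (nat_lit 760) (nat_lit 344811417) (nat_lit 350) (nat_lit 1) (nat_lit 349) (nat_lit 1) (nat_lit 359)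 (nat_lit 1) (nat_lit 367) (nat_lit 410) (nat_lit 363))) (XT.nd (nat_lit 78) (nat_lit 684) (nat_lit 0) (XT.lf (nat_lit 76) (nat_lit 2360536499) (nat_lit 0) (nat_lit 18287873) (nat_lit 760) (nat_lit 2360536499) (nat_lit 340) (nat_lit 1) (nat_lit 339) (nat_lit 1) (nat_lit 349) (nat_lit 1) (nat_lit 368) (nat_lit 410) (nat_lit 362)) (XT.nd (nat_lit 78) (nat_lit 0) (nat_lit 0) (XT.lf (nat_lit 760) (nat_lit 3991670409) (nat_lit 0) (nat_lit 353993952) (nat_lit 684) (nat_lit 353993952) (nat_lit 340) (nat_lit 1) (nat_lit 330) (nat_lit 1) (nat_lit 339) (nat_lit 1) (nat_lit 369) (nat_lit 410) (nat_lit 361)) (XT.lf (nat_lit 76) (nat_lit 1625067464) (nat_lit 0) (nat_lit 1410080977) (nat_lit 760) (nat_lit 1625067464) (nat_lit 331) (nat_lit 1) (nat_lit 330) (nat_lit 1) (nat_lit 340) (nat_lit 1) (nat_lit 370) (nat_lit 410) (nat_lit 360)))))) (XT.nd (nat_lit 390) (nat_lit 1748) (nat_lit 0) (XT.nd (nat_lit 156) (nat_lit 1292) (nat_lit 0) (XT.nd (nat_lit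 78) (nat_lit 0) (nat_lit 0) (XT.lf (nat_lit 760) (nat_lit 2513862512) (nat_lit 0) (nat_lit 1053751234) (nat_lit 684) (nat_lit 1053751234) (nat_lit 331) (nat_lit 1) (nat_lit 321) (nat_lit 1) (nat_lit 330) (nat_lit 1) (nat_lit 371) (nat_lit 410) (nat_lit 359)) (XT.lf (nat_lit 76) (nat_lit 887689356) (nat_lit 0) (nat_lit 2807570692) (nat_lit 760) (nat_lit 887689356) (nat_lit 322) (nat_lit 1) (nat_lit 321) (nat_lit 1) (nat_lit 331) (nat_lit 1) (nat_lit 372) (nat_lit 410) (nat_lit 358))) (XT.nd (nat_lit 78) (nat_lit 684) (nat_lit 0) (XT.lf (nat_lit 684) (nat_lit 1032904128) (nat_lit 0) (nat_lit 1756010387) (nat_lit 608) (nat_lit 1756010387) (nat_lit 322) (nat_lit 1) (nat_lit 313) (nat_lit 1) (nat_lit 321) (nat_lit 1) (nat_lit 373) (nat_lit 410) (nat_lit 357)) (XT.nd (nat_lit 78) (nat_lit 684) (nat_lit 0) (XT.lf (nat_lit 76) (nat_lit 149073722) (nat_lit 0) (nat_lit 4209364407) (nat_lit 684) (nat_lit 149073722) (nat_lit 314) (nat_lit 1) (nat_lit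 313) (nat_lit 1) (nat_lit 322) (nat_lit 1) (nat_lit 374) (nat_lit 410) (nat_lit 356)) (XT.lf (nat_lit 76) (nat_lit 2013117996) (nat_lit 0) (nat_lit 443994973) (nat_lit 684) (nat_lit 2013117996) (nat_lit 305) (nat_lit 1) (nat_lit 304) (nat_lit 1) (nat_lit 313) (nat_lit 1) (nat_lit 375) (nat_lit 410) (nat_lit 355))))) (XT.nd (nat_lit 156) (nat_lit 1140) (nat_lit 0) (XT.nd (nat_lit 78) (nat_lit 0) (nat_lit 0) (XT.lf (nat_lit 684) (nat_lit 3261021348) (nat_lit 0) (nat_lit 586263144) (nat_lit 608) (nat_lit 586263144) (nat_lit 305) (nat_lit 1) (nat_lit 296) (nat_lit 1) (nat_lit 304) (nat_lit 1) (nat_lit 376) (nat_lit 410) (nat_lit 354)) (XT.lf (nat_lit 76) (nat_lit 1244607372) (nat_lit 0) (nat_lit 1907945388) (nat_lit 684) (nat_lit 1244607372) (nat_lit 297) (nat_lit 1) (nat_lit 296) (nat_lit 1) (nat_lit 305) (nat_lit 1) (nat_lit 377) (nat_lit 410) (nat_lit 353))) (XT.nd (nat_lit 78) (nat_lit 532) (nat_lit 0) (XT.lf (nat_lit 684) (nat_lit 1719989331)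 (nat_lit 0) (nat_lit 1320625328) (nat_lit 608) (nat_lit 1320625328) (nat_lit 297) (nat_lit 1) (nat_lit 288) (nat_lit 1) (nat_lit 296) (nat_lit 1) (nat_lit 378) (nat_lit 410) (nat_lit 352)) (XT.nd (nat_lit 78) (nat_lit 532) (nat_lit 0) (XT.lf (nat_lit 76) (nat_lit 477228055) (nat_lit 0) (nat_lit 3371344700) (nat_lit 684) (nat_lit 477228055) (nat_lit 289) (nat_lit 1) (nat_lit 288) (nat_lit 1) (nat_lit 297) (nat_lit 1) (nat_lit 379) (nat_lit 410) (nat_lit 351)) (XT.lf (nat_lit 608) (nat_lit 181753447) (nat_lit 0) (nat_lit 2054434087) (nat_lit 532) (nat_lit 2054434087) (nat_lit 289) (nat_lit 1) (nat_lit 281) (nat_lit 1) (nat_lit 288) (nat_lit 1) (nat_lit 380) (nat_lit 410) (nat_lit 350))))))))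
noncomputable def ec112 : XT := (XT.nd (nat_lit 1404) (nat_lit 4332) (nat_lit 0) (XT.nd (nat_lit 702) (nat_lit 2964) (nat_lit 0) (XT.nd (nat_lit 312) (nat_lit 1672) (nat_lit 0) (XT.nd (nat_lit 156) (nat_lit 532) (nat_lit 0) (XT.nd (nat_lit 78) (nat_lit 0) (nat_lit 0) (XT.lf (nat_lit 684) (nat_lit 3682752481) (nat_lit 0) (nat_lit 286602892) (nat_lit 608) (nat_lit 286602892) (nat_lit 281) (nat_lit 1) (nat_lit 272) (nat_lit 1) (nat_lit 280) (nat_lit 1) (nat_lit 381) (nat_lit 410) (nat_lit 349)) (XT.lf (nat_lit 76) (nat_lit 1443268725) (nat_lit 0) (nat_lit 1334935776) (nat_lit 684) (nat_lit 1443268725) (nat_lit 273) (nat_lit 1) (nat_lit 272) (nat_lit 1) (nat_lit 281) (nat_lit 1) (nat_lit 382) (nat_lit 410) (nat_lit 348))) (XT.nd (nat_lit 78) (nat_lit 0) (nat_lit 0) (XT.lf (nat_lit 608) (nat_lit 2097152006) (nat_lit 0) (nat_lit 1045170076) (nat_lit 532) (nat_lit 1045170076) (nat_lit 273) (nat_lit 1) (nat_lit 265) (nat_lit 1) (nat_lit 272)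 (nat_lit 1) (nat_lit 383) (nat_lit 410) (nat_lit 347)) (XT.lf (nat_lit 76) (nat_lit 654678142) (nat_lit 0) (nat_lit 2844548780) (nat_lit 608) (nat_lit 654678142) (nat_lit 266) (nat_lit 1) (nat_lit 265) (nat_lit 1) (nat_lit 273) (nat_lit 1) (nat_lit 384) (nat_lit 410) (nat_lit 346)))) (XT.nd (nat_lit 156) (nat_lit 532) (nat_lit 0) (XT.nd (nat_lit 78) (nat_lit 608) (nat_lit 0) (XT.lf (nat_lit 608) (nat_lit 518293401) (nat_lit 0) (nat_lit 1801158098) (nat_lit 532) (nat_lit 1801158098) (nat_lit 266) (nat_lit 1) (nat_lit 258) (nat_lit 1) (nat_lit 265) (nat_lit 1) (nat_lit 385) (nat_lit 410) (nat_lit 345)) (XT.lf (nat_lit 608) (nat_lit 3828855971) (nat_lit 0) (nat_lit 129487890) (nat_lit 532) (nat_lit 129487890) (nat_lit 258) (nat_lit 1) (nat_lit 250) (nat_lit 1) (nat_lit 257) (nat_lit 1) (nat_lit 386) (nat_lit 410) (nat_lit 344))) (XT.nd (nat_lit 78) (nat_lit 532) (nat_lit 0) (XT.lf (nat_lit 76) (nat_lit 1507966899) (nat_lit 0) (nat_lit 1039199635)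 (nat_lit 608) (nat_lit 1507966899) (nat_lit 251) (nat_lit 1) (nat_lit 250) (nat_lit 1) (nat_lit 258) (nat_lit 1) (nat_lit 387) (nat_lit 410) (nat_lit 343)) (XT.nd (nat_lit 78) (nat_lit 0) (nat_lit 0) (XT.lf (nat_lit 608) (nat_lit 2212114438) (nat_lit 0) (nat_lit 905413884) (nat_lit 532) (nat_lit 905413884) (nat_lit 251) (nat_lit 1) (nat_lit 243) (nat_lit 1) (nat_lit 250) (nat_lit 1) (nat_lit 388) (nat_lit 410) (nat_lit 342)) (XT.lf (nat_lit 76) (nat_lit 704703238) (nat_lit 0) (nat_lit 2581688451) (nat_lit 608) (nat_lit 704703238) (nat_lit 244) (nat_lit 1) (nat_lit 243) (nat_lit 1) (nat_lit 251) (nat_lit 1) (nat_lit 389) (nat_lit 410) (nat_lit 341)))))) (XT.nd (nat_lit 312) (nat_lit 1444) (nat_lit 0) (XT.nd (nat_lit 156) (nat_lit 456) (nat_lit 0) (XT.nd (nat_lit 78) (nat_lit 608) (nat_lit 0) (XT.lf (nat_lit 532) (nat_lit 605453094) (nat_lit 0) (nat_lit 1677042988) (nat_lit 456) (nat_lit 1677042988) (nat_lit 244) (nat_lit 1) (nat_lit 237)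 (nat_lit 1) (nat_lit 243) (nat_lit 1) (nat_lit 390) (nat_lit 410) (nat_lit 340)) (XT.lf (nat_lit 608) (nat_lit 3742957148) (nat_lit 0) (nat_lit 92758763) (nat_lit 532) (nat_lit 92758763) (nat_lit 237) (nat_lit 1) (nat_lit 229) (nat_lit 1) (nat_lit 236) (nat_lit 1) (nat_lit 391) (nat_lit 410) (nat_lit 339))) (XT.nd (nat_lit 78) (nat_lit 456) (nat_lit 0) (XT.lf (nat_lit 76) (nat_lit 1459980259) (nat_lit 0) (nat_lit 977495751) (nat_lit 608) (nat_lit 1459980259) (nat_lit 230) (nat_lit 1) (nat_lit 229) (nat_lit 1) (nat_lit 237) (nat_lit 1) (nat_lit 392) (nat_lit 410) (nat_lit 338)) (XT.lf (nat_lit 532) (nat_lit 2106670184) (nat_lit 0) (nat_lit 880124894) (nat_lit 456) (nat_lit 880124894) (nat_lit 230) (nat_lit 1) (nat_lit 223) (nat_lit 1) (nat_lit 229) (nat_lit 1) (nat_lit 393) (nat_lit 410) (nat_lit 337)))) (XT.nd (nat_lit 156) (nat_lit 988) (nat_lit 0) (XT.nd (nat_lit 78) (nat_lit 456) (nat_lit 0) (XT.lf (nat_lit 76) (nat_lit 647687630)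 (nat_lit 0) (nat_lit 2541333609) (nat_lit 532) (nat_lit 647687630) (nat_lit 224) (nat_lit 1) (nat_lit 223) (nat_lit 1) (nat_lit 230) (nat_lit 1) (nat_lit 394) (nat_lit 410) (nat_lit 336)) (XT.lf (nat_lit 532) (nat_lit 483268781) (nat_lit 0) (nat_lit 1661746765) (nat_lit 456) (nat_lit 1661746765) (nat_lit 224) (nat_lit 1) (nat_lit 217) (nat_lit 1) (nat_lit 223) (nat_lit 1) (nat_lit 395) (nat_lit 410) (nat_lit 335))) (XT.nd (nat_lit 78) (nat_lit 456) (nat_lit 0) (XT.lf (nat_lit 532) (nat_lit 3463223018) (nat_lit 0) (nat_lit 157017398) (nat_lit 456) (nat_lit 157017398) (nat_lit 217) (nat_lit 1) (nat_lit 210) (nat_lit 1) (nat_lit 216) (nat_lit 1) (nat_lit 396) (nat_lit 410) (nat_lit 334)) (XT.nd (nat_lit 78) (nat_lit 456) (nat_lit 0) (XT.lf (nat_lit 76) (nat_lit 1317921984) (nat_lit 0) (nat_lit 1111976633) (nat_lit 532) (nat_lit 1317921984) (nat_lit 211) (nat_lit 1) (nat_lit 210) (nat_lit 1) (nat_lit 217) (nat_lit 1) (nat_lit 397) (nat_lit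 410) (nat_lit 333)) (XT.lf (nat_lit 532) (nat_lit 1817372404) (nat_lit 0) (nat_lit 950722371) (nat_lit 456) (nat_lit 950722371) (nat_lit 211) (nat_lit 1) (nat_lit 204) (nat_lit 1) (nat_lit 210) (nat_lit 1) (nat_lit 398) (nat_lit 410) (nat_lit 332))))))) (XT.nd (nat_lit 702) (nat_lit 2204) (nat_lit 0) (XT.nd (nat_lit 312) (nat_lit 1216) (nat_lit 0) (XT.nd (nat_lit 156) (nat_lit 532) (nat_lit 0) (XT.nd (nat_lit 78) (nat_lit 380) (nat_lit 0) (XT.lf (nat_lit 76) (nat_lit 501456860) (nat_lit 0) (nat_lit 2687232673) (nat_lit 532) (nat_lit 501456860) (nat_lit 205) (nat_lit 1) (nat_lit 204) (nat_lit 1) (nat_lit 211) (nat_lit 1) (nat_lit 399) (nat_lit 410) (nat_lit 331)) (XT.lf (nat_lit 456) (nat_lit 186745655) (nat_lit 0) (nat_lit 1737472754) (nat_lit 380) (nat_lit 1737472754) (nat_lit 205) (nat_lit 1) (nat_lit 199) (nat_lit 1) (nat_lit 204) (nat_lit 1) (nat_lit 400) (nat_lit 410) (nat_lit 330))) (XT.nd (nat_lit 78) (nat_lit 0) (nat_lit 0) (XT.lf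 (nat_lit 532) (nat_lit 3022997409) (nat_lit 0) (nat_lit 305306026) (nat_lit 456) (nat_lit 305306026) (nat_lit 199) (nat_lit 1) (nat_lit 192) (nat_lit 1) (nat_lit 198) (nat_lit 1) (nat_lit 401) (nat_lit 410) (nat_lit 329)) (XT.lf (nat_lit 76) (nat_lit 1098050320) (nat_lit 0) (nat_lit 1409561422) (nat_lit 532) (nat_lit 1098050320) (nat_lit 193) (nat_lit 1) (nat_lit 192) (nat_lit 1) (nat_lit 199) (nat_lit 1) (nat_lit 402) (nat_lit 410) (nat_lit 328)))) (XT.nd (nat_lit 156) (nat_lit 836) (nat_lit 0) (XT.nd (nat_lit 78) (nat_lit 0) (nat_lit 0) (XT.lf (nat_lit 456) (nat_lit 1376144104) (nat_lit 0) (nat_lit 1100968358) (nat_lit 380) (nat_lit 1100968358) (nat_lit 193) (nat_lit 1) (nat_lit 187) (nat_lit 1) (nat_lit 192) (nat_lit 1) (nat_lit 403) (nat_lit 410) (nat_lit 327)) (XT.lf (nat_lit 76) (nat_lit 281575805) (nat_lit 0) (nat_lit 2987710080) (nat_lit 456) (nat_lit 281575805) (nat_lit 188) (nat_lit 1) (nat_lit 187) (nat_lit 1) (nat_lit 193)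 (nat_lit 1) (nat_lit 404) (nat_lit 410) (nat_lit 326))) (XT.nd (nat_lit 78) (nat_lit 380) (nat_lit 0) (XT.lf (nat_lit 76) (nat_lit 1636763759) (nat_lit 0) (nat_lit 250230411) (nat_lit 456) (nat_lit 1636763759) (nat_lit 182) (nat_lit 1) (nat_lit 181) (nat_lit 1) (nat_lit 187) (nat_lit 1) (nat_lit 405) (nat_lit 410) (nat_lit 325)) (XT.nd (nat_lit 78) (nat_lit 0) (nat_lit 0) (XT.lf (nat_lit 456) (nat_lit 2451364030) (nat_lit 0) (nat_lit 522822720) (nat_lit 380) (nat_lit 522822720) (nat_lit 182) (nat_lit 1) (nat_lit 176) (nat_lit 1) (nat_lit 181) (nat_lit 1) (nat_lit 406) (nat_lit 410) (nat_lit 324)) (XT.lf (nat_lit 76) (nat_lit 814543597) (nat_lit 0) (nat_lit 1841379978) (nat_lit 456) (nat_lit 814543597) (nat_lit 177) (nat_lit 1) (nat_lit 176) (nat_lit 1) (nat_lit 182) (nat_lit 1) (nat_lit 407) (nat_lit 410) (nat_lit 323)))))) (XT.nd (nat_lit 312) (nat_lit 1064) (nat_lit 0) (XT.nd (nat_lit 156) (nat_lit 760) (nat_lit 0) (XT.nd (nat_lit 78)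 (nat_lit 0) (nat_lit 0) (XT.lf (nat_lit 456) (nat_lit 810819092) (nat_lit 0) (nat_lit 1316694342) (nat_lit 380) (nat_lit 1316694342) (nat_lit 177) (nat_lit 1) (nat_lit 171) (nat_lit 1) (nat_lit 176) (nat_lit 1) (nat_lit 408) (nat_lit 410) (nat_lit 322)) (XT.lf (nat_lit 76) (nat_lit 1612900) (nat_lit 0) (nat_lit 3415132182) (nat_lit 456) (nat_lit 1612900) (nat_lit 172) (nat_lit 1) (nat_lit 171) (nat_lit 1) (nat_lit 177) (nat_lit 1) (nat_lit 409) (nat_lit 410) (nat_lit 321))) (XT.nd (nat_lit 78) (nat_lit 380) (nat_lit 0) (XT.lf (nat_lit 76) (nat_lit 1296052649) (nat_lit 0) (nat_lit 800363889) (nat_lit 380) (nat_lit 1296052649) (nat_lit 167) (nat_lit 1) (nat_lit 166) (nat_lit 1) (nat_lit 171) (nat_lit 1) (nat_lit 410) (nat_lit 410) (nat_lit 320)) (XT.lf (nat_lit 456) (nat_lit 1773645527) (nat_lit 0) (nat_lit 796669209) (nat_lit 380) (nat_lit 796669209) (nat_lit 167) (nat_lit 1) (nat_lit 161) (nat_lit 1) (nat_lit 166) (nat_lit 1) (nat_lit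 411) (nat_lit 410) (nat_lit 319)))) (XT.nd (nat_lit 156) (nat_lit 760) (nat_lit 0) (XT.nd (nat_lit 78) (nat_lit 304) (nat_lit 0) (XT.lf (nat_lit 76) (nat_lit 479743995) (nat_lit 0) (nat_lit 2382280110) (nat_lit 456) (nat_lit 479743995) (nat_lit 162) (nat_lit 1) (nat_lit 161) (nat_lit 1) (nat_lit 167) (nat_lit 1) (nat_lit 412) (nat_lit 410) (nat_lit 318)) (XT.lf (nat_lit 380) (nat_lit 145621432) (nat_lit 0) (nat_lit 1585558970) (nat_lit 304) (nat_lit 1585558970) (nat_lit 162) (nat_lit 1) (nat_lit 157) (nat_lit 1) (nat_lit 161) (nat_lit 1) (nat_lit 413) (nat_lit 410) (nat_lit 317))) (XT.nd (nat_lit 78) (nat_lit 304) (nat_lit 0) (XT.lf (nat_lit 456) (nat_lit 2643058638) (nat_lit 0) (nat_lit 324476816) (nat_lit 380) (nat_lit 324476816) (nat_lit 157) (nat_lit 1) (nat_lit 151) (nat_lit 1) (nat_lit 156) (nat_lit 1) (nat_lit 414) (nat_lit 410) (nat_lit 316)) (XT.nd (nat_lit 78) (nat_lit 304) (nat_lit 0) (XT.lf (nat_lit 76) (nat_lit 912085693)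 (nat_lit 0) (nat_lit 1443236881) (nat_lit 456) (nat_lit 912085693) (nat_lit 152) (nat_lit 1) (nat_lit 151) (nat_lit 1) (nat_lit 157) (nat_lit 1) (nat_lit 415) (nat_lit 410) (nat_lit 315)) (XT.lf (nat_lit 380) (nat_lit 1011845766) (nat_lit 0) (nat_lit 1115627376) (nat_lit 304) (nat_lit 1115627376) (nat_lit 152) (nat_lit 1) (nat_lit 147) (nat_lit 1) (nat_lit 151) (nat_lit 1) (nat_lit 416) (nat_lit 410) (nat_lit 314))))))))
noncomputable def ec113 : XT := (XT.nd (nat_lit 1404) (nat_lit 1292) (nat_lit 0) (XT.nd (nat_lit 702) (nat_lit 1824) (nat_lit 0) (XT.nd (nat_lit 312) (nat_lit 988) (nat_lit 0) (XT.nd (nat_lit 156) (nat_lit 304) (nat_lit 0) (XT.nd (nat_lit 78) (nat_lit 380) (nat_lit 0) (XT.lf (nat_lit 76) (nat_lit 104373567) (nat_lit 0) (nat_lit 3010390865) (nat_lit 380) (nat_lit 104373567) (nat_lit 148) (nat_lit 1) (nat_lit 147) (nat_lit 1) (nat_lit 152) (nat_lit 1) (nat_lit 417) (nat_lit 410) (nat_lit 313)) (XT.lf (nat_lit 76) (nat_lit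 1302308937) (nat_lit 0) (nat_lit 590561417) (nat_lit 380) (nat_lit 1302308937) (nat_lit 143) (nat_lit 1) (nat_lit 142) (nat_lit 1) (nat_lit 147) (nat_lit 1) (nat_lit 418) (nat_lit 410) (nat_lit 312))) (XT.nd (nat_lit 78) (nat_lit 0) (nat_lit 0) (XT.lf (nat_lit 380) (nat_lit 1794900918) (nat_lit 0) (nat_lit 688329967) (nat_lit 304) (nat_lit 688329967) (nat_lit 143) (nat_lit 1) (nat_lit 138) (nat_lit 1) (nat_lit 142) (nat_lit 1) (nat_lit 419) (nat_lit 410) (nat_lit 311)) (XT.lf (nat_lit 76) (nat_lit 494587002) (nat_lit 0) (nat_lit 2158998444) (nat_lit 380) (nat_lit 494587002) (nat_lit 139) (nat_lit 1) (nat_lit 138) (nat_lit 1) (nat_lit 143) (nat_lit 1) (nat_lit 420) (nat_lit 410) (nat_lit 310)))) (XT.nd (nat_lit 156) (nat_lit 304) (nat_lit 0) (XT.nd (nat_lit 78) (nat_lit 380) (nat_lit 0) (XT.lf (nat_lit 380) (nat_lit 185041719) (nat_lit 0) (nat_lit 1469961205) (nat_lit 304) (nat_lit 1469961205) (nat_lit 139) (nat_lit 1) (nat_lit 134) (nat_lit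 1) (nat_lit 138) (nat_lit 1) (nat_lit 421) (nat_lit 410) (nat_lit 309)) (XT.lf (nat_lit 380) (nat_lit 2501457901) (nat_lit 0) (nat_lit 300285707) (nat_lit 304) (nat_lit 300285707) (nat_lit 134) (nat_lit 1) (nat_lit 129) (nat_lit 1) (nat_lit 133) (nat_lit 1) (nat_lit 422) (nat_lit 410) (nat_lit 308))) (XT.nd (nat_lit 78) (nat_lit 304) (nat_lit 0) (XT.lf (nat_lit 76) (nat_lit 847276801) (nat_lit 0) (nat_lit 1384642221) (nat_lit 380) (nat_lit 847276801) (nat_lit 130) (nat_lit 1) (nat_lit 129) (nat_lit 1) (nat_lit 134) (nat_lit 1) (nat_lit 423) (nat_lit 410) (nat_lit 307)) (XT.nd (nat_lit 78) (nat_lit 0) (nat_lit 0) (XT.lf (nat_lit 380) (nat_lit 894361468) (nat_lit 0) (nat_lit 1081134981) (nat_lit 304) (nat_lit 1081134981) (nat_lit 130) (nat_lit 1) (nat_lit 125) (nat_lit 1) (nat_lit 129) (nat_lit 1) (nat_lit 424) (nat_lit 410) (nat_lit 306)) (XT.lf (nat_lit 76) (nat_lit 51968226) (nat_lit 0) (nat_lit 2930456889) (nat_lit 380) (nat_lit 51968226)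 (nat_lit 126) (nat_lit 1) (nat_lit 125) (nat_lit 1) (nat_lit 130) (nat_lit 1) (nat_lit 425) (nat_lit 410) (nat_lit 305)))))) (XT.nd (nat_lit 312) (nat_lit 912) (nat_lit 0) (XT.nd (nat_lit 156) (nat_lit 304) (nat_lit 0) (XT.nd (nat_lit 78) (nat_lit 304) (nat_lit 0) (XT.lf (nat_lit 76) (nat_lit 1165453642) (nat_lit 0) (nat_lit 681216348) (nat_lit 304) (nat_lit 1165453642) (nat_lit 122) (nat_lit 1) (nat_lit 121) (nat_lit 1) (nat_lit 125) (nat_lit 1) (nat_lit 426) (nat_lit 410) (nat_lit 304)) (XT.lf (nat_lit 380) (nat_lit 1535478735) (nat_lit 0) (nat_lit 727348711) (nat_lit 304) (nat_lit 727348711) (nat_lit 122) (nat_lit 1) (nat_lit 117) (nat_lit 1) (nat_lit 121) (nat_lit 1) (nat_lit 427) (nat_lit 410) (nat_lit 303))) (XT.nd (nat_lit 78) (nat_lit 304) (nat_lit 0) (XT.lf (nat_lit 76) (nat_lit 372739045) (nat_lit 0) (nat_lit 2222981547) (nat_lit 380) (nat_lit 372739045) (nat_lit 118) (nat_lit 1) (nat_lit 117) (nat_lit 1) (nat_lit 122) (nat_lit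 1) (nat_lit 428) (nat_lit 410) (nat_lit 302)) (XT.lf (nat_lit 76) (nat_lit 1451895923) (nat_lit 0) (nat_lit 43084652) (nat_lit 304) (nat_lit 1451895923) (nat_lit 114) (nat_lit 1) (nat_lit 113) (nat_lit 1) (nat_lit 117) (nat_lit 1) (nat_lit 429) (nat_lit 410) (nat_lit 301)))) (XT.nd (nat_lit 156) (nat_lit 608) (nat_lit 0) (XT.nd (nat_lit 78) (nat_lit 0) (nat_lit 0) (XT.lf (nat_lit 380) (nat_lit 2113865578) (nat_lit 0) (nat_lit 405827489) (nat_lit 304) (nat_lit 405827489) (nat_lit 114) (nat_lit 1) (nat_lit 109) (nat_lit 1) (nat_lit 113) (nat_lit 1) (nat_lit 430) (nat_lit 410) (nat_lit 300)) (XT.lf (nat_lit 76) (nat_lit 662714474) (nat_lit 0) (nat_lit 1578879916) (nat_lit 380) (nat_lit 662714474) (nat_lit 110) (nat_lit 1) (nat_lit 109) (nat_lit 1) (nat_lit 114) (nat_lit 1) (nat_lit 431) (nat_lit 410) (nat_lit 299))) (XT.nd (nat_lit 78) (nat_lit 380) (nat_lit 0) (XT.lf (nat_lit 304) (nat_lit 542064494) (nat_lit 0) (nat_lit 1170622460) (nat_lit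 228) (nat_lit 1170622460) (nat_lit 110) (nat_lit 1) (nat_lit 106) (nat_lit 1) (nat_lit 109) (nat_lit 1) (nat_lit 432) (nat_lit 410) (nat_lit 298)) (XT.nd (nat_lit 78) (nat_lit 0) (nat_lit 0) (XT.lf (nat_lit 380) (nat_lit 2634571880) (nat_lit 0) (nat_lit 114009820) (nat_lit 304) (nat_lit 114009820) (nat_lit 106) (nat_lit 1) (nat_lit 101) (nat_lit 1) (nat_lit 105) (nat_lit 1) (nat_lit 433) (nat_lit 410) (nat_lit 297)) (XT.lf (nat_lit 76) (nat_lit 924364572) (nat_lit 0) (nat_lit 993139598) (nat_lit 380) (nat_lit 924364572) (nat_lit 102) (nat_lit 1) (nat_lit 101) (nat_lit 1) (nat_lit 106) (nat_lit 1) (nat_lit 434) (nat_lit 410) (nat_lit 296))))))) (XT.nd (nat_lit 50388) (nat_lit 0) (nat_lit 31464) (XT.nd (nat_lit 312) (nat_lit 532) (nat_lit 0) (XT.nd (nat_lit 156) (nat_lit 532) (nat_lit 0) (XT.nd (nat_lit 78) (nat_lit 0) (nat_lit 0) (XT.lf (nat_lit 304) (nat_lit 1071761276) (nat_lit 0) (nat_lit 874831452) (nat_lit 228) (nat_lit 874831452)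 (nat_lit 102) (nat_lit 1) (nat_lit 98) (nat_lit 1) (nat_lit 101) (nat_lit 1) (nat_lit 435) (nat_lit 410) (nat_lit 295)) (XT.lf (nat_lit 76) (nat_lit 151465157) (nat_lit 0) (nat_lit 2498311004) (nat_lit 304) (nat_lit 151465157) (nat_lit 99) (nat_lit 1) (nat_lit 98) (nat_lit 1) (nat_lit 102) (nat_lit 1) (nat_lit 436) (nat_lit 410) (nat_lit 294))) (XT.nd (nat_lit 78) (nat_lit 228) (nat_lit 0) (XT.lf (nat_lit 76) (nat_lit 1159968840) (nat_lit 0) (nat_lit 461133563) (nat_lit 304) (nat_lit 1159968840) (nat_lit 95) (nat_lit 1) (nat_lit 94) (nat_lit 1) (nat_lit 98) (nat_lit 1) (nat_lit 437) (nat_lit 410) (nat_lit 293)) (XT.lf (nat_lit 304) (nat_lit 1549923588) (nat_lit 0) (nat_lit 605618100) (nat_lit 228) (nat_lit 605618100) (nat_lit 95) (nat_lit 1) (nat_lit 91) (nat_lit 1) (nat_lit 94) (nat_lit 1) (nat_lit 438) (nat_lit 410) (nat_lit 292)))) (XT.nd (nat_lit 156) (nat_lit 304) (nat_lit 0) (XT.nd (nat_lit 78) (nat_lit 228) (nat_lit 0) (XT.lf (nat_lit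 76) (nat_lit 392371707) (nat_lit 0) (nat_lit 1956694074) (nat_lit 304) (nat_lit 392371707) (nat_lit 92) (nat_lit 1) (nat_lit 91) (nat_lit 1) (nat_lit 95) (nat_lit 1) (nat_lit 439) (nat_lit 410) (nat_lit 291)) (XT.lf (nat_lit 304) (nat_lit 21693788) (nat_lit 0) (nat_lit 1350077851) (nat_lit 228) (nat_lit 1350077851) (nat_lit 92) (nat_lit 1) (nat_lit 88) (nat_lit 1) (nat_lit 91) (nat_lit 1) (nat_lit 440) (nat_lit 410) (nat_lit 290))) (XT.nd (nat_lit 49764) (nat_lit 0) (nat_lit 31388) (XT.lf (nat_lit 304) (nat_lit 1980695538) (nat_lit 0) (nat_lit 360878947) (nat_lit 228) (nat_lit 360878947) (nat_lit 88) (nat_lit 1) (nat_lit 84) (nat_lit 1) (nat_lit 87) (nat_lit 1) (nat_lit 441) (nat_lit 410) (nat_lit 289)) (XT.nd (nat_lit 78) (nat_lit 0) (nat_lit 0) (XT.lf (nat_lit 1900) (nat_lit 1246208416) (nat_lit 0) (nat_lit 1256629617) (nat_lit 1900) (nat_lit 1246208416) (nat_lit 522) (nat_lit 1) (nat_lit 497) (nat_lit 0) (nat_lit 522) (nat_lit 0) (nat_lit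 318) (nat_lit 411) (nat_lit 411)) (XT.lf (nat_lit 1900) (nat_lit 4927695447) (nat_lit 76) (nat_lit 1248362317) (nat_lit 0) (nat_lit 1248362317) (nat_lit 522) (nat_lit 1) (nat_lit 498) (nat_lit 1) (nat_lit 497) (nat_lit 0) (nat_lit 319) (nat_lit 411) (nat_lit 410)))))) (XT.nd (nat_lit 390) (nat_lit 0) (nat_lit 152) (XT.nd (nat_lit 156) (nat_lit 0) (nat_lit 76) (XT.nd (nat_lit 78) (nat_lit 0) (nat_lit 0) (XT.lf (nat_lit 1900) (nat_lit 2419521920) (nat_lit 0) (nat_lit 2512508109) (nat_lit 1824) (nat_lit 2419521920) (nat_lit 523) (nat_lit 1) (nat_lit 498) (nat_lit 1) (nat_lit 522) (nat_lit 1) (nat_lit 320) (nat_lit 411) (nat_lit 409)) (XT.lf (nat_lit 1900) (nat_lit 4735600844) (nat_lit 76) (nat_lit 1272093825) (nat_lit 0) (nat_lit 1272093825) (nat_lit 523) (nat_lit 1) (nat_lit 499) (nat_lit 1) (nat_lit 498) (nat_lit 1) (nat_lit 321) (nat_lit 411) (nat_lit 408))) (XT.nd (nat_lit 78) (nat_lit 0) (nat_lit 0) (XT.lf (nat_lit 1900) (nat_lit 2301412272)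 (nat_lit 0) (nat_lit 2605992688) (nat_lit 1824) (nat_lit 2301412272) (nat_lit 524) (nat_lit 1) (nat_lit 499) (nat_lit 1) (nat_lit 523) (nat_lit 1) (nat_lit 322) (nat_lit 411) (nat_lit 407)) (XT.nd (nat_lit 78) (nat_lit 0) (nat_lit 76) (XT.lf (nat_lit 1900) (nat_lit 4455507014) (nat_lit 76) (nat_lit 1341697190) (nat_lit 0) (nat_lit 1341697190) (nat_lit 524) (nat_lit 1) (nat_lit 500) (nat_lit 1) (nat_lit 499) (nat_lit 1) (nat_lit 323) (nat_lit 411) (nat_lit 406)) (XT.lf (nat_lit 1900) (nat_lit 2140785697) (nat_lit 0) (nat_lit 2788206499) (nat_lit 1824) (nat_lit 2140785697) (nat_lit 525) (nat_lit 1) (nat_lit 500) (nat_lit 1) (nat_lit 524) (nat_lit 1) (nat_lit 324) (nat_lit 411) (nat_lit 405))))) (XT.nd (nat_lit 156) (nat_lit 0) (nat_lit 76) (XT.nd (nat_lit 78) (nat_lit 0) (nat_lit 76) (XT.lf (nat_lit 1900) (nat_lit 4092702812) (nat_lit 76) (nat_lit 1454473633) (nat_lit 0) (nat_lit 1454473633) (nat_lit 525) (nat_lit 1) (nat_lit 501) (nat_lit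 1) (nat_lit 500) (nat_lit 1) (nat_lit 325) (nat_lit 411) (nat_lit 404)) (XT.lf (nat_lit 1900) (nat_lit 1940216772) (nat_lit 0) (nat_lit 3053893108) (nat_lit 1824) (nat_lit 1940216772) (nat_lit 526) (nat_lit 1) (nat_lit 501) (nat_lit 1) (nat_lit 525) (nat_lit 1) (nat_lit 326) (nat_lit 411) (nat_lit 403))) (XT.nd (nat_lit 78) (nat_lit 0) (nat_lit 76) (XT.lf (nat_lit 1900) (nat_lit 3652235015) (nat_lit 76) (nat_lit 1607847164) (nat_lit 0) (nat_lit 1607847164) (nat_lit 526) (nat_lit 1) (nat_lit 502) (nat_lit 1) (nat_lit 501) (nat_lit 1) (nat_lit 327) (nat_lit 411) (nat_lit 402)) (XT.nd (nat_lit 78) (nat_lit 0) (nat_lit 0) (XT.lf (nat_lit 1900) (nat_lit 1702161991) (nat_lit 0) (nat_lit 3398035707) (nat_lit 1824) (nat_lit 1702161991) (nat_lit 527) (nat_lit 1) (nat_lit 502) (nat_lit 1) (nat_lit 526) (nat_lit 1) (nat_lit 328) (nat_lit 411) (nat_lit 401)) (XT.lf (nat_lit 1900) (nat_lit 3138918450) (nat_lit 76) (nat_lit 1799359460) (nat_lit 0)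 (nat_lit 1799359460) (nat_lit 527) (nat_lit 1) (nat_lit 503) (nat_lit 1) (nat_lit 502) (nat_lit 1) (nat_lit 329) (nat_lit 411) (nat_lit 400))))))))
noncomputable def ec114 : XT := (XT.nd (nat_lit 1404) (nat_lit 8208) (nat_lit 0) (XT.nd (nat_lit 702) (nat_lit 3496) (nat_lit 0) (XT.nd (nat_lit 312) (nat_lit 0) (nat_lit 152) (XT.nd (nat_lit 156) (nat_lit 0) (nat_lit 76) (XT.nd (nat_lit 78) (nat_lit 0) (nat_lit 0) (XT.lf (nat_lit 1900) (nat_lit 1428964704) (nat_lit 0) (nat_lit 3815847108) (nat_lit 1824) (nat_lit 1428964704) (nat_lit 528) (nat_lit 1) (nat_lit 503) (nat_lit 1) (nat_lit 527) (nat_lit 1) (nat_lit 330) (nat_lit 411) (nat_lit 399)) (XT.lf (nat_lit 1900) (nat_lit 2557345700) (nat_lit 76) (nat_lit 2026664949) (nat_lit 0) (nat_lit 2026664949) (nat_lit 528) (nat_lit 1) (nat_lit 504) (nat_lit 1) (nat_lit 503) (nat_lit 1) (nat_lit 331) (nat_lit 411) (nat_lit 398))) (XT.nd (nat_lit 78) (nat_lit 0) (nat_lit 0) (XT.lf (nat_lit 1900) (nat_lit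 1122859862) (nat_lit 0) (nat_lit 4302760148) (nat_lit 1824) (nat_lit 1122859862) (nat_lit 529) (nat_lit 1) (nat_lit 504) (nat_lit 1) (nat_lit 528) (nat_lit 1) (nat_lit 332) (nat_lit 411) (nat_lit 397)) (XT.lf (nat_lit 1900) (nat_lit 1911896431) (nat_lit 76) (nat_lit 2287526094) (nat_lit 0) (nat_lit 2287526094) (nat_lit 529) (nat_lit 1) (nat_lit 505) (nat_lit 1) (nat_lit 504) (nat_lit 1) (nat_lit 333) (nat_lit 411) (nat_lit 396)))) (XT.nd (nat_lit 156) (nat_lit 0) (nat_lit 76) (XT.nd (nat_lit 78) (nat_lit 0) (nat_lit 0) (XT.lf (nat_lit 1900) (nat_lit 785978563) (nat_lit 0) (nat_lit 4854418470) (nat_lit 1824) (nat_lit 785978563) (nat_lit 530) (nat_lit 1) (nat_lit 505) (nat_lit 1) (nat_lit 529) (nat_lit 1) (nat_lit 334) (nat_lit 411) (nat_lit 395)) (XT.lf (nat_lit 1900) (nat_lit 1206746333) (nat_lit 76) (nat_lit 2579808865) (nat_lit 0) (nat_lit 2579808865) (nat_lit 530) (nat_lit 1) (nat_lit 506) (nat_lit 1) (nat_lit 505) (nat_lit 1) (nat_lit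 335) (nat_lit 411) (nat_lit 394))) (XT.nd (nat_lit 78) (nat_lit 0) (nat_lit 0) (XT.lf (nat_lit 1900) (nat_lit 420352419) (nat_lit 0) (nat_lit 5466667688) (nat_lit 1824) (nat_lit 420352419) (nat_lit 531) (nat_lit 1) (nat_lit 506) (nat_lit 1) (nat_lit 530) (nat_lit 1) (nat_lit 336) (nat_lit 411) (nat_lit 393)) (XT.nd (nat_lit 78) (nat_lit 0) (nat_lit 76) (XT.lf (nat_lit 1900) (nat_lit 445875710) (nat_lit 76) (nat_lit 2901478391) (nat_lit 0) (nat_lit 2901478391) (nat_lit 531) (nat_lit 1) (nat_lit 507) (nat_lit 1) (nat_lit 506) (nat_lit 1) (nat_lit 337) (nat_lit 411) (nat_lit 392)) (XT.lf (nat_lit 1900) (nat_lit 27917755) (nat_lit 0) (nat_lit 6135546895) (nat_lit 1824) (nat_lit 27917755) (nat_lit 532) (nat_lit 1) (nat_lit 507) (nat_lit 1) (nat_lit 531) (nat_lit 1) (nat_lit 338) (nat_lit 411) (nat_lit 391)))))) (XT.nd (nat_lit 312) (nat_lit 1900) (nat_lit 0) (XT.nd (nat_lit 156) (nat_lit 0) (nat_lit 76) (XT.nd (nat_lit 78) (nat_lit 0) (nat_lit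 0) (XT.lf (nat_lit 1976) (nat_lit 2886054816) (nat_lit 0) (nat_lit 362110031) (nat_lit 1900) (nat_lit 2886054816) (nat_lit 508) (nat_lit 1) (nat_lit 482) (nat_lit 1) (nat_lit 507) (nat_lit 1) (nat_lit 339) (nat_lit 411) (nat_lit 390)) (XT.lf (nat_lit 1976) (nat_lit 5304280768) (nat_lit 76) (nat_lit 386918008) (nat_lit 0) (nat_lit 386918008) (nat_lit 508) (nat_lit 1) (nat_lit 483) (nat_lit 1) (nat_lit 482) (nat_lit 1) (nat_lit 340) (nat_lit 411) (nat_lit 389))) (XT.nd (nat_lit 78) (nat_lit 0) (nat_lit 0) (XT.lf (nat_lit 1976) (nat_lit 2405248665) (nat_lit 0) (nat_lit 1211927853) (nat_lit 1900) (nat_lit 2405248665) (nat_lit 509) (nat_lit 1) (nat_lit 483) (nat_lit 1) (nat_lit 508) (nat_lit 1) (nat_lit 341) (nat_lit 411) (nat_lit 388)) (XT.lf (nat_lit 1976) (nat_lit 4318422712) (nat_lit 76) (nat_lit 824623263) (nat_lit 0) (nat_lit 824623263) (nat_lit 509) (nat_lit 1) (nat_lit 484) (nat_lit 1) (nat_lit 483) (nat_lit 1) (nat_lit 342) (nat_lit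 411) (nat_lit 387)))) (XT.nd (nat_lit 156) (nat_lit 912) (nat_lit 0) (XT.nd (nat_lit 78) (nat_lit 1140) (nat_lit 0) (XT.lf (nat_lit 76) (nat_lit 1903698894) (nat_lit 0) (nat_lit 2106028387) (nat_lit 1900) (nat_lit 1903698894) (nat_lit 485) (nat_lit 1) (nat_lit 484) (nat_lit 1) (nat_lit 509) (nat_lit 1) (nat_lit 343) (nat_lit 411) (nat_lit 386)) (XT.lf (nat_lit 1216) (nat_lit 3292537513) (nat_lit 0) (nat_lit 1283718758) (nat_lit 1140) (nat_lit 1283718758) (nat_lit 485) (nat_lit 1) (nat_lit 469) (nat_lit 1) (nat_lit 484) (nat_lit 1) (nat_lit 344) (nat_lit 411) (nat_lit 385))) (XT.nd (nat_lit 78) (nat_lit 912) (nat_lit 0) (XT.lf (nat_lit 76) (nat_lit 1382983826) (nat_lit 0) (nat_lit 3041176744) (nat_lit 1216) (nat_lit 1382983826) (nat_lit 470) (nat_lit 1) (nat_lit 469) (nat_lit 1) (nat_lit 485) (nat_lit 1) (nat_lit 345) (nat_lit 411) (nat_lit 384)) (XT.nd (nat_lit 78) (nat_lit 0) (nat_lit 0) (XT.lf (nat_lit 988) (nat_lit 2229714949) (nat_lit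 0) (nat_lit 1762621200) (nat_lit 912) (nat_lit 1762621200) (nat_lit 470) (nat_lit 1) (nat_lit 457) (nat_lit 1) (nat_lit 469) (nat_lit 1) (nat_lit 346) (nat_lit 411) (nat_lit 383)) (XT.lf (nat_lit 76) (nat_lit 844605340) (nat_lit 0) (nat_lit 4014293363) (nat_lit 988) (nat_lit 844605340) (nat_lit 458) (nat_lit 1) (nat_lit 457) (nat_lit 1) (nat_lit 470) (nat_lit 1) (nat_lit 347) (nat_lit 411) (nat_lit 382))))))) (XT.nd (nat_lit 702) (nat_lit 3800) (nat_lit 0) (XT.nd (nat_lit 312) (nat_lit 1672) (nat_lit 0) (XT.nd (nat_lit 156) (nat_lit 1824) (nat_lit 0) (XT.nd (nat_lit 78) (nat_lit 0) (nat_lit 0) (XT.lf (nat_lit 988) (nat_lit 1132894709) (nat_lit 0) (nat_lit 2259823537) (nat_lit 912) (nat_lit 2259823537) (nat_lit 458) (nat_lit 1) (nat_lit 445) (nat_lit 1) (nat_lit 457) (nat_lit 1) (nat_lit 348) (nat_lit 411) (nat_lit 381)) (XT.lf (nat_lit 76) (nat_lit 289992140) (nat_lit 0) (nat_lit 5022447395) (nat_lit 988) (nat_lit 289992140) (nat_lit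 446) (nat_lit 1) (nat_lit 445) (nat_lit 1) (nat_lit 458) (nat_lit 1) (nat_lit 349) (nat_lit 411) (nat_lit 380))) (XT.nd (nat_lit 78) (nat_lit 988) (nat_lit 0) (XT.lf (nat_lit 912) (nat_lit 4872817) (nat_lit 0) (nat_lit 2773891706) (nat_lit 836) (nat_lit 2773891706) (nat_lit 446) (nat_lit 1) (nat_lit 434) (nat_lit 1) (nat_lit 445) (nat_lit 1) (nat_lit 350) (nat_lit 411) (nat_lit 379)) (XT.lf (nat_lit 988) (nat_lit 4948393848) (nat_lit 0) (nat_lit 277658314) (nat_lit 912) (nat_lit 277658314) (nat_lit 434) (nat_lit 1) (nat_lit 421) (nat_lit 1) (nat_lit 433) (nat_lit 1) (nat_lit 351) (nat_lit 411) (nat_lit 378)))) (XT.nd (nat_lit 156) (nat_lit 836) (nat_lit 0) (XT.nd (nat_lit 78) (nat_lit 836) (nat_lit 0) (XT.lf (nat_lit 76) (nat_lit 2159246846) (nat_lit 0) (nat_lit 1136587567) (nat_lit 988) (nat_lit 2159246846) (nat_lit 422) (nat_lit 1) (nat_lit 421) (nat_lit 1) (nat_lit 434) (nat_lit 1) (nat_lit 352) (nat_lit 411) (nat_lit 377)) (XT.lf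 (nat_lit 912) (nat_lit 3693466968) (nat_lit 0) (nat_lit 856895984) (nat_lit 836) (nat_lit 856895984) (nat_lit 422) (nat_lit 1) (nat_lit 410) (nat_lit 1) (nat_lit 421) (nat_lit 1) (nat_lit 353) (nat_lit 411) (nat_lit 376))) (XT.nd (nat_lit 78) (nat_lit 836) (nat_lit 0) (XT.lf (nat_lit 76) (nat_lit 1528117812) (nat_lit 0) (nat_lit 2303659073) (nat_lit 912) (nat_lit 1528117812) (nat_lit 411) (nat_lit 1) (nat_lit 410) (nat_lit 1) (nat_lit 422) (nat_lit 1) (nat_lit 354) (nat_lit 411) (nat_lit 375)) (XT.nd (nat_lit 78) (nat_lit 0) (nat_lit 0) (XT.lf (nat_lit 912) (nat_lit 2416343362) (nat_lit 0) (nat_lit 1448409319) (nat_lit 836) (nat_lit 1448409319) (nat_lit 411) (nat_lit 1) (nat_lit 399) (nat_lit 1) (nat_lit 410) (nat_lit 1) (nat_lit 355) (nat_lit 411) (nat_lit 374)) (XT.lf (nat_lit 76) (nat_lit 886497866) (nat_lit 0) (nat_lit 3494036128) (nat_lit 912) (nat_lit 886497866) (nat_lit 400) (nat_lit 1) (nat_lit 399) (nat_lit 1) (nat_lit 411) (nat_lit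 1) (nat_lit 356) (nat_lit 411) (nat_lit 373)))))) (XT.nd (nat_lit 312) (nat_lit 1444) (nat_lit 0) (XT.nd (nat_lit 156) (nat_lit 1596) (nat_lit 0) (XT.nd (nat_lit 78) (nat_lit 0) (nat_lit 0) (XT.lf (nat_lit 836) (nat_lit 1119275682) (nat_lit 0) (nat_lit 2051039911) (nat_lit 760) (nat_lit 2051039911) (nat_lit 400) (nat_lit 1) (nat_lit 389) (nat_lit 1) (nat_lit 399) (nat_lit 1) (nat_lit 357) (nat_lit 411) (nat_lit 372)) (XT.lf (nat_lit 76) (nat_lit 235480625) (nat_lit 0) (nat_lit 4705468174) (nat_lit 836) (nat_lit 235480625) (nat_lit 390) (nat_lit 1) (nat_lit 389) (nat_lit 1) (nat_lit 400) (nat_lit 1) (nat_lit 358) (nat_lit 411) (nat_lit 371))) (XT.nd (nat_lit 78) (nat_lit 760) (nat_lit 0) (XT.lf (nat_lit 76) (nat_lit 2469359496) (nat_lit 0) (nat_lit 193032855) (nat_lit 836) (nat_lit 2469359496) (nat_lit 379) (nat_lit 1) (nat_lit 378) (nat_lit 1) (nat_lit 389) (nat_lit 1) (nat_lit 359) (nat_lit 411) (nat_lit 370)) (XT.lf (nat_lit 836) (nat_lit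 4245590239) (nat_lit 0) (nat_lit 421107422) (nat_lit 760) (nat_lit 421107422) (nat_lit 379) (nat_lit 1) (nat_lit 368) (nat_lit 1) (nat_lit 378) (nat_lit 1) (nat_lit 360) (nat_lit 411) (nat_lit 369)))) (XT.nd (nat_lit 156) (nat_lit 684) (nat_lit 0) (XT.nd (nat_lit 78) (nat_lit 760) (nat_lit 0) (XT.lf (nat_lit 76) (nat_lit 1768967877) (nat_lit 0) (nat_lit 1506232964) (nat_lit 836) (nat_lit 1768967877) (nat_lit 369) (nat_lit 1) (nat_lit 368) (nat_lit 1) (nat_lit 379) (nat_lit 1) (nat_lit 361) (nat_lit 411) (nat_lit 368)) (XT.lf (nat_lit 836) (nat_lit 2834247419) (nat_lit 0) (nat_lit 1083473123) (nat_lit 760) (nat_lit 1083473123) (nat_lit 369) (nat_lit 1) (nat_lit 358) (nat_lit 1) (nat_lit 368) (nat_lit 1) (nat_lit 362) (nat_lit 411) (nat_lit 367))) (XT.nd (nat_lit 78) (nat_lit 684) (nat_lit 0) (XT.lf (nat_lit 76) (nat_lit 1062793522) (nat_lit 0) (nat_lit 2833106179) (nat_lit 836) (nat_lit 1062793522) (nat_lit 359) (nat_lit 1) (nat_lit 358)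 (nat_lit 1) (nat_lit 369) (nat_lit 1) (nat_lit 363) (nat_lit 411) (nat_lit 366)) (XT.nd (nat_lit 78) (nat_lit 0) (nat_lit 0) (XT.lf (nat_lit 760) (nat_lit 1412183115) (nat_lit 0) (nat_lit 1752238770) (nat_lit 684) (nat_lit 1752238770) (nat_lit 359) (nat_lit 1) (nat_lit 349) (nat_lit 1) (nat_lit 358) (nat_lit 1) (nat_lit 364) (nat_lit 411) (nat_lit 365)) (XT.lf (nat_lit 76) (nat_lit 351707646) (nat_lit 0) (nat_lit 4171853588) (nat_lit 760) (nat_lit 351707646) (nat_lit 350) (nat_lit 1) (nat_lit 349) (nat_lit 1) (nat_lit 359) (nat_lit 1) (nat_lit 365) (nat_lit 411) (nat_lit 364))))))))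
noncomputable def ec115 : XT := (XT.nd (nat_lit 1404) (nat_lit 5396) (nat_lit 0) (XT.nd (nat_lit 702) (nat_lit 2888) (nat_lit 0) (XT.nd (nat_lit 312) (nat_lit 1900) (nat_lit 0) (XT.nd (nat_lit 156) (nat_lit 684) (nat_lit 0) (XT.nd (nat_lit 78) (nat_lit 684) (nat_lit 0) (XT.lf (nat_lit 76) (nat_lit 2407747229) (nat_lit 0) (nat_lit 18653631) (nat_lit 760) (nat_lit 2407747229) (nat_lit 340) (nat_lit 1) (nat_lit 339) (nat_lit 1) (nat_lit 349) (nat_lit 1) (nat_lit 366) (nat_lit 411) (nat_lit 363)) (XT.lf (nat_lit 760) (nat_lit 4071503818) (nat_lit 0) (nat_lit 361073831) (nat_lit 684) (nat_lit 361073831) (nat_lit 340) (nat_lit 1) (nat_lit 330) (nat_lit 1) (nat_lit 339) (nat_lit 1) (nat_lit 367) (nat_lit 411) (nat_lit 362))) (XT.nd (nat_lit 78) (nat_lit 684) (nat_lit 0) (XT.lf (nat_lit 76) (nat_lit 1657568814) (nat_lit 0) (nat_lit 1438282597) (nat_lit 760) (nat_lit 1657568814) (nat_lit 331) (nat_lit 1) (nat_lit 330) (nat_lit 1) (nat_lit 340)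 (nat_lit 1) (nat_lit 368) (nat_lit 411) (nat_lit 361)) (XT.lf (nat_lit 760) (nat_lit 2564139762) (nat_lit 0) (nat_lit 1074826259) (nat_lit 684) (nat_lit 1074826259) (nat_lit 331) (nat_lit 1) (nat_lit 321) (nat_lit 1) (nat_lit 330) (nat_lit 1) (nat_lit 369) (nat_lit 411) (nat_lit 360)))) (XT.nd (nat_lit 156) (nat_lit 1292) (nat_lit 0) (XT.nd (nat_lit 78) (nat_lit 608) (nat_lit 0) (XT.lf (nat_lit 76) (nat_lit 905443143) (nat_lit 0) (nat_lit 2863722106) (nat_lit 760) (nat_lit 905443143) (nat_lit 322) (nat_lit 1) (nat_lit 321) (nat_lit 1) (nat_lit 331) (nat_lit 1) (nat_lit 370) (nat_lit 411) (nat_lit 359)) (XT.lf (nat_lit 684) (nat_lit 1053562210) (nat_lit 0) (nat_lit 1791130594) (nat_lit 608) (nat_lit 1791130594) (nat_lit 322) (nat_lit 1) (nat_lit 313) (nat_lit 1) (nat_lit 321) (nat_lit 1) (nat_lit 371) (nat_lit 411) (nat_lit 358))) (XT.nd (nat_lit 78) (nat_lit 1292) (nat_lit 0) (XT.lf (nat_lit 76) (nat_lit 152055196) (nat_lit 0) (nat_lit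 4293551695) (nat_lit 684) (nat_lit 152055196) (nat_lit 314) (nat_lit 1) (nat_lit 313) (nat_lit 1) (nat_lit 322) (nat_lit 1) (nat_lit 372) (nat_lit 411) (nat_lit 357)) (XT.nd (nat_lit 78) (nat_lit 608) (nat_lit 0) (XT.lf (nat_lit 76) (nat_lit 2053380356) (nat_lit 0) (nat_lit 452874873) (nat_lit 684) (nat_lit 2053380356) (nat_lit 305) (nat_lit 1) (nat_lit 304) (nat_lit 1) (nat_lit 313) (nat_lit 1) (nat_lit 373) (nat_lit 411) (nat_lit 356)) (XT.lf (nat_lit 684) (nat_lit 3326241775) (nat_lit 0) (nat_lit 597988407) (nat_lit 608) (nat_lit 597988407) (nat_lit 305) (nat_lit 1) (nat_lit 296) (nat_lit 1) (nat_lit 304) (nat_lit 1) (nat_lit 374) (nat_lit 411) (nat_lit 355)))))) (XT.nd (nat_lit 312) (nat_lit 1748) (nat_lit 0) (XT.nd (nat_lit 156) (nat_lit 532) (nat_lit 0) (XT.nd (nat_lit 78) (nat_lit 608) (nat_lit 0) (XT.lf (nat_lit 76) (nat_lit 1269499519) (nat_lit 0) (nat_lit 1946104296) (nat_lit 684) (nat_lit 1269499519) (nat_lit 297) (nat_lit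 1) (nat_lit 296) (nat_lit 1) (nat_lit 305) (nat_lit 1) (nat_lit 375) (nat_lit 411) (nat_lit 354)) (XT.lf (nat_lit 684) (nat_lit 1754389117) (nat_lit 0) (nat_lit 1347037834) (nat_lit 608) (nat_lit 1347037834) (nat_lit 297) (nat_lit 1) (nat_lit 288) (nat_lit 1) (nat_lit 296) (nat_lit 1) (nat_lit 376) (nat_lit 411) (nat_lit 353))) (XT.nd (nat_lit 78) (nat_lit 532) (nat_lit 0) (XT.lf (nat_lit 76) (nat_lit 486772616) (nat_lit 0) (nat_lit 3438771594) (nat_lit 684) (nat_lit 486772616) (nat_lit 289) (nat_lit 1) (nat_lit 288) (nat_lit 1) (nat_lit 297) (nat_lit 1) (nat_lit 377) (nat_lit 411) (nat_lit 352)) (XT.lf (nat_lit 608) (nat_lit 185388516) (nat_lit 0) (nat_lit 2095522769) (nat_lit 532) (nat_lit 2095522769) (nat_lit 289) (nat_lit 1) (nat_lit 281) (nat_lit 1) (nat_lit 288) (nat_lit 1) (nat_lit 378) (nat_lit 411) (nat_lit 351)))) (XT.nd (nat_lit 156) (nat_lit 1064) (nat_lit 0) (XT.nd (nat_lit 78) (nat_lit 0) (nat_lit 0) (XT.lf (nat_lit 684)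 (nat_lit 3756407531) (nat_lit 0) (nat_lit 292334949) (nat_lit 608) (nat_lit 292334949) (nat_lit 281) (nat_lit 1) (nat_lit 272) (nat_lit 1) (nat_lit 280) (nat_lit 1) (nat_lit 379) (nat_lit 411) (nat_lit 350)) (XT.lf (nat_lit 76) (nat_lit 1472134099) (nat_lit 0) (nat_lit 1361634491) (nat_lit 684) (nat_lit 1472134099) (nat_lit 273) (nat_lit 1) (nat_lit 272) (nat_lit 1) (nat_lit 281) (nat_lit 1) (nat_lit 380) (nat_lit 411) (nat_lit 349))) (XT.nd (nat_lit 78) (nat_lit 532) (nat_lit 0) (XT.lf (nat_lit 608) (nat_lit 2139095047) (nat_lit 0) (nat_lit 1066073477) (nat_lit 532) (nat_lit 1066073477) (nat_lit 273) (nat_lit 1) (nat_lit 265) (nat_lit 1) (nat_lit 272) (nat_lit 1) (nat_lit 381) (nat_lit 411) (nat_lit 348)) (XT.nd (nat_lit 78) (nat_lit 532) (nat_lit 0) (XT.lf (nat_lit 76) (nat_lit 667771705) (nat_lit 0) (nat_lit 2901439756) (nat_lit 608) (nat_lit 667771705) (nat_lit 266) (nat_lit 1) (nat_lit 265) (nat_lit 1) (nat_lit 273) (nat_lit 1) (nat_lit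 382) (nat_lit 411) (nat_lit 347)) (XT.lf (nat_lit 608) (nat_lit 528659269) (nat_lit 0) (nat_lit 1837181260) (nat_lit 532) (nat_lit 1837181260) (nat_lit 266) (nat_lit 1) (nat_lit 258) (nat_lit 1) (nat_lit 265) (nat_lit 1) (nat_lit 383) (nat_lit 411) (nat_lit 346))))))) (XT.nd (nat_lit 702) (nat_lit 2736) (nat_lit 0) (XT.nd (nat_lit 312) (nat_lit 1520) (nat_lit 0) (XT.nd (nat_lit 156) (nat_lit 532) (nat_lit 0) (XT.nd (nat_lit 78) (nat_lit 0) (nat_lit 0) (XT.lf (nat_lit 608) (nat_lit 3905433090) (nat_lit 0) (nat_lit 132077647) (nat_lit 532) (nat_lit 132077647) (nat_lit 258) (nat_lit 1) (nat_lit 250) (nat_lit 1) (nat_lit 257) (nat_lit 1) (nat_lit 384) (nat_lit 411) (nat_lit 345)) (XT.lf (nat_lit 76) (nat_lit 1538126237) (nat_lit 0) (nat_lit 1059983628) (nat_lit 608) (nat_lit 1538126237) (nat_lit 251) (nat_lit 1) (nat_lit 250) (nat_lit 1) (nat_lit 258) (nat_lit 1) (nat_lit 385) (nat_lit 411) (nat_lit 344))) (XT.nd (nat_lit 78) (nat_lit 0)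 (nat_lit 0) (XT.lf (nat_lit 608) (nat_lit 2256356727) (nat_lit 0) (nat_lit 923522161) (nat_lit 532) (nat_lit 923522161) (nat_lit 251) (nat_lit 1) (nat_lit 243) (nat_lit 1) (nat_lit 250) (nat_lit 1) (nat_lit 386) (nat_lit 411) (nat_lit 343)) (XT.lf (nat_lit 76) (nat_lit 718797303) (nat_lit 0) (nat_lit 2633322220) (nat_lit 608) (nat_lit 718797303) (nat_lit 244) (nat_lit 1) (nat_lit 243) (nat_lit 1) (nat_lit 251) (nat_lit 1) (nat_lit 387) (nat_lit 411) (nat_lit 342)))) (XT.nd (nat_lit 156) (nat_lit 456) (nat_lit 0) (XT.nd (nat_lit 78) (nat_lit 608) (nat_lit 0) (XT.lf (nat_lit 532) (nat_lit 617562156) (nat_lit 0) (nat_lit 1710583848) (nat_lit 456) (nat_lit 1710583848) (nat_lit 244) (nat_lit 1) (nat_lit 237) (nat_lit 1) (nat_lit 243) (nat_lit 1) (nat_lit 388) (nat_lit 411) (nat_lit 341)) (XT.lf (nat_lit 608) (nat_lit 3817816291) (nat_lit 0) (nat_lit 94613938) (nat_lit 532) (nat_lit 94613938) (nat_lit 237) (nat_lit 1) (nat_lit 229) (nat_lit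 1) (nat_lit 236) (nat_lit 1) (nat_lit 389) (nat_lit 411) (nat_lit 340))) (XT.nd (nat_lit 78) (nat_lit 456) (nat_lit 0) (XT.lf (nat_lit 76) (nat_lit 1489179864) (nat_lit 0) (nat_lit 997045666) (nat_lit 608) (nat_lit 1489179864) (nat_lit 230) (nat_lit 1) (nat_lit 229) (nat_lit 1) (nat_lit 237) (nat_lit 1) (nat_lit 390) (nat_lit 411) (nat_lit 339)) (XT.nd (nat_lit 78) (nat_lit 0) (nat_lit 0) (XT.lf (nat_lit 532) (nat_lit 2148803588) (nat_lit 0) (nat_lit 897727392) (nat_lit 456) (nat_lit 897727392) (nat_lit 230) (nat_lit 1) (nat_lit 223) (nat_lit 1) (nat_lit 229) (nat_lit 1) (nat_lit 391) (nat_lit 411) (nat_lit 338)) (XT.lf (nat_lit 76) (nat_lit 660641383) (nat_lit 0) (nat_lit 2592160281) (nat_lit 532) (nat_lit 660641383) (nat_lit 224) (nat_lit 1) (nat_lit 223) (nat_lit 1) (nat_lit 230) (nat_lit 1) (nat_lit 392) (nat_lit 411) (nat_lit 337)))))) (XT.nd (nat_lit 390) (nat_lit 1292) (nat_lit 0) (XT.nd (nat_lit 156) (nat_lit 456) (nat_lit 0)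 (XT.nd (nat_lit 78) (nat_lit 532) (nat_lit 0) (XT.lf (nat_lit 532) (nat_lit 492934156) (nat_lit 0) (nat_lit 1694981700) (nat_lit 456) (nat_lit 1694981700) (nat_lit 224) (nat_lit 1) (nat_lit 217) (nat_lit 1) (nat_lit 223) (nat_lit 1) (nat_lit 393) (nat_lit 411) (nat_lit 336)) (XT.lf (nat_lit 532) (nat_lit 3532487478) (nat_lit 0) (nat_lit 160157746) (nat_lit 456) (nat_lit 160157746) (nat_lit 217) (nat_lit 1) (nat_lit 210) (nat_lit 1) (nat_lit 216) (nat_lit 1) (nat_lit 394) (nat_lit 411) (nat_lit 335))) (XT.nd (nat_lit 78) (nat_lit 456) (nat_lit 0) (XT.lf (nat_lit 76) (nat_lit 1344280424) (nat_lit 0) (nat_lit 1134216165) (nat_lit 532) (nat_lit 1344280424) (nat_lit 211) (nat_lit 1) (nat_lit 210) (nat_lit 1) (nat_lit 217) (nat_lit 1) (nat_lit 395) (nat_lit 411) (nat_lit 334)) (XT.nd (nat_lit 78) (nat_lit 0) (nat_lit 0) (XT.lf (nat_lit 532) (nat_lit 1853719852) (nat_lit 0) (nat_lit 969736818) (nat_lit 456) (nat_lit 969736818) (nat_lit 211)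 (nat_lit 1) (nat_lit 204) (nat_lit 1) (nat_lit 210) (nat_lit 1) (nat_lit 396) (nat_lit 411) (nat_lit 333)) (XT.lf (nat_lit 76) (nat_lit 511485998) (nat_lit 0) (nat_lit 2740977326) (nat_lit 532) (nat_lit 511485998) (nat_lit 205) (nat_lit 1) (nat_lit 204) (nat_lit 1) (nat_lit 211) (nat_lit 1) (nat_lit 397) (nat_lit 411) (nat_lit 332))))) (XT.nd (nat_lit 156) (nat_lit 380) (nat_lit 0) (XT.nd (nat_lit 78) (nat_lit 532) (nat_lit 0) (XT.lf (nat_lit 456) (nat_lit 190480568) (nat_lit 0) (nat_lit 1772222209) (nat_lit 380) (nat_lit 1772222209) (nat_lit 205) (nat_lit 1) (nat_lit 199) (nat_lit 1) (nat_lit 204) (nat_lit 1) (nat_lit 398) (nat_lit 411) (nat_lit 331)) (XT.lf (nat_lit 532) (nat_lit 3083457357) (nat_lit 0) (nat_lit 311412147) (nat_lit 456) (nat_lit 311412147) (nat_lit 199) (nat_lit 1) (nat_lit 192) (nat_lit 1) (nat_lit 198) (nat_lit 1) (nat_lit 399) (nat_lit 411) (nat_lit 330))) (XT.nd (nat_lit 78) (nat_lit 380) (nat_lit 0) (XT.lf (nat_lit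 76) (nat_lit 1120011326) (nat_lit 0) (nat_lit 1437752651) (nat_lit 532) (nat_lit 1120011326) (nat_lit 193) (nat_lit 1) (nat_lit 192) (nat_lit 1) (nat_lit 199) (nat_lit 1) (nat_lit 400) (nat_lit 411) (nat_lit 329)) (XT.nd (nat_lit 78) (nat_lit 0) (nat_lit 0) (XT.lf (nat_lit 456) (nat_lit 1403666986) (nat_lit 0) (nat_lit 1122987725) (nat_lit 380) (nat_lit 1122987725) (nat_lit 193) (nat_lit 1) (nat_lit 187) (nat_lit 1) (nat_lit 192) (nat_lit 1) (nat_lit 401) (nat_lit 411) (nat_lit 328)) (XT.lf (nat_lit 76) (nat_lit 287207321) (nat_lit 0) (nat_lit 3047464281) (nat_lit 456) (nat_lit 287207321) (nat_lit 188) (nat_lit 1) (nat_lit 187) (nat_lit 1) (nat_lit 193) (nat_lit 1) (nat_lit 402) (nat_lit 411) (nat_lit 327))))))))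
noncomputable def ec116 : XT := (XT.nd (nat_lit 1404) (nat_lit 3116) (nat_lit 0) (XT.nd (nat_lit 702) (nat_lit 2128) (nat_lit 0) (XT.nd (nat_lit 312) (nat_lit 1064) (nat_lit 0) (XT.nd (nat_lit 156) (nat_lit 380) (nat_lit 0) (XT.nd (nat_lit 78) (nat_lit 380) (nat_lit 0) (XT.lf (nat_lit 76) (nat_lit 1669499034) (nat_lit 0) (nat_lit 255235020) (nat_lit 456) (nat_lit 1669499034) (nat_lit 182) (nat_lit 1) (nat_lit 181) (nat_lit 1) (nat_lit 187) (nat_lit 1) (nat_lit 403) (nat_lit 411) (nat_lit 326)) (XT.lf (nat_lit 456) (nat_lit 2500391310) (nat_lit 0) (nat_lit 533279175) (nat_lit 380) (nat_lit 533279175) (nat_lit 182) (nat_lit 1) (nat_lit 176) (nat_lit 1) (nat_lit 181) (nat_lit 1) (nat_lit 404) (nat_lit 411) (nat_lit 325))) (XT.nd (nat_lit 78) (nat_lit 380) (nat_lit 0) (XT.lf (nat_lit 76) (nat_lit 830834469) (nat_lit 0) (nat_lit 1878207578) (nat_lit 456) (nat_lit 830834469) (nat_lit 177) (nat_lit 1) (nat_lit 176) (nat_lit 1) (nat_lit 182)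 (nat_lit 1) (nat_lit 405) (nat_lit 411) (nat_lit 324)) (XT.lf (nat_lit 456) (nat_lit 827035474) (nat_lit 0) (nat_lit 1343028228) (nat_lit 380) (nat_lit 1343028228) (nat_lit 177) (nat_lit 1) (nat_lit 171) (nat_lit 1) (nat_lit 176) (nat_lit 1) (nat_lit 406) (nat_lit 411) (nat_lit 323)))) (XT.nd (nat_lit 156) (nat_lit 684) (nat_lit 0) (XT.nd (nat_lit 78) (nat_lit 380) (nat_lit 0) (XT.lf (nat_lit 76) (nat_lit 1645158) (nat_lit 0) (nat_lit 3483434826) (nat_lit 456) (nat_lit 1645158) (nat_lit 172) (nat_lit 1) (nat_lit 171) (nat_lit 1) (nat_lit 177) (nat_lit 1) (nat_lit 407) (nat_lit 411) (nat_lit 322)) (XT.lf (nat_lit 76) (nat_lit 1321973702) (nat_lit 0) (nat_lit 816371167) (nat_lit 380) (nat_lit 1321973702) (nat_lit 167) (nat_lit 1) (nat_lit 166) (nat_lit 1) (nat_lit 171) (nat_lit 1) (nat_lit 408) (nat_lit 411) (nat_lit 321))) (XT.nd (nat_lit 78) (nat_lit 304) (nat_lit 0) (XT.lf (nat_lit 456) (nat_lit 1809118438) (nat_lit 0) (nat_lit 812602593)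 (nat_lit 380) (nat_lit 812602593) (nat_lit 167) (nat_lit 1) (nat_lit 161) (nat_lit 1) (nat_lit 166) (nat_lit 1) (nat_lit 409) (nat_lit 411) (nat_lit 320)) (XT.nd (nat_lit 78) (nat_lit 304) (nat_lit 0) (XT.lf (nat_lit 76) (nat_lit 489338875) (nat_lit 0) (nat_lit 2429925712) (nat_lit 456) (nat_lit 489338875) (nat_lit 162) (nat_lit 1) (nat_lit 161) (nat_lit 1) (nat_lit 167) (nat_lit 1) (nat_lit 410) (nat_lit 411) (nat_lit 319)) (XT.lf (nat_lit 380) (nat_lit 148533860) (nat_lit 0) (nat_lit 1617270149) (nat_lit 304) (nat_lit 1617270149) (nat_lit 162) (nat_lit 1) (nat_lit 157) (nat_lit 1) (nat_lit 161) (nat_lit 1) (nat_lit 411) (nat_lit 411) (nat_lit 318)))))) (XT.nd (nat_lit 312) (nat_lit 1368) (nat_lit 0) (XT.nd (nat_lit 156) (nat_lit 304) (nat_lit 0) (XT.nd (nat_lit 78) (nat_lit 0) (nat_lit 0) (XT.lf (nat_lit 456) (nat_lit 2695919811) (nat_lit 0) (nat_lit 330966352) (nat_lit 380) (nat_lit 330966352) (nat_lit 157) (nat_lit 1) (nat_lit 151)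 (nat_lit 1) (nat_lit 156) (nat_lit 1) (nat_lit 412) (nat_lit 411) (nat_lit 317)) (XT.lf (nat_lit 76) (nat_lit 930327406) (nat_lit 0) (nat_lit 1472101619) (nat_lit 456) (nat_lit 930327406) (nat_lit 152) (nat_lit 1) (nat_lit 151) (nat_lit 1) (nat_lit 157) (nat_lit 1) (nat_lit 413) (nat_lit 411) (nat_lit 316))) (XT.nd (nat_lit 78) (nat_lit 0) (nat_lit 0) (XT.lf (nat_lit 380) (nat_lit 1032082681) (nat_lit 0) (nat_lit 1137939923) (nat_lit 304) (nat_lit 1137939923) (nat_lit 152) (nat_lit 1) (nat_lit 147) (nat_lit 1) (nat_lit 151) (nat_lit 1) (nat_lit 414) (nat_lit 411) (nat_lit 315)) (XT.lf (nat_lit 76) (nat_lit 106461038) (nat_lit 0) (nat_lit 3070598682) (nat_lit 380) (nat_lit 106461038) (nat_lit 148) (nat_lit 1) (nat_lit 147) (nat_lit 1) (nat_lit 152) (nat_lit 1) (nat_lit 415) (nat_lit 411) (nat_lit 314)))) (XT.nd (nat_lit 156) (nat_lit 684) (nat_lit 0) (XT.nd (nat_lit 78) (nat_lit 304) (nat_lit 0) (XT.lf (nat_lit 76) (nat_lit 1328355116)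 (nat_lit 0) (nat_lit 602372645) (nat_lit 380) (nat_lit 1328355116) (nat_lit 143) (nat_lit 1) (nat_lit 142) (nat_lit 1) (nat_lit 147) (nat_lit 1) (nat_lit 416) (nat_lit 411) (nat_lit 313)) (XT.lf (nat_lit 380) (nat_lit 1830798937) (nat_lit 0) (nat_lit 702096566) (nat_lit 304) (nat_lit 702096566) (nat_lit 143) (nat_lit 1) (nat_lit 138) (nat_lit 1) (nat_lit 142) (nat_lit 1) (nat_lit 417) (nat_lit 411) (nat_lit 312))) (XT.nd (nat_lit 78) (nat_lit 684) (nat_lit 0) (XT.lf (nat_lit 76) (nat_lit 504478742) (nat_lit 0) (nat_lit 2202178412) (nat_lit 380) (nat_lit 504478742) (nat_lit 139) (nat_lit 1) (nat_lit 138) (nat_lit 1) (nat_lit 143) (nat_lit 1) (nat_lit 418) (nat_lit 411) (nat_lit 311)) (XT.nd (nat_lit 78) (nat_lit 380) (nat_lit 0) (XT.lf (nat_lit 380) (nat_lit 188742553) (nat_lit 0) (nat_lit 1499360429) (nat_lit 304) (nat_lit 1499360429) (nat_lit 139) (nat_lit 1) (nat_lit 134) (nat_lit 1) (nat_lit 138) (nat_lit 1) (nat_lit 419) (nat_lit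 411) (nat_lit 310)) (XT.lf (nat_lit 380) (nat_lit 2551487060) (nat_lit 0) (nat_lit 306291421) (nat_lit 304) (nat_lit 306291421) (nat_lit 134) (nat_lit 1) (nat_lit 129) (nat_lit 1) (nat_lit 133) (nat_lit 1) (nat_lit 420) (nat_lit 411) (nat_lit 309))))))) (XT.nd (nat_lit 702) (nat_lit 1596) (nat_lit 0) (XT.nd (nat_lit 312) (nat_lit 912) (nat_lit 0) (XT.nd (nat_lit 156) (nat_lit 304) (nat_lit 0) (XT.nd (nat_lit 78) (nat_lit 304) (nat_lit 0) (XT.lf (nat_lit 76) (nat_lit 864222337) (nat_lit 0) (nat_lit 1412335066) (nat_lit 380) (nat_lit 864222337) (nat_lit 130) (nat_lit 1) (nat_lit 129) (nat_lit 1) (nat_lit 134) (nat_lit 1) (nat_lit 421) (nat_lit 411) (nat_lit 308)) (XT.lf (nat_lit 380) (nat_lit 912248698) (nat_lit 0) (nat_lit 1102757681) (nat_lit 304) (nat_lit 1102757681) (nat_lit 130) (nat_lit 1) (nat_lit 125) (nat_lit 1) (nat_lit 129) (nat_lit 1) (nat_lit 422) (nat_lit 411) (nat_lit 307))) (XT.nd (nat_lit 78) (nat_lit 304) (nat_lit 0) (XT.lf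 (nat_lit 76) (nat_lit 53007590) (nat_lit 0) (nat_lit 2989066027) (nat_lit 380) (nat_lit 53007590) (nat_lit 126) (nat_lit 1) (nat_lit 125) (nat_lit 1) (nat_lit 130) (nat_lit 1) (nat_lit 423) (nat_lit 411) (nat_lit 306)) (XT.lf (nat_lit 76) (nat_lit 1188762715) (nat_lit 0) (nat_lit 694840675) (nat_lit 304) (nat_lit 1188762715) (nat_lit 122) (nat_lit 1) (nat_lit 121) (nat_lit 1) (nat_lit 125) (nat_lit 1) (nat_lit 424) (nat_lit 411) (nat_lit 305)))) (XT.nd (nat_lit 156) (nat_lit 608) (nat_lit 0) (XT.nd (nat_lit 78) (nat_lit 0) (nat_lit 0) (XT.lf (nat_lit 380) (nat_lit 1566188310) (nat_lit 0) (nat_lit 741895685) (nat_lit 304) (nat_lit 741895685) (nat_lit 122) (nat_lit 1) (nat_lit 117) (nat_lit 1) (nat_lit 121) (nat_lit 1) (nat_lit 425) (nat_lit 411) (nat_lit 304)) (XT.lf (nat_lit 76) (nat_lit 380193826) (nat_lit 0) (nat_lit 2267441178) (nat_lit 380) (nat_lit 380193826) (nat_lit 118) (nat_lit 1) (nat_lit 117) (nat_lit 1) (nat_lit 122) (nat_lit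 1) (nat_lit 426) (nat_lit 411) (nat_lit 303))) (XT.nd (nat_lit 78) (nat_lit 304) (nat_lit 0) (XT.lf (nat_lit 76) (nat_lit 1480933842) (nat_lit 0) (nat_lit 43946345) (nat_lit 304) (nat_lit 1480933842) (nat_lit 114) (nat_lit 1) (nat_lit 113) (nat_lit 1) (nat_lit 117) (nat_lit 1) (nat_lit 427) (nat_lit 411) (nat_lit 302)) (XT.nd (nat_lit 78) (nat_lit 0) (nat_lit 0) (XT.lf (nat_lit 380) (nat_lit 2156142889) (nat_lit 0) (nat_lit 413944039) (nat_lit 304) (nat_lit 413944039) (nat_lit 114) (nat_lit 1) (nat_lit 109) (nat_lit 1) (nat_lit 113) (nat_lit 1) (nat_lit 428) (nat_lit 411) (nat_lit 301)) (XT.lf (nat_lit 76) (nat_lit 675968764) (nat_lit 0) (nat_lit 1610457514) (nat_lit 380) (nat_lit 675968764) (nat_lit 110) (nat_lit 1) (nat_lit 109) (nat_lit 1) (nat_lit 114) (nat_lit 1) (nat_lit 429) (nat_lit 411) (nat_lit 300)))))) (XT.nd (nat_lit 312) (nat_lit 760) (nat_lit 0) (XT.nd (nat_lit 156) (nat_lit 228) (nat_lit 0) (XT.nd (nat_lit 78) (nat_lit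 380) (nat_lit 0) (XT.lf (nat_lit 304) (nat_lit 552905784) (nat_lit 0) (nat_lit 1194034910) (nat_lit 228) (nat_lit 1194034910) (nat_lit 110) (nat_lit 1) (nat_lit 106) (nat_lit 1) (nat_lit 109) (nat_lit 1) (nat_lit 430) (nat_lit 411) (nat_lit 299)) (XT.lf (nat_lit 380) (nat_lit 2687263318) (nat_lit 0) (nat_lit 116290016) (nat_lit 304) (nat_lit 116290016) (nat_lit 106) (nat_lit 1) (nat_lit 101) (nat_lit 1) (nat_lit 105) (nat_lit 1) (nat_lit 431) (nat_lit 411) (nat_lit 298))) (XT.nd (nat_lit 78) (nat_lit 228) (nat_lit 0) (XT.lf (nat_lit 76) (nat_lit 942851863) (nat_lit 0) (nat_lit 1013002390) (nat_lit 380) (nat_lit 942851863) (nat_lit 102) (nat_lit 1) (nat_lit 101) (nat_lit 1) (nat_lit 106) (nat_lit 1) (nat_lit 432) (nat_lit 411) (nat_lit 297)) (XT.lf (nat_lit 304) (nat_lit 1093196501) (nat_lit 0) (nat_lit 892328081) (nat_lit 228) (nat_lit 892328081) (nat_lit 102) (nat_lit 1) (nat_lit 98) (nat_lit 1) (nat_lit 101) (nat_lit 1) (nat_lit 433)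 (nat_lit 411) (nat_lit 296)))) (XT.nd (nat_lit 156) (nat_lit 456) (nat_lit 0) (XT.nd (nat_lit 78) (nat_lit 304) (nat_lit 0) (XT.lf (nat_lit 76) (nat_lit 154494460) (nat_lit 0) (nat_lit 2548277224) (nat_lit 304) (nat_lit 154494460) (nat_lit 99) (nat_lit 1) (nat_lit 98) (nat_lit 1) (nat_lit 102) (nat_lit 1) (nat_lit 434) (nat_lit 411) (nat_lit 295)) (XT.lf (nat_lit 76) (nat_lit 1183168217) (nat_lit 0) (nat_lit 470356234) (nat_lit 304) (nat_lit 1183168217) (nat_lit 95) (nat_lit 1) (nat_lit 94) (nat_lit 1) (nat_lit 98) (nat_lit 1) (nat_lit 435) (nat_lit 411) (nat_lit 294))) (XT.nd (nat_lit 78) (nat_lit 228) (nat_lit 0) (XT.lf (nat_lit 304) (nat_lit 1580922060) (nat_lit 0) (nat_lit 617730462) (nat_lit 228) (nat_lit 617730462) (nat_lit 95) (nat_lit 1) (nat_lit 91) (nat_lit 1) (nat_lit 94) (nat_lit 1) (nat_lit 436) (nat_lit 411) (nat_lit 293)) (XT.nd (nat_lit 78) (nat_lit 228) (nat_lit 0) (XT.lf (nat_lit 76) (nat_lit 400219141) (nat_lit 0) (nat_lit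 1995827955) (nat_lit 304) (nat_lit 400219141) (nat_lit 92) (nat_lit 1) (nat_lit 91) (nat_lit 1) (nat_lit 95) (nat_lit 1) (nat_lit 437) (nat_lit 411) (nat_lit 292)) (XT.lf (nat_lit 304) (nat_lit 22127664) (nat_lit 0) (nat_lit 1377079408) (nat_lit 228) (nat_lit 1377079408) (nat_lit 92) (nat_lit 1) (nat_lit 88) (nat_lit 1) (nat_lit 91) (nat_lit 1) (nat_lit 438) (nat_lit 411) (nat_lit 291))))))))
noncomputable def ec117 : XT := (XT.nd (nat_lit 51012) (nat_lit 0) (nat_lit 25612) (XT.nd (nat_lit 50310) (nat_lit 0) (nat_lit 31616) (XT.nd (nat_lit 49920) (nat_lit 0) (nat_lit 31464) (XT.nd (nat_lit 49764) (nat_lit 0) (nat_lit 31388) (XT.nd (nat_lit 78) (nat_lit 0) (nat_lit 0) (XT.lf (nat_lit 304) (nat_lit 2020309449) (nat_lit 0) (nat_lit 368096526) (nat_lit 228) (nat_lit 368096526) (nat_lit 88) (nat_lit 1) (nat_lit 84) (nat_lit 1) (nat_lit 87) (nat_lit 1) (nat_lit 439) (nat_lit 411) (nat_lit 290)) (XT.lf (nat_lit 76) (nat_lit 622181938) (nat_lit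 0) (nat_lit 1492477407) (nat_lit 304) (nat_lit 622181938) (nat_lit 85) (nat_lit 1) (nat_lit 84) (nat_lit 1) (nat_lit 88) (nat_lit 1) (nat_lit 440) (nat_lit 411) (nat_lit 289))) (XT.nd (nat_lit 78) (nat_lit 0) (nat_lit 0) (XT.lf (nat_lit 1900) (nat_lit 1271132584) (nat_lit 0) (nat_lit 1281762209) (nat_lit 1900) (nat_lit 1271132584) (nat_lit 522) (nat_lit 1) (nat_lit 497) (nat_lit 0) (nat_lit 522) (nat_lit 0) (nat_lit 316) (nat_lit 412) (nat_lit 412)) (XT.lf (nat_lit 1900) (nat_lit 5026249356) (nat_lit 76) (nat_lit 1273329563) (nat_lit 0) (nat_lit 1273329563) (nat_lit 522) (nat_lit 1) (nat_lit 498) (nat_lit 1) (nat_lit 497) (nat_lit 0) (nat_lit 317) (nat_lit 412) (nat_lit 411)))) (XT.nd (nat_lit 156) (nat_lit 0) (nat_lit 76) (XT.nd (nat_lit 78) (nat_lit 0) (nat_lit 0) (XT.lf (nat_lit 1900) (nat_lit 2467912359) (nat_lit 0) (nat_lit 2562758271) (nat_lit 1824) (nat_lit 2467912359) (nat_lit 523) (nat_lit 1) (nat_lit 498) (nat_lit 1) (nat_lit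 522) (nat_lit 1) (nat_lit 318) (nat_lit 412) (nat_lit 410)) (XT.lf (nat_lit 1900) (nat_lit 4830312860) (nat_lit 76) (nat_lit 1297535702) (nat_lit 0) (nat_lit 1297535702) (nat_lit 523) (nat_lit 1) (nat_lit 499) (nat_lit 1) (nat_lit 498) (nat_lit 1) (nat_lit 319) (nat_lit 412) (nat_lit 409))) (XT.nd (nat_lit 78) (nat_lit 0) (nat_lit 0) (XT.lf (nat_lit 1900) (nat_lit 2347440518) (nat_lit 0) (nat_lit 2658112542) (nat_lit 1824) (nat_lit 2347440518) (nat_lit 524) (nat_lit 1) (nat_lit 499) (nat_lit 1) (nat_lit 523) (nat_lit 1) (nat_lit 320) (nat_lit 412) (nat_lit 408)) (XT.nd (nat_lit 78) (nat_lit 0) (nat_lit 76) (XT.lf (nat_lit 1900) (nat_lit 4544617155) (nat_lit 76) (nat_lit 1368531134) (nat_lit 0) (nat_lit 1368531134) (nat_lit 524) (nat_lit 1) (nat_lit 500) (nat_lit 1) (nat_lit 499) (nat_lit 1) (nat_lit 321) (nat_lit 412) (nat_lit 407)) (XT.lf (nat_lit 1900) (nat_lit 2183601411) (nat_lit 0) (nat_lit 2843970629) (nat_lit 1824) (nat_lit 2183601411)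 (nat_lit 525) (nat_lit 1) (nat_lit 500) (nat_lit 1) (nat_lit 524) (nat_lit 1) (nat_lit 322) (nat_lit 412) (nat_lit 406)))))) (XT.nd (nat_lit 312) (nat_lit 0) (nat_lit 152) (XT.nd (nat_lit 156) (nat_lit 0) (nat_lit 76) (XT.nd (nat_lit 78) (nat_lit 0) (nat_lit 76) (XT.lf (nat_lit 1900) (nat_lit 4174556868) (nat_lit 76) (nat_lit 1483563105) (nat_lit 0) (nat_lit 1483563105) (nat_lit 525) (nat_lit 1) (nat_lit 501) (nat_lit 1) (nat_lit 500) (nat_lit 1) (nat_lit 323) (nat_lit 412) (nat_lit 405)) (XT.lf (nat_lit 1900) (nat_lit 1979021107) (nat_lit 0) (nat_lit 3114970970) (nat_lit 1824) (nat_lit 1979021107) (nat_lit 526) (nat_lit 1) (nat_lit 501) (nat_lit 1) (nat_lit 525) (nat_lit 1) (nat_lit 324) (nat_lit 412) (nat_lit 404))) (XT.nd (nat_lit 78) (nat_lit 0) (nat_lit 76) (XT.lf (nat_lit 1900) (nat_lit 3725279716) (nat_lit 76) (nat_lit 1640004107) (nat_lit 0) (nat_lit 1640004107) (nat_lit 526) (nat_lit 1) (nat_lit 502) (nat_lit 1) (nat_lit 501)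 (nat_lit 1) (nat_lit 325) (nat_lit 412) (nat_lit 403)) (XT.lf (nat_lit 1900) (nat_lit 1736205230) (nat_lit 0) (nat_lit 3465996421) (nat_lit 1824) (nat_lit 1736205230) (nat_lit 527) (nat_lit 1) (nat_lit 502) (nat_lit 1) (nat_lit 526) (nat_lit 1) (nat_lit 326) (nat_lit 412) (nat_lit 402)))) (XT.nd (nat_lit 156) (nat_lit 0) (nat_lit 76) (XT.nd (nat_lit 78) (nat_lit 0) (nat_lit 76) (XT.lf (nat_lit 1900) (nat_lit 3201696819) (nat_lit 76) (nat_lit 1835346649) (nat_lit 0) (nat_lit 1835346649) (nat_lit 527) (nat_lit 1) (nat_lit 503) (nat_lit 1) (nat_lit 502) (nat_lit 1) (nat_lit 327) (nat_lit 412) (nat_lit 401)) (XT.lf (nat_lit 1900) (nat_lit 1457543999) (nat_lit 0) (nat_lit 3892164051) (nat_lit 1824) (nat_lit 1457543999) (nat_lit 528) (nat_lit 1) (nat_lit 503) (nat_lit 1) (nat_lit 527) (nat_lit 1) (nat_lit 328) (nat_lit 412) (nat_lit 400))) (XT.nd (nat_lit 78) (nat_lit 0) (nat_lit 76) (XT.lf (nat_lit 1900) (nat_lit 2608492614) (nat_lit 76) (nat_lit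 2067198248) (nat_lit 0) (nat_lit 2067198248) (nat_lit 528) (nat_lit 1) (nat_lit 504) (nat_lit 1) (nat_lit 503) (nat_lit 1) (nat_lit 329) (nat_lit 412) (nat_lit 399)) (XT.nd (nat_lit 78) (nat_lit 0) (nat_lit 0) (XT.lf (nat_lit 1900) (nat_lit 1145317060) (nat_lit 0) (nat_lit 4388815351) (nat_lit 1824) (nat_lit 1145317060) (nat_lit 529) (nat_lit 1) (nat_lit 504) (nat_lit 1) (nat_lit 528) (nat_lit 1) (nat_lit 330) (nat_lit 412) (nat_lit 398)) (XT.lf (nat_lit 1900) (nat_lit 1950134360) (nat_lit 76) (nat_lit 2333276616) (nat_lit 0) (nat_lit 2333276616) (nat_lit 529) (nat_lit 1) (nat_lit 505) (nat_lit 1) (nat_lit 504) (nat_lit 1) (nat_lit 331) (nat_lit 412) (nat_lit 397))))))) (XT.nd (nat_lit 702) (nat_lit 4636) (nat_lit 0) (XT.nd (nat_lit 312) (nat_lit 1748) (nat_lit 0) (XT.nd (nat_lit 156) (nat_lit 0) (nat_lit 76) (XT.nd (nat_lit 78) (nat_lit 0) (nat_lit 0) (XT.lf (nat_lit 1900) (nat_lit 801698134) (nat_lit 0) (nat_lit 4951506840) (nat_lit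 1824) (nat_lit 801698134) (nat_lit 530) (nat_lit 1) (nat_lit 505) (nat_lit 1) (nat_lit 529) (nat_lit 1) (nat_lit 332) (nat_lit 412) (nat_lit 396)) (XT.lf (nat_lit 1900) (nat_lit 1230881260) (nat_lit 76) (nat_lit 2631405042) (nat_lit 0) (nat_lit 2631405042) (nat_lit 530) (nat_lit 1) (nat_lit 506) (nat_lit 1) (nat_lit 505) (nat_lit 1) (nat_lit 333) (nat_lit 412) (nat_lit 395))) (XT.nd (nat_lit 78) (nat_lit 0) (nat_lit 0) (XT.lf (nat_lit 1900) (nat_lit 428759468) (nat_lit 0) (nat_lit 5576001042) (nat_lit 1824) (nat_lit 428759468) (nat_lit 531) (nat_lit 1) (nat_lit 506) (nat_lit 1) (nat_lit 530) (nat_lit 1) (nat_lit 334) (nat_lit 412) (nat_lit 394)) (XT.lf (nat_lit 1900) (nat_lit 454793225) (nat_lit 76) (nat_lit 2959507959) (nat_lit 0) (nat_lit 2959507959) (nat_lit 531) (nat_lit 1) (nat_lit 507) (nat_lit 1) (nat_lit 506) (nat_lit 1) (nat_lit 335) (nat_lit 412) (nat_lit 393)))) (XT.nd (nat_lit 156) (nat_lit 0) (nat_lit 0) (XT.nd (nat_lit 78)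 (nat_lit 1900) (nat_lit 0) (XT.lf (nat_lit 1900) (nat_lit 28476110) (nat_lit 0) (nat_lit 6258257833) (nat_lit 1824) (nat_lit 28476110) (nat_lit 532) (nat_lit 1) (nat_lit 507) (nat_lit 1) (nat_lit 531) (nat_lit 1) (nat_lit 336) (nat_lit 412) (nat_lit 392)) (XT.lf (nat_lit 1976) (nat_lit 2943775913) (nat_lit 0) (nat_lit 369352231) (nat_lit 1900) (nat_lit 2943775913) (nat_lit 508) (nat_lit 1) (nat_lit 482) (nat_lit 1) (nat_lit 507) (nat_lit 1) (nat_lit 337) (nat_lit 412) (nat_lit 391))) (XT.nd (nat_lit 78) (nat_lit 0) (nat_lit 76) (XT.lf (nat_lit 1976) (nat_lit 5410366383) (nat_lit 76) (nat_lit 394656368) (nat_lit 0) (nat_lit 394656368) (nat_lit 508) (nat_lit 1) (nat_lit 483) (nat_lit 1) (nat_lit 482) (nat_lit 1) (nat_lit 338) (nat_lit 412) (nat_lit 390)) (XT.nd (nat_lit 78) (nat_lit 0) (nat_lit 0) (XT.lf (nat_lit 1976) (nat_lit 2453353638) (nat_lit 0) (nat_lit 1236166410) (nat_lit 1900) (nat_lit 2453353638) (nat_lit 509) (nat_lit 1) (nat_lit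 483) (nat_lit 1) (nat_lit 508) (nat_lit 1) (nat_lit 339) (nat_lit 412) (nat_lit 389)) (XT.lf (nat_lit 1976) (nat_lit 4404791166) (nat_lit 76) (nat_lit 841115728) (nat_lit 0) (nat_lit 841115728) (nat_lit 509) (nat_lit 1) (nat_lit 484) (nat_lit 1) (nat_lit 483) (nat_lit 1) (nat_lit 340) (nat_lit 412) (nat_lit 388)))))) (XT.nd (nat_lit 390) (nat_lit 2736) (nat_lit 0) (XT.nd (nat_lit 156) (nat_lit 912) (nat_lit 0) (XT.nd (nat_lit 78) (nat_lit 1140) (nat_lit 0) (XT.lf (nat_lit 76) (nat_lit 1941772872) (nat_lit 0) (nat_lit 2148148955) (nat_lit 1900) (nat_lit 1941772872) (nat_lit 485) (nat_lit 1) (nat_lit 484) (nat_lit 1) (nat_lit 509) (nat_lit 1) (nat_lit 341) (nat_lit 412) (nat_lit 387)) (XT.lf (nat_lit 1216) (nat_lit 3358388263) (nat_lit 0) (nat_lit 1309393133) (nat_lit 1140) (nat_lit 1309393133) (nat_lit 485) (nat_lit 1) (nat_lit 469) (nat_lit 1) (nat_lit 484) (nat_lit 1) (nat_lit 342) (nat_lit 412) (nat_lit 386))) (XT.nd (nat_lit 78) (nat_lit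 912) (nat_lit 0) (XT.lf (nat_lit 76) (nat_lit 1410643502) (nat_lit 0) (nat_lit 3102000279) (nat_lit 1216) (nat_lit 1410643502) (nat_lit 470) (nat_lit 1) (nat_lit 469) (nat_lit 1) (nat_lit 485) (nat_lit 1) (nat_lit 343) (nat_lit 412) (nat_lit 385)) (XT.nd (nat_lit 78) (nat_lit 0) (nat_lit 0) (XT.lf (nat_lit 988) (nat_lit 2274309248) (nat_lit 0) (nat_lit 1797873624) (nat_lit 912) (nat_lit 1797873624) (nat_lit 470) (nat_lit 1) (nat_lit 457) (nat_lit 1) (nat_lit 469) (nat_lit 1) (nat_lit 344) (nat_lit 412) (nat_lit 384)) (XT.lf (nat_lit 76) (nat_lit 861497447) (nat_lit 0) (nat_lit 4094579230) (nat_lit 988) (nat_lit 861497447) (nat_lit 458) (nat_lit 1) (nat_lit 457) (nat_lit 1) (nat_lit 470) (nat_lit 1) (nat_lit 345) (nat_lit 412) (nat_lit 383))))) (XT.nd (nat_lit 156) (nat_lit 1824) (nat_lit 0) (XT.nd (nat_lit 78) (nat_lit 0) (nat_lit 0) (XT.lf (nat_lit 988) (nat_lit 1155552604) (nat_lit 0) (nat_lit 2305020008) (nat_lit 912) (nat_lit 2305020008)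 (nat_lit 458) (nat_lit 1) (nat_lit 445) (nat_lit 1) (nat_lit 457) (nat_lit 1) (nat_lit 346) (nat_lit 412) (nat_lit 382)) (XT.lf (nat_lit 76) (nat_lit 295791983) (nat_lit 0) (nat_lit 5122896343) (nat_lit 988) (nat_lit 295791983) (nat_lit 446) (nat_lit 1) (nat_lit 445) (nat_lit 1) (nat_lit 458) (nat_lit 1) (nat_lit 347) (nat_lit 412) (nat_lit 381))) (XT.nd (nat_lit 78) (nat_lit 988) (nat_lit 0) (XT.lf (nat_lit 912) (nat_lit 4970273) (nat_lit 0) (nat_lit 2829369540) (nat_lit 836) (nat_lit 2829369540) (nat_lit 446) (nat_lit 1) (nat_lit 434) (nat_lit 1) (nat_lit 445) (nat_lit 1) (nat_lit 348) (nat_lit 412) (nat_lit 380)) (XT.nd (nat_lit 78) (nat_lit 0) (nat_lit 0) (XT.lf (nat_lit 988) (nat_lit 5047361725) (nat_lit 0) (nat_lit 283211480) (nat_lit 912) (nat_lit 283211480) (nat_lit 434) (nat_lit 1) (nat_lit 421) (nat_lit 1) (nat_lit 433) (nat_lit 1) (nat_lit 349) (nat_lit 412) (nat_lit 379)) (XT.lf (nat_lit 76) (nat_lit 2202431782) (nat_lit 0)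 (nat_lit 1159319318) (nat_lit 988) (nat_lit 2202431782) (nat_lit 422) (nat_lit 1) (nat_lit 421) (nat_lit 1) (nat_lit 434) (nat_lit 1) (nat_lit 350) (nat_lit 412) (nat_lit 378))))))))
noncomputable def ec118 : XT := (XT.nd (nat_lit 1404) (nat_lit 6992) (nat_lit 0) (XT.nd (nat_lit 702) (nat_lit 3572) (nat_lit 0) (XT.nd (nat_lit 312) (nat_lit 2356) (nat_lit 0) (XT.nd (nat_lit 156) (nat_lit 836) (nat_lit 0) (XT.nd (nat_lit 78) (nat_lit 0) (nat_lit 0) (XT.lf (nat_lit 912) (nat_lit 3767336308) (nat_lit 0) (nat_lit 874033903) (nat_lit 836) (nat_lit 874033903) (nat_lit 422) (nat_lit 1) (nat_lit 410) (nat_lit 1) (nat_lit 421) (nat_lit 1) (nat_lit 351) (nat_lit 412) (nat_lit 377)) (XT.lf (nat_lit 76) (nat_lit 1558680169) (nat_lit 0) (nat_lit 2349732254) (nat_lit 912) (nat_lit 1558680169) (nat_lit 411) (nat_lit 1) (nat_lit 410) (nat_lit 1) (nat_lit 422) (nat_lit 1) (nat_lit 352) (nat_lit 412) (nat_lit 376))) (XT.nd (nat_lit 78) (nat_lit 0) (nat_lit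 0) (XT.lf (nat_lit 912) (nat_lit 2464670229) (nat_lit 0) (nat_lit 1477377505) (nat_lit 836) (nat_lit 1477377505) (nat_lit 411) (nat_lit 1) (nat_lit 399) (nat_lit 1) (nat_lit 410) (nat_lit 1) (nat_lit 353) (nat_lit 412) (nat_lit 375)) (XT.lf (nat_lit 76) (nat_lit 904227823) (nat_lit 0) (nat_lit 3563916851) (nat_lit 912) (nat_lit 904227823) (nat_lit 400) (nat_lit 1) (nat_lit 399) (nat_lit 1) (nat_lit 411) (nat_lit 1) (nat_lit 354) (nat_lit 412) (nat_lit 374)))) (XT.nd (nat_lit 156) (nat_lit 1596) (nat_lit 0) (XT.nd (nat_lit 78) (nat_lit 0) (nat_lit 0) (XT.lf (nat_lit 836) (nat_lit 1141661196) (nat_lit 0) (nat_lit 2092060710) (nat_lit 760) (nat_lit 2092060710) (nat_lit 400) (nat_lit 1) (nat_lit 389) (nat_lit 1) (nat_lit 399) (nat_lit 1) (nat_lit 355) (nat_lit 412) (nat_lit 373)) (XT.lf (nat_lit 76) (nat_lit 240190238) (nat_lit 0) (nat_lit 4799577537) (nat_lit 836) (nat_lit 240190238) (nat_lit 390) (nat_lit 1) (nat_lit 389) (nat_lit 1) (nat_lit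 400) (nat_lit 1) (nat_lit 356) (nat_lit 412) (nat_lit 372))) (XT.nd (nat_lit 78) (nat_lit 760) (nat_lit 0) (XT.lf (nat_lit 76) (nat_lit 2518746686) (nat_lit 0) (nat_lit 196893512) (nat_lit 836) (nat_lit 2518746686) (nat_lit 379) (nat_lit 1) (nat_lit 378) (nat_lit 1) (nat_lit 389) (nat_lit 1) (nat_lit 357) (nat_lit 412) (nat_lit 371)) (XT.nd (nat_lit 78) (nat_lit 0) (nat_lit 0) (XT.lf (nat_lit 836) (nat_lit 4330502044) (nat_lit 0) (nat_lit 429529571) (nat_lit 760) (nat_lit 429529571) (nat_lit 379) (nat_lit 1) (nat_lit 368) (nat_lit 1) (nat_lit 378) (nat_lit 1) (nat_lit 358) (nat_lit 412) (nat_lit 370)) (XT.lf (nat_lit 76) (nat_lit 1804347234) (nat_lit 0) (nat_lit 1536357624) (nat_lit 836) (nat_lit 1804347234) (nat_lit 369) (nat_lit 1) (nat_lit 368) (nat_lit 1) (nat_lit 379) (nat_lit 1) (nat_lit 359) (nat_lit 412) (nat_lit 369)))))) (XT.nd (nat_lit 312) (nat_lit 2128) (nat_lit 0) (XT.nd (nat_lit 156) (nat_lit 684) (nat_lit 0) (XT.nd (nat_lit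 78) (nat_lit 0) (nat_lit 0) (XT.lf (nat_lit 836) (nat_lit 2890932367) (nat_lit 0) (nat_lit 1105142585) (nat_lit 760) (nat_lit 1105142585) (nat_lit 369) (nat_lit 1) (nat_lit 358) (nat_lit 1) (nat_lit 368) (nat_lit 1) (nat_lit 360) (nat_lit 412) (nat_lit 368)) (XT.lf (nat_lit 76) (nat_lit 1084049392) (nat_lit 0) (nat_lit 2889768302) (nat_lit 836) (nat_lit 1084049392) (nat_lit 359) (nat_lit 1) (nat_lit 358) (nat_lit 1) (nat_lit 369) (nat_lit 1) (nat_lit 361) (nat_lit 412) (nat_lit 367))) (XT.nd (nat_lit 78) (nat_lit 0) (nat_lit 0) (XT.lf (nat_lit 760) (nat_lit 1440426777) (nat_lit 0) (nat_lit 1787283546) (nat_lit 684) (nat_lit 1787283546) (nat_lit 359) (nat_lit 1) (nat_lit 349) (nat_lit 1) (nat_lit 358) (nat_lit 1) (nat_lit 362) (nat_lit 412) (nat_lit 366)) (XT.lf (nat_lit 76) (nat_lit 358741798) (nat_lit 0) (nat_lit 4255290660) (nat_lit 760) (nat_lit 358741798) (nat_lit 350) (nat_lit 1) (nat_lit 349) (nat_lit 1) (nat_lit 359) (nat_lit 1)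 (nat_lit 363) (nat_lit 412) (nat_lit 365)))) (XT.nd (nat_lit 156) (nat_lit 684) (nat_lit 0) (XT.nd (nat_lit 78) (nat_lit 684) (nat_lit 0) (XT.lf (nat_lit 76) (nat_lit 2455902173) (nat_lit 0) (nat_lit 19026703) (nat_lit 760) (nat_lit 2455902173) (nat_lit 340) (nat_lit 1) (nat_lit 339) (nat_lit 1) (nat_lit 349) (nat_lit 1) (nat_lit 364) (nat_lit 412) (nat_lit 364)) (XT.lf (nat_lit 760) (nat_lit 4152933894) (nat_lit 0) (nat_lit 368295308) (nat_lit 684) (nat_lit 368295308) (nat_lit 340) (nat_lit 1) (nat_lit 330) (nat_lit 1) (nat_lit 339) (nat_lit 1) (nat_lit 365) (nat_lit 412) (nat_lit 363))) (XT.nd (nat_lit 78) (nat_lit 684) (nat_lit 0) (XT.lf (nat_lit 76) (nat_lit 1690720190) (nat_lit 0) (nat_lit 1467048249) (nat_lit 760) (nat_lit 1690720190) (nat_lit 331) (nat_lit 1) (nat_lit 330) (nat_lit 1) (nat_lit 340) (nat_lit 1) (nat_lit 366) (nat_lit 412) (nat_lit 362)) (XT.nd (nat_lit 78) (nat_lit 0) (nat_lit 0) (XT.lf (nat_lit 760) (nat_lit 2615422557)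 (nat_lit 0) (nat_lit 1096322784) (nat_lit 684) (nat_lit 1096322784) (nat_lit 331) (nat_lit 1) (nat_lit 321) (nat_lit 1) (nat_lit 330) (nat_lit 1) (nat_lit 367) (nat_lit 412) (nat_lit 361)) (XT.lf (nat_lit 76) (nat_lit 923552006) (nat_lit 0) (nat_lit 2920996548) (nat_lit 760) (nat_lit 923552006) (nat_lit 322) (nat_lit 1) (nat_lit 321) (nat_lit 1) (nat_lit 331) (nat_lit 1) (nat_lit 368) (nat_lit 412) (nat_lit 360))))))) (XT.nd (nat_lit 702) (nat_lit 3268) (nat_lit 0) (XT.nd (nat_lit 312) (nat_lit 1824) (nat_lit 0) (XT.nd (nat_lit 156) (nat_lit 1292) (nat_lit 0) (XT.nd (nat_lit 78) (nat_lit 0) (nat_lit 0) (XT.lf (nat_lit 684) (nat_lit 1074633455) (nat_lit 0) (nat_lit 1826953206) (nat_lit 608) (nat_lit 1826953206) (nat_lit 322) (nat_lit 1) (nat_lit 313) (nat_lit 1) (nat_lit 321) (nat_lit 1) (nat_lit 369) (nat_lit 412) (nat_lit 359)) (XT.lf (nat_lit 76) (nat_lit 155096300) (nat_lit 0) (nat_lit 4379422729) (nat_lit 684) (nat_lit 155096300)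 (nat_lit 314) (nat_lit 1) (nat_lit 313) (nat_lit 1) (nat_lit 322) (nat_lit 1) (nat_lit 370) (nat_lit 412) (nat_lit 358))) (XT.nd (nat_lit 78) (nat_lit 608) (nat_lit 0) (XT.lf (nat_lit 76) (nat_lit 2094447963) (nat_lit 0) (nat_lit 461932370) (nat_lit 684) (nat_lit 2094447963) (nat_lit 305) (nat_lit 1) (nat_lit 304) (nat_lit 1) (nat_lit 313) (nat_lit 1) (nat_lit 371) (nat_lit 412) (nat_lit 357)) (XT.lf (nat_lit 684) (nat_lit 3392766610) (nat_lit 0) (nat_lit 609948175) (nat_lit 608) (nat_lit 609948175) (nat_lit 305) (nat_lit 1) (nat_lit 296) (nat_lit 1) (nat_lit 304) (nat_lit 1) (nat_lit 372) (nat_lit 412) (nat_lit 356)))) (XT.nd (nat_lit 156) (nat_lit 1216) (nat_lit 0) (XT.nd (nat_lit 78) (nat_lit 608) (nat_lit 0) (XT.lf (nat_lit 76) (nat_lit 1294889510) (nat_lit 0) (nat_lit 1985026382) (nat_lit 684) (nat_lit 1294889510) (nat_lit 297) (nat_lit 1) (nat_lit 296) (nat_lit 1) (nat_lit 305) (nat_lit 1) (nat_lit 373) (nat_lit 412) (nat_lit 355))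 (XT.lf (nat_lit 684) (nat_lit 1789476900) (nat_lit 0) (nat_lit 1373978591) (nat_lit 608) (nat_lit 1373978591) (nat_lit 297) (nat_lit 1) (nat_lit 288) (nat_lit 1) (nat_lit 296) (nat_lit 1) (nat_lit 374) (nat_lit 412) (nat_lit 354))) (XT.nd (nat_lit 78) (nat_lit 1216) (nat_lit 0) (XT.lf (nat_lit 76) (nat_lit 496508069) (nat_lit 0) (nat_lit 3507547026) (nat_lit 684) (nat_lit 496508069) (nat_lit 289) (nat_lit 1) (nat_lit 288) (nat_lit 1) (nat_lit 297) (nat_lit 1) (nat_lit 375) (nat_lit 412) (nat_lit 353)) (XT.nd (nat_lit 78) (nat_lit 684) (nat_lit 0) (XT.lf (nat_lit 608) (nat_lit 189096286) (nat_lit 0) (nat_lit 2137433224) (nat_lit 532) (nat_lit 2137433224) (nat_lit 289) (nat_lit 1) (nat_lit 281) (nat_lit 1) (nat_lit 288) (nat_lit 1) (nat_lit 376) (nat_lit 412) (nat_lit 352)) (XT.lf (nat_lit 684) (nat_lit 3831535682) (nat_lit 0) (nat_lit 298181648) (nat_lit 608) (nat_lit 298181648) (nat_lit 281) (nat_lit 1) (nat_lit 272) (nat_lit 1) (nat_lit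 280) (nat_lit 1) (nat_lit 377) (nat_lit 412) (nat_lit 351)))))) (XT.nd (nat_lit 390) (nat_lit 1596) (nat_lit 0) (XT.nd (nat_lit 156) (nat_lit 1140) (nat_lit 0) (XT.nd (nat_lit 78) (nat_lit 532) (nat_lit 0) (XT.lf (nat_lit 76) (nat_lit 1501576781) (nat_lit 0) (nat_lit 1388867181) (nat_lit 684) (nat_lit 1501576781) (nat_lit 273) (nat_lit 1) (nat_lit 272) (nat_lit 1) (nat_lit 281) (nat_lit 1) (nat_lit 378) (nat_lit 412) (nat_lit 350)) (XT.lf (nat_lit 608) (nat_lit 2181876948) (nat_lit 0) (nat_lit 1087394947) (nat_lit 532) (nat_lit 1087394947) (nat_lit 273) (nat_lit 1) (nat_lit 265) (nat_lit 1) (nat_lit 272) (nat_lit 1) (nat_lit 379) (nat_lit 412) (nat_lit 349))) (XT.nd (nat_lit 78) (nat_lit 1140) (nat_lit 0) (XT.lf (nat_lit 76) (nat_lit 681127139) (nat_lit 0) (nat_lit 2959468551) (nat_lit 608) (nat_lit 681127139) (nat_lit 266) (nat_lit 1) (nat_lit 265) (nat_lit 1) (nat_lit 273) (nat_lit 1) (nat_lit 380) (nat_lit 412) (nat_lit 348)) (XT.nd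 (nat_lit 78) (nat_lit 608) (nat_lit 0) (XT.lf (nat_lit 608) (nat_lit 539232455) (nat_lit 0) (nat_lit 1873924885) (nat_lit 532) (nat_lit 1873924885) (nat_lit 266) (nat_lit 1) (nat_lit 258) (nat_lit 1) (nat_lit 265) (nat_lit 1) (nat_lit 381) (nat_lit 412) (nat_lit 347)) (XT.lf (nat_lit 608) (nat_lit 3983541752) (nat_lit 0) (nat_lit 134719200) (nat_lit 532) (nat_lit 134719200) (nat_lit 258) (nat_lit 1) (nat_lit 250) (nat_lit 1) (nat_lit 257) (nat_lit 1) (nat_lit 382) (nat_lit 412) (nat_lit 346))))) (XT.nd (nat_lit 156) (nat_lit 1064) (nat_lit 0) (XT.nd (nat_lit 78) (nat_lit 532) (nat_lit 0) (XT.lf (nat_lit 76) (nat_lit 1568888762) (nat_lit 0) (nat_lit 1081183300) (nat_lit 608) (nat_lit 1568888762) (nat_lit 251) (nat_lit 1) (nat_lit 250) (nat_lit 1) (nat_lit 258) (nat_lit 1) (nat_lit 383) (nat_lit 412) (nat_lit 345)) (XT.lf (nat_lit 608) (nat_lit 2301483861) (nat_lit 0) (nat_lit 941992605) (nat_lit 532) (nat_lit 941992605) (nat_lit 251) (nat_lit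 1) (nat_lit 243) (nat_lit 1) (nat_lit 250) (nat_lit 1) (nat_lit 384) (nat_lit 412) (nat_lit 344))) (XT.nd (nat_lit 78) (nat_lit 1064) (nat_lit 0) (XT.lf (nat_lit 76) (nat_lit 733173249) (nat_lit 0) (nat_lit 2685988665) (nat_lit 608) (nat_lit 733173249) (nat_lit 244) (nat_lit 1) (nat_lit 243) (nat_lit 1) (nat_lit 251) (nat_lit 1) (nat_lit 385) (nat_lit 412) (nat_lit 343)) (XT.nd (nat_lit 78) (nat_lit 608) (nat_lit 0) (XT.lf (nat_lit 532) (nat_lit 629913399) (nat_lit 0) (nat_lit 1744795525) (nat_lit 456) (nat_lit 1744795525) (nat_lit 244) (nat_lit 1) (nat_lit 237) (nat_lit 1) (nat_lit 243) (nat_lit 1) (nat_lit 386) (nat_lit 412) (nat_lit 342)) (XT.lf (nat_lit 608) (nat_lit 3894172617) (nat_lit 0) (nat_lit 96506217) (nat_lit 532) (nat_lit 96506217) (nat_lit 237) (nat_lit 1) (nat_lit 229) (nat_lit 1) (nat_lit 236) (nat_lit 1) (nat_lit 387) (nat_lit 412) (nat_lit 341))))))))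
noncomputable def ec119 : XT := (XT.nd (nat_lit 1404) (nat_lit 4104) (nat_lit 0) (XT.nd (nat_lit 702) (nat_lit 2128) (nat_lit 0) (XT.nd (nat_lit 312) (nat_lit 1368) (nat_lit 0) (XT.nd (nat_lit 156) (nat_lit 456) (nat_lit 0) (XT.nd (nat_lit 78) (nat_lit 456) (nat_lit 0) (XT.lf (nat_lit 76) (nat_lit 1518963461) (nat_lit 0) (nat_lit 1016986580) (nat_lit 608) (nat_lit 1518963461) (nat_lit 230) (nat_lit 1) (nat_lit 229) (nat_lit 1) (nat_lit 237) (nat_lit 1) (nat_lit 388) (nat_lit 412) (nat_lit 340)) (XT.lf (nat_lit 532) (nat_lit 2191779659) (nat_lit 0) (nat_lit 915681940) (nat_lit 456) (nat_lit 915681940) (nat_lit 230) (nat_lit 1) (nat_lit 223) (nat_lit 1) (nat_lit 229) (nat_lit 1) (nat_lit 389) (nat_lit 412) (nat_lit 339))) (XT.nd (nat_lit 78) (nat_lit 456) (nat_lit 0) (XT.lf (nat_lit 76) (nat_lit 673854210) (nat_lit 0) (nat_lit 2644003487) (nat_lit 532) (nat_lit 673854210) (nat_lit 224) (nat_lit 1) (nat_lit 223) (nat_lit 1) (nat_lit 230)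 (nat_lit 1) (nat_lit 390) (nat_lit 412) (nat_lit 338)) (XT.lf (nat_lit 532) (nat_lit 502792840) (nat_lit 0) (nat_lit 1728881334) (nat_lit 456) (nat_lit 1728881334) (nat_lit 224) (nat_lit 1) (nat_lit 217) (nat_lit 1) (nat_lit 223) (nat_lit 1) (nat_lit 391) (nat_lit 412) (nat_lit 337)))) (XT.nd (nat_lit 156) (nat_lit 836) (nat_lit 0) (XT.nd (nat_lit 78) (nat_lit 0) (nat_lit 0) (XT.lf (nat_lit 532) (nat_lit 3603137228) (nat_lit 0) (nat_lit 163360901) (nat_lit 456) (nat_lit 163360901) (nat_lit 217) (nat_lit 1) (nat_lit 210) (nat_lit 1) (nat_lit 216) (nat_lit 1) (nat_lit 392) (nat_lit 412) (nat_lit 336)) (XT.lf (nat_lit 76) (nat_lit 1371166033) (nat_lit 0) (nat_lit 1156900489) (nat_lit 532) (nat_lit 1371166033) (nat_lit 211) (nat_lit 1) (nat_lit 210) (nat_lit 1) (nat_lit 217) (nat_lit 1) (nat_lit 393) (nat_lit 412) (nat_lit 335))) (XT.nd (nat_lit 78) (nat_lit 380) (nat_lit 0) (XT.lf (nat_lit 532) (nat_lit 1890794249) (nat_lit 0) (nat_lit 989131555)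 (nat_lit 456) (nat_lit 989131555) (nat_lit 211) (nat_lit 1) (nat_lit 204) (nat_lit 1) (nat_lit 210) (nat_lit 1) (nat_lit 394) (nat_lit 412) (nat_lit 334)) (XT.nd (nat_lit 78) (nat_lit 380) (nat_lit 0) (XT.lf (nat_lit 76) (nat_lit 521715718) (nat_lit 0) (nat_lit 2795796872) (nat_lit 532) (nat_lit 521715718) (nat_lit 205) (nat_lit 1) (nat_lit 204) (nat_lit 1) (nat_lit 211) (nat_lit 1) (nat_lit 395) (nat_lit 412) (nat_lit 333)) (XT.lf (nat_lit 456) (nat_lit 194290179) (nat_lit 0) (nat_lit 1807666653) (nat_lit 380) (nat_lit 1807666653) (nat_lit 205) (nat_lit 1) (nat_lit 199) (nat_lit 1) (nat_lit 204) (nat_lit 1) (nat_lit 396) (nat_lit 412) (nat_lit 332)))))) (XT.nd (nat_lit 312) (nat_lit 1216) (nat_lit 0) (XT.nd (nat_lit 156) (nat_lit 380) (nat_lit 0) (XT.nd (nat_lit 78) (nat_lit 0) (nat_lit 0) (XT.lf (nat_lit 532) (nat_lit 3145126504) (nat_lit 0) (nat_lit 317640390) (nat_lit 456) (nat_lit 317640390) (nat_lit 199) (nat_lit 1) (nat_lit 192)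 (nat_lit 1) (nat_lit 198) (nat_lit 1) (nat_lit 397) (nat_lit 412) (nat_lit 331)) (XT.lf (nat_lit 76) (nat_lit 1142411553) (nat_lit 0) (nat_lit 1466507704) (nat_lit 532) (nat_lit 1142411553) (nat_lit 193) (nat_lit 1) (nat_lit 192) (nat_lit 1) (nat_lit 199) (nat_lit 1) (nat_lit 398) (nat_lit 412) (nat_lit 330))) (XT.nd (nat_lit 78) (nat_lit 0) (nat_lit 0) (XT.lf (nat_lit 456) (nat_lit 1431740326) (nat_lit 0) (nat_lit 1145447479) (nat_lit 380) (nat_lit 1145447479) (nat_lit 193) (nat_lit 1) (nat_lit 187) (nat_lit 1) (nat_lit 192) (nat_lit 1) (nat_lit 399) (nat_lit 412) (nat_lit 329)) (XT.lf (nat_lit 76) (nat_lit 292951467) (nat_lit 0) (nat_lit 3108413567) (nat_lit 456) (nat_lit 292951467) (nat_lit 188) (nat_lit 1) (nat_lit 187) (nat_lit 1) (nat_lit 193) (nat_lit 1) (nat_lit 400) (nat_lit 412) (nat_lit 328)))) (XT.nd (nat_lit 156) (nat_lit 380) (nat_lit 0) (XT.nd (nat_lit 78) (nat_lit 380) (nat_lit 0) (XT.lf (nat_lit 76) (nat_lit 1702889015)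 (nat_lit 0) (nat_lit 260339720) (nat_lit 456) (nat_lit 1702889015) (nat_lit 182) (nat_lit 1) (nat_lit 181) (nat_lit 1) (nat_lit 187) (nat_lit 1) (nat_lit 401) (nat_lit 412) (nat_lit 327)) (XT.lf (nat_lit 456) (nat_lit 2550399136) (nat_lit 0) (nat_lit 543944758) (nat_lit 380) (nat_lit 543944758) (nat_lit 182) (nat_lit 1) (nat_lit 176) (nat_lit 1) (nat_lit 181) (nat_lit 1) (nat_lit 402) (nat_lit 412) (nat_lit 326))) (XT.nd (nat_lit 78) (nat_lit 380) (nat_lit 0) (XT.lf (nat_lit 76) (nat_lit 847451158) (nat_lit 0) (nat_lit 1915771729) (nat_lit 456) (nat_lit 847451158) (nat_lit 177) (nat_lit 1) (nat_lit 176) (nat_lit 1) (nat_lit 182) (nat_lit 1) (nat_lit 403) (nat_lit 412) (nat_lit 325)) (XT.nd (nat_lit 78) (nat_lit 0) (nat_lit 0) (XT.lf (nat_lit 456) (nat_lit 843576184) (nat_lit 0) (nat_lit 1369888793) (nat_lit 380) (nat_lit 1369888793) (nat_lit 177) (nat_lit 1) (nat_lit 171) (nat_lit 1) (nat_lit 176) (nat_lit 1) (nat_lit 404) (nat_lit 412)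 (nat_lit 324)) (XT.lf (nat_lit 76) (nat_lit 1678061) (nat_lit 0) (nat_lit 3553103522) (nat_lit 456) (nat_lit 1678061) (nat_lit 172) (nat_lit 1) (nat_lit 171) (nat_lit 1) (nat_lit 177) (nat_lit 1) (nat_lit 405) (nat_lit 412) (nat_lit 323))))))) (XT.nd (nat_lit 702) (nat_lit 1900) (nat_lit 0) (XT.nd (nat_lit 312) (nat_lit 1140) (nat_lit 0) (XT.nd (nat_lit 156) (nat_lit 304) (nat_lit 0) (XT.nd (nat_lit 78) (nat_lit 380) (nat_lit 0) (XT.lf (nat_lit 76) (nat_lit 1348413176) (nat_lit 0) (nat_lit 832698590) (nat_lit 380) (nat_lit 1348413176) (nat_lit 167) (nat_lit 1) (nat_lit 166) (nat_lit 1) (nat_lit 171) (nat_lit 1) (nat_lit 406) (nat_lit 412) (nat_lit 322)) (XT.lf (nat_lit 456) (nat_lit 1845300806) (nat_lit 0) (nat_lit 828854645) (nat_lit 380) (nat_lit 828854645) (nat_lit 167) (nat_lit 1) (nat_lit 161) (nat_lit 1) (nat_lit 166) (nat_lit 1) (nat_lit 407) (nat_lit 412) (nat_lit 321))) (XT.nd (nat_lit 78) (nat_lit 304) (nat_lit 0) (XT.lf (nat_lit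 76) (nat_lit 499125652) (nat_lit 0) (nat_lit 2478524226) (nat_lit 456) (nat_lit 499125652) (nat_lit 162) (nat_lit 1) (nat_lit 161) (nat_lit 1) (nat_lit 167) (nat_lit 1) (nat_lit 408) (nat_lit 412) (nat_lit 320)) (XT.lf (nat_lit 380) (nat_lit 151504538) (nat_lit 0) (nat_lit 1649615552) (nat_lit 304) (nat_lit 1649615552) (nat_lit 162) (nat_lit 1) (nat_lit 157) (nat_lit 1) (nat_lit 161) (nat_lit 1) (nat_lit 409) (nat_lit 412) (nat_lit 319)))) (XT.nd (nat_lit 156) (nat_lit 684) (nat_lit 0) (XT.nd (nat_lit 78) (nat_lit 0) (nat_lit 0) (XT.lf (nat_lit 456) (nat_lit 2749838207) (nat_lit 0) (nat_lit 337585679) (nat_lit 380) (nat_lit 337585679) (nat_lit 157) (nat_lit 1) (nat_lit 151) (nat_lit 1) (nat_lit 156) (nat_lit 1) (nat_lit 410) (nat_lit 412) (nat_lit 318)) (XT.lf (nat_lit 76) (nat_lit 948933955) (nat_lit 0) (nat_lit 1501543651) (nat_lit 456) (nat_lit 948933955) (nat_lit 152) (nat_lit 1) (nat_lit 151) (nat_lit 1) (nat_lit 157) (nat_lit 1)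 (nat_lit 411) (nat_lit 412) (nat_lit 317))) (XT.nd (nat_lit 78) (nat_lit 380) (nat_lit 0) (XT.lf (nat_lit 380) (nat_lit 1052724335) (nat_lit 0) (nat_lit 1160698722) (nat_lit 304) (nat_lit 1160698722) (nat_lit 152) (nat_lit 1) (nat_lit 147) (nat_lit 1) (nat_lit 151) (nat_lit 1) (nat_lit 412) (nat_lit 412) (nat_lit 316)) (XT.nd (nat_lit 78) (nat_lit 380) (nat_lit 0) (XT.lf (nat_lit 76) (nat_lit 108590259) (nat_lit 0) (nat_lit 3132010656) (nat_lit 380) (nat_lit 108590259) (nat_lit 148) (nat_lit 1) (nat_lit 147) (nat_lit 1) (nat_lit 152) (nat_lit 1) (nat_lit 413) (nat_lit 412) (nat_lit 315)) (XT.lf (nat_lit 76) (nat_lit 1354922219) (nat_lit 0) (nat_lit 614420098) (nat_lit 380) (nat_lit 1354922219) (nat_lit 143) (nat_lit 1) (nat_lit 142) (nat_lit 1) (nat_lit 147) (nat_lit 1) (nat_lit 414) (nat_lit 412) (nat_lit 314)))))) (XT.nd (nat_lit 390) (nat_lit 912) (nat_lit 0) (XT.nd (nat_lit 156) (nat_lit 684) (nat_lit 0) (XT.nd (nat_lit 78) (nat_lit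 0) (nat_lit 0) (XT.lf (nat_lit 380) (nat_lit 1867414916) (nat_lit 0) (nat_lit 716138498) (nat_lit 304) (nat_lit 716138498) (nat_lit 143) (nat_lit 1) (nat_lit 138) (nat_lit 1) (nat_lit 142) (nat_lit 1) (nat_lit 415) (nat_lit 412) (nat_lit 313)) (XT.lf (nat_lit 76) (nat_lit 514568316) (nat_lit 0) (nat_lit 2246221981) (nat_lit 380) (nat_lit 514568316) (nat_lit 139) (nat_lit 1) (nat_lit 138) (nat_lit 1) (nat_lit 143) (nat_lit 1) (nat_lit 416) (nat_lit 412) (nat_lit 312))) (XT.nd (nat_lit 78) (nat_lit 380) (nat_lit 0) (XT.lf (nat_lit 380) (nat_lit 192517404) (nat_lit 0) (nat_lit 1529347638) (nat_lit 304) (nat_lit 1529347638) (nat_lit 139) (nat_lit 1) (nat_lit 134) (nat_lit 1) (nat_lit 138) (nat_lit 1) (nat_lit 417) (nat_lit 412) (nat_lit 311)) (XT.nd (nat_lit 78) (nat_lit 0) (nat_lit 0) (XT.lf (nat_lit 380) (nat_lit 2602516801) (nat_lit 0) (nat_lit 312417249) (nat_lit 304) (nat_lit 312417249) (nat_lit 134) (nat_lit 1) (nat_lit 129) (nat_lit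 1) (nat_lit 133) (nat_lit 1) (nat_lit 418) (nat_lit 412) (nat_lit 310)) (XT.lf (nat_lit 76) (nat_lit 881506784) (nat_lit 0) (nat_lit 1440581767) (nat_lit 380) (nat_lit 881506784) (nat_lit 130) (nat_lit 1) (nat_lit 129) (nat_lit 1) (nat_lit 134) (nat_lit 1) (nat_lit 419) (nat_lit 412) (nat_lit 309))))) (XT.nd (nat_lit 156) (nat_lit 608) (nat_lit 0) (XT.nd (nat_lit 78) (nat_lit 0) (nat_lit 0) (XT.lf (nat_lit 380) (nat_lit 930493672) (nat_lit 0) (nat_lit 1124812834) (nat_lit 304) (nat_lit 1124812834) (nat_lit 130) (nat_lit 1) (nat_lit 125) (nat_lit 1) (nat_lit 129) (nat_lit 1) (nat_lit 420) (nat_lit 412) (nat_lit 308)) (XT.lf (nat_lit 76) (nat_lit 54067742) (nat_lit 0) (nat_lit 3048847348) (nat_lit 380) (nat_lit 54067742) (nat_lit 126) (nat_lit 1) (nat_lit 125) (nat_lit 1) (nat_lit 130) (nat_lit 1) (nat_lit 421) (nat_lit 412) (nat_lit 307))) (XT.nd (nat_lit 78) (nat_lit 304) (nat_lit 0) (XT.lf (nat_lit 76) (nat_lit 1212537969) (nat_lit 0)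 (nat_lit 708737489) (nat_lit 304) (nat_lit 1212537969) (nat_lit 122) (nat_lit 1) (nat_lit 121) (nat_lit 1) (nat_lit 125) (nat_lit 1) (nat_lit 422) (nat_lit 412) (nat_lit 306)) (XT.nd (nat_lit 78) (nat_lit 0) (nat_lit 0) (XT.lf (nat_lit 380) (nat_lit 1597512076) (nat_lit 0) (nat_lit 756733599) (nat_lit 304) (nat_lit 756733599) (nat_lit 122) (nat_lit 1) (nat_lit 117) (nat_lit 1) (nat_lit 121) (nat_lit 1) (nat_lit 423) (nat_lit 412) (nat_lit 305)) (XT.lf (nat_lit 76) (nat_lit 387797702) (nat_lit 0) (nat_lit 2312790001) (nat_lit 380) (nat_lit 387797702) (nat_lit 118) (nat_lit 1) (nat_lit 117) (nat_lit 1) (nat_lit 122) (nat_lit 1) (nat_lit 424) (nat_lit 412) (nat_lit 304))))))))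
noncomputable def ec120 : XT := (XT.nd (nat_lit 50856) (nat_lit 0) (nat_lit 31996) (XT.nd (nat_lit 702) (nat_lit 1292) (nat_lit 0) (XT.nd (nat_lit 312) (nat_lit 912) (nat_lit 0) (XT.nd (nat_lit 156) (nat_lit 228) (nat_lit 0) (XT.nd (nat_lit 78) (nat_lit 304) (nat_lit 0) (XT.lf (nat_lit 76) (nat_lit 1510552519) (nat_lit 0) (nat_lit 44825272) (nat_lit 304) (nat_lit 1510552519) (nat_lit 114) (nat_lit 1) (nat_lit 113) (nat_lit 1) (nat_lit 117) (nat_lit 1) (nat_lit 425) (nat_lit 412) (nat_lit 303)) (XT.lf (nat_lit 380) (nat_lit 2199265747) (nat_lit 0) (nat_lit 422222919) (nat_lit 304) (nat_lit 422222919) (nat_lit 114) (nat_lit 1) (nat_lit 109) (nat_lit 1) (nat_lit 113) (nat_lit 1) (nat_lit 426) (nat_lit 412) (nat_lit 302))) (XT.nd (nat_lit 78) (nat_lit 228) (nat_lit 0) (XT.lf (nat_lit 76) (nat_lit 689488139) (nat_lit 0) (nat_lit 1642666665) (nat_lit 380) (nat_lit 689488139) (nat_lit 110) (nat_lit 1) (nat_lit 109) (nat_lit 1) (nat_lit 114)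 (nat_lit 1) (nat_lit 427) (nat_lit 412) (nat_lit 301)) (XT.lf (nat_lit 304) (nat_lit 563963900) (nat_lit 0) (nat_lit 1217915608) (nat_lit 228) (nat_lit 1217915608) (nat_lit 110) (nat_lit 1) (nat_lit 106) (nat_lit 1) (nat_lit 109) (nat_lit 1) (nat_lit 428) (nat_lit 412) (nat_lit 300)))) (XT.nd (nat_lit 156) (nat_lit 532) (nat_lit 0) (XT.nd (nat_lit 78) (nat_lit 0) (nat_lit 0) (XT.lf (nat_lit 380) (nat_lit 2741008584) (nat_lit 0) (nat_lit 118615816) (nat_lit 304) (nat_lit 118615816) (nat_lit 106) (nat_lit 1) (nat_lit 101) (nat_lit 1) (nat_lit 105) (nat_lit 1) (nat_lit 429) (nat_lit 412) (nat_lit 299)) (XT.lf (nat_lit 76) (nat_lit 961708900) (nat_lit 0) (nat_lit 1033262438) (nat_lit 380) (nat_lit 961708900) (nat_lit 102) (nat_lit 1) (nat_lit 101) (nat_lit 1) (nat_lit 106) (nat_lit 1) (nat_lit 430) (nat_lit 412) (nat_lit 298))) (XT.nd (nat_lit 78) (nat_lit 304) (nat_lit 0) (XT.lf (nat_lit 304) (nat_lit 1115060431) (nat_lit 0) (nat_lit 910174642)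 (nat_lit 228) (nat_lit 910174642) (nat_lit 102) (nat_lit 1) (nat_lit 98) (nat_lit 1) (nat_lit 101) (nat_lit 1) (nat_lit 431) (nat_lit 412) (nat_lit 297)) (XT.nd (nat_lit 78) (nat_lit 304) (nat_lit 0) (XT.lf (nat_lit 76) (nat_lit 157584349) (nat_lit 0) (nat_lit 2599242768) (nat_lit 304) (nat_lit 157584349) (nat_lit 99) (nat_lit 1) (nat_lit 98) (nat_lit 1) (nat_lit 102) (nat_lit 1) (nat_lit 432) (nat_lit 412) (nat_lit 296)) (XT.lf (nat_lit 76) (nat_lit 1206831582) (nat_lit 0) (nat_lit 479763359) (nat_lit 304) (nat_lit 1206831582) (nat_lit 95) (nat_lit 1) (nat_lit 94) (nat_lit 1) (nat_lit 98) (nat_lit 1) (nat_lit 433) (nat_lit 412) (nat_lit 295)))))) (XT.nd (nat_lit 312) (nat_lit 532) (nat_lit 0) (XT.nd (nat_lit 156) (nat_lit 532) (nat_lit 0) (XT.nd (nat_lit 78) (nat_lit 0) (nat_lit 0) (XT.lf (nat_lit 304) (nat_lit 1612540501) (nat_lit 0) (nat_lit 630085071) (nat_lit 228) (nat_lit 630085071) (nat_lit 95) (nat_lit 1) (nat_lit 91) (nat_lit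 1) (nat_lit 94) (nat_lit 1) (nat_lit 434) (nat_lit 412) (nat_lit 294)) (XT.lf (nat_lit 76) (nat_lit 408223524) (nat_lit 0) (nat_lit 2035744514) (nat_lit 304) (nat_lit 408223524) (nat_lit 92) (nat_lit 1) (nat_lit 91) (nat_lit 1) (nat_lit 95) (nat_lit 1) (nat_lit 435) (nat_lit 412) (nat_lit 293))) (XT.nd (nat_lit 78) (nat_lit 304) (nat_lit 0) (XT.lf (nat_lit 304) (nat_lit 22570217) (nat_lit 0) (nat_lit 1404620996) (nat_lit 228) (nat_lit 1404620996) (nat_lit 92) (nat_lit 1) (nat_lit 88) (nat_lit 1) (nat_lit 91) (nat_lit 1) (nat_lit 436) (nat_lit 412) (nat_lit 292)) (XT.lf (nat_lit 304) (nat_lit 2060715638) (nat_lit 0) (nat_lit 375458457) (nat_lit 228) (nat_lit 375458457) (nat_lit 88) (nat_lit 1) (nat_lit 84) (nat_lit 1) (nat_lit 87) (nat_lit 1) (nat_lit 437) (nat_lit 412) (nat_lit 291)))) (XT.nd (nat_lit 156) (nat_lit 304) (nat_lit 0) (XT.nd (nat_lit 78) (nat_lit 228) (nat_lit 0) (XT.lf (nat_lit 76) (nat_lit 634625577) (nat_lit 0) (nat_lit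 1522326955) (nat_lit 304) (nat_lit 634625577) (nat_lit 85) (nat_lit 1) (nat_lit 84) (nat_lit 1) (nat_lit 88) (nat_lit 1) (nat_lit 438) (nat_lit 412) (nat_lit 290)) (XT.lf (nat_lit 304) (nat_lit 483290273) (nat_lit 0) (nat_lit 1144215120) (nat_lit 228) (nat_lit 1144215120) (nat_lit 85) (nat_lit 1) (nat_lit 81) (nat_lit 1) (nat_lit 84) (nat_lit 1) (nat_lit 439) (nat_lit 412) (nat_lit 289))) (XT.nd (nat_lit 49530) (nat_lit 0) (nat_lit 31920) (XT.lf (nat_lit 304) (nat_lit 2463564552) (nat_lit 0) (nat_lit 144274642) (nat_lit 228) (nat_lit 144274642) (nat_lit 81) (nat_lit 1) (nat_lit 77) (nat_lit 1) (nat_lit 80) (nat_lit 1) (nat_lit 440) (nat_lit 412) (nat_lit 288)) (XT.nd (nat_lit 78) (nat_lit 0) (nat_lit 0) (XT.lf (nat_lit 1900) (nat_lit 1296555236) (nat_lit 0) (nat_lit 1307397453) (nat_lit 1900) (nat_lit 1296555236) (nat_lit 522) (nat_lit 1) (nat_lit 497) (nat_lit 0) (nat_lit 522) (nat_lit 0) (nat_lit 314) (nat_lit 413) (nat_lit 413)) (XT.lf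 (nat_lit 1900) (nat_lit 5126774343) (nat_lit 76) (nat_lit 1298796154) (nat_lit 0) (nat_lit 1298796154) (nat_lit 522) (nat_lit 1) (nat_lit 498) (nat_lit 1) (nat_lit 497) (nat_lit 0) (nat_lit 315) (nat_lit 413) (nat_lit 412))))))) (XT.nd (nat_lit 702) (nat_lit 0) (nat_lit 304) (XT.nd (nat_lit 312) (nat_lit 0) (nat_lit 152) (XT.nd (nat_lit 156) (nat_lit 0) (nat_lit 76) (XT.nd (nat_lit 78) (nat_lit 0) (nat_lit 0) (XT.lf (nat_lit 1900) (nat_lit 2517270606) (nat_lit 0) (nat_lit 2614013436) (nat_lit 1824) (nat_lit 2517270606) (nat_lit 523) (nat_lit 1) (nat_lit 498) (nat_lit 1) (nat_lit 522) (nat_lit 1) (nat_lit 316) (nat_lit 413) (nat_lit 411)) (XT.lf (nat_lit 1900) (nat_lit 4926919118) (nat_lit 76) (nat_lit 1323486416) (nat_lit 0) (nat_lit 1323486416) (nat_lit 523) (nat_lit 1) (nat_lit 499) (nat_lit 1) (nat_lit 498) (nat_lit 1) (nat_lit 317) (nat_lit 413) (nat_lit 410))) (XT.nd (nat_lit 78) (nat_lit 0) (nat_lit 0) (XT.lf (nat_lit 1900) (nat_lit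 2394389328) (nat_lit 0) (nat_lit 2711274793) (nat_lit 1824) (nat_lit 2394389328) (nat_lit 524) (nat_lit 1) (nat_lit 499) (nat_lit 1) (nat_lit 523) (nat_lit 1) (nat_lit 318) (nat_lit 413) (nat_lit 409)) (XT.lf (nat_lit 1900) (nat_lit 4635509498) (nat_lit 76) (nat_lit 1395901756) (nat_lit 0) (nat_lit 1395901756) (nat_lit 524) (nat_lit 1) (nat_lit 500) (nat_lit 1) (nat_lit 499) (nat_lit 1) (nat_lit 319) (nat_lit 413) (nat_lit 408)))) (XT.nd (nat_lit 156) (nat_lit 0) (nat_lit 76) (XT.nd (nat_lit 78) (nat_lit 0) (nat_lit 0) (XT.lf (nat_lit 1900) (nat_lit 2227273439) (nat_lit 0) (nat_lit 2900850041) (nat_lit 1824) (nat_lit 2227273439) (nat_lit 525) (nat_lit 1) (nat_lit 500) (nat_lit 1) (nat_lit 524) (nat_lit 1) (nat_lit 320) (nat_lit 413) (nat_lit 407)) (XT.lf (nat_lit 1900) (nat_lit 4258048006) (nat_lit 76) (nat_lit 1513234367) (nat_lit 0) (nat_lit 1513234367) (nat_lit 525) (nat_lit 1) (nat_lit 501) (nat_lit 1) (nat_lit 500) (nat_lit 1) (nat_lit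 321) (nat_lit 413) (nat_lit 406))) (XT.nd (nat_lit 78) (nat_lit 0) (nat_lit 0) (XT.lf (nat_lit 1900) (nat_lit 2018601529) (nat_lit 0) (nat_lit 3177270389) (nat_lit 1824) (nat_lit 2018601529) (nat_lit 526) (nat_lit 1) (nat_lit 501) (nat_lit 1) (nat_lit 525) (nat_lit 1) (nat_lit 322) (nat_lit 413) (nat_lit 405)) (XT.nd (nat_lit 78) (nat_lit 0) (nat_lit 76) (XT.lf (nat_lit 1900) (nat_lit 3799785310) (nat_lit 76) (nat_lit 1672804189) (nat_lit 0) (nat_lit 1672804189) (nat_lit 526) (nat_lit 1) (nat_lit 502) (nat_lit 1) (nat_lit 501) (nat_lit 1) (nat_lit 323) (nat_lit 413) (nat_lit 404)) (XT.lf (nat_lit 1900) (nat_lit 1770929335) (nat_lit 0) (nat_lit 3535316349) (nat_lit 1824) (nat_lit 1770929335) (nat_lit 527) (nat_lit 1) (nat_lit 502) (nat_lit 1) (nat_lit 526) (nat_lit 1) (nat_lit 324) (nat_lit 413) (nat_lit 403)))))) (XT.nd (nat_lit 312) (nat_lit 0) (nat_lit 152) (XT.nd (nat_lit 156) (nat_lit 0) (nat_lit 76) (XT.nd (nat_lit 78) (nat_lit 0)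 (nat_lit 76) (XT.lf (nat_lit 1900) (nat_lit 3265730756) (nat_lit 76) (nat_lit 1872053582) (nat_lit 0) (nat_lit 1872053582) (nat_lit 527) (nat_lit 1) (nat_lit 503) (nat_lit 1) (nat_lit 502) (nat_lit 1) (nat_lit 325) (nat_lit 413) (nat_lit 402)) (XT.lf (nat_lit 1900) (nat_lit 1486694879) (nat_lit 0) (nat_lit 3970007332) (nat_lit 1824) (nat_lit 1486694879) (nat_lit 528) (nat_lit 1) (nat_lit 503) (nat_lit 1) (nat_lit 527) (nat_lit 1) (nat_lit 326) (nat_lit 413) (nat_lit 401))) (XT.nd (nat_lit 78) (nat_lit 0) (nat_lit 76) (XT.lf (nat_lit 1900) (nat_lit 2660662467) (nat_lit 76) (nat_lit 2108542213) (nat_lit 0) (nat_lit 2108542213) (nat_lit 528) (nat_lit 1) (nat_lit 504) (nat_lit 1) (nat_lit 503) (nat_lit 1) (nat_lit 327) (nat_lit 413) (nat_lit 400)) (XT.lf (nat_lit 1900) (nat_lit 1168223401) (nat_lit 0) (nat_lit 4476591658) (nat_lit 1824) (nat_lit 1168223401) (nat_lit 529) (nat_lit 1) (nat_lit 504) (nat_lit 1) (nat_lit 528) (nat_lit 1) (nat_lit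 328) (nat_lit 413) (nat_lit 399)))) (XT.nd (nat_lit 156) (nat_lit 0) (nat_lit 76) (XT.nd (nat_lit 78) (nat_lit 0) (nat_lit 76) (XT.lf (nat_lit 1900) (nat_lit 1989137047) (nat_lit 76) (nat_lit 2379942148) (nat_lit 0) (nat_lit 2379942148) (nat_lit 529) (nat_lit 1) (nat_lit 505) (nat_lit 1) (nat_lit 504) (nat_lit 1) (nat_lit 329) (nat_lit 413) (nat_lit 398)) (XT.lf (nat_lit 1900) (nat_lit 817732097) (nat_lit 0) (nat_lit 5050536976) (nat_lit 1824) (nat_lit 817732097) (nat_lit 530) (nat_lit 1) (nat_lit 505) (nat_lit 1) (nat_lit 529) (nat_lit 1) (nat_lit 330) (nat_lit 413) (nat_lit 397))) (XT.nd (nat_lit 78) (nat_lit 0) (nat_lit 76) (XT.lf (nat_lit 1900) (nat_lit 1255498885) (nat_lit 76) (nat_lit 2684033143) (nat_lit 0) (nat_lit 2684033143) (nat_lit 530) (nat_lit 1) (nat_lit 506) (nat_lit 1) (nat_lit 505) (nat_lit 1) (nat_lit 331) (nat_lit 413) (nat_lit 396)) (XT.nd (nat_lit 78) (nat_lit 0) (nat_lit 0) (XT.lf (nat_lit 1900) (nat_lit 437334657)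 (nat_lit 0) (nat_lit 5687521063) (nat_lit 1824) (nat_lit 437334657) (nat_lit 531) (nat_lit 1) (nat_lit 506) (nat_lit 1) (nat_lit 530) (nat_lit 1) (nat_lit 332) (nat_lit 413) (nat_lit 395)) (XT.lf (nat_lit 1900) (nat_lit 463889089) (nat_lit 76) (nat_lit 3018698118) (nat_lit 0) (nat_lit 3018698118) (nat_lit 531) (nat_lit 1) (nat_lit 507) (nat_lit 1) (nat_lit 506) (nat_lit 1) (nat_lit 333) (nat_lit 413) (nat_lit 394))))))))
noncomputable def ec121 : XT := (XT.nd (nat_lit 1404) (nat_lit 7828) (nat_lit 0) (XT.nd (nat_lit 702) (nat_lit 4408) (nat_lit 0) (XT.nd (nat_lit 312) (nat_lit 1900) (nat_lit 0) (XT.nd (nat_lit 156) (nat_lit 0) (nat_lit 0) (XT.nd (nat_lit 78) (nat_lit 1900) (nat_lit 0) (XT.lf (nat_lit 1900) (nat_lit 29045632) (nat_lit 0) (nat_lit 6383422990) (nat_lit 1824) (nat_lit 29045632) (nat_lit 532) (nat_lit 1) (nat_lit 507) (nat_lit 1) (nat_lit 531) (nat_lit 1) (nat_lit 334) (nat_lit 413) (nat_lit 393)) (XT.lf (nat_lit 1976) (nat_lit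 3002651431) (nat_lit 0) (nat_lit 376739276) (nat_lit 1900) (nat_lit 3002651431) (nat_lit 508) (nat_lit 1) (nat_lit 482) (nat_lit 1) (nat_lit 507) (nat_lit 1) (nat_lit 335) (nat_lit 413) (nat_lit 392))) (XT.nd (nat_lit 78) (nat_lit 0) (nat_lit 76) (XT.lf (nat_lit 1976) (nat_lit 5518573711) (nat_lit 76) (nat_lit 402549496) (nat_lit 0) (nat_lit 402549496) (nat_lit 508) (nat_lit 1) (nat_lit 483) (nat_lit 1) (nat_lit 482) (nat_lit 1) (nat_lit 336) (nat_lit 413) (nat_lit 391)) (XT.lf (nat_lit 1976) (nat_lit 2502420711) (nat_lit 0) (nat_lit 1260889739) (nat_lit 1900) (nat_lit 2502420711) (nat_lit 509) (nat_lit 1) (nat_lit 483) (nat_lit 1) (nat_lit 508) (nat_lit 1) (nat_lit 337) (nat_lit 413) (nat_lit 390)))) (XT.nd (nat_lit 156) (nat_lit 1976) (nat_lit 0) (XT.nd (nat_lit 78) (nat_lit 0) (nat_lit 76) (XT.lf (nat_lit 1976) (nat_lit 4492886989) (nat_lit 76) (nat_lit 857938043) (nat_lit 0) (nat_lit 857938043) (nat_lit 509) (nat_lit 1) (nat_lit 484)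 (nat_lit 1) (nat_lit 483) (nat_lit 1) (nat_lit 338) (nat_lit 413) (nat_lit 389)) (XT.lf (nat_lit 76) (nat_lit 1980608330) (nat_lit 0) (nat_lit 2191111934) (nat_lit 1900) (nat_lit 1980608330) (nat_lit 485) (nat_lit 1) (nat_lit 484) (nat_lit 1) (nat_lit 509) (nat_lit 1) (nat_lit 339) (nat_lit 413) (nat_lit 388))) (XT.nd (nat_lit 78) (nat_lit 912) (nat_lit 0) (XT.lf (nat_lit 1216) (nat_lit 3425556028) (nat_lit 0) (nat_lit 1335580996) (nat_lit 1140) (nat_lit 1335580996) (nat_lit 485) (nat_lit 1) (nat_lit 469) (nat_lit 1) (nat_lit 484) (nat_lit 1) (nat_lit 340) (nat_lit 413) (nat_lit 387)) (XT.nd (nat_lit 78) (nat_lit 912) (nat_lit 0) (XT.lf (nat_lit 76) (nat_lit 1438856372) (nat_lit 0) (nat_lit 3164040285) (nat_lit 1216) (nat_lit 1438856372) (nat_lit 470) (nat_lit 1) (nat_lit 469) (nat_lit 1) (nat_lit 485) (nat_lit 1) (nat_lit 341) (nat_lit 413) (nat_lit 386)) (XT.lf (nat_lit 988) (nat_lit 2319795433) (nat_lit 0) (nat_lit 1833831097) (nat_lit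 912) (nat_lit 1833831097) (nat_lit 470) (nat_lit 1) (nat_lit 457) (nat_lit 1) (nat_lit 469) (nat_lit 1) (nat_lit 342) (nat_lit 413) (nat_lit 385)))))) (XT.nd (nat_lit 312) (nat_lit 2660) (nat_lit 0) (XT.nd (nat_lit 156) (nat_lit 836) (nat_lit 0) (XT.nd (nat_lit 78) (nat_lit 912) (nat_lit 0) (XT.lf (nat_lit 76) (nat_lit 878727395) (nat_lit 0) (nat_lit 4176470815) (nat_lit 988) (nat_lit 878727395) (nat_lit 458) (nat_lit 1) (nat_lit 457) (nat_lit 1) (nat_lit 470) (nat_lit 1) (nat_lit 343) (nat_lit 413) (nat_lit 384)) (XT.lf (nat_lit 988) (nat_lit 1178663656) (nat_lit 0) (nat_lit 2351120408) (nat_lit 912) (nat_lit 2351120408) (nat_lit 458) (nat_lit 1) (nat_lit 445) (nat_lit 1) (nat_lit 457) (nat_lit 1) (nat_lit 344) (nat_lit 413) (nat_lit 383))) (XT.nd (nat_lit 78) (nat_lit 836) (nat_lit 0) (XT.lf (nat_lit 76) (nat_lit 301707823) (nat_lit 0) (nat_lit 5225354270) (nat_lit 988) (nat_lit 301707823) (nat_lit 446) (nat_lit 1) (nat_lit 445) (nat_lit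 1) (nat_lit 458) (nat_lit 1) (nat_lit 345) (nat_lit 413) (nat_lit 382)) (XT.lf (nat_lit 912) (nat_lit 5069679) (nat_lit 0) (nat_lit 2885956931) (nat_lit 836) (nat_lit 2885956931) (nat_lit 446) (nat_lit 1) (nat_lit 434) (nat_lit 1) (nat_lit 445) (nat_lit 1) (nat_lit 346) (nat_lit 413) (nat_lit 381)))) (XT.nd (nat_lit 156) (nat_lit 1672) (nat_lit 0) (XT.nd (nat_lit 78) (nat_lit 0) (nat_lit 0) (XT.lf (nat_lit 988) (nat_lit 5148308960) (nat_lit 0) (nat_lit 288875709) (nat_lit 912) (nat_lit 288875709) (nat_lit 434) (nat_lit 1) (nat_lit 421) (nat_lit 1) (nat_lit 433) (nat_lit 1) (nat_lit 347) (nat_lit 413) (nat_lit 380)) (XT.lf (nat_lit 76) (nat_lit 2246480418) (nat_lit 0) (nat_lit 1182505705) (nat_lit 988) (nat_lit 2246480418) (nat_lit 422) (nat_lit 1) (nat_lit 421) (nat_lit 1) (nat_lit 434) (nat_lit 1) (nat_lit 348) (nat_lit 413) (nat_lit 379))) (XT.nd (nat_lit 78) (nat_lit 836) (nat_lit 0) (XT.lf (nat_lit 912) (nat_lit 3842683034) (nat_lit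 0) (nat_lit 891514581) (nat_lit 836) (nat_lit 891514581) (nat_lit 422) (nat_lit 1) (nat_lit 410) (nat_lit 1) (nat_lit 421) (nat_lit 1) (nat_lit 349) (nat_lit 413) (nat_lit 378)) (XT.nd (nat_lit 78) (nat_lit 836) (nat_lit 0) (XT.lf (nat_lit 76) (nat_lit 1589853772) (nat_lit 0) (nat_lit 2396726899) (nat_lit 912) (nat_lit 1589853772) (nat_lit 411) (nat_lit 1) (nat_lit 410) (nat_lit 1) (nat_lit 422) (nat_lit 1) (nat_lit 350) (nat_lit 413) (nat_lit 377)) (XT.lf (nat_lit 912) (nat_lit 2513963634) (nat_lit 0) (nat_lit 1506925055) (nat_lit 836) (nat_lit 1506925055) (nat_lit 411) (nat_lit 1) (nat_lit 399) (nat_lit 1) (nat_lit 410) (nat_lit 1) (nat_lit 351) (nat_lit 413) (nat_lit 376))))))) (XT.nd (nat_lit 702) (nat_lit 4028) (nat_lit 0) (XT.nd (nat_lit 312) (nat_lit 2204) (nat_lit 0) (XT.nd (nat_lit 156) (nat_lit 836) (nat_lit 0) (XT.nd (nat_lit 78) (nat_lit 760) (nat_lit 0) (XT.lf (nat_lit 76) (nat_lit 922312380) (nat_lit 0) (nat_lit 3635195188)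 (nat_lit 912) (nat_lit 922312380) (nat_lit 400) (nat_lit 1) (nat_lit 399) (nat_lit 1) (nat_lit 411) (nat_lit 1) (nat_lit 352) (nat_lit 413) (nat_lit 375)) (XT.lf (nat_lit 836) (nat_lit 1164494420) (nat_lit 0) (nat_lit 2133901924) (nat_lit 760) (nat_lit 2133901924) (nat_lit 400) (nat_lit 1) (nat_lit 389) (nat_lit 1) (nat_lit 399) (nat_lit 1) (nat_lit 353) (nat_lit 413) (nat_lit 374))) (XT.nd (nat_lit 78) (nat_lit 836) (nat_lit 0) (XT.lf (nat_lit 76) (nat_lit 244994042) (nat_lit 0) (nat_lit 4895569088) (nat_lit 836) (nat_lit 244994042) (nat_lit 390) (nat_lit 1) (nat_lit 389) (nat_lit 1) (nat_lit 400) (nat_lit 1) (nat_lit 354) (nat_lit 413) (nat_lit 373)) (XT.lf (nat_lit 76) (nat_lit 2569121620) (nat_lit 0) (nat_lit 200831382) (nat_lit 836) (nat_lit 2569121620) (nat_lit 379) (nat_lit 1) (nat_lit 378) (nat_lit 1) (nat_lit 389) (nat_lit 1) (nat_lit 355) (nat_lit 413) (nat_lit 372)))) (XT.nd (nat_lit 156) (nat_lit 1444) (nat_lit 0) (XT.nd (nat_lit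 78) (nat_lit 0) (nat_lit 0) (XT.lf (nat_lit 836) (nat_lit 4417112085) (nat_lit 0) (nat_lit 438120162) (nat_lit 760) (nat_lit 438120162) (nat_lit 379) (nat_lit 1) (nat_lit 368) (nat_lit 1) (nat_lit 378) (nat_lit 1) (nat_lit 356) (nat_lit 413) (nat_lit 371)) (XT.lf (nat_lit 76) (nat_lit 1840434179) (nat_lit 0) (nat_lit 1567084776) (nat_lit 836) (nat_lit 1840434179) (nat_lit 369) (nat_lit 1) (nat_lit 368) (nat_lit 1) (nat_lit 379) (nat_lit 1) (nat_lit 357) (nat_lit 413) (nat_lit 370))) (XT.nd (nat_lit 78) (nat_lit 684) (nat_lit 0) (XT.lf (nat_lit 836) (nat_lit 2948751015) (nat_lit 0) (nat_lit 1127245437) (nat_lit 760) (nat_lit 1127245437) (nat_lit 369) (nat_lit 1) (nat_lit 358) (nat_lit 1) (nat_lit 368) (nat_lit 1) (nat_lit 358) (nat_lit 413) (nat_lit 369)) (XT.nd (nat_lit 78) (nat_lit 684) (nat_lit 0) (XT.lf (nat_lit 76) (nat_lit 1105730380) (nat_lit 0) (nat_lit 2947563668) (nat_lit 836) (nat_lit 1105730380) (nat_lit 359) (nat_lit 1) (nat_lit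 358) (nat_lit 1) (nat_lit 369) (nat_lit 1) (nat_lit 359) (nat_lit 413) (nat_lit 368)) (XT.lf (nat_lit 760) (nat_lit 1469235313) (nat_lit 0) (nat_lit 1823029217) (nat_lit 684) (nat_lit 1823029217) (nat_lit 359) (nat_lit 1) (nat_lit 349) (nat_lit 1) (nat_lit 358) (nat_lit 1) (nat_lit 360) (nat_lit 413) (nat_lit 367)))))) (XT.nd (nat_lit 390) (nat_lit 1900) (nat_lit 0) (XT.nd (nat_lit 156) (nat_lit 1368) (nat_lit 0) (XT.nd (nat_lit 78) (nat_lit 760) (nat_lit 0) (XT.lf (nat_lit 76) (nat_lit 365916634) (nat_lit 0) (nat_lit 4340396473) (nat_lit 760) (nat_lit 365916634) (nat_lit 350) (nat_lit 1) (nat_lit 349) (nat_lit 1) (nat_lit 359) (nat_lit 1) (nat_lit 361) (nat_lit 413) (nat_lit 366)) (XT.lf (nat_lit 76) (nat_lit 2505020217) (nat_lit 0) (nat_lit 19407237) (nat_lit 760) (nat_lit 2505020217) (nat_lit 340) (nat_lit 1) (nat_lit 339) (nat_lit 1) (nat_lit 349) (nat_lit 1) (nat_lit 362) (nat_lit 413) (nat_lit 365))) (XT.nd (nat_lit 78) (nat_lit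 684) (nat_lit 0) (XT.lf (nat_lit 760) (nat_lit 4235992572) (nat_lit 0) (nat_lit 375661214) (nat_lit 684) (nat_lit 375661214) (nat_lit 340) (nat_lit 1) (nat_lit 330) (nat_lit 1) (nat_lit 339) (nat_lit 1) (nat_lit 363) (nat_lit 413) (nat_lit 364)) (XT.nd (nat_lit 78) (nat_lit 684) (nat_lit 0) (XT.lf (nat_lit 76) (nat_lit 1724534594) (nat_lit 0) (nat_lit 1496389214) (nat_lit 760) (nat_lit 1724534594) (nat_lit 331) (nat_lit 1) (nat_lit 330) (nat_lit 1) (nat_lit 340) (nat_lit 1) (nat_lit 364) (nat_lit 413) (nat_lit 363)) (XT.lf (nat_lit 760) (nat_lit 2667731009) (nat_lit 0) (nat_lit 1118249240) (nat_lit 684) (nat_lit 1118249240) (nat_lit 331) (nat_lit 1) (nat_lit 321) (nat_lit 1) (nat_lit 330) (nat_lit 1) (nat_lit 365) (nat_lit 413) (nat_lit 362))))) (XT.nd (nat_lit 156) (nat_lit 1292) (nat_lit 0) (XT.nd (nat_lit 78) (nat_lit 608) (nat_lit 0) (XT.lf (nat_lit 76) (nat_lit 942023046) (nat_lit 0) (nat_lit 2979416479) (nat_lit 760) (nat_lit 942023046)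 (nat_lit 322) (nat_lit 1) (nat_lit 321) (nat_lit 1) (nat_lit 331) (nat_lit 1) (nat_lit 366) (nat_lit 413) (nat_lit 361)) (XT.lf (nat_lit 684) (nat_lit 1096126124) (nat_lit 0) (nat_lit 1863492270) (nat_lit 608) (nat_lit 1863492270) (nat_lit 322) (nat_lit 1) (nat_lit 313) (nat_lit 1) (nat_lit 321) (nat_lit 1) (nat_lit 367) (nat_lit 413) (nat_lit 360))) (XT.nd (nat_lit 78) (nat_lit 1292) (nat_lit 0) (XT.lf (nat_lit 76) (nat_lit 158198226) (nat_lit 0) (nat_lit 4467011184) (nat_lit 684) (nat_lit 158198226) (nat_lit 314) (nat_lit 1) (nat_lit 313) (nat_lit 1) (nat_lit 322) (nat_lit 1) (nat_lit 368) (nat_lit 413) (nat_lit 359)) (XT.nd (nat_lit 78) (nat_lit 608) (nat_lit 0) (XT.lf (nat_lit 76) (nat_lit 2136336922) (nat_lit 0) (nat_lit 471171017) (nat_lit 684) (nat_lit 2136336922) (nat_lit 305) (nat_lit 1) (nat_lit 304) (nat_lit 1) (nat_lit 313) (nat_lit 1) (nat_lit 369) (nat_lit 413) (nat_lit 358)) (XT.lf (nat_lit 684) (nat_lit 3460621942) (nat_lit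 0) (nat_lit 622147138) (nat_lit 608) (nat_lit 622147138) (nat_lit 305) (nat_lit 1) (nat_lit 296) (nat_lit 1) (nat_lit 304) (nat_lit 1) (nat_lit 370) (nat_lit 413) (nat_lit 357))))))))
noncomputable def ec122 : XT := (XT.nd (nat_lit 1404) (nat_lit 4712) (nat_lit 0) (XT.nd (nat_lit 702) (nat_lit 2660) (nat_lit 0) (XT.nd (nat_lit 312) (nat_lit 1748) (nat_lit 0) (XT.nd (nat_lit 156) (nat_lit 532) (nat_lit 0) (XT.nd (nat_lit 78) (nat_lit 608) (nat_lit 0) (XT.lf (nat_lit 76) (nat_lit 1320787300) (nat_lit 0) (nat_lit 2024726910) (nat_lit 684) (nat_lit 1320787300) (nat_lit 297) (nat_lit 1) (nat_lit 296) (nat_lit 1) (nat_lit 305) (nat_lit 1) (nat_lit 371) (nat_lit 413) (nat_lit 356)) (XT.lf (nat_lit 684) (nat_lit 1825266438) (nat_lit 0) (nat_lit 1401458163) (nat_lit 608) (nat_lit 1401458163) (nat_lit 297) (nat_lit 1) (nat_lit 288) (nat_lit 1) (nat_lit 296) (nat_lit 1) (nat_lit 372) (nat_lit 413) (nat_lit 355))) (XT.nd (nat_lit 78) (nat_lit 532)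 (nat_lit 0) (XT.lf (nat_lit 76) (nat_lit 506438230) (nat_lit 0) (nat_lit 3577697967) (nat_lit 684) (nat_lit 506438230) (nat_lit 289) (nat_lit 1) (nat_lit 288) (nat_lit 1) (nat_lit 297) (nat_lit 1) (nat_lit 373) (nat_lit 413) (nat_lit 354)) (XT.lf (nat_lit 608) (nat_lit 192878212) (nat_lit 0) (nat_lit 2180181889) (nat_lit 532) (nat_lit 2180181889) (nat_lit 289) (nat_lit 1) (nat_lit 281) (nat_lit 1) (nat_lit 288) (nat_lit 1) (nat_lit 374) (nat_lit 413) (nat_lit 353)))) (XT.nd (nat_lit 156) (nat_lit 1064) (nat_lit 0) (XT.nd (nat_lit 78) (nat_lit 0) (nat_lit 0) (XT.lf (nat_lit 684) (nat_lit 3908166395) (nat_lit 0) (nat_lit 304145281) (nat_lit 608) (nat_lit 304145281) (nat_lit 281) (nat_lit 1) (nat_lit 272) (nat_lit 1) (nat_lit 280) (nat_lit 1) (nat_lit 375) (nat_lit 413) (nat_lit 352)) (XT.lf (nat_lit 76) (nat_lit 1531608317) (nat_lit 0) (nat_lit 1416644524) (nat_lit 684) (nat_lit 1531608317) (nat_lit 273) (nat_lit 1) (nat_lit 272) (nat_lit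 1) (nat_lit 281) (nat_lit 1) (nat_lit 376) (nat_lit 413) (nat_lit 351))) (XT.nd (nat_lit 78) (nat_lit 532) (nat_lit 0) (XT.lf (nat_lit 608) (nat_lit 2225514487) (nat_lit 0) (nat_lit 1109142846) (nat_lit 532) (nat_lit 1109142846) (nat_lit 273) (nat_lit 1) (nat_lit 265) (nat_lit 1) (nat_lit 272) (nat_lit 1) (nat_lit 377) (nat_lit 413) (nat_lit 350)) (XT.nd (nat_lit 78) (nat_lit 532) (nat_lit 0) (XT.lf (nat_lit 76) (nat_lit 694749682) (nat_lit 0) (nat_lit 3018657922) (nat_lit 608) (nat_lit 694749682) (nat_lit 266) (nat_lit 1) (nat_lit 265) (nat_lit 1) (nat_lit 273) (nat_lit 1) (nat_lit 378) (nat_lit 413) (nat_lit 349)) (XT.lf (nat_lit 608) (nat_lit 550017104) (nat_lit 0) (nat_lit 1911403383) (nat_lit 532) (nat_lit 1911403383) (nat_lit 266) (nat_lit 1) (nat_lit 258) (nat_lit 1) (nat_lit 265) (nat_lit 1) (nat_lit 379) (nat_lit 413) (nat_lit 348)))))) (XT.nd (nat_lit 312) (nat_lit 1520) (nat_lit 0) (XT.nd (nat_lit 156) (nat_lit 532) (nat_lit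 0) (XT.nd (nat_lit 78) (nat_lit 0) (nat_lit 0) (XT.lf (nat_lit 608) (nat_lit 4063212587) (nat_lit 0) (nat_lit 137413584) (nat_lit 532) (nat_lit 137413584) (nat_lit 258) (nat_lit 1) (nat_lit 250) (nat_lit 1) (nat_lit 257) (nat_lit 1) (nat_lit 380) (nat_lit 413) (nat_lit 347)) (XT.lf (nat_lit 76) (nat_lit 1600266537) (nat_lit 0) (nat_lit 1102806966) (nat_lit 608) (nat_lit 1600266537) (nat_lit 251) (nat_lit 1) (nat_lit 250) (nat_lit 1) (nat_lit 258) (nat_lit 1) (nat_lit 381) (nat_lit 413) (nat_lit 346))) (XT.nd (nat_lit 78) (nat_lit 0) (nat_lit 0) (XT.lf (nat_lit 608) (nat_lit 2347513539) (nat_lit 0) (nat_lit 960832457) (nat_lit 532) (nat_lit 960832457) (nat_lit 251) (nat_lit 1) (nat_lit 243) (nat_lit 1) (nat_lit 250) (nat_lit 1) (nat_lit 382) (nat_lit 413) (nat_lit 345)) (XT.lf (nat_lit 76) (nat_lit 747836714) (nat_lit 0) (nat_lit 2739708438) (nat_lit 608) (nat_lit 747836714) (nat_lit 244) (nat_lit 1) (nat_lit 243) (nat_lit 1) (nat_lit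 251) (nat_lit 1) (nat_lit 383) (nat_lit 413) (nat_lit 344)))) (XT.nd (nat_lit 156) (nat_lit 456) (nat_lit 0) (XT.nd (nat_lit 78) (nat_lit 608) (nat_lit 0) (XT.lf (nat_lit 532) (nat_lit 642511667) (nat_lit 0) (nat_lit 1779691435) (nat_lit 456) (nat_lit 1779691435) (nat_lit 244) (nat_lit 1) (nat_lit 237) (nat_lit 1) (nat_lit 243) (nat_lit 1) (nat_lit 384) (nat_lit 413) (nat_lit 343)) (XT.lf (nat_lit 608) (nat_lit 3972056070) (nat_lit 0) (nat_lit 98436341) (nat_lit 532) (nat_lit 98436341) (nat_lit 237) (nat_lit 1) (nat_lit 229) (nat_lit 1) (nat_lit 236) (nat_lit 1) (nat_lit 385) (nat_lit 413) (nat_lit 342))) (XT.nd (nat_lit 78) (nat_lit 456) (nat_lit 0) (XT.lf (nat_lit 76) (nat_lit 1549342731) (nat_lit 0) (nat_lit 1037326311) (nat_lit 608) (nat_lit 1549342731) (nat_lit 230) (nat_lit 1) (nat_lit 229) (nat_lit 1) (nat_lit 237) (nat_lit 1) (nat_lit 386) (nat_lit 413) (nat_lit 341)) (XT.nd (nat_lit 78) (nat_lit 0) (nat_lit 0) (XT.lf (nat_lit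 532) (nat_lit 2235615252) (nat_lit 0) (nat_lit 933995579) (nat_lit 456) (nat_lit 933995579) (nat_lit 230) (nat_lit 1) (nat_lit 223) (nat_lit 1) (nat_lit 229) (nat_lit 1) (nat_lit 387) (nat_lit 413) (nat_lit 340)) (XT.lf (nat_lit 76) (nat_lit 687331295) (nat_lit 0) (nat_lit 2696883557) (nat_lit 532) (nat_lit 687331295) (nat_lit 224) (nat_lit 1) (nat_lit 223) (nat_lit 1) (nat_lit 230) (nat_lit 1) (nat_lit 388) (nat_lit 413) (nat_lit 339))))))) (XT.nd (nat_lit 702) (nat_lit 1976) (nat_lit 0) (XT.nd (nat_lit 312) (nat_lit 1292) (nat_lit 0) (XT.nd (nat_lit 156) (nat_lit 456) (nat_lit 0) (XT.nd (nat_lit 78) (nat_lit 532) (nat_lit 0) (XT.lf (nat_lit 532) (nat_lit 512848696) (nat_lit 0) (nat_lit 1763458961) (nat_lit 456) (nat_lit 1763458961) (nat_lit 224) (nat_lit 1) (nat_lit 217) (nat_lit 1) (nat_lit 223) (nat_lit 1) (nat_lit 389) (nat_lit 413) (nat_lit 338)) (XT.lf (nat_lit 532) (nat_lit 3675199972) (nat_lit 0) (nat_lit 166628119) (nat_lit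 456) (nat_lit 166628119) (nat_lit 217) (nat_lit 1) (nat_lit 210) (nat_lit 1) (nat_lit 216) (nat_lit 1) (nat_lit 390) (nat_lit 413) (nat_lit 337))) (XT.nd (nat_lit 78) (nat_lit 456) (nat_lit 0) (XT.lf (nat_lit 76) (nat_lit 1398589353) (nat_lit 0) (nat_lit 1180038498) (nat_lit 532) (nat_lit 1398589353) (nat_lit 211) (nat_lit 1) (nat_lit 210) (nat_lit 1) (nat_lit 217) (nat_lit 1) (nat_lit 391) (nat_lit 413) (nat_lit 336)) (XT.lf (nat_lit 532) (nat_lit 1928610134) (nat_lit 0) (nat_lit 1008914186) (nat_lit 456) (nat_lit 1008914186) (nat_lit 211) (nat_lit 1) (nat_lit 204) (nat_lit 1) (nat_lit 210) (nat_lit 1) (nat_lit 392) (nat_lit 413) (nat_lit 335)))) (XT.nd (nat_lit 156) (nat_lit 912) (nat_lit 0) (XT.nd (nat_lit 78) (nat_lit 380) (nat_lit 0) (XT.lf (nat_lit 76) (nat_lit 532150032) (nat_lit 0) (nat_lit 2851712810) (nat_lit 532) (nat_lit 532150032) (nat_lit 205) (nat_lit 1) (nat_lit 204) (nat_lit 1) (nat_lit 211) (nat_lit 1) (nat_lit 393)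 (nat_lit 413) (nat_lit 334)) (XT.lf (nat_lit 456) (nat_lit 198175983) (nat_lit 0) (nat_lit 1843819986) (nat_lit 380) (nat_lit 1843819986) (nat_lit 205) (nat_lit 1) (nat_lit 199) (nat_lit 1) (nat_lit 204) (nat_lit 1) (nat_lit 394) (nat_lit 413) (nat_lit 333))) (XT.nd (nat_lit 78) (nat_lit 380) (nat_lit 0) (XT.lf (nat_lit 532) (nat_lit 3208029034) (nat_lit 0) (nat_lit 323993198) (nat_lit 456) (nat_lit 323993198) (nat_lit 199) (nat_lit 1) (nat_lit 192) (nat_lit 1) (nat_lit 198) (nat_lit 1) (nat_lit 395) (nat_lit 413) (nat_lit 332)) (XT.nd (nat_lit 78) (nat_lit 380) (nat_lit 0) (XT.lf (nat_lit 76) (nat_lit 1165259784) (nat_lit 0) (nat_lit 1495837858) (nat_lit 532) (nat_lit 1165259784) (nat_lit 193) (nat_lit 1) (nat_lit 192) (nat_lit 1) (nat_lit 199) (nat_lit 1) (nat_lit 396) (nat_lit 413) (nat_lit 331)) (XT.lf (nat_lit 456) (nat_lit 1460375132) (nat_lit 0) (nat_lit 1168356429) (nat_lit 380) (nat_lit 1168356429) (nat_lit 193) (nat_lit 1) (nat_lit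 187) (nat_lit 1) (nat_lit 192) (nat_lit 1) (nat_lit 397) (nat_lit 413) (nat_lit 330)))))) (XT.nd (nat_lit 312) (nat_lit 1140) (nat_lit 0) (XT.nd (nat_lit 156) (nat_lit 380) (nat_lit 0) (XT.nd (nat_lit 78) (nat_lit 456) (nat_lit 0) (XT.lf (nat_lit 76) (nat_lit 298810496) (nat_lit 0) (nat_lit 3170581838) (nat_lit 456) (nat_lit 298810496) (nat_lit 188) (nat_lit 1) (nat_lit 187) (nat_lit 1) (nat_lit 193) (nat_lit 1) (nat_lit 398) (nat_lit 413) (nat_lit 329)) (XT.lf (nat_lit 76) (nat_lit 1736946795) (nat_lit 0) (nat_lit 265546514) (nat_lit 456) (nat_lit 1736946795) (nat_lit 182) (nat_lit 1) (nat_lit 181) (nat_lit 1) (nat_lit 187) (nat_lit 1) (nat_lit 399) (nat_lit 413) (nat_lit 328))) (XT.nd (nat_lit 78) (nat_lit 0) (nat_lit 0) (XT.lf (nat_lit 456) (nat_lit 2601407119) (nat_lit 0) (nat_lit 554823653) (nat_lit 380) (nat_lit 554823653) (nat_lit 182) (nat_lit 1) (nat_lit 176) (nat_lit 1) (nat_lit 181) (nat_lit 1) (nat_lit 400) (nat_lit 413) (nat_lit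 327)) (XT.lf (nat_lit 76) (nat_lit 864400181) (nat_lit 0) (nat_lit 1954087164) (nat_lit 456) (nat_lit 864400181) (nat_lit 177) (nat_lit 1) (nat_lit 176) (nat_lit 1) (nat_lit 182) (nat_lit 1) (nat_lit 401) (nat_lit 413) (nat_lit 326)))) (XT.nd (nat_lit 156) (nat_lit 760) (nat_lit 0) (XT.nd (nat_lit 78) (nat_lit 0) (nat_lit 0) (XT.lf (nat_lit 456) (nat_lit 860447707) (nat_lit 0) (nat_lit 1397286569) (nat_lit 380) (nat_lit 1397286569) (nat_lit 177) (nat_lit 1) (nat_lit 171) (nat_lit 1) (nat_lit 176) (nat_lit 1) (nat_lit 402) (nat_lit 413) (nat_lit 325)) (XT.lf (nat_lit 76) (nat_lit 1711622) (nat_lit 0) (nat_lit 3624165592) (nat_lit 456) (nat_lit 1711622) (nat_lit 172) (nat_lit 1) (nat_lit 171) (nat_lit 1) (nat_lit 177) (nat_lit 1) (nat_lit 403) (nat_lit 413) (nat_lit 324))) (XT.nd (nat_lit 78) (nat_lit 380) (nat_lit 0) (XT.lf (nat_lit 76) (nat_lit 1375381439) (nat_lit 0) (nat_lit 849352562) (nat_lit 380) (nat_lit 1375381439) (nat_lit 167)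 (nat_lit 1) (nat_lit 166) (nat_lit 1) (nat_lit 171) (nat_lit 1) (nat_lit 404) (nat_lit 413) (nat_lit 323)) (XT.nd (nat_lit 78) (nat_lit 0) (nat_lit 0) (XT.lf (nat_lit 456) (nat_lit 1882206823) (nat_lit 0) (nat_lit 845431738) (nat_lit 380) (nat_lit 845431738) (nat_lit 167) (nat_lit 1) (nat_lit 161) (nat_lit 1) (nat_lit 166) (nat_lit 1) (nat_lit 405) (nat_lit 413) (nat_lit 322)) (XT.lf (nat_lit 76) (nat_lit 509108165) (nat_lit 0) (nat_lit 2528094711) (nat_lit 456) (nat_lit 509108165) (nat_lit 162) (nat_lit 1) (nat_lit 161) (nat_lit 1) (nat_lit 167) (nat_lit 1) (nat_lit 406) (nat_lit 413) (nat_lit 321))))))))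
noncomputable def ec123 : XT := (XT.nd (nat_lit 1404) (nat_lit 2432) (nat_lit 0) (XT.nd (nat_lit 702) (nat_lit 1900) (nat_lit 0) (XT.nd (nat_lit 312) (nat_lit 988) (nat_lit 0) (XT.nd (nat_lit 156) (nat_lit 304) (nat_lit 0) (XT.nd (nat_lit 78) (nat_lit 456) (nat_lit 0) (XT.lf (nat_lit 380) (nat_lit 154534628) (nat_lit 0) (nat_lit 1682607863) (nat_lit 304) (nat_lit 1682607863) (nat_lit 162) (nat_lit 1) (nat_lit 157) (nat_lit 1) (nat_lit 161) (nat_lit 1) (nat_lit 407) (nat_lit 413) (nat_lit 320)) (XT.lf (nat_lit 456) (nat_lit 2804834972) (nat_lit 0) (nat_lit 344337393) (nat_lit 380) (nat_lit 344337393) (nat_lit 157) (nat_lit 1) (nat_lit 151) (nat_lit 1) (nat_lit 156) (nat_lit 1) (nat_lit 408) (nat_lit 413) (nat_lit 319))) (XT.nd (nat_lit 78) (nat_lit 304) (nat_lit 0) (XT.lf (nat_lit 76) (nat_lit 967912634) (nat_lit 0) (nat_lit 1531574524) (nat_lit 456) (nat_lit 967912634) (nat_lit 152) (nat_lit 1) (nat_lit 151) (nat_lit 1) (nat_lit 157)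 (nat_lit 1) (nat_lit 409) (nat_lit 413) (nat_lit 318)) (XT.lf (nat_lit 380) (nat_lit 1073778822) (nat_lit 0) (nat_lit 1183912696) (nat_lit 304) (nat_lit 1183912696) (nat_lit 152) (nat_lit 1) (nat_lit 147) (nat_lit 1) (nat_lit 151) (nat_lit 1) (nat_lit 410) (nat_lit 413) (nat_lit 317)))) (XT.nd (nat_lit 156) (nat_lit 608) (nat_lit 0) (XT.nd (nat_lit 78) (nat_lit 380) (nat_lit 0) (XT.lf (nat_lit 76) (nat_lit 110762064) (nat_lit 0) (nat_lit 3194650869) (nat_lit 380) (nat_lit 110762064) (nat_lit 148) (nat_lit 1) (nat_lit 147) (nat_lit 1) (nat_lit 152) (nat_lit 1) (nat_lit 411) (nat_lit 413) (nat_lit 316)) (XT.lf (nat_lit 76) (nat_lit 1382020663) (nat_lit 0) (nat_lit 626708500) (nat_lit 380) (nat_lit 1382020663) (nat_lit 143) (nat_lit 1) (nat_lit 142) (nat_lit 1) (nat_lit 147) (nat_lit 1) (nat_lit 412) (nat_lit 413) (nat_lit 315))) (XT.nd (nat_lit 78) (nat_lit 304) (nat_lit 0) (XT.lf (nat_lit 380) (nat_lit 1904763214) (nat_lit 0) (nat_lit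 730461268) (nat_lit 304) (nat_lit 730461268) (nat_lit 143) (nat_lit 1) (nat_lit 138) (nat_lit 1) (nat_lit 142) (nat_lit 1) (nat_lit 413) (nat_lit 413) (nat_lit 314)) (XT.nd (nat_lit 78) (nat_lit 304) (nat_lit 0) (XT.lf (nat_lit 76) (nat_lit 524859683) (nat_lit 0) (nat_lit 2291146420) (nat_lit 380) (nat_lit 524859683) (nat_lit 139) (nat_lit 1) (nat_lit 138) (nat_lit 1) (nat_lit 143) (nat_lit 1) (nat_lit 414) (nat_lit 413) (nat_lit 313)) (XT.lf (nat_lit 380) (nat_lit 196367752) (nat_lit 0) (nat_lit 1559934590) (nat_lit 304) (nat_lit 1559934590) (nat_lit 139) (nat_lit 1) (nat_lit 134) (nat_lit 1) (nat_lit 138) (nat_lit 1) (nat_lit 415) (nat_lit 413) (nat_lit 312)))))) (XT.nd (nat_lit 312) (nat_lit 1216) (nat_lit 0) (XT.nd (nat_lit 156) (nat_lit 304) (nat_lit 0) (XT.nd (nat_lit 78) (nat_lit 0) (nat_lit 0) (XT.lf (nat_lit 380) (nat_lit 2654567137) (nat_lit 0) (nat_lit 318665594) (nat_lit 304) (nat_lit 318665594) (nat_lit 134) (nat_lit 1) (nat_lit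 129) (nat_lit 1) (nat_lit 133) (nat_lit 1) (nat_lit 416) (nat_lit 413) (nat_lit 311)) (XT.lf (nat_lit 76) (nat_lit 899136919) (nat_lit 0) (nat_lit 1469393403) (nat_lit 380) (nat_lit 899136919) (nat_lit 130) (nat_lit 1) (nat_lit 129) (nat_lit 1) (nat_lit 134) (nat_lit 1) (nat_lit 417) (nat_lit 413) (nat_lit 310))) (XT.nd (nat_lit 78) (nat_lit 0) (nat_lit 0) (XT.lf (nat_lit 380) (nat_lit 949103545) (nat_lit 0) (nat_lit 1147309091) (nat_lit 304) (nat_lit 1147309091) (nat_lit 130) (nat_lit 1) (nat_lit 125) (nat_lit 1) (nat_lit 129) (nat_lit 1) (nat_lit 418) (nat_lit 413) (nat_lit 309)) (XT.lf (nat_lit 76) (nat_lit 55149097) (nat_lit 0) (nat_lit 3109824295) (nat_lit 380) (nat_lit 55149097) (nat_lit 126) (nat_lit 1) (nat_lit 125) (nat_lit 1) (nat_lit 130) (nat_lit 1) (nat_lit 419) (nat_lit 413) (nat_lit 308)))) (XT.nd (nat_lit 156) (nat_lit 608) (nat_lit 0) (XT.nd (nat_lit 78) (nat_lit 304) (nat_lit 0) (XT.lf (nat_lit 76) (nat_lit 1236788729)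 (nat_lit 0) (nat_lit 722912238) (nat_lit 304) (nat_lit 1236788729) (nat_lit 122) (nat_lit 1) (nat_lit 121) (nat_lit 1) (nat_lit 125) (nat_lit 1) (nat_lit 420) (nat_lit 413) (nat_lit 307)) (XT.lf (nat_lit 380) (nat_lit 1629462317) (nat_lit 0) (nat_lit 771868271) (nat_lit 304) (nat_lit 771868271) (nat_lit 122) (nat_lit 1) (nat_lit 117) (nat_lit 1) (nat_lit 121) (nat_lit 1) (nat_lit 421) (nat_lit 413) (nat_lit 306))) (XT.nd (nat_lit 78) (nat_lit 608) (nat_lit 0) (XT.lf (nat_lit 76) (nat_lit 395553656) (nat_lit 0) (nat_lit 2359045801) (nat_lit 380) (nat_lit 395553656) (nat_lit 118) (nat_lit 1) (nat_lit 117) (nat_lit 1) (nat_lit 122) (nat_lit 1) (nat_lit 422) (nat_lit 413) (nat_lit 305)) (XT.nd (nat_lit 78) (nat_lit 304) (nat_lit 0) (XT.lf (nat_lit 76) (nat_lit 1540763569) (nat_lit 0) (nat_lit 45721777) (nat_lit 304) (nat_lit 1540763569) (nat_lit 114) (nat_lit 1) (nat_lit 113) (nat_lit 1) (nat_lit 117) (nat_lit 1) (nat_lit 423) (nat_lit 413)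 (nat_lit 304)) (XT.lf (nat_lit 380) (nat_lit 2243251062) (nat_lit 0) (nat_lit 430667378) (nat_lit 304) (nat_lit 430667378) (nat_lit 114) (nat_lit 1) (nat_lit 109) (nat_lit 1) (nat_lit 113) (nat_lit 1) (nat_lit 424) (nat_lit 413) (nat_lit 303))))))) (XT.nd (nat_lit 702) (nat_lit 1064) (nat_lit 0) (XT.nd (nat_lit 312) (nat_lit 760) (nat_lit 0) (XT.nd (nat_lit 156) (nat_lit 380) (nat_lit 0) (XT.nd (nat_lit 78) (nat_lit 228) (nat_lit 0) (XT.lf (nat_lit 76) (nat_lit 703277902) (nat_lit 0) (nat_lit 1675519998) (nat_lit 380) (nat_lit 703277902) (nat_lit 110) (nat_lit 1) (nat_lit 109) (nat_lit 1) (nat_lit 114) (nat_lit 1) (nat_lit 425) (nat_lit 413) (nat_lit 302)) (XT.lf (nat_lit 304) (nat_lit 575243178) (nat_lit 0) (nat_lit 1242273920) (nat_lit 228) (nat_lit 1242273920) (nat_lit 110) (nat_lit 1) (nat_lit 106) (nat_lit 1) (nat_lit 109) (nat_lit 1) (nat_lit 426) (nat_lit 413) (nat_lit 301))) (XT.nd (nat_lit 78) (nat_lit 0) (nat_lit 0) (XT.lf (nat_lit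 380) (nat_lit 2795828756) (nat_lit 0) (nat_lit 120988133) (nat_lit 304) (nat_lit 120988133) (nat_lit 106) (nat_lit 1) (nat_lit 101) (nat_lit 1) (nat_lit 105) (nat_lit 1) (nat_lit 427) (nat_lit 413) (nat_lit 300)) (XT.lf (nat_lit 76) (nat_lit 980943078) (nat_lit 0) (nat_lit 1053927687) (nat_lit 380) (nat_lit 980943078) (nat_lit 102) (nat_lit 1) (nat_lit 101) (nat_lit 1) (nat_lit 106) (nat_lit 1) (nat_lit 428) (nat_lit 413) (nat_lit 299)))) (XT.nd (nat_lit 156) (nat_lit 532) (nat_lit 0) (XT.nd (nat_lit 78) (nat_lit 0) (nat_lit 0) (XT.lf (nat_lit 304) (nat_lit 1137361640) (nat_lit 0) (nat_lit 928378135) (nat_lit 228) (nat_lit 928378135) (nat_lit 102) (nat_lit 1) (nat_lit 98) (nat_lit 1) (nat_lit 101) (nat_lit 1) (nat_lit 429) (nat_lit 413) (nat_lit 298)) (XT.lf (nat_lit 76) (nat_lit 160736036) (nat_lit 0) (nat_lit 2651227624) (nat_lit 304) (nat_lit 160736036) (nat_lit 99) (nat_lit 1) (nat_lit 98) (nat_lit 1) (nat_lit 102) (nat_lit 1) (nat_lit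 430) (nat_lit 413) (nat_lit 297))) (XT.nd (nat_lit 78) (nat_lit 228) (nat_lit 0) (XT.lf (nat_lit 76) (nat_lit 1230968213) (nat_lit 0) (nat_lit 489358626) (nat_lit 304) (nat_lit 1230968213) (nat_lit 95) (nat_lit 1) (nat_lit 94) (nat_lit 1) (nat_lit 98) (nat_lit 1) (nat_lit 431) (nat_lit 413) (nat_lit 296)) (XT.nd (nat_lit 78) (nat_lit 0) (nat_lit 0) (XT.lf (nat_lit 304) (nat_lit 1644791311) (nat_lit 0) (nat_lit 642686772) (nat_lit 228) (nat_lit 642686772) (nat_lit 95) (nat_lit 1) (nat_lit 91) (nat_lit 1) (nat_lit 94) (nat_lit 1) (nat_lit 432) (nat_lit 413) (nat_lit 295)) (XT.lf (nat_lit 76) (nat_lit 416387995) (nat_lit 0) (nat_lit 2076459404) (nat_lit 304) (nat_lit 416387995) (nat_lit 92) (nat_lit 1) (nat_lit 91) (nat_lit 1) (nat_lit 95) (nat_lit 1) (nat_lit 433) (nat_lit 413) (nat_lit 294)))))) (XT.nd (nat_lit 390) (nat_lit 0) (nat_lit 0) (XT.nd (nat_lit 156) (nat_lit 532) (nat_lit 0) (XT.nd (nat_lit 78) (nat_lit 304) (nat_lit 0) (XT.lf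 (nat_lit 304) (nat_lit 23021621) (nat_lit 0) (nat_lit 1432713416) (nat_lit 228) (nat_lit 1432713416) (nat_lit 92) (nat_lit 1) (nat_lit 88) (nat_lit 1) (nat_lit 91) (nat_lit 1) (nat_lit 434) (nat_lit 413) (nat_lit 293)) (XT.lf (nat_lit 304) (nat_lit 2101929951) (nat_lit 0) (nat_lit 382967626) (nat_lit 228) (nat_lit 382967626) (nat_lit 88) (nat_lit 1) (nat_lit 84) (nat_lit 1) (nat_lit 87) (nat_lit 1) (nat_lit 435) (nat_lit 413) (nat_lit 292))) (XT.nd (nat_lit 78) (nat_lit 532) (nat_lit 0) (XT.lf (nat_lit 76) (nat_lit 647318088) (nat_lit 0) (nat_lit 1552773495) (nat_lit 304) (nat_lit 647318088) (nat_lit 85) (nat_lit 1) (nat_lit 84) (nat_lit 1) (nat_lit 88) (nat_lit 1) (nat_lit 436) (nat_lit 413) (nat_lit 291)) (XT.nd (nat_lit 78) (nat_lit 304) (nat_lit 0) (XT.lf (nat_lit 304) (nat_lit 492956078) (nat_lit 0) (nat_lit 1167099422) (nat_lit 228) (nat_lit 1167099422) (nat_lit 85) (nat_lit 1) (nat_lit 81) (nat_lit 1) (nat_lit 84) (nat_lit 1) (nat_lit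 437) (nat_lit 413) (nat_lit 290)) (XT.lf (nat_lit 304) (nat_lit 2512835843) (nat_lit 0) (nat_lit 147160135) (nat_lit 228) (nat_lit 147160135) (nat_lit 81) (nat_lit 1) (nat_lit 77) (nat_lit 1) (nat_lit 80) (nat_lit 1) (nat_lit 438) (nat_lit 413) (nat_lit 289))))) (XT.nd (nat_lit 49530) (nat_lit 0) (nat_lit 31920) (XT.nd (nat_lit 49452) (nat_lit 0) (nat_lit 31920) (XT.lf (nat_lit 76) (nat_lit 855511996) (nat_lit 0) (nat_lit 1076136388) (nat_lit 304) (nat_lit 855511996) (nat_lit 78) (nat_lit 1) (nat_lit 77) (nat_lit 1) (nat_lit 81) (nat_lit 1) (nat_lit 439) (nat_lit 413) (nat_lit 288)) (XT.lf (nat_lit 1900) (nat_lit 1322486341) (nat_lit 0) (nat_lit 1333545402) (nat_lit 1900) (nat_lit 1322486341) (nat_lit 522) (nat_lit 1) (nat_lit 497) (nat_lit 0) (nat_lit 522) (nat_lit 0) (nat_lit 312) (nat_lit 414) (nat_lit 414))) (XT.nd (nat_lit 78) (nat_lit 0) (nat_lit 76) (XT.lf (nat_lit 1900) (nat_lit 5229309830) (nat_lit 76) (nat_lit 1324772077) (nat_lit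 0) (nat_lit 1324772077) (nat_lit 522) (nat_lit 1) (nat_lit 498) (nat_lit 1) (nat_lit 497) (nat_lit 0) (nat_lit 313) (nat_lit 414) (nat_lit 413)) (XT.nd (nat_lit 78) (nat_lit 0) (nat_lit 0) (XT.lf (nat_lit 1900) (nat_lit 2567616018) (nat_lit 0) (nat_lit 2666293705) (nat_lit 1824) (nat_lit 2567616018) (nat_lit 523) (nat_lit 1) (nat_lit 498) (nat_lit 1) (nat_lit 522) (nat_lit 1) (nat_lit 314) (nat_lit 414) (nat_lit 412)) (XT.lf (nat_lit 1900) (nat_lit 5025457500) (nat_lit 76) (nat_lit 1349956144) (nat_lit 0) (nat_lit 1349956144) (nat_lit 523) (nat_lit 1) (nat_lit 499) (nat_lit 1) (nat_lit 498) (nat_lit 1) (nat_lit 315) (nat_lit 414) (nat_lit 411))))))))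
noncomputable def ec124 : XT := (XT.nd (nat_lit 1404) (nat_lit 7068) (nat_lit 0) (XT.nd (nat_lit 702) (nat_lit 1292) (nat_lit 0) (XT.nd (nat_lit 312) (nat_lit 0) (nat_lit 152) (XT.nd (nat_lit 156) (nat_lit 0) (nat_lit 76) (XT.nd (nat_lit 78) (nat_lit 0) (nat_lit 0) (XT.lf (nat_lit 1900) (nat_lit 2442277115) (nat_lit 0) (nat_lit 2765500289) (nat_lit 1824) (nat_lit 2442277115) (nat_lit 524) (nat_lit 1) (nat_lit 499) (nat_lit 1) (nat_lit 523) (nat_lit 1) (nat_lit 316) (nat_lit 414) (nat_lit 410)) (XT.lf (nat_lit 1900) (nat_lit 4728219688) (nat_lit 76) (nat_lit 1423819791) (nat_lit 0) (nat_lit 1423819791) (nat_lit 524) (nat_lit 1) (nat_lit 500) (nat_lit 1) (nat_lit 499) (nat_lit 1) (nat_lit 317) (nat_lit 414) (nat_lit 409))) (XT.nd (nat_lit 78) (nat_lit 0) (nat_lit 0) (XT.lf (nat_lit 1900) (nat_lit 2271818908) (nat_lit 0) (nat_lit 2958867042) (nat_lit 1824) (nat_lit 2271818908) (nat_lit 525) (nat_lit 1) (nat_lit 500) (nat_lit 1) (nat_lit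 524) (nat_lit 1) (nat_lit 318) (nat_lit 414) (nat_lit 408)) (XT.lf (nat_lit 1900) (nat_lit 4343208966) (nat_lit 76) (nat_lit 1543499055) (nat_lit 0) (nat_lit 1543499055) (nat_lit 525) (nat_lit 1) (nat_lit 501) (nat_lit 1) (nat_lit 500) (nat_lit 1) (nat_lit 319) (nat_lit 414) (nat_lit 407)))) (XT.nd (nat_lit 156) (nat_lit 0) (nat_lit 76) (XT.nd (nat_lit 78) (nat_lit 0) (nat_lit 0) (XT.lf (nat_lit 1900) (nat_lit 2058973560) (nat_lit 0) (nat_lit 3240815797) (nat_lit 1824) (nat_lit 2058973560) (nat_lit 526) (nat_lit 1) (nat_lit 501) (nat_lit 1) (nat_lit 525) (nat_lit 1) (nat_lit 320) (nat_lit 414) (nat_lit 406)) (XT.lf (nat_lit 1900) (nat_lit 3875781016) (nat_lit 76) (nat_lit 1706260273) (nat_lit 0) (nat_lit 1706260273) (nat_lit 526) (nat_lit 1) (nat_lit 502) (nat_lit 1) (nat_lit 501) (nat_lit 1) (nat_lit 321) (nat_lit 414) (nat_lit 405))) (XT.nd (nat_lit 78) (nat_lit 0) (nat_lit 0) (XT.lf (nat_lit 1900) (nat_lit 1806347922) (nat_lit 0) (nat_lit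 3606022676) (nat_lit 1824) (nat_lit 1806347922) (nat_lit 527) (nat_lit 1) (nat_lit 502) (nat_lit 1) (nat_lit 526) (nat_lit 1) (nat_lit 322) (nat_lit 414) (nat_lit 404)) (XT.nd (nat_lit 78) (nat_lit 0) (nat_lit 76) (XT.lf (nat_lit 1900) (nat_lit 3331045371) (nat_lit 76) (nat_lit 1909494654) (nat_lit 0) (nat_lit 1909494654) (nat_lit 527) (nat_lit 1) (nat_lit 503) (nat_lit 1) (nat_lit 502) (nat_lit 1) (nat_lit 323) (nat_lit 414) (nat_lit 403)) (XT.lf (nat_lit 1900) (nat_lit 1516428776) (nat_lit 0) (nat_lit 4049407478) (nat_lit 1824) (nat_lit 1516428776) (nat_lit 528) (nat_lit 1) (nat_lit 503) (nat_lit 1) (nat_lit 527) (nat_lit 1) (nat_lit 324) (nat_lit 414) (nat_lit 402)))))) (XT.nd (nat_lit 312) (nat_lit 1596) (nat_lit 0) (XT.nd (nat_lit 156) (nat_lit 0) (nat_lit 76) (XT.nd (nat_lit 78) (nat_lit 0) (nat_lit 76) (XT.lf (nat_lit 1900) (nat_lit 2713875716) (nat_lit 76) (nat_lit 2150713057) (nat_lit 0) (nat_lit 2150713057) (nat_lit 528) (nat_lit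 1) (nat_lit 504) (nat_lit 1) (nat_lit 503) (nat_lit 1) (nat_lit 325) (nat_lit 414) (nat_lit 401)) (XT.lf (nat_lit 1900) (nat_lit 1191587869) (nat_lit 0) (nat_lit 4566123491) (nat_lit 1824) (nat_lit 1191587869) (nat_lit 529) (nat_lit 1) (nat_lit 504) (nat_lit 1) (nat_lit 528) (nat_lit 1) (nat_lit 326) (nat_lit 414) (nat_lit 400))) (XT.nd (nat_lit 78) (nat_lit 0) (nat_lit 76) (XT.lf (nat_lit 1900) (nat_lit 2028919788) (nat_lit 76) (nat_lit 2427540991) (nat_lit 0) (nat_lit 2427540991) (nat_lit 529) (nat_lit 1) (nat_lit 505) (nat_lit 1) (nat_lit 504) (nat_lit 1) (nat_lit 327) (nat_lit 414) (nat_lit 399)) (XT.lf (nat_lit 1900) (nat_lit 834086738) (nat_lit 0) (nat_lit 5151547716) (nat_lit 1824) (nat_lit 834086738) (nat_lit 530) (nat_lit 1) (nat_lit 505) (nat_lit 1) (nat_lit 529) (nat_lit 1) (nat_lit 328) (nat_lit 414) (nat_lit 398)))) (XT.nd (nat_lit 156) (nat_lit 1748) (nat_lit 0) (XT.nd (nat_lit 78) (nat_lit 0) (nat_lit 76) (XT.lf (nat_lit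 1900) (nat_lit 1280608863) (nat_lit 76) (nat_lit 2737713806) (nat_lit 0) (nat_lit 2737713806) (nat_lit 530) (nat_lit 1) (nat_lit 506) (nat_lit 1) (nat_lit 505) (nat_lit 1) (nat_lit 329) (nat_lit 414) (nat_lit 397)) (XT.lf (nat_lit 1900) (nat_lit 446081350) (nat_lit 0) (nat_lit 5801271484) (nat_lit 1824) (nat_lit 446081350) (nat_lit 531) (nat_lit 1) (nat_lit 506) (nat_lit 1) (nat_lit 530) (nat_lit 1) (nat_lit 330) (nat_lit 414) (nat_lit 396))) (XT.nd (nat_lit 78) (nat_lit 1824) (nat_lit 0) (XT.lf (nat_lit 1900) (nat_lit 473166871) (nat_lit 76) (nat_lit 3079072081) (nat_lit 0) (nat_lit 3079072081) (nat_lit 531) (nat_lit 1) (nat_lit 507) (nat_lit 1) (nat_lit 506) (nat_lit 1) (nat_lit 331) (nat_lit 414) (nat_lit 395)) (XT.nd (nat_lit 78) (nat_lit 1900) (nat_lit 0) (XT.lf (nat_lit 1900) (nat_lit 29626545) (nat_lit 0) (nat_lit 6511091450) (nat_lit 1824) (nat_lit 29626545) (nat_lit 532) (nat_lit 1) (nat_lit 507) (nat_lit 1) (nat_lit 531) (nat_lit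 1) (nat_lit 332) (nat_lit 414) (nat_lit 394)) (XT.lf (nat_lit 1976) (nat_lit 3062704460) (nat_lit 0) (nat_lit 384274062) (nat_lit 1900) (nat_lit 3062704460) (nat_lit 508) (nat_lit 1) (nat_lit 482) (nat_lit 1) (nat_lit 507) (nat_lit 1) (nat_lit 333) (nat_lit 414) (nat_lit 393))))))) (XT.nd (nat_lit 702) (nat_lit 4256) (nat_lit 0) (XT.nd (nat_lit 312) (nat_lit 2812) (nat_lit 0) (XT.nd (nat_lit 156) (nat_lit 0) (nat_lit 76) (XT.nd (nat_lit 78) (nat_lit 0) (nat_lit 76) (XT.lf (nat_lit 1976) (nat_lit 5628945185) (nat_lit 76) (nat_lit 410600486) (nat_lit 0) (nat_lit 410600486) (nat_lit 508) (nat_lit 1) (nat_lit 483) (nat_lit 1) (nat_lit 482) (nat_lit 1) (nat_lit 334) (nat_lit 414) (nat_lit 392)) (XT.lf (nat_lit 1976) (nat_lit 2552469125) (nat_lit 0) (nat_lit 1286107533) (nat_lit 1900) (nat_lit 2552469125) (nat_lit 509) (nat_lit 1) (nat_lit 483) (nat_lit 1) (nat_lit 508) (nat_lit 1) (nat_lit 335) (nat_lit 414) (nat_lit 391))) (XT.nd (nat_lit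 78) (nat_lit 0) (nat_lit 76) (XT.lf (nat_lit 1976) (nat_lit 4582744729) (nat_lit 76) (nat_lit 875096803) (nat_lit 0) (nat_lit 875096803) (nat_lit 509) (nat_lit 1) (nat_lit 484) (nat_lit 1) (nat_lit 483) (nat_lit 1) (nat_lit 336) (nat_lit 414) (nat_lit 390)) (XT.lf (nat_lit 76) (nat_lit 2020220496) (nat_lit 0) (nat_lit 2234934173) (nat_lit 1900) (nat_lit 2020220496) (nat_lit 485) (nat_lit 1) (nat_lit 484) (nat_lit 1) (nat_lit 509) (nat_lit 1) (nat_lit 337) (nat_lit 414) (nat_lit 389)))) (XT.nd (nat_lit 156) (nat_lit 1824) (nat_lit 0) (XT.nd (nat_lit 78) (nat_lit 0) (nat_lit 0) (XT.lf (nat_lit 1216) (nat_lit 3494067149) (nat_lit 0) (nat_lit 1362292615) (nat_lit 1140) (nat_lit 1362292615) (nat_lit 485) (nat_lit 1) (nat_lit 469) (nat_lit 1) (nat_lit 484) (nat_lit 1) (nat_lit 338) (nat_lit 414) (nat_lit 388)) (XT.lf (nat_lit 76) (nat_lit 1467633500) (nat_lit 0) (nat_lit 3227321090) (nat_lit 1216) (nat_lit 1467633500) (nat_lit 470) (nat_lit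 1) (nat_lit 469) (nat_lit 1) (nat_lit 485) (nat_lit 1) (nat_lit 339) (nat_lit 414) (nat_lit 387))) (XT.nd (nat_lit 78) (nat_lit 912) (nat_lit 0) (XT.lf (nat_lit 988) (nat_lit 2366191341) (nat_lit 0) (nat_lit 1870507719) (nat_lit 912) (nat_lit 1870507719) (nat_lit 470) (nat_lit 1) (nat_lit 457) (nat_lit 1) (nat_lit 469) (nat_lit 1) (nat_lit 340) (nat_lit 414) (nat_lit 386)) (XT.nd (nat_lit 78) (nat_lit 912) (nat_lit 0) (XT.lf (nat_lit 76) (nat_lit 896301943) (nat_lit 0) (nat_lit 4260000231) (nat_lit 988) (nat_lit 896301943) (nat_lit 458) (nat_lit 1) (nat_lit 457) (nat_lit 1) (nat_lit 470) (nat_lit 1) (nat_lit 341) (nat_lit 414) (nat_lit 385)) (XT.lf (nat_lit 988) (nat_lit 1202236929) (nat_lit 0) (nat_lit 2398142816) (nat_lit 912) (nat_lit 2398142816) (nat_lit 458) (nat_lit 1) (nat_lit 445) (nat_lit 1) (nat_lit 457) (nat_lit 1) (nat_lit 342) (nat_lit 414) (nat_lit 384)))))) (XT.nd (nat_lit 312) (nat_lit 2432) (nat_lit 0) (XT.nd (nat_lit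 156) (nat_lit 988) (nat_lit 0) (XT.nd (nat_lit 78) (nat_lit 836) (nat_lit 0) (XT.lf (nat_lit 76) (nat_lit 307741979) (nat_lit 0) (nat_lit 5329861355) (nat_lit 988) (nat_lit 307741979) (nat_lit 446) (nat_lit 1) (nat_lit 445) (nat_lit 1) (nat_lit 458) (nat_lit 1) (nat_lit 343) (nat_lit 414) (nat_lit 383)) (XT.lf (nat_lit 912) (nat_lit 5171072) (nat_lit 0) (nat_lit 2943676069) (nat_lit 836) (nat_lit 2943676069) (nat_lit 446) (nat_lit 1) (nat_lit 434) (nat_lit 1) (nat_lit 445) (nat_lit 1) (nat_lit 344) (nat_lit 414) (nat_lit 382))) (XT.nd (nat_lit 78) (nat_lit 0) (nat_lit 0) (XT.lf (nat_lit 988) (nat_lit 5251275139) (nat_lit 0) (nat_lit 294653224) (nat_lit 912) (nat_lit 294653224) (nat_lit 434) (nat_lit 1) (nat_lit 421) (nat_lit 1) (nat_lit 433) (nat_lit 1) (nat_lit 345) (nat_lit 414) (nat_lit 381)) (XT.lf (nat_lit 76) (nat_lit 2291410026) (nat_lit 0) (nat_lit 1206155819) (nat_lit 988) (nat_lit 2291410026) (nat_lit 422) (nat_lit 1) (nat_lit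 421) (nat_lit 1) (nat_lit 434) (nat_lit 1) (nat_lit 346) (nat_lit 414) (nat_lit 380)))) (XT.nd (nat_lit 156) (nat_lit 1596) (nat_lit 0) (XT.nd (nat_lit 78) (nat_lit 0) (nat_lit 0) (XT.lf (nat_lit 912) (nat_lit 3919536695) (nat_lit 0) (nat_lit 909344873) (nat_lit 836) (nat_lit 909344873) (nat_lit 422) (nat_lit 1) (nat_lit 410) (nat_lit 1) (nat_lit 421) (nat_lit 1) (nat_lit 347) (nat_lit 414) (nat_lit 379)) (XT.lf (nat_lit 76) (nat_lit 1621650847) (nat_lit 0) (nat_lit 2444661437) (nat_lit 912) (nat_lit 1621650847) (nat_lit 411) (nat_lit 1) (nat_lit 410) (nat_lit 1) (nat_lit 422) (nat_lit 1) (nat_lit 348) (nat_lit 414) (nat_lit 378))) (XT.nd (nat_lit 78) (nat_lit 760) (nat_lit 0) (XT.lf (nat_lit 912) (nat_lit 2564242907) (nat_lit 0) (nat_lit 1537063557) (nat_lit 836) (nat_lit 1537063557) (nat_lit 411) (nat_lit 1) (nat_lit 399) (nat_lit 1) (nat_lit 410) (nat_lit 1) (nat_lit 349) (nat_lit 414) (nat_lit 377)) (XT.nd (nat_lit 78) (nat_lit 760)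 (nat_lit 0) (XT.lf (nat_lit 76) (nat_lit 940758627) (nat_lit 0) (nat_lit 3707899091) (nat_lit 912) (nat_lit 940758627) (nat_lit 400) (nat_lit 1) (nat_lit 399) (nat_lit 1) (nat_lit 411) (nat_lit 1) (nat_lit 350) (nat_lit 414) (nat_lit 376)) (XT.lf (nat_lit 836) (nat_lit 1187784308) (nat_lit 0) (nat_lit 2176579962) (nat_lit 760) (nat_lit 2176579962) (nat_lit 400) (nat_lit 1) (nat_lit 389) (nat_lit 1) (nat_lit 399) (nat_lit 1) (nat_lit 351) (nat_lit 414) (nat_lit 375))))))))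
noncomputable def ec125 : XT := (XT.nd (nat_lit 1404) (nat_lit 6536) (nat_lit 0) (XT.nd (nat_lit 702) (nat_lit 3268) (nat_lit 0) (XT.nd (nat_lit 312) (nat_lit 2204) (nat_lit 0) (XT.nd (nat_lit 156) (nat_lit 760) (nat_lit 0) (XT.nd (nat_lit 78) (nat_lit 836) (nat_lit 0) (XT.lf (nat_lit 76) (nat_lit 249893923) (nat_lit 0) (nat_lit 4993480470) (nat_lit 836) (nat_lit 249893923) (nat_lit 390) (nat_lit 1) (nat_lit 389) (nat_lit 1) (nat_lit 400) (nat_lit 1) (nat_lit 352) (nat_lit 414) (nat_lit 374)) (XT.lf (nat_lit 76) (nat_lit 2620504052) (nat_lit 0) (nat_lit 204848010) (nat_lit 836) (nat_lit 2620504052) (nat_lit 379) (nat_lit 1) (nat_lit 378) (nat_lit 1) (nat_lit 389) (nat_lit 1) (nat_lit 353) (nat_lit 414) (nat_lit 373))) (XT.nd (nat_lit 78) (nat_lit 0) (nat_lit 0) (XT.lf (nat_lit 836) (nat_lit 4505454326) (nat_lit 0) (nat_lit 446882565) (nat_lit 760) (nat_lit 446882565) (nat_lit 379) (nat_lit 1) (nat_lit 368) (nat_lit 1) (nat_lit 378) (nat_lit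 1) (nat_lit 354) (nat_lit 414) (nat_lit 372)) (XT.lf (nat_lit 76) (nat_lit 1877242862) (nat_lit 0) (nat_lit 1598426472) (nat_lit 836) (nat_lit 1877242862) (nat_lit 369) (nat_lit 1) (nat_lit 368) (nat_lit 1) (nat_lit 379) (nat_lit 1) (nat_lit 355) (nat_lit 414) (nat_lit 371)))) (XT.nd (nat_lit 156) (nat_lit 1444) (nat_lit 0) (XT.nd (nat_lit 78) (nat_lit 0) (nat_lit 0) (XT.lf (nat_lit 836) (nat_lit 3007726035) (nat_lit 0) (nat_lit 1149790345) (nat_lit 760) (nat_lit 1149790345) (nat_lit 369) (nat_lit 1) (nat_lit 358) (nat_lit 1) (nat_lit 368) (nat_lit 1) (nat_lit 356) (nat_lit 414) (nat_lit 370)) (XT.lf (nat_lit 76) (nat_lit 1127844988) (nat_lit 0) (nat_lit 3006514942) (nat_lit 836) (nat_lit 1127844988) (nat_lit 359) (nat_lit 1) (nat_lit 358) (nat_lit 1) (nat_lit 369) (nat_lit 1) (nat_lit 357) (nat_lit 414) (nat_lit 369))) (XT.nd (nat_lit 78) (nat_lit 760) (nat_lit 0) (XT.lf (nat_lit 760) (nat_lit 1498620019) (nat_lit 0) (nat_lit 1859489801)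 (nat_lit 684) (nat_lit 1859489801) (nat_lit 359) (nat_lit 1) (nat_lit 349) (nat_lit 1) (nat_lit 358) (nat_lit 1) (nat_lit 358) (nat_lit 414) (nat_lit 368)) (XT.nd (nat_lit 78) (nat_lit 760) (nat_lit 0) (XT.lf (nat_lit 76) (nat_lit 373234967) (nat_lit 0) (nat_lit 4427204403) (nat_lit 760) (nat_lit 373234967) (nat_lit 350) (nat_lit 1) (nat_lit 349) (nat_lit 1) (nat_lit 359) (nat_lit 1) (nat_lit 359) (nat_lit 414) (nat_lit 367)) (XT.lf (nat_lit 76) (nat_lit 2555120621) (nat_lit 0) (nat_lit 19795382) (nat_lit 760) (nat_lit 2555120621) (nat_lit 340) (nat_lit 1) (nat_lit 339) (nat_lit 1) (nat_lit 349) (nat_lit 1) (nat_lit 360) (nat_lit 414) (nat_lit 366)))))) (XT.nd (nat_lit 312) (nat_lit 1900) (nat_lit 0) (XT.nd (nat_lit 156) (nat_lit 684) (nat_lit 0) (XT.nd (nat_lit 78) (nat_lit 0) (nat_lit 0) (XT.lf (nat_lit 760) (nat_lit 4320712423) (nat_lit 0) (nat_lit 383174438) (nat_lit 684) (nat_lit 383174438) (nat_lit 340) (nat_lit 1) (nat_lit 330)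 (nat_lit 1) (nat_lit 339) (nat_lit 1) (nat_lit 361) (nat_lit 414) (nat_lit 365)) (XT.lf (nat_lit 76) (nat_lit 1759025286) (nat_lit 0) (nat_lit 1526316998) (nat_lit 760) (nat_lit 1759025286) (nat_lit 331) (nat_lit 1) (nat_lit 330) (nat_lit 1) (nat_lit 340) (nat_lit 1) (nat_lit 362) (nat_lit 414) (nat_lit 364))) (XT.nd (nat_lit 78) (nat_lit 0) (nat_lit 0) (XT.lf (nat_lit 760) (nat_lit 2721085629) (nat_lit 0) (nat_lit 1140614225) (nat_lit 684) (nat_lit 1140614225) (nat_lit 331) (nat_lit 1) (nat_lit 321) (nat_lit 1) (nat_lit 330) (nat_lit 1) (nat_lit 363) (nat_lit 414) (nat_lit 363)) (XT.lf (nat_lit 76) (nat_lit 960863507) (nat_lit 0) (nat_lit 3039004809) (nat_lit 760) (nat_lit 960863507) (nat_lit 322) (nat_lit 1) (nat_lit 321) (nat_lit 1) (nat_lit 331) (nat_lit 1) (nat_lit 364) (nat_lit 414) (nat_lit 362)))) (XT.nd (nat_lit 156) (nat_lit 1292) (nat_lit 0) (XT.nd (nat_lit 78) (nat_lit 0) (nat_lit 0) (XT.lf (nat_lit 684) (nat_lit 1118048646)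 (nat_lit 0) (nat_lit 1900762116) (nat_lit 608) (nat_lit 1900762116) (nat_lit 322) (nat_lit 1) (nat_lit 313) (nat_lit 1) (nat_lit 321) (nat_lit 1) (nat_lit 365) (nat_lit 414) (nat_lit 361)) (XT.lf (nat_lit 76) (nat_lit 161362191) (nat_lit 0) (nat_lit 4556351408) (nat_lit 684) (nat_lit 161362191) (nat_lit 314) (nat_lit 1) (nat_lit 313) (nat_lit 1) (nat_lit 322) (nat_lit 1) (nat_lit 366) (nat_lit 414) (nat_lit 360))) (XT.nd (nat_lit 78) (nat_lit 608) (nat_lit 0) (XT.lf (nat_lit 76) (nat_lit 2179063661) (nat_lit 0) (nat_lit 480594438) (nat_lit 684) (nat_lit 2179063661) (nat_lit 305) (nat_lit 1) (nat_lit 304) (nat_lit 1) (nat_lit 313) (nat_lit 1) (nat_lit 367) (nat_lit 414) (nat_lit 359)) (XT.nd (nat_lit 78) (nat_lit 0) (nat_lit 0) (XT.lf (nat_lit 684) (nat_lit 3529834381) (nat_lit 0) (nat_lit 634590081) (nat_lit 608) (nat_lit 634590081) (nat_lit 305) (nat_lit 1) (nat_lit 296) (nat_lit 1) (nat_lit 304) (nat_lit 1) (nat_lit 368) (nat_lit 414)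 (nat_lit 358)) (XT.lf (nat_lit 76) (nat_lit 1347203046) (nat_lit 0) (nat_lit 2065221448) (nat_lit 684) (nat_lit 1347203046) (nat_lit 297) (nat_lit 1) (nat_lit 296) (nat_lit 1) (nat_lit 305) (nat_lit 1) (nat_lit 369) (nat_lit 414) (nat_lit 357))))))) (XT.nd (nat_lit 702) (nat_lit 3040) (nat_lit 0) (XT.nd (nat_lit 312) (nat_lit 1672) (nat_lit 0) (XT.nd (nat_lit 156) (nat_lit 1216) (nat_lit 0) (XT.nd (nat_lit 78) (nat_lit 0) (nat_lit 0) (XT.lf (nat_lit 684) (nat_lit 1861771767) (nat_lit 0) (nat_lit 1429487326) (nat_lit 608) (nat_lit 1429487326) (nat_lit 297) (nat_lit 1) (nat_lit 288) (nat_lit 1) (nat_lit 296) (nat_lit 1) (nat_lit 370) (nat_lit 414) (nat_lit 356)) (XT.lf (nat_lit 76) (nat_lit 516566995) (nat_lit 0) (nat_lit 3649251926) (nat_lit 684) (nat_lit 516566995) (nat_lit 289) (nat_lit 1) (nat_lit 288) (nat_lit 1) (nat_lit 297) (nat_lit 1) (nat_lit 371) (nat_lit 414) (nat_lit 355))) (XT.nd (nat_lit 78) (nat_lit 684) (nat_lit 0) (XT.lf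 (nat_lit 608) (nat_lit 196735776) (nat_lit 0) (nat_lit 2223785526) (nat_lit 532) (nat_lit 2223785526) (nat_lit 289) (nat_lit 1) (nat_lit 281) (nat_lit 1) (nat_lit 288) (nat_lit 1) (nat_lit 372) (nat_lit 414) (nat_lit 354)) (XT.lf (nat_lit 684) (nat_lit 3986329723) (nat_lit 0) (nat_lit 310228187) (nat_lit 608) (nat_lit 310228187) (nat_lit 281) (nat_lit 1) (nat_lit 272) (nat_lit 1) (nat_lit 280) (nat_lit 1) (nat_lit 373) (nat_lit 414) (nat_lit 353)))) (XT.nd (nat_lit 156) (nat_lit 1140) (nat_lit 0) (XT.nd (nat_lit 78) (nat_lit 532) (nat_lit 0) (XT.lf (nat_lit 76) (nat_lit 1562240483) (nat_lit 0) (nat_lit 1444977415) (nat_lit 684) (nat_lit 1562240483) (nat_lit 273) (nat_lit 1) (nat_lit 272) (nat_lit 1) (nat_lit 281) (nat_lit 1) (nat_lit 374) (nat_lit 414) (nat_lit 352)) (XT.lf (nat_lit 608) (nat_lit 2270024776) (nat_lit 0) (nat_lit 1131325703) (nat_lit 532) (nat_lit 1131325703) (nat_lit 273) (nat_lit 1) (nat_lit 265) (nat_lit 1) (nat_lit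 272) (nat_lit 1) (nat_lit 375) (nat_lit 414) (nat_lit 351))) (XT.nd (nat_lit 78) (nat_lit 1140) (nat_lit 0) (XT.lf (nat_lit 76) (nat_lit 708644676) (nat_lit 0) (nat_lit 3079031080) (nat_lit 608) (nat_lit 708644676) (nat_lit 266) (nat_lit 1) (nat_lit 265) (nat_lit 1) (nat_lit 273) (nat_lit 1) (nat_lit 376) (nat_lit 414) (nat_lit 350)) (XT.nd (nat_lit 78) (nat_lit 608) (nat_lit 0) (XT.lf (nat_lit 608) (nat_lit 561017446) (nat_lit 0) (nat_lit 1949631451) (nat_lit 532) (nat_lit 1949631451) (nat_lit 266) (nat_lit 1) (nat_lit 258) (nat_lit 1) (nat_lit 265) (nat_lit 1) (nat_lit 377) (nat_lit 414) (nat_lit 349)) (XT.lf (nat_lit 608) (nat_lit 4144476839) (nat_lit 0) (nat_lit 140161856) (nat_lit 532) (nat_lit 140161856) (nat_lit 258) (nat_lit 1) (nat_lit 250) (nat_lit 1) (nat_lit 257) (nat_lit 1) (nat_lit 378) (nat_lit 414) (nat_lit 348)))))) (XT.nd (nat_lit 390) (nat_lit 1444) (nat_lit 0) (XT.nd (nat_lit 156) (nat_lit 1064) (nat_lit 0) (XT.nd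 (nat_lit 78) (nat_lit 532) (nat_lit 0) (XT.lf (nat_lit 76) (nat_lit 1632271868) (nat_lit 0) (nat_lit 1124863106) (nat_lit 608) (nat_lit 1632271868) (nat_lit 251) (nat_lit 1) (nat_lit 250) (nat_lit 1) (nat_lit 258) (nat_lit 1) (nat_lit 379) (nat_lit 414) (nat_lit 347)) (XT.lf (nat_lit 608) (nat_lit 2394463809) (nat_lit 0) (nat_lit 980049106) (nat_lit 532) (nat_lit 980049106) (nat_lit 251) (nat_lit 1) (nat_lit 243) (nat_lit 1) (nat_lit 250) (nat_lit 1) (nat_lit 380) (nat_lit 414) (nat_lit 346))) (XT.nd (nat_lit 78) (nat_lit 1064) (nat_lit 0) (XT.lf (nat_lit 76) (nat_lit 762793448) (nat_lit 0) (nat_lit 2794502607) (nat_lit 608) (nat_lit 762793448) (nat_lit 244) (nat_lit 1) (nat_lit 243) (nat_lit 1) (nat_lit 251) (nat_lit 1) (nat_lit 381) (nat_lit 414) (nat_lit 345)) (XT.nd (nat_lit 78) (nat_lit 608) (nat_lit 0) (XT.lf (nat_lit 532) (nat_lit 655361900) (nat_lit 0) (nat_lit 1815285264) (nat_lit 456) (nat_lit 1815285264) (nat_lit 244) (nat_lit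 1) (nat_lit 237) (nat_lit 1) (nat_lit 243) (nat_lit 1) (nat_lit 382) (nat_lit 414) (nat_lit 344)) (XT.lf (nat_lit 608) (nat_lit 4051497191) (nat_lit 0) (nat_lit 100405068) (nat_lit 532) (nat_lit 100405068) (nat_lit 237) (nat_lit 1) (nat_lit 229) (nat_lit 1) (nat_lit 236) (nat_lit 1) (nat_lit 383) (nat_lit 414) (nat_lit 343))))) (XT.nd (nat_lit 156) (nat_lit 988) (nat_lit 0) (XT.nd (nat_lit 78) (nat_lit 456) (nat_lit 0) (XT.lf (nat_lit 76) (nat_lit 1580329585) (nat_lit 0) (nat_lit 1058072838) (nat_lit 608) (nat_lit 1580329585) (nat_lit 230) (nat_lit 1) (nat_lit 229) (nat_lit 1) (nat_lit 237) (nat_lit 1) (nat_lit 384) (nat_lit 414) (nat_lit 342)) (XT.lf (nat_lit 532) (nat_lit 2280327558) (nat_lit 0) (nat_lit 952675491) (nat_lit 456) (nat_lit 952675491) (nat_lit 230) (nat_lit 1) (nat_lit 223) (nat_lit 1) (nat_lit 229) (nat_lit 1) (nat_lit 385) (nat_lit 414) (nat_lit 341))) (XT.nd (nat_lit 78) (nat_lit 988) (nat_lit 0) (XT.lf (nat_lit 76)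 (nat_lit 701077920) (nat_lit 0) (nat_lit 2750821228) (nat_lit 532) (nat_lit 701077920) (nat_lit 224) (nat_lit 1) (nat_lit 223) (nat_lit 1) (nat_lit 230) (nat_lit 1) (nat_lit 386) (nat_lit 414) (nat_lit 340)) (XT.nd (nat_lit 78) (nat_lit 532) (nat_lit 0) (XT.lf (nat_lit 532) (nat_lit 523105670) (nat_lit 0) (nat_lit 1798728140) (nat_lit 456) (nat_lit 1798728140) (nat_lit 224) (nat_lit 1) (nat_lit 217) (nat_lit 1) (nat_lit 223) (nat_lit 1) (nat_lit 387) (nat_lit 414) (nat_lit 339)) (XT.lf (nat_lit 532) (nat_lit 3748703972) (nat_lit 0) (nat_lit 169960681) (nat_lit 456) (nat_lit 169960681) (nat_lit 217) (nat_lit 1) (nat_lit 210) (nat_lit 1) (nat_lit 216) (nat_lit 1) (nat_lit 388) (nat_lit 414) (nat_lit 338))))))))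
noncomputable def ec126 : XT := (XT.nd (nat_lit 1404) (nat_lit 3800) (nat_lit 0) (XT.nd (nat_lit 702) (nat_lit 2280) (nat_lit 0) (XT.nd (nat_lit 312) (nat_lit 1368) (nat_lit 0) (XT.nd (nat_lit 156) (nat_lit 380) (nat_lit 0) (XT.nd (nat_lit 78) (nat_lit 456) (nat_lit 0) (XT.lf (nat_lit 76) (nat_lit 1426561140) (nat_lit 0) (nat_lit 1203639268) (nat_lit 532) (nat_lit 1426561140) (nat_lit 211) (nat_lit 1) (nat_lit 210) (nat_lit 1) (nat_lit 217) (nat_lit 1) (nat_lit 389) (nat_lit 414) (nat_lit 337)) (XT.lf (nat_lit 532) (nat_lit 1967182336) (nat_lit 0) (nat_lit 1029092470) (nat_lit 456) (nat_lit 1029092470) (nat_lit 211) (nat_lit 1) (nat_lit 204) (nat_lit 1) (nat_lit 210) (nat_lit 1) (nat_lit 390) (nat_lit 414) (nat_lit 336))) (XT.nd (nat_lit 78) (nat_lit 380) (nat_lit 0) (XT.lf (nat_lit 76) (nat_lit 542793033) (nat_lit 0) (nat_lit 2908747066) (nat_lit 532) (nat_lit 542793033) (nat_lit 205) (nat_lit 1) (nat_lit 204) (nat_lit 1) (nat_lit 211)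 (nat_lit 1) (nat_lit 391) (nat_lit 414) (nat_lit 335)) (XT.lf (nat_lit 456) (nat_lit 202139502) (nat_lit 0) (nat_lit 1880696386) (nat_lit 380) (nat_lit 1880696386) (nat_lit 205) (nat_lit 1) (nat_lit 199) (nat_lit 1) (nat_lit 204) (nat_lit 1) (nat_lit 392) (nat_lit 414) (nat_lit 334)))) (XT.nd (nat_lit 156) (nat_lit 836) (nat_lit 0) (XT.nd (nat_lit 78) (nat_lit 0) (nat_lit 0) (XT.lf (nat_lit 532) (nat_lit 3272189615) (nat_lit 0) (nat_lit 330473062) (nat_lit 456) (nat_lit 330473062) (nat_lit 199) (nat_lit 1) (nat_lit 192) (nat_lit 1) (nat_lit 198) (nat_lit 1) (nat_lit 393) (nat_lit 414) (nat_lit 333)) (XT.lf (nat_lit 76) (nat_lit 1188564980) (nat_lit 0) (nat_lit 1525754615) (nat_lit 532) (nat_lit 1188564980) (nat_lit 193) (nat_lit 1) (nat_lit 192) (nat_lit 1) (nat_lit 199) (nat_lit 1) (nat_lit 394) (nat_lit 414) (nat_lit 332))) (XT.nd (nat_lit 78) (nat_lit 456) (nat_lit 0) (XT.lf (nat_lit 456) (nat_lit 1489582635) (nat_lit 0) (nat_lit 1191723558)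 (nat_lit 380) (nat_lit 1191723558) (nat_lit 193) (nat_lit 1) (nat_lit 187) (nat_lit 1) (nat_lit 192) (nat_lit 1) (nat_lit 395) (nat_lit 414) (nat_lit 331)) (XT.nd (nat_lit 78) (nat_lit 456) (nat_lit 0) (XT.lf (nat_lit 76) (nat_lit 304786706) (nat_lit 0) (nat_lit 3233993475) (nat_lit 456) (nat_lit 304786706) (nat_lit 188) (nat_lit 1) (nat_lit 187) (nat_lit 1) (nat_lit 193) (nat_lit 1) (nat_lit 396) (nat_lit 414) (nat_lit 330)) (XT.lf (nat_lit 76) (nat_lit 1771685731) (nat_lit 0) (nat_lit 270857445) (nat_lit 456) (nat_lit 1771685731) (nat_lit 182) (nat_lit 1) (nat_lit 181) (nat_lit 1) (nat_lit 187) (nat_lit 1) (nat_lit 397) (nat_lit 414) (nat_lit 329)))))) (XT.nd (nat_lit 312) (nat_lit 1520) (nat_lit 0) (XT.nd (nat_lit 156) (nat_lit 380) (nat_lit 0) (XT.nd (nat_lit 78) (nat_lit 0) (nat_lit 0) (XT.lf (nat_lit 456) (nat_lit 2653435262) (nat_lit 0) (nat_lit 565920126) (nat_lit 380) (nat_lit 565920126) (nat_lit 182) (nat_lit 1) (nat_lit 176)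 (nat_lit 1) (nat_lit 181) (nat_lit 1) (nat_lit 398) (nat_lit 414) (nat_lit 328)) (XT.lf (nat_lit 76) (nat_lit 881688185) (nat_lit 0) (nat_lit 1993168907) (nat_lit 456) (nat_lit 881688185) (nat_lit 177) (nat_lit 1) (nat_lit 176) (nat_lit 1) (nat_lit 182) (nat_lit 1) (nat_lit 399) (nat_lit 414) (nat_lit 327))) (XT.nd (nat_lit 78) (nat_lit 0) (nat_lit 0) (XT.lf (nat_lit 456) (nat_lit 877656661) (nat_lit 0) (nat_lit 1425232300) (nat_lit 380) (nat_lit 1425232300) (nat_lit 177) (nat_lit 1) (nat_lit 171) (nat_lit 1) (nat_lit 176) (nat_lit 1) (nat_lit 400) (nat_lit 414) (nat_lit 326)) (XT.lf (nat_lit 76) (nat_lit 1745854) (nat_lit 0) (nat_lit 3696648904) (nat_lit 456) (nat_lit 1745854) (nat_lit 172) (nat_lit 1) (nat_lit 171) (nat_lit 1) (nat_lit 177) (nat_lit 1) (nat_lit 401) (nat_lit 414) (nat_lit 325)))) (XT.nd (nat_lit 156) (nat_lit 760) (nat_lit 0) (XT.nd (nat_lit 78) (nat_lit 380) (nat_lit 0) (XT.lf (nat_lit 76) (nat_lit 1402889068) (nat_lit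 0) (nat_lit 866339613) (nat_lit 380) (nat_lit 1402889068) (nat_lit 167) (nat_lit 1) (nat_lit 166) (nat_lit 1) (nat_lit 171) (nat_lit 1) (nat_lit 402) (nat_lit 414) (nat_lit 324)) (XT.lf (nat_lit 456) (nat_lit 1919850959) (nat_lit 0) (nat_lit 862340372) (nat_lit 380) (nat_lit 862340372) (nat_lit 167) (nat_lit 1) (nat_lit 161) (nat_lit 1) (nat_lit 166) (nat_lit 1) (nat_lit 403) (nat_lit 414) (nat_lit 323))) (XT.nd (nat_lit 78) (nat_lit 760) (nat_lit 0) (XT.lf (nat_lit 76) (nat_lit 519290329) (nat_lit 0) (nat_lit 2578656605) (nat_lit 456) (nat_lit 519290329) (nat_lit 162) (nat_lit 1) (nat_lit 161) (nat_lit 1) (nat_lit 167) (nat_lit 1) (nat_lit 404) (nat_lit 414) (nat_lit 322)) (XT.nd (nat_lit 78) (nat_lit 456) (nat_lit 0) (XT.lf (nat_lit 380) (nat_lit 157625321) (nat_lit 0) (nat_lit 1716260021) (nat_lit 304) (nat_lit 1716260021) (nat_lit 162) (nat_lit 1) (nat_lit 157) (nat_lit 1) (nat_lit 161) (nat_lit 1) (nat_lit 405) (nat_lit 414) (nat_lit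 321)) (XT.lf (nat_lit 456) (nat_lit 2860931671) (nat_lit 0) (nat_lit 351224141) (nat_lit 380) (nat_lit 351224141) (nat_lit 157) (nat_lit 1) (nat_lit 151) (nat_lit 1) (nat_lit 156) (nat_lit 1) (nat_lit 406) (nat_lit 414) (nat_lit 320))))))) (XT.nd (nat_lit 702) (nat_lit 2128) (nat_lit 0) (XT.nd (nat_lit 312) (nat_lit 988) (nat_lit 0) (XT.nd (nat_lit 156) (nat_lit 380) (nat_lit 0) (XT.nd (nat_lit 78) (nat_lit 304) (nat_lit 0) (XT.lf (nat_lit 76) (nat_lit 987270886) (nat_lit 0) (nat_lit 1562206014) (nat_lit 456) (nat_lit 987270886) (nat_lit 152) (nat_lit 1) (nat_lit 151) (nat_lit 1) (nat_lit 157) (nat_lit 1) (nat_lit 407) (nat_lit 414) (nat_lit 319)) (XT.lf (nat_lit 380) (nat_lit 1095254398) (nat_lit 0) (nat_lit 1207590950) (nat_lit 304) (nat_lit 1207590950) (nat_lit 152) (nat_lit 1) (nat_lit 147) (nat_lit 1) (nat_lit 151) (nat_lit 1) (nat_lit 408) (nat_lit 414) (nat_lit 318))) (XT.nd (nat_lit 78) (nat_lit 380) (nat_lit 0) (XT.lf (nat_lit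 76) (nat_lit 112977306) (nat_lit 0) (nat_lit 3258543887) (nat_lit 380) (nat_lit 112977306) (nat_lit 148) (nat_lit 1) (nat_lit 147) (nat_lit 1) (nat_lit 152) (nat_lit 1) (nat_lit 409) (nat_lit 414) (nat_lit 317)) (XT.lf (nat_lit 76) (nat_lit 1409661076) (nat_lit 0) (nat_lit 639242670) (nat_lit 380) (nat_lit 1409661076) (nat_lit 143) (nat_lit 1) (nat_lit 142) (nat_lit 1) (nat_lit 147) (nat_lit 1) (nat_lit 410) (nat_lit 414) (nat_lit 316)))) (XT.nd (nat_lit 156) (nat_lit 684) (nat_lit 0) (XT.nd (nat_lit 78) (nat_lit 0) (nat_lit 0) (XT.lf (nat_lit 380) (nat_lit 1942858478) (nat_lit 0) (nat_lit 745070493) (nat_lit 304) (nat_lit 745070493) (nat_lit 143) (nat_lit 1) (nat_lit 138) (nat_lit 1) (nat_lit 142) (nat_lit 1) (nat_lit 411) (nat_lit 414) (nat_lit 315)) (XT.lf (nat_lit 76) (nat_lit 535356876) (nat_lit 0) (nat_lit 2336969349) (nat_lit 380) (nat_lit 535356876) (nat_lit 139) (nat_lit 1) (nat_lit 138) (nat_lit 1) (nat_lit 143) (nat_lit 1)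 (nat_lit 412) (nat_lit 414) (nat_lit 314))) (XT.nd (nat_lit 78) (nat_lit 380) (nat_lit 0) (XT.lf (nat_lit 380) (nat_lit 200295107) (nat_lit 0) (nat_lit 1591133282) (nat_lit 304) (nat_lit 1591133282) (nat_lit 139) (nat_lit 1) (nat_lit 134) (nat_lit 1) (nat_lit 138) (nat_lit 1) (nat_lit 413) (nat_lit 414) (nat_lit 313)) (XT.nd (nat_lit 78) (nat_lit 0) (nat_lit 0) (XT.lf (nat_lit 380) (nat_lit 2707658479) (nat_lit 0) (nat_lit 325038906) (nat_lit 304) (nat_lit 325038906) (nat_lit 134) (nat_lit 1) (nat_lit 129) (nat_lit 1) (nat_lit 133) (nat_lit 1) (nat_lit 414) (nat_lit 414) (nat_lit 312)) (XT.lf (nat_lit 76) (nat_lit 917119658) (nat_lit 0) (nat_lit 1498781271) (nat_lit 380) (nat_lit 917119658) (nat_lit 130) (nat_lit 1) (nat_lit 129) (nat_lit 1) (nat_lit 134) (nat_lit 1) (nat_lit 415) (nat_lit 414) (nat_lit 311)))))) (XT.nd (nat_lit 390) (nat_lit 1216) (nat_lit 0) (XT.nd (nat_lit 156) (nat_lit 608) (nat_lit 0) (XT.nd (nat_lit 78) (nat_lit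 0) (nat_lit 0) (XT.lf (nat_lit 380) (nat_lit 968085616) (nat_lit 0) (nat_lit 1170255273) (nat_lit 304) (nat_lit 1170255273) (nat_lit 130) (nat_lit 1) (nat_lit 125) (nat_lit 1) (nat_lit 129) (nat_lit 1) (nat_lit 416) (nat_lit 414) (nat_lit 310)) (XT.lf (nat_lit 76) (nat_lit 56252079) (nat_lit 0) (nat_lit 3172020780) (nat_lit 380) (nat_lit 56252079) (nat_lit 126) (nat_lit 1) (nat_lit 125) (nat_lit 1) (nat_lit 130) (nat_lit 1) (nat_lit 417) (nat_lit 414) (nat_lit 309))) (XT.nd (nat_lit 78) (nat_lit 304) (nat_lit 0) (XT.lf (nat_lit 76) (nat_lit 1261524503) (nat_lit 0) (nat_lit 737370483) (nat_lit 304) (nat_lit 1261524503) (nat_lit 122) (nat_lit 1) (nat_lit 121) (nat_lit 1) (nat_lit 125) (nat_lit 1) (nat_lit 418) (nat_lit 414) (nat_lit 308)) (XT.nd (nat_lit 78) (nat_lit 0) (nat_lit 0) (XT.lf (nat_lit 380) (nat_lit 1662051564) (nat_lit 0) (nat_lit 787305636) (nat_lit 304) (nat_lit 787305636) (nat_lit 122) (nat_lit 1) (nat_lit 117) (nat_lit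 1) (nat_lit 121) (nat_lit 1) (nat_lit 419) (nat_lit 414) (nat_lit 307)) (XT.lf (nat_lit 76) (nat_lit 403464729) (nat_lit 0) (nat_lit 2406226717) (nat_lit 380) (nat_lit 403464729) (nat_lit 118) (nat_lit 1) (nat_lit 117) (nat_lit 1) (nat_lit 122) (nat_lit 1) (nat_lit 420) (nat_lit 414) (nat_lit 306))))) (XT.nd (nat_lit 156) (nat_lit 608) (nat_lit 0) (XT.nd (nat_lit 78) (nat_lit 304) (nat_lit 0) (XT.lf (nat_lit 76) (nat_lit 1571578840) (nat_lit 0) (nat_lit 46636213) (nat_lit 304) (nat_lit 1571578840) (nat_lit 114) (nat_lit 1) (nat_lit 113) (nat_lit 1) (nat_lit 117) (nat_lit 1) (nat_lit 421) (nat_lit 414) (nat_lit 305)) (XT.lf (nat_lit 380) (nat_lit 2288116083) (nat_lit 0) (nat_lit 439280725) (nat_lit 304) (nat_lit 439280725) (nat_lit 114) (nat_lit 1) (nat_lit 109) (nat_lit 1) (nat_lit 113) (nat_lit 1) (nat_lit 422) (nat_lit 414) (nat_lit 304))) (XT.nd (nat_lit 78) (nat_lit 608) (nat_lit 0) (XT.lf (nat_lit 76) (nat_lit 717343460) (nat_lit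 0) (nat_lit 1709030398) (nat_lit 380) (nat_lit 717343460) (nat_lit 110) (nat_lit 1) (nat_lit 109) (nat_lit 1) (nat_lit 114) (nat_lit 1) (nat_lit 423) (nat_lit 414) (nat_lit 303)) (XT.nd (nat_lit 78) (nat_lit 380) (nat_lit 0) (XT.lf (nat_lit 304) (nat_lit 586748041) (nat_lit 0) (nat_lit 1267119398) (nat_lit 228) (nat_lit 1267119398) (nat_lit 110) (nat_lit 1) (nat_lit 106) (nat_lit 1) (nat_lit 109) (nat_lit 1) (nat_lit 424) (nat_lit 414) (nat_lit 302)) (XT.lf (nat_lit 380) (nat_lit 2851745331) (nat_lit 0) (nat_lit 123407895) (nat_lit 304) (nat_lit 123407895) (nat_lit 106) (nat_lit 1) (nat_lit 101) (nat_lit 1) (nat_lit 105) (nat_lit 1) (nat_lit 425) (nat_lit 414) (nat_lit 301))))))))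
noncomputable def ec127 : XT := (XT.nd (nat_lit 50622) (nat_lit 0) (nat_lit 31008) (XT.nd (nat_lit 702) (nat_lit 760) (nat_lit 0) (XT.nd (nat_lit 312) (nat_lit 760) (nat_lit 0) (XT.nd (nat_lit 156) (nat_lit 304) (nat_lit 0) (XT.nd (nat_lit 78) (nat_lit 228) (nat_lit 0) (XT.lf (nat_lit 76) (nat_lit 1000561940) (nat_lit 0) (nat_lit 1075006241) (nat_lit 380) (nat_lit 1000561940) (nat_lit 102) (nat_lit 1) (nat_lit 101) (nat_lit 1) (nat_lit 106) (nat_lit 1) (nat_lit 426) (nat_lit 414) (nat_lit 300)) (XT.lf (nat_lit 304) (nat_lit 1160108873) (nat_lit 0) (nat_lit 946945698) (nat_lit 228) (nat_lit 946945698) (nat_lit 102) (nat_lit 1) (nat_lit 98) (nat_lit 1) (nat_lit 101) (nat_lit 1) (nat_lit 427) (nat_lit 414) (nat_lit 299))) (XT.nd (nat_lit 78) (nat_lit 304) (nat_lit 0) (XT.lf (nat_lit 76) (nat_lit 163950757) (nat_lit 0) (nat_lit 2704252176) (nat_lit 304) (nat_lit 163950757) (nat_lit 99) (nat_lit 1) (nat_lit 98) (nat_lit 1) (nat_lit 102) (nat_lit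 1) (nat_lit 428) (nat_lit 414) (nat_lit 298)) (XT.lf (nat_lit 76) (nat_lit 1255587577) (nat_lit 0) (nat_lit 499145799) (nat_lit 304) (nat_lit 1255587577) (nat_lit 95) (nat_lit 1) (nat_lit 94) (nat_lit 1) (nat_lit 98) (nat_lit 1) (nat_lit 429) (nat_lit 414) (nat_lit 297)))) (XT.nd (nat_lit 156) (nat_lit 532) (nat_lit 0) (XT.nd (nat_lit 78) (nat_lit 0) (nat_lit 0) (XT.lf (nat_lit 304) (nat_lit 1677687137) (nat_lit 0) (nat_lit 655540508) (nat_lit 228) (nat_lit 655540508) (nat_lit 95) (nat_lit 1) (nat_lit 91) (nat_lit 1) (nat_lit 94) (nat_lit 1) (nat_lit 430) (nat_lit 414) (nat_lit 296)) (XT.lf (nat_lit 76) (nat_lit 424715755) (nat_lit 0) (nat_lit 2117988592) (nat_lit 304) (nat_lit 424715755) (nat_lit 92) (nat_lit 1) (nat_lit 91) (nat_lit 1) (nat_lit 95) (nat_lit 1) (nat_lit 431) (nat_lit 414) (nat_lit 295))) (XT.nd (nat_lit 78) (nat_lit 304) (nat_lit 0) (XT.lf (nat_lit 304) (nat_lit 23482054) (nat_lit 0) (nat_lit 1461367684) (nat_lit 228)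 (nat_lit 1461367684) (nat_lit 92) (nat_lit 1) (nat_lit 88) (nat_lit 1) (nat_lit 91) (nat_lit 1) (nat_lit 432) (nat_lit 414) (nat_lit 294)) (XT.nd (nat_lit 78) (nat_lit 0) (nat_lit 0) (XT.lf (nat_lit 304) (nat_lit 2143968550) (nat_lit 0) (nat_lit 390626978) (nat_lit 228) (nat_lit 390626978) (nat_lit 88) (nat_lit 1) (nat_lit 84) (nat_lit 1) (nat_lit 87) (nat_lit 1) (nat_lit 433) (nat_lit 414) (nat_lit 293)) (XT.lf (nat_lit 76) (nat_lit 660264450) (nat_lit 0) (nat_lit 1583828965) (nat_lit 304) (nat_lit 660264450) (nat_lit 85) (nat_lit 1) (nat_lit 84) (nat_lit 1) (nat_lit 88) (nat_lit 1) (nat_lit 434) (nat_lit 414) (nat_lit 292)))))) (XT.nd (nat_lit 312) (nat_lit 0) (nat_lit 0) (XT.nd (nat_lit 156) (nat_lit 228) (nat_lit 0) (XT.nd (nat_lit 78) (nat_lit 304) (nat_lit 0) (XT.lf (nat_lit 304) (nat_lit 502815200) (nat_lit 0) (nat_lit 1190441411) (nat_lit 228) (nat_lit 1190441411) (nat_lit 85) (nat_lit 1) (nat_lit 81) (nat_lit 1) (nat_lit 84)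 (nat_lit 1) (nat_lit 435) (nat_lit 414) (nat_lit 291)) (XT.lf (nat_lit 304) (nat_lit 2563092560) (nat_lit 0) (nat_lit 150103338) (nat_lit 228) (nat_lit 150103338) (nat_lit 81) (nat_lit 1) (nat_lit 77) (nat_lit 1) (nat_lit 80) (nat_lit 1) (nat_lit 436) (nat_lit 414) (nat_lit 290))) (XT.nd (nat_lit 78) (nat_lit 228) (nat_lit 0) (XT.lf (nat_lit 76) (nat_lit 872622236) (nat_lit 0) (nat_lit 1097659116) (nat_lit 304) (nat_lit 872622236) (nat_lit 78) (nat_lit 1) (nat_lit 77) (nat_lit 1) (nat_lit 81) (nat_lit 1) (nat_lit 437) (nat_lit 414) (nat_lit 289)) (XT.lf (nat_lit 304) (nat_lit 936211181) (nat_lit 0) (nat_lit 943277539) (nat_lit 228) (nat_lit 943277539) (nat_lit 78) (nat_lit 1) (nat_lit 74) (nat_lit 1) (nat_lit 77) (nat_lit 1) (nat_lit 438) (nat_lit 414) (nat_lit 288)))) (XT.nd (nat_lit 49374) (nat_lit 0) (nat_lit 32148) (XT.nd (nat_lit 49296) (nat_lit 0) (nat_lit 32148) (XT.lf (nat_lit 76) (nat_lit 68420607) (nat_lit 0) (nat_lit 2666060996)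 (nat_lit 304) (nat_lit 68420607) (nat_lit 75) (nat_lit 1) (nat_lit 74) (nat_lit 1) (nat_lit 78) (nat_lit 1) (nat_lit 439) (nat_lit 414) (nat_lit 287)) (XT.lf (nat_lit 1900) (nat_lit 1348936068) (nat_lit 0) (nat_lit 1360216310) (nat_lit 1900) (nat_lit 1348936068) (nat_lit 522) (nat_lit 1) (nat_lit 497) (nat_lit 0) (nat_lit 522) (nat_lit 0) (nat_lit 310) (nat_lit 415) (nat_lit 415))) (XT.nd (nat_lit 78) (nat_lit 0) (nat_lit 76) (XT.lf (nat_lit 1900) (nat_lit 5333896027) (nat_lit 76) (nat_lit 1351267519) (nat_lit 0) (nat_lit 1351267519) (nat_lit 522) (nat_lit 1) (nat_lit 498) (nat_lit 1) (nat_lit 497) (nat_lit 0) (nat_lit 311) (nat_lit 415) (nat_lit 414)) (XT.nd (nat_lit 78) (nat_lit 0) (nat_lit 0) (XT.lf (nat_lit 1900) (nat_lit 2618968338) (nat_lit 0) (nat_lit 2719619579) (nat_lit 1824) (nat_lit 2618968338) (nat_lit 523) (nat_lit 1) (nat_lit 498) (nat_lit 1) (nat_lit 522) (nat_lit 1) (nat_lit 312) (nat_lit 415) (nat_lit 413)) (XT.lf (nat_lit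 1900) (nat_lit 5125966650) (nat_lit 76) (nat_lit 1376955267) (nat_lit 0) (nat_lit 1376955267) (nat_lit 523) (nat_lit 1) (nat_lit 499) (nat_lit 1) (nat_lit 498) (nat_lit 1) (nat_lit 313) (nat_lit 415) (nat_lit 412))))))) (XT.nd (nat_lit 702) (nat_lit 1292) (nat_lit 0) (XT.nd (nat_lit 312) (nat_lit 0) (nat_lit 152) (XT.nd (nat_lit 156) (nat_lit 0) (nat_lit 76) (XT.nd (nat_lit 78) (nat_lit 0) (nat_lit 0) (XT.lf (nat_lit 1900) (nat_lit 2491122657) (nat_lit 0) (nat_lit 2820810295) (nat_lit 1824) (nat_lit 2491122657) (nat_lit 524) (nat_lit 1) (nat_lit 499) (nat_lit 1) (nat_lit 523) (nat_lit 1) (nat_lit 314) (nat_lit 415) (nat_lit 411)) (XT.lf (nat_lit 1900) (nat_lit 4822784082) (nat_lit 76) (nat_lit 1452296187) (nat_lit 0) (nat_lit 1452296187) (nat_lit 524) (nat_lit 1) (nat_lit 500) (nat_lit 1) (nat_lit 499) (nat_lit 1) (nat_lit 315) (nat_lit 415) (nat_lit 410))) (XT.nd (nat_lit 78) (nat_lit 0) (nat_lit 0) (XT.lf (nat_lit 1900) (nat_lit 2317255286)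 (nat_lit 0) (nat_lit 3018044383) (nat_lit 1824) (nat_lit 2317255286) (nat_lit 525) (nat_lit 1) (nat_lit 500) (nat_lit 1) (nat_lit 524) (nat_lit 1) (nat_lit 316) (nat_lit 415) (nat_lit 409)) (XT.lf (nat_lit 1900) (nat_lit 4430073145) (nat_lit 76) (nat_lit 1574369036) (nat_lit 0) (nat_lit 1574369036) (nat_lit 525) (nat_lit 1) (nat_lit 501) (nat_lit 1) (nat_lit 500) (nat_lit 1) (nat_lit 317) (nat_lit 415) (nat_lit 408)))) (XT.nd (nat_lit 156) (nat_lit 0) (nat_lit 76) (XT.nd (nat_lit 78) (nat_lit 0) (nat_lit 0) (XT.lf (nat_lit 1900) (nat_lit 2100153031) (nat_lit 0) (nat_lit 3305632113) (nat_lit 1824) (nat_lit 2100153031) (nat_lit 526) (nat_lit 1) (nat_lit 501) (nat_lit 1) (nat_lit 525) (nat_lit 1) (nat_lit 318) (nat_lit 415) (nat_lit 407)) (XT.lf (nat_lit 1900) (nat_lit 3953296637) (nat_lit 76) (nat_lit 1740385478) (nat_lit 0) (nat_lit 1740385478) (nat_lit 526) (nat_lit 1) (nat_lit 502) (nat_lit 1) (nat_lit 501) (nat_lit 1) (nat_lit 319)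 (nat_lit 415) (nat_lit 406))) (XT.nd (nat_lit 78) (nat_lit 0) (nat_lit 0) (XT.lf (nat_lit 1900) (nat_lit 1842474880) (nat_lit 0) (nat_lit 3678143130) (nat_lit 1824) (nat_lit 1842474880) (nat_lit 527) (nat_lit 1) (nat_lit 502) (nat_lit 1) (nat_lit 526) (nat_lit 1) (nat_lit 320) (nat_lit 415) (nat_lit 405)) (XT.nd (nat_lit 78) (nat_lit 0) (nat_lit 76) (XT.lf (nat_lit 1900) (nat_lit 3397666278) (nat_lit 76) (nat_lit 1947684547) (nat_lit 0) (nat_lit 1947684547) (nat_lit 527) (nat_lit 1) (nat_lit 503) (nat_lit 1) (nat_lit 502) (nat_lit 1) (nat_lit 321) (nat_lit 415) (nat_lit 404)) (XT.lf (nat_lit 1900) (nat_lit 1546757352) (nat_lit 0) (nat_lit 4130395628) (nat_lit 1824) (nat_lit 1546757352) (nat_lit 528) (nat_lit 1) (nat_lit 503) (nat_lit 1) (nat_lit 527) (nat_lit 1) (nat_lit 322) (nat_lit 415) (nat_lit 403)))))) (XT.nd (nat_lit 390) (nat_lit 1596) (nat_lit 0) (XT.nd (nat_lit 156) (nat_lit 0) (nat_lit 76) (XT.nd (nat_lit 78) (nat_lit 0) (nat_lit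 76) (XT.lf (nat_lit 1900) (nat_lit 2768153230) (nat_lit 76) (nat_lit 2193727318) (nat_lit 0) (nat_lit 2193727318) (nat_lit 528) (nat_lit 1) (nat_lit 504) (nat_lit 1) (nat_lit 503) (nat_lit 1) (nat_lit 323) (nat_lit 415) (nat_lit 402)) (XT.lf (nat_lit 1900) (nat_lit 1215419626) (nat_lit 0) (nat_lit 4657445961) (nat_lit 1824) (nat_lit 1215419626) (nat_lit 529) (nat_lit 1) (nat_lit 504) (nat_lit 1) (nat_lit 528) (nat_lit 1) (nat_lit 324) (nat_lit 415) (nat_lit 401))) (XT.nd (nat_lit 78) (nat_lit 0) (nat_lit 76) (XT.lf (nat_lit 1900) (nat_lit 2069498184) (nat_lit 76) (nat_lit 2476091811) (nat_lit 0) (nat_lit 2476091811) (nat_lit 529) (nat_lit 1) (nat_lit 505) (nat_lit 1) (nat_lit 504) (nat_lit 1) (nat_lit 325) (nat_lit 415) (nat_lit 400)) (XT.nd (nat_lit 78) (nat_lit 0) (nat_lit 0) (XT.lf (nat_lit 1900) (nat_lit 850768473) (nat_lit 0) (nat_lit 5254578670) (nat_lit 1824) (nat_lit 850768473) (nat_lit 530) (nat_lit 1) (nat_lit 505) (nat_lit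 1) (nat_lit 529) (nat_lit 1) (nat_lit 326) (nat_lit 415) (nat_lit 399)) (XT.lf (nat_lit 1900) (nat_lit 1306221040) (nat_lit 76) (nat_lit 2792468082) (nat_lit 0) (nat_lit 2792468082) (nat_lit 530) (nat_lit 1) (nat_lit 506) (nat_lit 1) (nat_lit 505) (nat_lit 1) (nat_lit 327) (nat_lit 415) (nat_lit 398))))) (XT.nd (nat_lit 156) (nat_lit 1824) (nat_lit 0) (XT.nd (nat_lit 78) (nat_lit 0) (nat_lit 0) (XT.lf (nat_lit 1900) (nat_lit 455002977) (nat_lit 0) (nat_lit 5917296914) (nat_lit 1824) (nat_lit 455002977) (nat_lit 531) (nat_lit 1) (nat_lit 506) (nat_lit 1) (nat_lit 530) (nat_lit 1) (nat_lit 328) (nat_lit 415) (nat_lit 397)) (XT.lf (nat_lit 1900) (nat_lit 482630208) (nat_lit 76) (nat_lit 3140653522) (nat_lit 0) (nat_lit 3140653522) (nat_lit 531) (nat_lit 1) (nat_lit 507) (nat_lit 1) (nat_lit 506) (nat_lit 1) (nat_lit 329) (nat_lit 415) (nat_lit 396))) (XT.nd (nat_lit 78) (nat_lit 1900) (nat_lit 0) (XT.lf (nat_lit 1900) (nat_lit 30219076)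 (nat_lit 0) (nat_lit 6641313279) (nat_lit 1824) (nat_lit 30219076) (nat_lit 532) (nat_lit 1) (nat_lit 507) (nat_lit 1) (nat_lit 531) (nat_lit 1) (nat_lit 330) (nat_lit 415) (nat_lit 395)) (XT.nd (nat_lit 78) (nat_lit 0) (nat_lit 0) (XT.lf (nat_lit 1976) (nat_lit 3123958549) (nat_lit 0) (nat_lit 391959543) (nat_lit 1900) (nat_lit 3123958549) (nat_lit 508) (nat_lit 1) (nat_lit 482) (nat_lit 1) (nat_lit 507) (nat_lit 1) (nat_lit 331) (nat_lit 415) (nat_lit 394)) (XT.lf (nat_lit 1976) (nat_lit 5741524089) (nat_lit 76) (nat_lit 418812495) (nat_lit 0) (nat_lit 418812495) (nat_lit 508) (nat_lit 1) (nat_lit 483) (nat_lit 1) (nat_lit 482) (nat_lit 1) (nat_lit 332) (nat_lit 415) (nat_lit 393))))))))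
noncomputable def ec128 : XT := (XT.nd (nat_lit 1404) (nat_lit 7676) (nat_lit 0) (XT.nd (nat_lit 702) (nat_lit 4256) (nat_lit 0) (XT.nd (nat_lit 312) (nat_lit 1824) (nat_lit 0) (XT.nd (nat_lit 156) (nat_lit 1064) (nat_lit 0) (XT.nd (nat_lit 78) (nat_lit 0) (nat_lit 0) (XT.lf (nat_lit 1976) (nat_lit 2603518508) (nat_lit 0) (nat_lit 1311829684) (nat_lit 1900) (nat_lit 2603518508) (nat_lit 509) (nat_lit 1) (nat_lit 483) (nat_lit 1) (nat_lit 508) (nat_lit 1) (nat_lit 333) (nat_lit 415) (nat_lit 392)) (XT.lf (nat_lit 1976) (nat_lit 4674399624) (nat_lit 76) (nat_lit 892598740) (nat_lit 0) (nat_lit 892598740) (nat_lit 509) (nat_lit 1) (nat_lit 484) (nat_lit 1) (nat_lit 483) (nat_lit 1) (nat_lit 334) (nat_lit 415) (nat_lit 391))) (XT.nd (nat_lit 78) (nat_lit 1140) (nat_lit 0) (XT.lf (nat_lit 76) (nat_lit 2060624906) (nat_lit 0) (nat_lit 2279632856) (nat_lit 1900) (nat_lit 2060624906) (nat_lit 485) (nat_lit 1) (nat_lit 484) (nat_lit 1) (nat_lit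 509) (nat_lit 1) (nat_lit 335) (nat_lit 415) (nat_lit 390)) (XT.lf (nat_lit 1216) (nat_lit 3563948492) (nat_lit 0) (nat_lit 1389538468) (nat_lit 1140) (nat_lit 1389538468) (nat_lit 485) (nat_lit 1) (nat_lit 469) (nat_lit 1) (nat_lit 484) (nat_lit 1) (nat_lit 336) (nat_lit 415) (nat_lit 389)))) (XT.nd (nat_lit 156) (nat_lit 912) (nat_lit 0) (XT.nd (nat_lit 78) (nat_lit 912) (nat_lit 0) (XT.lf (nat_lit 76) (nat_lit 1496986170) (nat_lit 0) (nat_lit 3291867512) (nat_lit 1216) (nat_lit 1496986170) (nat_lit 470) (nat_lit 1) (nat_lit 469) (nat_lit 1) (nat_lit 485) (nat_lit 1) (nat_lit 337) (nat_lit 415) (nat_lit 388)) (XT.lf (nat_lit 988) (nat_lit 2413515168) (nat_lit 0) (nat_lit 1907917873) (nat_lit 912) (nat_lit 1907917873) (nat_lit 470) (nat_lit 1) (nat_lit 457) (nat_lit 1) (nat_lit 469) (nat_lit 1) (nat_lit 338) (nat_lit 415) (nat_lit 387))) (XT.nd (nat_lit 78) (nat_lit 912) (nat_lit 0) (XT.lf (nat_lit 76) (nat_lit 914227982) (nat_lit 0)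 (nat_lit 4345200236) (nat_lit 988) (nat_lit 914227982) (nat_lit 458) (nat_lit 1) (nat_lit 457) (nat_lit 1) (nat_lit 470) (nat_lit 1) (nat_lit 339) (nat_lit 415) (nat_lit 386)) (XT.nd (nat_lit 78) (nat_lit 0) (nat_lit 0) (XT.lf (nat_lit 988) (nat_lit 1226281667) (nat_lit 0) (nat_lit 2446105673) (nat_lit 912) (nat_lit 2446105673) (nat_lit 458) (nat_lit 1) (nat_lit 445) (nat_lit 1) (nat_lit 457) (nat_lit 1) (nat_lit 340) (nat_lit 415) (nat_lit 385)) (XT.lf (nat_lit 76) (nat_lit 313896819) (nat_lit 0) (nat_lit 5436458582) (nat_lit 988) (nat_lit 313896819) (nat_lit 446) (nat_lit 1) (nat_lit 445) (nat_lit 1) (nat_lit 458) (nat_lit 1) (nat_lit 341) (nat_lit 415) (nat_lit 384)))))) (XT.nd (nat_lit 312) (nat_lit 1596) (nat_lit 0) (XT.nd (nat_lit 156) (nat_lit 836) (nat_lit 0) (XT.nd (nat_lit 78) (nat_lit 988) (nat_lit 0) (XT.lf (nat_lit 912) (nat_lit 5274494) (nat_lit 0) (nat_lit 3002549591) (nat_lit 836) (nat_lit 3002549591) (nat_lit 446) (nat_lit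 1) (nat_lit 434) (nat_lit 1) (nat_lit 445) (nat_lit 1) (nat_lit 342) (nat_lit 415) (nat_lit 383)) (XT.lf (nat_lit 988) (nat_lit 5356300642) (nat_lit 0) (nat_lit 300546288) (nat_lit 912) (nat_lit 300546288) (nat_lit 434) (nat_lit 1) (nat_lit 421) (nat_lit 1) (nat_lit 433) (nat_lit 1) (nat_lit 343) (nat_lit 415) (nat_lit 382))) (XT.nd (nat_lit 78) (nat_lit 836) (nat_lit 0) (XT.lf (nat_lit 76) (nat_lit 2337238227) (nat_lit 0) (nat_lit 1230278935) (nat_lit 988) (nat_lit 2337238227) (nat_lit 422) (nat_lit 1) (nat_lit 421) (nat_lit 1) (nat_lit 434) (nat_lit 1) (nat_lit 344) (nat_lit 415) (nat_lit 381)) (XT.lf (nat_lit 912) (nat_lit 3997927429) (nat_lit 0) (nat_lit 927531771) (nat_lit 836) (nat_lit 927531771) (nat_lit 422) (nat_lit 1) (nat_lit 410) (nat_lit 1) (nat_lit 421) (nat_lit 1) (nat_lit 345) (nat_lit 415) (nat_lit 380)))) (XT.nd (nat_lit 156) (nat_lit 760) (nat_lit 0) (XT.nd (nat_lit 78) (nat_lit 836) (nat_lit 0) (XT.lf (nat_lit 76)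 (nat_lit 1654083864) (nat_lit 0) (nat_lit 2493554666) (nat_lit 912) (nat_lit 1654083864) (nat_lit 411) (nat_lit 1) (nat_lit 410) (nat_lit 1) (nat_lit 422) (nat_lit 1) (nat_lit 346) (nat_lit 415) (nat_lit 379)) (XT.lf (nat_lit 912) (nat_lit 2615527765) (nat_lit 0) (nat_lit 1567804828) (nat_lit 836) (nat_lit 1567804828) (nat_lit 411) (nat_lit 1) (nat_lit 399) (nat_lit 1) (nat_lit 410) (nat_lit 1) (nat_lit 347) (nat_lit 415) (nat_lit 378))) (XT.nd (nat_lit 78) (nat_lit 760) (nat_lit 0) (XT.lf (nat_lit 76) (nat_lit 959573800) (nat_lit 0) (nat_lit 3782057073) (nat_lit 912) (nat_lit 959573800) (nat_lit 400) (nat_lit 1) (nat_lit 399) (nat_lit 1) (nat_lit 411) (nat_lit 1) (nat_lit 348) (nat_lit 415) (nat_lit 377)) (XT.nd (nat_lit 78) (nat_lit 0) (nat_lit 0) (XT.lf (nat_lit 836) (nat_lit 1211539995) (nat_lit 0) (nat_lit 2220111562) (nat_lit 760) (nat_lit 2220111562) (nat_lit 400) (nat_lit 1) (nat_lit 389) (nat_lit 1) (nat_lit 399) (nat_lit 1)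 (nat_lit 349) (nat_lit 415) (nat_lit 376)) (XT.lf (nat_lit 76) (nat_lit 254891802) (nat_lit 0) (nat_lit 5093350079) (nat_lit 836) (nat_lit 254891802) (nat_lit 390) (nat_lit 1) (nat_lit 389) (nat_lit 1) (nat_lit 400) (nat_lit 1) (nat_lit 350) (nat_lit 415) (nat_lit 375))))))) (XT.nd (nat_lit 702) (nat_lit 3192) (nat_lit 0) (XT.nd (nat_lit 312) (nat_lit 2128) (nat_lit 0) (XT.nd (nat_lit 156) (nat_lit 760) (nat_lit 0) (XT.nd (nat_lit 78) (nat_lit 760) (nat_lit 0) (XT.lf (nat_lit 76) (nat_lit 2672914133) (nat_lit 0) (nat_lit 208944970) (nat_lit 836) (nat_lit 2672914133) (nat_lit 379) (nat_lit 1) (nat_lit 378) (nat_lit 1) (nat_lit 389) (nat_lit 1) (nat_lit 351) (nat_lit 415) (nat_lit 374)) (XT.lf (nat_lit 836) (nat_lit 4595563413) (nat_lit 0) (nat_lit 455820217) (nat_lit 760) (nat_lit 455820217) (nat_lit 379) (nat_lit 1) (nat_lit 368) (nat_lit 1) (nat_lit 378) (nat_lit 1) (nat_lit 352) (nat_lit 415) (nat_lit 373))) (XT.nd (nat_lit 78) (nat_lit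 760) (nat_lit 0) (XT.lf (nat_lit 76) (nat_lit 1914787720) (nat_lit 0) (nat_lit 1630395001) (nat_lit 836) (nat_lit 1914787720) (nat_lit 369) (nat_lit 1) (nat_lit 368) (nat_lit 1) (nat_lit 379) (nat_lit 1) (nat_lit 353) (nat_lit 415) (nat_lit 372)) (XT.lf (nat_lit 836) (nat_lit 3067880556) (nat_lit 0) (nat_lit 1172786152) (nat_lit 760) (nat_lit 1172786152) (nat_lit 369) (nat_lit 1) (nat_lit 358) (nat_lit 1) (nat_lit 368) (nat_lit 1) (nat_lit 354) (nat_lit 415) (nat_lit 371)))) (XT.nd (nat_lit 156) (nat_lit 1444) (nat_lit 0) (XT.nd (nat_lit 78) (nat_lit 684) (nat_lit 0) (XT.lf (nat_lit 76) (nat_lit 1150401888) (nat_lit 0) (nat_lit 3066645241) (nat_lit 836) (nat_lit 1150401888) (nat_lit 359) (nat_lit 1) (nat_lit 358) (nat_lit 1) (nat_lit 369) (nat_lit 1) (nat_lit 355) (nat_lit 415) (nat_lit 370)) (XT.lf (nat_lit 760) (nat_lit 1528592419) (nat_lit 0) (nat_lit 1896679597) (nat_lit 684) (nat_lit 1896679597) (nat_lit 359) (nat_lit 1) (nat_lit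 349) (nat_lit 1) (nat_lit 358) (nat_lit 1) (nat_lit 356) (nat_lit 415) (nat_lit 369))) (XT.nd (nat_lit 78) (nat_lit 1444) (nat_lit 0) (XT.lf (nat_lit 76) (nat_lit 380699666) (nat_lit 0) (nat_lit 4515748491) (nat_lit 760) (nat_lit 380699666) (nat_lit 350) (nat_lit 1) (nat_lit 349) (nat_lit 1) (nat_lit 359) (nat_lit 1) (nat_lit 357) (nat_lit 415) (nat_lit 368)) (XT.nd (nat_lit 78) (nat_lit 684) (nat_lit 0) (XT.lf (nat_lit 76) (nat_lit 2606223033) (nat_lit 0) (nat_lit 20191290) (nat_lit 760) (nat_lit 2606223033) (nat_lit 340) (nat_lit 1) (nat_lit 339) (nat_lit 1) (nat_lit 349) (nat_lit 1) (nat_lit 358) (nat_lit 415) (nat_lit 367)) (XT.lf (nat_lit 760) (nat_lit 4407126672) (nat_lit 0) (nat_lit 390837927) (nat_lit 684) (nat_lit 390837927) (nat_lit 340) (nat_lit 1) (nat_lit 330) (nat_lit 1) (nat_lit 339) (nat_lit 1) (nat_lit 359) (nat_lit 415) (nat_lit 366)))))) (XT.nd (nat_lit 312) (nat_lit 1900) (nat_lit 0) (XT.nd (nat_lit 156) (nat_lit 608)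 (nat_lit 0) (XT.nd (nat_lit 78) (nat_lit 684) (nat_lit 0) (XT.lf (nat_lit 76) (nat_lit 1794205791) (nat_lit 0) (nat_lit 1556843338) (nat_lit 760) (nat_lit 1794205791) (nat_lit 331) (nat_lit 1) (nat_lit 330) (nat_lit 1) (nat_lit 340) (nat_lit 1) (nat_lit 360) (nat_lit 415) (nat_lit 365)) (XT.lf (nat_lit 760) (nat_lit 2775507341) (nat_lit 0) (nat_lit 1163426509) (nat_lit 684) (nat_lit 1163426509) (nat_lit 331) (nat_lit 1) (nat_lit 321) (nat_lit 1) (nat_lit 330) (nat_lit 1) (nat_lit 361) (nat_lit 415) (nat_lit 364))) (XT.nd (nat_lit 78) (nat_lit 608) (nat_lit 0) (XT.lf (nat_lit 76) (nat_lit 980080777) (nat_lit 0) (nat_lit 3099784905) (nat_lit 760) (nat_lit 980080777) (nat_lit 322) (nat_lit 1) (nat_lit 321) (nat_lit 1) (nat_lit 331) (nat_lit 1) (nat_lit 362) (nat_lit 415) (nat_lit 363)) (XT.lf (nat_lit 684) (nat_lit 1140409619) (nat_lit 0) (nat_lit 1938777358) (nat_lit 608) (nat_lit 1938777358) (nat_lit 322) (nat_lit 1) (nat_lit 313) (nat_lit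 1) (nat_lit 321) (nat_lit 1) (nat_lit 363) (nat_lit 415) (nat_lit 362)))) (XT.nd (nat_lit 156) (nat_lit 1216) (nat_lit 0) (XT.nd (nat_lit 78) (nat_lit 684) (nat_lit 0) (XT.lf (nat_lit 76) (nat_lit 164589434) (nat_lit 0) (nat_lit 4647478436) (nat_lit 684) (nat_lit 164589434) (nat_lit 314) (nat_lit 1) (nat_lit 313) (nat_lit 1) (nat_lit 322) (nat_lit 1) (nat_lit 364) (nat_lit 415) (nat_lit 361)) (XT.lf (nat_lit 76) (nat_lit 2222644934) (nat_lit 0) (nat_lit 490206327) (nat_lit 684) (nat_lit 2222644934) (nat_lit 305) (nat_lit 1) (nat_lit 304) (nat_lit 1) (nat_lit 313) (nat_lit 1) (nat_lit 365) (nat_lit 415) (nat_lit 360))) (XT.nd (nat_lit 78) (nat_lit 608) (nat_lit 0) (XT.lf (nat_lit 684) (nat_lit 3600431069) (nat_lit 0) (nat_lit 647281883) (nat_lit 608) (nat_lit 647281883) (nat_lit 305) (nat_lit 1) (nat_lit 296) (nat_lit 1) (nat_lit 304) (nat_lit 1) (nat_lit 366) (nat_lit 415) (nat_lit 359)) (XT.nd (nat_lit 78) (nat_lit 608) (nat_lit 0) (XT.lf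 (nat_lit 76) (nat_lit 1374147107) (nat_lit 0) (nat_lit 2106525877) (nat_lit 684) (nat_lit 1374147107) (nat_lit 297) (nat_lit 1) (nat_lit 296) (nat_lit 1) (nat_lit 305) (nat_lit 1) (nat_lit 367) (nat_lit 415) (nat_lit 358)) (XT.lf (nat_lit 684) (nat_lit 1899007202) (nat_lit 0) (nat_lit 1458077073) (nat_lit 608) (nat_lit 1458077073) (nat_lit 297) (nat_lit 1) (nat_lit 288) (nat_lit 1) (nat_lit 296) (nat_lit 1) (nat_lit 368) (nat_lit 415) (nat_lit 357))))))))
noncomputable def ec129 : XT := (XT.nd (nat_lit 1404) (nat_lit 4484) (nat_lit 0) (XT.nd (nat_lit 702) (nat_lit 3040) (nat_lit 0) (XT.nd (nat_lit 312) (nat_lit 1672) (nat_lit 0) (XT.nd (nat_lit 156) (nat_lit 684) (nat_lit 0) (XT.nd (nat_lit 78) (nat_lit 532) (nat_lit 0) (XT.lf (nat_lit 76) (nat_lit 526898335) (nat_lit 0) (nat_lit 3722236965) (nat_lit 684) (nat_lit 526898335) (nat_lit 289) (nat_lit 1) (nat_lit 288) (nat_lit 1) (nat_lit 297) (nat_lit 1) (nat_lit 369) (nat_lit 415) (nat_lit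 356)) (XT.lf (nat_lit 608) (nat_lit 200670492) (nat_lit 0) (nat_lit 2268261237) (nat_lit 532) (nat_lit 2268261237) (nat_lit 289) (nat_lit 1) (nat_lit 281) (nat_lit 1) (nat_lit 288) (nat_lit 1) (nat_lit 370) (nat_lit 415) (nat_lit 355))) (XT.nd (nat_lit 78) (nat_lit 0) (nat_lit 0) (XT.lf (nat_lit 684) (nat_lit 4066056318) (nat_lit 0) (nat_lit 316432751) (nat_lit 608) (nat_lit 316432751) (nat_lit 281) (nat_lit 1) (nat_lit 272) (nat_lit 1) (nat_lit 280) (nat_lit 1) (nat_lit 371) (nat_lit 415) (nat_lit 354)) (XT.lf (nat_lit 76) (nat_lit 1593485293) (nat_lit 0) (nat_lit 1473876963) (nat_lit 684) (nat_lit 1593485293) (nat_lit 273) (nat_lit 1) (nat_lit 272) (nat_lit 1) (nat_lit 281) (nat_lit 1) (nat_lit 372) (nat_lit 415) (nat_lit 353)))) (XT.nd (nat_lit 156) (nat_lit 1140) (nat_lit 0) (XT.nd (nat_lit 78) (nat_lit 0) (nat_lit 0) (XT.lf (nat_lit 608) (nat_lit 2315425272) (nat_lit 0) (nat_lit 1153952217) (nat_lit 532) (nat_lit 1153952217) (nat_lit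 273) (nat_lit 1) (nat_lit 265) (nat_lit 1) (nat_lit 272) (nat_lit 1) (nat_lit 373) (nat_lit 415) (nat_lit 352)) (XT.lf (nat_lit 76) (nat_lit 722817569) (nat_lit 0) (nat_lit 3140611702) (nat_lit 608) (nat_lit 722817569) (nat_lit 266) (nat_lit 1) (nat_lit 265) (nat_lit 1) (nat_lit 273) (nat_lit 1) (nat_lit 374) (nat_lit 415) (nat_lit 351))) (XT.nd (nat_lit 78) (nat_lit 608) (nat_lit 0) (XT.lf (nat_lit 608) (nat_lit 572237795) (nat_lit 0) (nat_lit 1988624080) (nat_lit 532) (nat_lit 1988624080) (nat_lit 266) (nat_lit 1) (nat_lit 258) (nat_lit 1) (nat_lit 265) (nat_lit 1) (nat_lit 375) (nat_lit 415) (nat_lit 350)) (XT.nd (nat_lit 78) (nat_lit 0) (nat_lit 0) (XT.lf (nat_lit 608) (nat_lit 4227366376) (nat_lit 0) (nat_lit 142965093) (nat_lit 532) (nat_lit 142965093) (nat_lit 258) (nat_lit 1) (nat_lit 250) (nat_lit 1) (nat_lit 257) (nat_lit 1) (nat_lit 376) (nat_lit 415) (nat_lit 349)) (XT.lf (nat_lit 76) (nat_lit 1664917305) (nat_lit 0) (nat_lit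 1147360368) (nat_lit 608) (nat_lit 1664917305) (nat_lit 251) (nat_lit 1) (nat_lit 250) (nat_lit 1) (nat_lit 258) (nat_lit 1) (nat_lit 377) (nat_lit 415) (nat_lit 348)))))) (XT.nd (nat_lit 312) (nat_lit 1444) (nat_lit 0) (XT.nd (nat_lit 156) (nat_lit 1064) (nat_lit 0) (XT.nd (nat_lit 78) (nat_lit 0) (nat_lit 0) (XT.lf (nat_lit 608) (nat_lit 2442353086) (nat_lit 0) (nat_lit 999650088) (nat_lit 532) (nat_lit 999650088) (nat_lit 251) (nat_lit 1) (nat_lit 243) (nat_lit 1) (nat_lit 250) (nat_lit 1) (nat_lit 378) (nat_lit 415) (nat_lit 347)) (XT.lf (nat_lit 76) (nat_lit 778049317) (nat_lit 0) (nat_lit 2850392659) (nat_lit 608) (nat_lit 778049317) (nat_lit 244) (nat_lit 1) (nat_lit 243) (nat_lit 1) (nat_lit 251) (nat_lit 1) (nat_lit 379) (nat_lit 415) (nat_lit 346))) (XT.nd (nat_lit 78) (nat_lit 608) (nat_lit 0) (XT.lf (nat_lit 532) (nat_lit 668469138) (nat_lit 0) (nat_lit 1851590969) (nat_lit 456) (nat_lit 1851590969) (nat_lit 244) (nat_lit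 1) (nat_lit 237) (nat_lit 1) (nat_lit 243) (nat_lit 1) (nat_lit 380) (nat_lit 415) (nat_lit 345)) (XT.lf (nat_lit 608) (nat_lit 4132527135) (nat_lit 0) (nat_lit 102413169) (nat_lit 532) (nat_lit 102413169) (nat_lit 237) (nat_lit 1) (nat_lit 229) (nat_lit 1) (nat_lit 236) (nat_lit 1) (nat_lit 381) (nat_lit 415) (nat_lit 344)))) (XT.nd (nat_lit 156) (nat_lit 988) (nat_lit 0) (XT.nd (nat_lit 78) (nat_lit 456) (nat_lit 0) (XT.lf (nat_lit 76) (nat_lit 1611936177) (nat_lit 0) (nat_lit 1079234294) (nat_lit 608) (nat_lit 1611936177) (nat_lit 230) (nat_lit 1) (nat_lit 229) (nat_lit 1) (nat_lit 237) (nat_lit 1) (nat_lit 382) (nat_lit 415) (nat_lit 343)) (XT.lf (nat_lit 532) (nat_lit 2325934109) (nat_lit 0) (nat_lit 971729000) (nat_lit 456) (nat_lit 971729000) (nat_lit 230) (nat_lit 1) (nat_lit 223) (nat_lit 1) (nat_lit 229) (nat_lit 1) (nat_lit 383) (nat_lit 415) (nat_lit 342))) (XT.nd (nat_lit 78) (nat_lit 988) (nat_lit 0) (XT.lf (nat_lit 76)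 (nat_lit 715099479) (nat_lit 0) (nat_lit 2805837653) (nat_lit 532) (nat_lit 715099479) (nat_lit 224) (nat_lit 1) (nat_lit 223) (nat_lit 1) (nat_lit 230) (nat_lit 1) (nat_lit 384) (nat_lit 415) (nat_lit 341)) (XT.nd (nat_lit 78) (nat_lit 532) (nat_lit 0) (XT.lf (nat_lit 532) (nat_lit 533567784) (nat_lit 0) (nat_lit 1834702703) (nat_lit 456) (nat_lit 1834702703) (nat_lit 224) (nat_lit 1) (nat_lit 217) (nat_lit 1) (nat_lit 223) (nat_lit 1) (nat_lit 385) (nat_lit 415) (nat_lit 340)) (XT.lf (nat_lit 532) (nat_lit 3823678051) (nat_lit 0) (nat_lit 173359895) (nat_lit 456) (nat_lit 173359895) (nat_lit 217) (nat_lit 1) (nat_lit 210) (nat_lit 1) (nat_lit 216) (nat_lit 1) (nat_lit 386) (nat_lit 415) (nat_lit 339))))))) (XT.nd (nat_lit 702) (nat_lit 2280) (nat_lit 0) (XT.nd (nat_lit 312) (nat_lit 1368) (nat_lit 0) (XT.nd (nat_lit 156) (nat_lit 380) (nat_lit 0) (XT.nd (nat_lit 78) (nat_lit 456) (nat_lit 0) (XT.lf (nat_lit 76) (nat_lit 1455092363)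 (nat_lit 0) (nat_lit 1227712054) (nat_lit 532) (nat_lit 1455092363) (nat_lit 211) (nat_lit 1) (nat_lit 210) (nat_lit 1) (nat_lit 217) (nat_lit 1) (nat_lit 387) (nat_lit 415) (nat_lit 338)) (XT.lf (nat_lit 532) (nat_lit 2006525983) (nat_lit 0) (nat_lit 1049674319) (nat_lit 456) (nat_lit 1049674319) (nat_lit 211) (nat_lit 1) (nat_lit 204) (nat_lit 1) (nat_lit 210) (nat_lit 1) (nat_lit 388) (nat_lit 415) (nat_lit 337))) (XT.nd (nat_lit 78) (nat_lit 380) (nat_lit 0) (XT.lf (nat_lit 76) (nat_lit 553648893) (nat_lit 0) (nat_lit 2966922007) (nat_lit 532) (nat_lit 553648893) (nat_lit 205) (nat_lit 1) (nat_lit 204) (nat_lit 1) (nat_lit 211) (nat_lit 1) (nat_lit 389) (nat_lit 415) (nat_lit 336)) (XT.lf (nat_lit 456) (nat_lit 206182292) (nat_lit 0) (nat_lit 1918310314) (nat_lit 380) (nat_lit 1918310314) (nat_lit 205) (nat_lit 1) (nat_lit 199) (nat_lit 1) (nat_lit 204) (nat_lit 1) (nat_lit 390) (nat_lit 415) (nat_lit 335)))) (XT.nd (nat_lit 156)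 (nat_lit 836) (nat_lit 0) (XT.nd (nat_lit 78) (nat_lit 0) (nat_lit 0) (XT.lf (nat_lit 532) (nat_lit 3337633407) (nat_lit 0) (nat_lit 337082523) (nat_lit 456) (nat_lit 337082523) (nat_lit 199) (nat_lit 1) (nat_lit 192) (nat_lit 1) (nat_lit 198) (nat_lit 1) (nat_lit 391) (nat_lit 415) (nat_lit 334)) (XT.lf (nat_lit 76) (nat_lit 1212336279) (nat_lit 0) (nat_lit 1556269708) (nat_lit 532) (nat_lit 1212336279) (nat_lit 193) (nat_lit 1) (nat_lit 192) (nat_lit 1) (nat_lit 199) (nat_lit 1) (nat_lit 392) (nat_lit 415) (nat_lit 333))) (XT.nd (nat_lit 78) (nat_lit 456) (nat_lit 0) (XT.lf (nat_lit 456) (nat_lit 1519374288) (nat_lit 0) (nat_lit 1215558029) (nat_lit 380) (nat_lit 1215558029) (nat_lit 193) (nat_lit 1) (nat_lit 187) (nat_lit 1) (nat_lit 192) (nat_lit 1) (nat_lit 393) (nat_lit 415) (nat_lit 332)) (XT.nd (nat_lit 78) (nat_lit 456) (nat_lit 0) (XT.lf (nat_lit 76) (nat_lit 310882441) (nat_lit 0) (nat_lit 3298673344) (nat_lit 456) (nat_lit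 310882441) (nat_lit 188) (nat_lit 1) (nat_lit 187) (nat_lit 1) (nat_lit 193) (nat_lit 1) (nat_lit 394) (nat_lit 415) (nat_lit 331)) (XT.lf (nat_lit 76) (nat_lit 1807119446) (nat_lit 0) (nat_lit 276274594) (nat_lit 456) (nat_lit 1807119446) (nat_lit 182) (nat_lit 1) (nat_lit 181) (nat_lit 1) (nat_lit 187) (nat_lit 1) (nat_lit 395) (nat_lit 415) (nat_lit 330)))))) (XT.nd (nat_lit 390) (nat_lit 1140) (nat_lit 0) (XT.nd (nat_lit 156) (nat_lit 760) (nat_lit 0) (XT.nd (nat_lit 78) (nat_lit 0) (nat_lit 0) (XT.lf (nat_lit 456) (nat_lit 2706503967) (nat_lit 0) (nat_lit 577238529) (nat_lit 380) (nat_lit 577238529) (nat_lit 182) (nat_lit 1) (nat_lit 176) (nat_lit 1) (nat_lit 181) (nat_lit 1) (nat_lit 396) (nat_lit 415) (nat_lit 329)) (XT.lf (nat_lit 76) (nat_lit 899321949) (nat_lit 0) (nat_lit 2033032285) (nat_lit 456) (nat_lit 899321949) (nat_lit 177) (nat_lit 1) (nat_lit 176) (nat_lit 1) (nat_lit 182) (nat_lit 1) (nat_lit 397) (nat_lit 415) (nat_lit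 328))) (XT.nd (nat_lit 78) (nat_lit 380) (nat_lit 0) (XT.lf (nat_lit 456) (nat_lit 895209795) (nat_lit 0) (nat_lit 1453736946) (nat_lit 380) (nat_lit 1453736946) (nat_lit 177) (nat_lit 1) (nat_lit 171) (nat_lit 1) (nat_lit 176) (nat_lit 1) (nat_lit 398) (nat_lit 415) (nat_lit 327)) (XT.nd (nat_lit 78) (nat_lit 380) (nat_lit 0) (XT.lf (nat_lit 76) (nat_lit 1780772) (nat_lit 0) (nat_lit 3770581882) (nat_lit 456) (nat_lit 1780772) (nat_lit 172) (nat_lit 1) (nat_lit 171) (nat_lit 1) (nat_lit 177) (nat_lit 1) (nat_lit 399) (nat_lit 415) (nat_lit 326)) (XT.lf (nat_lit 76) (nat_lit 1430946849) (nat_lit 0) (nat_lit 883666406) (nat_lit 380) (nat_lit 1430946849) (nat_lit 167) (nat_lit 1) (nat_lit 166) (nat_lit 1) (nat_lit 171) (nat_lit 1) (nat_lit 400) (nat_lit 415) (nat_lit 325))))) (XT.nd (nat_lit 156) (nat_lit 760) (nat_lit 0) (XT.nd (nat_lit 78) (nat_lit 0) (nat_lit 0) (XT.lf (nat_lit 456) (nat_lit 1958247978) (nat_lit 0) (nat_lit 879587180)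 (nat_lit 380) (nat_lit 879587180) (nat_lit 167) (nat_lit 1) (nat_lit 161) (nat_lit 1) (nat_lit 166) (nat_lit 1) (nat_lit 401) (nat_lit 415) (nat_lit 324)) (XT.lf (nat_lit 76) (nat_lit 529676135) (nat_lit 0) (nat_lit 2630229737) (nat_lit 456) (nat_lit 529676135) (nat_lit 162) (nat_lit 1) (nat_lit 161) (nat_lit 1) (nat_lit 167) (nat_lit 1) (nat_lit 402) (nat_lit 415) (nat_lit 323))) (XT.nd (nat_lit 78) (nat_lit 456) (nat_lit 0) (XT.lf (nat_lit 380) (nat_lit 160777827) (nat_lit 0) (nat_lit 1750585221) (nat_lit 304) (nat_lit 1750585221) (nat_lit 162) (nat_lit 1) (nat_lit 157) (nat_lit 1) (nat_lit 161) (nat_lit 1) (nat_lit 403) (nat_lit 415) (nat_lit 322)) (XT.nd (nat_lit 78) (nat_lit 0) (nat_lit 0) (XT.lf (nat_lit 456) (nat_lit 2918150305) (nat_lit 0) (nat_lit 358248624) (nat_lit 380) (nat_lit 358248624) (nat_lit 157) (nat_lit 1) (nat_lit 151) (nat_lit 1) (nat_lit 156) (nat_lit 1) (nat_lit 404) (nat_lit 415) (nat_lit 321)) (XT.lf (nat_lit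 76) (nat_lit 1007016304) (nat_lit 0) (nat_lit 1593450135) (nat_lit 456) (nat_lit 1007016304) (nat_lit 152) (nat_lit 1) (nat_lit 151) (nat_lit 1) (nat_lit 157) (nat_lit 1) (nat_lit 405) (nat_lit 415) (nat_lit 320))))))))
noncomputable def ec130 : XT := (XT.nd (nat_lit 1404) (nat_lit 2280) (nat_lit 0) (XT.nd (nat_lit 702) (nat_lit 1824) (nat_lit 0) (XT.nd (nat_lit 312) (nat_lit 988) (nat_lit 0) (XT.nd (nat_lit 156) (nat_lit 684) (nat_lit 0) (XT.nd (nat_lit 78) (nat_lit 0) (nat_lit 0) (XT.lf (nat_lit 380) (nat_lit 1117159486) (nat_lit 0) (nat_lit 1231742769) (nat_lit 304) (nat_lit 1231742769) (nat_lit 152) (nat_lit 1) (nat_lit 147) (nat_lit 1) (nat_lit 151) (nat_lit 1) (nat_lit 406) (nat_lit 415) (nat_lit 319)) (XT.lf (nat_lit 76) (nat_lit 115236852) (nat_lit 0) (nat_lit 3323714764) (nat_lit 380) (nat_lit 115236852) (nat_lit 148) (nat_lit 1) (nat_lit 147) (nat_lit 1) (nat_lit 152) (nat_lit 1) (nat_lit 407) (nat_lit 415) (nat_lit 318))) (XT.nd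 (nat_lit 78) (nat_lit 304) (nat_lit 0) (XT.lf (nat_lit 76) (nat_lit 1437854298) (nat_lit 0) (nat_lit 652027523) (nat_lit 380) (nat_lit 1437854298) (nat_lit 143) (nat_lit 1) (nat_lit 142) (nat_lit 1) (nat_lit 147) (nat_lit 1) (nat_lit 408) (nat_lit 415) (nat_lit 317)) (XT.lf (nat_lit 380) (nat_lit 1981715648) (nat_lit 0) (nat_lit 759971903) (nat_lit 304) (nat_lit 759971903) (nat_lit 143) (nat_lit 1) (nat_lit 138) (nat_lit 1) (nat_lit 142) (nat_lit 1) (nat_lit 409) (nat_lit 415) (nat_lit 316)))) (XT.nd (nat_lit 156) (nat_lit 684) (nat_lit 0) (XT.nd (nat_lit 78) (nat_lit 304) (nat_lit 0) (XT.lf (nat_lit 76) (nat_lit 546064014) (nat_lit 0) (nat_lit 2383708736) (nat_lit 380) (nat_lit 546064014) (nat_lit 139) (nat_lit 1) (nat_lit 138) (nat_lit 1) (nat_lit 143) (nat_lit 1) (nat_lit 410) (nat_lit 415) (nat_lit 315)) (XT.lf (nat_lit 380) (nat_lit 204301009) (nat_lit 0) (nat_lit 1622955948) (nat_lit 304) (nat_lit 1622955948) (nat_lit 139) (nat_lit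 1) (nat_lit 134) (nat_lit 1) (nat_lit 138) (nat_lit 1) (nat_lit 411) (nat_lit 415) (nat_lit 314))) (XT.nd (nat_lit 78) (nat_lit 304) (nat_lit 0) (XT.lf (nat_lit 380) (nat_lit 2761811649) (nat_lit 0) (nat_lit 331539684) (nat_lit 304) (nat_lit 331539684) (nat_lit 134) (nat_lit 1) (nat_lit 129) (nat_lit 1) (nat_lit 133) (nat_lit 1) (nat_lit 412) (nat_lit 415) (nat_lit 313)) (XT.nd (nat_lit 78) (nat_lit 304) (nat_lit 0) (XT.lf (nat_lit 76) (nat_lit 935462051) (nat_lit 0) (nat_lit 1528756896) (nat_lit 380) (nat_lit 935462051) (nat_lit 130) (nat_lit 1) (nat_lit 129) (nat_lit 1) (nat_lit 134) (nat_lit 1) (nat_lit 413) (nat_lit 415) (nat_lit 312)) (XT.lf (nat_lit 380) (nat_lit 987447328) (nat_lit 0) (nat_lit 1193660378) (nat_lit 304) (nat_lit 1193660378) (nat_lit 130) (nat_lit 1) (nat_lit 125) (nat_lit 1) (nat_lit 129) (nat_lit 1) (nat_lit 414) (nat_lit 415) (nat_lit 311)))))) (XT.nd (nat_lit 312) (nat_lit 1216) (nat_lit 0) (XT.nd (nat_lit 156)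 (nat_lit 304) (nat_lit 0) (XT.nd (nat_lit 78) (nat_lit 304) (nat_lit 0) (XT.lf (nat_lit 76) (nat_lit 57377121) (nat_lit 0) (nat_lit 3235461196) (nat_lit 380) (nat_lit 57377121) (nat_lit 126) (nat_lit 1) (nat_lit 125) (nat_lit 1) (nat_lit 130) (nat_lit 1) (nat_lit 415) (nat_lit 415) (nat_lit 310)) (XT.lf (nat_lit 76) (nat_lit 1286754993) (nat_lit 0) (nat_lit 752117893) (nat_lit 304) (nat_lit 1286754993) (nat_lit 122) (nat_lit 1) (nat_lit 121) (nat_lit 1) (nat_lit 125) (nat_lit 1) (nat_lit 416) (nat_lit 415) (nat_lit 309))) (XT.nd (nat_lit 78) (nat_lit 0) (nat_lit 0) (XT.lf (nat_lit 380) (nat_lit 1695292595) (nat_lit 0) (nat_lit 803051749) (nat_lit 304) (nat_lit 803051749) (nat_lit 122) (nat_lit 1) (nat_lit 117) (nat_lit 1) (nat_lit 121) (nat_lit 1) (nat_lit 417) (nat_lit 415) (nat_lit 308)) (XT.lf (nat_lit 76) (nat_lit 411534024) (nat_lit 0) (nat_lit 2454351252) (nat_lit 380) (nat_lit 411534024) (nat_lit 118) (nat_lit 1) (nat_lit 117)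 (nat_lit 1) (nat_lit 122) (nat_lit 1) (nat_lit 418) (nat_lit 415) (nat_lit 307)))) (XT.nd (nat_lit 156) (nat_lit 608) (nat_lit 0) (XT.nd (nat_lit 78) (nat_lit 304) (nat_lit 0) (XT.lf (nat_lit 76) (nat_lit 1603010417) (nat_lit 0) (nat_lit 47568937) (nat_lit 304) (nat_lit 1603010417) (nat_lit 114) (nat_lit 1) (nat_lit 113) (nat_lit 1) (nat_lit 117) (nat_lit 1) (nat_lit 419) (nat_lit 415) (nat_lit 306)) (XT.lf (nat_lit 380) (nat_lit 2333878405) (nat_lit 0) (nat_lit 448066340) (nat_lit 304) (nat_lit 448066340) (nat_lit 114) (nat_lit 1) (nat_lit 109) (nat_lit 1) (nat_lit 113) (nat_lit 1) (nat_lit 420) (nat_lit 415) (nat_lit 305))) (XT.nd (nat_lit 78) (nat_lit 608) (nat_lit 0) (XT.lf (nat_lit 76) (nat_lit 731690329) (nat_lit 0) (nat_lit 1743211006) (nat_lit 380) (nat_lit 731690329) (nat_lit 110) (nat_lit 1) (nat_lit 109) (nat_lit 1) (nat_lit 114) (nat_lit 1) (nat_lit 421) (nat_lit 415) (nat_lit 304)) (XT.nd (nat_lit 78) (nat_lit 380) (nat_lit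 0) (XT.lf (nat_lit 304) (nat_lit 598483002) (nat_lit 0) (nat_lit 1292461786) (nat_lit 228) (nat_lit 1292461786) (nat_lit 110) (nat_lit 1) (nat_lit 106) (nat_lit 1) (nat_lit 109) (nat_lit 1) (nat_lit 422) (nat_lit 415) (nat_lit 303)) (XT.lf (nat_lit 380) (nat_lit 2908780238) (nat_lit 0) (nat_lit 125876053) (nat_lit 304) (nat_lit 125876053) (nat_lit 106) (nat_lit 1) (nat_lit 101) (nat_lit 1) (nat_lit 105) (nat_lit 1) (nat_lit 423) (nat_lit 415) (nat_lit 302))))))) (XT.nd (nat_lit 702) (nat_lit 988) (nat_lit 0) (XT.nd (nat_lit 312) (nat_lit 760) (nat_lit 0) (XT.nd (nat_lit 156) (nat_lit 304) (nat_lit 0) (XT.nd (nat_lit 78) (nat_lit 228) (nat_lit 0) (XT.lf (nat_lit 76) (nat_lit 1020573179) (nat_lit 0) (nat_lit 1096506365) (nat_lit 380) (nat_lit 1020573179) (nat_lit 102) (nat_lit 1) (nat_lit 101) (nat_lit 1) (nat_lit 106) (nat_lit 1) (nat_lit 424) (nat_lit 415) (nat_lit 301)) (XT.lf (nat_lit 304) (nat_lit 1183311050) (nat_lit 0) (nat_lit 965884612)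 (nat_lit 228) (nat_lit 965884612) (nat_lit 102) (nat_lit 1) (nat_lit 98) (nat_lit 1) (nat_lit 101) (nat_lit 1) (nat_lit 425) (nat_lit 415) (nat_lit 300))) (XT.nd (nat_lit 78) (nat_lit 304) (nat_lit 0) (XT.lf (nat_lit 76) (nat_lit 167229772) (nat_lit 0) (nat_lit 2758337220) (nat_lit 304) (nat_lit 167229772) (nat_lit 99) (nat_lit 1) (nat_lit 98) (nat_lit 1) (nat_lit 102) (nat_lit 1) (nat_lit 426) (nat_lit 415) (nat_lit 299)) (XT.lf (nat_lit 76) (nat_lit 1280699329) (nat_lit 0) (nat_lit 509128715) (nat_lit 304) (nat_lit 1280699329) (nat_lit 95) (nat_lit 1) (nat_lit 94) (nat_lit 1) (nat_lit 98) (nat_lit 1) (nat_lit 427) (nat_lit 415) (nat_lit 298)))) (XT.nd (nat_lit 156) (nat_lit 532) (nat_lit 0) (XT.nd (nat_lit 78) (nat_lit 0) (nat_lit 0) (XT.lf (nat_lit 304) (nat_lit 1711240880) (nat_lit 0) (nat_lit 668651318) (nat_lit 228) (nat_lit 668651318) (nat_lit 95) (nat_lit 1) (nat_lit 91) (nat_lit 1) (nat_lit 94) (nat_lit 1) (nat_lit 428) (nat_lit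 415) (nat_lit 297)) (XT.lf (nat_lit 76) (nat_lit 433210070) (nat_lit 0) (nat_lit 2160348364) (nat_lit 304) (nat_lit 433210070) (nat_lit 92) (nat_lit 1) (nat_lit 91) (nat_lit 1) (nat_lit 95) (nat_lit 1) (nat_lit 429) (nat_lit 415) (nat_lit 296))) (XT.nd (nat_lit 78) (nat_lit 304) (nat_lit 0) (XT.lf (nat_lit 304) (nat_lit 23951695) (nat_lit 0) (nat_lit 1490595038) (nat_lit 228) (nat_lit 1490595038) (nat_lit 92) (nat_lit 1) (nat_lit 88) (nat_lit 1) (nat_lit 91) (nat_lit 1) (nat_lit 430) (nat_lit 415) (nat_lit 295)) (XT.nd (nat_lit 78) (nat_lit 0) (nat_lit 0) (XT.lf (nat_lit 304) (nat_lit 2186847921) (nat_lit 0) (nat_lit 398439518) (nat_lit 228) (nat_lit 398439518) (nat_lit 88) (nat_lit 1) (nat_lit 84) (nat_lit 1) (nat_lit 87) (nat_lit 1) (nat_lit 431) (nat_lit 415) (nat_lit 294)) (XT.lf (nat_lit 76) (nat_lit 673469739) (nat_lit 0) (nat_lit 1615505544) (nat_lit 304) (nat_lit 673469739) (nat_lit 85) (nat_lit 1) (nat_lit 84) (nat_lit 1) (nat_lit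 88) (nat_lit 1) (nat_lit 432) (nat_lit 415) (nat_lit 293)))))) (XT.nd (nat_lit 312) (nat_lit 228) (nat_lit 0) (XT.nd (nat_lit 156) (nat_lit 228) (nat_lit 0) (XT.nd (nat_lit 78) (nat_lit 304) (nat_lit 0) (XT.lf (nat_lit 304) (nat_lit 512871504) (nat_lit 0) (nat_lit 1214250239) (nat_lit 228) (nat_lit 1214250239) (nat_lit 85) (nat_lit 1) (nat_lit 81) (nat_lit 1) (nat_lit 84) (nat_lit 1) (nat_lit 433) (nat_lit 415) (nat_lit 292)) (XT.lf (nat_lit 304) (nat_lit 2614354411) (nat_lit 0) (nat_lit 153105405) (nat_lit 228) (nat_lit 153105405) (nat_lit 81) (nat_lit 1) (nat_lit 77) (nat_lit 1) (nat_lit 80) (nat_lit 1) (nat_lit 434) (nat_lit 415) (nat_lit 291))) (XT.nd (nat_lit 78) (nat_lit 228) (nat_lit 0) (XT.lf (nat_lit 76) (nat_lit 890074681) (nat_lit 0) (nat_lit 1119612298) (nat_lit 304) (nat_lit 890074681) (nat_lit 78) (nat_lit 1) (nat_lit 77) (nat_lit 1) (nat_lit 81) (nat_lit 1) (nat_lit 435) (nat_lit 415) (nat_lit 290)) (XT.lf (nat_lit 304)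 (nat_lit 954935405) (nat_lit 0) (nat_lit 962143090) (nat_lit 228) (nat_lit 962143090) (nat_lit 78) (nat_lit 1) (nat_lit 74) (nat_lit 1) (nat_lit 77) (nat_lit 1) (nat_lit 436) (nat_lit 415) (nat_lit 289)))) (XT.nd (nat_lit 49296) (nat_lit 0) (nat_lit 32376) (XT.nd (nat_lit 78) (nat_lit 228) (nat_lit 0) (XT.lf (nat_lit 76) (nat_lit 69789019) (nat_lit 0) (nat_lit 2719382215) (nat_lit 304) (nat_lit 69789019) (nat_lit 75) (nat_lit 1) (nat_lit 74) (nat_lit 1) (nat_lit 78) (nat_lit 1) (nat_lit 437) (nat_lit 415) (nat_lit 288)) (XT.lf (nat_lit 76) (nat_lit 1084931367) (nat_lit 0) (nat_lit 668794672) (nat_lit 228) (nat_lit 1084931367) (nat_lit 72) (nat_lit 1) (nat_lit 71) (nat_lit 1) (nat_lit 74) (nat_lit 1) (nat_lit 438) (nat_lit 415) (nat_lit 287))) (XT.nd (nat_lit 78) (nat_lit 0) (nat_lit 0) (XT.lf (nat_lit 1900) (nat_lit 1375914789) (nat_lit 0) (nat_lit 1387420637) (nat_lit 1900) (nat_lit 1375914789) (nat_lit 522) (nat_lit 1) (nat_lit 497)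 (nat_lit 0) (nat_lit 522) (nat_lit 0) (nat_lit 308) (nat_lit 416) (nat_lit 416)) (XT.nd (nat_lit 78) (nat_lit 0) (nat_lit 76) (XT.lf (nat_lit 1900) (nat_lit 5440573947) (nat_lit 76) (nat_lit 1378292869) (nat_lit 0) (nat_lit 1378292869) (nat_lit 522) (nat_lit 1) (nat_lit 498) (nat_lit 1) (nat_lit 497) (nat_lit 0) (nat_lit 309) (nat_lit 416) (nat_lit 415)) (XT.lf (nat_lit 1900) (nat_lit 2671347705) (nat_lit 0) (nat_lit 2774011971) (nat_lit 1824) (nat_lit 2671347705) (nat_lit 523) (nat_lit 1) (nat_lit 498) (nat_lit 1) (nat_lit 522) (nat_lit 1) (nat_lit 310) (nat_lit 416) (nat_lit 414))))))))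
noncomputable def ec131 : XT := (XT.nd (nat_lit 1404) (nat_lit 8284) (nat_lit 0) (XT.nd (nat_lit 702) (nat_lit 0) (nat_lit 380) (XT.nd (nat_lit 312) (nat_lit 0) (nat_lit 152) (XT.nd (nat_lit 156) (nat_lit 0) (nat_lit 76) (XT.nd (nat_lit 78) (nat_lit 0) (nat_lit 76) (XT.lf (nat_lit 1900) (nat_lit 5228485983) (nat_lit 76) (nat_lit 1404494373) (nat_lit 0) (nat_lit 1404494373) (nat_lit 523) (nat_lit 1) (nat_lit 499) (nat_lit 1) (nat_lit 498) (nat_lit 1) (nat_lit 311) (nat_lit 416) (nat_lit 413)) (XT.lf (nat_lit 1900) (nat_lit 2540945110) (nat_lit 0) (nat_lit 2877226500) (nat_lit 1824) (nat_lit 2540945110) (nat_lit 524) (nat_lit 1) (nat_lit 499) (nat_lit 1) (nat_lit 523) (nat_lit 1) (nat_lit 312) (nat_lit 416) (nat_lit 412))) (XT.nd (nat_lit 78) (nat_lit 0) (nat_lit 76) (XT.lf (nat_lit 1900) (nat_lit 4919239763) (nat_lit 76) (nat_lit 1481342111) (nat_lit 0) (nat_lit 1481342111) (nat_lit 524) (nat_lit 1) (nat_lit 500) (nat_lit 1) (nat_lit 499)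 (nat_lit 1) (nat_lit 313) (nat_lit 416) (nat_lit 411)) (XT.lf (nat_lit 1900) (nat_lit 2363600392) (nat_lit 0) (nat_lit 3078405271) (nat_lit 1824) (nat_lit 2363600392) (nat_lit 525) (nat_lit 1) (nat_lit 500) (nat_lit 1) (nat_lit 524) (nat_lit 1) (nat_lit 314) (nat_lit 416) (nat_lit 410)))) (XT.nd (nat_lit 156) (nat_lit 0) (nat_lit 76) (XT.nd (nat_lit 78) (nat_lit 0) (nat_lit 76) (XT.lf (nat_lit 1900) (nat_lit 4518674608) (nat_lit 76) (nat_lit 1605856417) (nat_lit 0) (nat_lit 1605856417) (nat_lit 525) (nat_lit 1) (nat_lit 501) (nat_lit 1) (nat_lit 500) (nat_lit 1) (nat_lit 315) (nat_lit 416) (nat_lit 409)) (XT.lf (nat_lit 1900) (nat_lit 2142156092) (nat_lit 0) (nat_lit 3371744755) (nat_lit 1824) (nat_lit 2142156092) (nat_lit 526) (nat_lit 1) (nat_lit 501) (nat_lit 1) (nat_lit 525) (nat_lit 1) (nat_lit 316) (nat_lit 416) (nat_lit 408))) (XT.nd (nat_lit 78) (nat_lit 0) (nat_lit 76) (XT.lf (nat_lit 1900) (nat_lit 4032362569) (nat_lit 76) (nat_lit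 1775193188) (nat_lit 0) (nat_lit 1775193188) (nat_lit 526) (nat_lit 1) (nat_lit 502) (nat_lit 1) (nat_lit 501) (nat_lit 1) (nat_lit 317) (nat_lit 416) (nat_lit 407)) (XT.nd (nat_lit 78) (nat_lit 0) (nat_lit 0) (XT.lf (nat_lit 1900) (nat_lit 1879324378) (nat_lit 0) (nat_lit 3751705993) (nat_lit 1824) (nat_lit 1879324378) (nat_lit 527) (nat_lit 1) (nat_lit 502) (nat_lit 1) (nat_lit 526) (nat_lit 1) (nat_lit 318) (nat_lit 416) (nat_lit 406)) (XT.lf (nat_lit 1900) (nat_lit 3465619604) (nat_lit 76) (nat_lit 1986638238) (nat_lit 0) (nat_lit 1986638238) (nat_lit 527) (nat_lit 1) (nat_lit 503) (nat_lit 1) (nat_lit 502) (nat_lit 1) (nat_lit 319) (nat_lit 416) (nat_lit 405)))))) (XT.nd (nat_lit 312) (nat_lit 0) (nat_lit 152) (XT.nd (nat_lit 156) (nat_lit 0) (nat_lit 76) (XT.nd (nat_lit 78) (nat_lit 0) (nat_lit 0) (XT.lf (nat_lit 1900) (nat_lit 1577692499) (nat_lit 0) (nat_lit 4213003540) (nat_lit 1824) (nat_lit 1577692499) (nat_lit 528) (nat_lit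 1) (nat_lit 503) (nat_lit 1) (nat_lit 527) (nat_lit 1) (nat_lit 320) (nat_lit 416) (nat_lit 404)) (XT.lf (nat_lit 1900) (nat_lit 2823516295) (nat_lit 76) (nat_lit 2237601865) (nat_lit 0) (nat_lit 2237601865) (nat_lit 528) (nat_lit 1) (nat_lit 504) (nat_lit 1) (nat_lit 503) (nat_lit 1) (nat_lit 321) (nat_lit 416) (nat_lit 403))) (XT.nd (nat_lit 78) (nat_lit 0) (nat_lit 0) (XT.lf (nat_lit 1900) (nat_lit 1239728019) (nat_lit 0) (nat_lit 4750594880) (nat_lit 1824) (nat_lit 1239728019) (nat_lit 529) (nat_lit 1) (nat_lit 504) (nat_lit 1) (nat_lit 528) (nat_lit 1) (nat_lit 322) (nat_lit 416) (nat_lit 402)) (XT.lf (nat_lit 1900) (nat_lit 2110888147) (nat_lit 76) (nat_lit 2525613648) (nat_lit 0) (nat_lit 2525613648) (nat_lit 529) (nat_lit 1) (nat_lit 505) (nat_lit 1) (nat_lit 504) (nat_lit 1) (nat_lit 323) (nat_lit 416) (nat_lit 401)))) (XT.nd (nat_lit 156) (nat_lit 0) (nat_lit 76) (XT.nd (nat_lit 78) (nat_lit 0) (nat_lit 0) (XT.lf (nat_lit 1900)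 (nat_lit 867783843) (nat_lit 0) (nat_lit 5359670244) (nat_lit 1824) (nat_lit 867783843) (nat_lit 530) (nat_lit 1) (nat_lit 505) (nat_lit 1) (nat_lit 529) (nat_lit 1) (nat_lit 324) (nat_lit 416) (nat_lit 400)) (XT.lf (nat_lit 1900) (nat_lit 1332345461) (nat_lit 76) (nat_lit 2848317443) (nat_lit 0) (nat_lit 2848317443) (nat_lit 530) (nat_lit 1) (nat_lit 506) (nat_lit 1) (nat_lit 505) (nat_lit 1) (nat_lit 325) (nat_lit 416) (nat_lit 399))) (XT.nd (nat_lit 78) (nat_lit 0) (nat_lit 0) (XT.lf (nat_lit 1900) (nat_lit 464103037) (nat_lit 0) (nat_lit 6035642852) (nat_lit 1824) (nat_lit 464103037) (nat_lit 531) (nat_lit 1) (nat_lit 506) (nat_lit 1) (nat_lit 530) (nat_lit 1) (nat_lit 326) (nat_lit 416) (nat_lit 398)) (XT.nd (nat_lit 78) (nat_lit 0) (nat_lit 76) (XT.lf (nat_lit 1900) (nat_lit 492282813) (nat_lit 76) (nat_lit 3203466593) (nat_lit 0) (nat_lit 3203466593) (nat_lit 531) (nat_lit 1) (nat_lit 507) (nat_lit 1) (nat_lit 506) (nat_lit 1)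 (nat_lit 327) (nat_lit 416) (nat_lit 397)) (XT.lf (nat_lit 1900) (nat_lit 30823457) (nat_lit 0) (nat_lit 6774139544) (nat_lit 1824) (nat_lit 30823457) (nat_lit 532) (nat_lit 1) (nat_lit 507) (nat_lit 1) (nat_lit 531) (nat_lit 1) (nat_lit 328) (nat_lit 416) (nat_lit 396))))))) (XT.nd (nat_lit 702) (nat_lit 5168) (nat_lit 0) (XT.nd (nat_lit 312) (nat_lit 1900) (nat_lit 0) (XT.nd (nat_lit 156) (nat_lit 0) (nat_lit 76) (XT.nd (nat_lit 78) (nat_lit 0) (nat_lit 0) (XT.lf (nat_lit 1976) (nat_lit 3186437720) (nat_lit 0) (nat_lit 399798734) (nat_lit 1900) (nat_lit 3186437720) (nat_lit 508) (nat_lit 1) (nat_lit 482) (nat_lit 1) (nat_lit 507) (nat_lit 1) (nat_lit 329) (nat_lit 416) (nat_lit 395)) (XT.lf (nat_lit 1976) (nat_lit 5856354571) (nat_lit 76) (nat_lit 427188745) (nat_lit 0) (nat_lit 427188745) (nat_lit 508) (nat_lit 1) (nat_lit 483) (nat_lit 1) (nat_lit 482) (nat_lit 1) (nat_lit 330) (nat_lit 416) (nat_lit 394))) (XT.nd (nat_lit 78) (nat_lit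 0) (nat_lit 0) (XT.lf (nat_lit 1976) (nat_lit 2655588878) (nat_lit 0) (nat_lit 1338066278) (nat_lit 1900) (nat_lit 2655588878) (nat_lit 509) (nat_lit 1) (nat_lit 483) (nat_lit 1) (nat_lit 508) (nat_lit 1) (nat_lit 331) (nat_lit 416) (nat_lit 393)) (XT.lf (nat_lit 1976) (nat_lit 4767887616) (nat_lit 76) (nat_lit 910450714) (nat_lit 0) (nat_lit 910450714) (nat_lit 509) (nat_lit 1) (nat_lit 484) (nat_lit 1) (nat_lit 483) (nat_lit 1) (nat_lit 332) (nat_lit 416) (nat_lit 392)))) (XT.nd (nat_lit 156) (nat_lit 912) (nat_lit 0) (XT.nd (nat_lit 78) (nat_lit 1140) (nat_lit 0) (XT.lf (nat_lit 76) (nat_lit 2101837404) (nat_lit 0) (nat_lit 2325225513) (nat_lit 1900) (nat_lit 2101837404) (nat_lit 485) (nat_lit 1) (nat_lit 484) (nat_lit 1) (nat_lit 509) (nat_lit 1) (nat_lit 333) (nat_lit 416) (nat_lit 391)) (XT.lf (nat_lit 1216) (nat_lit 3635227462) (nat_lit 0) (nat_lit 1417329237) (nat_lit 1140) (nat_lit 1417329237) (nat_lit 485) (nat_lit 1) (nat_lit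 469) (nat_lit 1) (nat_lit 484) (nat_lit 1) (nat_lit 334) (nat_lit 416) (nat_lit 390))) (XT.nd (nat_lit 78) (nat_lit 912) (nat_lit 0) (XT.lf (nat_lit 76) (nat_lit 1526925893) (nat_lit 0) (nat_lit 3357704862) (nat_lit 1216) (nat_lit 1526925893) (nat_lit 470) (nat_lit 1) (nat_lit 469) (nat_lit 1) (nat_lit 485) (nat_lit 1) (nat_lit 335) (nat_lit 416) (nat_lit 389)) (XT.nd (nat_lit 78) (nat_lit 0) (nat_lit 0) (XT.lf (nat_lit 988) (nat_lit 2461785471) (nat_lit 0) (nat_lit 1946076231) (nat_lit 912) (nat_lit 1946076231) (nat_lit 470) (nat_lit 1) (nat_lit 457) (nat_lit 1) (nat_lit 469) (nat_lit 1) (nat_lit 336) (nat_lit 416) (nat_lit 388)) (XT.lf (nat_lit 76) (nat_lit 932512542) (nat_lit 0) (nat_lit 4432104240) (nat_lit 988) (nat_lit 932512542) (nat_lit 458) (nat_lit 1) (nat_lit 457) (nat_lit 1) (nat_lit 470) (nat_lit 1) (nat_lit 337) (nat_lit 416) (nat_lit 387)))))) (XT.nd (nat_lit 390) (nat_lit 2432) (nat_lit 0) (XT.nd (nat_lit 156) (nat_lit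 1824) (nat_lit 0) (XT.nd (nat_lit 78) (nat_lit 0) (nat_lit 0) (XT.lf (nat_lit 988) (nat_lit 1250807301) (nat_lit 0) (nat_lit 2495027786) (nat_lit 912) (nat_lit 2495027786) (nat_lit 458) (nat_lit 1) (nat_lit 445) (nat_lit 1) (nat_lit 457) (nat_lit 1) (nat_lit 338) (nat_lit 416) (nat_lit 386)) (XT.lf (nat_lit 76) (nat_lit 320174755) (nat_lit 0) (nat_lit 5545187754) (nat_lit 988) (nat_lit 320174755) (nat_lit 446) (nat_lit 1) (nat_lit 445) (nat_lit 1) (nat_lit 458) (nat_lit 1) (nat_lit 339) (nat_lit 416) (nat_lit 385))) (XT.nd (nat_lit 78) (nat_lit 988) (nat_lit 0) (XT.lf (nat_lit 912) (nat_lit 5379984) (nat_lit 0) (nat_lit 3062600582) (nat_lit 836) (nat_lit 3062600582) (nat_lit 446) (nat_lit 1) (nat_lit 434) (nat_lit 1) (nat_lit 445) (nat_lit 1) (nat_lit 340) (nat_lit 416) (nat_lit 384)) (XT.nd (nat_lit 78) (nat_lit 0) (nat_lit 0) (XT.lf (nat_lit 988) (nat_lit 5463426655) (nat_lit 0) (nat_lit 306557214) (nat_lit 912) (nat_lit 306557214)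 (nat_lit 434) (nat_lit 1) (nat_lit 421) (nat_lit 1) (nat_lit 433) (nat_lit 1) (nat_lit 341) (nat_lit 416) (nat_lit 383)) (XT.lf (nat_lit 76) (nat_lit 2383982992) (nat_lit 0) (nat_lit 1254884514) (nat_lit 988) (nat_lit 2383982992) (nat_lit 422) (nat_lit 1) (nat_lit 421) (nat_lit 1) (nat_lit 434) (nat_lit 1) (nat_lit 342) (nat_lit 416) (nat_lit 382))))) (XT.nd (nat_lit 156) (nat_lit 1596) (nat_lit 0) (XT.nd (nat_lit 78) (nat_lit 0) (nat_lit 0) (XT.lf (nat_lit 912) (nat_lit 4077885977) (nat_lit 0) (nat_lit 946082406) (nat_lit 836) (nat_lit 946082406) (nat_lit 422) (nat_lit 1) (nat_lit 410) (nat_lit 1) (nat_lit 421) (nat_lit 1) (nat_lit 343) (nat_lit 416) (nat_lit 381)) (XT.lf (nat_lit 76) (nat_lit 1687165542) (nat_lit 0) (nat_lit 2543425759) (nat_lit 912) (nat_lit 1687165542) (nat_lit 411) (nat_lit 1) (nat_lit 410) (nat_lit 1) (nat_lit 422) (nat_lit 1) (nat_lit 344) (nat_lit 416) (nat_lit 380))) (XT.nd (nat_lit 78) (nat_lit 760) (nat_lit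 0) (XT.lf (nat_lit 912) (nat_lit 2667838320) (nat_lit 0) (nat_lit 1599160924) (nat_lit 836) (nat_lit 1599160924) (nat_lit 411) (nat_lit 1) (nat_lit 399) (nat_lit 1) (nat_lit 410) (nat_lit 1) (nat_lit 345) (nat_lit 416) (nat_lit 379)) (XT.nd (nat_lit 78) (nat_lit 760) (nat_lit 0) (XT.lf (nat_lit 76) (nat_lit 978765276) (nat_lit 0) (nat_lit 3857698215) (nat_lit 912) (nat_lit 978765276) (nat_lit 400) (nat_lit 1) (nat_lit 399) (nat_lit 1) (nat_lit 411) (nat_lit 1) (nat_lit 346) (nat_lit 416) (nat_lit 378)) (XT.lf (nat_lit 836) (nat_lit 1235770795) (nat_lit 0) (nat_lit 2264513793) (nat_lit 760) (nat_lit 2264513793) (nat_lit 400) (nat_lit 1) (nat_lit 389) (nat_lit 1) (nat_lit 399) (nat_lit 1) (nat_lit 347) (nat_lit 416) (nat_lit 377))))))))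
noncomputable def ec132 : XT := (XT.nd (nat_lit 1404) (nat_lit 6004) (nat_lit 0) (XT.nd (nat_lit 702) (nat_lit 3268) (nat_lit 0) (XT.nd (nat_lit 312) (nat_lit 2204) (nat_lit 0) (XT.nd (nat_lit 156) (nat_lit 760) (nat_lit 0) (XT.nd (nat_lit 78) (nat_lit 836) (nat_lit 0) (XT.lf (nat_lit 76) (nat_lit 259989638) (nat_lit 0) (nat_lit 5195217081) (nat_lit 836) (nat_lit 259989638) (nat_lit 390) (nat_lit 1) (nat_lit 389) (nat_lit 1) (nat_lit 400) (nat_lit 1) (nat_lit 348) (nat_lit 416) (nat_lit 376)) (XT.lf (nat_lit 76) (nat_lit 2726372416) (nat_lit 0) (nat_lit 213123869) (nat_lit 836) (nat_lit 2726372416) (nat_lit 379) (nat_lit 1) (nat_lit 378) (nat_lit 1) (nat_lit 389) (nat_lit 1) (nat_lit 349) (nat_lit 416) (nat_lit 375))) (XT.nd (nat_lit 78) (nat_lit 0) (nat_lit 0) (XT.lf (nat_lit 836) (nat_lit 4687474681) (nat_lit 0) (nat_lit 464936621) (nat_lit 760) (nat_lit 464936621) (nat_lit 379) (nat_lit 1) (nat_lit 368) (nat_lit 1) (nat_lit 378) (nat_lit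 1) (nat_lit 350) (nat_lit 416) (nat_lit 374)) (XT.lf (nat_lit 76) (nat_lit 1953083474) (nat_lit 0) (nat_lit 1663002901) (nat_lit 836) (nat_lit 1953083474) (nat_lit 369) (nat_lit 1) (nat_lit 368) (nat_lit 1) (nat_lit 379) (nat_lit 1) (nat_lit 351) (nat_lit 416) (nat_lit 373)))) (XT.nd (nat_lit 156) (nat_lit 1444) (nat_lit 0) (XT.nd (nat_lit 78) (nat_lit 0) (nat_lit 0) (XT.lf (nat_lit 836) (nat_lit 3129238167) (nat_lit 0) (nat_lit 1196241875) (nat_lit 760) (nat_lit 1196241875) (nat_lit 369) (nat_lit 1) (nat_lit 358) (nat_lit 1) (nat_lit 368) (nat_lit 1) (nat_lit 352) (nat_lit 416) (nat_lit 372)) (XT.lf (nat_lit 76) (nat_lit 1173409925) (nat_lit 0) (nat_lit 3127978145) (nat_lit 836) (nat_lit 1173409925) (nat_lit 359) (nat_lit 1) (nat_lit 358) (nat_lit 1) (nat_lit 369) (nat_lit 1) (nat_lit 353) (nat_lit 416) (nat_lit 371))) (XT.nd (nat_lit 78) (nat_lit 760) (nat_lit 0) (XT.lf (nat_lit 760) (nat_lit 1559164268) (nat_lit 0) (nat_lit 1934613189)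 (nat_lit 684) (nat_lit 1934613189) (nat_lit 359) (nat_lit 1) (nat_lit 349) (nat_lit 1) (nat_lit 358) (nat_lit 1) (nat_lit 354) (nat_lit 416) (nat_lit 370)) (XT.nd (nat_lit 78) (nat_lit 760) (nat_lit 0) (XT.lf (nat_lit 76) (nat_lit 388313660) (nat_lit 0) (nat_lit 4606063461) (nat_lit 760) (nat_lit 388313660) (nat_lit 350) (nat_lit 1) (nat_lit 349) (nat_lit 1) (nat_lit 359) (nat_lit 1) (nat_lit 355) (nat_lit 416) (nat_lit 369)) (XT.lf (nat_lit 76) (nat_lit 2658347494) (nat_lit 0) (nat_lit 20595116) (nat_lit 760) (nat_lit 2658347494) (nat_lit 340) (nat_lit 1) (nat_lit 339) (nat_lit 1) (nat_lit 349) (nat_lit 1) (nat_lit 356) (nat_lit 416) (nat_lit 368)))))) (XT.nd (nat_lit 312) (nat_lit 1900) (nat_lit 0) (XT.nd (nat_lit 156) (nat_lit 684) (nat_lit 0) (XT.nd (nat_lit 78) (nat_lit 0) (nat_lit 0) (XT.lf (nat_lit 760) (nat_lit 4495269205) (nat_lit 0) (nat_lit 398654685) (nat_lit 684) (nat_lit 398654685) (nat_lit 340) (nat_lit 1) (nat_lit 330)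 (nat_lit 1) (nat_lit 339) (nat_lit 1) (nat_lit 357) (nat_lit 416) (nat_lit 367)) (XT.lf (nat_lit 76) (nat_lit 1830089907) (nat_lit 0) (nat_lit 1587980205) (nat_lit 760) (nat_lit 1830089907) (nat_lit 331) (nat_lit 1) (nat_lit 330) (nat_lit 1) (nat_lit 340) (nat_lit 1) (nat_lit 358) (nat_lit 416) (nat_lit 366))) (XT.nd (nat_lit 78) (nat_lit 0) (nat_lit 0) (XT.lf (nat_lit 760) (nat_lit 2831017488) (nat_lit 0) (nat_lit 1186695039) (nat_lit 684) (nat_lit 1186695039) (nat_lit 331) (nat_lit 1) (nat_lit 321) (nat_lit 1) (nat_lit 330) (nat_lit 1) (nat_lit 359) (nat_lit 416) (nat_lit 365)) (XT.lf (nat_lit 76) (nat_lit 999682393) (nat_lit 0) (nat_lit 3161780603) (nat_lit 760) (nat_lit 999682393) (nat_lit 322) (nat_lit 1) (nat_lit 321) (nat_lit 1) (nat_lit 331) (nat_lit 1) (nat_lit 360) (nat_lit 416) (nat_lit 364)))) (XT.nd (nat_lit 156) (nat_lit 1292) (nat_lit 0) (XT.nd (nat_lit 78) (nat_lit 0) (nat_lit 0) (XT.lf (nat_lit 684) (nat_lit 1163217812)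 (nat_lit 0) (nat_lit 1977552905) (nat_lit 608) (nat_lit 1977552905) (nat_lit 322) (nat_lit 1) (nat_lit 313) (nat_lit 1) (nat_lit 321) (nat_lit 1) (nat_lit 361) (nat_lit 416) (nat_lit 363)) (XT.lf (nat_lit 76) (nat_lit 167881223) (nat_lit 0) (nat_lit 4740428005) (nat_lit 684) (nat_lit 167881223) (nat_lit 314) (nat_lit 1) (nat_lit 313) (nat_lit 1) (nat_lit 322) (nat_lit 1) (nat_lit 362) (nat_lit 416) (nat_lit 362))) (XT.nd (nat_lit 78) (nat_lit 608) (nat_lit 0) (XT.lf (nat_lit 76) (nat_lit 2267097833) (nat_lit 0) (nat_lit 500010453) (nat_lit 684) (nat_lit 2267097833) (nat_lit 305) (nat_lit 1) (nat_lit 304) (nat_lit 1) (nat_lit 313) (nat_lit 1) (nat_lit 363) (nat_lit 416) (nat_lit 361)) (XT.nd (nat_lit 78) (nat_lit 0) (nat_lit 0) (XT.lf (nat_lit 684) (nat_lit 3672439690) (nat_lit 0) (nat_lit 660227520) (nat_lit 608) (nat_lit 660227520) (nat_lit 305) (nat_lit 1) (nat_lit 296) (nat_lit 1) (nat_lit 304) (nat_lit 1) (nat_lit 364) (nat_lit 416)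 (nat_lit 360)) (XT.lf (nat_lit 76) (nat_lit 1401630049) (nat_lit 0) (nat_lit 2148656394) (nat_lit 684) (nat_lit 1401630049) (nat_lit 297) (nat_lit 1) (nat_lit 296) (nat_lit 1) (nat_lit 305) (nat_lit 1) (nat_lit 365) (nat_lit 416) (nat_lit 359))))))) (XT.nd (nat_lit 702) (nat_lit 2508) (nat_lit 0) (XT.nd (nat_lit 312) (nat_lit 1672) (nat_lit 0) (XT.nd (nat_lit 156) (nat_lit 1216) (nat_lit 0) (XT.nd (nat_lit 78) (nat_lit 0) (nat_lit 0) (XT.lf (nat_lit 684) (nat_lit 1936987346) (nat_lit 0) (nat_lit 1487238614) (nat_lit 608) (nat_lit 1487238614) (nat_lit 297) (nat_lit 1) (nat_lit 288) (nat_lit 1) (nat_lit 296) (nat_lit 1) (nat_lit 366) (nat_lit 416) (nat_lit 358)) (XT.lf (nat_lit 76) (nat_lit 537436301) (nat_lit 0) (nat_lit 3796681704) (nat_lit 684) (nat_lit 537436301) (nat_lit 289) (nat_lit 1) (nat_lit 288) (nat_lit 1) (nat_lit 297) (nat_lit 1) (nat_lit 367) (nat_lit 416) (nat_lit 357))) (XT.nd (nat_lit 78) (nat_lit 684) (nat_lit 0) (XT.lf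 (nat_lit 608) (nat_lit 204683902) (nat_lit 0) (nat_lit 2313626462) (nat_lit 532) (nat_lit 2313626462) (nat_lit 289) (nat_lit 1) (nat_lit 281) (nat_lit 1) (nat_lit 288) (nat_lit 1) (nat_lit 368) (nat_lit 416) (nat_lit 356)) (XT.lf (nat_lit 684) (nat_lit 4147377444) (nat_lit 0) (nat_lit 322761406) (nat_lit 608) (nat_lit 322761406) (nat_lit 281) (nat_lit 1) (nat_lit 272) (nat_lit 1) (nat_lit 280) (nat_lit 1) (nat_lit 369) (nat_lit 416) (nat_lit 355)))) (XT.nd (nat_lit 156) (nat_lit 1140) (nat_lit 0) (XT.nd (nat_lit 78) (nat_lit 532) (nat_lit 0) (XT.lf (nat_lit 76) (nat_lit 1625354999) (nat_lit 0) (nat_lit 1503354503) (nat_lit 684) (nat_lit 1625354999) (nat_lit 273) (nat_lit 1) (nat_lit 272) (nat_lit 1) (nat_lit 281) (nat_lit 1) (nat_lit 370) (nat_lit 416) (nat_lit 354)) (XT.lf (nat_lit 608) (nat_lit 2361733777) (nat_lit 0) (nat_lit 1177031261) (nat_lit 532) (nat_lit 1177031261) (nat_lit 273) (nat_lit 1) (nat_lit 265) (nat_lit 1) (nat_lit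 272) (nat_lit 1) (nat_lit 371) (nat_lit 416) (nat_lit 353))) (XT.nd (nat_lit 78) (nat_lit 1140) (nat_lit 0) (XT.lf (nat_lit 76) (nat_lit 737273920) (nat_lit 0) (nat_lit 3203423936) (nat_lit 608) (nat_lit 737273920) (nat_lit 266) (nat_lit 1) (nat_lit 265) (nat_lit 1) (nat_lit 273) (nat_lit 1) (nat_lit 372) (nat_lit 416) (nat_lit 352)) (XT.nd (nat_lit 78) (nat_lit 608) (nat_lit 0) (XT.lf (nat_lit 608) (nat_lit 583682551) (nat_lit 0) (nat_lit 2028396561) (nat_lit 532) (nat_lit 2028396561) (nat_lit 266) (nat_lit 1) (nat_lit 258) (nat_lit 1) (nat_lit 265) (nat_lit 1) (nat_lit 373) (nat_lit 416) (nat_lit 351)) (XT.lf (nat_lit 608) (nat_lit 4311913703) (nat_lit 0) (nat_lit 145824395) (nat_lit 532) (nat_lit 145824395) (nat_lit 258) (nat_lit 1) (nat_lit 250) (nat_lit 1) (nat_lit 257) (nat_lit 1) (nat_lit 374) (nat_lit 416) (nat_lit 350)))))) (XT.nd (nat_lit 312) (nat_lit 1520) (nat_lit 0) (XT.nd (nat_lit 156) (nat_lit 456) (nat_lit 0) (XT.nd (nat_lit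 78) (nat_lit 532) (nat_lit 0) (XT.lf (nat_lit 76) (nat_lit 1698215652) (nat_lit 0) (nat_lit 1170307575) (nat_lit 608) (nat_lit 1698215652) (nat_lit 251) (nat_lit 1) (nat_lit 250) (nat_lit 1) (nat_lit 258) (nat_lit 1) (nat_lit 375) (nat_lit 416) (nat_lit 349)) (XT.lf (nat_lit 608) (nat_lit 2491200147) (nat_lit 0) (nat_lit 1019643090) (nat_lit 532) (nat_lit 1019643090) (nat_lit 251) (nat_lit 1) (nat_lit 243) (nat_lit 1) (nat_lit 250) (nat_lit 1) (nat_lit 376) (nat_lit 416) (nat_lit 348))) (XT.nd (nat_lit 78) (nat_lit 456) (nat_lit 0) (XT.lf (nat_lit 76) (nat_lit 793610303) (nat_lit 0) (nat_lit 2907400512) (nat_lit 608) (nat_lit 793610303) (nat_lit 244) (nat_lit 1) (nat_lit 243) (nat_lit 1) (nat_lit 251) (nat_lit 1) (nat_lit 377) (nat_lit 416) (nat_lit 347)) (XT.lf (nat_lit 532) (nat_lit 681838521) (nat_lit 0) (nat_lit 1888622789) (nat_lit 456) (nat_lit 1888622789) (nat_lit 244) (nat_lit 1) (nat_lit 237) (nat_lit 1) (nat_lit 243) (nat_lit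 1) (nat_lit 378) (nat_lit 416) (nat_lit 346)))) (XT.nd (nat_lit 156) (nat_lit 912) (nat_lit 0) (XT.nd (nat_lit 78) (nat_lit 0) (nat_lit 0) (XT.lf (nat_lit 608) (nat_lit 4215177678) (nat_lit 0) (nat_lit 104461433) (nat_lit 532) (nat_lit 104461433) (nat_lit 237) (nat_lit 1) (nat_lit 229) (nat_lit 1) (nat_lit 236) (nat_lit 1) (nat_lit 379) (nat_lit 416) (nat_lit 345)) (XT.lf (nat_lit 76) (nat_lit 1644174900) (nat_lit 0) (nat_lit 1100818980) (nat_lit 608) (nat_lit 1644174900) (nat_lit 230) (nat_lit 1) (nat_lit 229) (nat_lit 1) (nat_lit 237) (nat_lit 1) (nat_lit 380) (nat_lit 416) (nat_lit 344))) (XT.nd (nat_lit 78) (nat_lit 456) (nat_lit 0) (XT.lf (nat_lit 532) (nat_lit 2372452791) (nat_lit 0) (nat_lit 991163580) (nat_lit 456) (nat_lit 991163580) (nat_lit 230) (nat_lit 1) (nat_lit 223) (nat_lit 1) (nat_lit 229) (nat_lit 1) (nat_lit 381) (nat_lit 416) (nat_lit 343)) (XT.nd (nat_lit 78) (nat_lit 456) (nat_lit 0) (XT.lf (nat_lit 76) (nat_lit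 729401468) (nat_lit 0) (nat_lit 2861954406) (nat_lit 532) (nat_lit 729401468) (nat_lit 224) (nat_lit 1) (nat_lit 223) (nat_lit 1) (nat_lit 230) (nat_lit 1) (nat_lit 382) (nat_lit 416) (nat_lit 342)) (XT.lf (nat_lit 532) (nat_lit 544239139) (nat_lit 0) (nat_lit 1871396757) (nat_lit 456) (nat_lit 1871396757) (nat_lit 224) (nat_lit 1) (nat_lit 217) (nat_lit 1) (nat_lit 223) (nat_lit 1) (nat_lit 383) (nat_lit 416) (nat_lit 341))))))))
noncomputable def ec133 : XT := (XT.nd (nat_lit 1404) (nat_lit 3876) (nat_lit 0) (XT.nd (nat_lit 702) (nat_lit 2280) (nat_lit 0) (XT.nd (nat_lit 312) (nat_lit 1292) (nat_lit 0) (XT.nd (nat_lit 156) (nat_lit 456) (nat_lit 0) (XT.nd (nat_lit 78) (nat_lit 0) (nat_lit 0) (XT.lf (nat_lit 532) (nat_lit 3900151612) (nat_lit 0) (nat_lit 176827093) (nat_lit 456) (nat_lit 176827093) (nat_lit 217) (nat_lit 1) (nat_lit 210) (nat_lit 1) (nat_lit 216) (nat_lit 1) (nat_lit 384) (nat_lit 416) (nat_lit 340)) (XT.lf (nat_lit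 76) (nat_lit 1484194210) (nat_lit 0) (nat_lit 1252266295) (nat_lit 532) (nat_lit 1484194210) (nat_lit 211) (nat_lit 1) (nat_lit 210) (nat_lit 1) (nat_lit 217) (nat_lit 1) (nat_lit 385) (nat_lit 416) (nat_lit 339))) (XT.nd (nat_lit 78) (nat_lit 0) (nat_lit 0) (XT.lf (nat_lit 532) (nat_lit 2046656503) (nat_lit 0) (nat_lit 1070667805) (nat_lit 456) (nat_lit 1070667805) (nat_lit 211) (nat_lit 1) (nat_lit 204) (nat_lit 1) (nat_lit 210) (nat_lit 1) (nat_lit 386) (nat_lit 416) (nat_lit 338)) (XT.lf (nat_lit 76) (nat_lit 564721871) (nat_lit 0) (nat_lit 3026260448) (nat_lit 532) (nat_lit 564721871) (nat_lit 205) (nat_lit 1) (nat_lit 204) (nat_lit 1) (nat_lit 211) (nat_lit 1) (nat_lit 387) (nat_lit 416) (nat_lit 337)))) (XT.nd (nat_lit 156) (nat_lit 380) (nat_lit 0) (XT.nd (nat_lit 78) (nat_lit 532) (nat_lit 0) (XT.lf (nat_lit 456) (nat_lit 210305938) (nat_lit 0) (nat_lit 1956676520) (nat_lit 380) (nat_lit 1956676520) (nat_lit 205) (nat_lit 1)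 (nat_lit 199) (nat_lit 1) (nat_lit 204) (nat_lit 1) (nat_lit 388) (nat_lit 416) (nat_lit 336)) (XT.lf (nat_lit 532) (nat_lit 3404386075) (nat_lit 0) (nat_lit 343824173) (nat_lit 456) (nat_lit 343824173) (nat_lit 199) (nat_lit 1) (nat_lit 192) (nat_lit 1) (nat_lit 198) (nat_lit 1) (nat_lit 389) (nat_lit 416) (nat_lit 335))) (XT.nd (nat_lit 78) (nat_lit 380) (nat_lit 0) (XT.lf (nat_lit 76) (nat_lit 1236583005) (nat_lit 0) (nat_lit 1587395102) (nat_lit 532) (nat_lit 1236583005) (nat_lit 193) (nat_lit 1) (nat_lit 192) (nat_lit 1) (nat_lit 199) (nat_lit 1) (nat_lit 390) (nat_lit 416) (nat_lit 334)) (XT.nd (nat_lit 78) (nat_lit 0) (nat_lit 0) (XT.lf (nat_lit 456) (nat_lit 1549761774) (nat_lit 0) (nat_lit 1239869189) (nat_lit 380) (nat_lit 1239869189) (nat_lit 193) (nat_lit 1) (nat_lit 187) (nat_lit 1) (nat_lit 192) (nat_lit 1) (nat_lit 391) (nat_lit 416) (nat_lit 333)) (XT.lf (nat_lit 76) (nat_lit 317100089) (nat_lit 0) (nat_lit 3364646811)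 (nat_lit 456) (nat_lit 317100089) (nat_lit 188) (nat_lit 1) (nat_lit 187) (nat_lit 1) (nat_lit 193) (nat_lit 1) (nat_lit 392) (nat_lit 416) (nat_lit 332)))))) (XT.nd (nat_lit 312) (nat_lit 1064) (nat_lit 0) (XT.nd (nat_lit 156) (nat_lit 380) (nat_lit 0) (XT.nd (nat_lit 78) (nat_lit 380) (nat_lit 0) (XT.lf (nat_lit 76) (nat_lit 1843261835) (nat_lit 0) (nat_lit 281800086) (nat_lit 456) (nat_lit 1843261835) (nat_lit 182) (nat_lit 1) (nat_lit 181) (nat_lit 1) (nat_lit 187) (nat_lit 1) (nat_lit 393) (nat_lit 416) (nat_lit 331)) (XT.lf (nat_lit 456) (nat_lit 2760634046) (nat_lit 0) (nat_lit 588783299) (nat_lit 380) (nat_lit 588783299) (nat_lit 182) (nat_lit 1) (nat_lit 176) (nat_lit 1) (nat_lit 181) (nat_lit 1) (nat_lit 394) (nat_lit 416) (nat_lit 330))) (XT.nd (nat_lit 78) (nat_lit 380) (nat_lit 0) (XT.lf (nat_lit 76) (nat_lit 917308388) (nat_lit 0) (nat_lit 2073692931) (nat_lit 456) (nat_lit 917308388) (nat_lit 177) (nat_lit 1) (nat_lit 176)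 (nat_lit 1) (nat_lit 182) (nat_lit 1) (nat_lit 395) (nat_lit 416) (nat_lit 329)) (XT.lf (nat_lit 456) (nat_lit 913113990) (nat_lit 0) (nat_lit 1482811685) (nat_lit 380) (nat_lit 1482811685) (nat_lit 177) (nat_lit 1) (nat_lit 171) (nat_lit 1) (nat_lit 176) (nat_lit 1) (nat_lit 396) (nat_lit 416) (nat_lit 328)))) (XT.nd (nat_lit 156) (nat_lit 684) (nat_lit 0) (XT.nd (nat_lit 78) (nat_lit 380) (nat_lit 0) (XT.lf (nat_lit 76) (nat_lit 1816387) (nat_lit 0) (nat_lit 3845993520) (nat_lit 456) (nat_lit 1816387) (nat_lit 172) (nat_lit 1) (nat_lit 171) (nat_lit 1) (nat_lit 177) (nat_lit 1) (nat_lit 397) (nat_lit 416) (nat_lit 327)) (XT.lf (nat_lit 76) (nat_lit 1459565786) (nat_lit 0) (nat_lit 901339734) (nat_lit 380) (nat_lit 1459565786) (nat_lit 167) (nat_lit 1) (nat_lit 166) (nat_lit 1) (nat_lit 171) (nat_lit 1) (nat_lit 398) (nat_lit 416) (nat_lit 326))) (XT.nd (nat_lit 78) (nat_lit 304) (nat_lit 0) (XT.lf (nat_lit 456) (nat_lit 1997412938)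 (nat_lit 0) (nat_lit 897178923) (nat_lit 380) (nat_lit 897178923) (nat_lit 167) (nat_lit 1) (nat_lit 161) (nat_lit 1) (nat_lit 166) (nat_lit 1) (nat_lit 399) (nat_lit 416) (nat_lit 325)) (XT.nd (nat_lit 78) (nat_lit 304) (nat_lit 0) (XT.lf (nat_lit 76) (nat_lit 540269658) (nat_lit 0) (nat_lit 2682834332) (nat_lit 456) (nat_lit 540269658) (nat_lit 162) (nat_lit 1) (nat_lit 161) (nat_lit 1) (nat_lit 167) (nat_lit 1) (nat_lit 400) (nat_lit 416) (nat_lit 324)) (XT.lf (nat_lit 380) (nat_lit 163993384) (nat_lit 0) (nat_lit 1785596925) (nat_lit 304) (nat_lit 1785596925) (nat_lit 162) (nat_lit 1) (nat_lit 157) (nat_lit 1) (nat_lit 161) (nat_lit 1) (nat_lit 401) (nat_lit 416) (nat_lit 323))))))) (XT.nd (nat_lit 702) (nat_lit 1748) (nat_lit 0) (XT.nd (nat_lit 312) (nat_lit 1368) (nat_lit 0) (XT.nd (nat_lit 156) (nat_lit 304) (nat_lit 0) (XT.nd (nat_lit 78) (nat_lit 0) (nat_lit 0) (XT.lf (nat_lit 456) (nat_lit 2976513311) (nat_lit 0) (nat_lit 365413596)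 (nat_lit 380) (nat_lit 365413596) (nat_lit 157) (nat_lit 1) (nat_lit 151) (nat_lit 1) (nat_lit 156) (nat_lit 1) (nat_lit 402) (nat_lit 416) (nat_lit 322)) (XT.lf (nat_lit 76) (nat_lit 1027156630) (nat_lit 0) (nat_lit 1625319137) (nat_lit 456) (nat_lit 1027156630) (nat_lit 152) (nat_lit 1) (nat_lit 151) (nat_lit 1) (nat_lit 157) (nat_lit 1) (nat_lit 403) (nat_lit 416) (nat_lit 321))) (XT.nd (nat_lit 78) (nat_lit 0) (nat_lit 0) (XT.lf (nat_lit 380) (nat_lit 1139502676) (nat_lit 0) (nat_lit 1256377624) (nat_lit 304) (nat_lit 1256377624) (nat_lit 152) (nat_lit 1) (nat_lit 147) (nat_lit 1) (nat_lit 151) (nat_lit 1) (nat_lit 404) (nat_lit 416) (nat_lit 320)) (XT.lf (nat_lit 76) (nat_lit 117541589) (nat_lit 0) (nat_lit 3390189060) (nat_lit 380) (nat_lit 117541589) (nat_lit 148) (nat_lit 1) (nat_lit 147) (nat_lit 1) (nat_lit 152) (nat_lit 1) (nat_lit 405) (nat_lit 416) (nat_lit 319)))) (XT.nd (nat_lit 156) (nat_lit 684) (nat_lit 0) (XT.nd (nat_lit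 78) (nat_lit 304) (nat_lit 0) (XT.lf (nat_lit 76) (nat_lit 1466611384) (nat_lit 0) (nat_lit 665068074) (nat_lit 380) (nat_lit 1466611384) (nat_lit 143) (nat_lit 1) (nat_lit 142) (nat_lit 1) (nat_lit 147) (nat_lit 1) (nat_lit 406) (nat_lit 416) (nat_lit 318)) (XT.lf (nat_lit 380) (nat_lit 2021349961) (nat_lit 0) (nat_lit 775171341) (nat_lit 304) (nat_lit 775171341) (nat_lit 143) (nat_lit 1) (nat_lit 138) (nat_lit 1) (nat_lit 142) (nat_lit 1) (nat_lit 407) (nat_lit 416) (nat_lit 317))) (XT.nd (nat_lit 78) (nat_lit 684) (nat_lit 0) (XT.lf (nat_lit 76) (nat_lit 556985294) (nat_lit 0) (nat_lit 2431382910) (nat_lit 380) (nat_lit 556985294) (nat_lit 139) (nat_lit 1) (nat_lit 138) (nat_lit 1) (nat_lit 143) (nat_lit 1) (nat_lit 408) (nat_lit 416) (nat_lit 316)) (XT.nd (nat_lit 78) (nat_lit 380) (nat_lit 0) (XT.lf (nat_lit 380) (nat_lit 208387029) (nat_lit 0) (nat_lit 1655415067) (nat_lit 304) (nat_lit 1655415067) (nat_lit 139) (nat_lit 1) (nat_lit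 134) (nat_lit 1) (nat_lit 138) (nat_lit 1) (nat_lit 409) (nat_lit 416) (nat_lit 315)) (XT.lf (nat_lit 380) (nat_lit 2817047882) (nat_lit 0) (nat_lit 338170478) (nat_lit 304) (nat_lit 338170478) (nat_lit 134) (nat_lit 1) (nat_lit 129) (nat_lit 1) (nat_lit 133) (nat_lit 1) (nat_lit 410) (nat_lit 416) (nat_lit 314)))))) (XT.nd (nat_lit 390) (nat_lit 836) (nat_lit 0) (XT.nd (nat_lit 156) (nat_lit 608) (nat_lit 0) (XT.nd (nat_lit 78) (nat_lit 304) (nat_lit 0) (XT.lf (nat_lit 76) (nat_lit 954171292) (nat_lit 0) (nat_lit 1559332034) (nat_lit 380) (nat_lit 954171292) (nat_lit 130) (nat_lit 1) (nat_lit 129) (nat_lit 1) (nat_lit 134) (nat_lit 1) (nat_lit 411) (nat_lit 416) (nat_lit 313)) (XT.lf (nat_lit 380) (nat_lit 1007196275) (nat_lit 0) (nat_lit 1217533586) (nat_lit 304) (nat_lit 1217533586) (nat_lit 130) (nat_lit 1) (nat_lit 125) (nat_lit 1) (nat_lit 129) (nat_lit 1) (nat_lit 412) (nat_lit 416) (nat_lit 312))) (XT.nd (nat_lit 78) (nat_lit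 608) (nat_lit 0) (XT.lf (nat_lit 76) (nat_lit 58524663) (nat_lit 0) (nat_lit 3300170420) (nat_lit 380) (nat_lit 58524663) (nat_lit 126) (nat_lit 1) (nat_lit 125) (nat_lit 1) (nat_lit 130) (nat_lit 1) (nat_lit 413) (nat_lit 416) (nat_lit 311)) (XT.nd (nat_lit 78) (nat_lit 304) (nat_lit 0) (XT.lf (nat_lit 76) (nat_lit 1312490093) (nat_lit 0) (nat_lit 767160251) (nat_lit 304) (nat_lit 1312490093) (nat_lit 122) (nat_lit 1) (nat_lit 121) (nat_lit 1) (nat_lit 125) (nat_lit 1) (nat_lit 414) (nat_lit 416) (nat_lit 310)) (XT.lf (nat_lit 380) (nat_lit 1729198447) (nat_lit 0) (nat_lit 819112784) (nat_lit 304) (nat_lit 819112784) (nat_lit 122) (nat_lit 1) (nat_lit 117) (nat_lit 1) (nat_lit 121) (nat_lit 1) (nat_lit 415) (nat_lit 416) (nat_lit 309))))) (XT.nd (nat_lit 156) (nat_lit 532) (nat_lit 0) (XT.nd (nat_lit 78) (nat_lit 304) (nat_lit 0) (XT.lf (nat_lit 76) (nat_lit 419764704) (nat_lit 0) (nat_lit 2503438277) (nat_lit 380) (nat_lit 419764704)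 (nat_lit 118) (nat_lit 1) (nat_lit 117) (nat_lit 1) (nat_lit 122) (nat_lit 1) (nat_lit 416) (nat_lit 416) (nat_lit 308)) (XT.lf (nat_lit 76) (nat_lit 1635070626) (nat_lit 0) (nat_lit 48520316) (nat_lit 304) (nat_lit 1635070626) (nat_lit 114) (nat_lit 1) (nat_lit 113) (nat_lit 1) (nat_lit 117) (nat_lit 1) (nat_lit 417) (nat_lit 416) (nat_lit 307))) (XT.nd (nat_lit 78) (nat_lit 228) (nat_lit 0) (XT.lf (nat_lit 380) (nat_lit 2380555973) (nat_lit 0) (nat_lit 457027667) (nat_lit 304) (nat_lit 457027667) (nat_lit 114) (nat_lit 1) (nat_lit 109) (nat_lit 1) (nat_lit 113) (nat_lit 1) (nat_lit 418) (nat_lit 416) (nat_lit 306)) (XT.nd (nat_lit 78) (nat_lit 228) (nat_lit 0) (XT.lf (nat_lit 76) (nat_lit 746324136) (nat_lit 0) (nat_lit 1778075226) (nat_lit 380) (nat_lit 746324136) (nat_lit 110) (nat_lit 1) (nat_lit 109) (nat_lit 1) (nat_lit 114) (nat_lit 1) (nat_lit 419) (nat_lit 416) (nat_lit 305)) (XT.lf (nat_lit 304) (nat_lit 610452662) (nat_lit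 0) (nat_lit 1318311022) (nat_lit 228) (nat_lit 1318311022) (nat_lit 110) (nat_lit 1) (nat_lit 106) (nat_lit 1) (nat_lit 109) (nat_lit 1) (nat_lit 420) (nat_lit 416) (nat_lit 304))))))))
noncomputable def ec134 : XT := (XT.nd (nat_lit 50388) (nat_lit 0) (nat_lit 32604) (XT.nd (nat_lit 702) (nat_lit 1216) (nat_lit 0) (XT.nd (nat_lit 312) (nat_lit 1064) (nat_lit 0) (XT.nd (nat_lit 156) (nat_lit 228) (nat_lit 0) (XT.nd (nat_lit 78) (nat_lit 0) (nat_lit 0) (XT.lf (nat_lit 380) (nat_lit 2966955843) (nat_lit 0) (nat_lit 128393574) (nat_lit 304) (nat_lit 128393574) (nat_lit 106) (nat_lit 1) (nat_lit 101) (nat_lit 1) (nat_lit 105) (nat_lit 1) (nat_lit 421) (nat_lit 416) (nat_lit 303)) (XT.lf (nat_lit 76) (nat_lit 1040984642) (nat_lit 0) (nat_lit 1118436493) (nat_lit 380) (nat_lit 1040984642) (nat_lit 102) (nat_lit 1) (nat_lit 101) (nat_lit 1) (nat_lit 106) (nat_lit 1) (nat_lit 422) (nat_lit 416) (nat_lit 302))) (XT.nd (nat_lit 78) (nat_lit 0)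 (nat_lit 0) (XT.lf (nat_lit 304) (nat_lit 1206977271) (nat_lit 0) (nat_lit 985202304) (nat_lit 228) (nat_lit 985202304) (nat_lit 102) (nat_lit 1) (nat_lit 98) (nat_lit 1) (nat_lit 101) (nat_lit 1) (nat_lit 423) (nat_lit 416) (nat_lit 301)) (XT.lf (nat_lit 76) (nat_lit 170574368) (nat_lit 0) (nat_lit 2813503964) (nat_lit 304) (nat_lit 170574368) (nat_lit 99) (nat_lit 1) (nat_lit 98) (nat_lit 1) (nat_lit 102) (nat_lit 1) (nat_lit 424) (nat_lit 416) (nat_lit 300)))) (XT.nd (nat_lit 156) (nat_lit 532) (nat_lit 0) (XT.nd (nat_lit 78) (nat_lit 228) (nat_lit 0) (XT.lf (nat_lit 76) (nat_lit 1306313316) (nat_lit 0) (nat_lit 519311289) (nat_lit 304) (nat_lit 1306313316) (nat_lit 95) (nat_lit 1) (nat_lit 94) (nat_lit 1) (nat_lit 98) (nat_lit 1) (nat_lit 425) (nat_lit 416) (nat_lit 299)) (XT.lf (nat_lit 304) (nat_lit 1745465697) (nat_lit 0) (nat_lit 682024344) (nat_lit 228) (nat_lit 682024344) (nat_lit 95) (nat_lit 1) (nat_lit 91) (nat_lit 1) (nat_lit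 94) (nat_lit 1) (nat_lit 426) (nat_lit 416) (nat_lit 298))) (XT.nd (nat_lit 78) (nat_lit 532) (nat_lit 0) (XT.lf (nat_lit 76) (nat_lit 441874271) (nat_lit 0) (nat_lit 2203555332) (nat_lit 304) (nat_lit 441874271) (nat_lit 92) (nat_lit 1) (nat_lit 91) (nat_lit 1) (nat_lit 95) (nat_lit 1) (nat_lit 427) (nat_lit 416) (nat_lit 297)) (XT.nd (nat_lit 78) (nat_lit 304) (nat_lit 0) (XT.lf (nat_lit 304) (nat_lit 24430729) (nat_lit 0) (nat_lit 1520406939) (nat_lit 228) (nat_lit 1520406939) (nat_lit 92) (nat_lit 1) (nat_lit 88) (nat_lit 1) (nat_lit 91) (nat_lit 1) (nat_lit 428) (nat_lit 416) (nat_lit 296)) (XT.lf (nat_lit 304) (nat_lit 2230584879) (nat_lit 0) (nat_lit 406408308) (nat_lit 228) (nat_lit 406408308) (nat_lit 88) (nat_lit 1) (nat_lit 84) (nat_lit 1) (nat_lit 87) (nat_lit 1) (nat_lit 429) (nat_lit 416) (nat_lit 295)))))) (XT.nd (nat_lit 312) (nat_lit 684) (nat_lit 0) (XT.nd (nat_lit 156) (nat_lit 304) (nat_lit 0) (XT.nd (nat_lit 78) (nat_lit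 228) (nat_lit 0) (XT.lf (nat_lit 76) (nat_lit 686939134) (nat_lit 0) (nat_lit 1647815655) (nat_lit 304) (nat_lit 686939134) (nat_lit 85) (nat_lit 1) (nat_lit 84) (nat_lit 1) (nat_lit 88) (nat_lit 1) (nat_lit 430) (nat_lit 416) (nat_lit 294)) (XT.lf (nat_lit 304) (nat_lit 523128934) (nat_lit 0) (nat_lit 1238535244) (nat_lit 228) (nat_lit 1238535244) (nat_lit 85) (nat_lit 1) (nat_lit 81) (nat_lit 1) (nat_lit 84) (nat_lit 1) (nat_lit 431) (nat_lit 416) (nat_lit 293))) (XT.nd (nat_lit 78) (nat_lit 0) (nat_lit 0) (XT.lf (nat_lit 304) (nat_lit 2666641499) (nat_lit 0) (nat_lit 156167513) (nat_lit 228) (nat_lit 156167513) (nat_lit 81) (nat_lit 1) (nat_lit 77) (nat_lit 1) (nat_lit 80) (nat_lit 1) (nat_lit 432) (nat_lit 416) (nat_lit 292)) (XT.lf (nat_lit 76) (nat_lit 907876175) (nat_lit 0) (nat_lit 1142004544) (nat_lit 304) (nat_lit 907876175) (nat_lit 78) (nat_lit 1) (nat_lit 77) (nat_lit 1) (nat_lit 81) (nat_lit 1) (nat_lit 433) (nat_lit 416)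 (nat_lit 291)))) (XT.nd (nat_lit 156) (nat_lit 456) (nat_lit 0) (XT.nd (nat_lit 78) (nat_lit 0) (nat_lit 0) (XT.lf (nat_lit 304) (nat_lit 974034113) (nat_lit 0) (nat_lit 981385951) (nat_lit 228) (nat_lit 981385951) (nat_lit 78) (nat_lit 1) (nat_lit 74) (nat_lit 1) (nat_lit 77) (nat_lit 1) (nat_lit 434) (nat_lit 416) (nat_lit 290)) (XT.lf (nat_lit 76) (nat_lit 71184799) (nat_lit 0) (nat_lit 2773769860) (nat_lit 304) (nat_lit 71184799) (nat_lit 75) (nat_lit 1) (nat_lit 74) (nat_lit 1) (nat_lit 78) (nat_lit 1) (nat_lit 435) (nat_lit 416) (nat_lit 289))) (XT.nd (nat_lit 78) (nat_lit 228) (nat_lit 0) (XT.lf (nat_lit 76) (nat_lit 1106629994) (nat_lit 0) (nat_lit 682170566) (nat_lit 228) (nat_lit 1106629994) (nat_lit 72) (nat_lit 1) (nat_lit 71) (nat_lit 1) (nat_lit 74) (nat_lit 1) (nat_lit 436) (nat_lit 416) (nat_lit 288)) (XT.nd (nat_lit 78) (nat_lit 0) (nat_lit 0) (XT.lf (nat_lit 304) (nat_lit 1380978372) (nat_lit 0) (nat_lit 747012482) (nat_lit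 228) (nat_lit 747012482) (nat_lit 72) (nat_lit 1) (nat_lit 68) (nat_lit 1) (nat_lit 71) (nat_lit 1) (nat_lit 437) (nat_lit 416) (nat_lit 287)) (XT.lf (nat_lit 76) (nat_lit 277935225) (nat_lit 0) (nat_lit 2298926878) (nat_lit 304) (nat_lit 277935225) (nat_lit 69) (nat_lit 1) (nat_lit 68) (nat_lit 1) (nat_lit 72) (nat_lit 1) (nat_lit 438) (nat_lit 416) (nat_lit 286))))))) (XT.nd (nat_lit 702) (nat_lit 0) (nat_lit 304) (XT.nd (nat_lit 312) (nat_lit 0) (nat_lit 152) (XT.nd (nat_lit 156) (nat_lit 0) (nat_lit 76) (XT.nd (nat_lit 78) (nat_lit 0) (nat_lit 0) (XT.lf (nat_lit 1900) (nat_lit 1403433085) (nat_lit 0) (nat_lit 1415169049) (nat_lit 1900) (nat_lit 1403433085) (nat_lit 522) (nat_lit 1) (nat_lit 497) (nat_lit 0) (nat_lit 522) (nat_lit 0) (nat_lit 306) (nat_lit 417) (nat_lit 417)) (XT.lf (nat_lit 1900) (nat_lit 5549385426) (nat_lit 76) (nat_lit 1405858727) (nat_lit 0) (nat_lit 1405858727) (nat_lit 522) (nat_lit 1) (nat_lit 498) (nat_lit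 1) (nat_lit 497) (nat_lit 0) (nat_lit 307) (nat_lit 417) (nat_lit 416))) (XT.nd (nat_lit 78) (nat_lit 0) (nat_lit 0) (XT.lf (nat_lit 1900) (nat_lit 2724774659) (nat_lit 0) (nat_lit 2829492210) (nat_lit 1824) (nat_lit 2724774659) (nat_lit 523) (nat_lit 1) (nat_lit 498) (nat_lit 1) (nat_lit 522) (nat_lit 1) (nat_lit 308) (nat_lit 417) (nat_lit 415)) (XT.lf (nat_lit 1900) (nat_lit 5333055703) (nat_lit 76) (nat_lit 1432584260) (nat_lit 0) (nat_lit 1432584260) (nat_lit 523) (nat_lit 1) (nat_lit 499) (nat_lit 1) (nat_lit 498) (nat_lit 1) (nat_lit 309) (nat_lit 417) (nat_lit 414)))) (XT.nd (nat_lit 156) (nat_lit 0) (nat_lit 76) (XT.nd (nat_lit 78) (nat_lit 0) (nat_lit 0) (XT.lf (nat_lit 1900) (nat_lit 2591764012) (nat_lit 0) (nat_lit 2934771030) (nat_lit 1824) (nat_lit 2591764012) (nat_lit 524) (nat_lit 1) (nat_lit 499) (nat_lit 1) (nat_lit 523) (nat_lit 1) (nat_lit 310) (nat_lit 417) (nat_lit 413)) (XT.lf (nat_lit 1900) (nat_lit 5017624558)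 (nat_lit 76) (nat_lit 1510968953) (nat_lit 0) (nat_lit 1510968953) (nat_lit 524) (nat_lit 1) (nat_lit 500) (nat_lit 1) (nat_lit 499) (nat_lit 1) (nat_lit 311) (nat_lit 417) (nat_lit 412))) (XT.nd (nat_lit 78) (nat_lit 0) (nat_lit 0) (XT.lf (nat_lit 1900) (nat_lit 2410872399) (nat_lit 0) (nat_lit 3139973376) (nat_lit 1824) (nat_lit 2410872399) (nat_lit 525) (nat_lit 1) (nat_lit 500) (nat_lit 1) (nat_lit 524) (nat_lit 1) (nat_lit 312) (nat_lit 417) (nat_lit 411)) (XT.nd (nat_lit 78) (nat_lit 0) (nat_lit 76) (XT.lf (nat_lit 1900) (nat_lit 4609048100) (nat_lit 76) (nat_lit 1637973545) (nat_lit 0) (nat_lit 1637973545) (nat_lit 525) (nat_lit 1) (nat_lit 501) (nat_lit 1) (nat_lit 500) (nat_lit 1) (nat_lit 313) (nat_lit 417) (nat_lit 410)) (XT.lf (nat_lit 1900) (nat_lit 2184999213) (nat_lit 0) (nat_lit 3439179651) (nat_lit 1824) (nat_lit 2184999213) (nat_lit 526) (nat_lit 1) (nat_lit 501) (nat_lit 1) (nat_lit 525) (nat_lit 1) (nat_lit 314) (nat_lit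 417) (nat_lit 409)))))) (XT.nd (nat_lit 312) (nat_lit 0) (nat_lit 152) (XT.nd (nat_lit 156) (nat_lit 0) (nat_lit 76) (XT.nd (nat_lit 78) (nat_lit 0) (nat_lit 76) (XT.lf (nat_lit 1900) (nat_lit 4113009821) (nat_lit 76) (nat_lit 1810697052) (nat_lit 0) (nat_lit 1810697052) (nat_lit 526) (nat_lit 1) (nat_lit 502) (nat_lit 1) (nat_lit 501) (nat_lit 1) (nat_lit 315) (nat_lit 417) (nat_lit 408)) (XT.lf (nat_lit 1900) (nat_lit 1916910865) (nat_lit 0) (nat_lit 3826740112) (nat_lit 1824) (nat_lit 1916910865) (nat_lit 527) (nat_lit 1) (nat_lit 502) (nat_lit 1) (nat_lit 526) (nat_lit 1) (nat_lit 316) (nat_lit 417) (nat_lit 407))) (XT.nd (nat_lit 78) (nat_lit 0) (nat_lit 76) (XT.lf (nat_lit 1900) (nat_lit 3534931996) (nat_lit 76) (nat_lit 2026371002) (nat_lit 0) (nat_lit 2026371002) (nat_lit 527) (nat_lit 1) (nat_lit 503) (nat_lit 1) (nat_lit 502) (nat_lit 1) (nat_lit 317) (nat_lit 417) (nat_lit 406)) (XT.lf (nat_lit 1900) (nat_lit 1609246349) (nat_lit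 0) (nat_lit 4297263611) (nat_lit 1824) (nat_lit 1609246349) (nat_lit 528) (nat_lit 1) (nat_lit 503) (nat_lit 1) (nat_lit 527) (nat_lit 1) (nat_lit 318) (nat_lit 417) (nat_lit 405)))) (XT.nd (nat_lit 156) (nat_lit 0) (nat_lit 76) (XT.nd (nat_lit 78) (nat_lit 0) (nat_lit 76) (XT.lf (nat_lit 1900) (nat_lit 2879986621) (nat_lit 76) (nat_lit 2282353902) (nat_lit 0) (nat_lit 2282353902) (nat_lit 528) (nat_lit 1) (nat_lit 504) (nat_lit 1) (nat_lit 503) (nat_lit 1) (nat_lit 319) (nat_lit 417) (nat_lit 404)) (XT.lf (nat_lit 1900) (nat_lit 1264522579) (nat_lit 0) (nat_lit 4845606778) (nat_lit 1824) (nat_lit 1264522579) (nat_lit 529) (nat_lit 1) (nat_lit 504) (nat_lit 1) (nat_lit 528) (nat_lit 1) (nat_lit 320) (nat_lit 417) (nat_lit 403))) (XT.nd (nat_lit 78) (nat_lit 0) (nat_lit 76) (XT.lf (nat_lit 1900) (nat_lit 2153105910) (nat_lit 76) (nat_lit 2576125920) (nat_lit 0) (nat_lit 2576125920) (nat_lit 529) (nat_lit 1) (nat_lit 505) (nat_lit 1) (nat_lit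 504) (nat_lit 1) (nat_lit 321) (nat_lit 417) (nat_lit 402)) (XT.nd (nat_lit 78) (nat_lit 0) (nat_lit 0) (XT.lf (nat_lit 1900) (nat_lit 885139520) (nat_lit 0) (nat_lit 5466863649) (nat_lit 1824) (nat_lit 885139520) (nat_lit 530) (nat_lit 1) (nat_lit 505) (nat_lit 1) (nat_lit 529) (nat_lit 1) (nat_lit 322) (nat_lit 417) (nat_lit 401)) (XT.lf (nat_lit 1900) (nat_lit 1358992370) (nat_lit 76) (nat_lit 2905283792) (nat_lit 0) (nat_lit 2905283792) (nat_lit 530) (nat_lit 1) (nat_lit 506) (nat_lit 1) (nat_lit 505) (nat_lit 1) (nat_lit 323) (nat_lit 417) (nat_lit 400))))))))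
noncomputable def ec135 : XT := (XT.nd (nat_lit 1404) (nat_lit 7372) (nat_lit 0) (XT.nd (nat_lit 702) (nat_lit 4484) (nat_lit 0) (XT.nd (nat_lit 312) (nat_lit 988) (nat_lit 0) (XT.nd (nat_lit 156) (nat_lit 1824) (nat_lit 0) (XT.nd (nat_lit 78) (nat_lit 0) (nat_lit 0) (XT.lf (nat_lit 1900) (nat_lit 473385098) (nat_lit 0) (nat_lit 6156355709) (nat_lit 1824) (nat_lit 473385098) (nat_lit 531) (nat_lit 1) (nat_lit 506) (nat_lit 1) (nat_lit 530) (nat_lit 1) (nat_lit 324) (nat_lit 417) (nat_lit 399)) (XT.lf (nat_lit 1900) (nat_lit 502128469) (nat_lit 76) (nat_lit 3267535925) (nat_lit 0) (nat_lit 3267535925) (nat_lit 531) (nat_lit 1) (nat_lit 507) (nat_lit 1) (nat_lit 506) (nat_lit 1) (nat_lit 325) (nat_lit 417) (nat_lit 398))) (XT.nd (nat_lit 78) (nat_lit 1900) (nat_lit 0) (XT.lf (nat_lit 1900) (nat_lit 31439926) (nat_lit 0) (nat_lit 6909622335) (nat_lit 1824) (nat_lit 31439926) (nat_lit 532) (nat_lit 1) (nat_lit 507) (nat_lit 1) (nat_lit 531)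 (nat_lit 1) (nat_lit 326) (nat_lit 417) (nat_lit 397)) (XT.lf (nat_lit 1976) (nat_lit 3250166474) (nat_lit 0) (nat_lit 407794708) (nat_lit 1900) (nat_lit 3250166474) (nat_lit 508) (nat_lit 1) (nat_lit 482) (nat_lit 1) (nat_lit 507) (nat_lit 1) (nat_lit 327) (nat_lit 417) (nat_lit 396)))) (XT.nd (nat_lit 156) (nat_lit 988) (nat_lit 0) (XT.nd (nat_lit 78) (nat_lit 0) (nat_lit 76) (XT.lf (nat_lit 1976) (nat_lit 5973481662) (nat_lit 76) (nat_lit 435732520) (nat_lit 0) (nat_lit 435732520) (nat_lit 508) (nat_lit 1) (nat_lit 483) (nat_lit 1) (nat_lit 482) (nat_lit 1) (nat_lit 328) (nat_lit 417) (nat_lit 395)) (XT.lf (nat_lit 1976) (nat_lit 2708700656) (nat_lit 0) (nat_lit 1364827603) (nat_lit 1900) (nat_lit 2708700656) (nat_lit 509) (nat_lit 1) (nat_lit 483) (nat_lit 1) (nat_lit 508) (nat_lit 1) (nat_lit 329) (nat_lit 417) (nat_lit 394))) (XT.nd (nat_lit 78) (nat_lit 1064) (nat_lit 0) (XT.lf (nat_lit 1976) (nat_lit 4863245368) (nat_lit 76) (nat_lit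 928659729) (nat_lit 0) (nat_lit 928659729) (nat_lit 509) (nat_lit 1) (nat_lit 484) (nat_lit 1) (nat_lit 483) (nat_lit 1) (nat_lit 330) (nat_lit 417) (nat_lit 393)) (XT.nd (nat_lit 78) (nat_lit 1140) (nat_lit 0) (XT.lf (nat_lit 76) (nat_lit 2143874152) (nat_lit 0) (nat_lit 2371730024) (nat_lit 1900) (nat_lit 2143874152) (nat_lit 485) (nat_lit 1) (nat_lit 484) (nat_lit 1) (nat_lit 509) (nat_lit 1) (nat_lit 331) (nat_lit 417) (nat_lit 392)) (XT.lf (nat_lit 1216) (nat_lit 3707932011) (nat_lit 0) (nat_lit 1445675822) (nat_lit 1140) (nat_lit 1445675822) (nat_lit 485) (nat_lit 1) (nat_lit 469) (nat_lit 1) (nat_lit 484) (nat_lit 1) (nat_lit 332) (nat_lit 417) (nat_lit 391)))))) (XT.nd (nat_lit 312) (nat_lit 2660) (nat_lit 0) (XT.nd (nat_lit 156) (nat_lit 912) (nat_lit 0) (XT.nd (nat_lit 78) (nat_lit 912) (nat_lit 0) (XT.lf (nat_lit 76) (nat_lit 1557464411) (nat_lit 0) (nat_lit 3424858960) (nat_lit 1216) (nat_lit 1557464411) (nat_lit 470) (nat_lit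 1) (nat_lit 469) (nat_lit 1) (nat_lit 485) (nat_lit 1) (nat_lit 333) (nat_lit 417) (nat_lit 390)) (XT.lf (nat_lit 988) (nat_lit 2511021181) (nat_lit 0) (nat_lit 1984997755) (nat_lit 912) (nat_lit 1984997755) (nat_lit 470) (nat_lit 1) (nat_lit 457) (nat_lit 1) (nat_lit 469) (nat_lit 1) (nat_lit 334) (nat_lit 417) (nat_lit 389))) (XT.nd (nat_lit 78) (nat_lit 912) (nat_lit 0) (XT.lf (nat_lit 76) (nat_lit 951162793) (nat_lit 0) (nat_lit 4520746325) (nat_lit 988) (nat_lit 951162793) (nat_lit 458) (nat_lit 1) (nat_lit 457) (nat_lit 1) (nat_lit 470) (nat_lit 1) (nat_lit 335) (nat_lit 417) (nat_lit 388)) (XT.lf (nat_lit 988) (nat_lit 1275823447) (nat_lit 0) (nat_lit 2544928342) (nat_lit 912) (nat_lit 2544928342) (nat_lit 458) (nat_lit 1) (nat_lit 445) (nat_lit 1) (nat_lit 457) (nat_lit 1) (nat_lit 336) (nat_lit 417) (nat_lit 387)))) (XT.nd (nat_lit 156) (nat_lit 1824) (nat_lit 0) (XT.nd (nat_lit 78) (nat_lit 836) (nat_lit 0) (XT.lf (nat_lit 76)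 (nat_lit 326578250) (nat_lit 0) (nat_lit 5656091509) (nat_lit 988) (nat_lit 326578250) (nat_lit 446) (nat_lit 1) (nat_lit 445) (nat_lit 1) (nat_lit 458) (nat_lit 1) (nat_lit 337) (nat_lit 417) (nat_lit 386)) (XT.lf (nat_lit 912) (nat_lit 5487583) (nat_lit 0) (nat_lit 3123852594) (nat_lit 836) (nat_lit 3123852594) (nat_lit 446) (nat_lit 1) (nat_lit 434) (nat_lit 1) (nat_lit 445) (nat_lit 1) (nat_lit 338) (nat_lit 417) (nat_lit 385))) (XT.nd (nat_lit 78) (nat_lit 836) (nat_lit 0) (XT.lf (nat_lit 988) (nat_lit 5572695188) (nat_lit 0) (nat_lit 312688358) (nat_lit 912) (nat_lit 312688358) (nat_lit 434) (nat_lit 1) (nat_lit 421) (nat_lit 1) (nat_lit 433) (nat_lit 1) (nat_lit 339) (nat_lit 417) (nat_lit 384)) (XT.nd (nat_lit 78) (nat_lit 836) (nat_lit 0) (XT.lf (nat_lit 76) (nat_lit 2431662651) (nat_lit 0) (nat_lit 1279982204) (nat_lit 988) (nat_lit 2431662651) (nat_lit 422) (nat_lit 1) (nat_lit 421) (nat_lit 1) (nat_lit 434) (nat_lit 1) (nat_lit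 340) (nat_lit 417) (nat_lit 383)) (XT.lf (nat_lit 912) (nat_lit 4159443697) (nat_lit 0) (nat_lit 965004054) (nat_lit 836) (nat_lit 965004054) (nat_lit 422) (nat_lit 1) (nat_lit 410) (nat_lit 1) (nat_lit 421) (nat_lit 1) (nat_lit 341) (nat_lit 417) (nat_lit 382))))))) (XT.nd (nat_lit 702) (nat_lit 3420) (nat_lit 0) (XT.nd (nat_lit 312) (nat_lit 2356) (nat_lit 0) (XT.nd (nat_lit 156) (nat_lit 760) (nat_lit 0) (XT.nd (nat_lit 78) (nat_lit 836) (nat_lit 0) (XT.lf (nat_lit 76) (nat_lit 1720908852) (nat_lit 0) (nat_lit 2594294275) (nat_lit 912) (nat_lit 1720908852) (nat_lit 411) (nat_lit 1) (nat_lit 410) (nat_lit 1) (nat_lit 422) (nat_lit 1) (nat_lit 342) (nat_lit 417) (nat_lit 381)) (XT.lf (nat_lit 912) (nat_lit 2721195087) (nat_lit 0) (nat_lit 1631144143) (nat_lit 836) (nat_lit 1631144143) (nat_lit 411) (nat_lit 1) (nat_lit 399) (nat_lit 1) (nat_lit 410) (nat_lit 1) (nat_lit 343) (nat_lit 417) (nat_lit 380))) (XT.nd (nat_lit 78) (nat_lit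 760) (nat_lit 0) (XT.lf (nat_lit 76) (nat_lit 998340582) (nat_lit 0) (nat_lit 3934852179) (nat_lit 912) (nat_lit 998340582) (nat_lit 400) (nat_lit 1) (nat_lit 399) (nat_lit 1) (nat_lit 411) (nat_lit 1) (nat_lit 344) (nat_lit 417) (nat_lit 379)) (XT.lf (nat_lit 836) (nat_lit 1260486210) (nat_lit 0) (nat_lit 2309804069) (nat_lit 760) (nat_lit 2309804069) (nat_lit 400) (nat_lit 1) (nat_lit 389) (nat_lit 1) (nat_lit 399) (nat_lit 1) (nat_lit 345) (nat_lit 417) (nat_lit 378)))) (XT.nd (nat_lit 156) (nat_lit 1520) (nat_lit 0) (XT.nd (nat_lit 78) (nat_lit 836) (nat_lit 0) (XT.lf (nat_lit 76) (nat_lit 265189431) (nat_lit 0) (nat_lit 5299121422) (nat_lit 836) (nat_lit 265189431) (nat_lit 390) (nat_lit 1) (nat_lit 389) (nat_lit 1) (nat_lit 400) (nat_lit 1) (nat_lit 346) (nat_lit 417) (nat_lit 377)) (XT.lf (nat_lit 76) (nat_lit 2780899864) (nat_lit 0) (nat_lit 217386347) (nat_lit 836) (nat_lit 2780899864) (nat_lit 379) (nat_lit 1) (nat_lit 378)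 (nat_lit 1) (nat_lit 389) (nat_lit 1) (nat_lit 347) (nat_lit 417) (nat_lit 376))) (XT.nd (nat_lit 78) (nat_lit 760) (nat_lit 0) (XT.lf (nat_lit 836) (nat_lit 4781224175) (nat_lit 0) (nat_lit 474235353) (nat_lit 760) (nat_lit 474235353) (nat_lit 379) (nat_lit 1) (nat_lit 368) (nat_lit 1) (nat_lit 378) (nat_lit 1) (nat_lit 348) (nat_lit 417) (nat_lit 375)) (XT.nd (nat_lit 78) (nat_lit 760) (nat_lit 0) (XT.lf (nat_lit 76) (nat_lit 1992145144) (nat_lit 0) (nat_lit 1696262959) (nat_lit 836) (nat_lit 1992145144) (nat_lit 369) (nat_lit 1) (nat_lit 368) (nat_lit 1) (nat_lit 379) (nat_lit 1) (nat_lit 349) (nat_lit 417) (nat_lit 374)) (XT.lf (nat_lit 836) (nat_lit 3191822930) (nat_lit 0) (nat_lit 1220166713) (nat_lit 760) (nat_lit 1220166713) (nat_lit 369) (nat_lit 1) (nat_lit 358) (nat_lit 1) (nat_lit 368) (nat_lit 1) (nat_lit 350) (nat_lit 417) (nat_lit 373)))))) (XT.nd (nat_lit 390) (nat_lit 1292) (nat_lit 0) (XT.nd (nat_lit 156) (nat_lit 1444)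 (nat_lit 0) (XT.nd (nat_lit 78) (nat_lit 684) (nat_lit 0) (XT.lf (nat_lit 76) (nat_lit 1196878124) (nat_lit 0) (nat_lit 3190537708) (nat_lit 836) (nat_lit 1196878124) (nat_lit 359) (nat_lit 1) (nat_lit 358) (nat_lit 1) (nat_lit 369) (nat_lit 1) (nat_lit 351) (nat_lit 417) (nat_lit 372)) (XT.lf (nat_lit 760) (nat_lit 1590347553) (nat_lit 0) (nat_lit 1973305453) (nat_lit 684) (nat_lit 1973305453) (nat_lit 359) (nat_lit 1) (nat_lit 349) (nat_lit 1) (nat_lit 358) (nat_lit 1) (nat_lit 352) (nat_lit 417) (nat_lit 371))) (XT.nd (nat_lit 78) (nat_lit 1444) (nat_lit 0) (XT.lf (nat_lit 76) (nat_lit 396079933) (nat_lit 0) (nat_lit 4698184730) (nat_lit 760) (nat_lit 396079933) (nat_lit 350) (nat_lit 1) (nat_lit 349) (nat_lit 1) (nat_lit 359) (nat_lit 1) (nat_lit 353) (nat_lit 417) (nat_lit 370)) (XT.nd (nat_lit 78) (nat_lit 684) (nat_lit 0) (XT.lf (nat_lit 76) (nat_lit 2711514444) (nat_lit 0) (nat_lit 21007018) (nat_lit 760) (nat_lit 2711514444)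 (nat_lit 340) (nat_lit 1) (nat_lit 339) (nat_lit 1) (nat_lit 349) (nat_lit 1) (nat_lit 354) (nat_lit 417) (nat_lit 369)) (XT.lf (nat_lit 760) (nat_lit 4585174589) (nat_lit 0) (nat_lit 406627779) (nat_lit 684) (nat_lit 406627779) (nat_lit 340) (nat_lit 1) (nat_lit 330) (nat_lit 1) (nat_lit 339) (nat_lit 1) (nat_lit 355) (nat_lit 417) (nat_lit 368))))) (XT.nd (nat_lit 156) (nat_lit 608) (nat_lit 0) (XT.nd (nat_lit 78) (nat_lit 684) (nat_lit 0) (XT.lf (nat_lit 76) (nat_lit 1866691705) (nat_lit 0) (nat_lit 1619739809) (nat_lit 760) (nat_lit 1866691705) (nat_lit 331) (nat_lit 1) (nat_lit 330) (nat_lit 1) (nat_lit 340) (nat_lit 1) (nat_lit 356) (nat_lit 417) (nat_lit 367)) (XT.lf (nat_lit 760) (nat_lit 2887637838) (nat_lit 0) (nat_lit 1210428940) (nat_lit 684) (nat_lit 1210428940) (nat_lit 331) (nat_lit 1) (nat_lit 321) (nat_lit 1) (nat_lit 330) (nat_lit 1) (nat_lit 357) (nat_lit 417) (nat_lit 366))) (XT.nd (nat_lit 78) (nat_lit 608) (nat_lit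 0) (XT.lf (nat_lit 76) (nat_lit 1019676041) (nat_lit 0) (nat_lit 3225016215) (nat_lit 760) (nat_lit 1019676041) (nat_lit 322) (nat_lit 1) (nat_lit 321) (nat_lit 1) (nat_lit 331) (nat_lit 1) (nat_lit 358) (nat_lit 417) (nat_lit 365)) (XT.nd (nat_lit 78) (nat_lit 0) (nat_lit 0) (XT.lf (nat_lit 684) (nat_lit 1186482168) (nat_lit 0) (nat_lit 2017103963) (nat_lit 608) (nat_lit 2017103963) (nat_lit 322) (nat_lit 1) (nat_lit 313) (nat_lit 1) (nat_lit 321) (nat_lit 1) (nat_lit 359) (nat_lit 417) (nat_lit 364)) (XT.lf (nat_lit 76) (nat_lit 171238847) (nat_lit 0) (nat_lit 4835236565) (nat_lit 684) (nat_lit 171238847) (nat_lit 314) (nat_lit 1) (nat_lit 313) (nat_lit 1) (nat_lit 322) (nat_lit 1) (nat_lit 360) (nat_lit 417) (nat_lit 363))))))))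
noncomputable def ec136 : XT := (XT.nd (nat_lit 1404) (nat_lit 4788) (nat_lit 0) (XT.nd (nat_lit 702) (nat_lit 2736) (nat_lit 0) (XT.nd (nat_lit 312) (nat_lit 1748) (nat_lit 0) (XT.nd (nat_lit 156) (nat_lit 608) (nat_lit 0) (XT.nd (nat_lit 78) (nat_lit 608) (nat_lit 0) (XT.lf (nat_lit 76) (nat_lit 2312439789) (nat_lit 0) (nat_lit 510010662) (nat_lit 684) (nat_lit 2312439789) (nat_lit 305) (nat_lit 1) (nat_lit 304) (nat_lit 1) (nat_lit 313) (nat_lit 1) (nat_lit 361) (nat_lit 417) (nat_lit 362)) (XT.lf (nat_lit 684) (nat_lit 3745888484) (nat_lit 0) (nat_lit 673432071) (nat_lit 608) (nat_lit 673432071) (nat_lit 305) (nat_lit 1) (nat_lit 296) (nat_lit 1) (nat_lit 304) (nat_lit 1) (nat_lit 362) (nat_lit 417) (nat_lit 361))) (XT.nd (nat_lit 78) (nat_lit 608) (nat_lit 0) (XT.lf (nat_lit 76) (nat_lit 1429662650) (nat_lit 0) (nat_lit 2191629522) (nat_lit 684) (nat_lit 1429662650) (nat_lit 297) (nat_lit 1) (nat_lit 296) (nat_lit 1) (nat_lit 305)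 (nat_lit 1) (nat_lit 363) (nat_lit 417) (nat_lit 360)) (XT.lf (nat_lit 684) (nat_lit 1975727093) (nat_lit 0) (nat_lit 1516983386) (nat_lit 608) (nat_lit 1516983386) (nat_lit 297) (nat_lit 1) (nat_lit 288) (nat_lit 1) (nat_lit 296) (nat_lit 1) (nat_lit 364) (nat_lit 417) (nat_lit 359)))) (XT.nd (nat_lit 156) (nat_lit 1216) (nat_lit 0) (XT.nd (nat_lit 78) (nat_lit 532) (nat_lit 0) (XT.lf (nat_lit 76) (nat_lit 548185027) (nat_lit 0) (nat_lit 3872615338) (nat_lit 684) (nat_lit 548185027) (nat_lit 289) (nat_lit 1) (nat_lit 288) (nat_lit 1) (nat_lit 297) (nat_lit 1) (nat_lit 365) (nat_lit 417) (nat_lit 358)) (XT.lf (nat_lit 608) (nat_lit 208777580) (nat_lit 0) (nat_lit 2359898991) (nat_lit 532) (nat_lit 2359898991) (nat_lit 289) (nat_lit 1) (nat_lit 281) (nat_lit 1) (nat_lit 288) (nat_lit 1) (nat_lit 366) (nat_lit 417) (nat_lit 357))) (XT.nd (nat_lit 78) (nat_lit 532) (nat_lit 0) (XT.lf (nat_lit 684) (nat_lit 4230324993) (nat_lit 0) (nat_lit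 329216634) (nat_lit 608) (nat_lit 329216634) (nat_lit 281) (nat_lit 1) (nat_lit 272) (nat_lit 1) (nat_lit 280) (nat_lit 1) (nat_lit 367) (nat_lit 417) (nat_lit 356)) (XT.nd (nat_lit 78) (nat_lit 532) (nat_lit 0) (XT.lf (nat_lit 76) (nat_lit 1657862099) (nat_lit 0) (nat_lit 1533421593) (nat_lit 684) (nat_lit 1657862099) (nat_lit 273) (nat_lit 1) (nat_lit 272) (nat_lit 1) (nat_lit 281) (nat_lit 1) (nat_lit 368) (nat_lit 417) (nat_lit 355)) (XT.lf (nat_lit 608) (nat_lit 2408968453) (nat_lit 0) (nat_lit 1200571886) (nat_lit 532) (nat_lit 1200571886) (nat_lit 273) (nat_lit 1) (nat_lit 265) (nat_lit 1) (nat_lit 272) (nat_lit 1) (nat_lit 369) (nat_lit 417) (nat_lit 354)))))) (XT.nd (nat_lit 312) (nat_lit 1596) (nat_lit 0) (XT.nd (nat_lit 156) (nat_lit 608) (nat_lit 0) (XT.nd (nat_lit 78) (nat_lit 532) (nat_lit 0) (XT.lf (nat_lit 76) (nat_lit 752019399) (nat_lit 0) (nat_lit 3267492415) (nat_lit 608) (nat_lit 752019399) (nat_lit 266) (nat_lit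 1) (nat_lit 265) (nat_lit 1) (nat_lit 273) (nat_lit 1) (nat_lit 370) (nat_lit 417) (nat_lit 353)) (XT.lf (nat_lit 608) (nat_lit 595356202) (nat_lit 0) (nat_lit 2068964492) (nat_lit 532) (nat_lit 2068964492) (nat_lit 266) (nat_lit 1) (nat_lit 258) (nat_lit 1) (nat_lit 265) (nat_lit 1) (nat_lit 371) (nat_lit 417) (nat_lit 352))) (XT.nd (nat_lit 78) (nat_lit 0) (nat_lit 0) (XT.lf (nat_lit 608) (nat_lit 4398151977) (nat_lit 0) (nat_lit 148740883) (nat_lit 532) (nat_lit 148740883) (nat_lit 258) (nat_lit 1) (nat_lit 250) (nat_lit 1) (nat_lit 257) (nat_lit 1) (nat_lit 372) (nat_lit 417) (nat_lit 351)) (XT.lf (nat_lit 76) (nat_lit 1732179965) (nat_lit 0) (nat_lit 1193713727) (nat_lit 608) (nat_lit 1732179965) (nat_lit 251) (nat_lit 1) (nat_lit 250) (nat_lit 1) (nat_lit 258) (nat_lit 1) (nat_lit 373) (nat_lit 417) (nat_lit 350)))) (XT.nd (nat_lit 156) (nat_lit 1064) (nat_lit 0) (XT.nd (nat_lit 78) (nat_lit 0) (nat_lit 0) (XT.lf (nat_lit 608) (nat_lit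 2541024150) (nat_lit 0) (nat_lit 1040035952) (nat_lit 532) (nat_lit 1040035952) (nat_lit 251) (nat_lit 1) (nat_lit 243) (nat_lit 1) (nat_lit 250) (nat_lit 1) (nat_lit 374) (nat_lit 417) (nat_lit 349)) (XT.lf (nat_lit 76) (nat_lit 809482509) (nat_lit 0) (nat_lit 2965548522) (nat_lit 608) (nat_lit 809482509) (nat_lit 244) (nat_lit 1) (nat_lit 243) (nat_lit 1) (nat_lit 251) (nat_lit 1) (nat_lit 375) (nat_lit 417) (nat_lit 348))) (XT.nd (nat_lit 78) (nat_lit 608) (nat_lit 0) (XT.lf (nat_lit 532) (nat_lit 695475292) (nat_lit 0) (nat_lit 1926395245) (nat_lit 456) (nat_lit 1926395245) (nat_lit 244) (nat_lit 1) (nat_lit 237) (nat_lit 1) (nat_lit 243) (nat_lit 1) (nat_lit 376) (nat_lit 417) (nat_lit 347)) (XT.nd (nat_lit 78) (nat_lit 0) (nat_lit 0) (XT.lf (nat_lit 608) (nat_lit 4299481231) (nat_lit 0) (nat_lit 106550661) (nat_lit 532) (nat_lit 106550661) (nat_lit 237) (nat_lit 1) (nat_lit 229) (nat_lit 1) (nat_lit 236) (nat_lit 1) (nat_lit 377)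 (nat_lit 417) (nat_lit 346)) (XT.lf (nat_lit 76) (nat_lit 1677058399) (nat_lit 0) (nat_lit 1122835360) (nat_lit 608) (nat_lit 1677058399) (nat_lit 230) (nat_lit 1) (nat_lit 229) (nat_lit 1) (nat_lit 237) (nat_lit 1) (nat_lit 378) (nat_lit 417) (nat_lit 345))))))) (XT.nd (nat_lit 702) (nat_lit 1976) (nat_lit 0) (XT.nd (nat_lit 312) (nat_lit 1368) (nat_lit 0) (XT.nd (nat_lit 156) (nat_lit 988) (nat_lit 0) (XT.nd (nat_lit 78) (nat_lit 0) (nat_lit 0) (XT.lf (nat_lit 532) (nat_lit 2419901847) (nat_lit 0) (nat_lit 1010986852) (nat_lit 456) (nat_lit 1010986852) (nat_lit 230) (nat_lit 1) (nat_lit 223) (nat_lit 1) (nat_lit 229) (nat_lit 1) (nat_lit 379) (nat_lit 417) (nat_lit 344)) (XT.lf (nat_lit 76) (nat_lit 743989498) (nat_lit 0) (nat_lit 2919193494) (nat_lit 532) (nat_lit 743989498) (nat_lit 224) (nat_lit 1) (nat_lit 223) (nat_lit 1) (nat_lit 230) (nat_lit 1) (nat_lit 380) (nat_lit 417) (nat_lit 343))) (XT.nd (nat_lit 78) (nat_lit 532) (nat_lit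 0) (XT.lf (nat_lit 532) (nat_lit 555123922) (nat_lit 0) (nat_lit 1908824692) (nat_lit 456) (nat_lit 1908824692) (nat_lit 224) (nat_lit 1) (nat_lit 217) (nat_lit 1) (nat_lit 223) (nat_lit 1) (nat_lit 381) (nat_lit 417) (nat_lit 342)) (XT.lf (nat_lit 532) (nat_lit 3978154644) (nat_lit 0) (nat_lit 180363635) (nat_lit 456) (nat_lit 180363635) (nat_lit 217) (nat_lit 1) (nat_lit 210) (nat_lit 1) (nat_lit 216) (nat_lit 1) (nat_lit 382) (nat_lit 417) (nat_lit 341)))) (XT.nd (nat_lit 156) (nat_lit 912) (nat_lit 0) (XT.nd (nat_lit 78) (nat_lit 456) (nat_lit 0) (XT.lf (nat_lit 76) (nat_lit 1513878095) (nat_lit 0) (nat_lit 1277311621) (nat_lit 532) (nat_lit 1513878095) (nat_lit 211) (nat_lit 1) (nat_lit 210) (nat_lit 1) (nat_lit 217) (nat_lit 1) (nat_lit 383) (nat_lit 417) (nat_lit 340)) (XT.lf (nat_lit 532) (nat_lit 2087589633) (nat_lit 0) (nat_lit 1092081162) (nat_lit 456) (nat_lit 1092081162) (nat_lit 211) (nat_lit 1) (nat_lit 204) (nat_lit 1)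 (nat_lit 210) (nat_lit 1) (nat_lit 384) (nat_lit 417) (nat_lit 339))) (XT.nd (nat_lit 78) (nat_lit 912) (nat_lit 0) (XT.lf (nat_lit 76) (nat_lit 576016308) (nat_lit 0) (nat_lit 3086785657) (nat_lit 532) (nat_lit 576016308) (nat_lit 205) (nat_lit 1) (nat_lit 204) (nat_lit 1) (nat_lit 211) (nat_lit 1) (nat_lit 385) (nat_lit 417) (nat_lit 338)) (XT.nd (nat_lit 78) (nat_lit 532) (nat_lit 0) (XT.lf (nat_lit 456) (nat_lit 214512057) (nat_lit 0) (nat_lit 1995810050) (nat_lit 380) (nat_lit 1995810050) (nat_lit 205) (nat_lit 1) (nat_lit 199) (nat_lit 1) (nat_lit 204) (nat_lit 1) (nat_lit 386) (nat_lit 417) (nat_lit 337)) (XT.lf (nat_lit 532) (nat_lit 3472473797) (nat_lit 0) (nat_lit 350700657) (nat_lit 456) (nat_lit 350700657) (nat_lit 199) (nat_lit 1) (nat_lit 192) (nat_lit 1) (nat_lit 198) (nat_lit 1) (nat_lit 387) (nat_lit 417) (nat_lit 336)))))) (XT.nd (nat_lit 312) (nat_lit 1140) (nat_lit 0) (XT.nd (nat_lit 156) (nat_lit 456) (nat_lit 0)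 (XT.nd (nat_lit 78) (nat_lit 380) (nat_lit 0) (XT.lf (nat_lit 76) (nat_lit 1261314665) (nat_lit 0) (nat_lit 1619143004) (nat_lit 532) (nat_lit 1261314665) (nat_lit 193) (nat_lit 1) (nat_lit 192) (nat_lit 1) (nat_lit 199) (nat_lit 1) (nat_lit 388) (nat_lit 417) (nat_lit 335)) (XT.lf (nat_lit 456) (nat_lit 1580757009) (nat_lit 0) (nat_lit 1264666573) (nat_lit 380) (nat_lit 1264666573) (nat_lit 193) (nat_lit 1) (nat_lit 187) (nat_lit 1) (nat_lit 192) (nat_lit 1) (nat_lit 389) (nat_lit 417) (nat_lit 334))) (XT.nd (nat_lit 78) (nat_lit 456) (nat_lit 0) (XT.lf (nat_lit 76) (nat_lit 323442091) (nat_lit 0) (nat_lit 3431939748) (nat_lit 456) (nat_lit 323442091) (nat_lit 188) (nat_lit 1) (nat_lit 187) (nat_lit 1) (nat_lit 193) (nat_lit 1) (nat_lit 390) (nat_lit 417) (nat_lit 333)) (XT.lf (nat_lit 76) (nat_lit 1880127072) (nat_lit 0) (nat_lit 287436087) (nat_lit 456) (nat_lit 1880127072) (nat_lit 182) (nat_lit 1) (nat_lit 181) (nat_lit 1) (nat_lit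 187) (nat_lit 1) (nat_lit 391) (nat_lit 417) (nat_lit 332)))) (XT.nd (nat_lit 156) (nat_lit 760) (nat_lit 0) (XT.nd (nat_lit 78) (nat_lit 0) (nat_lit 0) (XT.lf (nat_lit 456) (nat_lit 2815846727) (nat_lit 0) (nat_lit 600558965) (nat_lit 380) (nat_lit 600558965) (nat_lit 182) (nat_lit 1) (nat_lit 176) (nat_lit 1) (nat_lit 181) (nat_lit 1) (nat_lit 392) (nat_lit 417) (nat_lit 331)) (XT.lf (nat_lit 76) (nat_lit 935654555) (nat_lit 0) (nat_lit 2115166790) (nat_lit 456) (nat_lit 935654555) (nat_lit 177) (nat_lit 1) (nat_lit 176) (nat_lit 1) (nat_lit 182) (nat_lit 1) (nat_lit 393) (nat_lit 417) (nat_lit 330))) (XT.nd (nat_lit 78) (nat_lit 380) (nat_lit 0) (XT.lf (nat_lit 456) (nat_lit 931376270) (nat_lit 0) (nat_lit 1512467919) (nat_lit 380) (nat_lit 1512467919) (nat_lit 177) (nat_lit 1) (nat_lit 171) (nat_lit 1) (nat_lit 176) (nat_lit 1) (nat_lit 394) (nat_lit 417) (nat_lit 329)) (XT.nd (nat_lit 78) (nat_lit 380) (nat_lit 0) (XT.lf (nat_lit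 76) (nat_lit 1852715) (nat_lit 0) (nat_lit 3922913391) (nat_lit 456) (nat_lit 1852715) (nat_lit 172) (nat_lit 1) (nat_lit 171) (nat_lit 1) (nat_lit 177) (nat_lit 1) (nat_lit 395) (nat_lit 417) (nat_lit 328)) (XT.lf (nat_lit 76) (nat_lit 1488757102) (nat_lit 0) (nat_lit 919366528) (nat_lit 380) (nat_lit 1488757102) (nat_lit 167) (nat_lit 1) (nat_lit 166) (nat_lit 1) (nat_lit 171) (nat_lit 1) (nat_lit 396) (nat_lit 417) (nat_lit 327))))))))
noncomputable def ec137 : XT := (XT.nd (nat_lit 1404) (nat_lit 3268) (nat_lit 0) (XT.nd (nat_lit 702) (nat_lit 1596) (nat_lit 0) (XT.nd (nat_lit 312) (nat_lit 988) (nat_lit 0) (XT.nd (nat_lit 156) (nat_lit 760) (nat_lit 0) (XT.nd (nat_lit 78) (nat_lit 0) (nat_lit 0) (XT.lf (nat_lit 456) (nat_lit 2037361197) (nat_lit 0) (nat_lit 915122502) (nat_lit 380) (nat_lit 915122502) (nat_lit 167) (nat_lit 1) (nat_lit 161) (nat_lit 1) (nat_lit 166) (nat_lit 1) (nat_lit 397) (nat_lit 417) (nat_lit 326)) (XT.lf (nat_lit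 76) (nat_lit 551075051) (nat_lit 0) (nat_lit 2736491018) (nat_lit 456) (nat_lit 551075051) (nat_lit 162) (nat_lit 1) (nat_lit 161) (nat_lit 1) (nat_lit 167) (nat_lit 1) (nat_lit 398) (nat_lit 417) (nat_lit 325))) (XT.nd (nat_lit 78) (nat_lit 456) (nat_lit 0) (XT.lf (nat_lit 380) (nat_lit 167273252) (nat_lit 0) (nat_lit 1821308864) (nat_lit 304) (nat_lit 1821308864) (nat_lit 162) (nat_lit 1) (nat_lit 157) (nat_lit 1) (nat_lit 161) (nat_lit 1) (nat_lit 399) (nat_lit 417) (nat_lit 324)) (XT.lf (nat_lit 456) (nat_lit 3036043577) (nat_lit 0) (nat_lit 372721868) (nat_lit 380) (nat_lit 372721868) (nat_lit 157) (nat_lit 1) (nat_lit 151) (nat_lit 1) (nat_lit 156) (nat_lit 1) (nat_lit 400) (nat_lit 417) (nat_lit 323)))) (XT.nd (nat_lit 156) (nat_lit 684) (nat_lit 0) (XT.nd (nat_lit 78) (nat_lit 304) (nat_lit 0) (XT.lf (nat_lit 76) (nat_lit 1047699763) (nat_lit 0) (nat_lit 1657825520) (nat_lit 456) (nat_lit 1047699763) (nat_lit 152) (nat_lit 1)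 (nat_lit 151) (nat_lit 1) (nat_lit 157) (nat_lit 1) (nat_lit 401) (nat_lit 417) (nat_lit 322)) (XT.lf (nat_lit 380) (nat_lit 1162292729) (nat_lit 0) (nat_lit 1281505177) (nat_lit 304) (nat_lit 1281505177) (nat_lit 152) (nat_lit 1) (nat_lit 147) (nat_lit 1) (nat_lit 151) (nat_lit 1) (nat_lit 402) (nat_lit 417) (nat_lit 321))) (XT.nd (nat_lit 78) (nat_lit 684) (nat_lit 0) (XT.lf (nat_lit 76) (nat_lit 119892421) (nat_lit 0) (nat_lit 3457992841) (nat_lit 380) (nat_lit 119892421) (nat_lit 148) (nat_lit 1) (nat_lit 147) (nat_lit 1) (nat_lit 152) (nat_lit 1) (nat_lit 403) (nat_lit 417) (nat_lit 320)) (XT.nd (nat_lit 78) (nat_lit 304) (nat_lit 0) (XT.lf (nat_lit 76) (nat_lit 1495943611) (nat_lit 0) (nat_lit 678369435) (nat_lit 380) (nat_lit 1495943611) (nat_lit 143) (nat_lit 1) (nat_lit 142) (nat_lit 1) (nat_lit 147) (nat_lit 1) (nat_lit 404) (nat_lit 417) (nat_lit 319)) (XT.lf (nat_lit 380) (nat_lit 2061776960) (nat_lit 0) (nat_lit 790674768)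 (nat_lit 304) (nat_lit 790674768) (nat_lit 143) (nat_lit 1) (nat_lit 138) (nat_lit 1) (nat_lit 142) (nat_lit 1) (nat_lit 405) (nat_lit 417) (nat_lit 318)))))) (XT.nd (nat_lit 312) (nat_lit 912) (nat_lit 0) (XT.nd (nat_lit 156) (nat_lit 380) (nat_lit 0) (XT.nd (nat_lit 78) (nat_lit 304) (nat_lit 0) (XT.lf (nat_lit 76) (nat_lit 568125000) (nat_lit 0) (nat_lit 2480010569) (nat_lit 380) (nat_lit 568125000) (nat_lit 139) (nat_lit 1) (nat_lit 138) (nat_lit 1) (nat_lit 143) (nat_lit 1) (nat_lit 406) (nat_lit 417) (nat_lit 317)) (XT.lf (nat_lit 380) (nat_lit 212554770) (nat_lit 0) (nat_lit 1688523368) (nat_lit 304) (nat_lit 1688523368) (nat_lit 139) (nat_lit 1) (nat_lit 134) (nat_lit 1) (nat_lit 138) (nat_lit 1) (nat_lit 407) (nat_lit 417) (nat_lit 316))) (XT.nd (nat_lit 78) (nat_lit 0) (nat_lit 0) (XT.lf (nat_lit 380) (nat_lit 2873388840) (nat_lit 0) (nat_lit 344933887) (nat_lit 304) (nat_lit 344933887) (nat_lit 134) (nat_lit 1) (nat_lit 129)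 (nat_lit 1) (nat_lit 133) (nat_lit 1) (nat_lit 408) (nat_lit 417) (nat_lit 315)) (XT.lf (nat_lit 76) (nat_lit 973254718) (nat_lit 0) (nat_lit 1590518675) (nat_lit 380) (nat_lit 973254718) (nat_lit 130) (nat_lit 1) (nat_lit 129) (nat_lit 1) (nat_lit 134) (nat_lit 1) (nat_lit 409) (nat_lit 417) (nat_lit 314)))) (XT.nd (nat_lit 156) (nat_lit 608) (nat_lit 0) (XT.nd (nat_lit 78) (nat_lit 0) (nat_lit 0) (XT.lf (nat_lit 380) (nat_lit 1027340200) (nat_lit 0) (nat_lit 1241884258) (nat_lit 304) (nat_lit 1241884258) (nat_lit 130) (nat_lit 1) (nat_lit 125) (nat_lit 1) (nat_lit 129) (nat_lit 1) (nat_lit 410) (nat_lit 417) (nat_lit 313)) (XT.lf (nat_lit 76) (nat_lit 59695156) (nat_lit 0) (nat_lit 3366173828) (nat_lit 380) (nat_lit 59695156) (nat_lit 126) (nat_lit 1) (nat_lit 125) (nat_lit 1) (nat_lit 130) (nat_lit 1) (nat_lit 411) (nat_lit 417) (nat_lit 312))) (XT.nd (nat_lit 78) (nat_lit 304) (nat_lit 0) (XT.lf (nat_lit 76) (nat_lit 1338739895) (nat_lit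 0) (nat_lit 782503456) (nat_lit 304) (nat_lit 1338739895) (nat_lit 122) (nat_lit 1) (nat_lit 121) (nat_lit 1) (nat_lit 125) (nat_lit 1) (nat_lit 412) (nat_lit 417) (nat_lit 311)) (XT.nd (nat_lit 78) (nat_lit 0) (nat_lit 0) (XT.lf (nat_lit 380) (nat_lit 1763782416) (nat_lit 0) (nat_lit 835495040) (nat_lit 304) (nat_lit 835495040) (nat_lit 122) (nat_lit 1) (nat_lit 117) (nat_lit 1) (nat_lit 121) (nat_lit 1) (nat_lit 413) (nat_lit 417) (nat_lit 310)) (XT.lf (nat_lit 76) (nat_lit 428159998) (nat_lit 0) (nat_lit 2553507042) (nat_lit 380) (nat_lit 428159998) (nat_lit 118) (nat_lit 1) (nat_lit 117) (nat_lit 1) (nat_lit 122) (nat_lit 1) (nat_lit 414) (nat_lit 417) (nat_lit 309))))))) (XT.nd (nat_lit 702) (nat_lit 1520) (nat_lit 0) (XT.nd (nat_lit 312) (nat_lit 912) (nat_lit 0) (XT.nd (nat_lit 156) (nat_lit 228) (nat_lit 0) (XT.nd (nat_lit 78) (nat_lit 304) (nat_lit 0) (XT.lf (nat_lit 76) (nat_lit 1667772038) (nat_lit 0) (nat_lit 49490722) (nat_lit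 304) (nat_lit 1667772038) (nat_lit 114) (nat_lit 1) (nat_lit 113) (nat_lit 1) (nat_lit 117) (nat_lit 1) (nat_lit 415) (nat_lit 417) (nat_lit 308)) (XT.lf (nat_lit 380) (nat_lit 2428167093) (nat_lit 0) (nat_lit 466168220) (nat_lit 304) (nat_lit 466168220) (nat_lit 114) (nat_lit 1) (nat_lit 109) (nat_lit 1) (nat_lit 113) (nat_lit 1) (nat_lit 416) (nat_lit 417) (nat_lit 307))) (XT.nd (nat_lit 78) (nat_lit 228) (nat_lit 0) (XT.lf (nat_lit 76) (nat_lit 761250618) (nat_lit 0) (nat_lit 1813636730) (nat_lit 380) (nat_lit 761250618) (nat_lit 110) (nat_lit 1) (nat_lit 109) (nat_lit 1) (nat_lit 114) (nat_lit 1) (nat_lit 417) (nat_lit 417) (nat_lit 306)) (XT.lf (nat_lit 304) (nat_lit 622661715) (nat_lit 0) (nat_lit 1344677243) (nat_lit 228) (nat_lit 1344677243) (nat_lit 110) (nat_lit 1) (nat_lit 106) (nat_lit 1) (nat_lit 109) (nat_lit 1) (nat_lit 418) (nat_lit 417) (nat_lit 305)))) (XT.nd (nat_lit 156) (nat_lit 532) (nat_lit 0) (XT.nd (nat_lit 78)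 (nat_lit 0) (nat_lit 0) (XT.lf (nat_lit 380) (nat_lit 3026294960) (nat_lit 0) (nat_lit 130961446) (nat_lit 304) (nat_lit 130961446) (nat_lit 106) (nat_lit 1) (nat_lit 101) (nat_lit 1) (nat_lit 105) (nat_lit 1) (nat_lit 419) (nat_lit 417) (nat_lit 304)) (XT.lf (nat_lit 76) (nat_lit 1061804335) (nat_lit 0) (nat_lit 1140805223) (nat_lit 380) (nat_lit 1061804335) (nat_lit 102) (nat_lit 1) (nat_lit 101) (nat_lit 1) (nat_lit 106) (nat_lit 1) (nat_lit 420) (nat_lit 417) (nat_lit 303))) (XT.nd (nat_lit 78) (nat_lit 304) (nat_lit 0) (XT.lf (nat_lit 304) (nat_lit 1231116816) (nat_lit 0) (nat_lit 1004906350) (nat_lit 228) (nat_lit 1004906350) (nat_lit 102) (nat_lit 1) (nat_lit 98) (nat_lit 1) (nat_lit 101) (nat_lit 1) (nat_lit 421) (nat_lit 417) (nat_lit 302)) (XT.nd (nat_lit 78) (nat_lit 304) (nat_lit 0) (XT.lf (nat_lit 76) (nat_lit 173985855) (nat_lit 0) (nat_lit 2869774043) (nat_lit 304) (nat_lit 173985855) (nat_lit 99) (nat_lit 1) (nat_lit 98)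 (nat_lit 1) (nat_lit 102) (nat_lit 1) (nat_lit 422) (nat_lit 417) (nat_lit 301)) (XT.lf (nat_lit 76) (nat_lit 1332439582) (nat_lit 0) (nat_lit 529697515) (nat_lit 304) (nat_lit 1332439582) (nat_lit 95) (nat_lit 1) (nat_lit 94) (nat_lit 1) (nat_lit 98) (nat_lit 1) (nat_lit 423) (nat_lit 417) (nat_lit 300)))))) (XT.nd (nat_lit 390) (nat_lit 760) (nat_lit 0) (XT.nd (nat_lit 156) (nat_lit 532) (nat_lit 0) (XT.nd (nat_lit 78) (nat_lit 0) (nat_lit 0) (XT.lf (nat_lit 304) (nat_lit 1780375011) (nat_lit 0) (nat_lit 695664831) (nat_lit 228) (nat_lit 695664831) (nat_lit 95) (nat_lit 1) (nat_lit 91) (nat_lit 1) (nat_lit 94) (nat_lit 1) (nat_lit 424) (nat_lit 417) (nat_lit 299)) (XT.lf (nat_lit 76) (nat_lit 450711757) (nat_lit 0) (nat_lit 2247626438) (nat_lit 304) (nat_lit 450711757) (nat_lit 92) (nat_lit 1) (nat_lit 91) (nat_lit 1) (nat_lit 95) (nat_lit 1) (nat_lit 425) (nat_lit 417) (nat_lit 298))) (XT.nd (nat_lit 78) (nat_lit 304) (nat_lit 0) (XT.lf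 (nat_lit 304) (nat_lit 24919343) (nat_lit 0) (nat_lit 1550815077) (nat_lit 228) (nat_lit 1550815077) (nat_lit 92) (nat_lit 1) (nat_lit 88) (nat_lit 1) (nat_lit 91) (nat_lit 1) (nat_lit 426) (nat_lit 417) (nat_lit 297)) (XT.nd (nat_lit 78) (nat_lit 0) (nat_lit 0) (XT.lf (nat_lit 304) (nat_lit 2275196577) (nat_lit 0) (nat_lit 414536474) (nat_lit 228) (nat_lit 414536474) (nat_lit 88) (nat_lit 1) (nat_lit 84) (nat_lit 1) (nat_lit 87) (nat_lit 1) (nat_lit 427) (nat_lit 417) (nat_lit 296)) (XT.lf (nat_lit 76) (nat_lit 700677917) (nat_lit 0) (nat_lit 1680771968) (nat_lit 304) (nat_lit 700677917) (nat_lit 85) (nat_lit 1) (nat_lit 84) (nat_lit 1) (nat_lit 88) (nat_lit 1) (nat_lit 428) (nat_lit 417) (nat_lit 295))))) (XT.nd (nat_lit 156) (nat_lit 228) (nat_lit 0) (XT.nd (nat_lit 78) (nat_lit 304) (nat_lit 0) (XT.lf (nat_lit 304) (nat_lit 533591513) (nat_lit 0) (nat_lit 1263305949) (nat_lit 228) (nat_lit 1263305949) (nat_lit 85) (nat_lit 1) (nat_lit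 81) (nat_lit 1) (nat_lit 84) (nat_lit 1) (nat_lit 429) (nat_lit 417) (nat_lit 294)) (XT.lf (nat_lit 304) (nat_lit 2719974329) (nat_lit 0) (nat_lit 159290863) (nat_lit 228) (nat_lit 159290863) (nat_lit 81) (nat_lit 1) (nat_lit 77) (nat_lit 1) (nat_lit 80) (nat_lit 1) (nat_lit 430) (nat_lit 417) (nat_lit 293))) (XT.nd (nat_lit 78) (nat_lit 228) (nat_lit 0) (XT.lf (nat_lit 76) (nat_lit 926033698) (nat_lit 0) (nat_lit 1164844635) (nat_lit 304) (nat_lit 926033698) (nat_lit 78) (nat_lit 1) (nat_lit 77) (nat_lit 1) (nat_lit 81) (nat_lit 1) (nat_lit 431) (nat_lit 417) (nat_lit 292)) (XT.nd (nat_lit 78) (nat_lit 0) (nat_lit 0) (XT.lf (nat_lit 304) (nat_lit 993514795) (nat_lit 0) (nat_lit 1001013670) (nat_lit 228) (nat_lit 1001013670) (nat_lit 78) (nat_lit 1) (nat_lit 74) (nat_lit 1) (nat_lit 77) (nat_lit 1) (nat_lit 432) (nat_lit 417) (nat_lit 291)) (XT.lf (nat_lit 76) (nat_lit 72608495) (nat_lit 0) (nat_lit 2829245257) (nat_lit 304) (nat_lit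 72608495) (nat_lit 75) (nat_lit 1) (nat_lit 74) (nat_lit 1) (nat_lit 78) (nat_lit 1) (nat_lit 433) (nat_lit 417) (nat_lit 290))))))))
noncomputable def ec138 : XT := (XT.nd (nat_lit 50310) (nat_lit 0) (nat_lit 28880) (XT.nd (nat_lit 49608) (nat_lit 0) (nat_lit 32984) (XT.nd (nat_lit 49218) (nat_lit 0) (nat_lit 32832) (XT.nd (nat_lit 156) (nat_lit 228) (nat_lit 0) (XT.nd (nat_lit 78) (nat_lit 228) (nat_lit 0) (XT.lf (nat_lit 76) (nat_lit 1128762594) (nat_lit 0) (nat_lit 695813977) (nat_lit 228) (nat_lit 1128762594) (nat_lit 72) (nat_lit 1) (nat_lit 71) (nat_lit 1) (nat_lit 74) (nat_lit 1) (nat_lit 434) (nat_lit 417) (nat_lit 289)) (XT.lf (nat_lit 304) (nat_lit 1408597940) (nat_lit 0) (nat_lit 761952732) (nat_lit 228) (nat_lit 761952732) (nat_lit 72) (nat_lit 1) (nat_lit 68) (nat_lit 1) (nat_lit 71) (nat_lit 1) (nat_lit 435) (nat_lit 417) (nat_lit 288))) (XT.nd (nat_lit 78) (nat_lit 228) (nat_lit 0) (XT.lf (nat_lit 76) (nat_lit 283493930)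 (nat_lit 0) (nat_lit 2344905416) (nat_lit 304) (nat_lit 283493930) (nat_lit 69) (nat_lit 1) (nat_lit 68) (nat_lit 1) (nat_lit 72) (nat_lit 1) (nat_lit 436) (nat_lit 417) (nat_lit 287)) (XT.lf (nat_lit 76) (nat_lit 1310694902) (nat_lit 0) (nat_lit 269959451) (nat_lit 228) (nat_lit 1310694902) (nat_lit 66) (nat_lit 1) (nat_lit 65) (nat_lit 1) (nat_lit 68) (nat_lit 1) (nat_lit 437) (nat_lit 417) (nat_lit 286)))) (XT.nd (nat_lit 156) (nat_lit 0) (nat_lit 76) (XT.nd (nat_lit 78) (nat_lit 0) (nat_lit 0) (XT.lf (nat_lit 1900) (nat_lit 1431501746) (nat_lit 0) (nat_lit 1443472430) (nat_lit 1900) (nat_lit 1431501746) (nat_lit 522) (nat_lit 1) (nat_lit 497) (nat_lit 0) (nat_lit 522) (nat_lit 0) (nat_lit 304) (nat_lit 418) (nat_lit 418)) (XT.lf (nat_lit 1900) (nat_lit 5660373135) (nat_lit 76) (nat_lit 1433975901) (nat_lit 0) (nat_lit 1433975901) (nat_lit 522) (nat_lit 1) (nat_lit 498) (nat_lit 1) (nat_lit 497) (nat_lit 0) (nat_lit 305) (nat_lit 418)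 (nat_lit 417))) (XT.nd (nat_lit 78) (nat_lit 0) (nat_lit 0) (XT.lf (nat_lit 1900) (nat_lit 2779270153) (nat_lit 0) (nat_lit 2886082054) (nat_lit 1824) (nat_lit 2779270153) (nat_lit 523) (nat_lit 1) (nat_lit 498) (nat_lit 1) (nat_lit 522) (nat_lit 1) (nat_lit 306) (nat_lit 418) (nat_lit 416)) (XT.nd (nat_lit 78) (nat_lit 0) (nat_lit 76) (XT.lf (nat_lit 1900) (nat_lit 5439716817) (nat_lit 76) (nat_lit 1461235945) (nat_lit 0) (nat_lit 1461235945) (nat_lit 523) (nat_lit 1) (nat_lit 499) (nat_lit 1) (nat_lit 498) (nat_lit 1) (nat_lit 307) (nat_lit 418) (nat_lit 415)) (XT.lf (nat_lit 1900) (nat_lit 2643599293) (nat_lit 0) (nat_lit 2993466451) (nat_lit 1824) (nat_lit 2643599293) (nat_lit 524) (nat_lit 1) (nat_lit 499) (nat_lit 1) (nat_lit 523) (nat_lit 1) (nat_lit 308) (nat_lit 418) (nat_lit 414)))))) (XT.nd (nat_lit 312) (nat_lit 0) (nat_lit 152) (XT.nd (nat_lit 156) (nat_lit 0) (nat_lit 76) (XT.nd (nat_lit 78) (nat_lit 0) (nat_lit 76) (XT.lf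 (nat_lit 1900) (nat_lit 5117977050) (nat_lit 76) (nat_lit 1541188332) (nat_lit 0) (nat_lit 1541188332) (nat_lit 524) (nat_lit 1) (nat_lit 500) (nat_lit 1) (nat_lit 499) (nat_lit 1) (nat_lit 309) (nat_lit 418) (nat_lit 413)) (XT.lf (nat_lit 1900) (nat_lit 2459089847) (nat_lit 0) (nat_lit 3202772844) (nat_lit 1824) (nat_lit 2459089847) (nat_lit 525) (nat_lit 1) (nat_lit 500) (nat_lit 1) (nat_lit 524) (nat_lit 1) (nat_lit 310) (nat_lit 418) (nat_lit 412))) (XT.nd (nat_lit 78) (nat_lit 0) (nat_lit 76) (XT.lf (nat_lit 1900) (nat_lit 4701229062) (nat_lit 76) (nat_lit 1670733016) (nat_lit 0) (nat_lit 1670733016) (nat_lit 525) (nat_lit 1) (nat_lit 501) (nat_lit 1) (nat_lit 500) (nat_lit 1) (nat_lit 311) (nat_lit 418) (nat_lit 411)) (XT.lf (nat_lit 1900) (nat_lit 2228699198) (nat_lit 0) (nat_lit 3507963244) (nat_lit 1824) (nat_lit 2228699198) (nat_lit 526) (nat_lit 1) (nat_lit 501) (nat_lit 1) (nat_lit 525) (nat_lit 1) (nat_lit 312) (nat_lit 418)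 (nat_lit 410)))) (XT.nd (nat_lit 156) (nat_lit 0) (nat_lit 76) (XT.nd (nat_lit 78) (nat_lit 0) (nat_lit 76) (XT.lf (nat_lit 1900) (nat_lit 4195270017) (nat_lit 76) (nat_lit 1846910993) (nat_lit 0) (nat_lit 1846910993) (nat_lit 526) (nat_lit 1) (nat_lit 502) (nat_lit 1) (nat_lit 501) (nat_lit 1) (nat_lit 313) (nat_lit 418) (nat_lit 409)) (XT.lf (nat_lit 1900) (nat_lit 1955249083) (nat_lit 0) (nat_lit 3903274915) (nat_lit 1824) (nat_lit 1955249083) (nat_lit 527) (nat_lit 1) (nat_lit 502) (nat_lit 1) (nat_lit 526) (nat_lit 1) (nat_lit 314) (nat_lit 418) (nat_lit 408))) (XT.nd (nat_lit 78) (nat_lit 0) (nat_lit 76) (XT.lf (nat_lit 1900) (nat_lit 3605630636) (nat_lit 76) (nat_lit 2066898422) (nat_lit 0) (nat_lit 2066898422) (nat_lit 527) (nat_lit 1) (nat_lit 503) (nat_lit 1) (nat_lit 502) (nat_lit 1) (nat_lit 315) (nat_lit 418) (nat_lit 407)) (XT.nd (nat_lit 78) (nat_lit 0) (nat_lit 0) (XT.lf (nat_lit 1900) (nat_lit 1641431276) (nat_lit 0)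 (nat_lit 4383208883) (nat_lit 1824) (nat_lit 1641431276) (nat_lit 528) (nat_lit 1) (nat_lit 503) (nat_lit 1) (nat_lit 527) (nat_lit 1) (nat_lit 316) (nat_lit 418) (nat_lit 406)) (XT.lf (nat_lit 1900) (nat_lit 2937586353) (nat_lit 76) (nat_lit 2328000980) (nat_lit 0) (nat_lit 2328000980) (nat_lit 528) (nat_lit 1) (nat_lit 504) (nat_lit 1) (nat_lit 503) (nat_lit 1) (nat_lit 317) (nat_lit 418) (nat_lit 405))))))) (XT.nd (nat_lit 702) (nat_lit 2812) (nat_lit 0) (XT.nd (nat_lit 312) (nat_lit 1672) (nat_lit 0) (XT.nd (nat_lit 156) (nat_lit 0) (nat_lit 76) (XT.nd (nat_lit 78) (nat_lit 0) (nat_lit 0) (XT.lf (nat_lit 1900) (nat_lit 1289813031) (nat_lit 0) (nat_lit 4942518913) (nat_lit 1824) (nat_lit 1289813031) (nat_lit 529) (nat_lit 1) (nat_lit 504) (nat_lit 1) (nat_lit 528) (nat_lit 1) (nat_lit 318) (nat_lit 418) (nat_lit 404)) (XT.lf (nat_lit 1900) (nat_lit 2196168028) (nat_lit 76) (nat_lit 2627648439) (nat_lit 0) (nat_lit 2627648439) (nat_lit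 529) (nat_lit 1) (nat_lit 505) (nat_lit 1) (nat_lit 504) (nat_lit 1) (nat_lit 319) (nat_lit 418) (nat_lit 403))) (XT.nd (nat_lit 78) (nat_lit 0) (nat_lit 0) (XT.lf (nat_lit 1900) (nat_lit 902842310) (nat_lit 0) (nat_lit 5576200922) (nat_lit 1824) (nat_lit 902842310) (nat_lit 530) (nat_lit 1) (nat_lit 505) (nat_lit 1) (nat_lit 529) (nat_lit 1) (nat_lit 320) (nat_lit 418) (nat_lit 402)) (XT.lf (nat_lit 1900) (nat_lit 1386172218) (nat_lit 76) (nat_lit 2963389468) (nat_lit 0) (nat_lit 2963389468) (nat_lit 530) (nat_lit 1) (nat_lit 506) (nat_lit 1) (nat_lit 505) (nat_lit 1) (nat_lit 321) (nat_lit 418) (nat_lit 401)))) (XT.nd (nat_lit 156) (nat_lit 1824) (nat_lit 0) (XT.nd (nat_lit 78) (nat_lit 0) (nat_lit 0) (XT.lf (nat_lit 1900) (nat_lit 482852800) (nat_lit 0) (nat_lit 6279482823) (nat_lit 1824) (nat_lit 482852800) (nat_lit 531) (nat_lit 1) (nat_lit 506) (nat_lit 1) (nat_lit 530) (nat_lit 1) (nat_lit 322) (nat_lit 418) (nat_lit 400)) (XT.lf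 (nat_lit 1900) (nat_lit 512171038) (nat_lit 76) (nat_lit 3332886643) (nat_lit 0) (nat_lit 3332886643) (nat_lit 531) (nat_lit 1) (nat_lit 507) (nat_lit 1) (nat_lit 506) (nat_lit 1) (nat_lit 323) (nat_lit 418) (nat_lit 399))) (XT.nd (nat_lit 78) (nat_lit 1900) (nat_lit 0) (XT.lf (nat_lit 1900) (nat_lit 32068725) (nat_lit 0) (nat_lit 7047814782) (nat_lit 1824) (nat_lit 32068725) (nat_lit 532) (nat_lit 1) (nat_lit 507) (nat_lit 1) (nat_lit 531) (nat_lit 1) (nat_lit 324) (nat_lit 418) (nat_lit 398)) (XT.nd (nat_lit 78) (nat_lit 0) (nat_lit 0) (XT.lf (nat_lit 1976) (nat_lit 3315169804) (nat_lit 0) (nat_lit 415950603) (nat_lit 1900) (nat_lit 3315169804) (nat_lit 508) (nat_lit 1) (nat_lit 482) (nat_lit 1) (nat_lit 507) (nat_lit 1) (nat_lit 325) (nat_lit 418) (nat_lit 397)) (XT.lf (nat_lit 1976) (nat_lit 6092951295) (nat_lit 76) (nat_lit 444447171) (nat_lit 0) (nat_lit 444447171) (nat_lit 508) (nat_lit 1) (nat_lit 483) (nat_lit 1) (nat_lit 482)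 (nat_lit 1) (nat_lit 326) (nat_lit 418) (nat_lit 396)))))) (XT.nd (nat_lit 312) (nat_lit 1824) (nat_lit 0) (XT.nd (nat_lit 156) (nat_lit 1064) (nat_lit 0) (XT.nd (nat_lit 78) (nat_lit 0) (nat_lit 0) (XT.lf (nat_lit 1976) (nat_lit 2762874669) (nat_lit 0) (nat_lit 1392124155) (nat_lit 1900) (nat_lit 2762874669) (nat_lit 509) (nat_lit 1) (nat_lit 483) (nat_lit 1) (nat_lit 508) (nat_lit 1) (nat_lit 327) (nat_lit 418) (nat_lit 395)) (XT.lf (nat_lit 1976) (nat_lit 4960510276) (nat_lit 76) (nat_lit 947232923) (nat_lit 0) (nat_lit 947232923) (nat_lit 509) (nat_lit 1) (nat_lit 484) (nat_lit 1) (nat_lit 483) (nat_lit 1) (nat_lit 328) (nat_lit 418) (nat_lit 394))) (XT.nd (nat_lit 78) (nat_lit 1140) (nat_lit 0) (XT.lf (nat_lit 76) (nat_lit 2186751635) (nat_lit 0) (nat_lit 2419164624) (nat_lit 1900) (nat_lit 2186751635) (nat_lit 485) (nat_lit 1) (nat_lit 484) (nat_lit 1) (nat_lit 509) (nat_lit 1) (nat_lit 329) (nat_lit 418) (nat_lit 393)) (XT.lf (nat_lit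 1216) (nat_lit 3782090651) (nat_lit 0) (nat_lit 1474589338) (nat_lit 1140) (nat_lit 1474589338) (nat_lit 485) (nat_lit 1) (nat_lit 469) (nat_lit 1) (nat_lit 484) (nat_lit 1) (nat_lit 330) (nat_lit 418) (nat_lit 392)))) (XT.nd (nat_lit 156) (nat_lit 912) (nat_lit 0) (XT.nd (nat_lit 78) (nat_lit 912) (nat_lit 0) (XT.lf (nat_lit 76) (nat_lit 1588613699) (nat_lit 0) (nat_lit 3493356139) (nat_lit 1216) (nat_lit 1588613699) (nat_lit 470) (nat_lit 1) (nat_lit 469) (nat_lit 1) (nat_lit 485) (nat_lit 1) (nat_lit 331) (nat_lit 418) (nat_lit 391)) (XT.lf (nat_lit 988) (nat_lit 2561241604) (nat_lit 0) (nat_lit 2024697710) (nat_lit 912) (nat_lit 2024697710) (nat_lit 470) (nat_lit 1) (nat_lit 457) (nat_lit 1) (nat_lit 469) (nat_lit 1) (nat_lit 332) (nat_lit 418) (nat_lit 390))) (XT.nd (nat_lit 78) (nat_lit 912) (nat_lit 0) (XT.lf (nat_lit 76) (nat_lit 970186049) (nat_lit 0) (nat_lit 4611161252) (nat_lit 988) (nat_lit 970186049) (nat_lit 458) (nat_lit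 1) (nat_lit 457) (nat_lit 1) (nat_lit 470) (nat_lit 1) (nat_lit 333) (nat_lit 418) (nat_lit 389)) (XT.nd (nat_lit 78) (nat_lit 0) (nat_lit 0) (XT.lf (nat_lit 988) (nat_lit 1301339916) (nat_lit 0) (nat_lit 2595826909) (nat_lit 912) (nat_lit 2595826909) (nat_lit 458) (nat_lit 1) (nat_lit 445) (nat_lit 1) (nat_lit 457) (nat_lit 1) (nat_lit 334) (nat_lit 418) (nat_lit 388)) (XT.lf (nat_lit 76) (nat_lit 333109815) (nat_lit 0) (nat_lit 5769213339) (nat_lit 988) (nat_lit 333109815) (nat_lit 446) (nat_lit 1) (nat_lit 445) (nat_lit 1) (nat_lit 458) (nat_lit 1) (nat_lit 335) (nat_lit 418) (nat_lit 387))))))))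
noncomputable def ec139 : XT := (XT.nd (nat_lit 1404) (nat_lit 6612) (nat_lit 0) (XT.nd (nat_lit 702) (nat_lit 4484) (nat_lit 0) (XT.nd (nat_lit 312) (nat_lit 1596) (nat_lit 0) (XT.nd (nat_lit 156) (nat_lit 836) (nat_lit 0) (XT.nd (nat_lit 78) (nat_lit 988) (nat_lit 0) (XT.lf (nat_lit 912) (nat_lit 5597335) (nat_lit 0) (nat_lit 3186329646) (nat_lit 836) (nat_lit 3186329646) (nat_lit 446) (nat_lit 1) (nat_lit 434) (nat_lit 1) (nat_lit 445) (nat_lit 1) (nat_lit 336) (nat_lit 418) (nat_lit 386)) (XT.lf (nat_lit 988) (nat_lit 5684149092) (nat_lit 0) (nat_lit 318942125) (nat_lit 912) (nat_lit 318942125) (nat_lit 434) (nat_lit 1) (nat_lit 421) (nat_lit 1) (nat_lit 433) (nat_lit 1) (nat_lit 337) (nat_lit 418) (nat_lit 385))) (XT.nd (nat_lit 78) (nat_lit 836) (nat_lit 0) (XT.lf (nat_lit 76) (nat_lit 2480295904) (nat_lit 0) (nat_lit 1305581848) (nat_lit 988) (nat_lit 2480295904) (nat_lit 422) (nat_lit 1) (nat_lit 421) (nat_lit 1) (nat_lit 434)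 (nat_lit 1) (nat_lit 338) (nat_lit 418) (nat_lit 384)) (XT.lf (nat_lit 912) (nat_lit 4242632571) (nat_lit 0) (nat_lit 984304135) (nat_lit 836) (nat_lit 984304135) (nat_lit 422) (nat_lit 1) (nat_lit 410) (nat_lit 1) (nat_lit 421) (nat_lit 1) (nat_lit 339) (nat_lit 418) (nat_lit 383)))) (XT.nd (nat_lit 156) (nat_lit 760) (nat_lit 0) (XT.nd (nat_lit 78) (nat_lit 836) (nat_lit 0) (XT.lf (nat_lit 76) (nat_lit 1755327030) (nat_lit 0) (nat_lit 2646180160) (nat_lit 912) (nat_lit 1755327030) (nat_lit 411) (nat_lit 1) (nat_lit 410) (nat_lit 1) (nat_lit 422) (nat_lit 1) (nat_lit 340) (nat_lit 418) (nat_lit 382)) (XT.lf (nat_lit 912) (nat_lit 2775618988) (nat_lit 0) (nat_lit 1663767026) (nat_lit 836) (nat_lit 1663767026) (nat_lit 411) (nat_lit 1) (nat_lit 399) (nat_lit 1) (nat_lit 410) (nat_lit 1) (nat_lit 341) (nat_lit 418) (nat_lit 381))) (XT.nd (nat_lit 78) (nat_lit 760) (nat_lit 0) (XT.lf (nat_lit 76) (nat_lit 1018307393) (nat_lit 0) (nat_lit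 4013549223) (nat_lit 912) (nat_lit 1018307393) (nat_lit 400) (nat_lit 1) (nat_lit 399) (nat_lit 1) (nat_lit 411) (nat_lit 1) (nat_lit 342) (nat_lit 418) (nat_lit 380)) (XT.nd (nat_lit 78) (nat_lit 0) (nat_lit 0) (XT.lf (nat_lit 836) (nat_lit 1285695935) (nat_lit 0) (nat_lit 2356000150) (nat_lit 760) (nat_lit 2356000150) (nat_lit 400) (nat_lit 1) (nat_lit 389) (nat_lit 1) (nat_lit 399) (nat_lit 1) (nat_lit 343) (nat_lit 418) (nat_lit 379)) (XT.lf (nat_lit 76) (nat_lit 270493219) (nat_lit 0) (nat_lit 5405103851) (nat_lit 836) (nat_lit 270493219) (nat_lit 390) (nat_lit 1) (nat_lit 389) (nat_lit 1) (nat_lit 400) (nat_lit 1) (nat_lit 344) (nat_lit 418) (nat_lit 378)))))) (XT.nd (nat_lit 312) (nat_lit 2128) (nat_lit 0) (XT.nd (nat_lit 156) (nat_lit 760) (nat_lit 0) (XT.nd (nat_lit 78) (nat_lit 760) (nat_lit 0) (XT.lf (nat_lit 76) (nat_lit 2836517861) (nat_lit 0) (nat_lit 221734073) (nat_lit 836) (nat_lit 2836517861) (nat_lit 379) (nat_lit 1)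 (nat_lit 378) (nat_lit 1) (nat_lit 389) (nat_lit 1) (nat_lit 345) (nat_lit 418) (nat_lit 377)) (XT.lf (nat_lit 836) (nat_lit 4876848658) (nat_lit 0) (nat_lit 483720060) (nat_lit 760) (nat_lit 483720060) (nat_lit 379) (nat_lit 1) (nat_lit 368) (nat_lit 1) (nat_lit 378) (nat_lit 1) (nat_lit 346) (nat_lit 418) (nat_lit 376))) (XT.nd (nat_lit 78) (nat_lit 760) (nat_lit 0) (XT.lf (nat_lit 76) (nat_lit 2031988046) (nat_lit 0) (nat_lit 1730188218) (nat_lit 836) (nat_lit 2031988046) (nat_lit 369) (nat_lit 1) (nat_lit 368) (nat_lit 1) (nat_lit 379) (nat_lit 1) (nat_lit 347) (nat_lit 418) (nat_lit 375)) (XT.lf (nat_lit 836) (nat_lit 3255659389) (nat_lit 0) (nat_lit 1244570047) (nat_lit 760) (nat_lit 1244570047) (nat_lit 369) (nat_lit 1) (nat_lit 358) (nat_lit 1) (nat_lit 368) (nat_lit 1) (nat_lit 348) (nat_lit 418) (nat_lit 374)))) (XT.nd (nat_lit 156) (nat_lit 1444) (nat_lit 0) (XT.nd (nat_lit 78) (nat_lit 684) (nat_lit 0) (XT.lf (nat_lit 76)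 (nat_lit 1220815686) (nat_lit 0) (nat_lit 3254348463) (nat_lit 836) (nat_lit 1220815686) (nat_lit 359) (nat_lit 1) (nat_lit 358) (nat_lit 1) (nat_lit 369) (nat_lit 1) (nat_lit 349) (nat_lit 418) (nat_lit 373)) (XT.lf (nat_lit 760) (nat_lit 1622154504) (nat_lit 0) (nat_lit 2012771562) (nat_lit 684) (nat_lit 2012771562) (nat_lit 359) (nat_lit 1) (nat_lit 349) (nat_lit 1) (nat_lit 358) (nat_lit 1) (nat_lit 350) (nat_lit 418) (nat_lit 372))) (XT.nd (nat_lit 78) (nat_lit 1444) (nat_lit 0) (XT.lf (nat_lit 76) (nat_lit 404001532) (nat_lit 0) (nat_lit 4792148425) (nat_lit 760) (nat_lit 404001532) (nat_lit 350) (nat_lit 1) (nat_lit 349) (nat_lit 1) (nat_lit 359) (nat_lit 1) (nat_lit 351) (nat_lit 418) (nat_lit 371)) (XT.nd (nat_lit 78) (nat_lit 684) (nat_lit 0) (XT.lf (nat_lit 76) (nat_lit 2765744733) (nat_lit 0) (nat_lit 21427158) (nat_lit 760) (nat_lit 2765744733) (nat_lit 340) (nat_lit 1) (nat_lit 339) (nat_lit 1) (nat_lit 349) (nat_lit 1)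 (nat_lit 352) (nat_lit 418) (nat_lit 370)) (XT.lf (nat_lit 760) (nat_lit 4676878081) (nat_lit 0) (nat_lit 414760335) (nat_lit 684) (nat_lit 414760335) (nat_lit 340) (nat_lit 1) (nat_lit 330) (nat_lit 1) (nat_lit 339) (nat_lit 1) (nat_lit 353) (nat_lit 418) (nat_lit 369))))))) (XT.nd (nat_lit 702) (nat_lit 3420) (nat_lit 0) (XT.nd (nat_lit 312) (nat_lit 1900) (nat_lit 0) (XT.nd (nat_lit 156) (nat_lit 608) (nat_lit 0) (XT.nd (nat_lit 78) (nat_lit 684) (nat_lit 0) (XT.lf (nat_lit 76) (nat_lit 1904025539) (nat_lit 0) (nat_lit 1652134605) (nat_lit 760) (nat_lit 1904025539) (nat_lit 331) (nat_lit 1) (nat_lit 330) (nat_lit 1) (nat_lit 340) (nat_lit 1) (nat_lit 354) (nat_lit 418) (nat_lit 368)) (XT.lf (nat_lit 760) (nat_lit 2945390595) (nat_lit 0) (nat_lit 1234637519) (nat_lit 684) (nat_lit 1234637519) (nat_lit 331) (nat_lit 1) (nat_lit 321) (nat_lit 1) (nat_lit 330) (nat_lit 1) (nat_lit 355) (nat_lit 418) (nat_lit 367))) (XT.nd (nat_lit 78)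 (nat_lit 608) (nat_lit 0) (XT.lf (nat_lit 76) (nat_lit 1040069562) (nat_lit 0) (nat_lit 3289516539) (nat_lit 760) (nat_lit 1040069562) (nat_lit 322) (nat_lit 1) (nat_lit 321) (nat_lit 1) (nat_lit 331) (nat_lit 1) (nat_lit 356) (nat_lit 418) (nat_lit 366)) (XT.lf (nat_lit 684) (nat_lit 1210211811) (nat_lit 0) (nat_lit 2057446043) (nat_lit 608) (nat_lit 2057446043) (nat_lit 322) (nat_lit 1) (nat_lit 313) (nat_lit 1) (nat_lit 321) (nat_lit 1) (nat_lit 357) (nat_lit 418) (nat_lit 365)))) (XT.nd (nat_lit 156) (nat_lit 1216) (nat_lit 0) (XT.nd (nat_lit 78) (nat_lit 684) (nat_lit 0) (XT.lf (nat_lit 76) (nat_lit 174663624) (nat_lit 0) (nat_lit 4931941296) (nat_lit 684) (nat_lit 174663624) (nat_lit 314) (nat_lit 1) (nat_lit 313) (nat_lit 1) (nat_lit 322) (nat_lit 1) (nat_lit 358) (nat_lit 418) (nat_lit 364)) (XT.lf (nat_lit 76) (nat_lit 2358688585) (nat_lit 0) (nat_lit 520210875) (nat_lit 684) (nat_lit 2358688585) (nat_lit 305) (nat_lit 1) (nat_lit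 304) (nat_lit 1) (nat_lit 313) (nat_lit 1) (nat_lit 359) (nat_lit 418) (nat_lit 363))) (XT.nd (nat_lit 78) (nat_lit 608) (nat_lit 0) (XT.lf (nat_lit 684) (nat_lit 3820806254) (nat_lit 0) (nat_lit 686900712) (nat_lit 608) (nat_lit 686900712) (nat_lit 305) (nat_lit 1) (nat_lit 296) (nat_lit 1) (nat_lit 304) (nat_lit 1) (nat_lit 360) (nat_lit 418) (nat_lit 362)) (XT.nd (nat_lit 78) (nat_lit 608) (nat_lit 0) (XT.lf (nat_lit 76) (nat_lit 1458255903) (nat_lit 0) (nat_lit 2235462113) (nat_lit 684) (nat_lit 1458255903) (nat_lit 297) (nat_lit 1) (nat_lit 296) (nat_lit 1) (nat_lit 305) (nat_lit 1) (nat_lit 361) (nat_lit 418) (nat_lit 361)) (XT.lf (nat_lit 684) (nat_lit 2015241635) (nat_lit 0) (nat_lit 1547323054) (nat_lit 608) (nat_lit 1547323054) (nat_lit 297) (nat_lit 1) (nat_lit 288) (nat_lit 1) (nat_lit 296) (nat_lit 1) (nat_lit 362) (nat_lit 418) (nat_lit 360)))))) (XT.nd (nat_lit 390) (nat_lit 1672) (nat_lit 0) (XT.nd (nat_lit 156) (nat_lit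 1216) (nat_lit 0) (XT.nd (nat_lit 78) (nat_lit 532) (nat_lit 0) (XT.lf (nat_lit 76) (nat_lit 559148728) (nat_lit 0) (nat_lit 3950067645) (nat_lit 684) (nat_lit 559148728) (nat_lit 289) (nat_lit 1) (nat_lit 288) (nat_lit 1) (nat_lit 297) (nat_lit 1) (nat_lit 363) (nat_lit 418) (nat_lit 359)) (XT.lf (nat_lit 608) (nat_lit 212953131) (nat_lit 0) (nat_lit 2407096971) (nat_lit 532) (nat_lit 2407096971) (nat_lit 289) (nat_lit 1) (nat_lit 281) (nat_lit 1) (nat_lit 288) (nat_lit 1) (nat_lit 364) (nat_lit 418) (nat_lit 358))) (XT.nd (nat_lit 78) (nat_lit 532) (nat_lit 0) (XT.lf (nat_lit 684) (nat_lit 4314931493) (nat_lit 0) (nat_lit 335800967) (nat_lit 608) (nat_lit 335800967) (nat_lit 281) (nat_lit 1) (nat_lit 272) (nat_lit 1) (nat_lit 280) (nat_lit 1) (nat_lit 365) (nat_lit 418) (nat_lit 357)) (XT.nd (nat_lit 78) (nat_lit 532) (nat_lit 0) (XT.lf (nat_lit 76) (nat_lit 1691019341) (nat_lit 0) (nat_lit 1564090024) (nat_lit 684) (nat_lit 1691019341)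 (nat_lit 273) (nat_lit 1) (nat_lit 272) (nat_lit 1) (nat_lit 281) (nat_lit 1) (nat_lit 366) (nat_lit 418) (nat_lit 356)) (XT.lf (nat_lit 608) (nat_lit 2457147822) (nat_lit 0) (nat_lit 1224583324) (nat_lit 532) (nat_lit 1224583324) (nat_lit 273) (nat_lit 1) (nat_lit 265) (nat_lit 1) (nat_lit 272) (nat_lit 1) (nat_lit 367) (nat_lit 418) (nat_lit 355))))) (XT.nd (nat_lit 156) (nat_lit 1140) (nat_lit 0) (XT.nd (nat_lit 78) (nat_lit 532) (nat_lit 0) (XT.lf (nat_lit 76) (nat_lit 767059787) (nat_lit 0) (nat_lit 3332842263) (nat_lit 608) (nat_lit 767059787) (nat_lit 266) (nat_lit 1) (nat_lit 265) (nat_lit 1) (nat_lit 273) (nat_lit 1) (nat_lit 368) (nat_lit 418) (nat_lit 354)) (XT.lf (nat_lit 608) (nat_lit 607263326) (nat_lit 0) (nat_lit 2110343782) (nat_lit 532) (nat_lit 2110343782) (nat_lit 266) (nat_lit 1) (nat_lit 258) (nat_lit 1) (nat_lit 265) (nat_lit 1) (nat_lit 369) (nat_lit 418) (nat_lit 353))) (XT.nd (nat_lit 78) (nat_lit 532) (nat_lit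 0) (XT.lf (nat_lit 608) (nat_lit 4486115017) (nat_lit 0) (nat_lit 151715701) (nat_lit 532) (nat_lit 151715701) (nat_lit 258) (nat_lit 1) (nat_lit 250) (nat_lit 1) (nat_lit 257) (nat_lit 1) (nat_lit 370) (nat_lit 418) (nat_lit 352)) (XT.nd (nat_lit 78) (nat_lit 532) (nat_lit 0) (XT.lf (nat_lit 76) (nat_lit 1766823564) (nat_lit 0) (nat_lit 1217588001) (nat_lit 608) (nat_lit 1766823564) (nat_lit 251) (nat_lit 1) (nat_lit 250) (nat_lit 1) (nat_lit 258) (nat_lit 1) (nat_lit 371) (nat_lit 418) (nat_lit 351)) (XT.lf (nat_lit 608) (nat_lit 2591844633) (nat_lit 0) (nat_lit 1060836671) (nat_lit 532) (nat_lit 1060836671) (nat_lit 251) (nat_lit 1) (nat_lit 243) (nat_lit 1) (nat_lit 250) (nat_lit 1) (nat_lit 372) (nat_lit 418) (nat_lit 350))))))))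
noncomputable def ec140 : XT := (XT.nd (nat_lit 1404) (nat_lit 3876) (nat_lit 0) (XT.nd (nat_lit 702) (nat_lit 2584) (nat_lit 0) (XT.nd (nat_lit 312) (nat_lit 1444) (nat_lit 0) (XT.nd (nat_lit 156) (nat_lit 608) (nat_lit 0) (XT.nd (nat_lit 78) (nat_lit 456) (nat_lit 0) (XT.lf (nat_lit 76) (nat_lit 825672160) (nat_lit 0) (nat_lit 3024859493) (nat_lit 608) (nat_lit 825672160) (nat_lit 244) (nat_lit 1) (nat_lit 243) (nat_lit 1) (nat_lit 251) (nat_lit 1) (nat_lit 373) (nat_lit 418) (nat_lit 349)) (XT.lf (nat_lit 532) (nat_lit 709384797) (nat_lit 0) (nat_lit 1964923149) (nat_lit 456) (nat_lit 1964923149) (nat_lit 244) (nat_lit 1) (nat_lit 237) (nat_lit 1) (nat_lit 243) (nat_lit 1) (nat_lit 374) (nat_lit 418) (nat_lit 348))) (XT.nd (nat_lit 78) (nat_lit 0) (nat_lit 0) (XT.lf (nat_lit 608) (nat_lit 4385470856) (nat_lit 0) (nat_lit 108681674) (nat_lit 532) (nat_lit 108681674) (nat_lit 237) (nat_lit 1) (nat_lit 229) (nat_lit 1) (nat_lit 236) (nat_lit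 1) (nat_lit 375) (nat_lit 418) (nat_lit 347)) (XT.lf (nat_lit 76) (nat_lit 1710599566) (nat_lit 0) (nat_lit 1145292067) (nat_lit 608) (nat_lit 1710599566) (nat_lit 230) (nat_lit 1) (nat_lit 229) (nat_lit 1) (nat_lit 237) (nat_lit 1) (nat_lit 376) (nat_lit 418) (nat_lit 346)))) (XT.nd (nat_lit 156) (nat_lit 988) (nat_lit 0) (XT.nd (nat_lit 78) (nat_lit 0) (nat_lit 0) (XT.lf (nat_lit 532) (nat_lit 2468299884) (nat_lit 0) (nat_lit 1031206589) (nat_lit 456) (nat_lit 1031206589) (nat_lit 230) (nat_lit 1) (nat_lit 223) (nat_lit 1) (nat_lit 229) (nat_lit 1) (nat_lit 377) (nat_lit 418) (nat_lit 345)) (XT.lf (nat_lit 76) (nat_lit 758869288) (nat_lit 0) (nat_lit 2977577364) (nat_lit 532) (nat_lit 758869288) (nat_lit 224) (nat_lit 1) (nat_lit 223) (nat_lit 1) (nat_lit 230) (nat_lit 1) (nat_lit 378) (nat_lit 418) (nat_lit 344))) (XT.nd (nat_lit 78) (nat_lit 532) (nat_lit 0) (XT.lf (nat_lit 532) (nat_lit 566226401) (nat_lit 0) (nat_lit 1947001186)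 (nat_lit 456) (nat_lit 1947001186) (nat_lit 224) (nat_lit 1) (nat_lit 217) (nat_lit 1) (nat_lit 223) (nat_lit 1) (nat_lit 379) (nat_lit 418) (nat_lit 343)) (XT.nd (nat_lit 78) (nat_lit 0) (nat_lit 0) (XT.lf (nat_lit 532) (nat_lit 4057717737) (nat_lit 0) (nat_lit 183970907) (nat_lit 456) (nat_lit 183970907) (nat_lit 217) (nat_lit 1) (nat_lit 210) (nat_lit 1) (nat_lit 216) (nat_lit 1) (nat_lit 380) (nat_lit 418) (nat_lit 342)) (XT.lf (nat_lit 76) (nat_lit 1544155656) (nat_lit 0) (nat_lit 1302857853) (nat_lit 532) (nat_lit 1544155656) (nat_lit 211) (nat_lit 1) (nat_lit 210) (nat_lit 1) (nat_lit 217) (nat_lit 1) (nat_lit 381) (nat_lit 418) (nat_lit 341)))))) (XT.nd (nat_lit 312) (nat_lit 1216) (nat_lit 0) (XT.nd (nat_lit 156) (nat_lit 912) (nat_lit 0) (XT.nd (nat_lit 78) (nat_lit 0) (nat_lit 0) (XT.lf (nat_lit 532) (nat_lit 2129341426) (nat_lit 0) (nat_lit 1113922785) (nat_lit 456) (nat_lit 1113922785) (nat_lit 211) (nat_lit 1) (nat_lit 204)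 (nat_lit 1) (nat_lit 210) (nat_lit 1) (nat_lit 382) (nat_lit 418) (nat_lit 340)) (XT.lf (nat_lit 76) (nat_lit 587536635) (nat_lit 0) (nat_lit 3148521370) (nat_lit 532) (nat_lit 587536635) (nat_lit 205) (nat_lit 1) (nat_lit 204) (nat_lit 1) (nat_lit 211) (nat_lit 1) (nat_lit 383) (nat_lit 418) (nat_lit 339))) (XT.nd (nat_lit 78) (nat_lit 532) (nat_lit 0) (XT.lf (nat_lit 456) (nat_lit 218802298) (nat_lit 0) (nat_lit 2035726251) (nat_lit 380) (nat_lit 2035726251) (nat_lit 205) (nat_lit 1) (nat_lit 199) (nat_lit 1) (nat_lit 204) (nat_lit 1) (nat_lit 384) (nat_lit 418) (nat_lit 338)) (XT.lf (nat_lit 532) (nat_lit 3541923273) (nat_lit 0) (nat_lit 357714670) (nat_lit 456) (nat_lit 357714670) (nat_lit 199) (nat_lit 1) (nat_lit 192) (nat_lit 1) (nat_lit 198) (nat_lit 1) (nat_lit 385) (nat_lit 418) (nat_lit 337)))) (XT.nd (nat_lit 156) (nat_lit 836) (nat_lit 0) (XT.nd (nat_lit 78) (nat_lit 380) (nat_lit 0) (XT.lf (nat_lit 76) (nat_lit 1286540958)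 (nat_lit 0) (nat_lit 1651525864) (nat_lit 532) (nat_lit 1286540958) (nat_lit 193) (nat_lit 1) (nat_lit 192) (nat_lit 1) (nat_lit 199) (nat_lit 1) (nat_lit 386) (nat_lit 418) (nat_lit 336)) (XT.lf (nat_lit 456) (nat_lit 1612372149) (nat_lit 0) (nat_lit 1289959905) (nat_lit 380) (nat_lit 1289959905) (nat_lit 193) (nat_lit 1) (nat_lit 187) (nat_lit 1) (nat_lit 192) (nat_lit 1) (nat_lit 387) (nat_lit 418) (nat_lit 335))) (XT.nd (nat_lit 78) (nat_lit 836) (nat_lit 0) (XT.lf (nat_lit 76) (nat_lit 329910933) (nat_lit 0) (nat_lit 3500578543) (nat_lit 456) (nat_lit 329910933) (nat_lit 188) (nat_lit 1) (nat_lit 187) (nat_lit 1) (nat_lit 193) (nat_lit 1) (nat_lit 388) (nat_lit 418) (nat_lit 334)) (XT.nd (nat_lit 78) (nat_lit 380) (nat_lit 0) (XT.lf (nat_lit 76) (nat_lit 1917729613) (nat_lit 0) (nat_lit 293184809) (nat_lit 456) (nat_lit 1917729613) (nat_lit 182) (nat_lit 1) (nat_lit 181) (nat_lit 1) (nat_lit 187) (nat_lit 1) (nat_lit 389) (nat_lit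 418) (nat_lit 333)) (XT.lf (nat_lit 456) (nat_lit 2872163662) (nat_lit 0) (nat_lit 612570145) (nat_lit 380) (nat_lit 612570145) (nat_lit 182) (nat_lit 1) (nat_lit 176) (nat_lit 1) (nat_lit 181) (nat_lit 1) (nat_lit 390) (nat_lit 418) (nat_lit 332))))))) (XT.nd (nat_lit 702) (nat_lit 1976) (nat_lit 0) (XT.nd (nat_lit 312) (nat_lit 1140) (nat_lit 0) (XT.nd (nat_lit 156) (nat_lit 380) (nat_lit 0) (XT.nd (nat_lit 78) (nat_lit 380) (nat_lit 0) (XT.lf (nat_lit 76) (nat_lit 954367647) (nat_lit 0) (nat_lit 2157470126) (nat_lit 456) (nat_lit 954367647) (nat_lit 177) (nat_lit 1) (nat_lit 176) (nat_lit 1) (nat_lit 182) (nat_lit 1) (nat_lit 391) (nat_lit 418) (nat_lit 331)) (XT.lf (nat_lit 456) (nat_lit 950003796) (nat_lit 0) (nat_lit 1542717277) (nat_lit 380) (nat_lit 1542717277) (nat_lit 177) (nat_lit 1) (nat_lit 171) (nat_lit 1) (nat_lit 176) (nat_lit 1) (nat_lit 392) (nat_lit 418) (nat_lit 330))) (XT.nd (nat_lit 78) (nat_lit 380) (nat_lit 0)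 (XT.lf (nat_lit 76) (nat_lit 1889769) (nat_lit 0) (nat_lit 4001371658) (nat_lit 456) (nat_lit 1889769) (nat_lit 172) (nat_lit 1) (nat_lit 171) (nat_lit 1) (nat_lit 177) (nat_lit 1) (nat_lit 393) (nat_lit 418) (nat_lit 329)) (XT.lf (nat_lit 76) (nat_lit 1518532244) (nat_lit 0) (nat_lit 937753859) (nat_lit 380) (nat_lit 1518532244) (nat_lit 167) (nat_lit 1) (nat_lit 166) (nat_lit 1) (nat_lit 171) (nat_lit 1) (nat_lit 394) (nat_lit 418) (nat_lit 328)))) (XT.nd (nat_lit 156) (nat_lit 760) (nat_lit 0) (XT.nd (nat_lit 78) (nat_lit 0) (nat_lit 0) (XT.lf (nat_lit 456) (nat_lit 2078108420) (nat_lit 0) (nat_lit 933424952) (nat_lit 380) (nat_lit 933424952) (nat_lit 167) (nat_lit 1) (nat_lit 161) (nat_lit 1) (nat_lit 166) (nat_lit 1) (nat_lit 395) (nat_lit 418) (nat_lit 327)) (XT.lf (nat_lit 76) (nat_lit 562096552) (nat_lit 0) (nat_lit 2791220839) (nat_lit 456) (nat_lit 562096552) (nat_lit 162) (nat_lit 1) (nat_lit 161) (nat_lit 1) (nat_lit 167)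 (nat_lit 1) (nat_lit 396) (nat_lit 418) (nat_lit 326))) (XT.nd (nat_lit 78) (nat_lit 456) (nat_lit 0) (XT.lf (nat_lit 380) (nat_lit 170618717) (nat_lit 0) (nat_lit 1857735041) (nat_lit 304) (nat_lit 1857735041) (nat_lit 162) (nat_lit 1) (nat_lit 157) (nat_lit 1) (nat_lit 161) (nat_lit 1) (nat_lit 397) (nat_lit 418) (nat_lit 325)) (XT.nd (nat_lit 78) (nat_lit 0) (nat_lit 0) (XT.lf (nat_lit 456) (nat_lit 3096764448) (nat_lit 0) (nat_lit 380176305) (nat_lit 380) (nat_lit 380176305) (nat_lit 157) (nat_lit 1) (nat_lit 151) (nat_lit 1) (nat_lit 156) (nat_lit 1) (nat_lit 398) (nat_lit 418) (nat_lit 324)) (XT.lf (nat_lit 76) (nat_lit 1068653758) (nat_lit 0) (nat_lit 1690982031) (nat_lit 456) (nat_lit 1068653758) (nat_lit 152) (nat_lit 1) (nat_lit 151) (nat_lit 1) (nat_lit 157) (nat_lit 1) (nat_lit 399) (nat_lit 418) (nat_lit 323)))))) (XT.nd (nat_lit 312) (nat_lit 988) (nat_lit 0) (XT.nd (nat_lit 156) (nat_lit 684) (nat_lit 0) (XT.nd (nat_lit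 78) (nat_lit 0) (nat_lit 0) (XT.lf (nat_lit 380) (nat_lit 1185538584) (nat_lit 0) (nat_lit 1307135280) (nat_lit 304) (nat_lit 1307135280) (nat_lit 152) (nat_lit 1) (nat_lit 147) (nat_lit 1) (nat_lit 151) (nat_lit 1) (nat_lit 400) (nat_lit 418) (nat_lit 322)) (XT.lf (nat_lit 76) (nat_lit 122290269) (nat_lit 0) (nat_lit 3527152698) (nat_lit 380) (nat_lit 122290269) (nat_lit 148) (nat_lit 1) (nat_lit 147) (nat_lit 1) (nat_lit 152) (nat_lit 1) (nat_lit 401) (nat_lit 418) (nat_lit 321))) (XT.nd (nat_lit 78) (nat_lit 304) (nat_lit 0) (XT.lf (nat_lit 76) (nat_lit 1525862484) (nat_lit 0) (nat_lit 691936824) (nat_lit 380) (nat_lit 1525862484) (nat_lit 143) (nat_lit 1) (nat_lit 142) (nat_lit 1) (nat_lit 147) (nat_lit 1) (nat_lit 402) (nat_lit 418) (nat_lit 320)) (XT.lf (nat_lit 380) (nat_lit 2103012499) (nat_lit 0) (nat_lit 806488263) (nat_lit 304) (nat_lit 806488263) (nat_lit 143) (nat_lit 1) (nat_lit 138) (nat_lit 1) (nat_lit 142) (nat_lit 1)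 (nat_lit 403) (nat_lit 418) (nat_lit 319)))) (XT.nd (nat_lit 156) (nat_lit 684) (nat_lit 0) (XT.nd (nat_lit 78) (nat_lit 304) (nat_lit 0) (XT.lf (nat_lit 76) (nat_lit 579487500) (nat_lit 0) (nat_lit 2529610780) (nat_lit 380) (nat_lit 579487500) (nat_lit 139) (nat_lit 1) (nat_lit 138) (nat_lit 1) (nat_lit 143) (nat_lit 1) (nat_lit 404) (nat_lit 418) (nat_lit 318)) (XT.lf (nat_lit 380) (nat_lit 216805865) (nat_lit 0) (nat_lit 1722293835) (nat_lit 304) (nat_lit 1722293835) (nat_lit 139) (nat_lit 1) (nat_lit 134) (nat_lit 1) (nat_lit 138) (nat_lit 1) (nat_lit 405) (nat_lit 418) (nat_lit 317))) (XT.nd (nat_lit 78) (nat_lit 304) (nat_lit 0) (XT.lf (nat_lit 380) (nat_lit 2930856617) (nat_lit 0) (nat_lit 351832565) (nat_lit 304) (nat_lit 351832565) (nat_lit 134) (nat_lit 1) (nat_lit 129) (nat_lit 1) (nat_lit 133) (nat_lit 1) (nat_lit 406) (nat_lit 418) (nat_lit 316)) (XT.nd (nat_lit 78) (nat_lit 304) (nat_lit 0) (XT.lf (nat_lit 76) (nat_lit 992719812)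 (nat_lit 0) (nat_lit 1622329048) (nat_lit 380) (nat_lit 992719812) (nat_lit 130) (nat_lit 1) (nat_lit 129) (nat_lit 1) (nat_lit 134) (nat_lit 1) (nat_lit 407) (nat_lit 418) (nat_lit 315)) (XT.lf (nat_lit 380) (nat_lit 1047887004) (nat_lit 0) (nat_lit 1266721943) (nat_lit 304) (nat_lit 1266721943) (nat_lit 130) (nat_lit 1) (nat_lit 125) (nat_lit 1) (nat_lit 129) (nat_lit 1) (nat_lit 408) (nat_lit 418) (nat_lit 314))))))))
noncomputable def ec141 : XT := (XT.nd (nat_lit 1404) (nat_lit 1672) (nat_lit 0) (XT.nd (nat_lit 702) (nat_lit 1292) (nat_lit 0) (XT.nd (nat_lit 312) (nat_lit 1216) (nat_lit 0) (XT.nd (nat_lit 156) (nat_lit 304) (nat_lit 0) (XT.nd (nat_lit 78) (nat_lit 304) (nat_lit 0) (XT.lf (nat_lit 76) (nat_lit 60889059) (nat_lit 0) (nat_lit 3433497305) (nat_lit 380) (nat_lit 60889059) (nat_lit 126) (nat_lit 1) (nat_lit 125) (nat_lit 1) (nat_lit 130) (nat_lit 1) (nat_lit 409) (nat_lit 418) (nat_lit 313)) (XT.lf (nat_lit 76) (nat_lit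 1365514693) (nat_lit 0) (nat_lit 798153525) (nat_lit 304) (nat_lit 1365514693) (nat_lit 122) (nat_lit 1) (nat_lit 121) (nat_lit 1) (nat_lit 125) (nat_lit 1) (nat_lit 410) (nat_lit 418) (nat_lit 312))) (XT.nd (nat_lit 78) (nat_lit 0) (nat_lit 0) (XT.lf (nat_lit 380) (nat_lit 1799058064) (nat_lit 0) (nat_lit 852204940) (nat_lit 304) (nat_lit 852204940) (nat_lit 122) (nat_lit 1) (nat_lit 117) (nat_lit 1) (nat_lit 121) (nat_lit 1) (nat_lit 411) (nat_lit 418) (nat_lit 311)) (XT.lf (nat_lit 76) (nat_lit 436723198) (nat_lit 0) (nat_lit 2604577183) (nat_lit 380) (nat_lit 436723198) (nat_lit 118) (nat_lit 1) (nat_lit 117) (nat_lit 1) (nat_lit 122) (nat_lit 1) (nat_lit 412) (nat_lit 418) (nat_lit 310)))) (XT.nd (nat_lit 156) (nat_lit 608) (nat_lit 0) (XT.nd (nat_lit 78) (nat_lit 304) (nat_lit 0) (XT.lf (nat_lit 76) (nat_lit 1701127479) (nat_lit 0) (nat_lit 50480536) (nat_lit 304) (nat_lit 1701127479) (nat_lit 114) (nat_lit 1) (nat_lit 113) (nat_lit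 1) (nat_lit 117) (nat_lit 1) (nat_lit 413) (nat_lit 418) (nat_lit 309)) (XT.lf (nat_lit 380) (nat_lit 2476730435) (nat_lit 0) (nat_lit 475491585) (nat_lit 304) (nat_lit 475491585) (nat_lit 114) (nat_lit 1) (nat_lit 109) (nat_lit 1) (nat_lit 113) (nat_lit 1) (nat_lit 414) (nat_lit 418) (nat_lit 308))) (XT.nd (nat_lit 78) (nat_lit 608) (nat_lit 0) (XT.lf (nat_lit 76) (nat_lit 776475631) (nat_lit 0) (nat_lit 1849909465) (nat_lit 380) (nat_lit 776475631) (nat_lit 110) (nat_lit 1) (nat_lit 109) (nat_lit 1) (nat_lit 114) (nat_lit 1) (nat_lit 415) (nat_lit 418) (nat_lit 307)) (XT.nd (nat_lit 78) (nat_lit 380) (nat_lit 0) (XT.lf (nat_lit 304) (nat_lit 635114950) (nat_lit 0) (nat_lit 1371570787) (nat_lit 228) (nat_lit 1371570787) (nat_lit 110) (nat_lit 1) (nat_lit 106) (nat_lit 1) (nat_lit 109) (nat_lit 1) (nat_lit 416) (nat_lit 418) (nat_lit 306)) (XT.lf (nat_lit 380) (nat_lit 3086820859) (nat_lit 0) (nat_lit 133580675) (nat_lit 304) (nat_lit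 133580675) (nat_lit 106) (nat_lit 1) (nat_lit 101) (nat_lit 1) (nat_lit 105) (nat_lit 1) (nat_lit 417) (nat_lit 418) (nat_lit 305)))))) (XT.nd (nat_lit 312) (nat_lit 760) (nat_lit 0) (XT.nd (nat_lit 156) (nat_lit 304) (nat_lit 0) (XT.nd (nat_lit 78) (nat_lit 228) (nat_lit 0) (XT.lf (nat_lit 76) (nat_lit 1083040422) (nat_lit 0) (nat_lit 1163621327) (nat_lit 380) (nat_lit 1083040422) (nat_lit 102) (nat_lit 1) (nat_lit 101) (nat_lit 1) (nat_lit 106) (nat_lit 1) (nat_lit 418) (nat_lit 418) (nat_lit 304)) (XT.lf (nat_lit 304) (nat_lit 1255739153) (nat_lit 0) (nat_lit 1025004477) (nat_lit 228) (nat_lit 1025004477) (nat_lit 102) (nat_lit 1) (nat_lit 98) (nat_lit 1) (nat_lit 101) (nat_lit 1) (nat_lit 419) (nat_lit 418) (nat_lit 303))) (XT.nd (nat_lit 78) (nat_lit 304) (nat_lit 0) (XT.lf (nat_lit 76) (nat_lit 177465572) (nat_lit 0) (nat_lit 2927169524) (nat_lit 304) (nat_lit 177465572) (nat_lit 99) (nat_lit 1) (nat_lit 98) (nat_lit 1) (nat_lit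 102) (nat_lit 1) (nat_lit 420) (nat_lit 418) (nat_lit 302)) (XT.lf (nat_lit 76) (nat_lit 1359088374) (nat_lit 0) (nat_lit 540291465) (nat_lit 304) (nat_lit 1359088374) (nat_lit 95) (nat_lit 1) (nat_lit 94) (nat_lit 1) (nat_lit 98) (nat_lit 1) (nat_lit 421) (nat_lit 418) (nat_lit 301)))) (XT.nd (nat_lit 156) (nat_lit 532) (nat_lit 0) (XT.nd (nat_lit 78) (nat_lit 0) (nat_lit 0) (XT.lf (nat_lit 304) (nat_lit 1815982511) (nat_lit 0) (nat_lit 709578128) (nat_lit 228) (nat_lit 709578128) (nat_lit 95) (nat_lit 1) (nat_lit 91) (nat_lit 1) (nat_lit 94) (nat_lit 1) (nat_lit 422) (nat_lit 418) (nat_lit 300)) (XT.lf (nat_lit 76) (nat_lit 459725992) (nat_lit 0) (nat_lit 2292578967) (nat_lit 304) (nat_lit 459725992) (nat_lit 92) (nat_lit 1) (nat_lit 91) (nat_lit 1) (nat_lit 95) (nat_lit 1) (nat_lit 423) (nat_lit 418) (nat_lit 299))) (XT.nd (nat_lit 78) (nat_lit 304) (nat_lit 0) (XT.lf (nat_lit 304) (nat_lit 25417730) (nat_lit 0) (nat_lit 1581831379)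 (nat_lit 228) (nat_lit 1581831379) (nat_lit 92) (nat_lit 1) (nat_lit 88) (nat_lit 1) (nat_lit 91) (nat_lit 1) (nat_lit 424) (nat_lit 418) (nat_lit 298)) (XT.nd (nat_lit 78) (nat_lit 0) (nat_lit 0) (XT.lf (nat_lit 304) (nat_lit 2320700508) (nat_lit 0) (nat_lit 422827204) (nat_lit 228) (nat_lit 422827204) (nat_lit 88) (nat_lit 1) (nat_lit 84) (nat_lit 1) (nat_lit 87) (nat_lit 1) (nat_lit 425) (nat_lit 418) (nat_lit 297)) (XT.lf (nat_lit 76) (nat_lit 714691475) (nat_lit 0) (nat_lit 1714387407) (nat_lit 304) (nat_lit 714691475) (nat_lit 85) (nat_lit 1) (nat_lit 84) (nat_lit 1) (nat_lit 88) (nat_lit 1) (nat_lit 426) (nat_lit 418) (nat_lit 296))))))) (XT.nd (nat_lit 702) (nat_lit 228) (nat_lit 0) (XT.nd (nat_lit 312) (nat_lit 684) (nat_lit 0) (XT.nd (nat_lit 156) (nat_lit 228) (nat_lit 0) (XT.nd (nat_lit 78) (nat_lit 304) (nat_lit 0) (XT.lf (nat_lit 304) (nat_lit 544263343) (nat_lit 0) (nat_lit 1288572068) (nat_lit 228) (nat_lit 1288572068)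 (nat_lit 85) (nat_lit 1) (nat_lit 81) (nat_lit 1) (nat_lit 84) (nat_lit 1) (nat_lit 427) (nat_lit 418) (nat_lit 295)) (XT.lf (nat_lit 304) (nat_lit 2774373816) (nat_lit 0) (nat_lit 162476680) (nat_lit 228) (nat_lit 162476680) (nat_lit 81) (nat_lit 1) (nat_lit 77) (nat_lit 1) (nat_lit 80) (nat_lit 1) (nat_lit 428) (nat_lit 418) (nat_lit 294))) (XT.nd (nat_lit 78) (nat_lit 228) (nat_lit 0) (XT.lf (nat_lit 76) (nat_lit 944554372) (nat_lit 0) (nat_lit 1188141528) (nat_lit 304) (nat_lit 944554372) (nat_lit 78) (nat_lit 1) (nat_lit 77) (nat_lit 1) (nat_lit 81) (nat_lit 1) (nat_lit 429) (nat_lit 418) (nat_lit 293)) (XT.lf (nat_lit 304) (nat_lit 1013385091) (nat_lit 0) (nat_lit 1021033944) (nat_lit 228) (nat_lit 1021033944) (nat_lit 78) (nat_lit 1) (nat_lit 74) (nat_lit 1) (nat_lit 77) (nat_lit 1) (nat_lit 430) (nat_lit 418) (nat_lit 292)))) (XT.nd (nat_lit 156) (nat_lit 456) (nat_lit 0) (XT.nd (nat_lit 78) (nat_lit 228) (nat_lit 0) (XT.lf (nat_lit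 76) (nat_lit 74060665) (nat_lit 0) (nat_lit 2885830162) (nat_lit 304) (nat_lit 74060665) (nat_lit 75) (nat_lit 1) (nat_lit 74) (nat_lit 1) (nat_lit 78) (nat_lit 1) (nat_lit 431) (nat_lit 418) (nat_lit 291)) (XT.lf (nat_lit 76) (nat_lit 1151337846) (nat_lit 0) (nat_lit 709730257) (nat_lit 228) (nat_lit 1151337846) (nat_lit 72) (nat_lit 1) (nat_lit 71) (nat_lit 1) (nat_lit 74) (nat_lit 1) (nat_lit 432) (nat_lit 418) (nat_lit 290))) (XT.nd (nat_lit 78) (nat_lit 228) (nat_lit 0) (XT.lf (nat_lit 304) (nat_lit 1436769898) (nat_lit 0) (nat_lit 777191787) (nat_lit 228) (nat_lit 777191787) (nat_lit 72) (nat_lit 1) (nat_lit 68) (nat_lit 1) (nat_lit 71) (nat_lit 1) (nat_lit 433) (nat_lit 418) (nat_lit 289)) (XT.nd (nat_lit 78) (nat_lit 228) (nat_lit 0) (XT.lf (nat_lit 76) (nat_lit 289163808) (nat_lit 0) (nat_lit 2391803524) (nat_lit 304) (nat_lit 289163808) (nat_lit 69) (nat_lit 1) (nat_lit 68) (nat_lit 1) (nat_lit 72) (nat_lit 1) (nat_lit 434)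 (nat_lit 418) (nat_lit 288)) (XT.lf (nat_lit 76) (nat_lit 1336908800) (nat_lit 0) (nat_lit 275358640) (nat_lit 228) (nat_lit 1336908800) (nat_lit 66) (nat_lit 1) (nat_lit 65) (nat_lit 1) (nat_lit 68) (nat_lit 1) (nat_lit 435) (nat_lit 418) (nat_lit 287)))))) (XT.nd (nat_lit 49140) (nat_lit 0) (nat_lit 33136) (XT.nd (nat_lit 48906) (nat_lit 0) (nat_lit 33060) (XT.nd (nat_lit 78) (nat_lit 0) (nat_lit 0) (XT.lf (nat_lit 304) (nat_lit 1818097139) (nat_lit 0) (nat_lit 555175908) (nat_lit 228) (nat_lit 555175908) (nat_lit 66) (nat_lit 1) (nat_lit 62) (nat_lit 1) (nat_lit 65) (nat_lit 1) (nat_lit 436) (nat_lit 418) (nat_lit 286)) (XT.lf (nat_lit 76) (nat_lit 483557565) (nat_lit 0) (nat_lit 1940776872) (nat_lit 304) (nat_lit 483557565) (nat_lit 63) (nat_lit 1) (nat_lit 62) (nat_lit 1) (nat_lit 66) (nat_lit 1) (nat_lit 437) (nat_lit 418) (nat_lit 285))) (XT.nd (nat_lit 78) (nat_lit 0) (nat_lit 0) (XT.lf (nat_lit 1900) (nat_lit 1460131781) (nat_lit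 0) (nat_lit 1472341879) (nat_lit 1900) (nat_lit 1460131781) (nat_lit 522) (nat_lit 1) (nat_lit 497) (nat_lit 0) (nat_lit 522) (nat_lit 0) (nat_lit 302) (nat_lit 419) (nat_lit 419)) (XT.nd (nat_lit 78) (nat_lit 0) (nat_lit 76) (XT.lf (nat_lit 1900) (nat_lit 5773580597) (nat_lit 76) (nat_lit 1462655419) (nat_lit 0) (nat_lit 1462655419) (nat_lit 522) (nat_lit 1) (nat_lit 498) (nat_lit 1) (nat_lit 497) (nat_lit 0) (nat_lit 303) (nat_lit 419) (nat_lit 418)) (XT.lf (nat_lit 1900) (nat_lit 2834855556) (nat_lit 0) (nat_lit 2943803695) (nat_lit 1824) (nat_lit 2834855556) (nat_lit 523) (nat_lit 1) (nat_lit 498) (nat_lit 1) (nat_lit 522) (nat_lit 1) (nat_lit 304) (nat_lit 419) (nat_lit 417))))) (XT.nd (nat_lit 156) (nat_lit 0) (nat_lit 76) (XT.nd (nat_lit 78) (nat_lit 0) (nat_lit 76) (XT.lf (nat_lit 1900) (nat_lit 5548511153) (nat_lit 76) (nat_lit 1490460664) (nat_lit 0) (nat_lit 1490460664) (nat_lit 523) (nat_lit 1) (nat_lit 499) (nat_lit 1) (nat_lit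 498) (nat_lit 1) (nat_lit 305) (nat_lit 419) (nat_lit 416)) (XT.lf (nat_lit 1900) (nat_lit 2696471278) (nat_lit 0) (nat_lit 3053335780) (nat_lit 1824) (nat_lit 2696471278) (nat_lit 524) (nat_lit 1) (nat_lit 499) (nat_lit 1) (nat_lit 523) (nat_lit 1) (nat_lit 306) (nat_lit 419) (nat_lit 415))) (XT.nd (nat_lit 78) (nat_lit 0) (nat_lit 76) (XT.lf (nat_lit 1900) (nat_lit 5220336591) (nat_lit 76) (nat_lit 1572012099) (nat_lit 0) (nat_lit 1572012099) (nat_lit 524) (nat_lit 1) (nat_lit 500) (nat_lit 1) (nat_lit 499) (nat_lit 1) (nat_lit 307) (nat_lit 419) (nat_lit 414)) (XT.nd (nat_lit 78) (nat_lit 0) (nat_lit 0) (XT.lf (nat_lit 1900) (nat_lit 2508271644) (nat_lit 0) (nat_lit 3266828300) (nat_lit 1824) (nat_lit 2508271644) (nat_lit 525) (nat_lit 1) (nat_lit 500) (nat_lit 1) (nat_lit 524) (nat_lit 1) (nat_lit 308) (nat_lit 419) (nat_lit 413)) (XT.lf (nat_lit 1900) (nat_lit 4795253643) (nat_lit 76) (nat_lit 1704147676) (nat_lit 0) (nat_lit 1704147676)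 (nat_lit 525) (nat_lit 1) (nat_lit 501) (nat_lit 1) (nat_lit 500) (nat_lit 1) (nat_lit 309) (nat_lit 419) (nat_lit 412))))))))
noncomputable def ec142 : XT := (XT.nd (nat_lit 1404) (nat_lit 9424) (nat_lit 0) (XT.nd (nat_lit 702) (nat_lit 1444) (nat_lit 0) (XT.nd (nat_lit 312) (nat_lit 0) (nat_lit 152) (XT.nd (nat_lit 156) (nat_lit 0) (nat_lit 76) (XT.nd (nat_lit 78) (nat_lit 0) (nat_lit 0) (XT.lf (nat_lit 1900) (nat_lit 2273273182) (nat_lit 0) (nat_lit 3578122508) (nat_lit 1824) (nat_lit 2273273182) (nat_lit 526) (nat_lit 1) (nat_lit 501) (nat_lit 1) (nat_lit 525) (nat_lit 1) (nat_lit 310) (nat_lit 419) (nat_lit 411)) (XT.lf (nat_lit 1900) (nat_lit 4279175418) (nat_lit 76) (nat_lit 1883849213) (nat_lit 0) (nat_lit 1883849213) (nat_lit 526) (nat_lit 1) (nat_lit 502) (nat_lit 1) (nat_lit 501) (nat_lit 1) (nat_lit 311) (nat_lit 419) (nat_lit 410))) (XT.nd (nat_lit 78) (nat_lit 0) (nat_lit 0) (XT.lf (nat_lit 1900) (nat_lit 1994354064) (nat_lit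 0) (nat_lit 3981340413) (nat_lit 1824) (nat_lit 1994354064) (nat_lit 527) (nat_lit 1) (nat_lit 502) (nat_lit 1) (nat_lit 526) (nat_lit 1) (nat_lit 312) (nat_lit 419) (nat_lit 409)) (XT.lf (nat_lit 1900) (nat_lit 3677743248) (nat_lit 76) (nat_lit 2108236391) (nat_lit 0) (nat_lit 2108236391) (nat_lit 527) (nat_lit 1) (nat_lit 503) (nat_lit 1) (nat_lit 502) (nat_lit 1) (nat_lit 313) (nat_lit 419) (nat_lit 408)))) (XT.nd (nat_lit 156) (nat_lit 0) (nat_lit 76) (XT.nd (nat_lit 78) (nat_lit 0) (nat_lit 0) (XT.lf (nat_lit 1900) (nat_lit 1674259901) (nat_lit 0) (nat_lit 4470873061) (nat_lit 1824) (nat_lit 1674259901) (nat_lit 528) (nat_lit 1) (nat_lit 503) (nat_lit 1) (nat_lit 527) (nat_lit 1) (nat_lit 314) (nat_lit 419) (nat_lit 407)) (XT.lf (nat_lit 1900) (nat_lit 2996338080) (nat_lit 76) (nat_lit 2374561000) (nat_lit 0) (nat_lit 2374561000) (nat_lit 528) (nat_lit 1) (nat_lit 504) (nat_lit 1) (nat_lit 503) (nat_lit 1) (nat_lit 315) (nat_lit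 419) (nat_lit 406))) (XT.nd (nat_lit 78) (nat_lit 0) (nat_lit 0) (XT.lf (nat_lit 1900) (nat_lit 1315609291) (nat_lit 0) (nat_lit 5041369292) (nat_lit 1824) (nat_lit 1315609291) (nat_lit 529) (nat_lit 1) (nat_lit 504) (nat_lit 1) (nat_lit 528) (nat_lit 1) (nat_lit 316) (nat_lit 419) (nat_lit 405)) (XT.nd (nat_lit 78) (nat_lit 0) (nat_lit 76) (XT.lf (nat_lit 1900) (nat_lit 2240091389) (nat_lit 76) (nat_lit 2680201408) (nat_lit 0) (nat_lit 2680201408) (nat_lit 529) (nat_lit 1) (nat_lit 505) (nat_lit 1) (nat_lit 504) (nat_lit 1) (nat_lit 317) (nat_lit 419) (nat_lit 404)) (XT.lf (nat_lit 1900) (nat_lit 920899156) (nat_lit 0) (nat_lit 5687724940) (nat_lit 1824) (nat_lit 920899156) (nat_lit 530) (nat_lit 1) (nat_lit 505) (nat_lit 1) (nat_lit 529) (nat_lit 1) (nat_lit 318) (nat_lit 419) (nat_lit 403)))))) (XT.nd (nat_lit 312) (nat_lit 1748) (nat_lit 0) (XT.nd (nat_lit 156) (nat_lit 0) (nat_lit 76) (XT.nd (nat_lit 78) (nat_lit 0) (nat_lit 76)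 (XT.lf (nat_lit 1900) (nat_lit 1413895662) (nat_lit 76) (nat_lit 3022657258) (nat_lit 0) (nat_lit 3022657258) (nat_lit 530) (nat_lit 1) (nat_lit 506) (nat_lit 1) (nat_lit 505) (nat_lit 1) (nat_lit 319) (nat_lit 419) (nat_lit 402)) (XT.lf (nat_lit 1900) (nat_lit 492509856) (nat_lit 0) (nat_lit 6405072480) (nat_lit 1824) (nat_lit 492509856) (nat_lit 531) (nat_lit 1) (nat_lit 506) (nat_lit 1) (nat_lit 530) (nat_lit 1) (nat_lit 320) (nat_lit 419) (nat_lit 401))) (XT.nd (nat_lit 78) (nat_lit 0) (nat_lit 76) (XT.lf (nat_lit 1900) (nat_lit 522414459) (nat_lit 76) (nat_lit 3399544376) (nat_lit 0) (nat_lit 3399544376) (nat_lit 531) (nat_lit 1) (nat_lit 507) (nat_lit 1) (nat_lit 506) (nat_lit 1) (nat_lit 321) (nat_lit 419) (nat_lit 400)) (XT.lf (nat_lit 1900) (nat_lit 32710099) (nat_lit 0) (nat_lit 7188771078) (nat_lit 1824) (nat_lit 32710099) (nat_lit 532) (nat_lit 1) (nat_lit 507) (nat_lit 1) (nat_lit 531) (nat_lit 1) (nat_lit 322) (nat_lit 419)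 (nat_lit 399)))) (XT.nd (nat_lit 156) (nat_lit 0) (nat_lit 76) (XT.nd (nat_lit 78) (nat_lit 0) (nat_lit 0) (XT.lf (nat_lit 1976) (nat_lit 3381473200) (nat_lit 0) (nat_lit 424269615) (nat_lit 1900) (nat_lit 3381473200) (nat_lit 508) (nat_lit 1) (nat_lit 482) (nat_lit 1) (nat_lit 507) (nat_lit 1) (nat_lit 323) (nat_lit 419) (nat_lit 398)) (XT.lf (nat_lit 1976) (nat_lit 6214810321) (nat_lit 76) (nat_lit 453336114) (nat_lit 0) (nat_lit 453336114) (nat_lit 508) (nat_lit 1) (nat_lit 483) (nat_lit 1) (nat_lit 482) (nat_lit 1) (nat_lit 324) (nat_lit 419) (nat_lit 397))) (XT.nd (nat_lit 78) (nat_lit 0) (nat_lit 0) (XT.lf (nat_lit 1976) (nat_lit 2818132162) (nat_lit 0) (nat_lit 1419966639) (nat_lit 1900) (nat_lit 2818132162) (nat_lit 509) (nat_lit 1) (nat_lit 483) (nat_lit 1) (nat_lit 508) (nat_lit 1) (nat_lit 325) (nat_lit 419) (nat_lit 396)) (XT.nd (nat_lit 78) (nat_lit 0) (nat_lit 76) (XT.lf (nat_lit 1976) (nat_lit 5059720481) (nat_lit 76) (nat_lit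 966177582) (nat_lit 0) (nat_lit 966177582) (nat_lit 509) (nat_lit 1) (nat_lit 484) (nat_lit 1) (nat_lit 483) (nat_lit 1) (nat_lit 326) (nat_lit 419) (nat_lit 395)) (XT.lf (nat_lit 76) (nat_lit 2230486668) (nat_lit 0) (nat_lit 2467547917) (nat_lit 1900) (nat_lit 2230486668) (nat_lit 485) (nat_lit 1) (nat_lit 484) (nat_lit 1) (nat_lit 509) (nat_lit 1) (nat_lit 327) (nat_lit 419) (nat_lit 394))))))) (XT.nd (nat_lit 702) (nat_lit 4788) (nat_lit 0) (XT.nd (nat_lit 312) (nat_lit 2736) (nat_lit 0) (XT.nd (nat_lit 156) (nat_lit 912) (nat_lit 0) (XT.nd (nat_lit 78) (nat_lit 0) (nat_lit 0) (XT.lf (nat_lit 1216) (nat_lit 3857732464) (nat_lit 0) (nat_lit 1504081125) (nat_lit 1140) (nat_lit 1504081125) (nat_lit 485) (nat_lit 1) (nat_lit 469) (nat_lit 1) (nat_lit 484) (nat_lit 1) (nat_lit 328) (nat_lit 419) (nat_lit 393)) (XT.lf (nat_lit 76) (nat_lit 1620385973) (nat_lit 0) (nat_lit 3563223262) (nat_lit 1216) (nat_lit 1620385973) (nat_lit 470) (nat_lit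 1) (nat_lit 469) (nat_lit 1) (nat_lit 485) (nat_lit 1) (nat_lit 329) (nat_lit 419) (nat_lit 392))) (XT.nd (nat_lit 78) (nat_lit 0) (nat_lit 0) (XT.lf (nat_lit 988) (nat_lit 2612466437) (nat_lit 0) (nat_lit 2065191665) (nat_lit 912) (nat_lit 2065191665) (nat_lit 470) (nat_lit 1) (nat_lit 457) (nat_lit 1) (nat_lit 469) (nat_lit 1) (nat_lit 330) (nat_lit 419) (nat_lit 391)) (XT.lf (nat_lit 76) (nat_lit 989589770) (nat_lit 0) (nat_lit 4703384477) (nat_lit 988) (nat_lit 989589770) (nat_lit 458) (nat_lit 1) (nat_lit 457) (nat_lit 1) (nat_lit 470) (nat_lit 1) (nat_lit 331) (nat_lit 419) (nat_lit 390)))) (XT.nd (nat_lit 156) (nat_lit 1824) (nat_lit 0) (XT.nd (nat_lit 78) (nat_lit 0) (nat_lit 0) (XT.lf (nat_lit 988) (nat_lit 1327366714) (nat_lit 0) (nat_lit 2647743447) (nat_lit 912) (nat_lit 2647743447) (nat_lit 458) (nat_lit 1) (nat_lit 445) (nat_lit 1) (nat_lit 457) (nat_lit 1) (nat_lit 332) (nat_lit 419) (nat_lit 389)) (XT.lf (nat_lit 76) (nat_lit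 339772012) (nat_lit 0) (nat_lit 5884597606) (nat_lit 988) (nat_lit 339772012) (nat_lit 446) (nat_lit 1) (nat_lit 445) (nat_lit 1) (nat_lit 458) (nat_lit 1) (nat_lit 333) (nat_lit 419) (nat_lit 388))) (XT.nd (nat_lit 78) (nat_lit 988) (nat_lit 0) (XT.lf (nat_lit 912) (nat_lit 5709282) (nat_lit 0) (nat_lit 3250056239) (nat_lit 836) (nat_lit 3250056239) (nat_lit 446) (nat_lit 1) (nat_lit 434) (nat_lit 1) (nat_lit 445) (nat_lit 1) (nat_lit 334) (nat_lit 419) (nat_lit 387)) (XT.nd (nat_lit 78) (nat_lit 0) (nat_lit 0) (XT.lf (nat_lit 988) (nat_lit 5797832073) (nat_lit 0) (nat_lit 325320968) (nat_lit 912) (nat_lit 325320968) (nat_lit 434) (nat_lit 1) (nat_lit 421) (nat_lit 1) (nat_lit 433) (nat_lit 1) (nat_lit 335) (nat_lit 419) (nat_lit 386)) (XT.lf (nat_lit 76) (nat_lit 2529901823) (nat_lit 0) (nat_lit 1331693485) (nat_lit 988) (nat_lit 2529901823) (nat_lit 422) (nat_lit 1) (nat_lit 421) (nat_lit 1) (nat_lit 434) (nat_lit 1) (nat_lit 336)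 (nat_lit 419) (nat_lit 385)))))) (XT.nd (nat_lit 390) (nat_lit 2356) (nat_lit 0) (XT.nd (nat_lit 156) (nat_lit 1596) (nat_lit 0) (XT.nd (nat_lit 78) (nat_lit 0) (nat_lit 0) (XT.lf (nat_lit 912) (nat_lit 4327485222) (nat_lit 0) (nat_lit 1003990218) (nat_lit 836) (nat_lit 1003990218) (nat_lit 422) (nat_lit 1) (nat_lit 410) (nat_lit 1) (nat_lit 421) (nat_lit 1) (nat_lit 337) (nat_lit 419) (nat_lit 384)) (XT.lf (nat_lit 76) (nat_lit 1790433570) (nat_lit 0) (nat_lit 2699103763) (nat_lit 912) (nat_lit 1790433570) (nat_lit 411) (nat_lit 1) (nat_lit 410) (nat_lit 1) (nat_lit 422) (nat_lit 1) (nat_lit 338) (nat_lit 419) (nat_lit 383))) (XT.nd (nat_lit 78) (nat_lit 760) (nat_lit 0) (XT.lf (nat_lit 912) (nat_lit 2831131368) (nat_lit 0) (nat_lit 1697042366) (nat_lit 836) (nat_lit 1697042366) (nat_lit 411) (nat_lit 1) (nat_lit 399) (nat_lit 1) (nat_lit 410) (nat_lit 1) (nat_lit 339) (nat_lit 419) (nat_lit 382)) (XT.nd (nat_lit 78) (nat_lit 760) (nat_lit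 0) (XT.lf (nat_lit 76) (nat_lit 1038673541) (nat_lit 0) (nat_lit 4093820207) (nat_lit 912) (nat_lit 1038673541) (nat_lit 400) (nat_lit 1) (nat_lit 399) (nat_lit 1) (nat_lit 411) (nat_lit 1) (nat_lit 340) (nat_lit 419) (nat_lit 381)) (XT.lf (nat_lit 836) (nat_lit 1311409853) (nat_lit 0) (nat_lit 2403120153) (nat_lit 760) (nat_lit 2403120153) (nat_lit 400) (nat_lit 1) (nat_lit 389) (nat_lit 1) (nat_lit 399) (nat_lit 1) (nat_lit 341) (nat_lit 419) (nat_lit 380))))) (XT.nd (nat_lit 156) (nat_lit 1520) (nat_lit 0) (XT.nd (nat_lit 78) (nat_lit 836) (nat_lit 0) (XT.lf (nat_lit 76) (nat_lit 275903084) (nat_lit 0) (nat_lit 5513205928) (nat_lit 836) (nat_lit 275903084) (nat_lit 390) (nat_lit 1) (nat_lit 389) (nat_lit 1) (nat_lit 400) (nat_lit 1) (nat_lit 342) (nat_lit 419) (nat_lit 379)) (XT.lf (nat_lit 76) (nat_lit 2893248219) (nat_lit 0) (nat_lit 226168755) (nat_lit 836) (nat_lit 2893248219) (nat_lit 379) (nat_lit 1) (nat_lit 378) (nat_lit 1)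 (nat_lit 389) (nat_lit 1) (nat_lit 343) (nat_lit 419) (nat_lit 378))) (XT.nd (nat_lit 78) (nat_lit 760) (nat_lit 0) (XT.lf (nat_lit 836) (nat_lit 4974385632) (nat_lit 0) (nat_lit 493394462) (nat_lit 760) (nat_lit 493394462) (nat_lit 379) (nat_lit 1) (nat_lit 368) (nat_lit 1) (nat_lit 378) (nat_lit 1) (nat_lit 344) (nat_lit 419) (nat_lit 377)) (XT.nd (nat_lit 78) (nat_lit 760) (nat_lit 0) (XT.lf (nat_lit 76) (nat_lit 2072627807) (nat_lit 0) (nat_lit 1764791983) (nat_lit 836) (nat_lit 2072627807) (nat_lit 369) (nat_lit 1) (nat_lit 368) (nat_lit 1) (nat_lit 379) (nat_lit 1) (nat_lit 345) (nat_lit 419) (nat_lit 376)) (XT.lf (nat_lit 836) (nat_lit 3320772577) (nat_lit 0) (nat_lit 1269461448) (nat_lit 760) (nat_lit 1269461448) (nat_lit 369) (nat_lit 1) (nat_lit 358) (nat_lit 1) (nat_lit 368) (nat_lit 1) (nat_lit 346) (nat_lit 419) (nat_lit 375))))))))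
noncomputable def ec143 : XT := (XT.nd (nat_lit 1404) (nat_lit 6080) (nat_lit 0) (XT.nd (nat_lit 702) (nat_lit 3116) (nat_lit 0) (XT.nd (nat_lit 312) (nat_lit 1976) (nat_lit 0) (XT.nd (nat_lit 156) (nat_lit 760) (nat_lit 0) (XT.nd (nat_lit 78) (nat_lit 684) (nat_lit 0) (XT.lf (nat_lit 76) (nat_lit 1245232000) (nat_lit 0) (nat_lit 3319435432) (nat_lit 836) (nat_lit 1245232000) (nat_lit 359) (nat_lit 1) (nat_lit 358) (nat_lit 1) (nat_lit 369) (nat_lit 1) (nat_lit 347) (nat_lit 419) (nat_lit 374)) (XT.lf (nat_lit 760) (nat_lit 1654597594) (nat_lit 0) (nat_lit 2053026993) (nat_lit 684) (nat_lit 2053026993) (nat_lit 359) (nat_lit 1) (nat_lit 349) (nat_lit 1) (nat_lit 358) (nat_lit 1) (nat_lit 348) (nat_lit 419) (nat_lit 373))) (XT.nd (nat_lit 78) (nat_lit 760) (nat_lit 0) (XT.lf (nat_lit 76) (nat_lit 412081562) (nat_lit 0) (nat_lit 4887991393) (nat_lit 760) (nat_lit 412081562) (nat_lit 350) (nat_lit 1) (nat_lit 349) (nat_lit 1) (nat_lit 359)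 (nat_lit 1) (nat_lit 349) (nat_lit 419) (nat_lit 372)) (XT.lf (nat_lit 76) (nat_lit 2821059628) (nat_lit 0) (nat_lit 21855701) (nat_lit 760) (nat_lit 2821059628) (nat_lit 340) (nat_lit 1) (nat_lit 339) (nat_lit 1) (nat_lit 349) (nat_lit 1) (nat_lit 350) (nat_lit 419) (nat_lit 371)))) (XT.nd (nat_lit 156) (nat_lit 1292) (nat_lit 0) (XT.nd (nat_lit 78) (nat_lit 0) (nat_lit 0) (XT.lf (nat_lit 760) (nat_lit 4770415643) (nat_lit 0) (nat_lit 423055541) (nat_lit 684) (nat_lit 423055541) (nat_lit 340) (nat_lit 1) (nat_lit 330) (nat_lit 1) (nat_lit 339) (nat_lit 1) (nat_lit 351) (nat_lit 419) (nat_lit 370)) (XT.lf (nat_lit 76) (nat_lit 1942106050) (nat_lit 0) (nat_lit 1685177297) (nat_lit 760) (nat_lit 1942106050) (nat_lit 331) (nat_lit 1) (nat_lit 330) (nat_lit 1) (nat_lit 340) (nat_lit 1) (nat_lit 352) (nat_lit 419) (nat_lit 369))) (XT.nd (nat_lit 78) (nat_lit 608) (nat_lit 0) (XT.lf (nat_lit 760) (nat_lit 3004298407) (nat_lit 0) (nat_lit 1259330269)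 (nat_lit 684) (nat_lit 1259330269) (nat_lit 331) (nat_lit 1) (nat_lit 321) (nat_lit 1) (nat_lit 330) (nat_lit 1) (nat_lit 353) (nat_lit 419) (nat_lit 368)) (XT.nd (nat_lit 78) (nat_lit 608) (nat_lit 0) (XT.lf (nat_lit 76) (nat_lit 1060870953) (nat_lit 0) (nat_lit 3355306870) (nat_lit 760) (nat_lit 1060870953) (nat_lit 322) (nat_lit 1) (nat_lit 321) (nat_lit 1) (nat_lit 331) (nat_lit 1) (nat_lit 354) (nat_lit 419) (nat_lit 367)) (XT.lf (nat_lit 684) (nat_lit 1234416047) (nat_lit 0) (nat_lit 2098594964) (nat_lit 608) (nat_lit 2098594964) (nat_lit 322) (nat_lit 1) (nat_lit 313) (nat_lit 1) (nat_lit 321) (nat_lit 1) (nat_lit 355) (nat_lit 419) (nat_lit 366)))))) (XT.nd (nat_lit 312) (nat_lit 1824) (nat_lit 0) (XT.nd (nat_lit 156) (nat_lit 608) (nat_lit 0) (XT.nd (nat_lit 78) (nat_lit 684) (nat_lit 0) (XT.lf (nat_lit 76) (nat_lit 178156897) (nat_lit 0) (nat_lit 5030580122) (nat_lit 684) (nat_lit 178156897) (nat_lit 314) (nat_lit 1) (nat_lit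 313) (nat_lit 1) (nat_lit 322) (nat_lit 1) (nat_lit 356) (nat_lit 419) (nat_lit 365)) (XT.lf (nat_lit 76) (nat_lit 2405862357) (nat_lit 0) (nat_lit 530615093) (nat_lit 684) (nat_lit 2405862357) (nat_lit 305) (nat_lit 1) (nat_lit 304) (nat_lit 1) (nat_lit 313) (nat_lit 1) (nat_lit 357) (nat_lit 419) (nat_lit 364))) (XT.nd (nat_lit 78) (nat_lit 0) (nat_lit 0) (XT.lf (nat_lit 684) (nat_lit 3897222379) (nat_lit 0) (nat_lit 700638726) (nat_lit 608) (nat_lit 700638726) (nat_lit 305) (nat_lit 1) (nat_lit 296) (nat_lit 1) (nat_lit 304) (nat_lit 1) (nat_lit 358) (nat_lit 419) (nat_lit 363)) (XT.lf (nat_lit 76) (nat_lit 1487421021) (nat_lit 0) (nat_lit 2280171355) (nat_lit 684) (nat_lit 1487421021) (nat_lit 297) (nat_lit 1) (nat_lit 296) (nat_lit 1) (nat_lit 305) (nat_lit 1) (nat_lit 359) (nat_lit 419) (nat_lit 362)))) (XT.nd (nat_lit 156) (nat_lit 1216) (nat_lit 0) (XT.nd (nat_lit 78) (nat_lit 0) (nat_lit 0) (XT.lf (nat_lit 684) (nat_lit 2055546467)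 (nat_lit 0) (nat_lit 1578269515) (nat_lit 608) (nat_lit 1578269515) (nat_lit 297) (nat_lit 1) (nat_lit 288) (nat_lit 1) (nat_lit 296) (nat_lit 1) (nat_lit 360) (nat_lit 419) (nat_lit 361)) (XT.lf (nat_lit 76) (nat_lit 570331702) (nat_lit 0) (nat_lit 4029068998) (nat_lit 684) (nat_lit 570331702) (nat_lit 289) (nat_lit 1) (nat_lit 288) (nat_lit 1) (nat_lit 297) (nat_lit 1) (nat_lit 361) (nat_lit 419) (nat_lit 360))) (XT.nd (nat_lit 78) (nat_lit 684) (nat_lit 0) (XT.lf (nat_lit 608) (nat_lit 217212194) (nat_lit 0) (nat_lit 2455238910) (nat_lit 532) (nat_lit 2455238910) (nat_lit 289) (nat_lit 1) (nat_lit 281) (nat_lit 1) (nat_lit 288) (nat_lit 1) (nat_lit 362) (nat_lit 419) (nat_lit 359)) (XT.nd (nat_lit 78) (nat_lit 0) (nat_lit 0) (XT.lf (nat_lit 684) (nat_lit 4401230123) (nat_lit 0) (nat_lit 342516986) (nat_lit 608) (nat_lit 342516986) (nat_lit 281) (nat_lit 1) (nat_lit 272) (nat_lit 1) (nat_lit 280) (nat_lit 1) (nat_lit 363) (nat_lit 419)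 (nat_lit 358)) (XT.lf (nat_lit 76) (nat_lit 1724839728) (nat_lit 0) (nat_lit 1595371825) (nat_lit 684) (nat_lit 1724839728) (nat_lit 273) (nat_lit 1) (nat_lit 272) (nat_lit 1) (nat_lit 281) (nat_lit 1) (nat_lit 364) (nat_lit 419) (nat_lit 357))))))) (XT.nd (nat_lit 702) (nat_lit 2812) (nat_lit 0) (XT.nd (nat_lit 312) (nat_lit 1596) (nat_lit 0) (XT.nd (nat_lit 156) (nat_lit 1140) (nat_lit 0) (XT.nd (nat_lit 78) (nat_lit 0) (nat_lit 0) (XT.lf (nat_lit 608) (nat_lit 2506290778) (nat_lit 0) (nat_lit 1249074991) (nat_lit 532) (nat_lit 1249074991) (nat_lit 273) (nat_lit 1) (nat_lit 265) (nat_lit 1) (nat_lit 272) (nat_lit 1) (nat_lit 365) (nat_lit 419) (nat_lit 356)) (XT.lf (nat_lit 76) (nat_lit 782400983) (nat_lit 0) (nat_lit 3399499108) (nat_lit 608) (nat_lit 782400983) (nat_lit 266) (nat_lit 1) (nat_lit 265) (nat_lit 1) (nat_lit 273) (nat_lit 1) (nat_lit 366) (nat_lit 419) (nat_lit 355))) (XT.nd (nat_lit 78) (nat_lit 608) (nat_lit 0) (XT.lf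 (nat_lit 608) (nat_lit 619408592) (nat_lit 0) (nat_lit 2152550658) (nat_lit 532) (nat_lit 2152550658) (nat_lit 266) (nat_lit 1) (nat_lit 258) (nat_lit 1) (nat_lit 265) (nat_lit 1) (nat_lit 367) (nat_lit 419) (nat_lit 354)) (XT.lf (nat_lit 608) (nat_lit 4575837317) (nat_lit 0) (nat_lit 154750015) (nat_lit 532) (nat_lit 154750015) (nat_lit 258) (nat_lit 1) (nat_lit 250) (nat_lit 1) (nat_lit 257) (nat_lit 1) (nat_lit 368) (nat_lit 419) (nat_lit 353)))) (XT.nd (nat_lit 156) (nat_lit 1064) (nat_lit 0) (XT.nd (nat_lit 78) (nat_lit 532) (nat_lit 0) (XT.lf (nat_lit 76) (nat_lit 1802160035) (nat_lit 0) (nat_lit 1241939761) (nat_lit 608) (nat_lit 1802160035) (nat_lit 251) (nat_lit 1) (nat_lit 250) (nat_lit 1) (nat_lit 258) (nat_lit 1) (nat_lit 369) (nat_lit 419) (nat_lit 352)) (XT.lf (nat_lit 608) (nat_lit 2643681526) (nat_lit 0) (nat_lit 1082053404) (nat_lit 532) (nat_lit 1082053404) (nat_lit 251) (nat_lit 1) (nat_lit 243) (nat_lit 1) (nat_lit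 250) (nat_lit 1) (nat_lit 370) (nat_lit 419) (nat_lit 351))) (XT.nd (nat_lit 78) (nat_lit 1064) (nat_lit 0) (XT.lf (nat_lit 76) (nat_lit 842185603) (nat_lit 0) (nat_lit 3085356683) (nat_lit 608) (nat_lit 842185603) (nat_lit 244) (nat_lit 1) (nat_lit 243) (nat_lit 1) (nat_lit 251) (nat_lit 1) (nat_lit 371) (nat_lit 419) (nat_lit 350)) (XT.nd (nat_lit 78) (nat_lit 608) (nat_lit 0) (XT.lf (nat_lit 532) (nat_lit 723572493) (nat_lit 0) (nat_lit 2004221612) (nat_lit 456) (nat_lit 2004221612) (nat_lit 244) (nat_lit 1) (nat_lit 237) (nat_lit 1) (nat_lit 243) (nat_lit 1) (nat_lit 372) (nat_lit 419) (nat_lit 349)) (XT.lf (nat_lit 608) (nat_lit 4473180273) (nat_lit 0) (nat_lit 110855308) (nat_lit 532) (nat_lit 110855308) (nat_lit 237) (nat_lit 1) (nat_lit 229) (nat_lit 1) (nat_lit 236) (nat_lit 1) (nat_lit 373) (nat_lit 419) (nat_lit 348)))))) (XT.nd (nat_lit 390) (nat_lit 1368) (nat_lit 0) (XT.nd (nat_lit 156) (nat_lit 988) (nat_lit 0) (XT.nd (nat_lit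 78) (nat_lit 456) (nat_lit 0) (XT.lf (nat_lit 76) (nat_lit 1744811558) (nat_lit 0) (nat_lit 1168197908) (nat_lit 608) (nat_lit 1744811558) (nat_lit 230) (nat_lit 1) (nat_lit 229) (nat_lit 1) (nat_lit 237) (nat_lit 1) (nat_lit 374) (nat_lit 419) (nat_lit 347)) (XT.lf (nat_lit 532) (nat_lit 2517665881) (nat_lit 0) (nat_lit 1051830721) (nat_lit 456) (nat_lit 1051830721) (nat_lit 230) (nat_lit 1) (nat_lit 223) (nat_lit 1) (nat_lit 229) (nat_lit 1) (nat_lit 375) (nat_lit 419) (nat_lit 346))) (XT.nd (nat_lit 78) (nat_lit 988) (nat_lit 0) (XT.lf (nat_lit 76) (nat_lit 774046674) (nat_lit 0) (nat_lit 3037128911) (nat_lit 532) (nat_lit 774046674) (nat_lit 224) (nat_lit 1) (nat_lit 223) (nat_lit 1) (nat_lit 230) (nat_lit 1) (nat_lit 376) (nat_lit 419) (nat_lit 345)) (XT.nd (nat_lit 78) (nat_lit 532) (nat_lit 0) (XT.lf (nat_lit 532) (nat_lit 577550929) (nat_lit 0) (nat_lit 1985941210) (nat_lit 456) (nat_lit 1985941210) (nat_lit 224) (nat_lit 1) (nat_lit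 217) (nat_lit 1) (nat_lit 223) (nat_lit 1) (nat_lit 377) (nat_lit 419) (nat_lit 344)) (XT.lf (nat_lit 532) (nat_lit 4138872092) (nat_lit 0) (nat_lit 187650326) (nat_lit 456) (nat_lit 187650326) (nat_lit 217) (nat_lit 1) (nat_lit 210) (nat_lit 1) (nat_lit 216) (nat_lit 1) (nat_lit 378) (nat_lit 419) (nat_lit 343))))) (XT.nd (nat_lit 156) (nat_lit 912) (nat_lit 0) (XT.nd (nat_lit 78) (nat_lit 456) (nat_lit 0) (XT.lf (nat_lit 76) (nat_lit 1575038770) (nat_lit 0) (nat_lit 1328915010) (nat_lit 532) (nat_lit 1575038770) (nat_lit 211) (nat_lit 1) (nat_lit 210) (nat_lit 1) (nat_lit 217) (nat_lit 1) (nat_lit 379) (nat_lit 419) (nat_lit 342)) (XT.lf (nat_lit 532) (nat_lit 2171928254) (nat_lit 0) (nat_lit 1136201240) (nat_lit 456) (nat_lit 1136201240) (nat_lit 211) (nat_lit 1) (nat_lit 204) (nat_lit 1) (nat_lit 210) (nat_lit 1) (nat_lit 380) (nat_lit 419) (nat_lit 341))) (XT.nd (nat_lit 78) (nat_lit 912) (nat_lit 0) (XT.lf (nat_lit 76) (nat_lit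 599287367) (nat_lit 0) (nat_lit 3211491797) (nat_lit 532) (nat_lit 599287367) (nat_lit 205) (nat_lit 1) (nat_lit 204) (nat_lit 1) (nat_lit 211) (nat_lit 1) (nat_lit 381) (nat_lit 419) (nat_lit 340)) (XT.nd (nat_lit 78) (nat_lit 532) (nat_lit 0) (XT.lf (nat_lit 456) (nat_lit 223178344) (nat_lit 0) (nat_lit 2076440776) (nat_lit 380) (nat_lit 2076440776) (nat_lit 205) (nat_lit 1) (nat_lit 199) (nat_lit 1) (nat_lit 204) (nat_lit 1) (nat_lit 382) (nat_lit 419) (nat_lit 339)) (XT.lf (nat_lit 532) (nat_lit 3612761738) (nat_lit 0) (nat_lit 364868963) (nat_lit 456) (nat_lit 364868963) (nat_lit 199) (nat_lit 1) (nat_lit 192) (nat_lit 1) (nat_lit 198) (nat_lit 1) (nat_lit 383) (nat_lit 419) (nat_lit 338))))))))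
noncomputable def ec144 : XT := (XT.nd (nat_lit 1404) (nat_lit 3344) (nat_lit 0) (XT.nd (nat_lit 702) (nat_lit 2128) (nat_lit 0) (XT.nd (nat_lit 312) (nat_lit 1140) (nat_lit 0) (XT.nd (nat_lit 156) (nat_lit 456) (nat_lit 0) (XT.nd (nat_lit 78) (nat_lit 380) (nat_lit 0) (XT.lf (nat_lit 76) (nat_lit 1312271778) (nat_lit 0) (nat_lit 1684556381) (nat_lit 532) (nat_lit 1312271778) (nat_lit 193) (nat_lit 1) (nat_lit 192) (nat_lit 1) (nat_lit 199) (nat_lit 1) (nat_lit 384) (nat_lit 419) (nat_lit 337)) (XT.lf (nat_lit 456) (nat_lit 1644619592) (nat_lit 0) (nat_lit 1315759103) (nat_lit 380) (nat_lit 1315759103) (nat_lit 193) (nat_lit 1) (nat_lit 187) (nat_lit 1) (nat_lit 192) (nat_lit 1) (nat_lit 385) (nat_lit 419) (nat_lit 336))) (XT.nd (nat_lit 78) (nat_lit 456) (nat_lit 0) (XT.lf (nat_lit 76) (nat_lit 336509152) (nat_lit 0) (nat_lit 3570590113) (nat_lit 456) (nat_lit 336509152) (nat_lit 188) (nat_lit 1) (nat_lit 187) (nat_lit 1) (nat_lit 193)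 (nat_lit 1) (nat_lit 386) (nat_lit 419) (nat_lit 335)) (XT.lf (nat_lit 76) (nat_lit 1956084205) (nat_lit 0) (nat_lit 299048505) (nat_lit 456) (nat_lit 1956084205) (nat_lit 182) (nat_lit 1) (nat_lit 181) (nat_lit 1) (nat_lit 187) (nat_lit 1) (nat_lit 387) (nat_lit 419) (nat_lit 334)))) (XT.nd (nat_lit 156) (nat_lit 760) (nat_lit 0) (XT.nd (nat_lit 78) (nat_lit 0) (nat_lit 0) (XT.lf (nat_lit 456) (nat_lit 2929606935) (nat_lit 0) (nat_lit 624821548) (nat_lit 380) (nat_lit 624821548) (nat_lit 182) (nat_lit 1) (nat_lit 176) (nat_lit 1) (nat_lit 181) (nat_lit 1) (nat_lit 388) (nat_lit 419) (nat_lit 333)) (XT.lf (nat_lit 76) (nat_lit 973455000) (nat_lit 0) (nat_lit 2200619528) (nat_lit 456) (nat_lit 973455000) (nat_lit 177) (nat_lit 1) (nat_lit 176) (nat_lit 1) (nat_lit 182) (nat_lit 1) (nat_lit 389) (nat_lit 419) (nat_lit 332))) (XT.nd (nat_lit 78) (nat_lit 380) (nat_lit 0) (XT.lf (nat_lit 456) (nat_lit 969003872) (nat_lit 0) (nat_lit 1573571623)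 (nat_lit 380) (nat_lit 1573571623) (nat_lit 177) (nat_lit 1) (nat_lit 171) (nat_lit 1) (nat_lit 176) (nat_lit 1) (nat_lit 390) (nat_lit 419) (nat_lit 331)) (XT.nd (nat_lit 78) (nat_lit 380) (nat_lit 0) (XT.lf (nat_lit 76) (nat_lit 1927564) (nat_lit 0) (nat_lit 4081399092) (nat_lit 456) (nat_lit 1927564) (nat_lit 172) (nat_lit 1) (nat_lit 171) (nat_lit 1) (nat_lit 177) (nat_lit 1) (nat_lit 391) (nat_lit 419) (nat_lit 330)) (XT.lf (nat_lit 76) (nat_lit 1548902889) (nat_lit 0) (nat_lit 956508936) (nat_lit 380) (nat_lit 1548902889) (nat_lit 167) (nat_lit 1) (nat_lit 166) (nat_lit 1) (nat_lit 171) (nat_lit 1) (nat_lit 392) (nat_lit 419) (nat_lit 329)))))) (XT.nd (nat_lit 312) (nat_lit 988) (nat_lit 0) (XT.nd (nat_lit 156) (nat_lit 760) (nat_lit 0) (XT.nd (nat_lit 78) (nat_lit 0) (nat_lit 0) (XT.lf (nat_lit 456) (nat_lit 2119670589) (nat_lit 0) (nat_lit 952093451) (nat_lit 380) (nat_lit 952093451) (nat_lit 167) (nat_lit 1) (nat_lit 161) (nat_lit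 1) (nat_lit 166) (nat_lit 1) (nat_lit 393) (nat_lit 419) (nat_lit 328)) (XT.lf (nat_lit 76) (nat_lit 573338483) (nat_lit 0) (nat_lit 2847045255) (nat_lit 456) (nat_lit 573338483) (nat_lit 162) (nat_lit 1) (nat_lit 161) (nat_lit 1) (nat_lit 167) (nat_lit 1) (nat_lit 394) (nat_lit 419) (nat_lit 327))) (XT.nd (nat_lit 78) (nat_lit 456) (nat_lit 0) (XT.lf (nat_lit 380) (nat_lit 174031091) (nat_lit 0) (nat_lit 1894889742) (nat_lit 304) (nat_lit 1894889742) (nat_lit 162) (nat_lit 1) (nat_lit 157) (nat_lit 1) (nat_lit 161) (nat_lit 1) (nat_lit 395) (nat_lit 419) (nat_lit 326)) (XT.lf (nat_lit 456) (nat_lit 3158699737) (nat_lit 0) (nat_lit 387779832) (nat_lit 380) (nat_lit 387779832) (nat_lit 157) (nat_lit 1) (nat_lit 151) (nat_lit 1) (nat_lit 156) (nat_lit 1) (nat_lit 396) (nat_lit 419) (nat_lit 325)))) (XT.nd (nat_lit 156) (nat_lit 684) (nat_lit 0) (XT.nd (nat_lit 78) (nat_lit 304) (nat_lit 0) (XT.lf (nat_lit 76) (nat_lit 1090026833) (nat_lit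 0) (nat_lit 1724801671) (nat_lit 456) (nat_lit 1090026833) (nat_lit 152) (nat_lit 1) (nat_lit 151) (nat_lit 1) (nat_lit 157) (nat_lit 1) (nat_lit 397) (nat_lit 419) (nat_lit 324)) (XT.lf (nat_lit 380) (nat_lit 1209249356) (nat_lit 0) (nat_lit 1333277986) (nat_lit 304) (nat_lit 1333277986) (nat_lit 152) (nat_lit 1) (nat_lit 147) (nat_lit 1) (nat_lit 151) (nat_lit 1) (nat_lit 398) (nat_lit 419) (nat_lit 323))) (XT.nd (nat_lit 78) (nat_lit 684) (nat_lit 0) (XT.lf (nat_lit 76) (nat_lit 124736074) (nat_lit 0) (nat_lit 3597695752) (nat_lit 380) (nat_lit 124736074) (nat_lit 148) (nat_lit 1) (nat_lit 147) (nat_lit 1) (nat_lit 152) (nat_lit 1) (nat_lit 399) (nat_lit 419) (nat_lit 322)) (XT.nd (nat_lit 78) (nat_lit 304) (nat_lit 0) (XT.lf (nat_lit 76) (nat_lit 1556379733) (nat_lit 0) (nat_lit 705775561) (nat_lit 380) (nat_lit 1556379733) (nat_lit 143) (nat_lit 1) (nat_lit 142) (nat_lit 1) (nat_lit 147) (nat_lit 1) (nat_lit 400) (nat_lit 419) (nat_lit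 321)) (XT.lf (nat_lit 380) (nat_lit 2145072749) (nat_lit 0) (nat_lit 822618029) (nat_lit 304) (nat_lit 822618029) (nat_lit 143) (nat_lit 1) (nat_lit 138) (nat_lit 1) (nat_lit 142) (nat_lit 1) (nat_lit 401) (nat_lit 419) (nat_lit 320))))))) (XT.nd (nat_lit 702) (nat_lit 1748) (nat_lit 0) (XT.nd (nat_lit 312) (nat_lit 912) (nat_lit 0) (XT.nd (nat_lit 156) (nat_lit 380) (nat_lit 0) (XT.nd (nat_lit 78) (nat_lit 304) (nat_lit 0) (XT.lf (nat_lit 76) (nat_lit 591077250) (nat_lit 0) (nat_lit 2580202996) (nat_lit 380) (nat_lit 591077250) (nat_lit 139) (nat_lit 1) (nat_lit 138) (nat_lit 1) (nat_lit 143) (nat_lit 1) (nat_lit 402) (nat_lit 419) (nat_lit 319)) (XT.lf (nat_lit 380) (nat_lit 221141983) (nat_lit 0) (nat_lit 1756739712) (nat_lit 304) (nat_lit 1756739712) (nat_lit 139) (nat_lit 1) (nat_lit 134) (nat_lit 1) (nat_lit 138) (nat_lit 1) (nat_lit 403) (nat_lit 419) (nat_lit 318))) (XT.nd (nat_lit 78) (nat_lit 0) (nat_lit 0) (XT.lf (nat_lit 380)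 (nat_lit 2989473749) (nat_lit 0) (nat_lit 358869216) (nat_lit 304) (nat_lit 358869216) (nat_lit 134) (nat_lit 1) (nat_lit 129) (nat_lit 1) (nat_lit 133) (nat_lit 1) (nat_lit 404) (nat_lit 419) (nat_lit 317)) (XT.lf (nat_lit 76) (nat_lit 1012574209) (nat_lit 0) (nat_lit 1654775629) (nat_lit 380) (nat_lit 1012574209) (nat_lit 130) (nat_lit 1) (nat_lit 129) (nat_lit 1) (nat_lit 134) (nat_lit 1) (nat_lit 405) (nat_lit 419) (nat_lit 316)))) (XT.nd (nat_lit 156) (nat_lit 608) (nat_lit 0) (XT.nd (nat_lit 78) (nat_lit 0) (nat_lit 0) (XT.lf (nat_lit 380) (nat_lit 1068844744) (nat_lit 0) (nat_lit 1292056382) (nat_lit 304) (nat_lit 1292056382) (nat_lit 130) (nat_lit 1) (nat_lit 125) (nat_lit 1) (nat_lit 129) (nat_lit 1) (nat_lit 406) (nat_lit 419) (nat_lit 315)) (XT.lf (nat_lit 76) (nat_lit 62106841) (nat_lit 0) (nat_lit 3502167251) (nat_lit 380) (nat_lit 62106841) (nat_lit 126) (nat_lit 1) (nat_lit 125) (nat_lit 1) (nat_lit 130) (nat_lit 1) (nat_lit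 407) (nat_lit 419) (nat_lit 314))) (XT.nd (nat_lit 78) (nat_lit 304) (nat_lit 0) (XT.lf (nat_lit 76) (nat_lit 1392824987) (nat_lit 0) (nat_lit 814116595) (nat_lit 304) (nat_lit 1392824987) (nat_lit 122) (nat_lit 1) (nat_lit 121) (nat_lit 1) (nat_lit 125) (nat_lit 1) (nat_lit 408) (nat_lit 419) (nat_lit 313)) (XT.nd (nat_lit 78) (nat_lit 0) (nat_lit 0) (XT.lf (nat_lit 380) (nat_lit 1835039225) (nat_lit 0) (nat_lit 869249039) (nat_lit 304) (nat_lit 869249039) (nat_lit 122) (nat_lit 1) (nat_lit 117) (nat_lit 1) (nat_lit 121) (nat_lit 1) (nat_lit 409) (nat_lit 419) (nat_lit 312)) (XT.lf (nat_lit 76) (nat_lit 445457662) (nat_lit 0) (nat_lit 2656668727) (nat_lit 380) (nat_lit 445457662) (nat_lit 118) (nat_lit 1) (nat_lit 117) (nat_lit 1) (nat_lit 122) (nat_lit 1) (nat_lit 410) (nat_lit 419) (nat_lit 311)))))) (XT.nd (nat_lit 312) (nat_lit 912) (nat_lit 0) (XT.nd (nat_lit 156) (nat_lit 228) (nat_lit 0) (XT.nd (nat_lit 78) (nat_lit 304) (nat_lit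 0) (XT.lf (nat_lit 76) (nat_lit 1735150029) (nat_lit 0) (nat_lit 51490147) (nat_lit 304) (nat_lit 1735150029) (nat_lit 114) (nat_lit 1) (nat_lit 113) (nat_lit 1) (nat_lit 117) (nat_lit 1) (nat_lit 411) (nat_lit 419) (nat_lit 310)) (XT.lf (nat_lit 380) (nat_lit 2526265043) (nat_lit 0) (nat_lit 485001416) (nat_lit 304) (nat_lit 485001416) (nat_lit 114) (nat_lit 1) (nat_lit 109) (nat_lit 1) (nat_lit 113) (nat_lit 1) (nat_lit 412) (nat_lit 419) (nat_lit 309))) (XT.nd (nat_lit 78) (nat_lit 228) (nat_lit 0) (XT.lf (nat_lit 76) (nat_lit 792005143) (nat_lit 0) (nat_lit 1886907654) (nat_lit 380) (nat_lit 792005143) (nat_lit 110) (nat_lit 1) (nat_lit 109) (nat_lit 1) (nat_lit 114) (nat_lit 1) (nat_lit 413) (nat_lit 419) (nat_lit 308)) (XT.lf (nat_lit 304) (nat_lit 647817249) (nat_lit 0) (nat_lit 1399002203) (nat_lit 228) (nat_lit 1399002203) (nat_lit 110) (nat_lit 1) (nat_lit 106) (nat_lit 1) (nat_lit 109) (nat_lit 1) (nat_lit 414) (nat_lit 419)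 (nat_lit 307)))) (XT.nd (nat_lit 156) (nat_lit 532) (nat_lit 0) (XT.nd (nat_lit 78) (nat_lit 0) (nat_lit 0) (XT.lf (nat_lit 380) (nat_lit 3148557276) (nat_lit 0) (nat_lit 136252288) (nat_lit 304) (nat_lit 136252288) (nat_lit 106) (nat_lit 1) (nat_lit 101) (nat_lit 1) (nat_lit 105) (nat_lit 1) (nat_lit 415) (nat_lit 419) (nat_lit 306)) (XT.lf (nat_lit 76) (nat_lit 1104701231) (nat_lit 0) (nat_lit 1186893754) (nat_lit 380) (nat_lit 1104701231) (nat_lit 102) (nat_lit 1) (nat_lit 101) (nat_lit 1) (nat_lit 106) (nat_lit 1) (nat_lit 416) (nat_lit 419) (nat_lit 305))) (XT.nd (nat_lit 78) (nat_lit 304) (nat_lit 0) (XT.lf (nat_lit 304) (nat_lit 1280853936) (nat_lit 0) (nat_lit 1045504567) (nat_lit 228) (nat_lit 1045504567) (nat_lit 102) (nat_lit 1) (nat_lit 98) (nat_lit 1) (nat_lit 101) (nat_lit 1) (nat_lit 417) (nat_lit 419) (nat_lit 304)) (XT.nd (nat_lit 78) (nat_lit 304) (nat_lit 0) (XT.lf (nat_lit 76) (nat_lit 181014884) (nat_lit 0) (nat_lit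 2985712915) (nat_lit 304) (nat_lit 181014884) (nat_lit 99) (nat_lit 1) (nat_lit 98) (nat_lit 1) (nat_lit 102) (nat_lit 1) (nat_lit 418) (nat_lit 419) (nat_lit 303)) (XT.lf (nat_lit 76) (nat_lit 1386270141) (nat_lit 0) (nat_lit 551097294) (nat_lit 304) (nat_lit 1386270141) (nat_lit 95) (nat_lit 1) (nat_lit 94) (nat_lit 1) (nat_lit 98) (nat_lit 1) (nat_lit 419) (nat_lit 419) (nat_lit 302))))))))
noncomputable def ec145 : XT := (XT.nd (nat_lit 50076) (nat_lit 0) (nat_lit 33212) (XT.nd (nat_lit 702) (nat_lit 1064) (nat_lit 0) (XT.nd (nat_lit 312) (nat_lit 760) (nat_lit 0) (XT.nd (nat_lit 156) (nat_lit 532) (nat_lit 0) (XT.nd (nat_lit 78) (nat_lit 0) (nat_lit 0) (XT.lf (nat_lit 304) (nat_lit 1852302162) (nat_lit 0) (nat_lit 723769690) (nat_lit 228) (nat_lit 723769690) (nat_lit 95) (nat_lit 1) (nat_lit 91) (nat_lit 1) (nat_lit 94) (nat_lit 1) (nat_lit 420) (nat_lit 419) (nat_lit 301)) (XT.lf (nat_lit 76) (nat_lit 468920512) (nat_lit 0) (nat_lit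 2338430546) (nat_lit 304) (nat_lit 468920512) (nat_lit 92) (nat_lit 1) (nat_lit 91) (nat_lit 1) (nat_lit 95) (nat_lit 1) (nat_lit 421) (nat_lit 419) (nat_lit 300))) (XT.nd (nat_lit 78) (nat_lit 304) (nat_lit 0) (XT.lf (nat_lit 304) (nat_lit 25926085) (nat_lit 0) (nat_lit 1613468007) (nat_lit 228) (nat_lit 1613468007) (nat_lit 92) (nat_lit 1) (nat_lit 88) (nat_lit 1) (nat_lit 91) (nat_lit 1) (nat_lit 422) (nat_lit 419) (nat_lit 299)) (XT.lf (nat_lit 304) (nat_lit 2367114519) (nat_lit 0) (nat_lit 431283748) (nat_lit 228) (nat_lit 431283748) (nat_lit 88) (nat_lit 1) (nat_lit 84) (nat_lit 1) (nat_lit 87) (nat_lit 1) (nat_lit 423) (nat_lit 419) (nat_lit 298)))) (XT.nd (nat_lit 156) (nat_lit 532) (nat_lit 0) (XT.nd (nat_lit 78) (nat_lit 228) (nat_lit 0) (XT.lf (nat_lit 76) (nat_lit 728985305) (nat_lit 0) (nat_lit 1748675155) (nat_lit 304) (nat_lit 728985305) (nat_lit 85) (nat_lit 1) (nat_lit 84) (nat_lit 1) (nat_lit 88) (nat_lit 1) (nat_lit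 424) (nat_lit 419) (nat_lit 297)) (XT.lf (nat_lit 304) (nat_lit 555148610) (nat_lit 0) (nat_lit 1314343509) (nat_lit 228) (nat_lit 1314343509) (nat_lit 85) (nat_lit 1) (nat_lit 81) (nat_lit 1) (nat_lit 84) (nat_lit 1) (nat_lit 425) (nat_lit 419) (nat_lit 296))) (XT.nd (nat_lit 78) (nat_lit 228) (nat_lit 0) (XT.lf (nat_lit 304) (nat_lit 2829861292) (nat_lit 0) (nat_lit 165726214) (nat_lit 228) (nat_lit 165726214) (nat_lit 81) (nat_lit 1) (nat_lit 77) (nat_lit 1) (nat_lit 80) (nat_lit 1) (nat_lit 426) (nat_lit 419) (nat_lit 295)) (XT.nd (nat_lit 78) (nat_lit 228) (nat_lit 0) (XT.lf (nat_lit 76) (nat_lit 963445460) (nat_lit 0) (nat_lit 1211904358) (nat_lit 304) (nat_lit 963445460) (nat_lit 78) (nat_lit 1) (nat_lit 77) (nat_lit 1) (nat_lit 81) (nat_lit 1) (nat_lit 427) (nat_lit 419) (nat_lit 294)) (XT.lf (nat_lit 304) (nat_lit 1033652793) (nat_lit 0) (nat_lit 1041454623) (nat_lit 228) (nat_lit 1041454623) (nat_lit 78) (nat_lit 1) (nat_lit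 74) (nat_lit 1) (nat_lit 77) (nat_lit 1) (nat_lit 428) (nat_lit 419) (nat_lit 293)))))) (XT.nd (nat_lit 312) (nat_lit 608) (nat_lit 0) (XT.nd (nat_lit 156) (nat_lit 228) (nat_lit 0) (XT.nd (nat_lit 78) (nat_lit 228) (nat_lit 0) (XT.lf (nat_lit 76) (nat_lit 75541878) (nat_lit 0) (nat_lit 2943546765) (nat_lit 304) (nat_lit 75541878) (nat_lit 75) (nat_lit 1) (nat_lit 74) (nat_lit 1) (nat_lit 78) (nat_lit 1) (nat_lit 429) (nat_lit 419) (nat_lit 292)) (XT.lf (nat_lit 76) (nat_lit 1174364603) (nat_lit 0) (nat_lit 723924862) (nat_lit 228) (nat_lit 1174364603) (nat_lit 72) (nat_lit 1) (nat_lit 71) (nat_lit 1) (nat_lit 74) (nat_lit 1) (nat_lit 430) (nat_lit 419) (nat_lit 291))) (XT.nd (nat_lit 78) (nat_lit 0) (nat_lit 0) (XT.lf (nat_lit 304) (nat_lit 1465505296) (nat_lit 0) (nat_lit 792735622) (nat_lit 228) (nat_lit 792735622) (nat_lit 72) (nat_lit 1) (nat_lit 68) (nat_lit 1) (nat_lit 71) (nat_lit 1) (nat_lit 431) (nat_lit 419) (nat_lit 290))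 (XT.lf (nat_lit 76) (nat_lit 294947084) (nat_lit 0) (nat_lit 2439639595) (nat_lit 304) (nat_lit 294947084) (nat_lit 69) (nat_lit 1) (nat_lit 68) (nat_lit 1) (nat_lit 72) (nat_lit 1) (nat_lit 432) (nat_lit 419) (nat_lit 289)))) (XT.nd (nat_lit 156) (nat_lit 152) (nat_lit 0) (XT.nd (nat_lit 78) (nat_lit 228) (nat_lit 0) (XT.lf (nat_lit 76) (nat_lit 1363646976) (nat_lit 0) (nat_lit 280865813) (nat_lit 228) (nat_lit 1363646976) (nat_lit 66) (nat_lit 1) (nat_lit 65) (nat_lit 1) (nat_lit 68) (nat_lit 1) (nat_lit 433) (nat_lit 419) (nat_lit 288)) (XT.lf (nat_lit 304) (nat_lit 1854459082) (nat_lit 0) (nat_lit 566279427) (nat_lit 228) (nat_lit 566279427) (nat_lit 66) (nat_lit 1) (nat_lit 62) (nat_lit 1) (nat_lit 65) (nat_lit 1) (nat_lit 434) (nat_lit 419) (nat_lit 287))) (XT.nd (nat_lit 78) (nat_lit 152) (nat_lit 0) (XT.lf (nat_lit 76) (nat_lit 493228716) (nat_lit 0) (nat_lit 1979592410) (nat_lit 304) (nat_lit 493228716) (nat_lit 63) (nat_lit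 1) (nat_lit 62) (nat_lit 1) (nat_lit 66) (nat_lit 1) (nat_lit 435) (nat_lit 419) (nat_lit 286)) (XT.nd (nat_lit 48750) (nat_lit 0) (nat_lit 33212) (XT.lf (nat_lit 228) (nat_lit 122451791) (nat_lit 0) (nat_lit 1411392866) (nat_lit 152) (nat_lit 1411392866) (nat_lit 63) (nat_lit 1) (nat_lit 60) (nat_lit 1) (nat_lit 62) (nat_lit 1) (nat_lit 436) (nat_lit 419) (nat_lit 285)) (XT.lf (nat_lit 1900) (nat_lit 1489334417) (nat_lit 0) (nat_lit 1501788717) (nat_lit 1900) (nat_lit 1489334417) (nat_lit 522) (nat_lit 1) (nat_lit 497) (nat_lit 0) (nat_lit 522) (nat_lit 0) (nat_lit 300) (nat_lit 420) (nat_lit 420))))))) (XT.nd (nat_lit 702) (nat_lit 0) (nat_lit 380) (XT.nd (nat_lit 312) (nat_lit 0) (nat_lit 152) (XT.nd (nat_lit 156) (nat_lit 0) (nat_lit 76) (XT.nd (nat_lit 78) (nat_lit 0) (nat_lit 76) (XT.lf (nat_lit 1900) (nat_lit 5889052209) (nat_lit 76) (nat_lit 1491908528) (nat_lit 0) (nat_lit 1491908528) (nat_lit 522) (nat_lit 1) (nat_lit 498) (nat_lit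 1) (nat_lit 497) (nat_lit 0) (nat_lit 301) (nat_lit 420) (nat_lit 419)) (XT.lf (nat_lit 1900) (nat_lit 2891552667) (nat_lit 0) (nat_lit 3002679769) (nat_lit 1824) (nat_lit 2891552667) (nat_lit 523) (nat_lit 1) (nat_lit 498) (nat_lit 1) (nat_lit 522) (nat_lit 1) (nat_lit 302) (nat_lit 420) (nat_lit 418))) (XT.nd (nat_lit 78) (nat_lit 0) (nat_lit 76) (XT.lf (nat_lit 1900) (nat_lit 5659481376) (nat_lit 76) (nat_lit 1520269877) (nat_lit 0) (nat_lit 1520269877) (nat_lit 523) (nat_lit 1) (nat_lit 499) (nat_lit 1) (nat_lit 498) (nat_lit 1) (nat_lit 303) (nat_lit 420) (nat_lit 417)) (XT.lf (nat_lit 1900) (nat_lit 2750400704) (nat_lit 0) (nat_lit 3114402496) (nat_lit 1824) (nat_lit 2750400704) (nat_lit 524) (nat_lit 1) (nat_lit 499) (nat_lit 1) (nat_lit 523) (nat_lit 1) (nat_lit 304) (nat_lit 420) (nat_lit 416)))) (XT.nd (nat_lit 156) (nat_lit 0) (nat_lit 76) (XT.nd (nat_lit 78) (nat_lit 0) (nat_lit 76) (XT.lf (nat_lit 1900) (nat_lit 5324743322)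 (nat_lit 76) (nat_lit 1603452341) (nat_lit 0) (nat_lit 1603452341) (nat_lit 524) (nat_lit 1) (nat_lit 500) (nat_lit 1) (nat_lit 499) (nat_lit 1) (nat_lit 305) (nat_lit 420) (nat_lit 415)) (XT.lf (nat_lit 1900) (nat_lit 2558437077) (nat_lit 0) (nat_lit 3332164866) (nat_lit 1824) (nat_lit 2558437077) (nat_lit 525) (nat_lit 1) (nat_lit 500) (nat_lit 1) (nat_lit 524) (nat_lit 1) (nat_lit 306) (nat_lit 420) (nat_lit 414))) (XT.nd (nat_lit 78) (nat_lit 0) (nat_lit 76) (XT.lf (nat_lit 1900) (nat_lit 4891158716) (nat_lit 76) (nat_lit 1738230630) (nat_lit 0) (nat_lit 1738230630) (nat_lit 525) (nat_lit 1) (nat_lit 501) (nat_lit 1) (nat_lit 500) (nat_lit 1) (nat_lit 307) (nat_lit 420) (nat_lit 413)) (XT.nd (nat_lit 78) (nat_lit 0) (nat_lit 0) (XT.lf (nat_lit 1900) (nat_lit 2318738645) (nat_lit 0) (nat_lit 3649684959) (nat_lit 1824) (nat_lit 2318738645) (nat_lit 526) (nat_lit 1) (nat_lit 501) (nat_lit 1) (nat_lit 525) (nat_lit 1) (nat_lit 308) (nat_lit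 420) (nat_lit 412)) (XT.lf (nat_lit 1900) (nat_lit 4364758926) (nat_lit 76) (nat_lit 1921526197) (nat_lit 0) (nat_lit 1921526197) (nat_lit 526) (nat_lit 1) (nat_lit 502) (nat_lit 1) (nat_lit 501) (nat_lit 1) (nat_lit 309) (nat_lit 420) (nat_lit 411)))))) (XT.nd (nat_lit 390) (nat_lit 0) (nat_lit 152) (XT.nd (nat_lit 156) (nat_lit 0) (nat_lit 76) (XT.nd (nat_lit 78) (nat_lit 0) (nat_lit 0) (XT.lf (nat_lit 1900) (nat_lit 2034241146) (nat_lit 0) (nat_lit 4060967221) (nat_lit 1824) (nat_lit 2034241146) (nat_lit 527) (nat_lit 1) (nat_lit 502) (nat_lit 1) (nat_lit 526) (nat_lit 1) (nat_lit 310) (nat_lit 420) (nat_lit 410)) (XT.lf (nat_lit 1900) (nat_lit 3751298113) (nat_lit 76) (nat_lit 2150401119) (nat_lit 0) (nat_lit 2150401119) (nat_lit 527) (nat_lit 1) (nat_lit 503) (nat_lit 1) (nat_lit 502) (nat_lit 1) (nat_lit 311) (nat_lit 420) (nat_lit 409))) (XT.nd (nat_lit 78) (nat_lit 0) (nat_lit 0) (XT.lf (nat_lit 1900) (nat_lit 1707745099) (nat_lit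 0) (nat_lit 4560290522) (nat_lit 1824) (nat_lit 1707745099) (nat_lit 528) (nat_lit 1) (nat_lit 503) (nat_lit 1) (nat_lit 527) (nat_lit 1) (nat_lit 312) (nat_lit 420) (nat_lit 408)) (XT.nd (nat_lit 78) (nat_lit 0) (nat_lit 76) (XT.lf (nat_lit 1900) (nat_lit 3056264842) (nat_lit 76) (nat_lit 2422052220) (nat_lit 0) (nat_lit 2422052220) (nat_lit 528) (nat_lit 1) (nat_lit 504) (nat_lit 1) (nat_lit 503) (nat_lit 1) (nat_lit 313) (nat_lit 420) (nat_lit 407)) (XT.lf (nat_lit 1900) (nat_lit 1341921477) (nat_lit 0) (nat_lit 5142196677) (nat_lit 1824) (nat_lit 1341921477) (nat_lit 529) (nat_lit 1) (nat_lit 504) (nat_lit 1) (nat_lit 528) (nat_lit 1) (nat_lit 314) (nat_lit 420) (nat_lit 406))))) (XT.nd (nat_lit 156) (nat_lit 0) (nat_lit 76) (XT.nd (nat_lit 78) (nat_lit 0) (nat_lit 76) (XT.lf (nat_lit 1900) (nat_lit 2284893217) (nat_lit 76) (nat_lit 2733805436) (nat_lit 0) (nat_lit 2733805436) (nat_lit 529) (nat_lit 1) (nat_lit 505) (nat_lit 1) (nat_lit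 504) (nat_lit 1) (nat_lit 315) (nat_lit 420) (nat_lit 405)) (XT.lf (nat_lit 1900) (nat_lit 939317139) (nat_lit 0) (nat_lit 5801479439) (nat_lit 1824) (nat_lit 939317139) (nat_lit 530) (nat_lit 1) (nat_lit 505) (nat_lit 1) (nat_lit 529) (nat_lit 1) (nat_lit 316) (nat_lit 420) (nat_lit 404))) (XT.nd (nat_lit 78) (nat_lit 0) (nat_lit 76) (XT.lf (nat_lit 1900) (nat_lit 1442173575) (nat_lit 76) (nat_lit 3083110403) (nat_lit 0) (nat_lit 3083110403) (nat_lit 530) (nat_lit 1) (nat_lit 506) (nat_lit 1) (nat_lit 505) (nat_lit 1) (nat_lit 317) (nat_lit 420) (nat_lit 403)) (XT.nd (nat_lit 78) (nat_lit 0) (nat_lit 0) (XT.lf (nat_lit 1900) (nat_lit 502360053) (nat_lit 0) (nat_lit 6533173929) (nat_lit 1824) (nat_lit 502360053) (nat_lit 531) (nat_lit 1) (nat_lit 506) (nat_lit 1) (nat_lit 530) (nat_lit 1) (nat_lit 318) (nat_lit 420) (nat_lit 402)) (XT.lf (nat_lit 1900) (nat_lit 532862748) (nat_lit 76) (nat_lit 3467535264) (nat_lit 0) (nat_lit 3467535264)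 (nat_lit 531) (nat_lit 1) (nat_lit 507) (nat_lit 1) (nat_lit 506) (nat_lit 1) (nat_lit 319) (nat_lit 420) (nat_lit 401))))))))
noncomputable def ec146 : XT := (XT.nd (nat_lit 1404) (nat_lit 7220) (nat_lit 0) (XT.nd (nat_lit 702) (nat_lit 4408) (nat_lit 0) (XT.nd (nat_lit 312) (nat_lit 1900) (nat_lit 0) (XT.nd (nat_lit 156) (nat_lit 0) (nat_lit 0) (XT.nd (nat_lit 78) (nat_lit 1900) (nat_lit 0) (XT.lf (nat_lit 1900) (nat_lit 33364301) (nat_lit 0) (nat_lit 7332546499) (nat_lit 1824) (nat_lit 33364301) (nat_lit 532) (nat_lit 1) (nat_lit 507) (nat_lit 1) (nat_lit 531) (nat_lit 1) (nat_lit 320) (nat_lit 420) (nat_lit 400)) (XT.lf (nat_lit 1976) (nat_lit 3449102664) (nat_lit 0) (nat_lit 432755007) (nat_lit 1900) (nat_lit 3449102664) (nat_lit 508) (nat_lit 1) (nat_lit 482) (nat_lit 1) (nat_lit 507) (nat_lit 1) (nat_lit 321) (nat_lit 420) (nat_lit 399))) (XT.nd (nat_lit 78) (nat_lit 0) (nat_lit 76) (XT.lf (nat_lit 1976) (nat_lit 6339106528) (nat_lit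 76) (nat_lit 462402836) (nat_lit 0) (nat_lit 462402836) (nat_lit 508) (nat_lit 1) (nat_lit 483) (nat_lit 1) (nat_lit 482) (nat_lit 1) (nat_lit 322) (nat_lit 420) (nat_lit 398)) (XT.lf (nat_lit 1976) (nat_lit 2874494805) (nat_lit 0) (nat_lit 1448365971) (nat_lit 1900) (nat_lit 2874494805) (nat_lit 509) (nat_lit 1) (nat_lit 483) (nat_lit 1) (nat_lit 508) (nat_lit 1) (nat_lit 323) (nat_lit 420) (nat_lit 397)))) (XT.nd (nat_lit 156) (nat_lit 1976) (nat_lit 0) (XT.nd (nat_lit 78) (nat_lit 0) (nat_lit 76) (XT.lf (nat_lit 1976) (nat_lit 5160914891) (nat_lit 76) (nat_lit 985501133) (nat_lit 0) (nat_lit 985501133) (nat_lit 509) (nat_lit 1) (nat_lit 484) (nat_lit 1) (nat_lit 483) (nat_lit 1) (nat_lit 324) (nat_lit 420) (nat_lit 396)) (XT.lf (nat_lit 76) (nat_lit 2275096401) (nat_lit 0) (nat_lit 2516898875) (nat_lit 1900) (nat_lit 2275096401) (nat_lit 485) (nat_lit 1) (nat_lit 484) (nat_lit 1) (nat_lit 509) (nat_lit 1) (nat_lit 325) (nat_lit 420)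 (nat_lit 395))) (XT.nd (nat_lit 78) (nat_lit 912) (nat_lit 0) (XT.lf (nat_lit 1216) (nat_lit 3934887113) (nat_lit 0) (nat_lit 1534162748) (nat_lit 1140) (nat_lit 1534162748) (nat_lit 485) (nat_lit 1) (nat_lit 469) (nat_lit 1) (nat_lit 484) (nat_lit 1) (nat_lit 326) (nat_lit 420) (nat_lit 394)) (XT.nd (nat_lit 78) (nat_lit 912) (nat_lit 0) (XT.lf (nat_lit 76) (nat_lit 1652793693) (nat_lit 0) (nat_lit 3634487727) (nat_lit 1216) (nat_lit 1652793693) (nat_lit 470) (nat_lit 1) (nat_lit 469) (nat_lit 1) (nat_lit 485) (nat_lit 1) (nat_lit 327) (nat_lit 420) (nat_lit 393)) (XT.lf (nat_lit 988) (nat_lit 2664715765) (nat_lit 0) (nat_lit 2106495498) (nat_lit 912) (nat_lit 2106495498) (nat_lit 470) (nat_lit 1) (nat_lit 457) (nat_lit 1) (nat_lit 469) (nat_lit 1) (nat_lit 328) (nat_lit 420) (nat_lit 392)))))) (XT.nd (nat_lit 312) (nat_lit 2660) (nat_lit 0) (XT.nd (nat_lit 156) (nat_lit 836) (nat_lit 0) (XT.nd (nat_lit 78) (nat_lit 912) (nat_lit 0)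 (XT.lf (nat_lit 76) (nat_lit 1009381565) (nat_lit 0) (nat_lit 4797452166) (nat_lit 988) (nat_lit 1009381565) (nat_lit 458) (nat_lit 1) (nat_lit 457) (nat_lit 1) (nat_lit 470) (nat_lit 1) (nat_lit 329) (nat_lit 420) (nat_lit 391)) (XT.lf (nat_lit 988) (nat_lit 1353914048) (nat_lit 0) (nat_lit 2700698316) (nat_lit 912) (nat_lit 2700698316) (nat_lit 458) (nat_lit 1) (nat_lit 445) (nat_lit 1) (nat_lit 457) (nat_lit 1) (nat_lit 330) (nat_lit 420) (nat_lit 390))) (XT.nd (nat_lit 78) (nat_lit 836) (nat_lit 0) (XT.lf (nat_lit 76) (nat_lit 346567452) (nat_lit 0) (nat_lit 6002289558) (nat_lit 988) (nat_lit 346567452) (nat_lit 446) (nat_lit 1) (nat_lit 445) (nat_lit 1) (nat_lit 458) (nat_lit 1) (nat_lit 331) (nat_lit 420) (nat_lit 389)) (XT.lf (nat_lit 912) (nat_lit 5823467) (nat_lit 0) (nat_lit 3315057364) (nat_lit 836) (nat_lit 3315057364) (nat_lit 446) (nat_lit 1) (nat_lit 434) (nat_lit 1) (nat_lit 445) (nat_lit 1) (nat_lit 332) (nat_lit 420)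 (nat_lit 388)))) (XT.nd (nat_lit 156) (nat_lit 1672) (nat_lit 0) (XT.nd (nat_lit 78) (nat_lit 0) (nat_lit 0) (XT.lf (nat_lit 988) (nat_lit 5913788715) (nat_lit 0) (nat_lit 331827387) (nat_lit 912) (nat_lit 331827387) (nat_lit 434) (nat_lit 1) (nat_lit 421) (nat_lit 1) (nat_lit 433) (nat_lit 1) (nat_lit 333) (nat_lit 420) (nat_lit 387)) (XT.lf (nat_lit 76) (nat_lit 2580499859) (nat_lit 0) (nat_lit 1358327355) (nat_lit 988) (nat_lit 2580499859) (nat_lit 422) (nat_lit 1) (nat_lit 421) (nat_lit 1) (nat_lit 434) (nat_lit 1) (nat_lit 334) (nat_lit 420) (nat_lit 386))) (XT.nd (nat_lit 78) (nat_lit 836) (nat_lit 0) (XT.lf (nat_lit 912) (nat_lit 4414034927) (nat_lit 0) (nat_lit 1024070022) (nat_lit 836) (nat_lit 1024070022) (nat_lit 422) (nat_lit 1) (nat_lit 410) (nat_lit 1) (nat_lit 421) (nat_lit 1) (nat_lit 335) (nat_lit 420) (nat_lit 385)) (XT.nd (nat_lit 78) (nat_lit 836) (nat_lit 0) (XT.lf (nat_lit 76) (nat_lit 1826242242) (nat_lit 0) (nat_lit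 2753085839) (nat_lit 912) (nat_lit 1826242242) (nat_lit 411) (nat_lit 1) (nat_lit 410) (nat_lit 1) (nat_lit 422) (nat_lit 1) (nat_lit 336) (nat_lit 420) (nat_lit 384)) (XT.lf (nat_lit 912) (nat_lit 2887753996) (nat_lit 0) (nat_lit 1730983213) (nat_lit 836) (nat_lit 1730983213) (nat_lit 411) (nat_lit 1) (nat_lit 399) (nat_lit 1) (nat_lit 410) (nat_lit 1) (nat_lit 337) (nat_lit 420) (nat_lit 383))))))) (XT.nd (nat_lit 702) (nat_lit 3420) (nat_lit 0) (XT.nd (nat_lit 312) (nat_lit 2204) (nat_lit 0) (XT.nd (nat_lit 156) (nat_lit 836) (nat_lit 0) (XT.nd (nat_lit 78) (nat_lit 760) (nat_lit 0) (XT.lf (nat_lit 76) (nat_lit 1059447012) (nat_lit 0) (nat_lit 4175696611) (nat_lit 912) (nat_lit 1059447012) (nat_lit 400) (nat_lit 1) (nat_lit 399) (nat_lit 1) (nat_lit 411) (nat_lit 1) (nat_lit 338) (nat_lit 420) (nat_lit 382)) (XT.lf (nat_lit 836) (nat_lit 1337638050) (nat_lit 0) (nat_lit 2451182556) (nat_lit 760) (nat_lit 2451182556) (nat_lit 400) (nat_lit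 1) (nat_lit 389) (nat_lit 1) (nat_lit 399) (nat_lit 1) (nat_lit 339) (nat_lit 420) (nat_lit 381))) (XT.nd (nat_lit 78) (nat_lit 836) (nat_lit 0) (XT.lf (nat_lit 76) (nat_lit 281421145) (nat_lit 0) (nat_lit 5623470046) (nat_lit 836) (nat_lit 281421145) (nat_lit 390) (nat_lit 1) (nat_lit 389) (nat_lit 1) (nat_lit 400) (nat_lit 1) (nat_lit 340) (nat_lit 420) (nat_lit 380)) (XT.lf (nat_lit 76) (nat_lit 2951113183) (nat_lit 0) (nat_lit 230692130) (nat_lit 836) (nat_lit 2951113183) (nat_lit 379) (nat_lit 1) (nat_lit 378) (nat_lit 1) (nat_lit 389) (nat_lit 1) (nat_lit 341) (nat_lit 420) (nat_lit 379)))) (XT.nd (nat_lit 156) (nat_lit 1444) (nat_lit 0) (XT.nd (nat_lit 78) (nat_lit 0) (nat_lit 0) (XT.lf (nat_lit 836) (nat_lit 5073873344) (nat_lit 0) (nat_lit 503262351) (nat_lit 760) (nat_lit 503262351) (nat_lit 379) (nat_lit 1) (nat_lit 368) (nat_lit 1) (nat_lit 378) (nat_lit 1) (nat_lit 342) (nat_lit 420) (nat_lit 378)) (XT.lf (nat_lit 76) (nat_lit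 2114080364) (nat_lit 0) (nat_lit 1800087822) (nat_lit 836) (nat_lit 2114080364) (nat_lit 369) (nat_lit 1) (nat_lit 368) (nat_lit 1) (nat_lit 379) (nat_lit 1) (nat_lit 343) (nat_lit 420) (nat_lit 377))) (XT.nd (nat_lit 78) (nat_lit 684) (nat_lit 0) (XT.lf (nat_lit 836) (nat_lit 3387188028) (nat_lit 0) (nat_lit 1294850677) (nat_lit 760) (nat_lit 1294850677) (nat_lit 369) (nat_lit 1) (nat_lit 358) (nat_lit 1) (nat_lit 368) (nat_lit 1) (nat_lit 344) (nat_lit 420) (nat_lit 376)) (XT.nd (nat_lit 78) (nat_lit 684) (nat_lit 0) (XT.lf (nat_lit 76) (nat_lit 1270136640) (nat_lit 0) (nat_lit 3385824140) (nat_lit 836) (nat_lit 1270136640) (nat_lit 359) (nat_lit 1) (nat_lit 358) (nat_lit 1) (nat_lit 369) (nat_lit 1) (nat_lit 345) (nat_lit 420) (nat_lit 375)) (XT.lf (nat_lit 760) (nat_lit 1687689546) (nat_lit 0) (nat_lit 2094087533) (nat_lit 684) (nat_lit 2094087533) (nat_lit 359) (nat_lit 1) (nat_lit 349) (nat_lit 1) (nat_lit 358) (nat_lit 1) (nat_lit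 346) (nat_lit 420) (nat_lit 374)))))) (XT.nd (nat_lit 312) (nat_lit 1976) (nat_lit 0) (XT.nd (nat_lit 156) (nat_lit 684) (nat_lit 0) (XT.nd (nat_lit 78) (nat_lit 760) (nat_lit 0) (XT.lf (nat_lit 76) (nat_lit 420323194) (nat_lit 0) (nat_lit 4985751221) (nat_lit 760) (nat_lit 420323194) (nat_lit 350) (nat_lit 1) (nat_lit 349) (nat_lit 1) (nat_lit 359) (nat_lit 1) (nat_lit 347) (nat_lit 420) (nat_lit 373)) (XT.lf (nat_lit 76) (nat_lit 2877480820) (nat_lit 0) (nat_lit 22292815) (nat_lit 760) (nat_lit 2877480820) (nat_lit 340) (nat_lit 1) (nat_lit 339) (nat_lit 1) (nat_lit 349) (nat_lit 1) (nat_lit 348) (nat_lit 420) (nat_lit 372))) (XT.nd (nat_lit 78) (nat_lit 0) (nat_lit 0) (XT.lf (nat_lit 760) (nat_lit 4865823956) (nat_lit 0) (nat_lit 431516652) (nat_lit 684) (nat_lit 431516652) (nat_lit 340) (nat_lit 1) (nat_lit 330) (nat_lit 1) (nat_lit 339) (nat_lit 1) (nat_lit 349) (nat_lit 420) (nat_lit 371)) (XT.lf (nat_lit 76) (nat_lit 1980948171)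 (nat_lit 0) (nat_lit 1718880843) (nat_lit 760) (nat_lit 1980948171) (nat_lit 331) (nat_lit 1) (nat_lit 330) (nat_lit 1) (nat_lit 340) (nat_lit 1) (nat_lit 350) (nat_lit 420) (nat_lit 370)))) (XT.nd (nat_lit 156) (nat_lit 1292) (nat_lit 0) (XT.nd (nat_lit 78) (nat_lit 0) (nat_lit 0) (XT.lf (nat_lit 760) (nat_lit 3064384375) (nat_lit 0) (nat_lit 1284516875) (nat_lit 684) (nat_lit 1284516875) (nat_lit 331) (nat_lit 1) (nat_lit 321) (nat_lit 1) (nat_lit 330) (nat_lit 1) (nat_lit 351) (nat_lit 420) (nat_lit 369)) (XT.lf (nat_lit 76) (nat_lit 1082088372) (nat_lit 0) (nat_lit 3422413008) (nat_lit 760) (nat_lit 1082088372) (nat_lit 322) (nat_lit 1) (nat_lit 321) (nat_lit 1) (nat_lit 331) (nat_lit 1) (nat_lit 352) (nat_lit 420) (nat_lit 368))) (XT.nd (nat_lit 78) (nat_lit 684) (nat_lit 0) (XT.lf (nat_lit 684) (nat_lit 1259104368) (nat_lit 0) (nat_lit 2140566863) (nat_lit 608) (nat_lit 2140566863) (nat_lit 322) (nat_lit 1) (nat_lit 313) (nat_lit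 1) (nat_lit 321) (nat_lit 1) (nat_lit 353) (nat_lit 420) (nat_lit 367)) (XT.nd (nat_lit 78) (nat_lit 684) (nat_lit 0) (XT.lf (nat_lit 76) (nat_lit 181720035) (nat_lit 0) (nat_lit 5131191724) (nat_lit 684) (nat_lit 181720035) (nat_lit 314) (nat_lit 1) (nat_lit 313) (nat_lit 1) (nat_lit 322) (nat_lit 1) (nat_lit 354) (nat_lit 420) (nat_lit 366)) (XT.lf (nat_lit 76) (nat_lit 2453979604) (nat_lit 0) (nat_lit 541227395) (nat_lit 684) (nat_lit 2453979604) (nat_lit 305) (nat_lit 1) (nat_lit 304) (nat_lit 1) (nat_lit 313) (nat_lit 1) (nat_lit 355) (nat_lit 420) (nat_lit 365))))))))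
noncomputable def ec147 : XT := (XT.nd (nat_lit 1404) (nat_lit 4712) (nat_lit 0) (XT.nd (nat_lit 702) (nat_lit 3192) (nat_lit 0) (XT.nd (nat_lit 312) (nat_lit 1748) (nat_lit 0) (XT.nd (nat_lit 156) (nat_lit 608) (nat_lit 0) (XT.nd (nat_lit 78) (nat_lit 0) (nat_lit 0) (XT.lf (nat_lit 684) (nat_lit 3975166827) (nat_lit 0) (nat_lit 714651501) (nat_lit 608) (nat_lit 714651501) (nat_lit 305) (nat_lit 1) (nat_lit 296) (nat_lit 1) (nat_lit 304) (nat_lit 1) (nat_lit 356) (nat_lit 420) (nat_lit 364)) (XT.lf (nat_lit 76) (nat_lit 1517169441) (nat_lit 0) (nat_lit 2325774782) (nat_lit 684) (nat_lit 1517169441) (nat_lit 297) (nat_lit 1) (nat_lit 296) (nat_lit 1) (nat_lit 305) (nat_lit 1) (nat_lit 357) (nat_lit 420) (nat_lit 363))) (XT.nd (nat_lit 78) (nat_lit 0) (nat_lit 0) (XT.lf (nat_lit 684) (nat_lit 2096657397) (nat_lit 0) (nat_lit 1609834905) (nat_lit 608) (nat_lit 1609834905) (nat_lit 297) (nat_lit 1) (nat_lit 288) (nat_lit 1) (nat_lit 296)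 (nat_lit 1) (nat_lit 358) (nat_lit 420) (nat_lit 362)) (XT.lf (nat_lit 76) (nat_lit 581738337) (nat_lit 0) (nat_lit 4109650378) (nat_lit 684) (nat_lit 581738337) (nat_lit 289) (nat_lit 1) (nat_lit 288) (nat_lit 1) (nat_lit 297) (nat_lit 1) (nat_lit 359) (nat_lit 420) (nat_lit 361)))) (XT.nd (nat_lit 156) (nat_lit 532) (nat_lit 0) (XT.nd (nat_lit 78) (nat_lit 684) (nat_lit 0) (XT.lf (nat_lit 608) (nat_lit 221556438) (nat_lit 0) (nat_lit 2504343688) (nat_lit 532) (nat_lit 2504343688) (nat_lit 289) (nat_lit 1) (nat_lit 281) (nat_lit 1) (nat_lit 288) (nat_lit 1) (nat_lit 360) (nat_lit 420) (nat_lit 360)) (XT.lf (nat_lit 684) (nat_lit 4489254725) (nat_lit 0) (nat_lit 349367326) (nat_lit 608) (nat_lit 349367326) (nat_lit 281) (nat_lit 1) (nat_lit 272) (nat_lit 1) (nat_lit 280) (nat_lit 1) (nat_lit 361) (nat_lit 420) (nat_lit 359))) (XT.nd (nat_lit 78) (nat_lit 532) (nat_lit 0) (XT.lf (nat_lit 76) (nat_lit 1759336522) (nat_lit 0) (nat_lit 1627279262)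 (nat_lit 684) (nat_lit 1759336522) (nat_lit 273) (nat_lit 1) (nat_lit 272) (nat_lit 1) (nat_lit 281) (nat_lit 1) (nat_lit 362) (nat_lit 420) (nat_lit 358)) (XT.nd (nat_lit 78) (nat_lit 0) (nat_lit 0) (XT.lf (nat_lit 608) (nat_lit 2556416594) (nat_lit 0) (nat_lit 1274056490) (nat_lit 532) (nat_lit 1274056490) (nat_lit 273) (nat_lit 1) (nat_lit 265) (nat_lit 1) (nat_lit 272) (nat_lit 1) (nat_lit 363) (nat_lit 420) (nat_lit 357)) (XT.lf (nat_lit 76) (nat_lit 798049002) (nat_lit 0) (nat_lit 3467489090) (nat_lit 608) (nat_lit 798049002) (nat_lit 266) (nat_lit 1) (nat_lit 265) (nat_lit 1) (nat_lit 273) (nat_lit 1) (nat_lit 364) (nat_lit 420) (nat_lit 356)))))) (XT.nd (nat_lit 312) (nat_lit 1520) (nat_lit 0) (XT.nd (nat_lit 156) (nat_lit 532) (nat_lit 0) (XT.nd (nat_lit 78) (nat_lit 608) (nat_lit 0) (XT.lf (nat_lit 608) (nat_lit 631796764) (nat_lit 0) (nat_lit 2195601671) (nat_lit 532) (nat_lit 2195601671) (nat_lit 266) (nat_lit 1) (nat_lit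 258) (nat_lit 1) (nat_lit 265) (nat_lit 1) (nat_lit 365) (nat_lit 420) (nat_lit 355)) (XT.lf (nat_lit 608) (nat_lit 4667354064) (nat_lit 0) (nat_lit 157845015) (nat_lit 532) (nat_lit 157845015) (nat_lit 258) (nat_lit 1) (nat_lit 250) (nat_lit 1) (nat_lit 257) (nat_lit 1) (nat_lit 366) (nat_lit 420) (nat_lit 354))) (XT.nd (nat_lit 78) (nat_lit 532) (nat_lit 0) (XT.lf (nat_lit 76) (nat_lit 1838203236) (nat_lit 0) (nat_lit 1266778557) (nat_lit 608) (nat_lit 1838203236) (nat_lit 251) (nat_lit 1) (nat_lit 250) (nat_lit 1) (nat_lit 258) (nat_lit 1) (nat_lit 367) (nat_lit 420) (nat_lit 353)) (XT.lf (nat_lit 608) (nat_lit 2696555156) (nat_lit 0) (nat_lit 1103694472) (nat_lit 532) (nat_lit 1103694472) (nat_lit 251) (nat_lit 1) (nat_lit 243) (nat_lit 1) (nat_lit 250) (nat_lit 1) (nat_lit 368) (nat_lit 420) (nat_lit 352)))) (XT.nd (nat_lit 156) (nat_lit 1064) (nat_lit 0) (XT.nd (nat_lit 78) (nat_lit 456) (nat_lit 0) (XT.lf (nat_lit 76) (nat_lit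 859029315) (nat_lit 0) (nat_lit 3147063816) (nat_lit 608) (nat_lit 859029315) (nat_lit 244) (nat_lit 1) (nat_lit 243) (nat_lit 1) (nat_lit 251) (nat_lit 1) (nat_lit 369) (nat_lit 420) (nat_lit 351)) (XT.lf (nat_lit 532) (nat_lit 738043943) (nat_lit 0) (nat_lit 2044306045) (nat_lit 456) (nat_lit 2044306045) (nat_lit 244) (nat_lit 1) (nat_lit 237) (nat_lit 1) (nat_lit 243) (nat_lit 1) (nat_lit 370) (nat_lit 420) (nat_lit 350))) (XT.nd (nat_lit 78) (nat_lit 456) (nat_lit 0) (XT.lf (nat_lit 608) (nat_lit 4562643878) (nat_lit 0) (nat_lit 113072414) (nat_lit 532) (nat_lit 113072414) (nat_lit 237) (nat_lit 1) (nat_lit 229) (nat_lit 1) (nat_lit 236) (nat_lit 1) (nat_lit 371) (nat_lit 420) (nat_lit 349)) (XT.nd (nat_lit 78) (nat_lit 456) (nat_lit 0) (XT.lf (nat_lit 76) (nat_lit 1779707789) (nat_lit 0) (nat_lit 1191561867) (nat_lit 608) (nat_lit 1779707789) (nat_lit 230) (nat_lit 1) (nat_lit 229) (nat_lit 1) (nat_lit 237) (nat_lit 1) (nat_lit 372)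 (nat_lit 420) (nat_lit 348)) (XT.lf (nat_lit 532) (nat_lit 2568019199) (nat_lit 0) (nat_lit 1072867335) (nat_lit 456) (nat_lit 1072867335) (nat_lit 230) (nat_lit 1) (nat_lit 223) (nat_lit 1) (nat_lit 229) (nat_lit 1) (nat_lit 373) (nat_lit 420) (nat_lit 347))))))) (XT.nd (nat_lit 702) (nat_lit 2356) (nat_lit 0) (XT.nd (nat_lit 312) (nat_lit 1368) (nat_lit 0) (XT.nd (nat_lit 156) (nat_lit 532) (nat_lit 0) (XT.nd (nat_lit 78) (nat_lit 456) (nat_lit 0) (XT.lf (nat_lit 76) (nat_lit 789527607) (nat_lit 0) (nat_lit 3097871489) (nat_lit 532) (nat_lit 789527607) (nat_lit 224) (nat_lit 1) (nat_lit 223) (nat_lit 1) (nat_lit 230) (nat_lit 1) (nat_lit 374) (nat_lit 420) (nat_lit 346)) (XT.lf (nat_lit 532) (nat_lit 589101947) (nat_lit 0) (nat_lit 2025660034) (nat_lit 456) (nat_lit 2025660034) (nat_lit 224) (nat_lit 1) (nat_lit 217) (nat_lit 1) (nat_lit 223) (nat_lit 1) (nat_lit 375) (nat_lit 420) (nat_lit 345))) (XT.nd (nat_lit 78) (nat_lit 0) (nat_lit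 0) (XT.lf (nat_lit 532) (nat_lit 4221649534) (nat_lit 0) (nat_lit 191403332) (nat_lit 456) (nat_lit 191403332) (nat_lit 217) (nat_lit 1) (nat_lit 210) (nat_lit 1) (nat_lit 216) (nat_lit 1) (nat_lit 376) (nat_lit 420) (nat_lit 344)) (XT.lf (nat_lit 76) (nat_lit 1606539545) (nat_lit 0) (nat_lit 1355493311) (nat_lit 532) (nat_lit 1606539545) (nat_lit 211) (nat_lit 1) (nat_lit 210) (nat_lit 1) (nat_lit 217) (nat_lit 1) (nat_lit 377) (nat_lit 420) (nat_lit 343)))) (XT.nd (nat_lit 156) (nat_lit 912) (nat_lit 0) (XT.nd (nat_lit 78) (nat_lit 0) (nat_lit 0) (XT.lf (nat_lit 532) (nat_lit 2215366819) (nat_lit 0) (nat_lit 1158925265) (nat_lit 456) (nat_lit 1158925265) (nat_lit 211) (nat_lit 1) (nat_lit 204) (nat_lit 1) (nat_lit 210) (nat_lit 1) (nat_lit 378) (nat_lit 420) (nat_lit 342)) (XT.lf (nat_lit 76) (nat_lit 611273115) (nat_lit 0) (nat_lit 3275721633) (nat_lit 532) (nat_lit 611273115) (nat_lit 205) (nat_lit 1) (nat_lit 204) (nat_lit 1) (nat_lit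 211) (nat_lit 1) (nat_lit 379) (nat_lit 420) (nat_lit 341))) (XT.nd (nat_lit 78) (nat_lit 532) (nat_lit 0) (XT.lf (nat_lit 456) (nat_lit 227641911) (nat_lit 0) (nat_lit 2117969592) (nat_lit 380) (nat_lit 2117969592) (nat_lit 205) (nat_lit 1) (nat_lit 199) (nat_lit 1) (nat_lit 204) (nat_lit 1) (nat_lit 380) (nat_lit 420) (nat_lit 340)) (XT.nd (nat_lit 78) (nat_lit 0) (nat_lit 0) (XT.lf (nat_lit 532) (nat_lit 3685016973) (nat_lit 0) (nat_lit 372166343) (nat_lit 456) (nat_lit 372166343) (nat_lit 199) (nat_lit 1) (nat_lit 192) (nat_lit 1) (nat_lit 198) (nat_lit 1) (nat_lit 381) (nat_lit 420) (nat_lit 339)) (XT.lf (nat_lit 76) (nat_lit 1338517213) (nat_lit 0) (nat_lit 1718247509) (nat_lit 532) (nat_lit 1338517213) (nat_lit 193) (nat_lit 1) (nat_lit 192) (nat_lit 1) (nat_lit 199) (nat_lit 1) (nat_lit 382) (nat_lit 420) (nat_lit 338)))))) (XT.nd (nat_lit 390) (nat_lit 1140) (nat_lit 0) (XT.nd (nat_lit 156) (nat_lit 836) (nat_lit 0) (XT.nd (nat_lit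 78) (nat_lit 0) (nat_lit 0) (XT.lf (nat_lit 456) (nat_lit 1677511984) (nat_lit 0) (nat_lit 1342074285) (nat_lit 380) (nat_lit 1342074285) (nat_lit 193) (nat_lit 1) (nat_lit 187) (nat_lit 1) (nat_lit 192) (nat_lit 1) (nat_lit 383) (nat_lit 420) (nat_lit 337)) (XT.lf (nat_lit 76) (nat_lit 343239335) (nat_lit 0) (nat_lit 3642001916) (nat_lit 456) (nat_lit 343239335) (nat_lit 188) (nat_lit 1) (nat_lit 187) (nat_lit 1) (nat_lit 193) (nat_lit 1) (nat_lit 384) (nat_lit 420) (nat_lit 336))) (XT.nd (nat_lit 78) (nat_lit 380) (nat_lit 0) (XT.lf (nat_lit 76) (nat_lit 1995205889) (nat_lit 0) (nat_lit 305029475) (nat_lit 456) (nat_lit 1995205889) (nat_lit 182) (nat_lit 1) (nat_lit 181) (nat_lit 1) (nat_lit 187) (nat_lit 1) (nat_lit 385) (nat_lit 420) (nat_lit 335)) (XT.nd (nat_lit 78) (nat_lit 0) (nat_lit 0) (XT.lf (nat_lit 456) (nat_lit 2988199074) (nat_lit 0) (nat_lit 637317979) (nat_lit 380) (nat_lit 637317979) (nat_lit 182) (nat_lit 1) (nat_lit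 176) (nat_lit 1) (nat_lit 181) (nat_lit 1) (nat_lit 386) (nat_lit 420) (nat_lit 334)) (XT.lf (nat_lit 76) (nat_lit 992924100) (nat_lit 0) (nat_lit 2244631919) (nat_lit 456) (nat_lit 992924100) (nat_lit 177) (nat_lit 1) (nat_lit 176) (nat_lit 1) (nat_lit 182) (nat_lit 1) (nat_lit 387) (nat_lit 420) (nat_lit 333))))) (XT.nd (nat_lit 156) (nat_lit 760) (nat_lit 0) (XT.nd (nat_lit 78) (nat_lit 0) (nat_lit 0) (XT.lf (nat_lit 456) (nat_lit 988383949) (nat_lit 0) (nat_lit 1605043055) (nat_lit 380) (nat_lit 1605043055) (nat_lit 177) (nat_lit 1) (nat_lit 171) (nat_lit 1) (nat_lit 176) (nat_lit 1) (nat_lit 388) (nat_lit 420) (nat_lit 332)) (XT.lf (nat_lit 76) (nat_lit 1966116) (nat_lit 0) (nat_lit 4163027073) (nat_lit 456) (nat_lit 1966116) (nat_lit 172) (nat_lit 1) (nat_lit 171) (nat_lit 1) (nat_lit 177) (nat_lit 1) (nat_lit 389) (nat_lit 420) (nat_lit 331))) (XT.nd (nat_lit 78) (nat_lit 380) (nat_lit 0) (XT.lf (nat_lit 76) (nat_lit 1579880947)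 (nat_lit 0) (nat_lit 975639115) (nat_lit 380) (nat_lit 1579880947) (nat_lit 167) (nat_lit 1) (nat_lit 166) (nat_lit 1) (nat_lit 171) (nat_lit 1) (nat_lit 390) (nat_lit 420) (nat_lit 330)) (XT.nd (nat_lit 78) (nat_lit 0) (nat_lit 0) (XT.lf (nat_lit 456) (nat_lit 2162064001) (nat_lit 0) (nat_lit 971135320) (nat_lit 380) (nat_lit 971135320) (nat_lit 167) (nat_lit 1) (nat_lit 161) (nat_lit 1) (nat_lit 166) (nat_lit 1) (nat_lit 391) (nat_lit 420) (nat_lit 329)) (XT.lf (nat_lit 76) (nat_lit 584805253) (nat_lit 0) (nat_lit 2903986161) (nat_lit 456) (nat_lit 584805253) (nat_lit 162) (nat_lit 1) (nat_lit 161) (nat_lit 1) (nat_lit 167) (nat_lit 1) (nat_lit 392) (nat_lit 420) (nat_lit 328))))))))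
noncomputable def ec148 : XT := (XT.nd (nat_lit 1404) (nat_lit 2888) (nat_lit 0) (XT.nd (nat_lit 702) (nat_lit 1900) (nat_lit 0) (XT.nd (nat_lit 312) (nat_lit 988) (nat_lit 0) (XT.nd (nat_lit 156) (nat_lit 304) (nat_lit 0) (XT.nd (nat_lit 78) (nat_lit 456) (nat_lit 0) (XT.lf (nat_lit 380) (nat_lit 177511713) (nat_lit 0) (nat_lit 1932787537) (nat_lit 304) (nat_lit 1932787537) (nat_lit 162) (nat_lit 1) (nat_lit 157) (nat_lit 1) (nat_lit 161) (nat_lit 1) (nat_lit 393) (nat_lit 420) (nat_lit 327)) (XT.lf (nat_lit 456) (nat_lit 3221873732) (nat_lit 0) (nat_lit 395535428) (nat_lit 380) (nat_lit 395535428) (nat_lit 157) (nat_lit 1) (nat_lit 151) (nat_lit 1) (nat_lit 156) (nat_lit 1) (nat_lit 394) (nat_lit 420) (nat_lit 326))) (XT.nd (nat_lit 78) (nat_lit 304) (nat_lit 0) (XT.lf (nat_lit 76) (nat_lit 1111827370) (nat_lit 0) (nat_lit 1759297705) (nat_lit 456) (nat_lit 1111827370) (nat_lit 152) (nat_lit 1) (nat_lit 151) (nat_lit 1) (nat_lit 157)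 (nat_lit 1) (nat_lit 395) (nat_lit 420) (nat_lit 325)) (XT.lf (nat_lit 380) (nat_lit 1233434343) (nat_lit 0) (nat_lit 1359943546) (nat_lit 304) (nat_lit 1359943546) (nat_lit 152) (nat_lit 1) (nat_lit 147) (nat_lit 1) (nat_lit 151) (nat_lit 1) (nat_lit 396) (nat_lit 420) (nat_lit 324)))) (XT.nd (nat_lit 156) (nat_lit 608) (nat_lit 0) (XT.nd (nat_lit 78) (nat_lit 380) (nat_lit 0) (XT.lf (nat_lit 76) (nat_lit 127230796) (nat_lit 0) (nat_lit 3669649667) (nat_lit 380) (nat_lit 127230796) (nat_lit 148) (nat_lit 1) (nat_lit 147) (nat_lit 1) (nat_lit 152) (nat_lit 1) (nat_lit 397) (nat_lit 420) (nat_lit 323)) (XT.lf (nat_lit 76) (nat_lit 1587507328) (nat_lit 0) (nat_lit 719891072) (nat_lit 380) (nat_lit 1587507328) (nat_lit 143) (nat_lit 1) (nat_lit 142) (nat_lit 1) (nat_lit 147) (nat_lit 1) (nat_lit 398) (nat_lit 420) (nat_lit 322))) (XT.nd (nat_lit 78) (nat_lit 304) (nat_lit 0) (XT.lf (nat_lit 380) (nat_lit 2187974204) (nat_lit 0) (nat_lit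 839070389) (nat_lit 304) (nat_lit 839070389) (nat_lit 143) (nat_lit 1) (nat_lit 138) (nat_lit 1) (nat_lit 142) (nat_lit 1) (nat_lit 399) (nat_lit 420) (nat_lit 321)) (XT.nd (nat_lit 78) (nat_lit 304) (nat_lit 0) (XT.lf (nat_lit 76) (nat_lit 602898795) (nat_lit 0) (nat_lit 2631807056) (nat_lit 380) (nat_lit 602898795) (nat_lit 139) (nat_lit 1) (nat_lit 138) (nat_lit 1) (nat_lit 143) (nat_lit 1) (nat_lit 400) (nat_lit 420) (nat_lit 320)) (XT.lf (nat_lit 380) (nat_lit 225564822) (nat_lit 0) (nat_lit 1791874506) (nat_lit 304) (nat_lit 1791874506) (nat_lit 139) (nat_lit 1) (nat_lit 134) (nat_lit 1) (nat_lit 138) (nat_lit 1) (nat_lit 401) (nat_lit 420) (nat_lit 319)))))) (XT.nd (nat_lit 312) (nat_lit 1216) (nat_lit 0) (XT.nd (nat_lit 156) (nat_lit 304) (nat_lit 0) (XT.nd (nat_lit 78) (nat_lit 0) (nat_lit 0) (XT.lf (nat_lit 380) (nat_lit 3049263224) (nat_lit 0) (nat_lit 366046601) (nat_lit 304) (nat_lit 366046601) (nat_lit 134) (nat_lit 1) (nat_lit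 129) (nat_lit 1) (nat_lit 133) (nat_lit 1) (nat_lit 402) (nat_lit 420) (nat_lit 318)) (XT.lf (nat_lit 76) (nat_lit 1032825693) (nat_lit 0) (nat_lit 1687871142) (nat_lit 380) (nat_lit 1032825693) (nat_lit 130) (nat_lit 1) (nat_lit 129) (nat_lit 1) (nat_lit 134) (nat_lit 1) (nat_lit 403) (nat_lit 420) (nat_lit 317))) (XT.nd (nat_lit 78) (nat_lit 0) (nat_lit 0) (XT.lf (nat_lit 380) (nat_lit 1090221639) (nat_lit 0) (nat_lit 1317897509) (nat_lit 304) (nat_lit 1317897509) (nat_lit 130) (nat_lit 1) (nat_lit 125) (nat_lit 1) (nat_lit 129) (nat_lit 1) (nat_lit 404) (nat_lit 420) (nat_lit 316)) (XT.lf (nat_lit 76) (nat_lit 63348977) (nat_lit 0) (nat_lit 3572210596) (nat_lit 380) (nat_lit 63348977) (nat_lit 126) (nat_lit 1) (nat_lit 125) (nat_lit 1) (nat_lit 130) (nat_lit 1) (nat_lit 405) (nat_lit 420) (nat_lit 315)))) (XT.nd (nat_lit 156) (nat_lit 608) (nat_lit 0) (XT.nd (nat_lit 78) (nat_lit 304) (nat_lit 0) (XT.lf (nat_lit 76) (nat_lit 1420681487)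 (nat_lit 0) (nat_lit 830398927) (nat_lit 304) (nat_lit 1420681487) (nat_lit 122) (nat_lit 1) (nat_lit 121) (nat_lit 1) (nat_lit 125) (nat_lit 1) (nat_lit 406) (nat_lit 420) (nat_lit 314)) (XT.lf (nat_lit 380) (nat_lit 1871740010) (nat_lit 0) (nat_lit 886634020) (nat_lit 304) (nat_lit 886634020) (nat_lit 122) (nat_lit 1) (nat_lit 117) (nat_lit 1) (nat_lit 121) (nat_lit 1) (nat_lit 407) (nat_lit 420) (nat_lit 313))) (XT.nd (nat_lit 78) (nat_lit 608) (nat_lit 0) (XT.lf (nat_lit 76) (nat_lit 454366816) (nat_lit 0) (nat_lit 2709802101) (nat_lit 380) (nat_lit 454366816) (nat_lit 118) (nat_lit 1) (nat_lit 117) (nat_lit 1) (nat_lit 122) (nat_lit 1) (nat_lit 408) (nat_lit 420) (nat_lit 312)) (XT.nd (nat_lit 78) (nat_lit 304) (nat_lit 0) (XT.lf (nat_lit 76) (nat_lit 1769853029) (nat_lit 0) (nat_lit 52519950) (nat_lit 304) (nat_lit 1769853029) (nat_lit 114) (nat_lit 1) (nat_lit 113) (nat_lit 1) (nat_lit 117) (nat_lit 1) (nat_lit 409) (nat_lit 420)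 (nat_lit 311)) (XT.lf (nat_lit 380) (nat_lit 2576790344) (nat_lit 0) (nat_lit 494701445) (nat_lit 304) (nat_lit 494701445) (nat_lit 114) (nat_lit 1) (nat_lit 109) (nat_lit 1) (nat_lit 113) (nat_lit 1) (nat_lit 410) (nat_lit 420) (nat_lit 310))))))) (XT.nd (nat_lit 702) (nat_lit 1520) (nat_lit 0) (XT.nd (nat_lit 312) (nat_lit 760) (nat_lit 0) (XT.nd (nat_lit 156) (nat_lit 380) (nat_lit 0) (XT.nd (nat_lit 78) (nat_lit 228) (nat_lit 0) (XT.lf (nat_lit 76) (nat_lit 807845246) (nat_lit 0) (nat_lit 1924645807) (nat_lit 380) (nat_lit 807845246) (nat_lit 110) (nat_lit 1) (nat_lit 109) (nat_lit 1) (nat_lit 114) (nat_lit 1) (nat_lit 411) (nat_lit 420) (nat_lit 309)) (XT.lf (nat_lit 304) (nat_lit 660773594) (nat_lit 0) (nat_lit 1426982247) (nat_lit 228) (nat_lit 1426982247) (nat_lit 110) (nat_lit 1) (nat_lit 106) (nat_lit 1) (nat_lit 109) (nat_lit 1) (nat_lit 412) (nat_lit 420) (nat_lit 308))) (XT.nd (nat_lit 78) (nat_lit 0) (nat_lit 0) (XT.lf (nat_lit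 380) (nat_lit 3211528421) (nat_lit 0) (nat_lit 138977334) (nat_lit 304) (nat_lit 138977334) (nat_lit 106) (nat_lit 1) (nat_lit 101) (nat_lit 1) (nat_lit 105) (nat_lit 1) (nat_lit 413) (nat_lit 420) (nat_lit 307)) (XT.lf (nat_lit 76) (nat_lit 1126795255) (nat_lit 0) (nat_lit 1210631629) (nat_lit 380) (nat_lit 1126795255) (nat_lit 102) (nat_lit 1) (nat_lit 101) (nat_lit 1) (nat_lit 106) (nat_lit 1) (nat_lit 414) (nat_lit 420) (nat_lit 306)))) (XT.nd (nat_lit 156) (nat_lit 532) (nat_lit 0) (XT.nd (nat_lit 78) (nat_lit 0) (nat_lit 0) (XT.lf (nat_lit 304) (nat_lit 1306471015) (nat_lit 0) (nat_lit 1066414658) (nat_lit 228) (nat_lit 1066414658) (nat_lit 102) (nat_lit 1) (nat_lit 98) (nat_lit 1) (nat_lit 101) (nat_lit 1) (nat_lit 415) (nat_lit 420) (nat_lit 305)) (XT.lf (nat_lit 76) (nat_lit 184635181) (nat_lit 0) (nat_lit 3045427173) (nat_lit 304) (nat_lit 184635181) (nat_lit 99) (nat_lit 1) (nat_lit 98) (nat_lit 1) (nat_lit 102) (nat_lit 1)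 (nat_lit 416) (nat_lit 420) (nat_lit 304))) (XT.nd (nat_lit 78) (nat_lit 228) (nat_lit 0) (XT.lf (nat_lit 76) (nat_lit 1413995544) (nat_lit 0) (nat_lit 562119240) (nat_lit 304) (nat_lit 1413995544) (nat_lit 95) (nat_lit 1) (nat_lit 94) (nat_lit 1) (nat_lit 98) (nat_lit 1) (nat_lit 417) (nat_lit 420) (nat_lit 303)) (XT.nd (nat_lit 78) (nat_lit 0) (nat_lit 0) (XT.lf (nat_lit 304) (nat_lit 1889348205) (nat_lit 0) (nat_lit 738245084) (nat_lit 228) (nat_lit 738245084) (nat_lit 95) (nat_lit 1) (nat_lit 91) (nat_lit 1) (nat_lit 94) (nat_lit 1) (nat_lit 418) (nat_lit 420) (nat_lit 302)) (XT.lf (nat_lit 76) (nat_lit 478298922) (nat_lit 0) (nat_lit 2385199157) (nat_lit 304) (nat_lit 478298922) (nat_lit 92) (nat_lit 1) (nat_lit 91) (nat_lit 1) (nat_lit 95) (nat_lit 1) (nat_lit 419) (nat_lit 420) (nat_lit 301)))))) (XT.nd (nat_lit 312) (nat_lit 760) (nat_lit 0) (XT.nd (nat_lit 156) (nat_lit 228) (nat_lit 0) (XT.nd (nat_lit 78) (nat_lit 304) (nat_lit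 0) (XT.lf (nat_lit 304) (nat_lit 26444607) (nat_lit 0) (nat_lit 1645737367) (nat_lit 228) (nat_lit 1645737367) (nat_lit 92) (nat_lit 1) (nat_lit 88) (nat_lit 1) (nat_lit 91) (nat_lit 1) (nat_lit 420) (nat_lit 420) (nat_lit 300)) (XT.lf (nat_lit 304) (nat_lit 2414456809) (nat_lit 0) (nat_lit 439909423) (nat_lit 228) (nat_lit 439909423) (nat_lit 88) (nat_lit 1) (nat_lit 84) (nat_lit 1) (nat_lit 87) (nat_lit 1) (nat_lit 421) (nat_lit 420) (nat_lit 299))) (XT.nd (nat_lit 78) (nat_lit 228) (nat_lit 0) (XT.lf (nat_lit 76) (nat_lit 743565011) (nat_lit 0) (nat_lit 1783648658) (nat_lit 304) (nat_lit 743565011) (nat_lit 85) (nat_lit 1) (nat_lit 84) (nat_lit 1) (nat_lit 88) (nat_lit 1) (nat_lit 422) (nat_lit 420) (nat_lit 298)) (XT.lf (nat_lit 304) (nat_lit 566251582) (nat_lit 0) (nat_lit 1340630379) (nat_lit 228) (nat_lit 1340630379) (nat_lit 85) (nat_lit 1) (nat_lit 81) (nat_lit 1) (nat_lit 84) (nat_lit 1) (nat_lit 423) (nat_lit 420) (nat_lit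 297)))) (XT.nd (nat_lit 156) (nat_lit 456) (nat_lit 0) (XT.nd (nat_lit 78) (nat_lit 0) (nat_lit 0) (XT.lf (nat_lit 304) (nat_lit 2886458518) (nat_lit 0) (nat_lit 169040738) (nat_lit 228) (nat_lit 169040738) (nat_lit 81) (nat_lit 1) (nat_lit 77) (nat_lit 1) (nat_lit 80) (nat_lit 1) (nat_lit 424) (nat_lit 420) (nat_lit 296)) (XT.lf (nat_lit 76) (nat_lit 982714369) (nat_lit 0) (nat_lit 1236142446) (nat_lit 304) (nat_lit 982714369) (nat_lit 78) (nat_lit 1) (nat_lit 77) (nat_lit 1) (nat_lit 81) (nat_lit 1) (nat_lit 425) (nat_lit 420) (nat_lit 295))) (XT.nd (nat_lit 78) (nat_lit 228) (nat_lit 0) (XT.lf (nat_lit 304) (nat_lit 1054325849) (nat_lit 0) (nat_lit 1062283715) (nat_lit 228) (nat_lit 1062283715) (nat_lit 78) (nat_lit 1) (nat_lit 74) (nat_lit 1) (nat_lit 77) (nat_lit 1) (nat_lit 426) (nat_lit 420) (nat_lit 294)) (XT.nd (nat_lit 78) (nat_lit 228) (nat_lit 0) (XT.lf (nat_lit 76) (nat_lit 77052716) (nat_lit 0) (nat_lit 3002417701) (nat_lit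 304) (nat_lit 77052716) (nat_lit 75) (nat_lit 1) (nat_lit 74) (nat_lit 1) (nat_lit 78) (nat_lit 1) (nat_lit 427) (nat_lit 420) (nat_lit 293)) (XT.lf (nat_lit 76) (nat_lit 1197851895) (nat_lit 0) (nat_lit 738403359) (nat_lit 228) (nat_lit 1197851895) (nat_lit 72) (nat_lit 1) (nat_lit 71) (nat_lit 1) (nat_lit 74) (nat_lit 1) (nat_lit 428) (nat_lit 420) (nat_lit 292))))))))
noncomputable def ec149 : XT := (XT.nd (nat_lit 49998) (nat_lit 0) (nat_lit 30476) (XT.nd (nat_lit 49296) (nat_lit 0) (nat_lit 33592) (XT.nd (nat_lit 312) (nat_lit 456) (nat_lit 0) (XT.nd (nat_lit 156) (nat_lit 456) (nat_lit 0) (XT.nd (nat_lit 78) (nat_lit 0) (nat_lit 0) (XT.lf (nat_lit 304) (nat_lit 1494815402) (nat_lit 0) (nat_lit 808590335) (nat_lit 228) (nat_lit 808590335) (nat_lit 72) (nat_lit 1) (nat_lit 68) (nat_lit 1) (nat_lit 71) (nat_lit 1) (nat_lit 429) (nat_lit 420) (nat_lit 291)) (XT.lf (nat_lit 76) (nat_lit 300846026) (nat_lit 0) (nat_lit 2488432387) (nat_lit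 304) (nat_lit 300846026) (nat_lit 69) (nat_lit 1) (nat_lit 68) (nat_lit 1) (nat_lit 72) (nat_lit 1) (nat_lit 430) (nat_lit 420) (nat_lit 290))) (XT.nd (nat_lit 78) (nat_lit 228) (nat_lit 0) (XT.lf (nat_lit 76) (nat_lit 1390919916) (nat_lit 0) (nat_lit 286483129) (nat_lit 228) (nat_lit 1390919916) (nat_lit 66) (nat_lit 1) (nat_lit 65) (nat_lit 1) (nat_lit 68) (nat_lit 1) (nat_lit 431) (nat_lit 420) (nat_lit 289)) (XT.lf (nat_lit 304) (nat_lit 1891548263) (nat_lit 0) (nat_lit 577605015) (nat_lit 228) (nat_lit 577605015) (nat_lit 66) (nat_lit 1) (nat_lit 62) (nat_lit 1) (nat_lit 65) (nat_lit 1) (nat_lit 432) (nat_lit 420) (nat_lit 288)))) (XT.nd (nat_lit 156) (nat_lit 304) (nat_lit 0) (XT.nd (nat_lit 78) (nat_lit 152) (nat_lit 0) (XT.lf (nat_lit 76) (nat_lit 503093291) (nat_lit 0) (nat_lit 2019184258) (nat_lit 304) (nat_lit 503093291) (nat_lit 63) (nat_lit 1) (nat_lit 62) (nat_lit 1) (nat_lit 66) (nat_lit 1) (nat_lit 433) (nat_lit 420) (nat_lit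 287)) (XT.lf (nat_lit 228) (nat_lit 124900827) (nat_lit 0) (nat_lit 1439620724) (nat_lit 152) (nat_lit 1439620724) (nat_lit 63) (nat_lit 1) (nat_lit 60) (nat_lit 1) (nat_lit 62) (nat_lit 1) (nat_lit 434) (nat_lit 420) (nat_lit 286))) (XT.nd (nat_lit 48672) (nat_lit 0) (nat_lit 33516) (XT.lf (nat_lit 304) (nat_lit 2248056928) (nat_lit 0) (nat_lit 367531999) (nat_lit 228) (nat_lit 367531999) (nat_lit 60) (nat_lit 1) (nat_lit 56) (nat_lit 1) (nat_lit 59) (nat_lit 1) (nat_lit 435) (nat_lit 420) (nat_lit 285)) (XT.nd (nat_lit 78) (nat_lit 0) (nat_lit 0) (XT.lf (nat_lit 1900) (nat_lit 1519121105) (nat_lit 0) (nat_lit 1531824491) (nat_lit 1900) (nat_lit 1519121105) (nat_lit 522) (nat_lit 1) (nat_lit 497) (nat_lit 0) (nat_lit 522) (nat_lit 0) (nat_lit 298) (nat_lit 421) (nat_lit 421)) (XT.lf (nat_lit 1900) (nat_lit 6006833254) (nat_lit 76) (nat_lit 1521746698) (nat_lit 0) (nat_lit 1521746698) (nat_lit 522) (nat_lit 1) (nat_lit 498) (nat_lit 1)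 (nat_lit 497) (nat_lit 0) (nat_lit 299) (nat_lit 421) (nat_lit 420)))))) (XT.nd (nat_lit 312) (nat_lit 0) (nat_lit 152) (XT.nd (nat_lit 156) (nat_lit 0) (nat_lit 76) (XT.nd (nat_lit 78) (nat_lit 0) (nat_lit 0) (XT.lf (nat_lit 1900) (nat_lit 2949383720) (nat_lit 0) (nat_lit 3062733365) (nat_lit 1824) (nat_lit 2949383720) (nat_lit 523) (nat_lit 1) (nat_lit 498) (nat_lit 1) (nat_lit 522) (nat_lit 1) (nat_lit 300) (nat_lit 421) (nat_lit 419)) (XT.lf (nat_lit 1900) (nat_lit 5772671004) (nat_lit 76) (nat_lit 1550675275) (nat_lit 0) (nat_lit 1550675275) (nat_lit 523) (nat_lit 1) (nat_lit 499) (nat_lit 1) (nat_lit 498) (nat_lit 1) (nat_lit 301) (nat_lit 421) (nat_lit 418))) (XT.nd (nat_lit 78) (nat_lit 0) (nat_lit 0) (XT.lf (nat_lit 1900) (nat_lit 2805408718) (nat_lit 0) (nat_lit 3176690546) (nat_lit 1824) (nat_lit 2805408718) (nat_lit 524) (nat_lit 1) (nat_lit 499) (nat_lit 1) (nat_lit 523) (nat_lit 1) (nat_lit 302) (nat_lit 421) (nat_lit 417))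 (XT.lf (nat_lit 1900) (nat_lit 5431238189) (nat_lit 76) (nat_lit 1635521388) (nat_lit 0) (nat_lit 1635521388) (nat_lit 524) (nat_lit 1) (nat_lit 500) (nat_lit 1) (nat_lit 499) (nat_lit 1) (nat_lit 303) (nat_lit 421) (nat_lit 416)))) (XT.nd (nat_lit 156) (nat_lit 0) (nat_lit 76) (XT.nd (nat_lit 78) (nat_lit 0) (nat_lit 0) (XT.lf (nat_lit 1900) (nat_lit 2609605819) (nat_lit 0) (nat_lit 3398808164) (nat_lit 1824) (nat_lit 2609605819) (nat_lit 525) (nat_lit 1) (nat_lit 500) (nat_lit 1) (nat_lit 524) (nat_lit 1) (nat_lit 304) (nat_lit 421) (nat_lit 415)) (XT.lf (nat_lit 1900) (nat_lit 4988981891) (nat_lit 76) (nat_lit 1772995242) (nat_lit 0) (nat_lit 1772995242) (nat_lit 525) (nat_lit 1) (nat_lit 501) (nat_lit 1) (nat_lit 500) (nat_lit 1) (nat_lit 305) (nat_lit 421) (nat_lit 414))) (XT.nd (nat_lit 78) (nat_lit 0) (nat_lit 0) (XT.lf (nat_lit 1900) (nat_lit 2365113418) (nat_lit 0) (nat_lit 3722678658) (nat_lit 1824) (nat_lit 2365113418) (nat_lit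 526) (nat_lit 1) (nat_lit 501) (nat_lit 1) (nat_lit 525) (nat_lit 1) (nat_lit 306) (nat_lit 421) (nat_lit 413)) (XT.nd (nat_lit 78) (nat_lit 0) (nat_lit 76) (XT.lf (nat_lit 1900) (nat_lit 4452054104) (nat_lit 76) (nat_lit 1959956721) (nat_lit 0) (nat_lit 1959956721) (nat_lit 526) (nat_lit 1) (nat_lit 502) (nat_lit 1) (nat_lit 501) (nat_lit 1) (nat_lit 307) (nat_lit 421) (nat_lit 412)) (XT.lf (nat_lit 1900) (nat_lit 2074925968) (nat_lit 0) (nat_lit 4142186566) (nat_lit 1824) (nat_lit 2074925968) (nat_lit 527) (nat_lit 1) (nat_lit 502) (nat_lit 1) (nat_lit 526) (nat_lit 1) (nat_lit 308) (nat_lit 421) (nat_lit 411))))))) (XT.nd (nat_lit 702) (nat_lit 3420) (nat_lit 0) (XT.nd (nat_lit 312) (nat_lit 0) (nat_lit 152) (XT.nd (nat_lit 156) (nat_lit 0) (nat_lit 76) (XT.nd (nat_lit 78) (nat_lit 0) (nat_lit 76) (XT.lf (nat_lit 1900) (nat_lit 3826324076) (nat_lit 76) (nat_lit 2193409141) (nat_lit 0) (nat_lit 2193409141) (nat_lit 527) (nat_lit 1)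 (nat_lit 503) (nat_lit 1) (nat_lit 502) (nat_lit 1) (nat_lit 309) (nat_lit 421) (nat_lit 410)) (XT.lf (nat_lit 1900) (nat_lit 1741900001) (nat_lit 0) (nat_lit 4651496333) (nat_lit 1824) (nat_lit 1741900001) (nat_lit 528) (nat_lit 1) (nat_lit 503) (nat_lit 1) (nat_lit 527) (nat_lit 1) (nat_lit 310) (nat_lit 421) (nat_lit 409))) (XT.nd (nat_lit 78) (nat_lit 0) (nat_lit 76) (XT.lf (nat_lit 1900) (nat_lit 3117390139) (nat_lit 76) (nat_lit 2470493264) (nat_lit 0) (nat_lit 2470493264) (nat_lit 528) (nat_lit 1) (nat_lit 504) (nat_lit 1) (nat_lit 503) (nat_lit 1) (nat_lit 311) (nat_lit 421) (nat_lit 408)) (XT.lf (nat_lit 1900) (nat_lit 1368759907) (nat_lit 0) (nat_lit 5245040611) (nat_lit 1824) (nat_lit 1368759907) (nat_lit 529) (nat_lit 1) (nat_lit 504) (nat_lit 1) (nat_lit 528) (nat_lit 1) (nat_lit 312) (nat_lit 421) (nat_lit 407)))) (XT.nd (nat_lit 156) (nat_lit 0) (nat_lit 76) (XT.nd (nat_lit 78) (nat_lit 0) (nat_lit 76) (XT.lf (nat_lit 1900)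 (nat_lit 2330591081) (nat_lit 76) (nat_lit 2788481545) (nat_lit 0) (nat_lit 2788481545) (nat_lit 529) (nat_lit 1) (nat_lit 505) (nat_lit 1) (nat_lit 504) (nat_lit 1) (nat_lit 313) (nat_lit 421) (nat_lit 406)) (XT.lf (nat_lit 1900) (nat_lit 958103482) (nat_lit 0) (nat_lit 5917509028) (nat_lit 1824) (nat_lit 958103482) (nat_lit 530) (nat_lit 1) (nat_lit 505) (nat_lit 1) (nat_lit 529) (nat_lit 1) (nat_lit 314) (nat_lit 421) (nat_lit 405))) (XT.nd (nat_lit 78) (nat_lit 0) (nat_lit 76) (XT.lf (nat_lit 1900) (nat_lit 1471017047) (nat_lit 76) (nat_lit 3144772611) (nat_lit 0) (nat_lit 3144772611) (nat_lit 530) (nat_lit 1) (nat_lit 506) (nat_lit 1) (nat_lit 505) (nat_lit 1) (nat_lit 315) (nat_lit 421) (nat_lit 404)) (XT.nd (nat_lit 78) (nat_lit 0) (nat_lit 0) (XT.lf (nat_lit 1900) (nat_lit 512407254) (nat_lit 0) (nat_lit 6663837408) (nat_lit 1824) (nat_lit 512407254) (nat_lit 531) (nat_lit 1) (nat_lit 506) (nat_lit 1) (nat_lit 530) (nat_lit 1)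 (nat_lit 316) (nat_lit 421) (nat_lit 403)) (XT.lf (nat_lit 1900) (nat_lit 543520003) (nat_lit 76) (nat_lit 3536885969) (nat_lit 0) (nat_lit 3536885969) (nat_lit 531) (nat_lit 1) (nat_lit 507) (nat_lit 1) (nat_lit 506) (nat_lit 1) (nat_lit 317) (nat_lit 421) (nat_lit 402)))))) (XT.nd (nat_lit 390) (nat_lit 1900) (nat_lit 0) (XT.nd (nat_lit 156) (nat_lit 0) (nat_lit 0) (XT.nd (nat_lit 78) (nat_lit 1900) (nat_lit 0) (XT.lf (nat_lit 1900) (nat_lit 34031587) (nat_lit 0) (nat_lit 7479197429) (nat_lit 1824) (nat_lit 34031587) (nat_lit 532) (nat_lit 1) (nat_lit 507) (nat_lit 1) (nat_lit 531) (nat_lit 1) (nat_lit 318) (nat_lit 421) (nat_lit 401)) (XT.lf (nat_lit 1976) (nat_lit 3518084717) (nat_lit 0) (nat_lit 441410107) (nat_lit 1900) (nat_lit 3518084717) (nat_lit 508) (nat_lit 1) (nat_lit 482) (nat_lit 1) (nat_lit 507) (nat_lit 1) (nat_lit 319) (nat_lit 421) (nat_lit 400))) (XT.nd (nat_lit 78) (nat_lit 0) (nat_lit 76) (XT.lf (nat_lit 1976) (nat_lit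 6465888658) (nat_lit 76) (nat_lit 471650893) (nat_lit 0) (nat_lit 471650893) (nat_lit 508) (nat_lit 1) (nat_lit 483) (nat_lit 1) (nat_lit 482) (nat_lit 1) (nat_lit 320) (nat_lit 421) (nat_lit 399)) (XT.nd (nat_lit 78) (nat_lit 0) (nat_lit 0) (XT.lf (nat_lit 1976) (nat_lit 2931984701) (nat_lit 0) (nat_lit 1477333291) (nat_lit 1900) (nat_lit 2931984701) (nat_lit 509) (nat_lit 1) (nat_lit 483) (nat_lit 1) (nat_lit 508) (nat_lit 1) (nat_lit 321) (nat_lit 421) (nat_lit 398)) (XT.lf (nat_lit 1976) (nat_lit 5264133189) (nat_lit 76) (nat_lit 1005211156) (nat_lit 0) (nat_lit 1005211156) (nat_lit 509) (nat_lit 1) (nat_lit 484) (nat_lit 1) (nat_lit 483) (nat_lit 1) (nat_lit 322) (nat_lit 421) (nat_lit 397))))) (XT.nd (nat_lit 156) (nat_lit 912) (nat_lit 0) (XT.nd (nat_lit 78) (nat_lit 1140) (nat_lit 0) (XT.lf (nat_lit 76) (nat_lit 2320598330) (nat_lit 0) (nat_lit 2567236853) (nat_lit 1900) (nat_lit 2320598330) (nat_lit 485) (nat_lit 1) (nat_lit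 484) (nat_lit 1) (nat_lit 509) (nat_lit 1) (nat_lit 323) (nat_lit 421) (nat_lit 396)) (XT.lf (nat_lit 1216) (nat_lit 4013584856) (nat_lit 0) (nat_lit 1564846003) (nat_lit 1140) (nat_lit 1564846003) (nat_lit 485) (nat_lit 1) (nat_lit 469) (nat_lit 1) (nat_lit 484) (nat_lit 1) (nat_lit 324) (nat_lit 421) (nat_lit 395))) (XT.nd (nat_lit 78) (nat_lit 912) (nat_lit 0) (XT.lf (nat_lit 76) (nat_lit 1685849567) (nat_lit 0) (nat_lit 3707177482) (nat_lit 1216) (nat_lit 1685849567) (nat_lit 470) (nat_lit 1) (nat_lit 469) (nat_lit 1) (nat_lit 485) (nat_lit 1) (nat_lit 325) (nat_lit 421) (nat_lit 394)) (XT.nd (nat_lit 78) (nat_lit 0) (nat_lit 0) (XT.lf (nat_lit 988) (nat_lit 2718010081) (nat_lit 0) (nat_lit 2148625408) (nat_lit 912) (nat_lit 2148625408) (nat_lit 470) (nat_lit 1) (nat_lit 457) (nat_lit 1) (nat_lit 469) (nat_lit 1) (nat_lit 326) (nat_lit 421) (nat_lit 393)) (XT.lf (nat_lit 76) (nat_lit 1029569196) (nat_lit 0) (nat_lit 4893401210) (nat_lit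 988) (nat_lit 1029569196) (nat_lit 458) (nat_lit 1) (nat_lit 457) (nat_lit 1) (nat_lit 470) (nat_lit 1) (nat_lit 327) (nat_lit 421) (nat_lit 392))))))))
noncomputable def ec150 : XT := (XT.nd (nat_lit 1404) (nat_lit 7524) (nat_lit 0) (XT.nd (nat_lit 702) (nat_lit 3800) (nat_lit 0) (XT.nd (nat_lit 312) (nat_lit 1672) (nat_lit 0) (XT.nd (nat_lit 156) (nat_lit 1824) (nat_lit 0) (XT.nd (nat_lit 78) (nat_lit 0) (nat_lit 0) (XT.lf (nat_lit 988) (nat_lit 1380992329) (nat_lit 0) (nat_lit 2754712282) (nat_lit 912) (nat_lit 2754712282) (nat_lit 458) (nat_lit 1) (nat_lit 445) (nat_lit 1) (nat_lit 457) (nat_lit 1) (nat_lit 328) (nat_lit 421) (nat_lit 391)) (XT.lf (nat_lit 76) (nat_lit 353498801) (nat_lit 0) (nat_lit 6122335349) (nat_lit 988) (nat_lit 353498801) (nat_lit 446) (nat_lit 1) (nat_lit 445) (nat_lit 1) (nat_lit 458) (nat_lit 1) (nat_lit 329) (nat_lit 421) (nat_lit 390))) (XT.nd (nat_lit 78) (nat_lit 988) (nat_lit 0) (XT.lf (nat_lit 912)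 (nat_lit 5939937) (nat_lit 0) (nat_lit 3381358511) (nat_lit 836) (nat_lit 3381358511) (nat_lit 446) (nat_lit 1) (nat_lit 434) (nat_lit 1) (nat_lit 445) (nat_lit 1) (nat_lit 330) (nat_lit 421) (nat_lit 389)) (XT.lf (nat_lit 988) (nat_lit 6032064489) (nat_lit 0) (nat_lit 338463935) (nat_lit 912) (nat_lit 338463935) (nat_lit 434) (nat_lit 1) (nat_lit 421) (nat_lit 1) (nat_lit 433) (nat_lit 1) (nat_lit 331) (nat_lit 421) (nat_lit 388)))) (XT.nd (nat_lit 156) (nat_lit 836) (nat_lit 0) (XT.nd (nat_lit 78) (nat_lit 836) (nat_lit 0) (XT.lf (nat_lit 76) (nat_lit 2632109856) (nat_lit 0) (nat_lit 1385493902) (nat_lit 988) (nat_lit 2632109856) (nat_lit 422) (nat_lit 1) (nat_lit 421) (nat_lit 1) (nat_lit 434) (nat_lit 1) (nat_lit 332) (nat_lit 421) (nat_lit 387)) (XT.lf (nat_lit 912) (nat_lit 4502315625) (nat_lit 0) (nat_lit 1044551423) (nat_lit 836) (nat_lit 1044551423) (nat_lit 422) (nat_lit 1) (nat_lit 410) (nat_lit 1) (nat_lit 421) (nat_lit 1)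 (nat_lit 333) (nat_lit 421) (nat_lit 386))) (XT.nd (nat_lit 78) (nat_lit 836) (nat_lit 0) (XT.lf (nat_lit 76) (nat_lit 1862767086) (nat_lit 0) (nat_lit 2808147555) (nat_lit 912) (nat_lit 1862767086) (nat_lit 411) (nat_lit 1) (nat_lit 410) (nat_lit 1) (nat_lit 422) (nat_lit 1) (nat_lit 334) (nat_lit 421) (nat_lit 385)) (XT.nd (nat_lit 78) (nat_lit 0) (nat_lit 0) (XT.lf (nat_lit 912) (nat_lit 2945509075) (nat_lit 0) (nat_lit 1765602878) (nat_lit 836) (nat_lit 1765602878) (nat_lit 411) (nat_lit 1) (nat_lit 399) (nat_lit 1) (nat_lit 410) (nat_lit 1) (nat_lit 335) (nat_lit 421) (nat_lit 384)) (XT.lf (nat_lit 76) (nat_lit 1080635952) (nat_lit 0) (nat_lit 4259210543) (nat_lit 912) (nat_lit 1080635952) (nat_lit 400) (nat_lit 1) (nat_lit 399) (nat_lit 1) (nat_lit 411) (nat_lit 1) (nat_lit 336) (nat_lit 421) (nat_lit 383)))))) (XT.nd (nat_lit 312) (nat_lit 1444) (nat_lit 0) (XT.nd (nat_lit 156) (nat_lit 1596) (nat_lit 0) (XT.nd (nat_lit 78) (nat_lit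 0) (nat_lit 0) (XT.lf (nat_lit 836) (nat_lit 1364390811) (nat_lit 0) (nat_lit 2500206207) (nat_lit 760) (nat_lit 2500206207) (nat_lit 400) (nat_lit 1) (nat_lit 389) (nat_lit 1) (nat_lit 399) (nat_lit 1) (nat_lit 337) (nat_lit 421) (nat_lit 382)) (XT.lf (nat_lit 76) (nat_lit 287049568) (nat_lit 0) (nat_lit 5735939447) (nat_lit 836) (nat_lit 287049568) (nat_lit 390) (nat_lit 1) (nat_lit 389) (nat_lit 1) (nat_lit 400) (nat_lit 1) (nat_lit 338) (nat_lit 421) (nat_lit 381))) (XT.nd (nat_lit 78) (nat_lit 760) (nat_lit 0) (XT.lf (nat_lit 76) (nat_lit 3010135447) (nat_lit 0) (nat_lit 235305973) (nat_lit 836) (nat_lit 3010135447) (nat_lit 379) (nat_lit 1) (nat_lit 378) (nat_lit 1) (nat_lit 389) (nat_lit 1) (nat_lit 339) (nat_lit 421) (nat_lit 380)) (XT.lf (nat_lit 836) (nat_lit 5175350811) (nat_lit 0) (nat_lit 513327598) (nat_lit 760) (nat_lit 513327598) (nat_lit 379) (nat_lit 1) (nat_lit 368) (nat_lit 1) (nat_lit 378) (nat_lit 1) (nat_lit 340)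 (nat_lit 421) (nat_lit 379)))) (XT.nd (nat_lit 156) (nat_lit 684) (nat_lit 0) (XT.nd (nat_lit 78) (nat_lit 760) (nat_lit 0) (XT.lf (nat_lit 76) (nat_lit 2156361971) (nat_lit 0) (nat_lit 1836089579) (nat_lit 836) (nat_lit 2156361971) (nat_lit 369) (nat_lit 1) (nat_lit 368) (nat_lit 1) (nat_lit 379) (nat_lit 1) (nat_lit 341) (nat_lit 421) (nat_lit 378)) (XT.lf (nat_lit 836) (nat_lit 3454931789) (nat_lit 0) (nat_lit 1320747691) (nat_lit 760) (nat_lit 1320747691) (nat_lit 369) (nat_lit 1) (nat_lit 358) (nat_lit 1) (nat_lit 368) (nat_lit 1) (nat_lit 342) (nat_lit 421) (nat_lit 377))) (XT.nd (nat_lit 78) (nat_lit 684) (nat_lit 0) (XT.lf (nat_lit 76) (nat_lit 1295539373) (nat_lit 0) (nat_lit 3453540623) (nat_lit 836) (nat_lit 1295539373) (nat_lit 359) (nat_lit 1) (nat_lit 358) (nat_lit 1) (nat_lit 369) (nat_lit 1) (nat_lit 343) (nat_lit 421) (nat_lit 376)) (XT.nd (nat_lit 78) (nat_lit 0) (nat_lit 0) (XT.lf (nat_lit 760) (nat_lit 1721443337)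 (nat_lit 0) (nat_lit 2135969284) (nat_lit 684) (nat_lit 2135969284) (nat_lit 359) (nat_lit 1) (nat_lit 349) (nat_lit 1) (nat_lit 358) (nat_lit 1) (nat_lit 344) (nat_lit 421) (nat_lit 375)) (XT.lf (nat_lit 76) (nat_lit 428729657) (nat_lit 0) (nat_lit 5085466245) (nat_lit 760) (nat_lit 428729657) (nat_lit 350) (nat_lit 1) (nat_lit 349) (nat_lit 1) (nat_lit 359) (nat_lit 1) (nat_lit 345) (nat_lit 421) (nat_lit 374))))))) (XT.nd (nat_lit 702) (nat_lit 3496) (nat_lit 0) (XT.nd (nat_lit 312) (nat_lit 1900) (nat_lit 0) (XT.nd (nat_lit 156) (nat_lit 684) (nat_lit 0) (XT.nd (nat_lit 78) (nat_lit 684) (nat_lit 0) (XT.lf (nat_lit 76) (nat_lit 2935030437) (nat_lit 0) (nat_lit 22738672) (nat_lit 760) (nat_lit 2935030437) (nat_lit 340) (nat_lit 1) (nat_lit 339) (nat_lit 1) (nat_lit 349) (nat_lit 1) (nat_lit 346) (nat_lit 421) (nat_lit 373)) (XT.lf (nat_lit 760) (nat_lit 4963140435) (nat_lit 0) (nat_lit 440146985) (nat_lit 684) (nat_lit 440146985) (nat_lit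 340) (nat_lit 1) (nat_lit 330) (nat_lit 1) (nat_lit 339) (nat_lit 1) (nat_lit 347) (nat_lit 421) (nat_lit 372))) (XT.nd (nat_lit 78) (nat_lit 684) (nat_lit 0) (XT.lf (nat_lit 76) (nat_lit 2020567135) (nat_lit 0) (nat_lit 1753258460) (nat_lit 760) (nat_lit 2020567135) (nat_lit 331) (nat_lit 1) (nat_lit 330) (nat_lit 1) (nat_lit 340) (nat_lit 1) (nat_lit 348) (nat_lit 421) (nat_lit 371)) (XT.lf (nat_lit 760) (nat_lit 3125672062) (nat_lit 0) (nat_lit 1310207212) (nat_lit 684) (nat_lit 1310207212) (nat_lit 331) (nat_lit 1) (nat_lit 321) (nat_lit 1) (nat_lit 330) (nat_lit 1) (nat_lit 349) (nat_lit 421) (nat_lit 370)))) (XT.nd (nat_lit 156) (nat_lit 1292) (nat_lit 0) (XT.nd (nat_lit 78) (nat_lit 608) (nat_lit 0) (XT.lf (nat_lit 76) (nat_lit 1103730139) (nat_lit 0) (nat_lit 3490861268) (nat_lit 760) (nat_lit 1103730139) (nat_lit 322) (nat_lit 1) (nat_lit 321) (nat_lit 1) (nat_lit 331) (nat_lit 1) (nat_lit 350) (nat_lit 421) (nat_lit 369)) (XT.lf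 (nat_lit 684) (nat_lit 1284286456) (nat_lit 0) (nat_lit 2183378200) (nat_lit 608) (nat_lit 2183378200) (nat_lit 322) (nat_lit 1) (nat_lit 313) (nat_lit 1) (nat_lit 321) (nat_lit 1) (nat_lit 351) (nat_lit 421) (nat_lit 368))) (XT.nd (nat_lit 78) (nat_lit 1292) (nat_lit 0) (XT.lf (nat_lit 76) (nat_lit 185354436) (nat_lit 0) (nat_lit 5233815559) (nat_lit 684) (nat_lit 185354436) (nat_lit 314) (nat_lit 1) (nat_lit 313) (nat_lit 1) (nat_lit 322) (nat_lit 1) (nat_lit 352) (nat_lit 421) (nat_lit 367)) (XT.nd (nat_lit 78) (nat_lit 608) (nat_lit 0) (XT.lf (nat_lit 76) (nat_lit 2503059196) (nat_lit 0) (nat_lit 552051943) (nat_lit 684) (nat_lit 2503059196) (nat_lit 305) (nat_lit 1) (nat_lit 304) (nat_lit 1) (nat_lit 313) (nat_lit 1) (nat_lit 353) (nat_lit 421) (nat_lit 366)) (XT.lf (nat_lit 684) (nat_lit 4054670163) (nat_lit 0) (nat_lit 728944531) (nat_lit 608) (nat_lit 728944531) (nat_lit 305) (nat_lit 1) (nat_lit 296) (nat_lit 1) (nat_lit 304)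 (nat_lit 1) (nat_lit 354) (nat_lit 421) (nat_lit 365)))))) (XT.nd (nat_lit 390) (nat_lit 1672) (nat_lit 0) (XT.nd (nat_lit 156) (nat_lit 1216) (nat_lit 0) (XT.nd (nat_lit 78) (nat_lit 608) (nat_lit 0) (XT.lf (nat_lit 76) (nat_lit 1547512830) (nat_lit 0) (nat_lit 2372290278) (nat_lit 684) (nat_lit 1547512830) (nat_lit 297) (nat_lit 1) (nat_lit 296) (nat_lit 1) (nat_lit 305) (nat_lit 1) (nat_lit 355) (nat_lit 421) (nat_lit 364)) (XT.lf (nat_lit 684) (nat_lit 2138590545) (nat_lit 0) (nat_lit 1642031604) (nat_lit 608) (nat_lit 1642031604) (nat_lit 297) (nat_lit 1) (nat_lit 288) (nat_lit 1) (nat_lit 296) (nat_lit 1) (nat_lit 356) (nat_lit 421) (nat_lit 363))) (XT.nd (nat_lit 78) (nat_lit 1216) (nat_lit 0) (XT.lf (nat_lit 76) (nat_lit 593373103) (nat_lit 0) (nat_lit 4191843385) (nat_lit 684) (nat_lit 593373103) (nat_lit 289) (nat_lit 1) (nat_lit 288) (nat_lit 1) (nat_lit 297) (nat_lit 1) (nat_lit 357) (nat_lit 421) (nat_lit 362)) (XT.nd (nat_lit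 78) (nat_lit 684) (nat_lit 0) (XT.lf (nat_lit 608) (nat_lit 225987567) (nat_lit 0) (nat_lit 2554430562) (nat_lit 532) (nat_lit 2554430562) (nat_lit 289) (nat_lit 1) (nat_lit 281) (nat_lit 1) (nat_lit 288) (nat_lit 1) (nat_lit 358) (nat_lit 421) (nat_lit 361)) (XT.lf (nat_lit 684) (nat_lit 4579039820) (nat_lit 0) (nat_lit 356354672) (nat_lit 608) (nat_lit 356354672) (nat_lit 281) (nat_lit 1) (nat_lit 272) (nat_lit 1) (nat_lit 280) (nat_lit 1) (nat_lit 359) (nat_lit 421) (nat_lit 360))))) (XT.nd (nat_lit 156) (nat_lit 1140) (nat_lit 0) (XT.nd (nat_lit 78) (nat_lit 532) (nat_lit 0) (XT.lf (nat_lit 76) (nat_lit 1794523253) (nat_lit 0) (nat_lit 1659824847) (nat_lit 684) (nat_lit 1794523253) (nat_lit 273) (nat_lit 1) (nat_lit 272) (nat_lit 1) (nat_lit 281) (nat_lit 1) (nat_lit 360) (nat_lit 421) (nat_lit 359)) (XT.lf (nat_lit 608) (nat_lit 2607544926) (nat_lit 0) (nat_lit 1299537620) (nat_lit 532) (nat_lit 1299537620) (nat_lit 273) (nat_lit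 1) (nat_lit 265) (nat_lit 1) (nat_lit 272) (nat_lit 1) (nat_lit 361) (nat_lit 421) (nat_lit 358))) (XT.nd (nat_lit 78) (nat_lit 1140) (nat_lit 0) (XT.lf (nat_lit 76) (nat_lit 814009982) (nat_lit 0) (nat_lit 3536838872) (nat_lit 608) (nat_lit 814009982) (nat_lit 266) (nat_lit 1) (nat_lit 265) (nat_lit 1) (nat_lit 273) (nat_lit 1) (nat_lit 362) (nat_lit 421) (nat_lit 357)) (XT.nd (nat_lit 78) (nat_lit 608) (nat_lit 0) (XT.lf (nat_lit 608) (nat_lit 644432699) (nat_lit 0) (nat_lit 2239513705) (nat_lit 532) (nat_lit 2239513705) (nat_lit 266) (nat_lit 1) (nat_lit 258) (nat_lit 1) (nat_lit 265) (nat_lit 1) (nat_lit 363) (nat_lit 421) (nat_lit 356)) (XT.lf (nat_lit 608) (nat_lit 4760701145) (nat_lit 0) (nat_lit 161001915) (nat_lit 532) (nat_lit 161001915) (nat_lit 258) (nat_lit 1) (nat_lit 250) (nat_lit 1) (nat_lit 257) (nat_lit 1) (nat_lit 364) (nat_lit 421) (nat_lit 355))))))))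
noncomputable def ec151 : XT := (XT.nd (nat_lit 1404) (nat_lit 4408) (nat_lit 0) (XT.nd (nat_lit 702) (nat_lit 2280) (nat_lit 0) (XT.nd (nat_lit 312) (nat_lit 1520) (nat_lit 0) (XT.nd (nat_lit 156) (nat_lit 456) (nat_lit 0) (XT.nd (nat_lit 78) (nat_lit 532) (nat_lit 0) (XT.lf (nat_lit 76) (nat_lit 1874967301) (nat_lit 0) (nat_lit 1292114128) (nat_lit 608) (nat_lit 1874967301) (nat_lit 251) (nat_lit 1) (nat_lit 250) (nat_lit 1) (nat_lit 258) (nat_lit 1) (nat_lit 365) (nat_lit 421) (nat_lit 354)) (XT.lf (nat_lit 608) (nat_lit 2750486260) (nat_lit 0) (nat_lit 1125768362) (nat_lit 532) (nat_lit 1125768362) (nat_lit 251) (nat_lit 1) (nat_lit 243) (nat_lit 1) (nat_lit 250) (nat_lit 1) (nat_lit 366) (nat_lit 421) (nat_lit 353))) (XT.nd (nat_lit 78) (nat_lit 456) (nat_lit 0) (XT.lf (nat_lit 76) (nat_lit 876209901) (nat_lit 0) (nat_lit 3210005093) (nat_lit 608) (nat_lit 876209901) (nat_lit 244) (nat_lit 1) (nat_lit 243) (nat_lit 1) (nat_lit 251)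 (nat_lit 1) (nat_lit 367) (nat_lit 421) (nat_lit 352)) (XT.lf (nat_lit 532) (nat_lit 752804822) (nat_lit 0) (nat_lit 2085192166) (nat_lit 456) (nat_lit 2085192166) (nat_lit 244) (nat_lit 1) (nat_lit 237) (nat_lit 1) (nat_lit 243) (nat_lit 1) (nat_lit 368) (nat_lit 421) (nat_lit 351)))) (XT.nd (nat_lit 156) (nat_lit 912) (nat_lit 0) (XT.nd (nat_lit 78) (nat_lit 0) (nat_lit 0) (XT.lf (nat_lit 608) (nat_lit 4653896756) (nat_lit 0) (nat_lit 115333862) (nat_lit 532) (nat_lit 115333862) (nat_lit 237) (nat_lit 1) (nat_lit 229) (nat_lit 1) (nat_lit 236) (nat_lit 1) (nat_lit 369) (nat_lit 421) (nat_lit 350)) (XT.lf (nat_lit 76) (nat_lit 1815301945) (nat_lit 0) (nat_lit 1215393104) (nat_lit 608) (nat_lit 1815301945) (nat_lit 230) (nat_lit 1) (nat_lit 229) (nat_lit 1) (nat_lit 237) (nat_lit 1) (nat_lit 370) (nat_lit 421) (nat_lit 349))) (XT.nd (nat_lit 78) (nat_lit 456) (nat_lit 0) (XT.lf (nat_lit 532) (nat_lit 2619379583) (nat_lit 0) (nat_lit 1094324682)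 (nat_lit 456) (nat_lit 1094324682) (nat_lit 230) (nat_lit 1) (nat_lit 223) (nat_lit 1) (nat_lit 229) (nat_lit 1) (nat_lit 371) (nat_lit 421) (nat_lit 348)) (XT.nd (nat_lit 78) (nat_lit 456) (nat_lit 0) (XT.lf (nat_lit 76) (nat_lit 805318159) (nat_lit 0) (nat_lit 3159828919) (nat_lit 532) (nat_lit 805318159) (nat_lit 224) (nat_lit 1) (nat_lit 223) (nat_lit 1) (nat_lit 230) (nat_lit 1) (nat_lit 372) (nat_lit 421) (nat_lit 347)) (XT.lf (nat_lit 532) (nat_lit 600883986) (nat_lit 0) (nat_lit 2066173235) (nat_lit 456) (nat_lit 2066173235) (nat_lit 224) (nat_lit 1) (nat_lit 217) (nat_lit 1) (nat_lit 223) (nat_lit 1) (nat_lit 373) (nat_lit 421) (nat_lit 346)))))) (XT.nd (nat_lit 312) (nat_lit 1292) (nat_lit 0) (XT.nd (nat_lit 156) (nat_lit 456) (nat_lit 0) (XT.nd (nat_lit 78) (nat_lit 0) (nat_lit 0) (XT.lf (nat_lit 532) (nat_lit 4306082525) (nat_lit 0) (nat_lit 195231399) (nat_lit 456) (nat_lit 195231399) (nat_lit 217) (nat_lit 1) (nat_lit 210)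 (nat_lit 1) (nat_lit 216) (nat_lit 1) (nat_lit 374) (nat_lit 421) (nat_lit 345)) (XT.lf (nat_lit 76) (nat_lit 1638670336) (nat_lit 0) (nat_lit 1382603177) (nat_lit 532) (nat_lit 1638670336) (nat_lit 211) (nat_lit 1) (nat_lit 210) (nat_lit 1) (nat_lit 217) (nat_lit 1) (nat_lit 375) (nat_lit 421) (nat_lit 344))) (XT.nd (nat_lit 78) (nat_lit 0) (nat_lit 0) (XT.lf (nat_lit 532) (nat_lit 2259674156) (nat_lit 0) (nat_lit 1182103771) (nat_lit 456) (nat_lit 1182103771) (nat_lit 211) (nat_lit 1) (nat_lit 204) (nat_lit 1) (nat_lit 210) (nat_lit 1) (nat_lit 376) (nat_lit 421) (nat_lit 343)) (XT.lf (nat_lit 76) (nat_lit 623498577) (nat_lit 0) (nat_lit 3341236066) (nat_lit 532) (nat_lit 623498577) (nat_lit 205) (nat_lit 1) (nat_lit 204) (nat_lit 1) (nat_lit 211) (nat_lit 1) (nat_lit 377) (nat_lit 421) (nat_lit 342)))) (XT.nd (nat_lit 156) (nat_lit 380) (nat_lit 0) (XT.nd (nat_lit 78) (nat_lit 532) (nat_lit 0) (XT.lf (nat_lit 456) (nat_lit 232194749)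 (nat_lit 0) (nat_lit 2160328984) (nat_lit 380) (nat_lit 2160328984) (nat_lit 205) (nat_lit 1) (nat_lit 199) (nat_lit 1) (nat_lit 204) (nat_lit 1) (nat_lit 378) (nat_lit 421) (nat_lit 341)) (XT.lf (nat_lit 532) (nat_lit 3758717313) (nat_lit 0) (nat_lit 379609670) (nat_lit 456) (nat_lit 379609670) (nat_lit 199) (nat_lit 1) (nat_lit 192) (nat_lit 1) (nat_lit 198) (nat_lit 1) (nat_lit 379) (nat_lit 421) (nat_lit 340))) (XT.nd (nat_lit 78) (nat_lit 380) (nat_lit 0) (XT.lf (nat_lit 76) (nat_lit 1365287557) (nat_lit 0) (nat_lit 1752612459) (nat_lit 532) (nat_lit 1365287557) (nat_lit 193) (nat_lit 1) (nat_lit 192) (nat_lit 1) (nat_lit 199) (nat_lit 1) (nat_lit 380) (nat_lit 421) (nat_lit 339)) (XT.nd (nat_lit 78) (nat_lit 0) (nat_lit 0) (XT.lf (nat_lit 456) (nat_lit 1711062224) (nat_lit 0) (nat_lit 1368915771) (nat_lit 380) (nat_lit 1368915771) (nat_lit 193) (nat_lit 1) (nat_lit 187) (nat_lit 1) (nat_lit 192) (nat_lit 1) (nat_lit 381) (nat_lit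 421) (nat_lit 338)) (XT.lf (nat_lit 76) (nat_lit 350104121) (nat_lit 0) (nat_lit 3714841954) (nat_lit 456) (nat_lit 350104121) (nat_lit 188) (nat_lit 1) (nat_lit 187) (nat_lit 1) (nat_lit 193) (nat_lit 1) (nat_lit 382) (nat_lit 421) (nat_lit 337))))))) (XT.nd (nat_lit 702) (nat_lit 2128) (nat_lit 0) (XT.nd (nat_lit 312) (nat_lit 1064) (nat_lit 0) (XT.nd (nat_lit 156) (nat_lit 380) (nat_lit 0) (XT.nd (nat_lit 78) (nat_lit 380) (nat_lit 0) (XT.lf (nat_lit 76) (nat_lit 2035110007) (nat_lit 0) (nat_lit 311130065) (nat_lit 456) (nat_lit 2035110007) (nat_lit 182) (nat_lit 1) (nat_lit 181) (nat_lit 1) (nat_lit 187) (nat_lit 1) (nat_lit 383) (nat_lit 421) (nat_lit 336)) (XT.lf (nat_lit 456) (nat_lit 3047963055) (nat_lit 0) (nat_lit 650064338) (nat_lit 380) (nat_lit 650064338) (nat_lit 182) (nat_lit 1) (nat_lit 176) (nat_lit 1) (nat_lit 181) (nat_lit 1) (nat_lit 384) (nat_lit 421) (nat_lit 335))) (XT.nd (nat_lit 78) (nat_lit 380) (nat_lit 0) (XT.lf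 (nat_lit 76) (nat_lit 1012782582) (nat_lit 0) (nat_lit 2289524557) (nat_lit 456) (nat_lit 1012782582) (nat_lit 177) (nat_lit 1) (nat_lit 176) (nat_lit 1) (nat_lit 182) (nat_lit 1) (nat_lit 385) (nat_lit 421) (nat_lit 334)) (XT.lf (nat_lit 456) (nat_lit 1008151628) (nat_lit 0) (nat_lit 1637143916) (nat_lit 380) (nat_lit 1637143916) (nat_lit 177) (nat_lit 1) (nat_lit 171) (nat_lit 1) (nat_lit 176) (nat_lit 1) (nat_lit 386) (nat_lit 421) (nat_lit 333)))) (XT.nd (nat_lit 156) (nat_lit 684) (nat_lit 0) (XT.nd (nat_lit 78) (nat_lit 380) (nat_lit 0) (XT.lf (nat_lit 76) (nat_lit 2005438) (nat_lit 0) (nat_lit 4246287615) (nat_lit 456) (nat_lit 2005438) (nat_lit 172) (nat_lit 1) (nat_lit 171) (nat_lit 1) (nat_lit 177) (nat_lit 1) (nat_lit 387) (nat_lit 421) (nat_lit 332)) (XT.lf (nat_lit 76) (nat_lit 1611478566) (nat_lit 0) (nat_lit 995151897) (nat_lit 380) (nat_lit 1611478566) (nat_lit 167) (nat_lit 1) (nat_lit 166) (nat_lit 1) (nat_lit 171) (nat_lit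 1) (nat_lit 388) (nat_lit 421) (nat_lit 331))) (XT.nd (nat_lit 78) (nat_lit 304) (nat_lit 0) (XT.lf (nat_lit 456) (nat_lit 2205305281) (nat_lit 0) (nat_lit 990558026) (nat_lit 380) (nat_lit 990558026) (nat_lit 167) (nat_lit 1) (nat_lit 161) (nat_lit 1) (nat_lit 166) (nat_lit 1) (nat_lit 389) (nat_lit 421) (nat_lit 330)) (XT.nd (nat_lit 78) (nat_lit 304) (nat_lit 0) (XT.lf (nat_lit 76) (nat_lit 596501358) (nat_lit 0) (nat_lit 2962065884) (nat_lit 456) (nat_lit 596501358) (nat_lit 162) (nat_lit 1) (nat_lit 161) (nat_lit 1) (nat_lit 167) (nat_lit 1) (nat_lit 390) (nat_lit 421) (nat_lit 329)) (XT.lf (nat_lit 380) (nat_lit 181061947) (nat_lit 0) (nat_lit 1971443288) (nat_lit 304) (nat_lit 1971443288) (nat_lit 162) (nat_lit 1) (nat_lit 157) (nat_lit 1) (nat_lit 161) (nat_lit 1) (nat_lit 391) (nat_lit 421) (nat_lit 328)))))) (XT.nd (nat_lit 390) (nat_lit 988) (nat_lit 0) (XT.nd (nat_lit 156) (nat_lit 684) (nat_lit 0) (XT.nd (nat_lit 78) (nat_lit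 0) (nat_lit 0) (XT.lf (nat_lit 456) (nat_lit 3286311207) (nat_lit 0) (nat_lit 403446137) (nat_lit 380) (nat_lit 403446137) (nat_lit 157) (nat_lit 1) (nat_lit 151) (nat_lit 1) (nat_lit 156) (nat_lit 1) (nat_lit 392) (nat_lit 421) (nat_lit 327)) (XT.lf (nat_lit 76) (nat_lit 1134063917) (nat_lit 0) (nat_lit 1794483659) (nat_lit 456) (nat_lit 1134063917) (nat_lit 152) (nat_lit 1) (nat_lit 151) (nat_lit 1) (nat_lit 157) (nat_lit 1) (nat_lit 393) (nat_lit 421) (nat_lit 326))) (XT.nd (nat_lit 78) (nat_lit 380) (nat_lit 0) (XT.lf (nat_lit 380) (nat_lit 1258103030) (nat_lit 0) (nat_lit 1387142417) (nat_lit 304) (nat_lit 1387142417) (nat_lit 152) (nat_lit 1) (nat_lit 147) (nat_lit 1) (nat_lit 151) (nat_lit 1) (nat_lit 394) (nat_lit 421) (nat_lit 325)) (XT.nd (nat_lit 78) (nat_lit 380) (nat_lit 0) (XT.lf (nat_lit 76) (nat_lit 129775412) (nat_lit 0) (nat_lit 3743042660) (nat_lit 380) (nat_lit 129775412) (nat_lit 148) (nat_lit 1) (nat_lit 147) (nat_lit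 1) (nat_lit 152) (nat_lit 1) (nat_lit 395) (nat_lit 421) (nat_lit 324)) (XT.lf (nat_lit 76) (nat_lit 1619257475) (nat_lit 0) (nat_lit 734288893) (nat_lit 380) (nat_lit 1619257475) (nat_lit 143) (nat_lit 1) (nat_lit 142) (nat_lit 1) (nat_lit 147) (nat_lit 1) (nat_lit 396) (nat_lit 421) (nat_lit 323))))) (XT.nd (nat_lit 156) (nat_lit 684) (nat_lit 0) (XT.nd (nat_lit 78) (nat_lit 0) (nat_lit 0) (XT.lf (nat_lit 380) (nat_lit 2231733688) (nat_lit 0) (nat_lit 855851797) (nat_lit 304) (nat_lit 855851797) (nat_lit 143) (nat_lit 1) (nat_lit 138) (nat_lit 1) (nat_lit 142) (nat_lit 1) (nat_lit 397) (nat_lit 421) (nat_lit 322)) (XT.lf (nat_lit 76) (nat_lit 614956771) (nat_lit 0) (nat_lit 2684443197) (nat_lit 380) (nat_lit 614956771) (nat_lit 139) (nat_lit 1) (nat_lit 138) (nat_lit 1) (nat_lit 143) (nat_lit 1) (nat_lit 398) (nat_lit 421) (nat_lit 321))) (XT.nd (nat_lit 78) (nat_lit 380) (nat_lit 0) (XT.lf (nat_lit 380) (nat_lit 230076119) (nat_lit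 0) (nat_lit 1827711997) (nat_lit 304) (nat_lit 1827711997) (nat_lit 139) (nat_lit 1) (nat_lit 134) (nat_lit 1) (nat_lit 138) (nat_lit 1) (nat_lit 399) (nat_lit 421) (nat_lit 320)) (XT.nd (nat_lit 78) (nat_lit 0) (nat_lit 0) (XT.lf (nat_lit 380) (nat_lit 3110248488) (nat_lit 0) (nat_lit 373367533) (nat_lit 304) (nat_lit 373367533) (nat_lit 134) (nat_lit 1) (nat_lit 129) (nat_lit 1) (nat_lit 133) (nat_lit 1) (nat_lit 400) (nat_lit 421) (nat_lit 319)) (XT.lf (nat_lit 76) (nat_lit 1053482207) (nat_lit 0) (nat_lit 1721628565) (nat_lit 380) (nat_lit 1053482207) (nat_lit 130) (nat_lit 1) (nat_lit 129) (nat_lit 1) (nat_lit 134) (nat_lit 1) (nat_lit 401) (nat_lit 421) (nat_lit 318))))))))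
noncomputable def ec152 : XT := (XT.nd (nat_lit 1404) (nat_lit 2280) (nat_lit 0) (XT.nd (nat_lit 702) (nat_lit 1672) (nat_lit 0) (XT.nd (nat_lit 312) (nat_lit 836) (nat_lit 0) (XT.nd (nat_lit 156) (nat_lit 608) (nat_lit 0) (XT.nd (nat_lit 78) (nat_lit 0) (nat_lit 0) (XT.lf (nat_lit 380) (nat_lit 1112026072) (nat_lit 0) (nat_lit 1344255460) (nat_lit 304) (nat_lit 1344255460) (nat_lit 130) (nat_lit 1) (nat_lit 125) (nat_lit 1) (nat_lit 129) (nat_lit 1) (nat_lit 402) (nat_lit 421) (nat_lit 317)) (XT.lf (nat_lit 76) (nat_lit 64615957) (nat_lit 0) (nat_lit 3643654808) (nat_lit 380) (nat_lit 64615957) (nat_lit 126) (nat_lit 1) (nat_lit 125) (nat_lit 1) (nat_lit 130) (nat_lit 1) (nat_lit 403) (nat_lit 421) (nat_lit 316))) (XT.nd (nat_lit 78) (nat_lit 304) (nat_lit 0) (XT.lf (nat_lit 76) (nat_lit 1449095116) (nat_lit 0) (nat_lit 847006906) (nat_lit 304) (nat_lit 1449095116) (nat_lit 122) (nat_lit 1) (nat_lit 121) (nat_lit 1) (nat_lit 125) (nat_lit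 1) (nat_lit 404) (nat_lit 421) (nat_lit 315)) (XT.lf (nat_lit 380) (nat_lit 1909174810) (nat_lit 0) (nat_lit 904366700) (nat_lit 304) (nat_lit 904366700) (nat_lit 122) (nat_lit 1) (nat_lit 117) (nat_lit 1) (nat_lit 121) (nat_lit 1) (nat_lit 405) (nat_lit 421) (nat_lit 314)))) (XT.nd (nat_lit 156) (nat_lit 532) (nat_lit 0) (XT.nd (nat_lit 78) (nat_lit 304) (nat_lit 0) (XT.lf (nat_lit 76) (nat_lit 463454152) (nat_lit 0) (nat_lit 2763998143) (nat_lit 380) (nat_lit 463454152) (nat_lit 118) (nat_lit 1) (nat_lit 117) (nat_lit 1) (nat_lit 122) (nat_lit 1) (nat_lit 406) (nat_lit 421) (nat_lit 313)) (XT.lf (nat_lit 76) (nat_lit 1805250090) (nat_lit 0) (nat_lit 53570349) (nat_lit 304) (nat_lit 1805250090) (nat_lit 114) (nat_lit 1) (nat_lit 113) (nat_lit 1) (nat_lit 117) (nat_lit 1) (nat_lit 407) (nat_lit 421) (nat_lit 312))) (XT.nd (nat_lit 78) (nat_lit 228) (nat_lit 0) (XT.lf (nat_lit 380) (nat_lit 2628326151) (nat_lit 0) (nat_lit 504595473) (nat_lit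 304) (nat_lit 504595473) (nat_lit 114) (nat_lit 1) (nat_lit 109) (nat_lit 1) (nat_lit 113) (nat_lit 1) (nat_lit 408) (nat_lit 421) (nat_lit 311)) (XT.nd (nat_lit 78) (nat_lit 228) (nat_lit 0) (XT.lf (nat_lit 76) (nat_lit 824002151) (nat_lit 0) (nat_lit 1963138724) (nat_lit 380) (nat_lit 824002151) (nat_lit 110) (nat_lit 1) (nat_lit 109) (nat_lit 1) (nat_lit 114) (nat_lit 1) (nat_lit 409) (nat_lit 421) (nat_lit 310)) (XT.lf (nat_lit 304) (nat_lit 673989065) (nat_lit 0) (nat_lit 1455521892) (nat_lit 228) (nat_lit 1455521892) (nat_lit 110) (nat_lit 1) (nat_lit 106) (nat_lit 1) (nat_lit 109) (nat_lit 1) (nat_lit 410) (nat_lit 421) (nat_lit 309)))))) (XT.nd (nat_lit 312) (nat_lit 1064) (nat_lit 0) (XT.nd (nat_lit 156) (nat_lit 228) (nat_lit 0) (XT.nd (nat_lit 78) (nat_lit 0) (nat_lit 0) (XT.lf (nat_lit 380) (nat_lit 3275758990) (nat_lit 0) (nat_lit 141756881) (nat_lit 304) (nat_lit 141756881) (nat_lit 106) (nat_lit 1) (nat_lit 101) (nat_lit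 1) (nat_lit 105) (nat_lit 1) (nat_lit 411) (nat_lit 421) (nat_lit 308)) (XT.lf (nat_lit 76) (nat_lit 1149331160) (nat_lit 0) (nat_lit 1234844261) (nat_lit 380) (nat_lit 1149331160) (nat_lit 102) (nat_lit 1) (nat_lit 101) (nat_lit 1) (nat_lit 106) (nat_lit 1) (nat_lit 412) (nat_lit 421) (nat_lit 307))) (XT.nd (nat_lit 78) (nat_lit 0) (nat_lit 0) (XT.lf (nat_lit 304) (nat_lit 1332600435) (nat_lit 0) (nat_lit 1087742951) (nat_lit 228) (nat_lit 1087742951) (nat_lit 102) (nat_lit 1) (nat_lit 98) (nat_lit 1) (nat_lit 101) (nat_lit 1) (nat_lit 413) (nat_lit 421) (nat_lit 306)) (XT.lf (nat_lit 76) (nat_lit 188327885) (nat_lit 0) (nat_lit 3106335716) (nat_lit 304) (nat_lit 188327885) (nat_lit 99) (nat_lit 1) (nat_lit 98) (nat_lit 1) (nat_lit 102) (nat_lit 1) (nat_lit 414) (nat_lit 421) (nat_lit 305)))) (XT.nd (nat_lit 156) (nat_lit 532) (nat_lit 0) (XT.nd (nat_lit 78) (nat_lit 228) (nat_lit 0) (XT.lf (nat_lit 76) (nat_lit 1442275455) (nat_lit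 0) (nat_lit 573361625) (nat_lit 304) (nat_lit 1442275455) (nat_lit 95) (nat_lit 1) (nat_lit 94) (nat_lit 1) (nat_lit 98) (nat_lit 1) (nat_lit 415) (nat_lit 421) (nat_lit 304)) (XT.lf (nat_lit 304) (nat_lit 1927135169) (nat_lit 0) (nat_lit 753009986) (nat_lit 228) (nat_lit 753009986) (nat_lit 95) (nat_lit 1) (nat_lit 91) (nat_lit 1) (nat_lit 94) (nat_lit 1) (nat_lit 416) (nat_lit 421) (nat_lit 303))) (XT.nd (nat_lit 78) (nat_lit 532) (nat_lit 0) (XT.lf (nat_lit 76) (nat_lit 487864900) (nat_lit 0) (nat_lit 2432903141) (nat_lit 304) (nat_lit 487864900) (nat_lit 92) (nat_lit 1) (nat_lit 91) (nat_lit 1) (nat_lit 95) (nat_lit 1) (nat_lit 417) (nat_lit 421) (nat_lit 302)) (XT.nd (nat_lit 78) (nat_lit 304) (nat_lit 0) (XT.lf (nat_lit 304) (nat_lit 26973499) (nat_lit 0) (nat_lit 1678652114) (nat_lit 228) (nat_lit 1678652114) (nat_lit 92) (nat_lit 1) (nat_lit 88) (nat_lit 1) (nat_lit 91) (nat_lit 1) (nat_lit 418) (nat_lit 421) (nat_lit 301)) (XT.lf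 (nat_lit 304) (nat_lit 2462745945) (nat_lit 0) (nat_lit 448707611) (nat_lit 228) (nat_lit 448707611) (nat_lit 88) (nat_lit 1) (nat_lit 84) (nat_lit 1) (nat_lit 87) (nat_lit 1) (nat_lit 419) (nat_lit 421) (nat_lit 300))))))) (XT.nd (nat_lit 702) (nat_lit 1064) (nat_lit 0) (XT.nd (nat_lit 312) (nat_lit 684) (nat_lit 0) (XT.nd (nat_lit 156) (nat_lit 304) (nat_lit 0) (XT.nd (nat_lit 78) (nat_lit 228) (nat_lit 0) (XT.lf (nat_lit 76) (nat_lit 758436311) (nat_lit 0) (nat_lit 1819321632) (nat_lit 304) (nat_lit 758436311) (nat_lit 85) (nat_lit 1) (nat_lit 84) (nat_lit 1) (nat_lit 88) (nat_lit 1) (nat_lit 420) (nat_lit 421) (nat_lit 299)) (XT.lf (nat_lit 304) (nat_lit 577576614) (nat_lit 0) (nat_lit 1367442987) (nat_lit 228) (nat_lit 1367442987) (nat_lit 85) (nat_lit 1) (nat_lit 81) (nat_lit 1) (nat_lit 84) (nat_lit 1) (nat_lit 421) (nat_lit 421) (nat_lit 298))) (XT.nd (nat_lit 78) (nat_lit 0) (nat_lit 0) (XT.lf (nat_lit 304) (nat_lit 2944187689)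 (nat_lit 0) (nat_lit 172421553) (nat_lit 228) (nat_lit 172421553) (nat_lit 81) (nat_lit 1) (nat_lit 77) (nat_lit 1) (nat_lit 80) (nat_lit 1) (nat_lit 422) (nat_lit 421) (nat_lit 297)) (XT.lf (nat_lit 76) (nat_lit 1002368656) (nat_lit 0) (nat_lit 1260865295) (nat_lit 304) (nat_lit 1002368656) (nat_lit 78) (nat_lit 1) (nat_lit 77) (nat_lit 1) (nat_lit 81) (nat_lit 1) (nat_lit 423) (nat_lit 421) (nat_lit 296)))) (XT.nd (nat_lit 156) (nat_lit 456) (nat_lit 0) (XT.nd (nat_lit 78) (nat_lit 0) (nat_lit 0) (XT.lf (nat_lit 304) (nat_lit 1075412366) (nat_lit 0) (nat_lit 1083529389) (nat_lit 228) (nat_lit 1083529389) (nat_lit 78) (nat_lit 1) (nat_lit 74) (nat_lit 1) (nat_lit 77) (nat_lit 1) (nat_lit 424) (nat_lit 421) (nat_lit 295)) (XT.lf (nat_lit 76) (nat_lit 78593770) (nat_lit 0) (nat_lit 3062466055) (nat_lit 304) (nat_lit 78593770) (nat_lit 75) (nat_lit 1) (nat_lit 74) (nat_lit 1) (nat_lit 78) (nat_lit 1) (nat_lit 425) (nat_lit 421) (nat_lit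 294))) (XT.nd (nat_lit 78) (nat_lit 228) (nat_lit 0) (XT.lf (nat_lit 76) (nat_lit 1221808933) (nat_lit 0) (nat_lit 753171426) (nat_lit 228) (nat_lit 1221808933) (nat_lit 72) (nat_lit 1) (nat_lit 71) (nat_lit 1) (nat_lit 74) (nat_lit 1) (nat_lit 426) (nat_lit 421) (nat_lit 293)) (XT.nd (nat_lit 78) (nat_lit 0) (nat_lit 0) (XT.lf (nat_lit 304) (nat_lit 1524711710) (nat_lit 0) (nat_lit 824762142) (nat_lit 228) (nat_lit 824762142) (nat_lit 72) (nat_lit 1) (nat_lit 68) (nat_lit 1) (nat_lit 71) (nat_lit 1) (nat_lit 427) (nat_lit 421) (nat_lit 292)) (XT.lf (nat_lit 76) (nat_lit 306862947) (nat_lit 0) (nat_lit 2538201035) (nat_lit 304) (nat_lit 306862947) (nat_lit 69) (nat_lit 1) (nat_lit 68) (nat_lit 1) (nat_lit 72) (nat_lit 1) (nat_lit 428) (nat_lit 421) (nat_lit 291)))))) (XT.nd (nat_lit 312) (nat_lit 456) (nat_lit 0) (XT.nd (nat_lit 156) (nat_lit 152) (nat_lit 0) (XT.nd (nat_lit 78) (nat_lit 228) (nat_lit 0) (XT.lf (nat_lit 76) (nat_lit 1418738314)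 (nat_lit 0) (nat_lit 292212792) (nat_lit 228) (nat_lit 1418738314) (nat_lit 66) (nat_lit 1) (nat_lit 65) (nat_lit 1) (nat_lit 68) (nat_lit 1) (nat_lit 429) (nat_lit 421) (nat_lit 290)) (XT.lf (nat_lit 304) (nat_lit 1929379229) (nat_lit 0) (nat_lit 589157116) (nat_lit 228) (nat_lit 589157116) (nat_lit 66) (nat_lit 1) (nat_lit 62) (nat_lit 1) (nat_lit 65) (nat_lit 1) (nat_lit 430) (nat_lit 421) (nat_lit 289))) (XT.nd (nat_lit 78) (nat_lit 152) (nat_lit 0) (XT.lf (nat_lit 76) (nat_lit 513155157) (nat_lit 0) (nat_lit 2059567943) (nat_lit 304) (nat_lit 513155157) (nat_lit 63) (nat_lit 1) (nat_lit 62) (nat_lit 1) (nat_lit 66) (nat_lit 1) (nat_lit 431) (nat_lit 421) (nat_lit 288)) (XT.lf (nat_lit 228) (nat_lit 127398843) (nat_lit 0) (nat_lit 1468413138) (nat_lit 152) (nat_lit 1468413138) (nat_lit 63) (nat_lit 1) (nat_lit 60) (nat_lit 1) (nat_lit 62) (nat_lit 1) (nat_lit 432) (nat_lit 421) (nat_lit 287)))) (XT.nd (nat_lit 156) (nat_lit 152) (nat_lit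 0) (XT.nd (nat_lit 78) (nat_lit 0) (nat_lit 0) (XT.lf (nat_lit 304) (nat_lit 2293018067) (nat_lit 0) (nat_lit 374882639) (nat_lit 228) (nat_lit 374882639) (nat_lit 60) (nat_lit 1) (nat_lit 56) (nat_lit 1) (nat_lit 59) (nat_lit 1) (nat_lit 433) (nat_lit 421) (nat_lit 286)) (XT.lf (nat_lit 76) (nat_lit 699234110) (nat_lit 0) (nat_lit 1622979803) (nat_lit 304) (nat_lit 699234110) (nat_lit 57) (nat_lit 1) (nat_lit 56) (nat_lit 1) (nat_lit 60) (nat_lit 1) (nat_lit 434) (nat_lit 421) (nat_lit 285))) (XT.nd (nat_lit 48516) (nat_lit 0) (nat_lit 33668) (XT.lf (nat_lit 228) (nat_lit 510781068) (nat_lit 0) (nat_lit 1244770305) (nat_lit 152) (nat_lit 1244770305) (nat_lit 57) (nat_lit 1) (nat_lit 54) (nat_lit 1) (nat_lit 56) (nat_lit 1) (nat_lit 435) (nat_lit 421) (nat_lit 284)) (XT.nd (nat_lit 78) (nat_lit 0) (nat_lit 0) (XT.lf (nat_lit 1900) (nat_lit 1549503527) (nat_lit 0) (nat_lit 1562460981) (nat_lit 1900) (nat_lit 1549503527) (nat_lit 522) (nat_lit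 1) (nat_lit 497) (nat_lit 0) (nat_lit 522) (nat_lit 0) (nat_lit 296) (nat_lit 422) (nat_lit 422)) (XT.lf (nat_lit 1900) (nat_lit 6126969919) (nat_lit 76) (nat_lit 1552181632) (nat_lit 0) (nat_lit 1552181632) (nat_lit 522) (nat_lit 1) (nat_lit 498) (nat_lit 1) (nat_lit 497) (nat_lit 0) (nat_lit 297) (nat_lit 422) (nat_lit 421))))))))
noncomputable def ec153 : XT := (XT.nd (nat_lit 1404) (nat_lit 7524) (nat_lit 0) (XT.nd (nat_lit 702) (nat_lit 0) (nat_lit 304) (XT.nd (nat_lit 312) (nat_lit 0) (nat_lit 152) (XT.nd (nat_lit 156) (nat_lit 0) (nat_lit 76) (XT.nd (nat_lit 78) (nat_lit 0) (nat_lit 0) (XT.lf (nat_lit 1900) (nat_lit 3008371395) (nat_lit 0) (nat_lit 3123988032) (nat_lit 1824) (nat_lit 3008371395) (nat_lit 523) (nat_lit 1) (nat_lit 498) (nat_lit 1) (nat_lit 522) (nat_lit 1) (nat_lit 298) (nat_lit 422) (nat_lit 420)) (XT.lf (nat_lit 1900) (nat_lit 5888124424) (nat_lit 76) (nat_lit 1581688781) (nat_lit 0) (nat_lit 1581688781) (nat_lit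 523) (nat_lit 1) (nat_lit 499) (nat_lit 1) (nat_lit 498) (nat_lit 1) (nat_lit 299) (nat_lit 422) (nat_lit 419))) (XT.nd (nat_lit 78) (nat_lit 0) (nat_lit 0) (XT.lf (nat_lit 1900) (nat_lit 2861516892) (nat_lit 0) (nat_lit 3240224357) (nat_lit 1824) (nat_lit 2861516892) (nat_lit 524) (nat_lit 1) (nat_lit 499) (nat_lit 1) (nat_lit 523) (nat_lit 1) (nat_lit 300) (nat_lit 422) (nat_lit 418)) (XT.lf (nat_lit 1900) (nat_lit 5539862953) (nat_lit 76) (nat_lit 1668231816) (nat_lit 0) (nat_lit 1668231816) (nat_lit 524) (nat_lit 1) (nat_lit 500) (nat_lit 1) (nat_lit 499) (nat_lit 1) (nat_lit 301) (nat_lit 422) (nat_lit 417)))) (XT.nd (nat_lit 156) (nat_lit 0) (nat_lit 76) (XT.nd (nat_lit 78) (nat_lit 0) (nat_lit 0) (XT.lf (nat_lit 1900) (nat_lit 2661797935) (nat_lit 0) (nat_lit 3466784327) (nat_lit 1824) (nat_lit 2661797935) (nat_lit 525) (nat_lit 1) (nat_lit 500) (nat_lit 1) (nat_lit 524) (nat_lit 1) (nat_lit 302) (nat_lit 422) (nat_lit 416)) (XT.lf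 (nat_lit 1900) (nat_lit 5088761529) (nat_lit 76) (nat_lit 1808455147) (nat_lit 0) (nat_lit 1808455147) (nat_lit 525) (nat_lit 1) (nat_lit 501) (nat_lit 1) (nat_lit 500) (nat_lit 1) (nat_lit 303) (nat_lit 422) (nat_lit 415))) (XT.nd (nat_lit 78) (nat_lit 0) (nat_lit 0) (XT.lf (nat_lit 1900) (nat_lit 2412415687) (nat_lit 0) (nat_lit 3797132231) (nat_lit 1824) (nat_lit 2412415687) (nat_lit 526) (nat_lit 1) (nat_lit 501) (nat_lit 1) (nat_lit 525) (nat_lit 1) (nat_lit 304) (nat_lit 422) (nat_lit 414)) (XT.nd (nat_lit 78) (nat_lit 0) (nat_lit 76) (XT.lf (nat_lit 1900) (nat_lit 4541095187) (nat_lit 76) (nat_lit 1999155855) (nat_lit 0) (nat_lit 1999155855) (nat_lit 526) (nat_lit 1) (nat_lit 502) (nat_lit 1) (nat_lit 501) (nat_lit 1) (nat_lit 305) (nat_lit 422) (nat_lit 413)) (XT.lf (nat_lit 1900) (nat_lit 2116424488) (nat_lit 0) (nat_lit 4225030297) (nat_lit 1824) (nat_lit 2116424488) (nat_lit 527) (nat_lit 1) (nat_lit 502) (nat_lit 1) (nat_lit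 526) (nat_lit 1) (nat_lit 306) (nat_lit 422) (nat_lit 412)))))) (XT.nd (nat_lit 312) (nat_lit 0) (nat_lit 152) (XT.nd (nat_lit 156) (nat_lit 0) (nat_lit 76) (XT.nd (nat_lit 78) (nat_lit 0) (nat_lit 76) (XT.lf (nat_lit 1900) (nat_lit 3902850557) (nat_lit 76) (nat_lit 2237277324) (nat_lit 0) (nat_lit 2237277324) (nat_lit 527) (nat_lit 1) (nat_lit 503) (nat_lit 1) (nat_lit 502) (nat_lit 1) (nat_lit 307) (nat_lit 422) (nat_lit 411)) (XT.lf (nat_lit 1900) (nat_lit 1776738001) (nat_lit 0) (nat_lit 4744526260) (nat_lit 1824) (nat_lit 1776738001) (nat_lit 528) (nat_lit 1) (nat_lit 503) (nat_lit 1) (nat_lit 527) (nat_lit 1) (nat_lit 308) (nat_lit 422) (nat_lit 410))) (XT.nd (nat_lit 78) (nat_lit 0) (nat_lit 76) (XT.lf (nat_lit 1900) (nat_lit 3179737942) (nat_lit 76) (nat_lit 2519903129) (nat_lit 0) (nat_lit 2519903129) (nat_lit 528) (nat_lit 1) (nat_lit 504) (nat_lit 1) (nat_lit 503) (nat_lit 1) (nat_lit 309) (nat_lit 422) (nat_lit 409)) (XT.lf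 (nat_lit 1900) (nat_lit 1396135105) (nat_lit 0) (nat_lit 5349941423) (nat_lit 1824) (nat_lit 1396135105) (nat_lit 529) (nat_lit 1) (nat_lit 504) (nat_lit 1) (nat_lit 528) (nat_lit 1) (nat_lit 310) (nat_lit 422) (nat_lit 408)))) (XT.nd (nat_lit 156) (nat_lit 0) (nat_lit 76) (XT.nd (nat_lit 78) (nat_lit 0) (nat_lit 76) (XT.lf (nat_lit 1900) (nat_lit 2377202903) (nat_lit 76) (nat_lit 2844251175) (nat_lit 0) (nat_lit 2844251175) (nat_lit 529) (nat_lit 1) (nat_lit 505) (nat_lit 1) (nat_lit 504) (nat_lit 1) (nat_lit 311) (nat_lit 422) (nat_lit 407)) (XT.lf (nat_lit 1900) (nat_lit 977265552) (nat_lit 0) (nat_lit 6035859208) (nat_lit 1824) (nat_lit 977265552) (nat_lit 530) (nat_lit 1) (nat_lit 505) (nat_lit 1) (nat_lit 529) (nat_lit 1) (nat_lit 312) (nat_lit 422) (nat_lit 406))) (XT.nd (nat_lit 78) (nat_lit 0) (nat_lit 76) (XT.lf (nat_lit 1900) (nat_lit 1500437388) (nat_lit 76) (nat_lit 3207668063) (nat_lit 0) (nat_lit 3207668063) (nat_lit 530)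 (nat_lit 1) (nat_lit 506) (nat_lit 1) (nat_lit 505) (nat_lit 1) (nat_lit 313) (nat_lit 422) (nat_lit 405)) (XT.nd (nat_lit 78) (nat_lit 0) (nat_lit 0) (XT.lf (nat_lit 1900) (nat_lit 522655399) (nat_lit 0) (nat_lit 6797114156) (nat_lit 1824) (nat_lit 522655399) (nat_lit 531) (nat_lit 1) (nat_lit 506) (nat_lit 1) (nat_lit 530) (nat_lit 1) (nat_lit 314) (nat_lit 422) (nat_lit 404)) (XT.lf (nat_lit 1900) (nat_lit 554390403) (nat_lit 76) (nat_lit 3607623688) (nat_lit 0) (nat_lit 3607623688) (nat_lit 531) (nat_lit 1) (nat_lit 507) (nat_lit 1) (nat_lit 506) (nat_lit 1) (nat_lit 315) (nat_lit 422) (nat_lit 403))))))) (XT.nd (nat_lit 702) (nat_lit 4408) (nat_lit 0) (XT.nd (nat_lit 312) (nat_lit 1900) (nat_lit 0) (XT.nd (nat_lit 156) (nat_lit 0) (nat_lit 0) (XT.nd (nat_lit 78) (nat_lit 1900) (nat_lit 0) (XT.lf (nat_lit 1900) (nat_lit 34712219) (nat_lit 0) (nat_lit 7628781378) (nat_lit 1824) (nat_lit 34712219) (nat_lit 532) (nat_lit 1) (nat_lit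 507) (nat_lit 1) (nat_lit 531) (nat_lit 1) (nat_lit 316) (nat_lit 422) (nat_lit 402)) (XT.lf (nat_lit 1976) (nat_lit 3588446411) (nat_lit 0) (nat_lit 450238309) (nat_lit 1900) (nat_lit 3588446411) (nat_lit 508) (nat_lit 1) (nat_lit 482) (nat_lit 1) (nat_lit 507) (nat_lit 1) (nat_lit 317) (nat_lit 422) (nat_lit 401))) (XT.nd (nat_lit 78) (nat_lit 0) (nat_lit 76) (XT.lf (nat_lit 1976) (nat_lit 6595206432) (nat_lit 76) (nat_lit 481083911) (nat_lit 0) (nat_lit 481083911) (nat_lit 508) (nat_lit 1) (nat_lit 483) (nat_lit 1) (nat_lit 482) (nat_lit 1) (nat_lit 318) (nat_lit 422) (nat_lit 400)) (XT.lf (nat_lit 1976) (nat_lit 2990624396) (nat_lit 0) (nat_lit 1506879957) (nat_lit 1900) (nat_lit 2990624396) (nat_lit 509) (nat_lit 1) (nat_lit 483) (nat_lit 1) (nat_lit 508) (nat_lit 1) (nat_lit 319) (nat_lit 422) (nat_lit 399)))) (XT.nd (nat_lit 156) (nat_lit 1976) (nat_lit 0) (XT.nd (nat_lit 78) (nat_lit 0) (nat_lit 76) (XT.lf (nat_lit 1976) (nat_lit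 5369415853) (nat_lit 76) (nat_lit 1025315379) (nat_lit 0) (nat_lit 1025315379) (nat_lit 509) (nat_lit 1) (nat_lit 484) (nat_lit 1) (nat_lit 483) (nat_lit 1) (nat_lit 320) (nat_lit 422) (nat_lit 398)) (XT.lf (nat_lit 76) (nat_lit 2367010296) (nat_lit 0) (nat_lit 2618581590) (nat_lit 1900) (nat_lit 2367010296) (nat_lit 485) (nat_lit 1) (nat_lit 484) (nat_lit 1) (nat_lit 509) (nat_lit 1) (nat_lit 321) (nat_lit 422) (nat_lit 397))) (XT.nd (nat_lit 78) (nat_lit 912) (nat_lit 0) (XT.lf (nat_lit 1216) (nat_lit 4093856553) (nat_lit 0) (nat_lit 1596142923) (nat_lit 1140) (nat_lit 1596142923) (nat_lit 485) (nat_lit 1) (nat_lit 469) (nat_lit 1) (nat_lit 484) (nat_lit 1) (nat_lit 322) (nat_lit 422) (nat_lit 396)) (XT.nd (nat_lit 78) (nat_lit 912) (nat_lit 0) (XT.lf (nat_lit 76) (nat_lit 1719566558) (nat_lit 0) (nat_lit 3781321031) (nat_lit 1216) (nat_lit 1719566558) (nat_lit 470) (nat_lit 1) (nat_lit 469) (nat_lit 1) (nat_lit 485) (nat_lit 1) (nat_lit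 323) (nat_lit 422) (nat_lit 395)) (XT.lf (nat_lit 988) (nat_lit 2772370282) (nat_lit 0) (nat_lit 2191597916) (nat_lit 912) (nat_lit 2191597916) (nat_lit 470) (nat_lit 1) (nat_lit 457) (nat_lit 1) (nat_lit 469) (nat_lit 1) (nat_lit 324) (nat_lit 422) (nat_lit 394)))))) (XT.nd (nat_lit 390) (nat_lit 1672) (nat_lit 0) (XT.nd (nat_lit 156) (nat_lit 1824) (nat_lit 0) (XT.nd (nat_lit 78) (nat_lit 912) (nat_lit 0) (XT.lf (nat_lit 76) (nat_lit 1050160580) (nat_lit 0) (nat_lit 4991269234) (nat_lit 988) (nat_lit 1050160580) (nat_lit 458) (nat_lit 1) (nat_lit 457) (nat_lit 1) (nat_lit 470) (nat_lit 1) (nat_lit 325) (nat_lit 422) (nat_lit 393)) (XT.lf (nat_lit 988) (nat_lit 1408612176) (nat_lit 0) (nat_lit 2809806528) (nat_lit 912) (nat_lit 2809806528) (nat_lit 458) (nat_lit 1) (nat_lit 445) (nat_lit 1) (nat_lit 457) (nat_lit 1) (nat_lit 326) (nat_lit 422) (nat_lit 392))) (XT.nd (nat_lit 78) (nat_lit 1824) (nat_lit 0) (XT.lf (nat_lit 76) (nat_lit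 360568777) (nat_lit 0) (nat_lit 6244782056) (nat_lit 988) (nat_lit 360568777) (nat_lit 446) (nat_lit 1) (nat_lit 445) (nat_lit 1) (nat_lit 458) (nat_lit 1) (nat_lit 327) (nat_lit 422) (nat_lit 391)) (XT.nd (nat_lit 78) (nat_lit 988) (nat_lit 0) (XT.lf (nat_lit 912) (nat_lit 6058736) (nat_lit 0) (nat_lit 3448985681) (nat_lit 836) (nat_lit 3448985681) (nat_lit 446) (nat_lit 1) (nat_lit 434) (nat_lit 1) (nat_lit 445) (nat_lit 1) (nat_lit 328) (nat_lit 422) (nat_lit 390)) (XT.lf (nat_lit 988) (nat_lit 6152705779) (nat_lit 0) (nat_lit 345233214) (nat_lit 912) (nat_lit 345233214) (nat_lit 434) (nat_lit 1) (nat_lit 421) (nat_lit 1) (nat_lit 433) (nat_lit 1) (nat_lit 329) (nat_lit 422) (nat_lit 389))))) (XT.nd (nat_lit 156) (nat_lit 836) (nat_lit 0) (XT.nd (nat_lit 78) (nat_lit 836) (nat_lit 0) (XT.lf (nat_lit 76) (nat_lit 2684752053) (nat_lit 0) (nat_lit 1413203780) (nat_lit 988) (nat_lit 2684752053) (nat_lit 422) (nat_lit 1) (nat_lit 421) (nat_lit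 1) (nat_lit 434) (nat_lit 1) (nat_lit 330) (nat_lit 422) (nat_lit 388)) (XT.lf (nat_lit 912) (nat_lit 4592361938) (nat_lit 0) (nat_lit 1065442451) (nat_lit 836) (nat_lit 1065442451) (nat_lit 422) (nat_lit 1) (nat_lit 410) (nat_lit 1) (nat_lit 421) (nat_lit 1) (nat_lit 331) (nat_lit 422) (nat_lit 387))) (XT.nd (nat_lit 78) (nat_lit 836) (nat_lit 0) (XT.lf (nat_lit 76) (nat_lit 1900022428) (nat_lit 0) (nat_lit 2864310507) (nat_lit 912) (nat_lit 1900022428) (nat_lit 411) (nat_lit 1) (nat_lit 410) (nat_lit 1) (nat_lit 422) (nat_lit 1) (nat_lit 332) (nat_lit 422) (nat_lit 386)) (XT.nd (nat_lit 78) (nat_lit 0) (nat_lit 0) (XT.lf (nat_lit 912) (nat_lit 3004419257) (nat_lit 0) (nat_lit 1800914935) (nat_lit 836) (nat_lit 1800914935) (nat_lit 411) (nat_lit 1) (nat_lit 399) (nat_lit 1) (nat_lit 410) (nat_lit 1) (nat_lit 333) (nat_lit 422) (nat_lit 385)) (XT.lf (nat_lit 76) (nat_lit 1102248671) (nat_lit 0) (nat_lit 4344394754) (nat_lit 912) (nat_lit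 1102248671) (nat_lit 400) (nat_lit 1) (nat_lit 399) (nat_lit 1) (nat_lit 411) (nat_lit 1) (nat_lit 334) (nat_lit 422) (nat_lit 384))))))))
noncomputable def ec154 : XT := (XT.nd (nat_lit 1404) (nat_lit 5548) (nat_lit 0) (XT.nd (nat_lit 702) (nat_lit 4028) (nat_lit 0) (XT.nd (nat_lit 312) (nat_lit 1444) (nat_lit 0) (XT.nd (nat_lit 156) (nat_lit 1596) (nat_lit 0) (XT.nd (nat_lit 78) (nat_lit 0) (nat_lit 0) (XT.lf (nat_lit 836) (nat_lit 1391678628) (nat_lit 0) (nat_lit 2550210332) (nat_lit 760) (nat_lit 2550210332) (nat_lit 400) (nat_lit 1) (nat_lit 389) (nat_lit 1) (nat_lit 399) (nat_lit 1) (nat_lit 335) (nat_lit 422) (nat_lit 383)) (XT.lf (nat_lit 76) (nat_lit 292790560) (nat_lit 0) (nat_lit 5850658236) (nat_lit 836) (nat_lit 292790560) (nat_lit 390) (nat_lit 1) (nat_lit 389) (nat_lit 1) (nat_lit 400) (nat_lit 1) (nat_lit 336) (nat_lit 422) (nat_lit 382))) (XT.nd (nat_lit 78) (nat_lit 760) (nat_lit 0) (XT.lf (nat_lit 76) (nat_lit 3070338156)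 (nat_lit 0) (nat_lit 240012092) (nat_lit 836) (nat_lit 3070338156) (nat_lit 379) (nat_lit 1) (nat_lit 378) (nat_lit 1) (nat_lit 389) (nat_lit 1) (nat_lit 337) (nat_lit 422) (nat_lit 381)) (XT.lf (nat_lit 836) (nat_lit 5278857827) (nat_lit 0) (nat_lit 523594150) (nat_lit 760) (nat_lit 523594150) (nat_lit 379) (nat_lit 1) (nat_lit 368) (nat_lit 1) (nat_lit 378) (nat_lit 1) (nat_lit 338) (nat_lit 422) (nat_lit 380)))) (XT.nd (nat_lit 156) (nat_lit 684) (nat_lit 0) (XT.nd (nat_lit 78) (nat_lit 760) (nat_lit 0) (XT.lf (nat_lit 76) (nat_lit 2199489210) (nat_lit 0) (nat_lit 1872811370) (nat_lit 836) (nat_lit 2199489210) (nat_lit 369) (nat_lit 1) (nat_lit 368) (nat_lit 1) (nat_lit 379) (nat_lit 1) (nat_lit 339) (nat_lit 422) (nat_lit 379)) (XT.lf (nat_lit 836) (nat_lit 3524030425) (nat_lit 0) (nat_lit 1347162645) (nat_lit 760) (nat_lit 1347162645) (nat_lit 369) (nat_lit 1) (nat_lit 358) (nat_lit 1) (nat_lit 368) (nat_lit 1) (nat_lit 340) (nat_lit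 422) (nat_lit 378))) (XT.nd (nat_lit 78) (nat_lit 684) (nat_lit 0) (XT.lf (nat_lit 76) (nat_lit 1321450160) (nat_lit 0) (nat_lit 3522611436) (nat_lit 836) (nat_lit 1321450160) (nat_lit 359) (nat_lit 1) (nat_lit 358) (nat_lit 1) (nat_lit 369) (nat_lit 1) (nat_lit 341) (nat_lit 422) (nat_lit 377)) (XT.nd (nat_lit 78) (nat_lit 0) (nat_lit 0) (XT.lf (nat_lit 760) (nat_lit 1755872204) (nat_lit 0) (nat_lit 2178688669) (nat_lit 684) (nat_lit 2178688669) (nat_lit 359) (nat_lit 1) (nat_lit 349) (nat_lit 1) (nat_lit 358) (nat_lit 1) (nat_lit 342) (nat_lit 422) (nat_lit 376)) (XT.lf (nat_lit 76) (nat_lit 437304251) (nat_lit 0) (nat_lit 5187175570) (nat_lit 760) (nat_lit 437304251) (nat_lit 350) (nat_lit 1) (nat_lit 349) (nat_lit 1) (nat_lit 359) (nat_lit 1) (nat_lit 343) (nat_lit 422) (nat_lit 375)))))) (XT.nd (nat_lit 312) (nat_lit 1900) (nat_lit 0) (XT.nd (nat_lit 156) (nat_lit 684) (nat_lit 0) (XT.nd (nat_lit 78) (nat_lit 684) (nat_lit 0) (XT.lf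 (nat_lit 76) (nat_lit 2993731045) (nat_lit 0) (nat_lit 23193445) (nat_lit 760) (nat_lit 2993731045) (nat_lit 340) (nat_lit 1) (nat_lit 339) (nat_lit 1) (nat_lit 349) (nat_lit 1) (nat_lit 344) (nat_lit 422) (nat_lit 374)) (XT.lf (nat_lit 760) (nat_lit 5062403244) (nat_lit 0) (nat_lit 448949925) (nat_lit 684) (nat_lit 448949925) (nat_lit 340) (nat_lit 1) (nat_lit 330) (nat_lit 1) (nat_lit 339) (nat_lit 1) (nat_lit 345) (nat_lit 422) (nat_lit 373))) (XT.nd (nat_lit 78) (nat_lit 684) (nat_lit 0) (XT.lf (nat_lit 76) (nat_lit 2060978477) (nat_lit 0) (nat_lit 1788323629) (nat_lit 760) (nat_lit 2060978477) (nat_lit 331) (nat_lit 1) (nat_lit 330) (nat_lit 1) (nat_lit 340) (nat_lit 1) (nat_lit 346) (nat_lit 422) (nat_lit 372)) (XT.lf (nat_lit 760) (nat_lit 3188185504) (nat_lit 0) (nat_lit 1336411356) (nat_lit 684) (nat_lit 1336411356) (nat_lit 331) (nat_lit 1) (nat_lit 321) (nat_lit 1) (nat_lit 330) (nat_lit 1) (nat_lit 347) (nat_lit 422) (nat_lit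 371)))) (XT.nd (nat_lit 156) (nat_lit 1292) (nat_lit 0) (XT.nd (nat_lit 78) (nat_lit 608) (nat_lit 0) (XT.lf (nat_lit 76) (nat_lit 1125804742) (nat_lit 0) (nat_lit 3560678493) (nat_lit 760) (nat_lit 1125804742) (nat_lit 322) (nat_lit 1) (nat_lit 321) (nat_lit 1) (nat_lit 331) (nat_lit 1) (nat_lit 348) (nat_lit 422) (nat_lit 370)) (XT.lf (nat_lit 684) (nat_lit 1309972185) (nat_lit 0) (nat_lit 2227045764) (nat_lit 608) (nat_lit 2227045764) (nat_lit 322) (nat_lit 1) (nat_lit 313) (nat_lit 1) (nat_lit 321) (nat_lit 1) (nat_lit 349) (nat_lit 422) (nat_lit 369))) (XT.nd (nat_lit 78) (nat_lit 1292) (nat_lit 0) (XT.lf (nat_lit 76) (nat_lit 189061524) (nat_lit 0) (nat_lit 5338491870) (nat_lit 684) (nat_lit 189061524) (nat_lit 314) (nat_lit 1) (nat_lit 313) (nat_lit 1) (nat_lit 322) (nat_lit 1) (nat_lit 350) (nat_lit 422) (nat_lit 368)) (XT.nd (nat_lit 78) (nat_lit 608) (nat_lit 0) (XT.lf (nat_lit 76) (nat_lit 2553120380) (nat_lit 0) (nat_lit 563092982)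 (nat_lit 684) (nat_lit 2553120380) (nat_lit 305) (nat_lit 1) (nat_lit 304) (nat_lit 1) (nat_lit 313) (nat_lit 1) (nat_lit 351) (nat_lit 422) (nat_lit 367)) (XT.lf (nat_lit 684) (nat_lit 4135763566) (nat_lit 0) (nat_lit 743523421) (nat_lit 608) (nat_lit 743523421) (nat_lit 305) (nat_lit 1) (nat_lit 296) (nat_lit 1) (nat_lit 304) (nat_lit 1) (nat_lit 352) (nat_lit 422) (nat_lit 366))))))) (XT.nd (nat_lit 702) (nat_lit 2660) (nat_lit 0) (XT.nd (nat_lit 312) (nat_lit 1748) (nat_lit 0) (XT.nd (nat_lit 156) (nat_lit 532) (nat_lit 0) (XT.nd (nat_lit 78) (nat_lit 608) (nat_lit 0) (XT.lf (nat_lit 76) (nat_lit 1578463087) (nat_lit 0) (nat_lit 2419736083) (nat_lit 684) (nat_lit 1578463087) (nat_lit 297) (nat_lit 1) (nat_lit 296) (nat_lit 1) (nat_lit 305) (nat_lit 1) (nat_lit 353) (nat_lit 422) (nat_lit 365)) (XT.lf (nat_lit 684) (nat_lit 2181362356) (nat_lit 0) (nat_lit 1674872236) (nat_lit 608) (nat_lit 1674872236) (nat_lit 297) (nat_lit 1) (nat_lit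 288) (nat_lit 1) (nat_lit 296) (nat_lit 1) (nat_lit 354) (nat_lit 422) (nat_lit 364))) (XT.nd (nat_lit 78) (nat_lit 532) (nat_lit 0) (XT.lf (nat_lit 76) (nat_lit 605240565) (nat_lit 0) (nat_lit 4275680253) (nat_lit 684) (nat_lit 605240565) (nat_lit 289) (nat_lit 1) (nat_lit 288) (nat_lit 1) (nat_lit 297) (nat_lit 1) (nat_lit 355) (nat_lit 422) (nat_lit 363)) (XT.lf (nat_lit 608) (nat_lit 230507318) (nat_lit 0) (nat_lit 2605519173) (nat_lit 532) (nat_lit 2605519173) (nat_lit 289) (nat_lit 1) (nat_lit 281) (nat_lit 1) (nat_lit 288) (nat_lit 1) (nat_lit 356) (nat_lit 422) (nat_lit 362)))) (XT.nd (nat_lit 156) (nat_lit 1064) (nat_lit 0) (XT.nd (nat_lit 78) (nat_lit 0) (nat_lit 0) (XT.lf (nat_lit 684) (nat_lit 4670620616) (nat_lit 0) (nat_lit 363481766) (nat_lit 608) (nat_lit 363481766) (nat_lit 281) (nat_lit 1) (nat_lit 272) (nat_lit 1) (nat_lit 280) (nat_lit 1) (nat_lit 357) (nat_lit 422) (nat_lit 361)) (XT.lf (nat_lit 76) (nat_lit 1830413718)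 (nat_lit 0) (nat_lit 1693021344) (nat_lit 684) (nat_lit 1830413718) (nat_lit 273) (nat_lit 1) (nat_lit 272) (nat_lit 1) (nat_lit 281) (nat_lit 1) (nat_lit 358) (nat_lit 422) (nat_lit 360))) (XT.nd (nat_lit 78) (nat_lit 532) (nat_lit 0) (XT.lf (nat_lit 608) (nat_lit 2659695824) (nat_lit 0) (nat_lit 1325528373) (nat_lit 532) (nat_lit 1325528373) (nat_lit 273) (nat_lit 1) (nat_lit 265) (nat_lit 1) (nat_lit 272) (nat_lit 1) (nat_lit 359) (nat_lit 422) (nat_lit 359)) (XT.nd (nat_lit 78) (nat_lit 532) (nat_lit 0) (XT.lf (nat_lit 76) (nat_lit 830290182) (nat_lit 0) (nat_lit 3607575650) (nat_lit 608) (nat_lit 830290182) (nat_lit 266) (nat_lit 1) (nat_lit 265) (nat_lit 1) (nat_lit 273) (nat_lit 1) (nat_lit 360) (nat_lit 422) (nat_lit 358)) (XT.lf (nat_lit 608) (nat_lit 657321353) (nat_lit 0) (nat_lit 2284303979) (nat_lit 532) (nat_lit 2284303979) (nat_lit 266) (nat_lit 1) (nat_lit 258) (nat_lit 1) (nat_lit 265) (nat_lit 1) (nat_lit 361) (nat_lit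 422) (nat_lit 357)))))) (XT.nd (nat_lit 312) (nat_lit 1520) (nat_lit 0) (XT.nd (nat_lit 156) (nat_lit 532) (nat_lit 0) (XT.nd (nat_lit 78) (nat_lit 0) (nat_lit 0) (XT.lf (nat_lit 608) (nat_lit 4855915168) (nat_lit 0) (nat_lit 164221954) (nat_lit 532) (nat_lit 164221954) (nat_lit 258) (nat_lit 1) (nat_lit 250) (nat_lit 1) (nat_lit 257) (nat_lit 1) (nat_lit 362) (nat_lit 422) (nat_lit 356)) (XT.lf (nat_lit 76) (nat_lit 1912466647) (nat_lit 0) (nat_lit 1317956410) (nat_lit 608) (nat_lit 1912466647) (nat_lit 251) (nat_lit 1) (nat_lit 250) (nat_lit 1) (nat_lit 258) (nat_lit 1) (nat_lit 363) (nat_lit 422) (nat_lit 355))) (XT.nd (nat_lit 78) (nat_lit 0) (nat_lit 0) (XT.lf (nat_lit 608) (nat_lit 2805495985) (nat_lit 0) (nat_lit 1148283729) (nat_lit 532) (nat_lit 1148283729) (nat_lit 251) (nat_lit 1) (nat_lit 243) (nat_lit 1) (nat_lit 250) (nat_lit 1) (nat_lit 364) (nat_lit 422) (nat_lit 354)) (XT.lf (nat_lit 76) (nat_lit 893734099) (nat_lit 0)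 (nat_lit 3274205195) (nat_lit 608) (nat_lit 893734099) (nat_lit 244) (nat_lit 1) (nat_lit 243) (nat_lit 1) (nat_lit 251) (nat_lit 1) (nat_lit 365) (nat_lit 422) (nat_lit 353)))) (XT.nd (nat_lit 156) (nat_lit 456) (nat_lit 0) (XT.nd (nat_lit 78) (nat_lit 608) (nat_lit 0) (XT.lf (nat_lit 532) (nat_lit 767860919) (nat_lit 0) (nat_lit 2126896009) (nat_lit 456) (nat_lit 2126896009) (nat_lit 244) (nat_lit 1) (nat_lit 237) (nat_lit 1) (nat_lit 243) (nat_lit 1) (nat_lit 366) (nat_lit 422) (nat_lit 352)) (XT.lf (nat_lit 608) (nat_lit 4746974691) (nat_lit 0) (nat_lit 117640540) (nat_lit 532) (nat_lit 117640540) (nat_lit 237) (nat_lit 1) (nat_lit 229) (nat_lit 1) (nat_lit 236) (nat_lit 1) (nat_lit 367) (nat_lit 422) (nat_lit 351))) (XT.nd (nat_lit 78) (nat_lit 456) (nat_lit 0) (XT.lf (nat_lit 76) (nat_lit 1851607984) (nat_lit 0) (nat_lit 1239700966) (nat_lit 608) (nat_lit 1851607984) (nat_lit 230) (nat_lit 1) (nat_lit 229) (nat_lit 1) (nat_lit 237)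 (nat_lit 1) (nat_lit 368) (nat_lit 422) (nat_lit 350)) (XT.nd (nat_lit 78) (nat_lit 0) (nat_lit 0) (XT.lf (nat_lit 532) (nat_lit 2671767175) (nat_lit 0) (nat_lit 1116211176) (nat_lit 456) (nat_lit 1116211176) (nat_lit 230) (nat_lit 1) (nat_lit 223) (nat_lit 1) (nat_lit 229) (nat_lit 1) (nat_lit 369) (nat_lit 422) (nat_lit 349)) (XT.lf (nat_lit 76) (nat_lit 821424522) (nat_lit 0) (nat_lit 3223025497) (nat_lit 532) (nat_lit 821424522) (nat_lit 224) (nat_lit 1) (nat_lit 223) (nat_lit 1) (nat_lit 230) (nat_lit 1) (nat_lit 370) (nat_lit 422) (nat_lit 348))))))))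
noncomputable def ec155 : XT := (XT.nd (nat_lit 1404) (nat_lit 3952) (nat_lit 0) (XT.nd (nat_lit 702) (nat_lit 1976) (nat_lit 0) (XT.nd (nat_lit 312) (nat_lit 1292) (nat_lit 0) (XT.nd (nat_lit 156) (nat_lit 456) (nat_lit 0) (XT.nd (nat_lit 78) (nat_lit 532) (nat_lit 0) (XT.lf (nat_lit 532) (nat_lit 612901666) (nat_lit 0) (nat_lit 2107496700) (nat_lit 456) (nat_lit 2107496700) (nat_lit 224) (nat_lit 1) (nat_lit 217) (nat_lit 1) (nat_lit 223) (nat_lit 1) (nat_lit 371) (nat_lit 422) (nat_lit 347)) (XT.lf (nat_lit 532) (nat_lit 4392204175) (nat_lit 0) (nat_lit 199136027) (nat_lit 456) (nat_lit 199136027) (nat_lit 217) (nat_lit 1) (nat_lit 210) (nat_lit 1) (nat_lit 216) (nat_lit 1) (nat_lit 372) (nat_lit 422) (nat_lit 346))) (XT.nd (nat_lit 78) (nat_lit 456) (nat_lit 0) (XT.lf (nat_lit 76) (nat_lit 1671443743) (nat_lit 0) (nat_lit 1410255240) (nat_lit 532) (nat_lit 1671443743) (nat_lit 211) (nat_lit 1) (nat_lit 210) (nat_lit 1) (nat_lit 217)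 (nat_lit 1) (nat_lit 373) (nat_lit 422) (nat_lit 345)) (XT.lf (nat_lit 532) (nat_lit 2304867639) (nat_lit 0) (nat_lit 1205745846) (nat_lit 456) (nat_lit 1205745846) (nat_lit 211) (nat_lit 1) (nat_lit 204) (nat_lit 1) (nat_lit 210) (nat_lit 1) (nat_lit 374) (nat_lit 422) (nat_lit 344)))) (XT.nd (nat_lit 156) (nat_lit 912) (nat_lit 0) (XT.nd (nat_lit 78) (nat_lit 380) (nat_lit 0) (XT.lf (nat_lit 76) (nat_lit 635968549) (nat_lit 0) (nat_lit 3408060787) (nat_lit 532) (nat_lit 635968549) (nat_lit 205) (nat_lit 1) (nat_lit 204) (nat_lit 1) (nat_lit 211) (nat_lit 1) (nat_lit 375) (nat_lit 422) (nat_lit 343)) (XT.lf (nat_lit 456) (nat_lit 236838644) (nat_lit 0) (nat_lit 2203535563) (nat_lit 380) (nat_lit 2203535563) (nat_lit 205) (nat_lit 1) (nat_lit 199) (nat_lit 1) (nat_lit 204) (nat_lit 1) (nat_lit 376) (nat_lit 422) (nat_lit 342))) (XT.nd (nat_lit 78) (nat_lit 380) (nat_lit 0) (XT.lf (nat_lit 532) (nat_lit 3833891659) (nat_lit 0) (nat_lit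 387201863) (nat_lit 456) (nat_lit 387201863) (nat_lit 199) (nat_lit 1) (nat_lit 192) (nat_lit 1) (nat_lit 198) (nat_lit 1) (nat_lit 377) (nat_lit 422) (nat_lit 341)) (XT.nd (nat_lit 78) (nat_lit 380) (nat_lit 0) (XT.lf (nat_lit 76) (nat_lit 1392593309) (nat_lit 0) (nat_lit 1787664708) (nat_lit 532) (nat_lit 1392593309) (nat_lit 193) (nat_lit 1) (nat_lit 192) (nat_lit 1) (nat_lit 199) (nat_lit 1) (nat_lit 378) (nat_lit 422) (nat_lit 340)) (XT.lf (nat_lit 456) (nat_lit 1745283468) (nat_lit 0) (nat_lit 1396294086) (nat_lit 380) (nat_lit 1396294086) (nat_lit 193) (nat_lit 1) (nat_lit 187) (nat_lit 1) (nat_lit 192) (nat_lit 1) (nat_lit 379) (nat_lit 422) (nat_lit 339)))))) (XT.nd (nat_lit 312) (nat_lit 1140) (nat_lit 0) (XT.nd (nat_lit 156) (nat_lit 380) (nat_lit 0) (XT.nd (nat_lit 78) (nat_lit 456) (nat_lit 0) (XT.lf (nat_lit 76) (nat_lit 357106204) (nat_lit 0) (nat_lit 3789138793) (nat_lit 456) (nat_lit 357106204) (nat_lit 188) (nat_lit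 1) (nat_lit 187) (nat_lit 1) (nat_lit 193) (nat_lit 1) (nat_lit 380) (nat_lit 422) (nat_lit 338)) (XT.lf (nat_lit 76) (nat_lit 2075812207) (nat_lit 0) (nat_lit 317352666) (nat_lit 456) (nat_lit 2075812207) (nat_lit 182) (nat_lit 1) (nat_lit 181) (nat_lit 1) (nat_lit 187) (nat_lit 1) (nat_lit 381) (nat_lit 422) (nat_lit 337))) (XT.nd (nat_lit 78) (nat_lit 0) (nat_lit 0) (XT.lf (nat_lit 456) (nat_lit 3108922316) (nat_lit 0) (nat_lit 663065625) (nat_lit 380) (nat_lit 663065625) (nat_lit 182) (nat_lit 1) (nat_lit 176) (nat_lit 1) (nat_lit 181) (nat_lit 1) (nat_lit 382) (nat_lit 422) (nat_lit 336)) (XT.lf (nat_lit 76) (nat_lit 1033038233) (nat_lit 0) (nat_lit 2335315048) (nat_lit 456) (nat_lit 1033038233) (nat_lit 177) (nat_lit 1) (nat_lit 176) (nat_lit 1) (nat_lit 182) (nat_lit 1) (nat_lit 383) (nat_lit 422) (nat_lit 335)))) (XT.nd (nat_lit 156) (nat_lit 760) (nat_lit 0) (XT.nd (nat_lit 78) (nat_lit 0) (nat_lit 0) (XT.lf (nat_lit 456) (nat_lit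 1028314661) (nat_lit 0) (nat_lit 1669886795) (nat_lit 380) (nat_lit 1669886795) (nat_lit 177) (nat_lit 1) (nat_lit 171) (nat_lit 1) (nat_lit 176) (nat_lit 1) (nat_lit 384) (nat_lit 422) (nat_lit 334)) (XT.lf (nat_lit 76) (nat_lit 2045547) (nat_lit 0) (nat_lit 4331213367) (nat_lit 456) (nat_lit 2045547) (nat_lit 172) (nat_lit 1) (nat_lit 171) (nat_lit 1) (nat_lit 177) (nat_lit 1) (nat_lit 385) (nat_lit 422) (nat_lit 333))) (XT.nd (nat_lit 78) (nat_lit 380) (nat_lit 0) (XT.lf (nat_lit 76) (nat_lit 1643708137) (nat_lit 0) (nat_lit 1015054935) (nat_lit 380) (nat_lit 1643708137) (nat_lit 167) (nat_lit 1) (nat_lit 166) (nat_lit 1) (nat_lit 171) (nat_lit 1) (nat_lit 386) (nat_lit 422) (nat_lit 332)) (XT.nd (nat_lit 78) (nat_lit 0) (nat_lit 0) (XT.lf (nat_lit 456) (nat_lit 2249411386) (nat_lit 0) (nat_lit 1010369187) (nat_lit 380) (nat_lit 1010369187) (nat_lit 167) (nat_lit 1) (nat_lit 161) (nat_lit 1) (nat_lit 166) (nat_lit 1) (nat_lit 387)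 (nat_lit 422) (nat_lit 331)) (XT.lf (nat_lit 76) (nat_lit 608431385) (nat_lit 0) (nat_lit 3021307202) (nat_lit 456) (nat_lit 608431385) (nat_lit 162) (nat_lit 1) (nat_lit 161) (nat_lit 1) (nat_lit 167) (nat_lit 1) (nat_lit 388) (nat_lit 422) (nat_lit 330))))))) (XT.nd (nat_lit 702) (nat_lit 1900) (nat_lit 0) (XT.nd (nat_lit 312) (nat_lit 988) (nat_lit 0) (XT.nd (nat_lit 156) (nat_lit 304) (nat_lit 0) (XT.nd (nat_lit 78) (nat_lit 456) (nat_lit 0) (XT.lf (nat_lit 380) (nat_lit 184683186) (nat_lit 0) (nat_lit 2010872153) (nat_lit 304) (nat_lit 2010872153) (nat_lit 162) (nat_lit 1) (nat_lit 157) (nat_lit 1) (nat_lit 161) (nat_lit 1) (nat_lit 389) (nat_lit 422) (nat_lit 329)) (XT.lf (nat_lit 456) (nat_lit 3352037431) (nat_lit 0) (nat_lit 411515060) (nat_lit 380) (nat_lit 411515060) (nat_lit 157) (nat_lit 1) (nat_lit 151) (nat_lit 1) (nat_lit 156) (nat_lit 1) (nat_lit 390) (nat_lit 422) (nat_lit 328))) (XT.nd (nat_lit 78) (nat_lit 304) (nat_lit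 0) (XT.lf (nat_lit 76) (nat_lit 1156745196) (nat_lit 0) (nat_lit 1830373332) (nat_lit 456) (nat_lit 1156745196) (nat_lit 152) (nat_lit 1) (nat_lit 151) (nat_lit 1) (nat_lit 157) (nat_lit 1) (nat_lit 391) (nat_lit 422) (nat_lit 327)) (XT.lf (nat_lit 380) (nat_lit 1283265090) (nat_lit 0) (nat_lit 1414885265) (nat_lit 304) (nat_lit 1414885265) (nat_lit 152) (nat_lit 1) (nat_lit 147) (nat_lit 1) (nat_lit 151) (nat_lit 1) (nat_lit 392) (nat_lit 422) (nat_lit 326)))) (XT.nd (nat_lit 156) (nat_lit 608) (nat_lit 0) (XT.nd (nat_lit 78) (nat_lit 380) (nat_lit 0) (XT.lf (nat_lit 76) (nat_lit 132370920) (nat_lit 0) (nat_lit 3817903513) (nat_lit 380) (nat_lit 132370920) (nat_lit 148) (nat_lit 1) (nat_lit 147) (nat_lit 1) (nat_lit 152) (nat_lit 1) (nat_lit 393) (nat_lit 422) (nat_lit 325)) (XT.lf (nat_lit 76) (nat_lit 1651642624) (nat_lit 0) (nat_lit 748974671) (nat_lit 380) (nat_lit 1651642624) (nat_lit 143) (nat_lit 1) (nat_lit 142) (nat_lit 1) (nat_lit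 147) (nat_lit 1) (nat_lit 394) (nat_lit 422) (nat_lit 324))) (XT.nd (nat_lit 78) (nat_lit 304) (nat_lit 0) (XT.lf (nat_lit 380) (nat_lit 2276368362) (nat_lit 0) (nat_lit 872968833) (nat_lit 304) (nat_lit 872968833) (nat_lit 143) (nat_lit 1) (nat_lit 138) (nat_lit 1) (nat_lit 142) (nat_lit 1) (nat_lit 395) (nat_lit 422) (nat_lit 323)) (XT.nd (nat_lit 78) (nat_lit 304) (nat_lit 0) (XT.lf (nat_lit 76) (nat_lit 627255907) (nat_lit 0) (nat_lit 2738132061) (nat_lit 380) (nat_lit 627255907) (nat_lit 139) (nat_lit 1) (nat_lit 138) (nat_lit 1) (nat_lit 143) (nat_lit 1) (nat_lit 396) (nat_lit 422) (nat_lit 322)) (XT.lf (nat_lit 380) (nat_lit 234677641) (nat_lit 0) (nat_lit 1864266237) (nat_lit 304) (nat_lit 1864266237) (nat_lit 139) (nat_lit 1) (nat_lit 134) (nat_lit 1) (nat_lit 138) (nat_lit 1) (nat_lit 397) (nat_lit 422) (nat_lit 321)))))) (XT.nd (nat_lit 390) (nat_lit 912) (nat_lit 0) (XT.nd (nat_lit 156) (nat_lit 608) (nat_lit 0) (XT.nd (nat_lit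 78) (nat_lit 0) (nat_lit 0) (XT.lf (nat_lit 380) (nat_lit 3172453458) (nat_lit 0) (nat_lit 380834883) (nat_lit 304) (nat_lit 380834883) (nat_lit 134) (nat_lit 1) (nat_lit 129) (nat_lit 1) (nat_lit 133) (nat_lit 1) (nat_lit 398) (nat_lit 422) (nat_lit 320)) (XT.lf (nat_lit 76) (nat_lit 1074551851) (nat_lit 0) (nat_lit 1756061136) (nat_lit 380) (nat_lit 1074551851) (nat_lit 130) (nat_lit 1) (nat_lit 129) (nat_lit 1) (nat_lit 134) (nat_lit 1) (nat_lit 399) (nat_lit 422) (nat_lit 319))) (XT.nd (nat_lit 78) (nat_lit 304) (nat_lit 0) (XT.lf (nat_lit 380) (nat_lit 1134266594) (nat_lit 0) (nat_lit 1371140569) (nat_lit 304) (nat_lit 1371140569) (nat_lit 130) (nat_lit 1) (nat_lit 125) (nat_lit 1) (nat_lit 129) (nat_lit 1) (nat_lit 400) (nat_lit 422) (nat_lit 318)) (XT.nd (nat_lit 78) (nat_lit 304) (nat_lit 0) (XT.lf (nat_lit 76) (nat_lit 65908276) (nat_lit 0) (nat_lit 3716527904) (nat_lit 380) (nat_lit 65908276) (nat_lit 126) (nat_lit 1) (nat_lit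 125) (nat_lit 1) (nat_lit 130) (nat_lit 1) (nat_lit 401) (nat_lit 422) (nat_lit 317)) (XT.lf (nat_lit 76) (nat_lit 1478077019) (nat_lit 0) (nat_lit 863947044) (nat_lit 304) (nat_lit 1478077019) (nat_lit 122) (nat_lit 1) (nat_lit 121) (nat_lit 1) (nat_lit 125) (nat_lit 1) (nat_lit 402) (nat_lit 422) (nat_lit 316))))) (XT.nd (nat_lit 156) (nat_lit 608) (nat_lit 0) (XT.nd (nat_lit 78) (nat_lit 0) (nat_lit 0) (XT.lf (nat_lit 380) (nat_lit 1947358306) (nat_lit 0) (nat_lit 922454034) (nat_lit 304) (nat_lit 922454034) (nat_lit 122) (nat_lit 1) (nat_lit 117) (nat_lit 1) (nat_lit 121) (nat_lit 1) (nat_lit 403) (nat_lit 422) (nat_lit 315)) (XT.lf (nat_lit 76) (nat_lit 472723235) (nat_lit 0) (nat_lit 2819278106) (nat_lit 380) (nat_lit 472723235) (nat_lit 118) (nat_lit 1) (nat_lit 117) (nat_lit 1) (nat_lit 122) (nat_lit 1) (nat_lit 404) (nat_lit 422) (nat_lit 314))) (XT.nd (nat_lit 78) (nat_lit 304) (nat_lit 0) (XT.lf (nat_lit 76) (nat_lit 1841355092)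 (nat_lit 0) (nat_lit 54641756) (nat_lit 304) (nat_lit 1841355092) (nat_lit 114) (nat_lit 1) (nat_lit 113) (nat_lit 1) (nat_lit 117) (nat_lit 1) (nat_lit 405) (nat_lit 422) (nat_lit 313)) (XT.nd (nat_lit 78) (nat_lit 0) (nat_lit 0) (XT.lf (nat_lit 380) (nat_lit 2680892674) (nat_lit 0) (nat_lit 514687383) (nat_lit 304) (nat_lit 514687383) (nat_lit 114) (nat_lit 1) (nat_lit 109) (nat_lit 1) (nat_lit 113) (nat_lit 1) (nat_lit 406) (nat_lit 422) (nat_lit 312)) (XT.lf (nat_lit 76) (nat_lit 840482194) (nat_lit 0) (nat_lit 2002401498) (nat_lit 380) (nat_lit 840482194) (nat_lit 110) (nat_lit 1) (nat_lit 109) (nat_lit 1) (nat_lit 114) (nat_lit 1) (nat_lit 407) (nat_lit 422) (nat_lit 311))))))))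
noncomputable def ec156 : XT := (XT.nd (nat_lit 1404) (nat_lit 1368) (nat_lit 0) (XT.nd (nat_lit 702) (nat_lit 1520) (nat_lit 0) (XT.nd (nat_lit 312) (nat_lit 760) (nat_lit 0) (XT.nd (nat_lit 156) (nat_lit 228) (nat_lit 0) (XT.nd (nat_lit 78) (nat_lit 380) (nat_lit 0) (XT.lf (nat_lit 304) (nat_lit 687468847) (nat_lit 0) (nat_lit 1484632330) (nat_lit 228) (nat_lit 1484632330) (nat_lit 110) (nat_lit 1) (nat_lit 106) (nat_lit 1) (nat_lit 109) (nat_lit 1) (nat_lit 408) (nat_lit 422) (nat_lit 310)) (XT.lf (nat_lit 380) (nat_lit 3341274170) (nat_lit 0) (nat_lit 144592018) (nat_lit 304) (nat_lit 144592018) (nat_lit 106) (nat_lit 1) (nat_lit 101) (nat_lit 1) (nat_lit 105) (nat_lit 1) (nat_lit 409) (nat_lit 422) (nat_lit 309))) (XT.nd (nat_lit 78) (nat_lit 228) (nat_lit 0) (XT.lf (nat_lit 76) (nat_lit 1172317783) (nat_lit 0) (nat_lit 1259541146) (nat_lit 380) (nat_lit 1172317783) (nat_lit 102) (nat_lit 1) (nat_lit 101) (nat_lit 1) (nat_lit 106)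 (nat_lit 1) (nat_lit 410) (nat_lit 422) (nat_lit 308)) (XT.lf (nat_lit 304) (nat_lit 1359252444) (nat_lit 0) (nat_lit 1109497810) (nat_lit 228) (nat_lit 1109497810) (nat_lit 102) (nat_lit 1) (nat_lit 98) (nat_lit 1) (nat_lit 101) (nat_lit 1) (nat_lit 411) (nat_lit 422) (nat_lit 307)))) (XT.nd (nat_lit 156) (nat_lit 456) (nat_lit 0) (XT.nd (nat_lit 78) (nat_lit 304) (nat_lit 0) (XT.lf (nat_lit 76) (nat_lit 192094443) (nat_lit 0) (nat_lit 3168462431) (nat_lit 304) (nat_lit 192094443) (nat_lit 99) (nat_lit 1) (nat_lit 98) (nat_lit 1) (nat_lit 102) (nat_lit 1) (nat_lit 412) (nat_lit 422) (nat_lit 306)) (XT.lf (nat_lit 76) (nat_lit 1471120964) (nat_lit 0) (nat_lit 584828858) (nat_lit 304) (nat_lit 1471120964) (nat_lit 95) (nat_lit 1) (nat_lit 94) (nat_lit 1) (nat_lit 98) (nat_lit 1) (nat_lit 413) (nat_lit 422) (nat_lit 305))) (XT.nd (nat_lit 78) (nat_lit 228) (nat_lit 0) (XT.lf (nat_lit 304) (nat_lit 1965677872) (nat_lit 0) (nat_lit 768070186)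 (nat_lit 228) (nat_lit 768070186) (nat_lit 95) (nat_lit 1) (nat_lit 91) (nat_lit 1) (nat_lit 94) (nat_lit 1) (nat_lit 414) (nat_lit 422) (nat_lit 304)) (XT.nd (nat_lit 78) (nat_lit 228) (nat_lit 0) (XT.lf (nat_lit 76) (nat_lit 497622198) (nat_lit 0) (nat_lit 2481561203) (nat_lit 304) (nat_lit 497622198) (nat_lit 92) (nat_lit 1) (nat_lit 91) (nat_lit 1) (nat_lit 95) (nat_lit 1) (nat_lit 415) (nat_lit 422) (nat_lit 303)) (XT.lf (nat_lit 304) (nat_lit 27512969) (nat_lit 0) (nat_lit 1712225156) (nat_lit 228) (nat_lit 1712225156) (nat_lit 92) (nat_lit 1) (nat_lit 88) (nat_lit 1) (nat_lit 91) (nat_lit 1) (nat_lit 416) (nat_lit 422) (nat_lit 302)))))) (XT.nd (nat_lit 312) (nat_lit 684) (nat_lit 0) (XT.nd (nat_lit 156) (nat_lit 532) (nat_lit 0) (XT.nd (nat_lit 78) (nat_lit 0) (nat_lit 0) (XT.lf (nat_lit 304) (nat_lit 2512000864) (nat_lit 0) (nat_lit 457681764) (nat_lit 228) (nat_lit 457681764) (nat_lit 88) (nat_lit 1) (nat_lit 84) (nat_lit 1)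 (nat_lit 87) (nat_lit 1) (nat_lit 417) (nat_lit 422) (nat_lit 301)) (XT.lf (nat_lit 76) (nat_lit 773605037) (nat_lit 0) (nat_lit 1855708064) (nat_lit 304) (nat_lit 773605037) (nat_lit 85) (nat_lit 1) (nat_lit 84) (nat_lit 1) (nat_lit 88) (nat_lit 1) (nat_lit 418) (nat_lit 422) (nat_lit 300))) (XT.nd (nat_lit 78) (nat_lit 304) (nat_lit 0) (XT.lf (nat_lit 304) (nat_lit 589128146) (nat_lit 0) (nat_lit 1394791847) (nat_lit 228) (nat_lit 1394791847) (nat_lit 85) (nat_lit 1) (nat_lit 81) (nat_lit 1) (nat_lit 84) (nat_lit 1) (nat_lit 419) (nat_lit 422) (nat_lit 299)) (XT.lf (nat_lit 304) (nat_lit 3003071442) (nat_lit 0) (nat_lit 175869984) (nat_lit 228) (nat_lit 175869984) (nat_lit 81) (nat_lit 1) (nat_lit 77) (nat_lit 1) (nat_lit 80) (nat_lit 1) (nat_lit 420) (nat_lit 422) (nat_lit 298)))) (XT.nd (nat_lit 156) (nat_lit 456) (nat_lit 0) (XT.nd (nat_lit 78) (nat_lit 228) (nat_lit 0) (XT.lf (nat_lit 76) (nat_lit 1022416029) (nat_lit 0) (nat_lit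 1286082600) (nat_lit 304) (nat_lit 1022416029) (nat_lit 78) (nat_lit 1) (nat_lit 77) (nat_lit 1) (nat_lit 81) (nat_lit 1) (nat_lit 421) (nat_lit 422) (nat_lit 297)) (XT.lf (nat_lit 304) (nat_lit 1096920613) (nat_lit 0) (nat_lit 1105199977) (nat_lit 228) (nat_lit 1105199977) (nat_lit 78) (nat_lit 1) (nat_lit 74) (nat_lit 1) (nat_lit 77) (nat_lit 1) (nat_lit 422) (nat_lit 422) (nat_lit 296))) (XT.nd (nat_lit 78) (nat_lit 456) (nat_lit 0) (XT.lf (nat_lit 76) (nat_lit 80165646) (nat_lit 0) (nat_lit 3123715376) (nat_lit 304) (nat_lit 80165646) (nat_lit 75) (nat_lit 1) (nat_lit 74) (nat_lit 1) (nat_lit 78) (nat_lit 1) (nat_lit 423) (nat_lit 422) (nat_lit 295)) (XT.nd (nat_lit 78) (nat_lit 228) (nat_lit 0) (XT.lf (nat_lit 76) (nat_lit 1246245111) (nat_lit 0) (nat_lit 768234855) (nat_lit 228) (nat_lit 1246245111) (nat_lit 72) (nat_lit 1) (nat_lit 71) (nat_lit 1) (nat_lit 74) (nat_lit 1) (nat_lit 424) (nat_lit 422) (nat_lit 294)) (XT.lf (nat_lit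 304) (nat_lit 1555205945) (nat_lit 0) (nat_lit 841257384) (nat_lit 228) (nat_lit 841257384) (nat_lit 72) (nat_lit 1) (nat_lit 68) (nat_lit 1) (nat_lit 71) (nat_lit 1) (nat_lit 425) (nat_lit 422) (nat_lit 293))))))) (XT.nd (nat_lit 49062) (nat_lit 0) (nat_lit 33972) (XT.nd (nat_lit 312) (nat_lit 912) (nat_lit 0) (XT.nd (nat_lit 156) (nat_lit 228) (nat_lit 0) (XT.nd (nat_lit 78) (nat_lit 228) (nat_lit 0) (XT.lf (nat_lit 76) (nat_lit 313000206) (nat_lit 0) (nat_lit 2588965055) (nat_lit 304) (nat_lit 313000206) (nat_lit 69) (nat_lit 1) (nat_lit 68) (nat_lit 1) (nat_lit 72) (nat_lit 1) (nat_lit 426) (nat_lit 422) (nat_lit 292)) (XT.lf (nat_lit 76) (nat_lit 1447113081) (nat_lit 0) (nat_lit 298057048) (nat_lit 228) (nat_lit 1447113081) (nat_lit 66) (nat_lit 1) (nat_lit 65) (nat_lit 1) (nat_lit 68) (nat_lit 1) (nat_lit 427) (nat_lit 422) (nat_lit 291))) (XT.nd (nat_lit 78) (nat_lit 0) (nat_lit 0) (XT.lf (nat_lit 304) (nat_lit 1967966813) (nat_lit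 0) (nat_lit 600940258) (nat_lit 228) (nat_lit 600940258) (nat_lit 66) (nat_lit 1) (nat_lit 62) (nat_lit 1) (nat_lit 65) (nat_lit 1) (nat_lit 428) (nat_lit 422) (nat_lit 290)) (XT.lf (nat_lit 76) (nat_lit 523418260) (nat_lit 0) (nat_lit 2100759302) (nat_lit 304) (nat_lit 523418260) (nat_lit 63) (nat_lit 1) (nat_lit 62) (nat_lit 1) (nat_lit 66) (nat_lit 1) (nat_lit 429) (nat_lit 422) (nat_lit 289)))) (XT.nd (nat_lit 156) (nat_lit 456) (nat_lit 0) (XT.nd (nat_lit 78) (nat_lit 304) (nat_lit 0) (XT.lf (nat_lit 228) (nat_lit 129946820) (nat_lit 0) (nat_lit 1497781401) (nat_lit 152) (nat_lit 1497781401) (nat_lit 63) (nat_lit 1) (nat_lit 60) (nat_lit 1) (nat_lit 62) (nat_lit 1) (nat_lit 430) (nat_lit 422) (nat_lit 288)) (XT.lf (nat_lit 304) (nat_lit 2338878428) (nat_lit 0) (nat_lit 382380292) (nat_lit 228) (nat_lit 382380292) (nat_lit 60) (nat_lit 1) (nat_lit 56) (nat_lit 1) (nat_lit 59) (nat_lit 1) (nat_lit 431) (nat_lit 422) (nat_lit 287)))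 (XT.nd (nat_lit 78) (nat_lit 456) (nat_lit 0) (XT.lf (nat_lit 76) (nat_lit 713218792) (nat_lit 0) (nat_lit 1655439399) (nat_lit 304) (nat_lit 713218792) (nat_lit 57) (nat_lit 1) (nat_lit 56) (nat_lit 1) (nat_lit 60) (nat_lit 1) (nat_lit 432) (nat_lit 422) (nat_lit 286)) (XT.nd (nat_lit 78) (nat_lit 304) (nat_lit 0) (XT.lf (nat_lit 228) (nat_lit 520996690) (nat_lit 0) (nat_lit 1269665711) (nat_lit 152) (nat_lit 1269665711) (nat_lit 57) (nat_lit 1) (nat_lit 54) (nat_lit 1) (nat_lit 56) (nat_lit 1) (nat_lit 433) (nat_lit 422) (nat_lit 285)) (XT.lf (nat_lit 304) (nat_lit 2671332029) (nat_lit 0) (nat_lit 183852817) (nat_lit 228) (nat_lit 183852817) (nat_lit 54) (nat_lit 1) (nat_lit 50) (nat_lit 1) (nat_lit 53) (nat_lit 1) (nat_lit 434) (nat_lit 422) (nat_lit 284)))))) (XT.nd (nat_lit 312) (nat_lit 0) (nat_lit 152) (XT.nd (nat_lit 156) (nat_lit 0) (nat_lit 76) (XT.nd (nat_lit 78) (nat_lit 0) (nat_lit 0) (XT.lf (nat_lit 1900) (nat_lit 1580493598)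 (nat_lit 0) (nat_lit 1593710200) (nat_lit 1900) (nat_lit 1580493598) (nat_lit 522) (nat_lit 1) (nat_lit 497) (nat_lit 0) (nat_lit 522) (nat_lit 0) (nat_lit 294) (nat_lit 423) (nat_lit 423)) (XT.lf (nat_lit 1900) (nat_lit 6249509317) (nat_lit 76) (nat_lit 1583225265) (nat_lit 0) (nat_lit 1583225265) (nat_lit 522) (nat_lit 1) (nat_lit 498) (nat_lit 1) (nat_lit 497) (nat_lit 0) (nat_lit 295) (nat_lit 423) (nat_lit 422))) (XT.nd (nat_lit 78) (nat_lit 0) (nat_lit 0) (XT.lf (nat_lit 1900) (nat_lit 3068538822) (nat_lit 0) (nat_lit 3186467793) (nat_lit 1824) (nat_lit 3068538822) (nat_lit 523) (nat_lit 1) (nat_lit 498) (nat_lit 1) (nat_lit 522) (nat_lit 1) (nat_lit 296) (nat_lit 423) (nat_lit 421)) (XT.lf (nat_lit 1900) (nat_lit 6005886912) (nat_lit 76) (nat_lit 1613322556) (nat_lit 0) (nat_lit 1613322556) (nat_lit 523) (nat_lit 1) (nat_lit 499) (nat_lit 1) (nat_lit 498) (nat_lit 1) (nat_lit 297) (nat_lit 423) (nat_lit 420)))) (XT.nd (nat_lit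 156) (nat_lit 0) (nat_lit 76) (XT.nd (nat_lit 78) (nat_lit 0) (nat_lit 0) (XT.lf (nat_lit 1900) (nat_lit 2918747230) (nat_lit 0) (nat_lit 3305028844) (nat_lit 1824) (nat_lit 2918747230) (nat_lit 524) (nat_lit 1) (nat_lit 499) (nat_lit 1) (nat_lit 523) (nat_lit 1) (nat_lit 298) (nat_lit 423) (nat_lit 419)) (XT.lf (nat_lit 1900) (nat_lit 5650660212) (nat_lit 76) (nat_lit 1701596452) (nat_lit 0) (nat_lit 1701596452) (nat_lit 524) (nat_lit 1) (nat_lit 500) (nat_lit 1) (nat_lit 499) (nat_lit 1) (nat_lit 299) (nat_lit 423) (nat_lit 418))) (XT.nd (nat_lit 78) (nat_lit 0) (nat_lit 0) (XT.lf (nat_lit 1900) (nat_lit 2715033894) (nat_lit 0) (nat_lit 3536120014) (nat_lit 1824) (nat_lit 2715033894) (nat_lit 525) (nat_lit 1) (nat_lit 500) (nat_lit 1) (nat_lit 524) (nat_lit 1) (nat_lit 300) (nat_lit 423) (nat_lit 417)) (XT.nd (nat_lit 78) (nat_lit 0) (nat_lit 76) (XT.lf (nat_lit 1900) (nat_lit 5190536759) (nat_lit 76) (nat_lit 1844624250) (nat_lit 0)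 (nat_lit 1844624250) (nat_lit 525) (nat_lit 1) (nat_lit 501) (nat_lit 1) (nat_lit 500) (nat_lit 1) (nat_lit 301) (nat_lit 423) (nat_lit 416)) (XT.lf (nat_lit 1900) (nat_lit 2460664000) (nat_lit 0) (nat_lit 3873074876) (nat_lit 1824) (nat_lit 2460664000) (nat_lit 526) (nat_lit 1) (nat_lit 501) (nat_lit 1) (nat_lit 525) (nat_lit 1) (nat_lit 302) (nat_lit 423) (nat_lit 415))))))))
noncomputable def ec157 : XT := (XT.nd (nat_lit 1404) (nat_lit 8436) (nat_lit 0) (XT.nd (nat_lit 702) (nat_lit 2432) (nat_lit 0) (XT.nd (nat_lit 312) (nat_lit 0) (nat_lit 152) (XT.nd (nat_lit 156) (nat_lit 0) (nat_lit 76) (XT.nd (nat_lit 78) (nat_lit 0) (nat_lit 76) (XT.lf (nat_lit 1900) (nat_lit 4631917090) (nat_lit 76) (nat_lit 2039138972) (nat_lit 0) (nat_lit 2039138972) (nat_lit 526) (nat_lit 1) (nat_lit 502) (nat_lit 1) (nat_lit 501) (nat_lit 1) (nat_lit 303) (nat_lit 423) (nat_lit 414)) (XT.lf (nat_lit 1900) (nat_lit 2158752978) (nat_lit 0) (nat_lit 4309530903)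 (nat_lit 1824) (nat_lit 2158752978) (nat_lit 527) (nat_lit 1) (nat_lit 502) (nat_lit 1) (nat_lit 526) (nat_lit 1) (nat_lit 304) (nat_lit 423) (nat_lit 413))) (XT.nd (nat_lit 78) (nat_lit 0) (nat_lit 76) (XT.lf (nat_lit 1900) (nat_lit 3980907568) (nat_lit 76) (nat_lit 2282022870) (nat_lit 0) (nat_lit 2282022870) (nat_lit 527) (nat_lit 1) (nat_lit 503) (nat_lit 1) (nat_lit 502) (nat_lit 1) (nat_lit 305) (nat_lit 423) (nat_lit 412)) (XT.lf (nat_lit 1900) (nat_lit 1812272761) (nat_lit 0) (nat_lit 4839416785) (nat_lit 1824) (nat_lit 1812272761) (nat_lit 528) (nat_lit 1) (nat_lit 503) (nat_lit 1) (nat_lit 527) (nat_lit 1) (nat_lit 306) (nat_lit 423) (nat_lit 411)))) (XT.nd (nat_lit 156) (nat_lit 0) (nat_lit 76) (XT.nd (nat_lit 78) (nat_lit 0) (nat_lit 76) (XT.lf (nat_lit 1900) (nat_lit 3243332701) (nat_lit 76) (nat_lit 2570301192) (nat_lit 0) (nat_lit 2570301192) (nat_lit 528) (nat_lit 1) (nat_lit 504) (nat_lit 1) (nat_lit 503) (nat_lit 1)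 (nat_lit 307) (nat_lit 423) (nat_lit 410)) (XT.lf (nat_lit 1900) (nat_lit 1424057807) (nat_lit 0) (nat_lit 5456940252) (nat_lit 1824) (nat_lit 1424057807) (nat_lit 529) (nat_lit 1) (nat_lit 504) (nat_lit 1) (nat_lit 528) (nat_lit 1) (nat_lit 308) (nat_lit 423) (nat_lit 409))) (XT.nd (nat_lit 78) (nat_lit 0) (nat_lit 76) (XT.lf (nat_lit 1900) (nat_lit 2424746961) (nat_lit 76) (nat_lit 2901136199) (nat_lit 0) (nat_lit 2901136199) (nat_lit 529) (nat_lit 1) (nat_lit 505) (nat_lit 1) (nat_lit 504) (nat_lit 1) (nat_lit 309) (nat_lit 423) (nat_lit 408)) (XT.nd (nat_lit 78) (nat_lit 0) (nat_lit 0) (XT.lf (nat_lit 1900) (nat_lit 996810863) (nat_lit 0) (nat_lit 6156576392) (nat_lit 1824) (nat_lit 996810863) (nat_lit 530) (nat_lit 1) (nat_lit 505) (nat_lit 1) (nat_lit 529) (nat_lit 1) (nat_lit 310) (nat_lit 423) (nat_lit 407)) (XT.lf (nat_lit 1900) (nat_lit 1530446135) (nat_lit 76) (nat_lit 3271821424) (nat_lit 0) (nat_lit 3271821424) (nat_lit 530)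 (nat_lit 1) (nat_lit 506) (nat_lit 1) (nat_lit 505) (nat_lit 1) (nat_lit 311) (nat_lit 423) (nat_lit 406)))))) (XT.nd (nat_lit 312) (nat_lit 988) (nat_lit 0) (XT.nd (nat_lit 156) (nat_lit 1824) (nat_lit 0) (XT.nd (nat_lit 78) (nat_lit 0) (nat_lit 0) (XT.lf (nat_lit 1900) (nat_lit 533108507) (nat_lit 0) (nat_lit 6933056439) (nat_lit 1824) (nat_lit 533108507) (nat_lit 531) (nat_lit 1) (nat_lit 506) (nat_lit 1) (nat_lit 530) (nat_lit 1) (nat_lit 312) (nat_lit 423) (nat_lit 405)) (XT.lf (nat_lit 1900) (nat_lit 565478211) (nat_lit 76) (nat_lit 3679776162) (nat_lit 0) (nat_lit 3679776162) (nat_lit 531) (nat_lit 1) (nat_lit 507) (nat_lit 1) (nat_lit 506) (nat_lit 1) (nat_lit 313) (nat_lit 423) (nat_lit 404))) (XT.nd (nat_lit 78) (nat_lit 1900) (nat_lit 0) (XT.lf (nat_lit 1900) (nat_lit 35406463) (nat_lit 0) (nat_lit 7781357005) (nat_lit 1824) (nat_lit 35406463) (nat_lit 532) (nat_lit 1) (nat_lit 507) (nat_lit 1) (nat_lit 531) (nat_lit 1) (nat_lit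 314) (nat_lit 423) (nat_lit 403)) (XT.lf (nat_lit 1976) (nat_lit 3660215340) (nat_lit 0) (nat_lit 459243075) (nat_lit 1900) (nat_lit 3660215340) (nat_lit 508) (nat_lit 1) (nat_lit 482) (nat_lit 1) (nat_lit 507) (nat_lit 1) (nat_lit 315) (nat_lit 423) (nat_lit 402)))) (XT.nd (nat_lit 156) (nat_lit 988) (nat_lit 0) (XT.nd (nat_lit 78) (nat_lit 0) (nat_lit 76) (XT.lf (nat_lit 1976) (nat_lit 6727110560) (nat_lit 76) (nat_lit 490705589) (nat_lit 0) (nat_lit 490705589) (nat_lit 508) (nat_lit 1) (nat_lit 483) (nat_lit 1) (nat_lit 482) (nat_lit 1) (nat_lit 316) (nat_lit 423) (nat_lit 401)) (XT.lf (nat_lit 1976) (nat_lit 3050436883) (nat_lit 0) (nat_lit 1537017556) (nat_lit 1900) (nat_lit 3050436883) (nat_lit 509) (nat_lit 1) (nat_lit 483) (nat_lit 1) (nat_lit 508) (nat_lit 1) (nat_lit 317) (nat_lit 423) (nat_lit 400))) (XT.nd (nat_lit 78) (nat_lit 1064) (nat_lit 0) (XT.lf (nat_lit 1976) (nat_lit 5476804170) (nat_lit 76) (nat_lit 1045821687) (nat_lit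 0) (nat_lit 1045821687) (nat_lit 509) (nat_lit 1) (nat_lit 484) (nat_lit 1) (nat_lit 483) (nat_lit 1) (nat_lit 318) (nat_lit 423) (nat_lit 399)) (XT.nd (nat_lit 78) (nat_lit 1140) (nat_lit 0) (XT.lf (nat_lit 76) (nat_lit 2414350502) (nat_lit 0) (nat_lit 2670953221) (nat_lit 1900) (nat_lit 2414350502) (nat_lit 485) (nat_lit 1) (nat_lit 484) (nat_lit 1) (nat_lit 509) (nat_lit 1) (nat_lit 319) (nat_lit 423) (nat_lit 398)) (XT.lf (nat_lit 1216) (nat_lit 4175733684) (nat_lit 0) (nat_lit 1628065781) (nat_lit 1140) (nat_lit 1628065781) (nat_lit 485) (nat_lit 1) (nat_lit 469) (nat_lit 1) (nat_lit 484) (nat_lit 1) (nat_lit 320) (nat_lit 423) (nat_lit 397))))))) (XT.nd (nat_lit 702) (nat_lit 3952) (nat_lit 0) (XT.nd (nat_lit 312) (nat_lit 2660) (nat_lit 0) (XT.nd (nat_lit 156) (nat_lit 912) (nat_lit 0) (XT.nd (nat_lit 78) (nat_lit 912) (nat_lit 0) (XT.lf (nat_lit 76) (nat_lit 1753957889) (nat_lit 0) (nat_lit 3856947452) (nat_lit 1216) (nat_lit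 1753957889) (nat_lit 470) (nat_lit 1) (nat_lit 469) (nat_lit 1) (nat_lit 485) (nat_lit 1) (nat_lit 321) (nat_lit 423) (nat_lit 396)) (XT.lf (nat_lit 988) (nat_lit 2827817688) (nat_lit 0) (nat_lit 2235429874) (nat_lit 912) (nat_lit 2235429874) (nat_lit 470) (nat_lit 1) (nat_lit 457) (nat_lit 1) (nat_lit 469) (nat_lit 1) (nat_lit 322) (nat_lit 423) (nat_lit 395))) (XT.nd (nat_lit 78) (nat_lit 912) (nat_lit 0) (XT.lf (nat_lit 76) (nat_lit 1071163792) (nat_lit 0) (nat_lit 5091094619) (nat_lit 988) (nat_lit 1071163792) (nat_lit 458) (nat_lit 1) (nat_lit 457) (nat_lit 1) (nat_lit 470) (nat_lit 1) (nat_lit 323) (nat_lit 423) (nat_lit 394)) (XT.lf (nat_lit 988) (nat_lit 1436784420) (nat_lit 0) (nat_lit 2866002659) (nat_lit 912) (nat_lit 2866002659) (nat_lit 458) (nat_lit 1) (nat_lit 445) (nat_lit 1) (nat_lit 457) (nat_lit 1) (nat_lit 324) (nat_lit 423) (nat_lit 393)))) (XT.nd (nat_lit 156) (nat_lit 1824) (nat_lit 0) (XT.nd (nat_lit 78) (nat_lit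 836) (nat_lit 0) (XT.lf (nat_lit 76) (nat_lit 367780153) (nat_lit 0) (nat_lit 6369677698) (nat_lit 988) (nat_lit 367780153) (nat_lit 446) (nat_lit 1) (nat_lit 445) (nat_lit 1) (nat_lit 458) (nat_lit 1) (nat_lit 325) (nat_lit 423) (nat_lit 392)) (XT.lf (nat_lit 912) (nat_lit 6179910) (nat_lit 0) (nat_lit 3517965395) (nat_lit 836) (nat_lit 3517965395) (nat_lit 446) (nat_lit 1) (nat_lit 434) (nat_lit 1) (nat_lit 445) (nat_lit 1) (nat_lit 326) (nat_lit 423) (nat_lit 391))) (XT.nd (nat_lit 78) (nat_lit 836) (nat_lit 0) (XT.lf (nat_lit 988) (nat_lit 6275759895) (nat_lit 0) (nat_lit 352137878) (nat_lit 912) (nat_lit 352137878) (nat_lit 434) (nat_lit 1) (nat_lit 421) (nat_lit 1) (nat_lit 433) (nat_lit 1) (nat_lit 327) (nat_lit 423) (nat_lit 390)) (XT.nd (nat_lit 78) (nat_lit 836) (nat_lit 0) (XT.lf (nat_lit 76) (nat_lit 2738447094) (nat_lit 0) (nat_lit 1441467856) (nat_lit 988) (nat_lit 2738447094) (nat_lit 422) (nat_lit 1) (nat_lit 421) (nat_lit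 1) (nat_lit 434) (nat_lit 1) (nat_lit 328) (nat_lit 423) (nat_lit 389)) (XT.lf (nat_lit 912) (nat_lit 4684209176) (nat_lit 0) (nat_lit 1086751300) (nat_lit 836) (nat_lit 1086751300) (nat_lit 422) (nat_lit 1) (nat_lit 410) (nat_lit 1) (nat_lit 421) (nat_lit 1) (nat_lit 329) (nat_lit 423) (nat_lit 388)))))) (XT.nd (nat_lit 390) (nat_lit 2356) (nat_lit 0) (XT.nd (nat_lit 156) (nat_lit 760) (nat_lit 0) (XT.nd (nat_lit 78) (nat_lit 836) (nat_lit 0) (XT.lf (nat_lit 76) (nat_lit 1938022877) (nat_lit 0) (nat_lit 2921596717) (nat_lit 912) (nat_lit 1938022877) (nat_lit 411) (nat_lit 1) (nat_lit 410) (nat_lit 1) (nat_lit 422) (nat_lit 1) (nat_lit 330) (nat_lit 423) (nat_lit 387)) (XT.lf (nat_lit 912) (nat_lit 3064507642) (nat_lit 0) (nat_lit 1836933234) (nat_lit 836) (nat_lit 1836933234) (nat_lit 411) (nat_lit 1) (nat_lit 399) (nat_lit 1) (nat_lit 410) (nat_lit 1) (nat_lit 331) (nat_lit 423) (nat_lit 386))) (XT.nd (nat_lit 78) (nat_lit 760) (nat_lit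 0) (XT.lf (nat_lit 76) (nat_lit 1124293645) (nat_lit 0) (nat_lit 4431282649) (nat_lit 912) (nat_lit 1124293645) (nat_lit 400) (nat_lit 1) (nat_lit 399) (nat_lit 1) (nat_lit 411) (nat_lit 1) (nat_lit 332) (nat_lit 423) (nat_lit 385)) (XT.nd (nat_lit 78) (nat_lit 0) (nat_lit 0) (XT.lf (nat_lit 836) (nat_lit 1419512200) (nat_lit 0) (nat_lit 2601214538) (nat_lit 760) (nat_lit 2601214538) (nat_lit 400) (nat_lit 1) (nat_lit 389) (nat_lit 1) (nat_lit 399) (nat_lit 1) (nat_lit 333) (nat_lit 423) (nat_lit 384)) (XT.lf (nat_lit 76) (nat_lit 298646371) (nat_lit 0) (nat_lit 5967671401) (nat_lit 836) (nat_lit 298646371) (nat_lit 390) (nat_lit 1) (nat_lit 389) (nat_lit 1) (nat_lit 400) (nat_lit 1) (nat_lit 334) (nat_lit 423) (nat_lit 383))))) (XT.nd (nat_lit 156) (nat_lit 760) (nat_lit 0) (XT.nd (nat_lit 78) (nat_lit 760) (nat_lit 0) (XT.lf (nat_lit 76) (nat_lit 3131744919) (nat_lit 0) (nat_lit 244812334) (nat_lit 836) (nat_lit 3131744919) (nat_lit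 379) (nat_lit 1) (nat_lit 378) (nat_lit 1) (nat_lit 389) (nat_lit 1) (nat_lit 335) (nat_lit 423) (nat_lit 382)) (XT.lf (nat_lit 836) (nat_lit 5384434984) (nat_lit 0) (nat_lit 534066033) (nat_lit 760) (nat_lit 534066033) (nat_lit 379) (nat_lit 1) (nat_lit 368) (nat_lit 1) (nat_lit 378) (nat_lit 1) (nat_lit 336) (nat_lit 423) (nat_lit 381))) (XT.nd (nat_lit 78) (nat_lit 760) (nat_lit 0) (XT.lf (nat_lit 76) (nat_lit 2243478994) (nat_lit 0) (nat_lit 1910267598) (nat_lit 836) (nat_lit 2243478994) (nat_lit 369) (nat_lit 1) (nat_lit 368) (nat_lit 1) (nat_lit 379) (nat_lit 1) (nat_lit 337) (nat_lit 423) (nat_lit 380)) (XT.nd (nat_lit 78) (nat_lit 0) (nat_lit 0) (XT.lf (nat_lit 836) (nat_lit 3594511033) (nat_lit 0) (nat_lit 1374105897) (nat_lit 760) (nat_lit 1374105897) (nat_lit 369) (nat_lit 1) (nat_lit 358) (nat_lit 1) (nat_lit 368) (nat_lit 1) (nat_lit 338) (nat_lit 423) (nat_lit 379)) (XT.lf (nat_lit 76) (nat_lit 1347879164) (nat_lit 0) (nat_lit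 3593063664) (nat_lit 836) (nat_lit 1347879164) (nat_lit 359) (nat_lit 1) (nat_lit 358) (nat_lit 1) (nat_lit 369) (nat_lit 1) (nat_lit 339) (nat_lit 423) (nat_lit 378))))))))
noncomputable def ec158 : XT := (XT.nd (nat_lit 1404) (nat_lit 5548) (nat_lit 0) (XT.nd (nat_lit 702) (nat_lit 3648) (nat_lit 0) (XT.nd (nat_lit 312) (nat_lit 1292) (nat_lit 0) (XT.nd (nat_lit 156) (nat_lit 1444) (nat_lit 0) (XT.nd (nat_lit 78) (nat_lit 0) (nat_lit 0) (XT.lf (nat_lit 760) (nat_lit 1790989648) (nat_lit 0) (nat_lit 2222262443) (nat_lit 684) (nat_lit 2222262443) (nat_lit 359) (nat_lit 1) (nat_lit 349) (nat_lit 1) (nat_lit 358) (nat_lit 1) (nat_lit 340) (nat_lit 423) (nat_lit 377)) (XT.lf (nat_lit 76) (nat_lit 446050336) (nat_lit 0) (nat_lit 5290919082) (nat_lit 760) (nat_lit 446050336) (nat_lit 350) (nat_lit 1) (nat_lit 349) (nat_lit 1) (nat_lit 359) (nat_lit 1) (nat_lit 341) (nat_lit 423) (nat_lit 376))) (XT.nd (nat_lit 78) (nat_lit 684) (nat_lit 0)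 (XT.lf (nat_lit 76) (nat_lit 3053605666) (nat_lit 0) (nat_lit 23657314) (nat_lit 760) (nat_lit 3053605666) (nat_lit 340) (nat_lit 1) (nat_lit 339) (nat_lit 1) (nat_lit 349) (nat_lit 1) (nat_lit 342) (nat_lit 423) (nat_lit 375)) (XT.lf (nat_lit 760) (nat_lit 5163651308) (nat_lit 0) (nat_lit 457928923) (nat_lit 684) (nat_lit 457928923) (nat_lit 340) (nat_lit 1) (nat_lit 330) (nat_lit 1) (nat_lit 339) (nat_lit 1) (nat_lit 343) (nat_lit 423) (nat_lit 374)))) (XT.nd (nat_lit 156) (nat_lit 608) (nat_lit 0) (XT.nd (nat_lit 78) (nat_lit 684) (nat_lit 0) (XT.lf (nat_lit 76) (nat_lit 2102198047) (nat_lit 0) (nat_lit 1824090102) (nat_lit 760) (nat_lit 2102198047) (nat_lit 331) (nat_lit 1) (nat_lit 330) (nat_lit 1) (nat_lit 340) (nat_lit 1) (nat_lit 344) (nat_lit 423) (nat_lit 373)) (XT.lf (nat_lit 760) (nat_lit 3251949214) (nat_lit 0) (nat_lit 1363139584) (nat_lit 684) (nat_lit 1363139584) (nat_lit 331) (nat_lit 1) (nat_lit 321) (nat_lit 1) (nat_lit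 330) (nat_lit 1) (nat_lit 345) (nat_lit 423) (nat_lit 372))) (XT.nd (nat_lit 78) (nat_lit 608) (nat_lit 0) (XT.lf (nat_lit 76) (nat_lit 1148320837) (nat_lit 0) (nat_lit 3631892063) (nat_lit 760) (nat_lit 1148320837) (nat_lit 322) (nat_lit 1) (nat_lit 321) (nat_lit 1) (nat_lit 331) (nat_lit 1) (nat_lit 346) (nat_lit 423) (nat_lit 371)) (XT.nd (nat_lit 78) (nat_lit 0) (nat_lit 0) (XT.lf (nat_lit 684) (nat_lit 1336171629) (nat_lit 0) (nat_lit 2271586679) (nat_lit 608) (nat_lit 2271586679) (nat_lit 322) (nat_lit 1) (nat_lit 313) (nat_lit 1) (nat_lit 321) (nat_lit 1) (nat_lit 347) (nat_lit 423) (nat_lit 370)) (XT.lf (nat_lit 76) (nat_lit 192842755) (nat_lit 0) (nat_lit 5445261707) (nat_lit 684) (nat_lit 192842755) (nat_lit 314) (nat_lit 1) (nat_lit 313) (nat_lit 1) (nat_lit 322) (nat_lit 1) (nat_lit 348) (nat_lit 423) (nat_lit 369)))))) (XT.nd (nat_lit 312) (nat_lit 1748) (nat_lit 0) (XT.nd (nat_lit 156) (nat_lit 608) (nat_lit 0) (XT.nd (nat_lit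 78) (nat_lit 608) (nat_lit 0) (XT.lf (nat_lit 76) (nat_lit 2604182788) (nat_lit 0) (nat_lit 574354841) (nat_lit 684) (nat_lit 2604182788) (nat_lit 305) (nat_lit 1) (nat_lit 304) (nat_lit 1) (nat_lit 313) (nat_lit 1) (nat_lit 349) (nat_lit 423) (nat_lit 368)) (XT.lf (nat_lit 684) (nat_lit 4218478838) (nat_lit 0) (nat_lit 758393890) (nat_lit 608) (nat_lit 758393890) (nat_lit 305) (nat_lit 1) (nat_lit 296) (nat_lit 1) (nat_lit 304) (nat_lit 1) (nat_lit 350) (nat_lit 423) (nat_lit 367))) (XT.nd (nat_lit 78) (nat_lit 608) (nat_lit 0) (XT.lf (nat_lit 76) (nat_lit 1610032349) (nat_lit 0) (nat_lit 2468130805) (nat_lit 684) (nat_lit 1610032349) (nat_lit 297) (nat_lit 1) (nat_lit 296) (nat_lit 1) (nat_lit 305) (nat_lit 1) (nat_lit 351) (nat_lit 423) (nat_lit 366)) (XT.lf (nat_lit 684) (nat_lit 2224989603) (nat_lit 0) (nat_lit 1708369680) (nat_lit 608) (nat_lit 1708369680) (nat_lit 297) (nat_lit 1) (nat_lit 288) (nat_lit 1) (nat_lit 296) (nat_lit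 1) (nat_lit 352) (nat_lit 423) (nat_lit 365)))) (XT.nd (nat_lit 156) (nat_lit 1216) (nat_lit 0) (XT.nd (nat_lit 78) (nat_lit 532) (nat_lit 0) (XT.lf (nat_lit 76) (nat_lit 617345377) (nat_lit 0) (nat_lit 4361193858) (nat_lit 684) (nat_lit 617345377) (nat_lit 289) (nat_lit 1) (nat_lit 288) (nat_lit 1) (nat_lit 297) (nat_lit 1) (nat_lit 353) (nat_lit 423) (nat_lit 364)) (XT.lf (nat_lit 608) (nat_lit 235117464) (nat_lit 0) (nat_lit 2657629557) (nat_lit 532) (nat_lit 2657629557) (nat_lit 289) (nat_lit 1) (nat_lit 281) (nat_lit 1) (nat_lit 288) (nat_lit 1) (nat_lit 354) (nat_lit 423) (nat_lit 363))) (XT.nd (nat_lit 78) (nat_lit 532) (nat_lit 0) (XT.lf (nat_lit 684) (nat_lit 4764033028) (nat_lit 0) (nat_lit 370751401) (nat_lit 608) (nat_lit 370751401) (nat_lit 281) (nat_lit 1) (nat_lit 272) (nat_lit 1) (nat_lit 280) (nat_lit 1) (nat_lit 355) (nat_lit 423) (nat_lit 362)) (XT.nd (nat_lit 78) (nat_lit 532) (nat_lit 0) (XT.lf (nat_lit 76) (nat_lit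 1867021992) (nat_lit 0) (nat_lit 1726881771) (nat_lit 684) (nat_lit 1867021992) (nat_lit 273) (nat_lit 1) (nat_lit 272) (nat_lit 1) (nat_lit 281) (nat_lit 1) (nat_lit 356) (nat_lit 423) (nat_lit 361)) (XT.lf (nat_lit 608) (nat_lit 2712889741) (nat_lit 0) (nat_lit 1352038940) (nat_lit 532) (nat_lit 1352038940) (nat_lit 273) (nat_lit 1) (nat_lit 265) (nat_lit 1) (nat_lit 272) (nat_lit 1) (nat_lit 357) (nat_lit 423) (nat_lit 360))))))) (XT.nd (nat_lit 702) (nat_lit 2812) (nat_lit 0) (XT.nd (nat_lit 312) (nat_lit 1596) (nat_lit 0) (XT.nd (nat_lit 156) (nat_lit 608) (nat_lit 0) (XT.nd (nat_lit 78) (nat_lit 532) (nat_lit 0) (XT.lf (nat_lit 76) (nat_lit 846895986) (nat_lit 0) (nat_lit 3679727163) (nat_lit 608) (nat_lit 846895986) (nat_lit 266) (nat_lit 1) (nat_lit 265) (nat_lit 1) (nat_lit 273) (nat_lit 1) (nat_lit 358) (nat_lit 423) (nat_lit 359)) (XT.lf (nat_lit 608) (nat_lit 670467781) (nat_lit 0) (nat_lit 2329990058) (nat_lit 532) (nat_lit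 2329990058) (nat_lit 266) (nat_lit 1) (nat_lit 258) (nat_lit 1) (nat_lit 265) (nat_lit 1) (nat_lit 359) (nat_lit 423) (nat_lit 358))) (XT.nd (nat_lit 78) (nat_lit 0) (nat_lit 0) (XT.lf (nat_lit 608) (nat_lit 4953033471) (nat_lit 0) (nat_lit 167506393) (nat_lit 532) (nat_lit 167506393) (nat_lit 258) (nat_lit 1) (nat_lit 250) (nat_lit 1) (nat_lit 257) (nat_lit 1) (nat_lit 360) (nat_lit 423) (nat_lit 357)) (XT.lf (nat_lit 76) (nat_lit 1950715980) (nat_lit 0) (nat_lit 1344315539) (nat_lit 608) (nat_lit 1950715980) (nat_lit 251) (nat_lit 1) (nat_lit 250) (nat_lit 1) (nat_lit 258) (nat_lit 1) (nat_lit 361) (nat_lit 423) (nat_lit 356)))) (XT.nd (nat_lit 156) (nat_lit 1064) (nat_lit 0) (XT.nd (nat_lit 78) (nat_lit 0) (nat_lit 0) (XT.lf (nat_lit 608) (nat_lit 2861605904) (nat_lit 0) (nat_lit 1171249403) (nat_lit 532) (nat_lit 1171249403) (nat_lit 251) (nat_lit 1) (nat_lit 243) (nat_lit 1) (nat_lit 250) (nat_lit 1) (nat_lit 362) (nat_lit 423) (nat_lit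 355)) (XT.lf (nat_lit 76) (nat_lit 911608781) (nat_lit 0) (nat_lit 3339689298) (nat_lit 608) (nat_lit 911608781) (nat_lit 244) (nat_lit 1) (nat_lit 243) (nat_lit 1) (nat_lit 251) (nat_lit 1) (nat_lit 363) (nat_lit 423) (nat_lit 354))) (XT.nd (nat_lit 78) (nat_lit 608) (nat_lit 0) (XT.lf (nat_lit 532) (nat_lit 783218137) (nat_lit 0) (nat_lit 2169433929) (nat_lit 456) (nat_lit 2169433929) (nat_lit 244) (nat_lit 1) (nat_lit 237) (nat_lit 1) (nat_lit 243) (nat_lit 1) (nat_lit 364) (nat_lit 423) (nat_lit 353)) (XT.nd (nat_lit 78) (nat_lit 0) (nat_lit 0) (XT.lf (nat_lit 608) (nat_lit 4841914185) (nat_lit 0) (nat_lit 119993350) (nat_lit 532) (nat_lit 119993350) (nat_lit 237) (nat_lit 1) (nat_lit 229) (nat_lit 1) (nat_lit 236) (nat_lit 1) (nat_lit 365) (nat_lit 423) (nat_lit 352)) (XT.lf (nat_lit 76) (nat_lit 1888640143) (nat_lit 0) (nat_lit 1264494985) (nat_lit 608) (nat_lit 1888640143) (nat_lit 230) (nat_lit 1) (nat_lit 229) (nat_lit 1) (nat_lit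 237) (nat_lit 1) (nat_lit 366) (nat_lit 423) (nat_lit 351)))))) (XT.nd (nat_lit 390) (nat_lit 1368) (nat_lit 0) (XT.nd (nat_lit 156) (nat_lit 988) (nat_lit 0) (XT.nd (nat_lit 78) (nat_lit 0) (nat_lit 0) (XT.lf (nat_lit 532) (nat_lit 2725202518) (nat_lit 0) (nat_lit 1138535399) (nat_lit 456) (nat_lit 1138535399) (nat_lit 230) (nat_lit 1) (nat_lit 223) (nat_lit 1) (nat_lit 229) (nat_lit 1) (nat_lit 367) (nat_lit 423) (nat_lit 350)) (XT.lf (nat_lit 76) (nat_lit 837853013) (nat_lit 0) (nat_lit 3287486007) (nat_lit 532) (nat_lit 837853013) (nat_lit 224) (nat_lit 1) (nat_lit 223) (nat_lit 1) (nat_lit 230) (nat_lit 1) (nat_lit 368) (nat_lit 423) (nat_lit 349))) (XT.nd (nat_lit 78) (nat_lit 532) (nat_lit 0) (XT.lf (nat_lit 532) (nat_lit 625159699) (nat_lit 0) (nat_lit 2149646634) (nat_lit 456) (nat_lit 2149646634) (nat_lit 224) (nat_lit 1) (nat_lit 217) (nat_lit 1) (nat_lit 223) (nat_lit 1) (nat_lit 369) (nat_lit 423) (nat_lit 348)) (XT.nd (nat_lit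 78) (nat_lit 0) (nat_lit 0) (XT.lf (nat_lit 532) (nat_lit 4480048259) (nat_lit 0) (nat_lit 203118747) (nat_lit 456) (nat_lit 203118747) (nat_lit 217) (nat_lit 1) (nat_lit 210) (nat_lit 1) (nat_lit 216) (nat_lit 1) (nat_lit 370) (nat_lit 423) (nat_lit 347)) (XT.lf (nat_lit 76) (nat_lit 1704872618) (nat_lit 0) (nat_lit 1438460345) (nat_lit 532) (nat_lit 1704872618) (nat_lit 211) (nat_lit 1) (nat_lit 210) (nat_lit 1) (nat_lit 217) (nat_lit 1) (nat_lit 371) (nat_lit 423) (nat_lit 346))))) (XT.nd (nat_lit 156) (nat_lit 912) (nat_lit 0) (XT.nd (nat_lit 78) (nat_lit 0) (nat_lit 0) (XT.lf (nat_lit 532) (nat_lit 2350964991) (nat_lit 0) (nat_lit 1229860763) (nat_lit 456) (nat_lit 1229860763) (nat_lit 211) (nat_lit 1) (nat_lit 204) (nat_lit 1) (nat_lit 210) (nat_lit 1) (nat_lit 372) (nat_lit 423) (nat_lit 345)) (XT.lf (nat_lit 76) (nat_lit 648687920) (nat_lit 0) (nat_lit 3476222003) (nat_lit 532) (nat_lit 648687920) (nat_lit 205) (nat_lit 1) (nat_lit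 204) (nat_lit 1) (nat_lit 211) (nat_lit 1) (nat_lit 373) (nat_lit 423) (nat_lit 344))) (XT.nd (nat_lit 78) (nat_lit 532) (nat_lit 0) (XT.lf (nat_lit 456) (nat_lit 241575417) (nat_lit 0) (nat_lit 2247606275) (nat_lit 380) (nat_lit 2247606275) (nat_lit 205) (nat_lit 1) (nat_lit 199) (nat_lit 1) (nat_lit 204) (nat_lit 1) (nat_lit 374) (nat_lit 423) (nat_lit 343)) (XT.nd (nat_lit 78) (nat_lit 0) (nat_lit 0) (XT.lf (nat_lit 532) (nat_lit 3910569492) (nat_lit 0) (nat_lit 394945900) (nat_lit 456) (nat_lit 394945900) (nat_lit 199) (nat_lit 1) (nat_lit 192) (nat_lit 1) (nat_lit 198) (nat_lit 1) (nat_lit 375) (nat_lit 423) (nat_lit 342)) (XT.lf (nat_lit 76) (nat_lit 1420445175) (nat_lit 0) (nat_lit 1823418002) (nat_lit 532) (nat_lit 1420445175) (nat_lit 193) (nat_lit 1) (nat_lit 192) (nat_lit 1) (nat_lit 199) (nat_lit 1) (nat_lit 376) (nat_lit 423) (nat_lit 341))))))))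
noncomputable def ec159 : XT := (XT.nd (nat_lit 1404) (nat_lit 3572) (nat_lit 0) (XT.nd (nat_lit 702) (nat_lit 1748) (nat_lit 0) (XT.nd (nat_lit 312) (nat_lit 1140) (nat_lit 0) (XT.nd (nat_lit 156) (nat_lit 836) (nat_lit 0) (XT.nd (nat_lit 78) (nat_lit 0) (nat_lit 0) (XT.lf (nat_lit 456) (nat_lit 1780189138) (nat_lit 0) (nat_lit 1424219968) (nat_lit 380) (nat_lit 1424219968) (nat_lit 193) (nat_lit 1) (nat_lit 187) (nat_lit 1) (nat_lit 192) (nat_lit 1) (nat_lit 377) (nat_lit 423) (nat_lit 340)) (XT.lf (nat_lit 76) (nat_lit 364248328) (nat_lit 0) (nat_lit 3864921569) (nat_lit 456) (nat_lit 364248328) (nat_lit 188) (nat_lit 1) (nat_lit 187) (nat_lit 1) (nat_lit 193) (nat_lit 1) (nat_lit 378) (nat_lit 423) (nat_lit 339))) (XT.nd (nat_lit 78) (nat_lit 380) (nat_lit 0) (XT.lf (nat_lit 76) (nat_lit 2117328451) (nat_lit 0) (nat_lit 323699719) (nat_lit 456) (nat_lit 2117328451) (nat_lit 182) (nat_lit 1) (nat_lit 181) (nat_lit 1) (nat_lit 187)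 (nat_lit 1) (nat_lit 379) (nat_lit 423) (nat_lit 338)) (XT.lf (nat_lit 456) (nat_lit 3171100763) (nat_lit 0) (nat_lit 676326937) (nat_lit 380) (nat_lit 676326937) (nat_lit 182) (nat_lit 1) (nat_lit 176) (nat_lit 1) (nat_lit 181) (nat_lit 1) (nat_lit 380) (nat_lit 423) (nat_lit 337)))) (XT.nd (nat_lit 156) (nat_lit 760) (nat_lit 0) (XT.nd (nat_lit 78) (nat_lit 380) (nat_lit 0) (XT.lf (nat_lit 76) (nat_lit 1053698998) (nat_lit 0) (nat_lit 2382021349) (nat_lit 456) (nat_lit 1053698998) (nat_lit 177) (nat_lit 1) (nat_lit 176) (nat_lit 1) (nat_lit 182) (nat_lit 1) (nat_lit 381) (nat_lit 423) (nat_lit 336)) (XT.lf (nat_lit 456) (nat_lit 1048880954) (nat_lit 0) (nat_lit 1703284531) (nat_lit 380) (nat_lit 1703284531) (nat_lit 177) (nat_lit 1) (nat_lit 171) (nat_lit 1) (nat_lit 176) (nat_lit 1) (nat_lit 382) (nat_lit 423) (nat_lit 335))) (XT.nd (nat_lit 78) (nat_lit 760) (nat_lit 0) (XT.lf (nat_lit 76) (nat_lit 2086458) (nat_lit 0) (nat_lit 4417837634)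 (nat_lit 456) (nat_lit 2086458) (nat_lit 172) (nat_lit 1) (nat_lit 171) (nat_lit 1) (nat_lit 177) (nat_lit 1) (nat_lit 383) (nat_lit 423) (nat_lit 334)) (XT.nd (nat_lit 78) (nat_lit 380) (nat_lit 0) (XT.lf (nat_lit 76) (nat_lit 1676582300) (nat_lit 0) (nat_lit 1035356034) (nat_lit 380) (nat_lit 1676582300) (nat_lit 167) (nat_lit 1) (nat_lit 166) (nat_lit 1) (nat_lit 171) (nat_lit 1) (nat_lit 384) (nat_lit 423) (nat_lit 333)) (XT.lf (nat_lit 456) (nat_lit 2294399614) (nat_lit 0) (nat_lit 1030576571) (nat_lit 380) (nat_lit 1030576571) (nat_lit 167) (nat_lit 1) (nat_lit 161) (nat_lit 1) (nat_lit 166) (nat_lit 1) (nat_lit 385) (nat_lit 423) (nat_lit 332)))))) (XT.nd (nat_lit 312) (nat_lit 988) (nat_lit 0) (XT.nd (nat_lit 156) (nat_lit 456) (nat_lit 0) (XT.nd (nat_lit 78) (nat_lit 304) (nat_lit 0) (XT.lf (nat_lit 76) (nat_lit 620600013) (nat_lit 0) (nat_lit 3081733346) (nat_lit 456) (nat_lit 620600013) (nat_lit 162) (nat_lit 1) (nat_lit 161)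 (nat_lit 1) (nat_lit 167) (nat_lit 1) (nat_lit 386) (nat_lit 423) (nat_lit 331)) (XT.lf (nat_lit 380) (nat_lit 188376850) (nat_lit 0) (nat_lit 2051089597) (nat_lit 304) (nat_lit 2051089597) (nat_lit 162) (nat_lit 1) (nat_lit 157) (nat_lit 1) (nat_lit 161) (nat_lit 1) (nat_lit 387) (nat_lit 423) (nat_lit 330))) (XT.nd (nat_lit 78) (nat_lit 0) (nat_lit 0) (XT.lf (nat_lit 456) (nat_lit 3419078180) (nat_lit 0) (nat_lit 419745361) (nat_lit 380) (nat_lit 419745361) (nat_lit 157) (nat_lit 1) (nat_lit 151) (nat_lit 1) (nat_lit 156) (nat_lit 1) (nat_lit 388) (nat_lit 423) (nat_lit 329)) (XT.lf (nat_lit 76) (nat_lit 1179880100) (nat_lit 0) (nat_lit 1866980799) (nat_lit 456) (nat_lit 1179880100) (nat_lit 152) (nat_lit 1) (nat_lit 151) (nat_lit 1) (nat_lit 157) (nat_lit 1) (nat_lit 389) (nat_lit 423) (nat_lit 328)))) (XT.nd (nat_lit 156) (nat_lit 684) (nat_lit 0) (XT.nd (nat_lit 78) (nat_lit 0) (nat_lit 0) (XT.lf (nat_lit 380) (nat_lit 1308930392)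 (nat_lit 0) (nat_lit 1443182970) (nat_lit 304) (nat_lit 1443182970) (nat_lit 152) (nat_lit 1) (nat_lit 147) (nat_lit 1) (nat_lit 151) (nat_lit 1) (nat_lit 390) (nat_lit 423) (nat_lit 327)) (XT.lf (nat_lit 76) (nat_lit 135018338) (nat_lit 0) (nat_lit 3894261584) (nat_lit 380) (nat_lit 135018338) (nat_lit 148) (nat_lit 1) (nat_lit 147) (nat_lit 1) (nat_lit 152) (nat_lit 1) (nat_lit 391) (nat_lit 423) (nat_lit 326))) (XT.nd (nat_lit 78) (nat_lit 304) (nat_lit 0) (XT.lf (nat_lit 76) (nat_lit 1684675477) (nat_lit 0) (nat_lit 763954165) (nat_lit 380) (nat_lit 1684675477) (nat_lit 143) (nat_lit 1) (nat_lit 142) (nat_lit 1) (nat_lit 147) (nat_lit 1) (nat_lit 392) (nat_lit 423) (nat_lit 325)) (XT.nd (nat_lit 78) (nat_lit 0) (nat_lit 0) (XT.lf (nat_lit 380) (nat_lit 2321895729) (nat_lit 0) (nat_lit 890428210) (nat_lit 304) (nat_lit 890428210) (nat_lit 143) (nat_lit 1) (nat_lit 138) (nat_lit 1) (nat_lit 142) (nat_lit 1) (nat_lit 393) (nat_lit 423)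 (nat_lit 324)) (XT.lf (nat_lit 76) (nat_lit 639801025) (nat_lit 0) (nat_lit 2792894702) (nat_lit 380) (nat_lit 639801025) (nat_lit 139) (nat_lit 1) (nat_lit 138) (nat_lit 1) (nat_lit 143) (nat_lit 1) (nat_lit 394) (nat_lit 423) (nat_lit 323))))))) (XT.nd (nat_lit 702) (nat_lit 1672) (nat_lit 0) (XT.nd (nat_lit 312) (nat_lit 912) (nat_lit 0) (XT.nd (nat_lit 156) (nat_lit 304) (nat_lit 0) (XT.nd (nat_lit 78) (nat_lit 380) (nat_lit 0) (XT.lf (nat_lit 380) (nat_lit 239371194) (nat_lit 0) (nat_lit 1901551561) (nat_lit 304) (nat_lit 1901551561) (nat_lit 139) (nat_lit 1) (nat_lit 134) (nat_lit 1) (nat_lit 138) (nat_lit 1) (nat_lit 395) (nat_lit 423) (nat_lit 322)) (XT.lf (nat_lit 380) (nat_lit 3235902527) (nat_lit 0) (nat_lit 388451581) (nat_lit 304) (nat_lit 388451581) (nat_lit 134) (nat_lit 1) (nat_lit 129) (nat_lit 1) (nat_lit 133) (nat_lit 1) (nat_lit 396) (nat_lit 423) (nat_lit 321))) (XT.nd (nat_lit 78) (nat_lit 304) (nat_lit 0) (XT.lf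 (nat_lit 76) (nat_lit 1096042888) (nat_lit 0) (nat_lit 1791182359) (nat_lit 380) (nat_lit 1096042888) (nat_lit 130) (nat_lit 1) (nat_lit 129) (nat_lit 1) (nat_lit 134) (nat_lit 1) (nat_lit 397) (nat_lit 423) (nat_lit 320)) (XT.lf (nat_lit 380) (nat_lit 1156951925) (nat_lit 0) (nat_lit 1398563380) (nat_lit 304) (nat_lit 1398563380) (nat_lit 130) (nat_lit 1) (nat_lit 125) (nat_lit 1) (nat_lit 129) (nat_lit 1) (nat_lit 398) (nat_lit 423) (nat_lit 319)))) (XT.nd (nat_lit 156) (nat_lit 608) (nat_lit 0) (XT.nd (nat_lit 78) (nat_lit 304) (nat_lit 0) (XT.lf (nat_lit 76) (nat_lit 67226442) (nat_lit 0) (nat_lit 3790858462) (nat_lit 380) (nat_lit 67226442) (nat_lit 126) (nat_lit 1) (nat_lit 125) (nat_lit 1) (nat_lit 130) (nat_lit 1) (nat_lit 399) (nat_lit 423) (nat_lit 318)) (XT.lf (nat_lit 76) (nat_lit 1507638559) (nat_lit 0) (nat_lit 881225985) (nat_lit 304) (nat_lit 1507638559) (nat_lit 122) (nat_lit 1) (nat_lit 121) (nat_lit 1) (nat_lit 125)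 (nat_lit 1) (nat_lit 400) (nat_lit 423) (nat_lit 317))) (XT.nd (nat_lit 78) (nat_lit 304) (nat_lit 0) (XT.lf (nat_lit 380) (nat_lit 1986305473) (nat_lit 0) (nat_lit 940903115) (nat_lit 304) (nat_lit 940903115) (nat_lit 122) (nat_lit 1) (nat_lit 117) (nat_lit 1) (nat_lit 121) (nat_lit 1) (nat_lit 401) (nat_lit 423) (nat_lit 316)) (XT.nd (nat_lit 78) (nat_lit 304) (nat_lit 0) (XT.lf (nat_lit 76) (nat_lit 482177700) (nat_lit 0) (nat_lit 2875663668) (nat_lit 380) (nat_lit 482177700) (nat_lit 118) (nat_lit 1) (nat_lit 117) (nat_lit 1) (nat_lit 122) (nat_lit 1) (nat_lit 402) (nat_lit 423) (nat_lit 315)) (XT.lf (nat_lit 76) (nat_lit 1878182193) (nat_lit 0) (nat_lit 55734591) (nat_lit 304) (nat_lit 1878182193) (nat_lit 114) (nat_lit 1) (nat_lit 113) (nat_lit 1) (nat_lit 117) (nat_lit 1) (nat_lit 403) (nat_lit 423) (nat_lit 314)))))) (XT.nd (nat_lit 390) (nat_lit 760) (nat_lit 0) (XT.nd (nat_lit 156) (nat_lit 608) (nat_lit 0) (XT.nd (nat_lit 78)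 (nat_lit 0) (nat_lit 0) (XT.lf (nat_lit 380) (nat_lit 2734510527) (nat_lit 0) (nat_lit 524981131) (nat_lit 304) (nat_lit 524981131) (nat_lit 114) (nat_lit 1) (nat_lit 109) (nat_lit 1) (nat_lit 113) (nat_lit 1) (nat_lit 404) (nat_lit 423) (nat_lit 313)) (XT.lf (nat_lit 76) (nat_lit 857291838) (nat_lit 0) (nat_lit 2042449528) (nat_lit 380) (nat_lit 857291838) (nat_lit 110) (nat_lit 1) (nat_lit 109) (nat_lit 1) (nat_lit 114) (nat_lit 1) (nat_lit 405) (nat_lit 423) (nat_lit 312))) (XT.nd (nat_lit 78) (nat_lit 380) (nat_lit 0) (XT.lf (nat_lit 304) (nat_lit 701218224) (nat_lit 0) (nat_lit 1514324977) (nat_lit 228) (nat_lit 1514324977) (nat_lit 110) (nat_lit 1) (nat_lit 106) (nat_lit 1) (nat_lit 109) (nat_lit 1) (nat_lit 406) (nat_lit 423) (nat_lit 311)) (XT.nd (nat_lit 78) (nat_lit 0) (nat_lit 0) (XT.lf (nat_lit 380) (nat_lit 3408099653) (nat_lit 0) (nat_lit 147483859) (nat_lit 304) (nat_lit 147483859) (nat_lit 106) (nat_lit 1) (nat_lit 101)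 (nat_lit 1) (nat_lit 105) (nat_lit 1) (nat_lit 407) (nat_lit 423) (nat_lit 310)) (XT.lf (nat_lit 76) (nat_lit 1195764139) (nat_lit 0) (nat_lit 1284731969) (nat_lit 380) (nat_lit 1195764139) (nat_lit 102) (nat_lit 1) (nat_lit 101) (nat_lit 1) (nat_lit 106) (nat_lit 1) (nat_lit 408) (nat_lit 423) (nat_lit 309))))) (XT.nd (nat_lit 156) (nat_lit 532) (nat_lit 0) (XT.nd (nat_lit 78) (nat_lit 0) (nat_lit 0) (XT.lf (nat_lit 304) (nat_lit 1386437492) (nat_lit 0) (nat_lit 1131687766) (nat_lit 228) (nat_lit 1131687766) (nat_lit 102) (nat_lit 1) (nat_lit 98) (nat_lit 1) (nat_lit 101) (nat_lit 1) (nat_lit 409) (nat_lit 423) (nat_lit 308)) (XT.lf (nat_lit 76) (nat_lit 195936331) (nat_lit 0) (nat_lit 3231831679) (nat_lit 304) (nat_lit 195936331) (nat_lit 99) (nat_lit 1) (nat_lit 98) (nat_lit 1) (nat_lit 102) (nat_lit 1) (nat_lit 410) (nat_lit 423) (nat_lit 307))) (XT.nd (nat_lit 78) (nat_lit 228) (nat_lit 0) (XT.lf (nat_lit 76) (nat_lit 1500543383)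 (nat_lit 0) (nat_lit 596525435) (nat_lit 304) (nat_lit 1500543383) (nat_lit 95) (nat_lit 1) (nat_lit 94) (nat_lit 1) (nat_lit 98) (nat_lit 1) (nat_lit 411) (nat_lit 423) (nat_lit 306)) (XT.nd (nat_lit 78) (nat_lit 0) (nat_lit 0) (XT.lf (nat_lit 304) (nat_lit 2004991430) (nat_lit 0) (nat_lit 783431589) (nat_lit 228) (nat_lit 783431589) (nat_lit 95) (nat_lit 1) (nat_lit 91) (nat_lit 1) (nat_lit 94) (nat_lit 1) (nat_lit 412) (nat_lit 423) (nat_lit 305)) (XT.lf (nat_lit 76) (nat_lit 507574642) (nat_lit 0) (nat_lit 2531192427) (nat_lit 304) (nat_lit 507574642) (nat_lit 92) (nat_lit 1) (nat_lit 91) (nat_lit 1) (nat_lit 95) (nat_lit 1) (nat_lit 413) (nat_lit 423) (nat_lit 304))))))))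
noncomputable def ec160 : XT := (XT.nd (nat_lit 1404) (nat_lit 304) (nat_lit 0) (XT.nd (nat_lit 702) (nat_lit 1292) (nat_lit 0) (XT.nd (nat_lit 312) (nat_lit 760) (nat_lit 0) (XT.nd (nat_lit 156) (nat_lit 228) (nat_lit 0) (XT.nd (nat_lit 78) (nat_lit 304) (nat_lit 0) (XT.lf (nat_lit 304) (nat_lit 28063228) (nat_lit 0) (nat_lit 1746469660) (nat_lit 228) (nat_lit 1746469660) (nat_lit 92) (nat_lit 1) (nat_lit 88) (nat_lit 1) (nat_lit 91) (nat_lit 1) (nat_lit 414) (nat_lit 423) (nat_lit 303)) (XT.lf (nat_lit 304) (nat_lit 2562240881) (nat_lit 0) (nat_lit 466835399) (nat_lit 228) (nat_lit 466835399) (nat_lit 88) (nat_lit 1) (nat_lit 84) (nat_lit 1) (nat_lit 87) (nat_lit 1) (nat_lit 415) (nat_lit 423) (nat_lit 302))) (XT.nd (nat_lit 78) (nat_lit 228) (nat_lit 0) (XT.lf (nat_lit 76) (nat_lit 789077138) (nat_lit 0) (nat_lit 1892822226) (nat_lit 304) (nat_lit 789077138) (nat_lit 85) (nat_lit 1) (nat_lit 84) (nat_lit 1) (nat_lit 88) (nat_lit 1)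 (nat_lit 416) (nat_lit 423) (nat_lit 301)) (XT.lf (nat_lit 304) (nat_lit 600910709) (nat_lit 0) (nat_lit 1422687684) (nat_lit 228) (nat_lit 1422687684) (nat_lit 85) (nat_lit 1) (nat_lit 81) (nat_lit 1) (nat_lit 84) (nat_lit 1) (nat_lit 417) (nat_lit 423) (nat_lit 300)))) (XT.nd (nat_lit 156) (nat_lit 456) (nat_lit 0) (XT.nd (nat_lit 78) (nat_lit 0) (nat_lit 0) (XT.lf (nat_lit 304) (nat_lit 3063132871) (nat_lit 0) (nat_lit 179387384) (nat_lit 228) (nat_lit 179387384) (nat_lit 81) (nat_lit 1) (nat_lit 77) (nat_lit 1) (nat_lit 80) (nat_lit 1) (nat_lit 418) (nat_lit 423) (nat_lit 299)) (XT.lf (nat_lit 76) (nat_lit 1042864350) (nat_lit 0) (nat_lit 1311804253) (nat_lit 304) (nat_lit 1042864350) (nat_lit 78) (nat_lit 1) (nat_lit 77) (nat_lit 1) (nat_lit 81) (nat_lit 1) (nat_lit 419) (nat_lit 423) (nat_lit 298))) (XT.nd (nat_lit 78) (nat_lit 228) (nat_lit 0) (XT.lf (nat_lit 304) (nat_lit 1118859026) (nat_lit 0) (nat_lit 1127303977) (nat_lit 228)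 (nat_lit 1127303977) (nat_lit 78) (nat_lit 1) (nat_lit 74) (nat_lit 1) (nat_lit 77) (nat_lit 1) (nat_lit 420) (nat_lit 423) (nat_lit 297)) (XT.nd (nat_lit 78) (nat_lit 228) (nat_lit 0) (XT.lf (nat_lit 76) (nat_lit 81768958) (nat_lit 0) (nat_lit 3186189683) (nat_lit 304) (nat_lit 81768958) (nat_lit 75) (nat_lit 1) (nat_lit 74) (nat_lit 1) (nat_lit 78) (nat_lit 1) (nat_lit 421) (nat_lit 423) (nat_lit 296)) (XT.lf (nat_lit 76) (nat_lit 1271170014) (nat_lit 0) (nat_lit 783599552) (nat_lit 228) (nat_lit 1271170014) (nat_lit 72) (nat_lit 1) (nat_lit 71) (nat_lit 1) (nat_lit 74) (nat_lit 1) (nat_lit 422) (nat_lit 423) (nat_lit 295)))))) (XT.nd (nat_lit 312) (nat_lit 608) (nat_lit 0) (XT.nd (nat_lit 156) (nat_lit 456) (nat_lit 0) (XT.nd (nat_lit 78) (nat_lit 0) (nat_lit 0) (XT.lf (nat_lit 304) (nat_lit 1586310063) (nat_lit 0) (nat_lit 858082532) (nat_lit 228) (nat_lit 858082532) (nat_lit 72) (nat_lit 1) (nat_lit 68) (nat_lit 1) (nat_lit 71) (nat_lit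 1) (nat_lit 423) (nat_lit 423) (nat_lit 294)) (XT.lf (nat_lit 76) (nat_lit 319260210) (nat_lit 0) (nat_lit 2640744356) (nat_lit 304) (nat_lit 319260210) (nat_lit 69) (nat_lit 1) (nat_lit 68) (nat_lit 1) (nat_lit 72) (nat_lit 1) (nat_lit 424) (nat_lit 423) (nat_lit 293))) (XT.nd (nat_lit 78) (nat_lit 228) (nat_lit 0) (XT.lf (nat_lit 76) (nat_lit 1476055342) (nat_lit 0) (nat_lit 304018189) (nat_lit 228) (nat_lit 1476055342) (nat_lit 66) (nat_lit 1) (nat_lit 65) (nat_lit 1) (nat_lit 68) (nat_lit 1) (nat_lit 425) (nat_lit 423) (nat_lit 292)) (XT.lf (nat_lit 304) (nat_lit 2007326150) (nat_lit 0) (nat_lit 612959063) (nat_lit 228) (nat_lit 612959063) (nat_lit 66) (nat_lit 1) (nat_lit 62) (nat_lit 1) (nat_lit 65) (nat_lit 1) (nat_lit 426) (nat_lit 423) (nat_lit 291)))) (XT.nd (nat_lit 156) (nat_lit 456) (nat_lit 0) (XT.nd (nat_lit 78) (nat_lit 152) (nat_lit 0) (XT.lf (nat_lit 76) (nat_lit 533886625) (nat_lit 0) (nat_lit 2142774488) (nat_lit 304)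 (nat_lit 533886625) (nat_lit 63) (nat_lit 1) (nat_lit 62) (nat_lit 1) (nat_lit 66) (nat_lit 1) (nat_lit 427) (nat_lit 423) (nat_lit 290)) (XT.lf (nat_lit 228) (nat_lit 132545757) (nat_lit 0) (nat_lit 1527737029) (nat_lit 152) (nat_lit 1527737029) (nat_lit 63) (nat_lit 1) (nat_lit 60) (nat_lit 1) (nat_lit 62) (nat_lit 1) (nat_lit 428) (nat_lit 423) (nat_lit 289))) (XT.nd (nat_lit 78) (nat_lit 152) (nat_lit 0) (XT.lf (nat_lit 304) (nat_lit 2385655997) (nat_lit 0) (nat_lit 390027898) (nat_lit 228) (nat_lit 390027898) (nat_lit 60) (nat_lit 1) (nat_lit 56) (nat_lit 1) (nat_lit 59) (nat_lit 1) (nat_lit 429) (nat_lit 423) (nat_lit 288)) (XT.nd (nat_lit 78) (nat_lit 152) (nat_lit 0) (XT.lf (nat_lit 76) (nat_lit 727483168) (nat_lit 0) (nat_lit 1688548187) (nat_lit 304) (nat_lit 727483168) (nat_lit 57) (nat_lit 1) (nat_lit 56) (nat_lit 1) (nat_lit 60) (nat_lit 1) (nat_lit 430) (nat_lit 423) (nat_lit 287)) (XT.lf (nat_lit 228) (nat_lit 531416624)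 (nat_lit 0) (nat_lit 1295059025) (nat_lit 152) (nat_lit 1295059025) (nat_lit 57) (nat_lit 1) (nat_lit 54) (nat_lit 1) (nat_lit 56) (nat_lit 1) (nat_lit 431) (nat_lit 423) (nat_lit 286))))))) (XT.nd (nat_lit 48984) (nat_lit 0) (nat_lit 34200) (XT.nd (nat_lit 48594) (nat_lit 0) (nat_lit 34048) (XT.nd (nat_lit 48438) (nat_lit 0) (nat_lit 33972) (XT.nd (nat_lit 78) (nat_lit 0) (nat_lit 0) (XT.lf (nat_lit 304) (nat_lit 2724758670) (nat_lit 0) (nat_lit 187529873) (nat_lit 228) (nat_lit 187529873) (nat_lit 54) (nat_lit 1) (nat_lit 50) (nat_lit 1) (nat_lit 53) (nat_lit 1) (nat_lit 432) (nat_lit 423) (nat_lit 285)) (XT.lf (nat_lit 76) (nat_lit 901743224) (nat_lit 0) (nat_lit 1274620046) (nat_lit 304) (nat_lit 901743224) (nat_lit 51) (nat_lit 1) (nat_lit 50) (nat_lit 1) (nat_lit 54) (nat_lit 1) (nat_lit 433) (nat_lit 423) (nat_lit 284))) (XT.nd (nat_lit 78) (nat_lit 0) (nat_lit 0) (XT.lf (nat_lit 1900) (nat_lit 1612103470) (nat_lit 0) (nat_lit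 1625584404) (nat_lit 1900) (nat_lit 1612103470) (nat_lit 522) (nat_lit 1) (nat_lit 497) (nat_lit 0) (nat_lit 522) (nat_lit 0) (nat_lit 292) (nat_lit 424) (nat_lit 424)) (XT.lf (nat_lit 1900) (nat_lit 6374499503) (nat_lit 76) (nat_lit 1614889770) (nat_lit 0) (nat_lit 1614889770) (nat_lit 522) (nat_lit 1) (nat_lit 498) (nat_lit 1) (nat_lit 497) (nat_lit 0) (nat_lit 293) (nat_lit 424) (nat_lit 423)))) (XT.nd (nat_lit 156) (nat_lit 0) (nat_lit 76) (XT.nd (nat_lit 78) (nat_lit 0) (nat_lit 0) (XT.lf (nat_lit 1900) (nat_lit 3129909599) (nat_lit 0) (nat_lit 3250197148) (nat_lit 1824) (nat_lit 3129909599) (nat_lit 523) (nat_lit 1) (nat_lit 498) (nat_lit 1) (nat_lit 522) (nat_lit 1) (nat_lit 294) (nat_lit 424) (nat_lit 422)) (XT.lf (nat_lit 1900) (nat_lit 6126004651) (nat_lit 76) (nat_lit 1645589007) (nat_lit 0) (nat_lit 1645589007) (nat_lit 523) (nat_lit 1) (nat_lit 499) (nat_lit 1) (nat_lit 498) (nat_lit 1) (nat_lit 295) (nat_lit 424) (nat_lit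 421))) (XT.nd (nat_lit 78) (nat_lit 0) (nat_lit 0) (XT.lf (nat_lit 1900) (nat_lit 2977122175) (nat_lit 0) (nat_lit 3371129421) (nat_lit 1824) (nat_lit 2977122175) (nat_lit 524) (nat_lit 1) (nat_lit 499) (nat_lit 1) (nat_lit 523) (nat_lit 1) (nat_lit 296) (nat_lit 424) (nat_lit 420)) (XT.nd (nat_lit 78) (nat_lit 0) (nat_lit 76) (XT.lf (nat_lit 1900) (nat_lit 5763673416) (nat_lit 76) (nat_lit 1735628381) (nat_lit 0) (nat_lit 1735628381) (nat_lit 524) (nat_lit 1) (nat_lit 500) (nat_lit 1) (nat_lit 499) (nat_lit 1) (nat_lit 297) (nat_lit 424) (nat_lit 419)) (XT.lf (nat_lit 1900) (nat_lit 2769334572) (nat_lit 0) (nat_lit 3606842414) (nat_lit 1824) (nat_lit 2769334572) (nat_lit 525) (nat_lit 1) (nat_lit 500) (nat_lit 1) (nat_lit 524) (nat_lit 1) (nat_lit 298) (nat_lit 424) (nat_lit 418)))))) (XT.nd (nat_lit 312) (nat_lit 0) (nat_lit 152) (XT.nd (nat_lit 156) (nat_lit 0) (nat_lit 76) (XT.nd (nat_lit 78) (nat_lit 0) (nat_lit 76) (XT.lf (nat_lit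 1900) (nat_lit 5294347494) (nat_lit 76) (nat_lit 1881516735) (nat_lit 0) (nat_lit 1881516735) (nat_lit 525) (nat_lit 1) (nat_lit 501) (nat_lit 1) (nat_lit 500) (nat_lit 1) (nat_lit 299) (nat_lit 424) (nat_lit 417)) (XT.lf (nat_lit 1900) (nat_lit 2509877280) (nat_lit 0) (nat_lit 3950536373) (nat_lit 1824) (nat_lit 2509877280) (nat_lit 526) (nat_lit 1) (nat_lit 501) (nat_lit 1) (nat_lit 525) (nat_lit 1) (nat_lit 300) (nat_lit 424) (nat_lit 416))) (XT.nd (nat_lit 78) (nat_lit 0) (nat_lit 76) (XT.lf (nat_lit 1900) (nat_lit 4724555432) (nat_lit 76) (nat_lit 2079921752) (nat_lit 0) (nat_lit 2079921752) (nat_lit 526) (nat_lit 1) (nat_lit 502) (nat_lit 1) (nat_lit 501) (nat_lit 1) (nat_lit 301) (nat_lit 424) (nat_lit 415)) (XT.lf (nat_lit 1900) (nat_lit 2201928037) (nat_lit 0) (nat_lit 4395721521) (nat_lit 1824) (nat_lit 2201928037) (nat_lit 527) (nat_lit 1) (nat_lit 502) (nat_lit 1) (nat_lit 526) (nat_lit 1) (nat_lit 302) (nat_lit 424) (nat_lit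 414)))) (XT.nd (nat_lit 156) (nat_lit 0) (nat_lit 76) (XT.nd (nat_lit 78) (nat_lit 0) (nat_lit 76) (XT.lf (nat_lit 1900) (nat_lit 4060525720) (nat_lit 76) (nat_lit 2327663328) (nat_lit 0) (nat_lit 2327663328) (nat_lit 527) (nat_lit 1) (nat_lit 503) (nat_lit 1) (nat_lit 502) (nat_lit 1) (nat_lit 303) (nat_lit 424) (nat_lit 413)) (XT.lf (nat_lit 1900) (nat_lit 1848518217) (nat_lit 0) (nat_lit 4936205120) (nat_lit 1824) (nat_lit 1848518217) (nat_lit 528) (nat_lit 1) (nat_lit 503) (nat_lit 1) (nat_lit 527) (nat_lit 1) (nat_lit 304) (nat_lit 424) (nat_lit 412))) (XT.nd (nat_lit 78) (nat_lit 0) (nat_lit 76) (XT.lf (nat_lit 1900) (nat_lit 3308199355) (nat_lit 76) (nat_lit 2621707216) (nat_lit 0) (nat_lit 2621707216) (nat_lit 528) (nat_lit 1) (nat_lit 504) (nat_lit 1) (nat_lit 503) (nat_lit 1) (nat_lit 305) (nat_lit 424) (nat_lit 411)) (XT.nd (nat_lit 78) (nat_lit 0) (nat_lit 0) (XT.lf (nat_lit 1900) (nat_lit 1452538963) (nat_lit 0) (nat_lit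 5566079057) (nat_lit 1824) (nat_lit 1452538963) (nat_lit 529) (nat_lit 1) (nat_lit 504) (nat_lit 1) (nat_lit 528) (nat_lit 1) (nat_lit 306) (nat_lit 424) (nat_lit 410)) (XT.lf (nat_lit 1900) (nat_lit 2473241900) (nat_lit 76) (nat_lit 2959158923) (nat_lit 0) (nat_lit 2959158923) (nat_lit 529) (nat_lit 1) (nat_lit 505) (nat_lit 1) (nat_lit 504) (nat_lit 1) (nat_lit 307) (nat_lit 424) (nat_lit 409))))))))
noncomputable def ec161 : XT := (XT.nd (nat_lit 1404) (nat_lit 7600) (nat_lit 0) (XT.nd (nat_lit 702) (nat_lit 4636) (nat_lit 0) (XT.nd (nat_lit 312) (nat_lit 1748) (nat_lit 0) (XT.nd (nat_lit 156) (nat_lit 0) (nat_lit 76) (XT.nd (nat_lit 78) (nat_lit 0) (nat_lit 0) (XT.lf (nat_lit 1900) (nat_lit 1016747080) (nat_lit 0) (nat_lit 6279707920) (nat_lit 1824) (nat_lit 1016747080) (nat_lit 530) (nat_lit 1) (nat_lit 505) (nat_lit 1) (nat_lit 529) (nat_lit 1) (nat_lit 308) (nat_lit 424) (nat_lit 408)) (XT.lf (nat_lit 1900) (nat_lit 1561055058)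 (nat_lit 76) (nat_lit 3337257853) (nat_lit 0) (nat_lit 3337257853) (nat_lit 530) (nat_lit 1) (nat_lit 506) (nat_lit 1) (nat_lit 505) (nat_lit 1) (nat_lit 309) (nat_lit 424) (nat_lit 407))) (XT.nd (nat_lit 78) (nat_lit 0) (nat_lit 0) (XT.lf (nat_lit 1900) (nat_lit 543770677) (nat_lit 0) (nat_lit 7071717568) (nat_lit 1824) (nat_lit 543770677) (nat_lit 531) (nat_lit 1) (nat_lit 506) (nat_lit 1) (nat_lit 530) (nat_lit 1) (nat_lit 310) (nat_lit 424) (nat_lit 406)) (XT.lf (nat_lit 1900) (nat_lit 576787776) (nat_lit 76) (nat_lit 3753371685) (nat_lit 0) (nat_lit 3753371685) (nat_lit 531) (nat_lit 1) (nat_lit 507) (nat_lit 1) (nat_lit 506) (nat_lit 1) (nat_lit 311) (nat_lit 424) (nat_lit 405)))) (XT.nd (nat_lit 156) (nat_lit 0) (nat_lit 0) (XT.nd (nat_lit 78) (nat_lit 1900) (nat_lit 0) (XT.lf (nat_lit 1900) (nat_lit 36114593) (nat_lit 0) (nat_lit 7936984145) (nat_lit 1824) (nat_lit 36114593) (nat_lit 532) (nat_lit 1) (nat_lit 507) (nat_lit 1)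 (nat_lit 531) (nat_lit 1) (nat_lit 312) (nat_lit 424) (nat_lit 404)) (XT.lf (nat_lit 1976) (nat_lit 3733419646) (nat_lit 0) (nat_lit 468427937) (nat_lit 1900) (nat_lit 3733419646) (nat_lit 508) (nat_lit 1) (nat_lit 482) (nat_lit 1) (nat_lit 507) (nat_lit 1) (nat_lit 313) (nat_lit 424) (nat_lit 403))) (XT.nd (nat_lit 78) (nat_lit 0) (nat_lit 76) (XT.lf (nat_lit 1976) (nat_lit 6861652771) (nat_lit 76) (nat_lit 500519701) (nat_lit 0) (nat_lit 500519701) (nat_lit 508) (nat_lit 1) (nat_lit 483) (nat_lit 1) (nat_lit 482) (nat_lit 1) (nat_lit 314) (nat_lit 424) (nat_lit 402)) (XT.nd (nat_lit 78) (nat_lit 0) (nat_lit 0) (XT.lf (nat_lit 1976) (nat_lit 3111445621) (nat_lit 0) (nat_lit 1567757907) (nat_lit 1900) (nat_lit 3111445621) (nat_lit 509) (nat_lit 1) (nat_lit 483) (nat_lit 1) (nat_lit 508) (nat_lit 1) (nat_lit 315) (nat_lit 424) (nat_lit 401)) (XT.lf (nat_lit 1976) (nat_lit 5586340253) (nat_lit 76) (nat_lit 1066738120) (nat_lit 0) (nat_lit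 1066738120) (nat_lit 509) (nat_lit 1) (nat_lit 484) (nat_lit 1) (nat_lit 483) (nat_lit 1) (nat_lit 316) (nat_lit 424) (nat_lit 400)))))) (XT.nd (nat_lit 312) (nat_lit 2736) (nat_lit 0) (XT.nd (nat_lit 156) (nat_lit 912) (nat_lit 0) (XT.nd (nat_lit 78) (nat_lit 1140) (nat_lit 0) (XT.lf (nat_lit 76) (nat_lit 2462637512) (nat_lit 0) (nat_lit 2724372286) (nat_lit 1900) (nat_lit 2462637512) (nat_lit 485) (nat_lit 1) (nat_lit 484) (nat_lit 1) (nat_lit 509) (nat_lit 1) (nat_lit 317) (nat_lit 424) (nat_lit 399)) (XT.lf (nat_lit 1216) (nat_lit 4259248358) (nat_lit 0) (nat_lit 1660627097) (nat_lit 1140) (nat_lit 1660627097) (nat_lit 485) (nat_lit 1) (nat_lit 469) (nat_lit 1) (nat_lit 484) (nat_lit 1) (nat_lit 318) (nat_lit 424) (nat_lit 398))) (XT.nd (nat_lit 78) (nat_lit 912) (nat_lit 0) (XT.lf (nat_lit 76) (nat_lit 1789037047) (nat_lit 0) (nat_lit 3934086401) (nat_lit 1216) (nat_lit 1789037047) (nat_lit 470) (nat_lit 1) (nat_lit 469) (nat_lit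 1) (nat_lit 485) (nat_lit 1) (nat_lit 319) (nat_lit 424) (nat_lit 397)) (XT.lf (nat_lit 988) (nat_lit 2884374042) (nat_lit 0) (nat_lit 2280138472) (nat_lit 912) (nat_lit 2280138472) (nat_lit 470) (nat_lit 1) (nat_lit 457) (nat_lit 1) (nat_lit 469) (nat_lit 1) (nat_lit 320) (nat_lit 424) (nat_lit 396)))) (XT.nd (nat_lit 156) (nat_lit 1824) (nat_lit 0) (XT.nd (nat_lit 78) (nat_lit 912) (nat_lit 0) (XT.lf (nat_lit 76) (nat_lit 1092587068) (nat_lit 0) (nat_lit 5192916511) (nat_lit 988) (nat_lit 1092587068) (nat_lit 458) (nat_lit 1) (nat_lit 457) (nat_lit 1) (nat_lit 470) (nat_lit 1) (nat_lit 321) (nat_lit 424) (nat_lit 395)) (XT.lf (nat_lit 988) (nat_lit 1465520108) (nat_lit 0) (nat_lit 2923322712) (nat_lit 912) (nat_lit 2923322712) (nat_lit 458) (nat_lit 1) (nat_lit 445) (nat_lit 1) (nat_lit 457) (nat_lit 1) (nat_lit 322) (nat_lit 424) (nat_lit 394))) (XT.nd (nat_lit 78) (nat_lit 1824) (nat_lit 0) (XT.lf (nat_lit 76) (nat_lit 375135756)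 (nat_lit 0) (nat_lit 6497071252) (nat_lit 988) (nat_lit 375135756) (nat_lit 446) (nat_lit 1) (nat_lit 445) (nat_lit 1) (nat_lit 458) (nat_lit 1) (nat_lit 323) (nat_lit 424) (nat_lit 393)) (XT.nd (nat_lit 78) (nat_lit 988) (nat_lit 0) (XT.lf (nat_lit 912) (nat_lit 6303509) (nat_lit 0) (nat_lit 3588324703) (nat_lit 836) (nat_lit 3588324703) (nat_lit 446) (nat_lit 1) (nat_lit 434) (nat_lit 1) (nat_lit 445) (nat_lit 1) (nat_lit 324) (nat_lit 424) (nat_lit 392)) (XT.lf (nat_lit 988) (nat_lit 6401275092) (nat_lit 0) (nat_lit 359180636) (nat_lit 912) (nat_lit 359180636) (nat_lit 434) (nat_lit 1) (nat_lit 421) (nat_lit 1) (nat_lit 433) (nat_lit 1) (nat_lit 325) (nat_lit 424) (nat_lit 391))))))) (XT.nd (nat_lit 702) (nat_lit 3572) (nat_lit 0) (XT.nd (nat_lit 312) (nat_lit 2356) (nat_lit 0) (XT.nd (nat_lit 156) (nat_lit 836) (nat_lit 0) (XT.nd (nat_lit 78) (nat_lit 836) (nat_lit 0) (XT.lf (nat_lit 76) (nat_lit 2793216036) (nat_lit 0) (nat_lit 1470297213)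 (nat_lit 988) (nat_lit 2793216036) (nat_lit 422) (nat_lit 1) (nat_lit 421) (nat_lit 1) (nat_lit 434) (nat_lit 1) (nat_lit 326) (nat_lit 424) (nat_lit 390)) (XT.lf (nat_lit 912) (nat_lit 4777893360) (nat_lit 0) (nat_lit 1108486326) (nat_lit 836) (nat_lit 1108486326) (nat_lit 422) (nat_lit 1) (nat_lit 410) (nat_lit 1) (nat_lit 421) (nat_lit 1) (nat_lit 327) (nat_lit 424) (nat_lit 389))) (XT.nd (nat_lit 78) (nat_lit 836) (nat_lit 0) (XT.lf (nat_lit 76) (nat_lit 1976783334) (nat_lit 0) (nat_lit 2980028651) (nat_lit 912) (nat_lit 1976783334) (nat_lit 411) (nat_lit 1) (nat_lit 410) (nat_lit 1) (nat_lit 422) (nat_lit 1) (nat_lit 328) (nat_lit 424) (nat_lit 388)) (XT.lf (nat_lit 912) (nat_lit 3125797795) (nat_lit 0) (nat_lit 1873671899) (nat_lit 836) (nat_lit 1873671899) (nat_lit 411) (nat_lit 1) (nat_lit 399) (nat_lit 1) (nat_lit 410) (nat_lit 1) (nat_lit 329) (nat_lit 424) (nat_lit 387)))) (XT.nd (nat_lit 156) (nat_lit 1596) (nat_lit 0) (XT.nd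 (nat_lit 78) (nat_lit 760) (nat_lit 0) (XT.lf (nat_lit 76) (nat_lit 1146779518) (nat_lit 0) (nat_lit 4519908302) (nat_lit 912) (nat_lit 1146779518) (nat_lit 400) (nat_lit 1) (nat_lit 399) (nat_lit 1) (nat_lit 411) (nat_lit 1) (nat_lit 330) (nat_lit 424) (nat_lit 386)) (XT.lf (nat_lit 836) (nat_lit 1447902444) (nat_lit 0) (nat_lit 2653238829) (nat_lit 760) (nat_lit 2653238829) (nat_lit 400) (nat_lit 1) (nat_lit 389) (nat_lit 1) (nat_lit 399) (nat_lit 1) (nat_lit 331) (nat_lit 424) (nat_lit 385))) (XT.nd (nat_lit 78) (nat_lit 1596) (nat_lit 0) (XT.lf (nat_lit 76) (nat_lit 304619298) (nat_lit 0) (nat_lit 6087024829) (nat_lit 836) (nat_lit 304619298) (nat_lit 390) (nat_lit 1) (nat_lit 389) (nat_lit 1) (nat_lit 400) (nat_lit 1) (nat_lit 332) (nat_lit 424) (nat_lit 384)) (XT.nd (nat_lit 78) (nat_lit 760) (nat_lit 0) (XT.lf (nat_lit 76) (nat_lit 3194379817) (nat_lit 0) (nat_lit 249708581) (nat_lit 836) (nat_lit 3194379817) (nat_lit 379) (nat_lit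 1) (nat_lit 378) (nat_lit 1) (nat_lit 389) (nat_lit 1) (nat_lit 333) (nat_lit 424) (nat_lit 383)) (XT.lf (nat_lit 836) (nat_lit 5492123684) (nat_lit 0) (nat_lit 544747354) (nat_lit 760) (nat_lit 544747354) (nat_lit 379) (nat_lit 1) (nat_lit 368) (nat_lit 1) (nat_lit 378) (nat_lit 1) (nat_lit 334) (nat_lit 424) (nat_lit 382)))))) (XT.nd (nat_lit 390) (nat_lit 2128) (nat_lit 0) (XT.nd (nat_lit 156) (nat_lit 684) (nat_lit 0) (XT.nd (nat_lit 78) (nat_lit 760) (nat_lit 0) (XT.lf (nat_lit 76) (nat_lit 2288348574) (nat_lit 0) (nat_lit 1948472950) (nat_lit 836) (nat_lit 2288348574) (nat_lit 369) (nat_lit 1) (nat_lit 368) (nat_lit 1) (nat_lit 379) (nat_lit 1) (nat_lit 335) (nat_lit 424) (nat_lit 381)) (XT.lf (nat_lit 836) (nat_lit 3666401254) (nat_lit 0) (nat_lit 1401588015) (nat_lit 760) (nat_lit 1401588015) (nat_lit 369) (nat_lit 1) (nat_lit 358) (nat_lit 1) (nat_lit 368) (nat_lit 1) (nat_lit 336) (nat_lit 424) (nat_lit 380))) (XT.nd (nat_lit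 78) (nat_lit 684) (nat_lit 0) (XT.lf (nat_lit 76) (nat_lit 1374836747) (nat_lit 0) (nat_lit 3664924938) (nat_lit 836) (nat_lit 1374836747) (nat_lit 359) (nat_lit 1) (nat_lit 358) (nat_lit 1) (nat_lit 369) (nat_lit 1) (nat_lit 337) (nat_lit 424) (nat_lit 379)) (XT.nd (nat_lit 78) (nat_lit 0) (nat_lit 0) (XT.lf (nat_lit 760) (nat_lit 1826809441) (nat_lit 0) (nat_lit 2266707692) (nat_lit 684) (nat_lit 2266707692) (nat_lit 359) (nat_lit 1) (nat_lit 349) (nat_lit 1) (nat_lit 358) (nat_lit 1) (nat_lit 338) (nat_lit 424) (nat_lit 378)) (XT.lf (nat_lit 76) (nat_lit 454971342) (nat_lit 0) (nat_lit 5396737463) (nat_lit 760) (nat_lit 454971342) (nat_lit 350) (nat_lit 1) (nat_lit 349) (nat_lit 1) (nat_lit 359) (nat_lit 1) (nat_lit 339) (nat_lit 424) (nat_lit 377))))) (XT.nd (nat_lit 156) (nat_lit 684) (nat_lit 0) (XT.nd (nat_lit 78) (nat_lit 684) (nat_lit 0) (XT.lf (nat_lit 76) (nat_lit 3114677780) (nat_lit 0) (nat_lit 24130460) (nat_lit 760) (nat_lit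 3114677780) (nat_lit 340) (nat_lit 1) (nat_lit 339) (nat_lit 1) (nat_lit 349) (nat_lit 1) (nat_lit 340) (nat_lit 424) (nat_lit 376)) (XT.lf (nat_lit 760) (nat_lit 5266924335) (nat_lit 0) (nat_lit 467087502) (nat_lit 684) (nat_lit 467087502) (nat_lit 340) (nat_lit 1) (nat_lit 330) (nat_lit 1) (nat_lit 339) (nat_lit 1) (nat_lit 341) (nat_lit 424) (nat_lit 375))) (XT.nd (nat_lit 78) (nat_lit 684) (nat_lit 0) (XT.lf (nat_lit 76) (nat_lit 2144242008) (nat_lit 0) (nat_lit 1860571904) (nat_lit 760) (nat_lit 2144242008) (nat_lit 331) (nat_lit 1) (nat_lit 330) (nat_lit 1) (nat_lit 340) (nat_lit 1) (nat_lit 342) (nat_lit 424) (nat_lit 374)) (XT.nd (nat_lit 78) (nat_lit 0) (nat_lit 0) (XT.lf (nat_lit 760) (nat_lit 3316988198) (nat_lit 0) (nat_lit 1390402375) (nat_lit 684) (nat_lit 1390402375) (nat_lit 331) (nat_lit 1) (nat_lit 321) (nat_lit 1) (nat_lit 330) (nat_lit 1) (nat_lit 343) (nat_lit 424) (nat_lit 373)) (XT.lf (nat_lit 76) (nat_lit 1171287254)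 (nat_lit 0) (nat_lit 3704529904) (nat_lit 760) (nat_lit 1171287254) (nat_lit 322) (nat_lit 1) (nat_lit 321) (nat_lit 1) (nat_lit 331) (nat_lit 1) (nat_lit 344) (nat_lit 424) (nat_lit 372))))))))
noncomputable def ec162 : XT := (XT.nd (nat_lit 1404) (nat_lit 5016) (nat_lit 0) (XT.nd (nat_lit 702) (nat_lit 2660) (nat_lit 0) (XT.nd (nat_lit 312) (nat_lit 1824) (nat_lit 0) (XT.nd (nat_lit 156) (nat_lit 1292) (nat_lit 0) (XT.nd (nat_lit 78) (nat_lit 0) (nat_lit 0) (XT.lf (nat_lit 684) (nat_lit 1362895061) (nat_lit 0) (nat_lit 2317018413) (nat_lit 608) (nat_lit 2317018413) (nat_lit 322) (nat_lit 1) (nat_lit 313) (nat_lit 1) (nat_lit 321) (nat_lit 1) (nat_lit 345) (nat_lit 424) (nat_lit 371)) (XT.lf (nat_lit 76) (nat_lit 196699610) (nat_lit 0) (nat_lit 5554166942) (nat_lit 684) (nat_lit 196699610) (nat_lit 314) (nat_lit 1) (nat_lit 313) (nat_lit 1) (nat_lit 322) (nat_lit 1) (nat_lit 346) (nat_lit 424) (nat_lit 370))) (XT.nd (nat_lit 78) (nat_lit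 608) (nat_lit 0) (XT.lf (nat_lit 76) (nat_lit 2656266443) (nat_lit 0) (nat_lit 585841938) (nat_lit 684) (nat_lit 2656266443) (nat_lit 305) (nat_lit 1) (nat_lit 304) (nat_lit 1) (nat_lit 313) (nat_lit 1) (nat_lit 347) (nat_lit 424) (nat_lit 369)) (XT.lf (nat_lit 684) (nat_lit 4302848414) (nat_lit 0) (nat_lit 773561768) (nat_lit 608) (nat_lit 773561768) (nat_lit 305) (nat_lit 1) (nat_lit 296) (nat_lit 1) (nat_lit 304) (nat_lit 1) (nat_lit 348) (nat_lit 424) (nat_lit 368)))) (XT.nd (nat_lit 156) (nat_lit 1216) (nat_lit 0) (XT.nd (nat_lit 78) (nat_lit 608) (nat_lit 0) (XT.lf (nat_lit 76) (nat_lit 1642232996) (nat_lit 0) (nat_lit 2517493421) (nat_lit 684) (nat_lit 1642232996) (nat_lit 297) (nat_lit 1) (nat_lit 296) (nat_lit 1) (nat_lit 305) (nat_lit 1) (nat_lit 349) (nat_lit 424) (nat_lit 367)) (XT.lf (nat_lit 684) (nat_lit 2269489395) (nat_lit 0) (nat_lit 1742537074) (nat_lit 608) (nat_lit 1742537074) (nat_lit 297) (nat_lit 1) (nat_lit 288)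 (nat_lit 1) (nat_lit 296) (nat_lit 1) (nat_lit 350) (nat_lit 424) (nat_lit 366))) (XT.nd (nat_lit 78) (nat_lit 1216) (nat_lit 0) (XT.lf (nat_lit 76) (nat_lit 629692284) (nat_lit 0) (nat_lit 4448417735) (nat_lit 684) (nat_lit 629692284) (nat_lit 289) (nat_lit 1) (nat_lit 288) (nat_lit 1) (nat_lit 297) (nat_lit 1) (nat_lit 351) (nat_lit 424) (nat_lit 365)) (XT.nd (nat_lit 78) (nat_lit 684) (nat_lit 0) (XT.lf (nat_lit 608) (nat_lit 239819814) (nat_lit 0) (nat_lit 2710782148) (nat_lit 532) (nat_lit 2710782148) (nat_lit 289) (nat_lit 1) (nat_lit 281) (nat_lit 1) (nat_lit 288) (nat_lit 1) (nat_lit 352) (nat_lit 424) (nat_lit 364)) (XT.lf (nat_lit 684) (nat_lit 4859313689) (nat_lit 0) (nat_lit 378166429) (nat_lit 608) (nat_lit 378166429) (nat_lit 281) (nat_lit 1) (nat_lit 272) (nat_lit 1) (nat_lit 280) (nat_lit 1) (nat_lit 353) (nat_lit 424) (nat_lit 363)))))) (XT.nd (nat_lit 312) (nat_lit 1596) (nat_lit 0) (XT.nd (nat_lit 156) (nat_lit 532)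 (nat_lit 0) (XT.nd (nat_lit 78) (nat_lit 532) (nat_lit 0) (XT.lf (nat_lit 76) (nat_lit 1904362432) (nat_lit 0) (nat_lit 1761419406) (nat_lit 684) (nat_lit 1904362432) (nat_lit 273) (nat_lit 1) (nat_lit 272) (nat_lit 1) (nat_lit 281) (nat_lit 1) (nat_lit 354) (nat_lit 424) (nat_lit 362)) (XT.lf (nat_lit 608) (nat_lit 2767147536) (nat_lit 0) (nat_lit 1379079719) (nat_lit 532) (nat_lit 1379079719) (nat_lit 273) (nat_lit 1) (nat_lit 265) (nat_lit 1) (nat_lit 272) (nat_lit 1) (nat_lit 355) (nat_lit 424) (nat_lit 361))) (XT.nd (nat_lit 78) (nat_lit 532) (nat_lit 0) (XT.lf (nat_lit 76) (nat_lit 863833905) (nat_lit 0) (nat_lit 3753321706) (nat_lit 608) (nat_lit 863833905) (nat_lit 266) (nat_lit 1) (nat_lit 265) (nat_lit 1) (nat_lit 273) (nat_lit 1) (nat_lit 356) (nat_lit 424) (nat_lit 360)) (XT.lf (nat_lit 608) (nat_lit 683877136) (nat_lit 0) (nat_lit 2376589859) (nat_lit 532) (nat_lit 2376589859) (nat_lit 266) (nat_lit 1) (nat_lit 258) (nat_lit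 1) (nat_lit 265) (nat_lit 1) (nat_lit 357) (nat_lit 424) (nat_lit 359)))) (XT.nd (nat_lit 156) (nat_lit 988) (nat_lit 0) (XT.nd (nat_lit 78) (nat_lit 0) (nat_lit 0) (XT.lf (nat_lit 608) (nat_lit 5052094141) (nat_lit 0) (nat_lit 170856520) (nat_lit 532) (nat_lit 170856520) (nat_lit 258) (nat_lit 1) (nat_lit 250) (nat_lit 1) (nat_lit 257) (nat_lit 1) (nat_lit 358) (nat_lit 424) (nat_lit 358)) (XT.lf (nat_lit 76) (nat_lit 1989730299) (nat_lit 0) (nat_lit 1371201849) (nat_lit 608) (nat_lit 1989730299) (nat_lit 251) (nat_lit 1) (nat_lit 250) (nat_lit 1) (nat_lit 258) (nat_lit 1) (nat_lit 359) (nat_lit 424) (nat_lit 357))) (XT.nd (nat_lit 78) (nat_lit 456) (nat_lit 0) (XT.lf (nat_lit 608) (nat_lit 2918838023) (nat_lit 0) (nat_lit 1194674391) (nat_lit 532) (nat_lit 1194674391) (nat_lit 251) (nat_lit 1) (nat_lit 243) (nat_lit 1) (nat_lit 250) (nat_lit 1) (nat_lit 360) (nat_lit 424) (nat_lit 356)) (XT.nd (nat_lit 78) (nat_lit 456) (nat_lit 0)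 (XT.lf (nat_lit 76) (nat_lit 929840957) (nat_lit 0) (nat_lit 3406483084) (nat_lit 608) (nat_lit 929840957) (nat_lit 244) (nat_lit 1) (nat_lit 243) (nat_lit 1) (nat_lit 251) (nat_lit 1) (nat_lit 361) (nat_lit 424) (nat_lit 355)) (XT.lf (nat_lit 532) (nat_lit 798882500) (nat_lit 0) (nat_lit 2212822608) (nat_lit 456) (nat_lit 2212822608) (nat_lit 244) (nat_lit 1) (nat_lit 237) (nat_lit 1) (nat_lit 243) (nat_lit 1) (nat_lit 362) (nat_lit 424) (nat_lit 354))))))) (XT.nd (nat_lit 702) (nat_lit 2508) (nat_lit 0) (XT.nd (nat_lit 312) (nat_lit 1444) (nat_lit 0) (XT.nd (nat_lit 156) (nat_lit 456) (nat_lit 0) (XT.nd (nat_lit 78) (nat_lit 0) (nat_lit 0) (XT.lf (nat_lit 608) (nat_lit 4938752469) (nat_lit 0) (nat_lit 122393218) (nat_lit 532) (nat_lit 122393218) (nat_lit 237) (nat_lit 1) (nat_lit 229) (nat_lit 1) (nat_lit 236) (nat_lit 1) (nat_lit 363) (nat_lit 424) (nat_lit 353)) (XT.lf (nat_lit 76) (nat_lit 1926412946) (nat_lit 0) (nat_lit 1289784885)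 (nat_lit 608) (nat_lit 1926412946) (nat_lit 230) (nat_lit 1) (nat_lit 229) (nat_lit 1) (nat_lit 237) (nat_lit 1) (nat_lit 364) (nat_lit 424) (nat_lit 352))) (XT.nd (nat_lit 78) (nat_lit 0) (nat_lit 0) (XT.lf (nat_lit 532) (nat_lit 2779706569) (nat_lit 0) (nat_lit 1161306107) (nat_lit 456) (nat_lit 1161306107) (nat_lit 230) (nat_lit 1) (nat_lit 223) (nat_lit 1) (nat_lit 229) (nat_lit 1) (nat_lit 365) (nat_lit 424) (nat_lit 351)) (XT.lf (nat_lit 76) (nat_lit 854610073) (nat_lit 0) (nat_lit 3353235727) (nat_lit 532) (nat_lit 854610073) (nat_lit 224) (nat_lit 1) (nat_lit 223) (nat_lit 1) (nat_lit 230) (nat_lit 1) (nat_lit 366) (nat_lit 424) (nat_lit 350)))) (XT.nd (nat_lit 156) (nat_lit 456) (nat_lit 0) (XT.nd (nat_lit 78) (nat_lit 532) (nat_lit 0) (XT.lf (nat_lit 532) (nat_lit 637662893) (nat_lit 0) (nat_lit 2192639566) (nat_lit 456) (nat_lit 2192639566) (nat_lit 224) (nat_lit 1) (nat_lit 217) (nat_lit 1) (nat_lit 223) (nat_lit 1) (nat_lit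 367) (nat_lit 424) (nat_lit 349)) (XT.lf (nat_lit 532) (nat_lit 4569649224) (nat_lit 0) (nat_lit 207181122) (nat_lit 456) (nat_lit 207181122) (nat_lit 217) (nat_lit 1) (nat_lit 210) (nat_lit 1) (nat_lit 216) (nat_lit 1) (nat_lit 368) (nat_lit 424) (nat_lit 348))) (XT.nd (nat_lit 78) (nat_lit 456) (nat_lit 0) (XT.lf (nat_lit 76) (nat_lit 1738970070) (nat_lit 0) (nat_lit 1467229552) (nat_lit 532) (nat_lit 1738970070) (nat_lit 211) (nat_lit 1) (nat_lit 210) (nat_lit 1) (nat_lit 217) (nat_lit 1) (nat_lit 369) (nat_lit 424) (nat_lit 347)) (XT.nd (nat_lit 78) (nat_lit 0) (nat_lit 0) (XT.lf (nat_lit 532) (nat_lit 2397984291) (nat_lit 0) (nat_lit 1254457978) (nat_lit 456) (nat_lit 1254457978) (nat_lit 211) (nat_lit 1) (nat_lit 204) (nat_lit 1) (nat_lit 210) (nat_lit 1) (nat_lit 370) (nat_lit 424) (nat_lit 346)) (XT.lf (nat_lit 76) (nat_lit 661661678) (nat_lit 0) (nat_lit 3545746443) (nat_lit 532) (nat_lit 661661678) (nat_lit 205) (nat_lit 1)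 (nat_lit 204) (nat_lit 1) (nat_lit 211) (nat_lit 1) (nat_lit 371) (nat_lit 424) (nat_lit 345)))))) (XT.nd (nat_lit 312) (nat_lit 1216) (nat_lit 0) (XT.nd (nat_lit 156) (nat_lit 380) (nat_lit 0) (XT.nd (nat_lit 78) (nat_lit 532) (nat_lit 0) (XT.lf (nat_lit 456) (nat_lit 246406925) (nat_lit 0) (nat_lit 2292558400) (nat_lit 380) (nat_lit 2292558400) (nat_lit 205) (nat_lit 1) (nat_lit 199) (nat_lit 1) (nat_lit 204) (nat_lit 1) (nat_lit 372) (nat_lit 424) (nat_lit 344)) (XT.lf (nat_lit 532) (nat_lit 3988780882) (nat_lit 0) (nat_lit 402844818) (nat_lit 456) (nat_lit 402844818) (nat_lit 199) (nat_lit 1) (nat_lit 192) (nat_lit 1) (nat_lit 198) (nat_lit 1) (nat_lit 373) (nat_lit 424) (nat_lit 343))) (XT.nd (nat_lit 78) (nat_lit 380) (nat_lit 0) (XT.lf (nat_lit 76) (nat_lit 1448854078) (nat_lit 0) (nat_lit 1859886362) (nat_lit 532) (nat_lit 1448854078) (nat_lit 193) (nat_lit 1) (nat_lit 192) (nat_lit 1) (nat_lit 199) (nat_lit 1) (nat_lit 374) (nat_lit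 424) (nat_lit 342)) (XT.lf (nat_lit 456) (nat_lit 1815792920) (nat_lit 0) (nat_lit 1452704367) (nat_lit 380) (nat_lit 1452704367) (nat_lit 193) (nat_lit 1) (nat_lit 187) (nat_lit 1) (nat_lit 192) (nat_lit 1) (nat_lit 375) (nat_lit 424) (nat_lit 341)))) (XT.nd (nat_lit 156) (nat_lit 760) (nat_lit 0) (XT.nd (nat_lit 78) (nat_lit 456) (nat_lit 0) (XT.lf (nat_lit 76) (nat_lit 371533295) (nat_lit 0) (nat_lit 3942220000) (nat_lit 456) (nat_lit 371533295) (nat_lit 188) (nat_lit 1) (nat_lit 187) (nat_lit 1) (nat_lit 193) (nat_lit 1) (nat_lit 376) (nat_lit 424) (nat_lit 340)) (XT.lf (nat_lit 76) (nat_lit 2159675021) (nat_lit 0) (nat_lit 330173714) (nat_lit 456) (nat_lit 2159675021) (nat_lit 182) (nat_lit 1) (nat_lit 181) (nat_lit 1) (nat_lit 187) (nat_lit 1) (nat_lit 377) (nat_lit 424) (nat_lit 339))) (XT.nd (nat_lit 78) (nat_lit 380) (nat_lit 0) (XT.lf (nat_lit 456) (nat_lit 3234522778) (nat_lit 0) (nat_lit 689853476) (nat_lit 380) (nat_lit 689853476)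 (nat_lit 182) (nat_lit 1) (nat_lit 176) (nat_lit 1) (nat_lit 181) (nat_lit 1) (nat_lit 378) (nat_lit 424) (nat_lit 338)) (XT.nd (nat_lit 78) (nat_lit 380) (nat_lit 0) (XT.lf (nat_lit 76) (nat_lit 1074772978) (nat_lit 0) (nat_lit 2429661776) (nat_lit 456) (nat_lit 1074772978) (nat_lit 177) (nat_lit 1) (nat_lit 176) (nat_lit 1) (nat_lit 182) (nat_lit 1) (nat_lit 379) (nat_lit 424) (nat_lit 337)) (XT.lf (nat_lit 456) (nat_lit 1069858573) (nat_lit 0) (nat_lit 1737350221) (nat_lit 380) (nat_lit 1737350221) (nat_lit 177) (nat_lit 1) (nat_lit 171) (nat_lit 1) (nat_lit 176) (nat_lit 1) (nat_lit 380) (nat_lit 424) (nat_lit 336))))))))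
noncomputable def ec163 : XT := (XT.nd (nat_lit 1404) (nat_lit 3344) (nat_lit 0) (XT.nd (nat_lit 702) (nat_lit 1976) (nat_lit 0) (XT.nd (nat_lit 312) (nat_lit 1064) (nat_lit 0) (XT.nd (nat_lit 156) (nat_lit 380) (nat_lit 0) (XT.nd (nat_lit 78) (nat_lit 380) (nat_lit 0) (XT.lf (nat_lit 76) (nat_lit 2128187) (nat_lit 0) (nat_lit 4506194387) (nat_lit 456) (nat_lit 2128187) (nat_lit 172) (nat_lit 1) (nat_lit 171) (nat_lit 1) (nat_lit 177) (nat_lit 1) (nat_lit 381) (nat_lit 424) (nat_lit 335)) (XT.lf (nat_lit 76) (nat_lit 1710113946) (nat_lit 0) (nat_lit 1056063154) (nat_lit 380) (nat_lit 1710113946) (nat_lit 167) (nat_lit 1) (nat_lit 166) (nat_lit 1) (nat_lit 171) (nat_lit 1) (nat_lit 382) (nat_lit 424) (nat_lit 334))) (XT.nd (nat_lit 78) (nat_lit 0) (nat_lit 0) (XT.lf (nat_lit 456) (nat_lit 2340287606) (nat_lit 0) (nat_lit 1051188102) (nat_lit 380) (nat_lit 1051188102) (nat_lit 167) (nat_lit 1) (nat_lit 161) (nat_lit 1) (nat_lit 166) (nat_lit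 1) (nat_lit 383) (nat_lit 424) (nat_lit 333)) (XT.lf (nat_lit 76) (nat_lit 633012013) (nat_lit 0) (nat_lit 3143368012) (nat_lit 456) (nat_lit 633012013) (nat_lit 162) (nat_lit 1) (nat_lit 161) (nat_lit 1) (nat_lit 167) (nat_lit 1) (nat_lit 384) (nat_lit 424) (nat_lit 332)))) (XT.nd (nat_lit 156) (nat_lit 304) (nat_lit 0) (XT.nd (nat_lit 78) (nat_lit 456) (nat_lit 0) (XT.lf (nat_lit 380) (nat_lit 192144387) (nat_lit 0) (nat_lit 2092111389) (nat_lit 304) (nat_lit 2092111389) (nat_lit 162) (nat_lit 1) (nat_lit 157) (nat_lit 1) (nat_lit 161) (nat_lit 1) (nat_lit 385) (nat_lit 424) (nat_lit 331)) (XT.lf (nat_lit 456) (nat_lit 3487459743) (nat_lit 0) (nat_lit 428140268) (nat_lit 380) (nat_lit 428140268) (nat_lit 157) (nat_lit 1) (nat_lit 151) (nat_lit 1) (nat_lit 156) (nat_lit 1) (nat_lit 386) (nat_lit 424) (nat_lit 330))) (XT.nd (nat_lit 78) (nat_lit 304) (nat_lit 0) (XT.lf (nat_lit 76) (nat_lit 1203477702) (nat_lit 0) (nat_lit 1904320415)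 (nat_lit 456) (nat_lit 1203477702) (nat_lit 152) (nat_lit 1) (nat_lit 151) (nat_lit 1) (nat_lit 157) (nat_lit 1) (nat_lit 387) (nat_lit 424) (nat_lit 329)) (XT.nd (nat_lit 78) (nat_lit 0) (nat_lit 0) (XT.lf (nat_lit 380) (nat_lit 1335109000) (nat_lit 0) (nat_lit 1472046630) (nat_lit 304) (nat_lit 1472046630) (nat_lit 152) (nat_lit 1) (nat_lit 147) (nat_lit 1) (nat_lit 151) (nat_lit 1) (nat_lit 388) (nat_lit 424) (nat_lit 328)) (XT.lf (nat_lit 76) (nat_lit 137718705) (nat_lit 0) (nat_lit 3972146815) (nat_lit 380) (nat_lit 137718705) (nat_lit 148) (nat_lit 1) (nat_lit 147) (nat_lit 1) (nat_lit 152) (nat_lit 1) (nat_lit 389) (nat_lit 424) (nat_lit 327)))))) (XT.nd (nat_lit 312) (nat_lit 988) (nat_lit 0) (XT.nd (nat_lit 156) (nat_lit 304) (nat_lit 0) (XT.nd (nat_lit 78) (nat_lit 304) (nat_lit 0) (XT.lf (nat_lit 76) (nat_lit 1718368986) (nat_lit 0) (nat_lit 779233248) (nat_lit 380) (nat_lit 1718368986) (nat_lit 143) (nat_lit 1) (nat_lit 142)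 (nat_lit 1) (nat_lit 147) (nat_lit 1) (nat_lit 390) (nat_lit 424) (nat_lit 326)) (XT.lf (nat_lit 380) (nat_lit 2368333644) (nat_lit 0) (nat_lit 908236774) (nat_lit 304) (nat_lit 908236774) (nat_lit 143) (nat_lit 1) (nat_lit 138) (nat_lit 1) (nat_lit 142) (nat_lit 1) (nat_lit 391) (nat_lit 424) (nat_lit 325))) (XT.nd (nat_lit 78) (nat_lit 304) (nat_lit 0) (XT.lf (nat_lit 76) (nat_lit 652597045) (nat_lit 0) (nat_lit 2848752596) (nat_lit 380) (nat_lit 652597045) (nat_lit 139) (nat_lit 1) (nat_lit 138) (nat_lit 1) (nat_lit 143) (nat_lit 1) (nat_lit 392) (nat_lit 424) (nat_lit 324)) (XT.lf (nat_lit 380) (nat_lit 244158618) (nat_lit 0) (nat_lit 1939582592) (nat_lit 304) (nat_lit 1939582592) (nat_lit 139) (nat_lit 1) (nat_lit 134) (nat_lit 1) (nat_lit 138) (nat_lit 1) (nat_lit 393) (nat_lit 424) (nat_lit 323)))) (XT.nd (nat_lit 156) (nat_lit 608) (nat_lit 0) (XT.nd (nat_lit 78) (nat_lit 0) (nat_lit 0) (XT.lf (nat_lit 380) (nat_lit 3300620578)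 (nat_lit 0) (nat_lit 396220613) (nat_lit 304) (nat_lit 396220613) (nat_lit 134) (nat_lit 1) (nat_lit 129) (nat_lit 1) (nat_lit 133) (nat_lit 1) (nat_lit 394) (nat_lit 424) (nat_lit 322)) (XT.lf (nat_lit 76) (nat_lit 1117963746) (nat_lit 0) (nat_lit 1827006006) (nat_lit 380) (nat_lit 1117963746) (nat_lit 130) (nat_lit 1) (nat_lit 129) (nat_lit 1) (nat_lit 134) (nat_lit 1) (nat_lit 395) (nat_lit 424) (nat_lit 321))) (XT.nd (nat_lit 78) (nat_lit 304) (nat_lit 0) (XT.lf (nat_lit 380) (nat_lit 1180090964) (nat_lit 0) (nat_lit 1426534648) (nat_lit 304) (nat_lit 1426534648) (nat_lit 130) (nat_lit 1) (nat_lit 125) (nat_lit 1) (nat_lit 129) (nat_lit 1) (nat_lit 396) (nat_lit 424) (nat_lit 320)) (XT.nd (nat_lit 78) (nat_lit 304) (nat_lit 0) (XT.lf (nat_lit 76) (nat_lit 68570970) (nat_lit 0) (nat_lit 3866675632) (nat_lit 380) (nat_lit 68570970) (nat_lit 126) (nat_lit 1) (nat_lit 125) (nat_lit 1) (nat_lit 130) (nat_lit 1) (nat_lit 397) (nat_lit 424)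 (nat_lit 319)) (XT.lf (nat_lit 76) (nat_lit 1537791330) (nat_lit 0) (nat_lit 898850505) (nat_lit 304) (nat_lit 1537791330) (nat_lit 122) (nat_lit 1) (nat_lit 121) (nat_lit 1) (nat_lit 125) (nat_lit 1) (nat_lit 398) (nat_lit 424) (nat_lit 318))))))) (XT.nd (nat_lit 702) (nat_lit 1596) (nat_lit 0) (XT.nd (nat_lit 312) (nat_lit 836) (nat_lit 0) (XT.nd (nat_lit 156) (nat_lit 608) (nat_lit 0) (XT.nd (nat_lit 78) (nat_lit 0) (nat_lit 0) (XT.lf (nat_lit 380) (nat_lit 2026031582) (nat_lit 0) (nat_lit 959721177) (nat_lit 304) (nat_lit 959721177) (nat_lit 122) (nat_lit 1) (nat_lit 117) (nat_lit 1) (nat_lit 121) (nat_lit 1) (nat_lit 399) (nat_lit 424) (nat_lit 317)) (XT.lf (nat_lit 76) (nat_lit 491821254) (nat_lit 0) (nat_lit 2933176942) (nat_lit 380) (nat_lit 491821254) (nat_lit 118) (nat_lit 1) (nat_lit 117) (nat_lit 1) (nat_lit 122) (nat_lit 1) (nat_lit 400) (nat_lit 424) (nat_lit 316))) (XT.nd (nat_lit 78) (nat_lit 304) (nat_lit 0) (XT.lf (nat_lit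 76) (nat_lit 1915745837) (nat_lit 0) (nat_lit 56849283) (nat_lit 304) (nat_lit 1915745837) (nat_lit 114) (nat_lit 1) (nat_lit 113) (nat_lit 1) (nat_lit 117) (nat_lit 1) (nat_lit 401) (nat_lit 424) (nat_lit 315)) (XT.lf (nat_lit 380) (nat_lit 2789200738) (nat_lit 0) (nat_lit 535480753) (nat_lit 304) (nat_lit 535480753) (nat_lit 114) (nat_lit 1) (nat_lit 109) (nat_lit 1) (nat_lit 113) (nat_lit 1) (nat_lit 402) (nat_lit 424) (nat_lit 314)))) (XT.nd (nat_lit 156) (nat_lit 608) (nat_lit 0) (XT.nd (nat_lit 78) (nat_lit 228) (nat_lit 0) (XT.lf (nat_lit 76) (nat_lit 874437675) (nat_lit 0) (nat_lit 2083298519) (nat_lit 380) (nat_lit 874437675) (nat_lit 110) (nat_lit 1) (nat_lit 109) (nat_lit 1) (nat_lit 114) (nat_lit 1) (nat_lit 403) (nat_lit 424) (nat_lit 313)) (XT.lf (nat_lit 304) (nat_lit 715242588) (nat_lit 0) (nat_lit 1544611476) (nat_lit 228) (nat_lit 1544611476) (nat_lit 110) (nat_lit 1) (nat_lit 106) (nat_lit 1) (nat_lit 109) (nat_lit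 1) (nat_lit 404) (nat_lit 424) (nat_lit 312))) (XT.nd (nat_lit 78) (nat_lit 228) (nat_lit 0) (XT.lf (nat_lit 380) (nat_lit 3476261646) (nat_lit 0) (nat_lit 150433536) (nat_lit 304) (nat_lit 150433536) (nat_lit 106) (nat_lit 1) (nat_lit 101) (nat_lit 1) (nat_lit 105) (nat_lit 1) (nat_lit 405) (nat_lit 424) (nat_lit 311)) (XT.nd (nat_lit 78) (nat_lit 228) (nat_lit 0) (XT.lf (nat_lit 76) (nat_lit 1219679422) (nat_lit 0) (nat_lit 1310426609) (nat_lit 380) (nat_lit 1219679422) (nat_lit 102) (nat_lit 1) (nat_lit 101) (nat_lit 1) (nat_lit 106) (nat_lit 1) (nat_lit 406) (nat_lit 424) (nat_lit 310)) (XT.lf (nat_lit 304) (nat_lit 1414166242) (nat_lit 0) (nat_lit 1154321522) (nat_lit 228) (nat_lit 1154321522) (nat_lit 102) (nat_lit 1) (nat_lit 98) (nat_lit 1) (nat_lit 101) (nat_lit 1) (nat_lit 407) (nat_lit 424) (nat_lit 309)))))) (XT.nd (nat_lit 390) (nat_lit 836) (nat_lit 0) (XT.nd (nat_lit 156) (nat_lit 456) (nat_lit 0) (XT.nd (nat_lit 78) (nat_lit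 304) (nat_lit 0) (XT.lf (nat_lit 76) (nat_lit 199855058) (nat_lit 0) (nat_lit 3296468313) (nat_lit 304) (nat_lit 199855058) (nat_lit 99) (nat_lit 1) (nat_lit 98) (nat_lit 1) (nat_lit 102) (nat_lit 1) (nat_lit 408) (nat_lit 424) (nat_lit 308)) (XT.lf (nat_lit 76) (nat_lit 1530554251) (nat_lit 0) (nat_lit 608455944) (nat_lit 304) (nat_lit 1530554251) (nat_lit 95) (nat_lit 1) (nat_lit 94) (nat_lit 1) (nat_lit 98) (nat_lit 1) (nat_lit 409) (nat_lit 424) (nat_lit 307))) (XT.nd (nat_lit 78) (nat_lit 228) (nat_lit 0) (XT.lf (nat_lit 304) (nat_lit 2045091259) (nat_lit 0) (nat_lit 799100221) (nat_lit 228) (nat_lit 799100221) (nat_lit 95) (nat_lit 1) (nat_lit 91) (nat_lit 1) (nat_lit 94) (nat_lit 1) (nat_lit 410) (nat_lit 424) (nat_lit 306)) (XT.nd (nat_lit 78) (nat_lit 228) (nat_lit 0) (XT.lf (nat_lit 76) (nat_lit 517726135) (nat_lit 0) (nat_lit 2581816276) (nat_lit 304) (nat_lit 517726135) (nat_lit 92) (nat_lit 1) (nat_lit 91) (nat_lit 1) (nat_lit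 95) (nat_lit 1) (nat_lit 411) (nat_lit 424) (nat_lit 305)) (XT.lf (nat_lit 304) (nat_lit 28624493) (nat_lit 0) (nat_lit 1781399053) (nat_lit 228) (nat_lit 1781399053) (nat_lit 92) (nat_lit 1) (nat_lit 88) (nat_lit 1) (nat_lit 91) (nat_lit 1) (nat_lit 412) (nat_lit 424) (nat_lit 304))))) (XT.nd (nat_lit 156) (nat_lit 532) (nat_lit 0) (XT.nd (nat_lit 78) (nat_lit 0) (nat_lit 0) (XT.lf (nat_lit 304) (nat_lit 2613485699) (nat_lit 0) (nat_lit 476172107) (nat_lit 228) (nat_lit 476172107) (nat_lit 88) (nat_lit 1) (nat_lit 84) (nat_lit 1) (nat_lit 87) (nat_lit 1) (nat_lit 413) (nat_lit 424) (nat_lit 303)) (XT.lf (nat_lit 76) (nat_lit 804858681) (nat_lit 0) (nat_lit 1930678670) (nat_lit 304) (nat_lit 804858681) (nat_lit 85) (nat_lit 1) (nat_lit 84) (nat_lit 1) (nat_lit 88) (nat_lit 1) (nat_lit 414) (nat_lit 424) (nat_lit 302))) (XT.nd (nat_lit 78) (nat_lit 304) (nat_lit 0) (XT.lf (nat_lit 304) (nat_lit 612928923) (nat_lit 0) (nat_lit 1451141437)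 (nat_lit 228) (nat_lit 1451141437) (nat_lit 85) (nat_lit 1) (nat_lit 81) (nat_lit 1) (nat_lit 84) (nat_lit 1) (nat_lit 415) (nat_lit 424) (nat_lit 301)) (XT.nd (nat_lit 78) (nat_lit 0) (nat_lit 0) (XT.lf (nat_lit 304) (nat_lit 3124395529) (nat_lit 0) (nat_lit 182975131) (nat_lit 228) (nat_lit 182975131) (nat_lit 81) (nat_lit 1) (nat_lit 77) (nat_lit 1) (nat_lit 80) (nat_lit 1) (nat_lit 416) (nat_lit 424) (nat_lit 300)) (XT.lf (nat_lit 76) (nat_lit 1063721637) (nat_lit 0) (nat_lit 1338040338) (nat_lit 304) (nat_lit 1063721637) (nat_lit 78) (nat_lit 1) (nat_lit 77) (nat_lit 1) (nat_lit 81) (nat_lit 1) (nat_lit 417) (nat_lit 424) (nat_lit 299))))))))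
noncomputable def ec164 : XT := (XT.nd (nat_lit 49530) (nat_lit 0) (nat_lit 34504) (XT.nd (nat_lit 702) (nat_lit 1216) (nat_lit 0) (XT.nd (nat_lit 312) (nat_lit 608) (nat_lit 0) (XT.nd (nat_lit 156) (nat_lit 456) (nat_lit 0) (XT.nd (nat_lit 78) (nat_lit 0) (nat_lit 0) (XT.lf (nat_lit 304) (nat_lit 1141236206) (nat_lit 0) (nat_lit 1149850056) (nat_lit 228) (nat_lit 1149850056) (nat_lit 78) (nat_lit 1) (nat_lit 74) (nat_lit 1) (nat_lit 77) (nat_lit 1) (nat_lit 418) (nat_lit 424) (nat_lit 298)) (XT.lf (nat_lit 76) (nat_lit 83404338) (nat_lit 0) (nat_lit 3249913477) (nat_lit 304) (nat_lit 83404338) (nat_lit 75) (nat_lit 1) (nat_lit 74) (nat_lit 1) (nat_lit 78) (nat_lit 1) (nat_lit 419) (nat_lit 424) (nat_lit 297))) (XT.nd (nat_lit 78) (nat_lit 228) (nat_lit 0) (XT.lf (nat_lit 76) (nat_lit 1296593414) (nat_lit 0) (nat_lit 799271543) (nat_lit 228) (nat_lit 1296593414) (nat_lit 72) (nat_lit 1) (nat_lit 71) (nat_lit 1) (nat_lit 74) (nat_lit 1)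 (nat_lit 420) (nat_lit 424) (nat_lit 296)) (XT.lf (nat_lit 304) (nat_lit 1618036265) (nat_lit 0) (nat_lit 875244183) (nat_lit 228) (nat_lit 875244183) (nat_lit 72) (nat_lit 1) (nat_lit 68) (nat_lit 1) (nat_lit 71) (nat_lit 1) (nat_lit 421) (nat_lit 424) (nat_lit 295)))) (XT.nd (nat_lit 156) (nat_lit 380) (nat_lit 0) (XT.nd (nat_lit 78) (nat_lit 228) (nat_lit 0) (XT.lf (nat_lit 76) (nat_lit 325645414) (nat_lit 0) (nat_lit 2693559244) (nat_lit 304) (nat_lit 325645414) (nat_lit 69) (nat_lit 1) (nat_lit 68) (nat_lit 1) (nat_lit 72) (nat_lit 1) (nat_lit 422) (nat_lit 424) (nat_lit 294)) (XT.lf (nat_lit 76) (nat_lit 1505576449) (nat_lit 0) (nat_lit 310098552) (nat_lit 228) (nat_lit 1505576449) (nat_lit 66) (nat_lit 1) (nat_lit 65) (nat_lit 1) (nat_lit 68) (nat_lit 1) (nat_lit 423) (nat_lit 424) (nat_lit 293))) (XT.nd (nat_lit 78) (nat_lit 152) (nat_lit 0) (XT.lf (nat_lit 304) (nat_lit 2047472673) (nat_lit 0) (nat_lit 625218244) (nat_lit 228)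 (nat_lit 625218244) (nat_lit 66) (nat_lit 1) (nat_lit 62) (nat_lit 1) (nat_lit 65) (nat_lit 1) (nat_lit 424) (nat_lit 424) (nat_lit 292)) (XT.nd (nat_lit 78) (nat_lit 152) (nat_lit 0) (XT.lf (nat_lit 76) (nat_lit 544564357) (nat_lit 0) (nat_lit 2185629978) (nat_lit 304) (nat_lit 544564357) (nat_lit 63) (nat_lit 1) (nat_lit 62) (nat_lit 1) (nat_lit 66) (nat_lit 1) (nat_lit 425) (nat_lit 424) (nat_lit 291)) (XT.lf (nat_lit 228) (nat_lit 135196672) (nat_lit 0) (nat_lit 1558291770) (nat_lit 152) (nat_lit 1558291770) (nat_lit 63) (nat_lit 1) (nat_lit 60) (nat_lit 1) (nat_lit 62) (nat_lit 1) (nat_lit 426) (nat_lit 424) (nat_lit 290)))))) (XT.nd (nat_lit 312) (nat_lit 456) (nat_lit 0) (XT.nd (nat_lit 156) (nat_lit 456) (nat_lit 0) (XT.nd (nat_lit 78) (nat_lit 0) (nat_lit 0) (XT.lf (nat_lit 304) (nat_lit 2433369117) (nat_lit 0) (nat_lit 397828456) (nat_lit 228) (nat_lit 397828456) (nat_lit 60) (nat_lit 1) (nat_lit 56) (nat_lit 1) (nat_lit 59)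 (nat_lit 1) (nat_lit 427) (nat_lit 424) (nat_lit 289)) (XT.lf (nat_lit 76) (nat_lit 742032831) (nat_lit 0) (nat_lit 1722319151) (nat_lit 304) (nat_lit 742032831) (nat_lit 57) (nat_lit 1) (nat_lit 56) (nat_lit 1) (nat_lit 60) (nat_lit 1) (nat_lit 428) (nat_lit 424) (nat_lit 288))) (XT.nd (nat_lit 78) (nat_lit 304) (nat_lit 0) (XT.lf (nat_lit 228) (nat_lit 542044956) (nat_lit 0) (nat_lit 1320960206) (nat_lit 152) (nat_lit 1320960206) (nat_lit 57) (nat_lit 1) (nat_lit 54) (nat_lit 1) (nat_lit 56) (nat_lit 1) (nat_lit 429) (nat_lit 424) (nat_lit 287)) (XT.lf (nat_lit 304) (nat_lit 2779253843) (nat_lit 0) (nat_lit 191280470) (nat_lit 228) (nat_lit 191280470) (nat_lit 54) (nat_lit 1) (nat_lit 50) (nat_lit 1) (nat_lit 53) (nat_lit 1) (nat_lit 430) (nat_lit 424) (nat_lit 286)))) (XT.nd (nat_lit 156) (nat_lit 304) (nat_lit 0) (XT.nd (nat_lit 78) (nat_lit 152) (nat_lit 0) (XT.lf (nat_lit 76) (nat_lit 919778089) (nat_lit 0) (nat_lit 1300112447)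 (nat_lit 304) (nat_lit 919778089) (nat_lit 51) (nat_lit 1) (nat_lit 50) (nat_lit 1) (nat_lit 54) (nat_lit 1) (nat_lit 431) (nat_lit 424) (nat_lit 285)) (XT.lf (nat_lit 228) (nat_lit 909730586) (nat_lit 0) (nat_lit 1104029202) (nat_lit 152) (nat_lit 1104029202) (nat_lit 51) (nat_lit 1) (nat_lit 48) (nat_lit 1) (nat_lit 50) (nat_lit 1) (nat_lit 432) (nat_lit 424) (nat_lit 284))) (XT.nd (nat_lit 48204) (nat_lit 0) (nat_lit 34428) (XT.lf (nat_lit 304) (nat_lit 3088382240) (nat_lit 0) (nat_lit 3917971) (nat_lit 228) (nat_lit 3917971) (nat_lit 48) (nat_lit 1) (nat_lit 44) (nat_lit 1) (nat_lit 47) (nat_lit 1) (nat_lit 433) (nat_lit 424) (nat_lit 283)) (XT.nd (nat_lit 78) (nat_lit 0) (nat_lit 0) (XT.lf (nat_lit 1900) (nat_lit 1644345539) (nat_lit 0) (nat_lit 1658096092) (nat_lit 1900) (nat_lit 1644345539) (nat_lit 522) (nat_lit 1) (nat_lit 497) (nat_lit 0) (nat_lit 522) (nat_lit 0) (nat_lit 290) (nat_lit 425) (nat_lit 425)) (XT.lf (nat_lit 1900)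 (nat_lit 6501989494) (nat_lit 76) (nat_lit 1647187565) (nat_lit 0) (nat_lit 1647187565) (nat_lit 522) (nat_lit 1) (nat_lit 498) (nat_lit 1) (nat_lit 497) (nat_lit 0) (nat_lit 291) (nat_lit 425) (nat_lit 424))))))) (XT.nd (nat_lit 702) (nat_lit 0) (nat_lit 304) (XT.nd (nat_lit 312) (nat_lit 0) (nat_lit 152) (XT.nd (nat_lit 156) (nat_lit 0) (nat_lit 76) (XT.nd (nat_lit 78) (nat_lit 0) (nat_lit 0) (XT.lf (nat_lit 1900) (nat_lit 3192507791) (nat_lit 0) (nat_lit 3315201091) (nat_lit 1824) (nat_lit 3192507791) (nat_lit 523) (nat_lit 1) (nat_lit 498) (nat_lit 1) (nat_lit 522) (nat_lit 1) (nat_lit 292) (nat_lit 425) (nat_lit 423)) (XT.lf (nat_lit 1900) (nat_lit 6248524744) (nat_lit 76) (nat_lit 1678500787) (nat_lit 0) (nat_lit 1678500787) (nat_lit 523) (nat_lit 1) (nat_lit 499) (nat_lit 1) (nat_lit 498) (nat_lit 1) (nat_lit 293) (nat_lit 425) (nat_lit 422))) (XT.nd (nat_lit 78) (nat_lit 0) (nat_lit 0) (XT.lf (nat_lit 1900) (nat_lit 3036664618)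 (nat_lit 0) (nat_lit 3438552009) (nat_lit 1824) (nat_lit 3036664618) (nat_lit 524) (nat_lit 1) (nat_lit 499) (nat_lit 1) (nat_lit 523) (nat_lit 1) (nat_lit 294) (nat_lit 425) (nat_lit 421)) (XT.lf (nat_lit 1900) (nat_lit 5878946884) (nat_lit 76) (nat_lit 1770340949) (nat_lit 0) (nat_lit 1770340949) (nat_lit 524) (nat_lit 1) (nat_lit 500) (nat_lit 1) (nat_lit 499) (nat_lit 1) (nat_lit 295) (nat_lit 425) (nat_lit 420)))) (XT.nd (nat_lit 156) (nat_lit 0) (nat_lit 76) (XT.nd (nat_lit 78) (nat_lit 0) (nat_lit 0) (XT.lf (nat_lit 1900) (nat_lit 2824721263) (nat_lit 0) (nat_lit 3678979262) (nat_lit 1824) (nat_lit 2824721263) (nat_lit 525) (nat_lit 1) (nat_lit 500) (nat_lit 1) (nat_lit 524) (nat_lit 1) (nat_lit 296) (nat_lit 425) (nat_lit 419)) (XT.lf (nat_lit 1900) (nat_lit 5400234444) (nat_lit 76) (nat_lit 1919147070) (nat_lit 0) (nat_lit 1919147070) (nat_lit 525) (nat_lit 1) (nat_lit 501) (nat_lit 1) (nat_lit 500) (nat_lit 1) (nat_lit 297)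 (nat_lit 425) (nat_lit 418))) (XT.nd (nat_lit 78) (nat_lit 0) (nat_lit 0) (XT.lf (nat_lit 1900) (nat_lit 2560074826) (nat_lit 0) (nat_lit 4029547101) (nat_lit 1824) (nat_lit 2560074826) (nat_lit 526) (nat_lit 1) (nat_lit 501) (nat_lit 1) (nat_lit 525) (nat_lit 1) (nat_lit 298) (nat_lit 425) (nat_lit 417)) (XT.nd (nat_lit 78) (nat_lit 0) (nat_lit 76) (XT.lf (nat_lit 1900) (nat_lit 4819046541) (nat_lit 76) (nat_lit 2121520187) (nat_lit 0) (nat_lit 2121520187) (nat_lit 526) (nat_lit 1) (nat_lit 502) (nat_lit 1) (nat_lit 501) (nat_lit 1) (nat_lit 299) (nat_lit 425) (nat_lit 416)) (XT.lf (nat_lit 1900) (nat_lit 2245966598) (nat_lit 0) (nat_lit 4483635952) (nat_lit 1824) (nat_lit 2245966598) (nat_lit 527) (nat_lit 1) (nat_lit 502) (nat_lit 1) (nat_lit 526) (nat_lit 1) (nat_lit 300) (nat_lit 425) (nat_lit 415)))))) (XT.nd (nat_lit 312) (nat_lit 0) (nat_lit 152) (XT.nd (nat_lit 156) (nat_lit 0) (nat_lit 76) (XT.nd (nat_lit 78) (nat_lit 0) (nat_lit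 76) (XT.lf (nat_lit 1900) (nat_lit 4141736234) (nat_lit 76) (nat_lit 2374216594) (nat_lit 0) (nat_lit 2374216594) (nat_lit 527) (nat_lit 1) (nat_lit 503) (nat_lit 1) (nat_lit 502) (nat_lit 1) (nat_lit 301) (nat_lit 425) (nat_lit 414)) (XT.lf (nat_lit 1900) (nat_lit 1885488581) (nat_lit 0) (nat_lit 5034929223) (nat_lit 1824) (nat_lit 1885488581) (nat_lit 528) (nat_lit 1) (nat_lit 503) (nat_lit 1) (nat_lit 527) (nat_lit 1) (nat_lit 302) (nat_lit 425) (nat_lit 413))) (XT.nd (nat_lit 78) (nat_lit 0) (nat_lit 76) (XT.lf (nat_lit 1900) (nat_lit 3374363342) (nat_lit 76) (nat_lit 2674141360) (nat_lit 0) (nat_lit 2674141360) (nat_lit 528) (nat_lit 1) (nat_lit 504) (nat_lit 1) (nat_lit 503) (nat_lit 1) (nat_lit 303) (nat_lit 425) (nat_lit 412)) (XT.lf (nat_lit 1900) (nat_lit 1481589743) (nat_lit 0) (nat_lit 5677400638) (nat_lit 1824) (nat_lit 1481589743) (nat_lit 529) (nat_lit 1) (nat_lit 504) (nat_lit 1) (nat_lit 528) (nat_lit 1) (nat_lit 304)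 (nat_lit 425) (nat_lit 411)))) (XT.nd (nat_lit 156) (nat_lit 0) (nat_lit 76) (XT.nd (nat_lit 78) (nat_lit 0) (nat_lit 76) (XT.lf (nat_lit 1900) (nat_lit 2522706738) (nat_lit 76) (nat_lit 3018342101) (nat_lit 0) (nat_lit 3018342101) (nat_lit 529) (nat_lit 1) (nat_lit 505) (nat_lit 1) (nat_lit 504) (nat_lit 1) (nat_lit 305) (nat_lit 425) (nat_lit 410)) (XT.lf (nat_lit 1900) (nat_lit 1037082022) (nat_lit 0) (nat_lit 6405302079) (nat_lit 1824) (nat_lit 1037082022) (nat_lit 530) (nat_lit 1) (nat_lit 505) (nat_lit 1) (nat_lit 529) (nat_lit 1) (nat_lit 306) (nat_lit 425) (nat_lit 409))) (XT.nd (nat_lit 78) (nat_lit 0) (nat_lit 76) (XT.lf (nat_lit 1900) (nat_lit 1592276159) (nat_lit 76) (nat_lit 3404003010) (nat_lit 0) (nat_lit 3404003010) (nat_lit 530) (nat_lit 1) (nat_lit 506) (nat_lit 1) (nat_lit 505) (nat_lit 1) (nat_lit 307) (nat_lit 425) (nat_lit 408)) (XT.nd (nat_lit 78) (nat_lit 0) (nat_lit 0) (XT.lf (nat_lit 1900) (nat_lit 554646091)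 (nat_lit 0) (nat_lit 7213151919) (nat_lit 1824) (nat_lit 554646091) (nat_lit 531) (nat_lit 1) (nat_lit 506) (nat_lit 1) (nat_lit 530) (nat_lit 1) (nat_lit 308) (nat_lit 425) (nat_lit 407)) (XT.lf (nat_lit 1900) (nat_lit 588323531) (nat_lit 76) (nat_lit 3828439119) (nat_lit 0) (nat_lit 3828439119) (nat_lit 531) (nat_lit 1) (nat_lit 507) (nat_lit 1) (nat_lit 506) (nat_lit 1) (nat_lit 309) (nat_lit 425) (nat_lit 406))))))))
noncomputable def ec165 : XT := (XT.nd (nat_lit 1404) (nat_lit 7828) (nat_lit 0) (XT.nd (nat_lit 702) (nat_lit 4408) (nat_lit 0) (XT.nd (nat_lit 312) (nat_lit 1900) (nat_lit 0) (XT.nd (nat_lit 156) (nat_lit 0) (nat_lit 0) (XT.nd (nat_lit 78) (nat_lit 1900) (nat_lit 0) (XT.lf (nat_lit 1900) (nat_lit 36836885) (nat_lit 0) (nat_lit 8095723828) (nat_lit 1824) (nat_lit 36836885) (nat_lit 532) (nat_lit 1) (nat_lit 507) (nat_lit 1) (nat_lit 531) (nat_lit 1) (nat_lit 310) (nat_lit 425) (nat_lit 405)) (XT.lf (nat_lit 1976) (nat_lit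 3808088039) (nat_lit 0) (nat_lit 477796496) (nat_lit 1900) (nat_lit 3808088039) (nat_lit 508) (nat_lit 1) (nat_lit 482) (nat_lit 1) (nat_lit 507) (nat_lit 1) (nat_lit 311) (nat_lit 425) (nat_lit 404))) (XT.nd (nat_lit 78) (nat_lit 0) (nat_lit 76) (XT.lf (nat_lit 1976) (nat_lit 6998885827) (nat_lit 76) (nat_lit 510530095) (nat_lit 0) (nat_lit 510530095) (nat_lit 508) (nat_lit 1) (nat_lit 483) (nat_lit 1) (nat_lit 482) (nat_lit 1) (nat_lit 312) (nat_lit 425) (nat_lit 403)) (XT.lf (nat_lit 1976) (nat_lit 3173674534) (nat_lit 0) (nat_lit 1599113065) (nat_lit 1900) (nat_lit 3173674534) (nat_lit 509) (nat_lit 1) (nat_lit 483) (nat_lit 1) (nat_lit 508) (nat_lit 1) (nat_lit 313) (nat_lit 425) (nat_lit 402)))) (XT.nd (nat_lit 156) (nat_lit 1976) (nat_lit 0) (XT.nd (nat_lit 78) (nat_lit 0) (nat_lit 76) (XT.lf (nat_lit 1976) (nat_lit 5698067058) (nat_lit 76) (nat_lit 1088072883) (nat_lit 0) (nat_lit 1088072883) (nat_lit 509) (nat_lit 1) (nat_lit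 484) (nat_lit 1) (nat_lit 483) (nat_lit 1) (nat_lit 314) (nat_lit 425) (nat_lit 401)) (XT.lf (nat_lit 76) (nat_lit 2511890262) (nat_lit 0) (nat_lit 2778859732) (nat_lit 1900) (nat_lit 2511890262) (nat_lit 485) (nat_lit 1) (nat_lit 484) (nat_lit 1) (nat_lit 509) (nat_lit 1) (nat_lit 315) (nat_lit 425) (nat_lit 400))) (XT.nd (nat_lit 78) (nat_lit 912) (nat_lit 0) (XT.lf (nat_lit 1216) (nat_lit 4344433325) (nat_lit 0) (nat_lit 1693839639) (nat_lit 1140) (nat_lit 1693839639) (nat_lit 485) (nat_lit 1) (nat_lit 469) (nat_lit 1) (nat_lit 484) (nat_lit 1) (nat_lit 316) (nat_lit 425) (nat_lit 399)) (XT.nd (nat_lit 78) (nat_lit 912) (nat_lit 0) (XT.lf (nat_lit 76) (nat_lit 1824817788) (nat_lit 0) (nat_lit 4012768129) (nat_lit 1216) (nat_lit 1824817788) (nat_lit 470) (nat_lit 1) (nat_lit 469) (nat_lit 1) (nat_lit 485) (nat_lit 1) (nat_lit 317) (nat_lit 425) (nat_lit 398)) (XT.lf (nat_lit 988) (nat_lit 2942061522) (nat_lit 0) (nat_lit 2325741241)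 (nat_lit 912) (nat_lit 2325741241) (nat_lit 470) (nat_lit 1) (nat_lit 457) (nat_lit 1) (nat_lit 469) (nat_lit 1) (nat_lit 318) (nat_lit 425) (nat_lit 397)))))) (XT.nd (nat_lit 312) (nat_lit 2660) (nat_lit 0) (XT.nd (nat_lit 156) (nat_lit 836) (nat_lit 0) (XT.nd (nat_lit 78) (nat_lit 912) (nat_lit 0) (XT.lf (nat_lit 76) (nat_lit 1114438809) (nat_lit 0) (nat_lit 5296774841) (nat_lit 988) (nat_lit 1114438809) (nat_lit 458) (nat_lit 1) (nat_lit 457) (nat_lit 1) (nat_lit 470) (nat_lit 1) (nat_lit 319) (nat_lit 425) (nat_lit 396)) (XT.lf (nat_lit 988) (nat_lit 1494830510) (nat_lit 0) (nat_lit 2981789166) (nat_lit 912) (nat_lit 2981789166) (nat_lit 458) (nat_lit 1) (nat_lit 445) (nat_lit 1) (nat_lit 457) (nat_lit 1) (nat_lit 320) (nat_lit 425) (nat_lit 395))) (XT.nd (nat_lit 78) (nat_lit 836) (nat_lit 0) (XT.lf (nat_lit 76) (nat_lit 382638471) (nat_lit 0) (nat_lit 6627012677) (nat_lit 988) (nat_lit 382638471) (nat_lit 446) (nat_lit 1) (nat_lit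 445) (nat_lit 1) (nat_lit 458) (nat_lit 1) (nat_lit 321) (nat_lit 425) (nat_lit 394)) (XT.lf (nat_lit 912) (nat_lit 6429579) (nat_lit 0) (nat_lit 3660091197) (nat_lit 836) (nat_lit 3660091197) (nat_lit 446) (nat_lit 1) (nat_lit 434) (nat_lit 1) (nat_lit 445) (nat_lit 1) (nat_lit 322) (nat_lit 425) (nat_lit 393)))) (XT.nd (nat_lit 156) (nat_lit 1672) (nat_lit 0) (XT.nd (nat_lit 78) (nat_lit 0) (nat_lit 0) (XT.lf (nat_lit 988) (nat_lit 6529300594) (nat_lit 0) (nat_lit 366364248) (nat_lit 912) (nat_lit 366364248) (nat_lit 434) (nat_lit 1) (nat_lit 421) (nat_lit 1) (nat_lit 433) (nat_lit 1) (nat_lit 323) (nat_lit 425) (nat_lit 392)) (XT.lf (nat_lit 76) (nat_lit 2849080357) (nat_lit 0) (nat_lit 1499703157) (nat_lit 988) (nat_lit 2849080357) (nat_lit 422) (nat_lit 1) (nat_lit 421) (nat_lit 1) (nat_lit 434) (nat_lit 1) (nat_lit 324) (nat_lit 425) (nat_lit 391))) (XT.nd (nat_lit 78) (nat_lit 836) (nat_lit 0) (XT.lf (nat_lit 912) (nat_lit 4873451227)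 (nat_lit 0) (nat_lit 1130656053) (nat_lit 836) (nat_lit 1130656053) (nat_lit 422) (nat_lit 1) (nat_lit 410) (nat_lit 1) (nat_lit 421) (nat_lit 1) (nat_lit 325) (nat_lit 425) (nat_lit 390)) (XT.nd (nat_lit 78) (nat_lit 836) (nat_lit 0) (XT.lf (nat_lit 76) (nat_lit 2016319001) (nat_lit 0) (nat_lit 3039629224) (nat_lit 912) (nat_lit 2016319001) (nat_lit 411) (nat_lit 1) (nat_lit 410) (nat_lit 1) (nat_lit 422) (nat_lit 1) (nat_lit 326) (nat_lit 425) (nat_lit 389)) (XT.lf (nat_lit 912) (nat_lit 3188313751) (nat_lit 0) (nat_lit 1911145337) (nat_lit 836) (nat_lit 1911145337) (nat_lit 411) (nat_lit 1) (nat_lit 399) (nat_lit 1) (nat_lit 410) (nat_lit 1) (nat_lit 327) (nat_lit 425) (nat_lit 388))))))) (XT.nd (nat_lit 702) (nat_lit 4028) (nat_lit 0) (XT.nd (nat_lit 312) (nat_lit 2204) (nat_lit 0) (XT.nd (nat_lit 156) (nat_lit 836) (nat_lit 0) (XT.nd (nat_lit 78) (nat_lit 760) (nat_lit 0) (XT.lf (nat_lit 76) (nat_lit 1169715108) (nat_lit 0) (nat_lit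 4610306468) (nat_lit 912) (nat_lit 1169715108) (nat_lit 400) (nat_lit 1) (nat_lit 399) (nat_lit 1) (nat_lit 411) (nat_lit 1) (nat_lit 328) (nat_lit 425) (nat_lit 387)) (XT.lf (nat_lit 836) (nat_lit 1476860493) (nat_lit 0) (nat_lit 2706303606) (nat_lit 760) (nat_lit 2706303606) (nat_lit 400) (nat_lit 1) (nat_lit 389) (nat_lit 1) (nat_lit 399) (nat_lit 1) (nat_lit 329) (nat_lit 425) (nat_lit 386))) (XT.nd (nat_lit 78) (nat_lit 836) (nat_lit 0) (XT.lf (nat_lit 76) (nat_lit 310711684) (nat_lit 0) (nat_lit 6208765326) (nat_lit 836) (nat_lit 310711684) (nat_lit 390) (nat_lit 1) (nat_lit 389) (nat_lit 1) (nat_lit 400) (nat_lit 1) (nat_lit 330) (nat_lit 425) (nat_lit 385)) (XT.lf (nat_lit 76) (nat_lit 3258267414) (nat_lit 0) (nat_lit 254702752) (nat_lit 836) (nat_lit 3258267414) (nat_lit 379) (nat_lit 1) (nat_lit 378) (nat_lit 1) (nat_lit 389) (nat_lit 1) (nat_lit 331) (nat_lit 425) (nat_lit 384)))) (XT.nd (nat_lit 156) (nat_lit 1444) (nat_lit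 0) (XT.nd (nat_lit 78) (nat_lit 0) (nat_lit 0) (XT.lf (nat_lit 836) (nat_lit 5601966157) (nat_lit 0) (nat_lit 555642301) (nat_lit 760) (nat_lit 555642301) (nat_lit 379) (nat_lit 1) (nat_lit 368) (nat_lit 1) (nat_lit 378) (nat_lit 1) (nat_lit 332) (nat_lit 425) (nat_lit 383)) (XT.lf (nat_lit 76) (nat_lit 2334115546) (nat_lit 0) (nat_lit 1987442409) (nat_lit 836) (nat_lit 2334115546) (nat_lit 369) (nat_lit 1) (nat_lit 368) (nat_lit 1) (nat_lit 379) (nat_lit 1) (nat_lit 333) (nat_lit 425) (nat_lit 382))) (XT.nd (nat_lit 78) (nat_lit 684) (nat_lit 0) (XT.lf (nat_lit 836) (nat_lit 3739729279) (nat_lit 0) (nat_lit 1429619776) (nat_lit 760) (nat_lit 1429619776) (nat_lit 369) (nat_lit 1) (nat_lit 358) (nat_lit 1) (nat_lit 368) (nat_lit 1) (nat_lit 334) (nat_lit 425) (nat_lit 381)) (XT.nd (nat_lit 78) (nat_lit 684) (nat_lit 0) (XT.lf (nat_lit 76) (nat_lit 1402333482) (nat_lit 0) (nat_lit 3738223437) (nat_lit 836) (nat_lit 1402333482) (nat_lit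 359) (nat_lit 1) (nat_lit 358) (nat_lit 1) (nat_lit 369) (nat_lit 1) (nat_lit 335) (nat_lit 425) (nat_lit 380)) (XT.lf (nat_lit 760) (nat_lit 1863345630) (nat_lit 0) (nat_lit 2312041845) (nat_lit 684) (nat_lit 2312041845) (nat_lit 359) (nat_lit 1) (nat_lit 349) (nat_lit 1) (nat_lit 358) (nat_lit 1) (nat_lit 336) (nat_lit 425) (nat_lit 379)))))) (XT.nd (nat_lit 390) (nat_lit 1900) (nat_lit 0) (XT.nd (nat_lit 156) (nat_lit 1368) (nat_lit 0) (XT.nd (nat_lit 78) (nat_lit 760) (nat_lit 0) (XT.lf (nat_lit 76) (nat_lit 464070769) (nat_lit 0) (nat_lit 5504672213) (nat_lit 760) (nat_lit 464070769) (nat_lit 350) (nat_lit 1) (nat_lit 349) (nat_lit 1) (nat_lit 359) (nat_lit 1) (nat_lit 337) (nat_lit 425) (nat_lit 378)) (XT.lf (nat_lit 76) (nat_lit 3176971335) (nat_lit 0) (nat_lit 24613070) (nat_lit 760) (nat_lit 3176971335) (nat_lit 340) (nat_lit 1) (nat_lit 339) (nat_lit 1) (nat_lit 349) (nat_lit 1) (nat_lit 338) (nat_lit 425) (nat_lit 377))) (XT.nd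 (nat_lit 78) (nat_lit 684) (nat_lit 0) (XT.lf (nat_lit 760) (nat_lit 5372262821) (nat_lit 0) (nat_lit 476429252) (nat_lit 684) (nat_lit 476429252) (nat_lit 340) (nat_lit 1) (nat_lit 330) (nat_lit 1) (nat_lit 339) (nat_lit 1) (nat_lit 339) (nat_lit 425) (nat_lit 376)) (XT.nd (nat_lit 78) (nat_lit 684) (nat_lit 0) (XT.lf (nat_lit 76) (nat_lit 2187126848) (nat_lit 0) (nat_lit 1897783342) (nat_lit 760) (nat_lit 2187126848) (nat_lit 331) (nat_lit 1) (nat_lit 330) (nat_lit 1) (nat_lit 340) (nat_lit 1) (nat_lit 340) (nat_lit 425) (nat_lit 375)) (XT.lf (nat_lit 760) (nat_lit 3383327962) (nat_lit 0) (nat_lit 1418210423) (nat_lit 684) (nat_lit 1418210423) (nat_lit 331) (nat_lit 1) (nat_lit 321) (nat_lit 1) (nat_lit 330) (nat_lit 1) (nat_lit 341) (nat_lit 425) (nat_lit 374))))) (XT.nd (nat_lit 156) (nat_lit 1292) (nat_lit 0) (XT.nd (nat_lit 78) (nat_lit 608) (nat_lit 0) (XT.lf (nat_lit 76) (nat_lit 1194712999) (nat_lit 0) (nat_lit 3778620502) (nat_lit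 760) (nat_lit 1194712999) (nat_lit 322) (nat_lit 1) (nat_lit 321) (nat_lit 1) (nat_lit 331) (nat_lit 1) (nat_lit 342) (nat_lit 425) (nat_lit 373)) (XT.lf (nat_lit 684) (nat_lit 1390152962) (nat_lit 0) (nat_lit 2363358781) (nat_lit 608) (nat_lit 2363358781) (nat_lit 322) (nat_lit 1) (nat_lit 313) (nat_lit 1) (nat_lit 321) (nat_lit 1) (nat_lit 343) (nat_lit 425) (nat_lit 372))) (XT.nd (nat_lit 78) (nat_lit 1292) (nat_lit 0) (XT.lf (nat_lit 76) (nat_lit 200633602) (nat_lit 0) (nat_lit 5665250280) (nat_lit 684) (nat_lit 200633602) (nat_lit 314) (nat_lit 1) (nat_lit 313) (nat_lit 1) (nat_lit 322) (nat_lit 1) (nat_lit 344) (nat_lit 425) (nat_lit 371)) (XT.nd (nat_lit 78) (nat_lit 608) (nat_lit 0) (XT.lf (nat_lit 76) (nat_lit 2709391772) (nat_lit 0) (nat_lit 597558777) (nat_lit 684) (nat_lit 2709391772) (nat_lit 305) (nat_lit 1) (nat_lit 304) (nat_lit 1) (nat_lit 313) (nat_lit 1) (nat_lit 345) (nat_lit 425) (nat_lit 370)) (XT.lf (nat_lit 684)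 (nat_lit 4388905383) (nat_lit 0) (nat_lit 789033003) (nat_lit 608) (nat_lit 789033003) (nat_lit 305) (nat_lit 1) (nat_lit 296) (nat_lit 1) (nat_lit 304) (nat_lit 1) (nat_lit 346) (nat_lit 425) (nat_lit 369))))))))
noncomputable def ec166 : XT := (XT.nd (nat_lit 1404) (nat_lit 5016) (nat_lit 0) (XT.nd (nat_lit 702) (nat_lit 2660) (nat_lit 0) (XT.nd (nat_lit 312) (nat_lit 1748) (nat_lit 0) (XT.nd (nat_lit 156) (nat_lit 532) (nat_lit 0) (XT.nd (nat_lit 78) (nat_lit 608) (nat_lit 0) (XT.lf (nat_lit 76) (nat_lit 1675077655) (nat_lit 0) (nat_lit 2567843290) (nat_lit 684) (nat_lit 1675077655) (nat_lit 297) (nat_lit 1) (nat_lit 296) (nat_lit 1) (nat_lit 305) (nat_lit 1) (nat_lit 347) (nat_lit 425) (nat_lit 368)) (XT.lf (nat_lit 684) (nat_lit 2314879183) (nat_lit 0) (nat_lit 1777387815) (nat_lit 608) (nat_lit 1777387815) (nat_lit 297) (nat_lit 1) (nat_lit 288) (nat_lit 1) (nat_lit 296) (nat_lit 1) (nat_lit 348) (nat_lit 425) (nat_lit 367))) (XT.nd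 (nat_lit 78) (nat_lit 532) (nat_lit 0) (XT.lf (nat_lit 76) (nat_lit 642286130) (nat_lit 0) (nat_lit 4537386090) (nat_lit 684) (nat_lit 642286130) (nat_lit 289) (nat_lit 1) (nat_lit 288) (nat_lit 1) (nat_lit 297) (nat_lit 1) (nat_lit 349) (nat_lit 425) (nat_lit 366)) (XT.lf (nat_lit 608) (nat_lit 244616210) (nat_lit 0) (nat_lit 2764997791) (nat_lit 532) (nat_lit 2764997791) (nat_lit 289) (nat_lit 1) (nat_lit 281) (nat_lit 1) (nat_lit 288) (nat_lit 1) (nat_lit 350) (nat_lit 425) (nat_lit 365)))) (XT.nd (nat_lit 156) (nat_lit 1064) (nat_lit 0) (XT.nd (nat_lit 78) (nat_lit 0) (nat_lit 0) (XT.lf (nat_lit 684) (nat_lit 4956499963) (nat_lit 0) (nat_lit 385729758) (nat_lit 608) (nat_lit 385729758) (nat_lit 281) (nat_lit 1) (nat_lit 272) (nat_lit 1) (nat_lit 280) (nat_lit 1) (nat_lit 351) (nat_lit 425) (nat_lit 364)) (XT.lf (nat_lit 76) (nat_lit 1942449681) (nat_lit 0) (nat_lit 1796647794) (nat_lit 684) (nat_lit 1942449681) (nat_lit 273) (nat_lit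 1) (nat_lit 272) (nat_lit 1) (nat_lit 281) (nat_lit 1) (nat_lit 352) (nat_lit 425) (nat_lit 363))) (XT.nd (nat_lit 78) (nat_lit 532) (nat_lit 0) (XT.lf (nat_lit 608) (nat_lit 2822490486) (nat_lit 0) (nat_lit 1406661313) (nat_lit 532) (nat_lit 1406661313) (nat_lit 273) (nat_lit 1) (nat_lit 265) (nat_lit 1) (nat_lit 272) (nat_lit 1) (nat_lit 353) (nat_lit 425) (nat_lit 362)) (XT.nd (nat_lit 78) (nat_lit 532) (nat_lit 0) (XT.lf (nat_lit 76) (nat_lit 881110583) (nat_lit 0) (nat_lit 3828388140) (nat_lit 608) (nat_lit 881110583) (nat_lit 266) (nat_lit 1) (nat_lit 265) (nat_lit 1) (nat_lit 273) (nat_lit 1) (nat_lit 354) (nat_lit 425) (nat_lit 361)) (XT.lf (nat_lit 608) (nat_lit 697554679) (nat_lit 0) (nat_lit 2424121657) (nat_lit 532) (nat_lit 2424121657) (nat_lit 266) (nat_lit 1) (nat_lit 258) (nat_lit 1) (nat_lit 265) (nat_lit 1) (nat_lit 355) (nat_lit 425) (nat_lit 360)))))) (XT.nd (nat_lit 312) (nat_lit 1520) (nat_lit 0) (XT.nd (nat_lit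 156) (nat_lit 532) (nat_lit 0) (XT.nd (nat_lit 78) (nat_lit 0) (nat_lit 0) (XT.lf (nat_lit 608) (nat_lit 5153136023) (nat_lit 0) (nat_lit 174273651) (nat_lit 532) (nat_lit 174273651) (nat_lit 258) (nat_lit 1) (nat_lit 250) (nat_lit 1) (nat_lit 257) (nat_lit 1) (nat_lit 356) (nat_lit 425) (nat_lit 359)) (XT.lf (nat_lit 76) (nat_lit 2029524905) (nat_lit 0) (nat_lit 1398625886) (nat_lit 608) (nat_lit 2029524905) (nat_lit 251) (nat_lit 1) (nat_lit 250) (nat_lit 1) (nat_lit 258) (nat_lit 1) (nat_lit 357) (nat_lit 425) (nat_lit 358))) (XT.nd (nat_lit 78) (nat_lit 0) (nat_lit 0) (XT.lf (nat_lit 608) (nat_lit 2977214783) (nat_lit 0) (nat_lit 1218567879) (nat_lit 532) (nat_lit 1218567879) (nat_lit 251) (nat_lit 1) (nat_lit 243) (nat_lit 1) (nat_lit 250) (nat_lit 1) (nat_lit 358) (nat_lit 425) (nat_lit 357)) (XT.lf (nat_lit 76) (nat_lit 948437776) (nat_lit 0) (nat_lit 3474612746) (nat_lit 608) (nat_lit 948437776) (nat_lit 244) (nat_lit 1) (nat_lit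 243) (nat_lit 1) (nat_lit 251) (nat_lit 1) (nat_lit 359) (nat_lit 425) (nat_lit 356)))) (XT.nd (nat_lit 156) (nat_lit 456) (nat_lit 0) (XT.nd (nat_lit 78) (nat_lit 608) (nat_lit 0) (XT.lf (nat_lit 532) (nat_lit 814860150) (nat_lit 0) (nat_lit 2257079060) (nat_lit 456) (nat_lit 2257079060) (nat_lit 244) (nat_lit 1) (nat_lit 237) (nat_lit 1) (nat_lit 243) (nat_lit 1) (nat_lit 360) (nat_lit 425) (nat_lit 355)) (XT.lf (nat_lit 608) (nat_lit 5037527518) (nat_lit 0) (nat_lit 124841082) (nat_lit 532) (nat_lit 124841082) (nat_lit 237) (nat_lit 1) (nat_lit 229) (nat_lit 1) (nat_lit 236) (nat_lit 1) (nat_lit 361) (nat_lit 425) (nat_lit 354))) (XT.nd (nat_lit 78) (nat_lit 456) (nat_lit 0) (XT.lf (nat_lit 76) (nat_lit 1964941205) (nat_lit 0) (nat_lit 1315580583) (nat_lit 608) (nat_lit 1964941205) (nat_lit 230) (nat_lit 1) (nat_lit 229) (nat_lit 1) (nat_lit 237) (nat_lit 1) (nat_lit 362) (nat_lit 425) (nat_lit 353)) (XT.nd (nat_lit 78) (nat_lit 0)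 (nat_lit 0) (XT.lf (nat_lit 532) (nat_lit 2835300700) (nat_lit 0) (nat_lit 1184532229) (nat_lit 456) (nat_lit 1184532229) (nat_lit 230) (nat_lit 1) (nat_lit 223) (nat_lit 1) (nat_lit 229) (nat_lit 1) (nat_lit 363) (nat_lit 425) (nat_lit 352)) (XT.lf (nat_lit 76) (nat_lit 871702275) (nat_lit 0) (nat_lit 3420300442) (nat_lit 532) (nat_lit 871702275) (nat_lit 224) (nat_lit 1) (nat_lit 223) (nat_lit 1) (nat_lit 230) (nat_lit 1) (nat_lit 364) (nat_lit 425) (nat_lit 351))))))) (XT.nd (nat_lit 702) (nat_lit 2280) (nat_lit 0) (XT.nd (nat_lit 312) (nat_lit 1292) (nat_lit 0) (XT.nd (nat_lit 156) (nat_lit 456) (nat_lit 0) (XT.nd (nat_lit 78) (nat_lit 532) (nat_lit 0) (XT.lf (nat_lit 532) (nat_lit 650416151) (nat_lit 0) (nat_lit 2236492358) (nat_lit 456) (nat_lit 2236492358) (nat_lit 224) (nat_lit 1) (nat_lit 217) (nat_lit 1) (nat_lit 223) (nat_lit 1) (nat_lit 365) (nat_lit 425) (nat_lit 350)) (XT.lf (nat_lit 532) (nat_lit 4661042208) (nat_lit 0)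 (nat_lit 211324745) (nat_lit 456) (nat_lit 211324745) (nat_lit 217) (nat_lit 1) (nat_lit 210) (nat_lit 1) (nat_lit 216) (nat_lit 1) (nat_lit 366) (nat_lit 425) (nat_lit 349))) (XT.nd (nat_lit 78) (nat_lit 456) (nat_lit 0) (XT.lf (nat_lit 76) (nat_lit 1773749471) (nat_lit 0) (nat_lit 1496574143) (nat_lit 532) (nat_lit 1773749471) (nat_lit 211) (nat_lit 1) (nat_lit 210) (nat_lit 1) (nat_lit 217) (nat_lit 1) (nat_lit 367) (nat_lit 425) (nat_lit 348)) (XT.lf (nat_lit 532) (nat_lit 2445943977) (nat_lit 0) (nat_lit 1279547138) (nat_lit 456) (nat_lit 1279547138) (nat_lit 211) (nat_lit 1) (nat_lit 204) (nat_lit 1) (nat_lit 210) (nat_lit 1) (nat_lit 368) (nat_lit 425) (nat_lit 347)))) (XT.nd (nat_lit 156) (nat_lit 912) (nat_lit 0) (XT.nd (nat_lit 78) (nat_lit 380) (nat_lit 0) (XT.lf (nat_lit 76) (nat_lit 674894912) (nat_lit 0) (nat_lit 3616661372) (nat_lit 532) (nat_lit 674894912) (nat_lit 205) (nat_lit 1) (nat_lit 204) (nat_lit 1) (nat_lit 211)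 (nat_lit 1) (nat_lit 369) (nat_lit 425) (nat_lit 346)) (XT.lf (nat_lit 456) (nat_lit 251335064) (nat_lit 0) (nat_lit 2338409568) (nat_lit 380) (nat_lit 2338409568) (nat_lit 205) (nat_lit 1) (nat_lit 199) (nat_lit 1) (nat_lit 204) (nat_lit 1) (nat_lit 370) (nat_lit 425) (nat_lit 345))) (XT.nd (nat_lit 78) (nat_lit 380) (nat_lit 0) (XT.lf (nat_lit 532) (nat_lit 4068556500) (nat_lit 0) (nat_lit 410901715) (nat_lit 456) (nat_lit 410901715) (nat_lit 199) (nat_lit 1) (nat_lit 192) (nat_lit 1) (nat_lit 198) (nat_lit 1) (nat_lit 371) (nat_lit 425) (nat_lit 344)) (XT.nd (nat_lit 78) (nat_lit 380) (nat_lit 0) (XT.lf (nat_lit 76) (nat_lit 1477831160) (nat_lit 0) (nat_lit 1897084090) (nat_lit 532) (nat_lit 1477831160) (nat_lit 193) (nat_lit 1) (nat_lit 192) (nat_lit 1) (nat_lit 199) (nat_lit 1) (nat_lit 372) (nat_lit 425) (nat_lit 343)) (XT.lf (nat_lit 456) (nat_lit 1852108779) (nat_lit 0) (nat_lit 1481758454) (nat_lit 380) (nat_lit 1481758454) (nat_lit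 193) (nat_lit 1) (nat_lit 187) (nat_lit 1) (nat_lit 192) (nat_lit 1) (nat_lit 373) (nat_lit 425) (nat_lit 342)))))) (XT.nd (nat_lit 390) (nat_lit 1064) (nat_lit 0) (XT.nd (nat_lit 156) (nat_lit 760) (nat_lit 0) (XT.nd (nat_lit 78) (nat_lit 456) (nat_lit 0) (XT.lf (nat_lit 76) (nat_lit 378963960) (nat_lit 0) (nat_lit 4021064400) (nat_lit 456) (nat_lit 378963960) (nat_lit 188) (nat_lit 1) (nat_lit 187) (nat_lit 1) (nat_lit 193) (nat_lit 1) (nat_lit 374) (nat_lit 425) (nat_lit 341)) (XT.lf (nat_lit 76) (nat_lit 2202868521) (nat_lit 0) (nat_lit 336777188) (nat_lit 456) (nat_lit 2202868521) (nat_lit 182) (nat_lit 1) (nat_lit 181) (nat_lit 1) (nat_lit 187) (nat_lit 1) (nat_lit 375) (nat_lit 425) (nat_lit 340))) (XT.nd (nat_lit 78) (nat_lit 380) (nat_lit 0) (XT.lf (nat_lit 456) (nat_lit 3299213233) (nat_lit 0) (nat_lit 703650546) (nat_lit 380) (nat_lit 703650546) (nat_lit 182) (nat_lit 1) (nat_lit 176) (nat_lit 1) (nat_lit 181) (nat_lit 1) (nat_lit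 376) (nat_lit 425) (nat_lit 339)) (XT.nd (nat_lit 78) (nat_lit 380) (nat_lit 0) (XT.lf (nat_lit 76) (nat_lit 1096268437) (nat_lit 0) (nat_lit 2478255012) (nat_lit 456) (nat_lit 1096268437) (nat_lit 177) (nat_lit 1) (nat_lit 176) (nat_lit 1) (nat_lit 182) (nat_lit 1) (nat_lit 377) (nat_lit 425) (nat_lit 338)) (XT.lf (nat_lit 456) (nat_lit 1091255744) (nat_lit 0) (nat_lit 1772097226) (nat_lit 380) (nat_lit 1772097226) (nat_lit 177) (nat_lit 1) (nat_lit 171) (nat_lit 1) (nat_lit 176) (nat_lit 1) (nat_lit 378) (nat_lit 425) (nat_lit 337))))) (XT.nd (nat_lit 156) (nat_lit 684) (nat_lit 0) (XT.nd (nat_lit 78) (nat_lit 380) (nat_lit 0) (XT.lf (nat_lit 76) (nat_lit 2170751) (nat_lit 0) (nat_lit 4596318275) (nat_lit 456) (nat_lit 2170751) (nat_lit 172) (nat_lit 1) (nat_lit 171) (nat_lit 1) (nat_lit 177) (nat_lit 1) (nat_lit 379) (nat_lit 425) (nat_lit 336)) (XT.lf (nat_lit 76) (nat_lit 1744316225) (nat_lit 0) (nat_lit 1077184418) (nat_lit 380)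 (nat_lit 1744316225) (nat_lit 167) (nat_lit 1) (nat_lit 166) (nat_lit 1) (nat_lit 171) (nat_lit 1) (nat_lit 380) (nat_lit 425) (nat_lit 335))) (XT.nd (nat_lit 78) (nat_lit 304) (nat_lit 0) (XT.lf (nat_lit 456) (nat_lit 2387093359) (nat_lit 0) (nat_lit 1072211864) (nat_lit 380) (nat_lit 1072211864) (nat_lit 167) (nat_lit 1) (nat_lit 161) (nat_lit 1) (nat_lit 166) (nat_lit 1) (nat_lit 381) (nat_lit 425) (nat_lit 334)) (XT.nd (nat_lit 78) (nat_lit 304) (nat_lit 0) (XT.lf (nat_lit 76) (nat_lit 645672254) (nat_lit 0) (nat_lit 3206235373) (nat_lit 456) (nat_lit 645672254) (nat_lit 162) (nat_lit 1) (nat_lit 161) (nat_lit 1) (nat_lit 167) (nat_lit 1) (nat_lit 382) (nat_lit 425) (nat_lit 333)) (XT.lf (nat_lit 380) (nat_lit 195987274) (nat_lit 0) (nat_lit 2133953616) (nat_lit 304) (nat_lit 2133953616) (nat_lit 162) (nat_lit 1) (nat_lit 157) (nat_lit 1) (nat_lit 161) (nat_lit 1) (nat_lit 383) (nat_lit 425) (nat_lit 332))))))))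
noncomputable def ec167 : XT := (XT.nd (nat_lit 1404) (nat_lit 3116) (nat_lit 0) (XT.nd (nat_lit 702) (nat_lit 1520) (nat_lit 0) (XT.nd (nat_lit 312) (nat_lit 1368) (nat_lit 0) (XT.nd (nat_lit 156) (nat_lit 304) (nat_lit 0) (XT.nd (nat_lit 78) (nat_lit 0) (nat_lit 0) (XT.lf (nat_lit 456) (nat_lit 3557208938) (nat_lit 0) (nat_lit 436703073) (nat_lit 380) (nat_lit 436703073) (nat_lit 157) (nat_lit 1) (nat_lit 151) (nat_lit 1) (nat_lit 156) (nat_lit 1) (nat_lit 384) (nat_lit 425) (nat_lit 331)) (XT.lf (nat_lit 76) (nat_lit 1227547256) (nat_lit 0) (nat_lit 1942406823) (nat_lit 456) (nat_lit 1227547256) (nat_lit 152) (nat_lit 1) (nat_lit 151) (nat_lit 1) (nat_lit 157) (nat_lit 1) (nat_lit 385) (nat_lit 425) (nat_lit 330))) (XT.nd (nat_lit 78) (nat_lit 0) (nat_lit 0) (XT.lf (nat_lit 380) (nat_lit 1361811180) (nat_lit 0) (nat_lit 1501487562) (nat_lit 304) (nat_lit 1501487562) (nat_lit 152) (nat_lit 1) (nat_lit 147) (nat_lit 1) (nat_lit 151)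 (nat_lit 1) (nat_lit 386) (nat_lit 425) (nat_lit 329)) (XT.lf (nat_lit 76) (nat_lit 140473079) (nat_lit 0) (nat_lit 4051589752) (nat_lit 380) (nat_lit 140473079) (nat_lit 148) (nat_lit 1) (nat_lit 147) (nat_lit 1) (nat_lit 152) (nat_lit 1) (nat_lit 387) (nat_lit 425) (nat_lit 328)))) (XT.nd (nat_lit 156) (nat_lit 684) (nat_lit 0) (XT.nd (nat_lit 78) (nat_lit 304) (nat_lit 0) (XT.lf (nat_lit 76) (nat_lit 1752736366) (nat_lit 0) (nat_lit 794817913) (nat_lit 380) (nat_lit 1752736366) (nat_lit 143) (nat_lit 1) (nat_lit 142) (nat_lit 1) (nat_lit 147) (nat_lit 1) (nat_lit 388) (nat_lit 425) (nat_lit 327)) (XT.lf (nat_lit 380) (nat_lit 2415700317) (nat_lit 0) (nat_lit 926401509) (nat_lit 304) (nat_lit 926401509) (nat_lit 143) (nat_lit 1) (nat_lit 138) (nat_lit 1) (nat_lit 142) (nat_lit 1) (nat_lit 389) (nat_lit 425) (nat_lit 326))) (XT.nd (nat_lit 78) (nat_lit 684) (nat_lit 0) (XT.lf (nat_lit 76) (nat_lit 665648986) (nat_lit 0) (nat_lit 2905727648)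 (nat_lit 380) (nat_lit 665648986) (nat_lit 139) (nat_lit 1) (nat_lit 138) (nat_lit 1) (nat_lit 143) (nat_lit 1) (nat_lit 390) (nat_lit 425) (nat_lit 325)) (XT.nd (nat_lit 78) (nat_lit 380) (nat_lit 0) (XT.lf (nat_lit 380) (nat_lit 249041790) (nat_lit 0) (nat_lit 1978374244) (nat_lit 304) (nat_lit 1978374244) (nat_lit 139) (nat_lit 1) (nat_lit 134) (nat_lit 1) (nat_lit 138) (nat_lit 1) (nat_lit 391) (nat_lit 425) (nat_lit 324)) (XT.lf (nat_lit 380) (nat_lit 3366632989) (nat_lit 0) (nat_lit 404145025) (nat_lit 304) (nat_lit 404145025) (nat_lit 134) (nat_lit 1) (nat_lit 129) (nat_lit 1) (nat_lit 133) (nat_lit 1) (nat_lit 392) (nat_lit 425) (nat_lit 323)))))) (XT.nd (nat_lit 312) (nat_lit 912) (nat_lit 0) (XT.nd (nat_lit 156) (nat_lit 304) (nat_lit 0) (XT.nd (nat_lit 78) (nat_lit 304) (nat_lit 0) (XT.lf (nat_lit 76) (nat_lit 1140323020) (nat_lit 0) (nat_lit 1863546126) (nat_lit 380) (nat_lit 1140323020) (nat_lit 130) (nat_lit 1) (nat_lit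 129) (nat_lit 1) (nat_lit 134) (nat_lit 1) (nat_lit 393) (nat_lit 425) (nat_lit 322)) (XT.lf (nat_lit 380) (nat_lit 1203692783) (nat_lit 0) (nat_lit 1455065341) (nat_lit 304) (nat_lit 1455065341) (nat_lit 130) (nat_lit 1) (nat_lit 125) (nat_lit 1) (nat_lit 129) (nat_lit 1) (nat_lit 394) (nat_lit 425) (nat_lit 321))) (XT.nd (nat_lit 78) (nat_lit 304) (nat_lit 0) (XT.lf (nat_lit 76) (nat_lit 69942390) (nat_lit 0) (nat_lit 3944009144) (nat_lit 380) (nat_lit 69942390) (nat_lit 126) (nat_lit 1) (nat_lit 125) (nat_lit 1) (nat_lit 130) (nat_lit 1) (nat_lit 395) (nat_lit 425) (nat_lit 320)) (XT.lf (nat_lit 76) (nat_lit 1568547157) (nat_lit 0) (nat_lit 916827515) (nat_lit 304) (nat_lit 1568547157) (nat_lit 122) (nat_lit 1) (nat_lit 121) (nat_lit 1) (nat_lit 125) (nat_lit 1) (nat_lit 396) (nat_lit 425) (nat_lit 319)))) (XT.nd (nat_lit 156) (nat_lit 608) (nat_lit 0) (XT.nd (nat_lit 78) (nat_lit 0) (nat_lit 0) (XT.lf (nat_lit 380) (nat_lit 2066552214)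 (nat_lit 0) (nat_lit 978915601) (nat_lit 304) (nat_lit 978915601) (nat_lit 122) (nat_lit 1) (nat_lit 117) (nat_lit 1) (nat_lit 121) (nat_lit 1) (nat_lit 397) (nat_lit 425) (nat_lit 318)) (XT.lf (nat_lit 76) (nat_lit 501657679) (nat_lit 0) (nat_lit 2991840481) (nat_lit 380) (nat_lit 501657679) (nat_lit 118) (nat_lit 1) (nat_lit 117) (nat_lit 1) (nat_lit 122) (nat_lit 1) (nat_lit 398) (nat_lit 425) (nat_lit 317))) (XT.nd (nat_lit 78) (nat_lit 304) (nat_lit 0) (XT.lf (nat_lit 76) (nat_lit 1954060754) (nat_lit 0) (nat_lit 57986269) (nat_lit 304) (nat_lit 1954060754) (nat_lit 114) (nat_lit 1) (nat_lit 113) (nat_lit 1) (nat_lit 117) (nat_lit 1) (nat_lit 399) (nat_lit 425) (nat_lit 316)) (XT.nd (nat_lit 78) (nat_lit 0) (nat_lit 0) (XT.lf (nat_lit 380) (nat_lit 2844984753) (nat_lit 0) (nat_lit 546190368) (nat_lit 304) (nat_lit 546190368) (nat_lit 114) (nat_lit 1) (nat_lit 109) (nat_lit 1) (nat_lit 113) (nat_lit 1) (nat_lit 400) (nat_lit 425)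 (nat_lit 315)) (XT.lf (nat_lit 76) (nat_lit 891926428) (nat_lit 0) (nat_lit 2124964489) (nat_lit 380) (nat_lit 891926428) (nat_lit 110) (nat_lit 1) (nat_lit 109) (nat_lit 1) (nat_lit 114) (nat_lit 1) (nat_lit 401) (nat_lit 425) (nat_lit 314))))))) (XT.nd (nat_lit 702) (nat_lit 1520) (nat_lit 0) (XT.nd (nat_lit 312) (nat_lit 760) (nat_lit 0) (XT.nd (nat_lit 156) (nat_lit 228) (nat_lit 0) (XT.nd (nat_lit 78) (nat_lit 380) (nat_lit 0) (XT.lf (nat_lit 304) (nat_lit 729547440) (nat_lit 0) (nat_lit 1575503706) (nat_lit 228) (nat_lit 1575503706) (nat_lit 110) (nat_lit 1) (nat_lit 106) (nat_lit 1) (nat_lit 109) (nat_lit 1) (nat_lit 402) (nat_lit 425) (nat_lit 313)) (XT.lf (nat_lit 380) (nat_lit 3545786879) (nat_lit 0) (nat_lit 153442207) (nat_lit 304) (nat_lit 153442207) (nat_lit 106) (nat_lit 1) (nat_lit 101) (nat_lit 1) (nat_lit 105) (nat_lit 1) (nat_lit 403) (nat_lit 425) (nat_lit 312))) (XT.nd (nat_lit 78) (nat_lit 228) (nat_lit 0) (XT.lf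 (nat_lit 76) (nat_lit 1244073010) (nat_lit 0) (nat_lit 1336635141) (nat_lit 380) (nat_lit 1244073010) (nat_lit 102) (nat_lit 1) (nat_lit 101) (nat_lit 1) (nat_lit 106) (nat_lit 1) (nat_lit 404) (nat_lit 425) (nat_lit 311)) (XT.lf (nat_lit 304) (nat_lit 1442449567) (nat_lit 0) (nat_lit 1177407952) (nat_lit 228) (nat_lit 1177407952) (nat_lit 102) (nat_lit 1) (nat_lit 98) (nat_lit 1) (nat_lit 101) (nat_lit 1) (nat_lit 405) (nat_lit 425) (nat_lit 310)))) (XT.nd (nat_lit 156) (nat_lit 456) (nat_lit 0) (XT.nd (nat_lit 78) (nat_lit 304) (nat_lit 0) (XT.lf (nat_lit 76) (nat_lit 203852159) (nat_lit 0) (nat_lit 3362397679) (nat_lit 304) (nat_lit 203852159) (nat_lit 99) (nat_lit 1) (nat_lit 98) (nat_lit 1) (nat_lit 102) (nat_lit 1) (nat_lit 406) (nat_lit 425) (nat_lit 309)) (XT.lf (nat_lit 76) (nat_lit 1561165336) (nat_lit 0) (nat_lit 620625062) (nat_lit 304) (nat_lit 1561165336) (nat_lit 95) (nat_lit 1) (nat_lit 94) (nat_lit 1) (nat_lit 98) (nat_lit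 1) (nat_lit 407) (nat_lit 425) (nat_lit 308))) (XT.nd (nat_lit 78) (nat_lit 228) (nat_lit 0) (XT.lf (nat_lit 304) (nat_lit 2085993084) (nat_lit 0) (nat_lit 815082226) (nat_lit 228) (nat_lit 815082226) (nat_lit 95) (nat_lit 1) (nat_lit 91) (nat_lit 1) (nat_lit 94) (nat_lit 1) (nat_lit 408) (nat_lit 425) (nat_lit 307)) (XT.nd (nat_lit 78) (nat_lit 228) (nat_lit 0) (XT.lf (nat_lit 76) (nat_lit 528080658) (nat_lit 0) (nat_lit 2633452601) (nat_lit 304) (nat_lit 528080658) (nat_lit 92) (nat_lit 1) (nat_lit 91) (nat_lit 1) (nat_lit 95) (nat_lit 1) (nat_lit 409) (nat_lit 425) (nat_lit 306)) (XT.lf (nat_lit 304) (nat_lit 29196982) (nat_lit 0) (nat_lit 1817027034) (nat_lit 228) (nat_lit 1817027034) (nat_lit 92) (nat_lit 1) (nat_lit 88) (nat_lit 1) (nat_lit 91) (nat_lit 1) (nat_lit 410) (nat_lit 425) (nat_lit 305)))))) (XT.nd (nat_lit 390) (nat_lit 684) (nat_lit 0) (XT.nd (nat_lit 156) (nat_lit 532) (nat_lit 0) (XT.nd (nat_lit 78) (nat_lit 0) (nat_lit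 0) (XT.lf (nat_lit 304) (nat_lit 2665755413) (nat_lit 0) (nat_lit 485695549) (nat_lit 228) (nat_lit 485695549) (nat_lit 88) (nat_lit 1) (nat_lit 84) (nat_lit 1) (nat_lit 87) (nat_lit 1) (nat_lit 411) (nat_lit 425) (nat_lit 304)) (XT.lf (nat_lit 76) (nat_lit 820955854) (nat_lit 0) (nat_lit 1969292243) (nat_lit 304) (nat_lit 820955854) (nat_lit 85) (nat_lit 1) (nat_lit 84) (nat_lit 1) (nat_lit 88) (nat_lit 1) (nat_lit 412) (nat_lit 425) (nat_lit 303))) (XT.nd (nat_lit 78) (nat_lit 304) (nat_lit 0) (XT.lf (nat_lit 304) (nat_lit 625187502) (nat_lit 0) (nat_lit 1480164266) (nat_lit 228) (nat_lit 1480164266) (nat_lit 85) (nat_lit 1) (nat_lit 81) (nat_lit 1) (nat_lit 84) (nat_lit 1) (nat_lit 413) (nat_lit 425) (nat_lit 302)) (XT.nd (nat_lit 78) (nat_lit 0) (nat_lit 0) (XT.lf (nat_lit 304) (nat_lit 3186883439) (nat_lit 0) (nat_lit 186634634) (nat_lit 228) (nat_lit 186634634) (nat_lit 81) (nat_lit 1) (nat_lit 77) (nat_lit 1) (nat_lit 80) (nat_lit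 1) (nat_lit 414) (nat_lit 425) (nat_lit 301)) (XT.lf (nat_lit 76) (nat_lit 1084996070) (nat_lit 0) (nat_lit 1364801144) (nat_lit 304) (nat_lit 1084996070) (nat_lit 78) (nat_lit 1) (nat_lit 77) (nat_lit 1) (nat_lit 81) (nat_lit 1) (nat_lit 415) (nat_lit 425) (nat_lit 300))))) (XT.nd (nat_lit 156) (nat_lit 456) (nat_lit 0) (XT.nd (nat_lit 78) (nat_lit 0) (nat_lit 0) (XT.lf (nat_lit 304) (nat_lit 1164060930) (nat_lit 0) (nat_lit 1172847057) (nat_lit 228) (nat_lit 1172847057) (nat_lit 78) (nat_lit 1) (nat_lit 74) (nat_lit 1) (nat_lit 77) (nat_lit 1) (nat_lit 416) (nat_lit 425) (nat_lit 299)) (XT.lf (nat_lit 76) (nat_lit 85072424) (nat_lit 0) (nat_lit 3314911747) (nat_lit 304) (nat_lit 85072424) (nat_lit 75) (nat_lit 1) (nat_lit 74) (nat_lit 1) (nat_lit 78) (nat_lit 1) (nat_lit 417) (nat_lit 425) (nat_lit 298))) (XT.nd (nat_lit 78) (nat_lit 228) (nat_lit 0) (XT.lf (nat_lit 76) (nat_lit 1322525282) (nat_lit 0) (nat_lit 815256974) (nat_lit 228)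 (nat_lit 1322525282) (nat_lit 72) (nat_lit 1) (nat_lit 71) (nat_lit 1) (nat_lit 74) (nat_lit 1) (nat_lit 418) (nat_lit 425) (nat_lit 297)) (XT.nd (nat_lit 78) (nat_lit 0) (nat_lit 0) (XT.lf (nat_lit 304) (nat_lit 1650396990) (nat_lit 0) (nat_lit 892749066) (nat_lit 228) (nat_lit 892749066) (nat_lit 72) (nat_lit 1) (nat_lit 68) (nat_lit 1) (nat_lit 71) (nat_lit 1) (nat_lit 419) (nat_lit 425) (nat_lit 296)) (XT.lf (nat_lit 76) (nat_lit 332158322) (nat_lit 0) (nat_lit 2747430428) (nat_lit 304) (nat_lit 332158322) (nat_lit 69) (nat_lit 1) (nat_lit 68) (nat_lit 1) (nat_lit 72) (nat_lit 1) (nat_lit 420) (nat_lit 425) (nat_lit 295))))))))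
noncomputable def ec168 : XT := (XT.nd (nat_lit 49452) (nat_lit 0) (nat_lit 33288) (XT.nd (nat_lit 702) (nat_lit 456) (nat_lit 0) (XT.nd (nat_lit 312) (nat_lit 760) (nat_lit 0) (XT.nd (nat_lit 156) (nat_lit 152) (nat_lit 0) (XT.nd (nat_lit 78) (nat_lit 228) (nat_lit 0) (XT.lf (nat_lit 76) (nat_lit 1535687978) (nat_lit 0) (nat_lit 316300523) (nat_lit 228) (nat_lit 1535687978) (nat_lit 66) (nat_lit 1) (nat_lit 65) (nat_lit 1) (nat_lit 68) (nat_lit 1) (nat_lit 421) (nat_lit 425) (nat_lit 294)) (XT.lf (nat_lit 304) (nat_lit 2088422126) (nat_lit 0) (nat_lit 637722609) (nat_lit 228) (nat_lit 637722609) (nat_lit 66) (nat_lit 1) (nat_lit 62) (nat_lit 1) (nat_lit 65) (nat_lit 1) (nat_lit 422) (nat_lit 425) (nat_lit 293))) (XT.nd (nat_lit 78) (nat_lit 152) (nat_lit 0) (XT.lf (nat_lit 76) (nat_lit 555455645) (nat_lit 0) (nat_lit 2229342577) (nat_lit 304) (nat_lit 555455645) (nat_lit 63) (nat_lit 1) (nat_lit 62) (nat_lit 1) (nat_lit 66) (nat_lit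 1) (nat_lit 423) (nat_lit 425) (nat_lit 292)) (XT.lf (nat_lit 228) (nat_lit 137900605) (nat_lit 0) (nat_lit 1589457605) (nat_lit 152) (nat_lit 1589457605) (nat_lit 63) (nat_lit 1) (nat_lit 60) (nat_lit 1) (nat_lit 62) (nat_lit 1) (nat_lit 424) (nat_lit 425) (nat_lit 291)))) (XT.nd (nat_lit 156) (nat_lit 456) (nat_lit 0) (XT.nd (nat_lit 78) (nat_lit 0) (nat_lit 0) (XT.lf (nat_lit 304) (nat_lit 2482036499) (nat_lit 0) (nat_lit 405785025) (nat_lit 228) (nat_lit 405785025) (nat_lit 60) (nat_lit 1) (nat_lit 56) (nat_lit 1) (nat_lit 59) (nat_lit 1) (nat_lit 425) (nat_lit 425) (nat_lit 290)) (XT.lf (nat_lit 76) (nat_lit 756873488) (nat_lit 0) (nat_lit 1756765534) (nat_lit 304) (nat_lit 756873488) (nat_lit 57) (nat_lit 1) (nat_lit 56) (nat_lit 1) (nat_lit 60) (nat_lit 1) (nat_lit 426) (nat_lit 425) (nat_lit 289))) (XT.nd (nat_lit 78) (nat_lit 304) (nat_lit 0) (XT.lf (nat_lit 228) (nat_lit 552885855) (nat_lit 0) (nat_lit 1347379410) (nat_lit 152)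 (nat_lit 1347379410) (nat_lit 57) (nat_lit 1) (nat_lit 54) (nat_lit 1) (nat_lit 56) (nat_lit 1) (nat_lit 427) (nat_lit 425) (nat_lit 288)) (XT.nd (nat_lit 78) (nat_lit 0) (nat_lit 0) (XT.lf (nat_lit 304) (nat_lit 2834838920) (nat_lit 0) (nat_lit 195106080) (nat_lit 228) (nat_lit 195106080) (nat_lit 54) (nat_lit 1) (nat_lit 50) (nat_lit 1) (nat_lit 53) (nat_lit 1) (nat_lit 428) (nat_lit 425) (nat_lit 287)) (XT.lf (nat_lit 76) (nat_lit 938173651) (nat_lit 0) (nat_lit 1326114696) (nat_lit 304) (nat_lit 938173651) (nat_lit 51) (nat_lit 1) (nat_lit 50) (nat_lit 1) (nat_lit 54) (nat_lit 1) (nat_lit 429) (nat_lit 425) (nat_lit 286)))))) (XT.nd (nat_lit 48360) (nat_lit 0) (nat_lit 34428) (XT.nd (nat_lit 156) (nat_lit 0) (nat_lit 0) (XT.nd (nat_lit 78) (nat_lit 304) (nat_lit 0) (XT.lf (nat_lit 228) (nat_lit 927925198) (nat_lit 0) (nat_lit 1126109787) (nat_lit 152) (nat_lit 1126109787) (nat_lit 51) (nat_lit 1) (nat_lit 48) (nat_lit 1) (nat_lit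 50) (nat_lit 1) (nat_lit 430) (nat_lit 425) (nat_lit 285)) (XT.lf (nat_lit 304) (nat_lit 3150149885) (nat_lit 0) (nat_lit 3996331) (nat_lit 228) (nat_lit 3996331) (nat_lit 48) (nat_lit 1) (nat_lit 44) (nat_lit 1) (nat_lit 47) (nat_lit 1) (nat_lit 431) (nat_lit 425) (nat_lit 284))) (XT.nd (nat_lit 48126) (nat_lit 0) (nat_lit 34428) (XT.lf (nat_lit 76) (nat_lit 1100981887) (nat_lit 0) (nat_lit 934080774) (nat_lit 304) (nat_lit 1100981887) (nat_lit 45) (nat_lit 1) (nat_lit 44) (nat_lit 1) (nat_lit 48) (nat_lit 1) (nat_lit 432) (nat_lit 425) (nat_lit 283)) (XT.lf (nat_lit 1900) (nat_lit 1677232450) (nat_lit 0) (nat_lit 1691258014) (nat_lit 1900) (nat_lit 1677232450) (nat_lit 522) (nat_lit 1) (nat_lit 497) (nat_lit 0) (nat_lit 522) (nat_lit 0) (nat_lit 288) (nat_lit 426) (nat_lit 426)))) (XT.nd (nat_lit 156) (nat_lit 0) (nat_lit 76) (XT.nd (nat_lit 78) (nat_lit 0) (nat_lit 76) (XT.lf (nat_lit 1900) (nat_lit 6632029283) (nat_lit 76) (nat_lit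 1680131317) (nat_lit 0) (nat_lit 1680131317) (nat_lit 522) (nat_lit 1) (nat_lit 498) (nat_lit 1) (nat_lit 497) (nat_lit 0) (nat_lit 289) (nat_lit 426) (nat_lit 425)) (XT.lf (nat_lit 1900) (nat_lit 3256357947) (nat_lit 0) (nat_lit 3381505113) (nat_lit 1824) (nat_lit 3256357947) (nat_lit 523) (nat_lit 1) (nat_lit 498) (nat_lit 1) (nat_lit 522) (nat_lit 1) (nat_lit 290) (nat_lit 426) (nat_lit 424))) (XT.nd (nat_lit 78) (nat_lit 0) (nat_lit 76) (XT.lf (nat_lit 1900) (nat_lit 6373495238) (nat_lit 76) (nat_lit 1712070803) (nat_lit 0) (nat_lit 1712070803) (nat_lit 523) (nat_lit 1) (nat_lit 499) (nat_lit 1) (nat_lit 498) (nat_lit 1) (nat_lit 291) (nat_lit 426) (nat_lit 423)) (XT.nd (nat_lit 78) (nat_lit 0) (nat_lit 0) (XT.lf (nat_lit 1900) (nat_lit 3097397911) (nat_lit 0) (nat_lit 3507323049) (nat_lit 1824) (nat_lit 3097397911) (nat_lit 524) (nat_lit 1) (nat_lit 499) (nat_lit 1) (nat_lit 523) (nat_lit 1) (nat_lit 292) (nat_lit 426) (nat_lit 422))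 (XT.lf (nat_lit 1900) (nat_lit 5996525822) (nat_lit 76) (nat_lit 1805747768) (nat_lit 0) (nat_lit 1805747768) (nat_lit 524) (nat_lit 1) (nat_lit 500) (nat_lit 1) (nat_lit 499) (nat_lit 1) (nat_lit 293) (nat_lit 426) (nat_lit 421))))))) (XT.nd (nat_lit 702) (nat_lit 1368) (nat_lit 0) (XT.nd (nat_lit 312) (nat_lit 0) (nat_lit 152) (XT.nd (nat_lit 156) (nat_lit 0) (nat_lit 76) (XT.nd (nat_lit 78) (nat_lit 0) (nat_lit 0) (XT.lf (nat_lit 1900) (nat_lit 2881215689) (nat_lit 0) (nat_lit 3752558847) (nat_lit 1824) (nat_lit 2881215689) (nat_lit 525) (nat_lit 1) (nat_lit 500) (nat_lit 1) (nat_lit 524) (nat_lit 1) (nat_lit 294) (nat_lit 426) (nat_lit 420)) (XT.lf (nat_lit 1900) (nat_lit 5508239133) (nat_lit 76) (nat_lit 1957530011) (nat_lit 0) (nat_lit 1957530011) (nat_lit 525) (nat_lit 1) (nat_lit 501) (nat_lit 1) (nat_lit 500) (nat_lit 1) (nat_lit 295) (nat_lit 426) (nat_lit 419))) (XT.nd (nat_lit 78) (nat_lit 0) (nat_lit 0) (XT.lf (nat_lit 1900)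 (nat_lit 2611276322) (nat_lit 0) (nat_lit 4110138043) (nat_lit 1824) (nat_lit 2611276322) (nat_lit 526) (nat_lit 1) (nat_lit 501) (nat_lit 1) (nat_lit 525) (nat_lit 1) (nat_lit 296) (nat_lit 426) (nat_lit 418)) (XT.lf (nat_lit 1900) (nat_lit 4915427472) (nat_lit 76) (nat_lit 2163950591) (nat_lit 0) (nat_lit 2163950591) (nat_lit 526) (nat_lit 1) (nat_lit 502) (nat_lit 1) (nat_lit 501) (nat_lit 1) (nat_lit 297) (nat_lit 426) (nat_lit 417)))) (XT.nd (nat_lit 156) (nat_lit 0) (nat_lit 76) (XT.nd (nat_lit 78) (nat_lit 0) (nat_lit 0) (XT.lf (nat_lit 1900) (nat_lit 2290885930) (nat_lit 0) (nat_lit 4573308671) (nat_lit 1824) (nat_lit 2290885930) (nat_lit 527) (nat_lit 1) (nat_lit 502) (nat_lit 1) (nat_lit 526) (nat_lit 1) (nat_lit 298) (nat_lit 426) (nat_lit 416)) (XT.lf (nat_lit 1900) (nat_lit 4224570959) (nat_lit 76) (nat_lit 2421700926) (nat_lit 0) (nat_lit 2421700926) (nat_lit 527) (nat_lit 1) (nat_lit 503) (nat_lit 1) (nat_lit 502) (nat_lit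 1) (nat_lit 299) (nat_lit 426) (nat_lit 415))) (XT.nd (nat_lit 78) (nat_lit 0) (nat_lit 0) (XT.lf (nat_lit 1900) (nat_lit 1923198352) (nat_lit 0) (nat_lit 5135627807) (nat_lit 1824) (nat_lit 1923198352) (nat_lit 528) (nat_lit 1) (nat_lit 503) (nat_lit 1) (nat_lit 527) (nat_lit 1) (nat_lit 300) (nat_lit 426) (nat_lit 414)) (XT.nd (nat_lit 78) (nat_lit 0) (nat_lit 76) (XT.lf (nat_lit 1900) (nat_lit 3441850608) (nat_lit 76) (nat_lit 2727624187) (nat_lit 0) (nat_lit 2727624187) (nat_lit 528) (nat_lit 1) (nat_lit 504) (nat_lit 1) (nat_lit 503) (nat_lit 1) (nat_lit 301) (nat_lit 426) (nat_lit 413)) (XT.lf (nat_lit 1900) (nat_lit 1511221537) (nat_lit 0) (nat_lit 5790948651) (nat_lit 1824) (nat_lit 1511221537) (nat_lit 529) (nat_lit 1) (nat_lit 504) (nat_lit 1) (nat_lit 528) (nat_lit 1) (nat_lit 302) (nat_lit 426) (nat_lit 412)))))) (XT.nd (nat_lit 312) (nat_lit 1672) (nat_lit 0) (XT.nd (nat_lit 156) (nat_lit 0) (nat_lit 76) (XT.nd (nat_lit 78)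 (nat_lit 0) (nat_lit 76) (XT.lf (nat_lit 1900) (nat_lit 2573160873) (nat_lit 76) (nat_lit 3078708944) (nat_lit 0) (nat_lit 3078708944) (nat_lit 529) (nat_lit 1) (nat_lit 505) (nat_lit 1) (nat_lit 504) (nat_lit 1) (nat_lit 303) (nat_lit 426) (nat_lit 411)) (XT.lf (nat_lit 1900) (nat_lit 1057823662) (nat_lit 0) (nat_lit 6533408120) (nat_lit 1824) (nat_lit 1057823662) (nat_lit 530) (nat_lit 1) (nat_lit 505) (nat_lit 1) (nat_lit 529) (nat_lit 1) (nat_lit 304) (nat_lit 426) (nat_lit 410))) (XT.nd (nat_lit 78) (nat_lit 0) (nat_lit 76) (XT.lf (nat_lit 1900) (nat_lit 1624121683) (nat_lit 76) (nat_lit 3472083070) (nat_lit 0) (nat_lit 3472083070) (nat_lit 530) (nat_lit 1) (nat_lit 506) (nat_lit 1) (nat_lit 505) (nat_lit 1) (nat_lit 305) (nat_lit 426) (nat_lit 409)) (XT.lf (nat_lit 1900) (nat_lit 565739012) (nat_lit 0) (nat_lit 7357414958) (nat_lit 1824) (nat_lit 565739012) (nat_lit 531) (nat_lit 1) (nat_lit 506) (nat_lit 1) (nat_lit 530) (nat_lit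 1) (nat_lit 306) (nat_lit 426) (nat_lit 408)))) (XT.nd (nat_lit 156) (nat_lit 1824) (nat_lit 0) (XT.nd (nat_lit 78) (nat_lit 0) (nat_lit 76) (XT.lf (nat_lit 1900) (nat_lit 600090002) (nat_lit 76) (nat_lit 3905007901) (nat_lit 0) (nat_lit 3905007901) (nat_lit 531) (nat_lit 1) (nat_lit 507) (nat_lit 1) (nat_lit 506) (nat_lit 1) (nat_lit 307) (nat_lit 426) (nat_lit 407)) (XT.lf (nat_lit 1900) (nat_lit 37573622) (nat_lit 0) (nat_lit 8257638305) (nat_lit 1824) (nat_lit 37573622) (nat_lit 532) (nat_lit 1) (nat_lit 507) (nat_lit 1) (nat_lit 531) (nat_lit 1) (nat_lit 308) (nat_lit 426) (nat_lit 406))) (XT.nd (nat_lit 78) (nat_lit 0) (nat_lit 0) (XT.lf (nat_lit 1976) (nat_lit 3884249800) (nat_lit 0) (nat_lit 487352426) (nat_lit 1900) (nat_lit 3884249800) (nat_lit 508) (nat_lit 1) (nat_lit 482) (nat_lit 1) (nat_lit 507) (nat_lit 1) (nat_lit 309) (nat_lit 426) (nat_lit 405)) (XT.nd (nat_lit 78) (nat_lit 0) (nat_lit 76) (XT.lf (nat_lit 1976) (nat_lit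 7138863543) (nat_lit 76) (nat_lit 520740697) (nat_lit 0) (nat_lit 520740697) (nat_lit 508) (nat_lit 1) (nat_lit 483) (nat_lit 1) (nat_lit 482) (nat_lit 1) (nat_lit 310) (nat_lit 426) (nat_lit 404)) (XT.lf (nat_lit 1976) (nat_lit 3237148024) (nat_lit 0) (nat_lit 1631095326) (nat_lit 1900) (nat_lit 3237148024) (nat_lit 509) (nat_lit 1) (nat_lit 483) (nat_lit 1) (nat_lit 508) (nat_lit 1) (nat_lit 311) (nat_lit 426) (nat_lit 403))))))))
noncomputable def ec169 : XT := (XT.nd (nat_lit 1404) (nat_lit 7372) (nat_lit 0) (XT.nd (nat_lit 702) (nat_lit 4256) (nat_lit 0) (XT.nd (nat_lit 312) (nat_lit 2660) (nat_lit 0) (XT.nd (nat_lit 156) (nat_lit 1064) (nat_lit 0) (XT.nd (nat_lit 78) (nat_lit 0) (nat_lit 76) (XT.lf (nat_lit 1976) (nat_lit 5812028399) (nat_lit 76) (nat_lit 1109834341) (nat_lit 0) (nat_lit 1109834341) (nat_lit 509) (nat_lit 1) (nat_lit 484) (nat_lit 1) (nat_lit 483) (nat_lit 1) (nat_lit 312) (nat_lit 426) (nat_lit 402)) (XT.lf (nat_lit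 76) (nat_lit 2562128068) (nat_lit 0) (nat_lit 2834436926) (nat_lit 1900) (nat_lit 2562128068) (nat_lit 485) (nat_lit 1) (nat_lit 484) (nat_lit 1) (nat_lit 509) (nat_lit 1) (nat_lit 313) (nat_lit 426) (nat_lit 401))) (XT.nd (nat_lit 78) (nat_lit 0) (nat_lit 0) (XT.lf (nat_lit 1216) (nat_lit 4431321991) (nat_lit 0) (nat_lit 1727716432) (nat_lit 1140) (nat_lit 1727716432) (nat_lit 485) (nat_lit 1) (nat_lit 469) (nat_lit 1) (nat_lit 484) (nat_lit 1) (nat_lit 314) (nat_lit 426) (nat_lit 400)) (XT.lf (nat_lit 76) (nat_lit 1861314144) (nat_lit 0) (nat_lit 4093023491) (nat_lit 1216) (nat_lit 1861314144) (nat_lit 470) (nat_lit 1) (nat_lit 469) (nat_lit 1) (nat_lit 485) (nat_lit 1) (nat_lit 315) (nat_lit 426) (nat_lit 399)))) (XT.nd (nat_lit 156) (nat_lit 1748) (nat_lit 0) (XT.nd (nat_lit 78) (nat_lit 0) (nat_lit 0) (XT.lf (nat_lit 988) (nat_lit 3000902753) (nat_lit 0) (nat_lit 2372256066) (nat_lit 912) (nat_lit 2372256066) (nat_lit 470) (nat_lit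 1) (nat_lit 457) (nat_lit 1) (nat_lit 469) (nat_lit 1) (nat_lit 316) (nat_lit 426) (nat_lit 398)) (XT.lf (nat_lit 76) (nat_lit 1136727585) (nat_lit 0) (nat_lit 5402710338) (nat_lit 988) (nat_lit 1136727585) (nat_lit 458) (nat_lit 1) (nat_lit 457) (nat_lit 1) (nat_lit 470) (nat_lit 1) (nat_lit 317) (nat_lit 426) (nat_lit 397))) (XT.nd (nat_lit 78) (nat_lit 836) (nat_lit 0) (XT.lf (nat_lit 988) (nat_lit 1524727120) (nat_lit 0) (nat_lit 3041424949) (nat_lit 912) (nat_lit 3041424949) (nat_lit 458) (nat_lit 1) (nat_lit 445) (nat_lit 1) (nat_lit 457) (nat_lit 1) (nat_lit 318) (nat_lit 426) (nat_lit 396)) (XT.nd (nat_lit 78) (nat_lit 836) (nat_lit 0) (XT.lf (nat_lit 76) (nat_lit 390291240) (nat_lit 0) (nat_lit 6759552930) (nat_lit 988) (nat_lit 390291240) (nat_lit 446) (nat_lit 1) (nat_lit 445) (nat_lit 1) (nat_lit 458) (nat_lit 1) (nat_lit 319) (nat_lit 426) (nat_lit 395)) (XT.lf (nat_lit 912) (nat_lit 6558170) (nat_lit 0) (nat_lit 3733293021)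 (nat_lit 836) (nat_lit 3733293021) (nat_lit 446) (nat_lit 1) (nat_lit 434) (nat_lit 1) (nat_lit 445) (nat_lit 1) (nat_lit 320) (nat_lit 426) (nat_lit 394)))))) (XT.nd (nat_lit 312) (nat_lit 2432) (nat_lit 0) (XT.nd (nat_lit 156) (nat_lit 836) (nat_lit 0) (XT.nd (nat_lit 78) (nat_lit 0) (nat_lit 0) (XT.lf (nat_lit 988) (nat_lit 6659886606) (nat_lit 0) (nat_lit 373691533) (nat_lit 912) (nat_lit 373691533) (nat_lit 434) (nat_lit 1) (nat_lit 421) (nat_lit 1) (nat_lit 433) (nat_lit 1) (nat_lit 321) (nat_lit 426) (nat_lit 393)) (XT.lf (nat_lit 76) (nat_lit 2906061964) (nat_lit 0) (nat_lit 1529697220) (nat_lit 988) (nat_lit 2906061964) (nat_lit 422) (nat_lit 1) (nat_lit 421) (nat_lit 1) (nat_lit 434) (nat_lit 1) (nat_lit 322) (nat_lit 426) (nat_lit 392))) (XT.nd (nat_lit 78) (nat_lit 0) (nat_lit 0) (XT.lf (nat_lit 912) (nat_lit 4970920252) (nat_lit 0) (nat_lit 1153269174) (nat_lit 836) (nat_lit 1153269174) (nat_lit 422) (nat_lit 1) (nat_lit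 410) (nat_lit 1) (nat_lit 421) (nat_lit 1) (nat_lit 323) (nat_lit 426) (nat_lit 391)) (XT.lf (nat_lit 76) (nat_lit 2056645381) (nat_lit 0) (nat_lit 3100421809) (nat_lit 912) (nat_lit 2056645381) (nat_lit 411) (nat_lit 1) (nat_lit 410) (nat_lit 1) (nat_lit 422) (nat_lit 1) (nat_lit 324) (nat_lit 426) (nat_lit 390)))) (XT.nd (nat_lit 156) (nat_lit 1596) (nat_lit 0) (XT.nd (nat_lit 78) (nat_lit 0) (nat_lit 0) (XT.lf (nat_lit 912) (nat_lit 3252080026) (nat_lit 0) (nat_lit 1949368243) (nat_lit 836) (nat_lit 1949368243) (nat_lit 411) (nat_lit 1) (nat_lit 399) (nat_lit 1) (nat_lit 410) (nat_lit 1) (nat_lit 325) (nat_lit 426) (nat_lit 389)) (XT.lf (nat_lit 76) (nat_lit 1193109410) (nat_lit 0) (nat_lit 4702512598) (nat_lit 912) (nat_lit 1193109410) (nat_lit 400) (nat_lit 1) (nat_lit 399) (nat_lit 1) (nat_lit 411) (nat_lit 1) (nat_lit 326) (nat_lit 426) (nat_lit 388))) (XT.nd (nat_lit 78) (nat_lit 836) (nat_lit 0) (XT.lf (nat_lit 836) (nat_lit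 1506397703) (nat_lit 0) (nat_lit 2760429678) (nat_lit 760) (nat_lit 2760429678) (nat_lit 400) (nat_lit 1) (nat_lit 389) (nat_lit 1) (nat_lit 399) (nat_lit 1) (nat_lit 327) (nat_lit 426) (nat_lit 387)) (XT.nd (nat_lit 78) (nat_lit 836) (nat_lit 0) (XT.lf (nat_lit 76) (nat_lit 316925918) (nat_lit 0) (nat_lit 6332940632) (nat_lit 836) (nat_lit 316925918) (nat_lit 390) (nat_lit 1) (nat_lit 389) (nat_lit 1) (nat_lit 400) (nat_lit 1) (nat_lit 328) (nat_lit 426) (nat_lit 386)) (XT.lf (nat_lit 76) (nat_lit 3323432762) (nat_lit 0) (nat_lit 259796807) (nat_lit 836) (nat_lit 3323432762) (nat_lit 379) (nat_lit 1) (nat_lit 378) (nat_lit 1) (nat_lit 389) (nat_lit 1) (nat_lit 329) (nat_lit 426) (nat_lit 385))))))) (XT.nd (nat_lit 702) (nat_lit 3724) (nat_lit 0) (XT.nd (nat_lit 312) (nat_lit 2128) (nat_lit 0) (XT.nd (nat_lit 156) (nat_lit 760) (nat_lit 0) (XT.nd (nat_lit 78) (nat_lit 0) (nat_lit 0) (XT.lf (nat_lit 836) (nat_lit 5714005480) (nat_lit 0)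 (nat_lit 566755147) (nat_lit 760) (nat_lit 566755147) (nat_lit 379) (nat_lit 1) (nat_lit 368) (nat_lit 1) (nat_lit 378) (nat_lit 1) (nat_lit 330) (nat_lit 426) (nat_lit 384)) (XT.lf (nat_lit 76) (nat_lit 2380797857) (nat_lit 0) (nat_lit 2027191257) (nat_lit 836) (nat_lit 2380797857) (nat_lit 369) (nat_lit 1) (nat_lit 368) (nat_lit 1) (nat_lit 379) (nat_lit 1) (nat_lit 331) (nat_lit 426) (nat_lit 383))) (XT.nd (nat_lit 78) (nat_lit 0) (nat_lit 0) (XT.lf (nat_lit 836) (nat_lit 3814523864) (nat_lit 0) (nat_lit 1458212171) (nat_lit 760) (nat_lit 1458212171) (nat_lit 369) (nat_lit 1) (nat_lit 358) (nat_lit 1) (nat_lit 368) (nat_lit 1) (nat_lit 332) (nat_lit 426) (nat_lit 382)) (XT.lf (nat_lit 76) (nat_lit 1430380152) (nat_lit 0) (nat_lit 3812987905) (nat_lit 836) (nat_lit 1430380152) (nat_lit 359) (nat_lit 1) (nat_lit 358) (nat_lit 1) (nat_lit 369) (nat_lit 1) (nat_lit 333) (nat_lit 426) (nat_lit 381)))) (XT.nd (nat_lit 156) (nat_lit 1444)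 (nat_lit 0) (XT.nd (nat_lit 78) (nat_lit 0) (nat_lit 0) (XT.lf (nat_lit 760) (nat_lit 1900612542) (nat_lit 0) (nat_lit 2358282682) (nat_lit 684) (nat_lit 2358282682) (nat_lit 359) (nat_lit 1) (nat_lit 349) (nat_lit 1) (nat_lit 358) (nat_lit 1) (nat_lit 334) (nat_lit 426) (nat_lit 380)) (XT.lf (nat_lit 76) (nat_lit 473352185) (nat_lit 0) (nat_lit 5614765657) (nat_lit 760) (nat_lit 473352185) (nat_lit 350) (nat_lit 1) (nat_lit 349) (nat_lit 1) (nat_lit 359) (nat_lit 1) (nat_lit 335) (nat_lit 426) (nat_lit 379))) (XT.nd (nat_lit 78) (nat_lit 684) (nat_lit 0) (XT.lf (nat_lit 76) (nat_lit 3240510762) (nat_lit 0) (nat_lit 25105331) (nat_lit 760) (nat_lit 3240510762) (nat_lit 340) (nat_lit 1) (nat_lit 339) (nat_lit 1) (nat_lit 349) (nat_lit 1) (nat_lit 336) (nat_lit 426) (nat_lit 378)) (XT.nd (nat_lit 78) (nat_lit 0) (nat_lit 0) (XT.lf (nat_lit 760) (nat_lit 5479708078) (nat_lit 0) (nat_lit 485957837) (nat_lit 684) (nat_lit 485957837) (nat_lit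 340) (nat_lit 1) (nat_lit 330) (nat_lit 1) (nat_lit 339) (nat_lit 1) (nat_lit 337) (nat_lit 426) (nat_lit 377)) (XT.lf (nat_lit 76) (nat_lit 2230869385) (nat_lit 0) (nat_lit 1935739009) (nat_lit 760) (nat_lit 2230869385) (nat_lit 331) (nat_lit 1) (nat_lit 330) (nat_lit 1) (nat_lit 340) (nat_lit 1) (nat_lit 338) (nat_lit 426) (nat_lit 376)))))) (XT.nd (nat_lit 390) (nat_lit 1748) (nat_lit 0) (XT.nd (nat_lit 156) (nat_lit 1292) (nat_lit 0) (XT.nd (nat_lit 78) (nat_lit 0) (nat_lit 0) (XT.lf (nat_lit 760) (nat_lit 3450994521) (nat_lit 0) (nat_lit 1446574631) (nat_lit 684) (nat_lit 1446574631) (nat_lit 331) (nat_lit 1) (nat_lit 321) (nat_lit 1) (nat_lit 330) (nat_lit 1) (nat_lit 339) (nat_lit 426) (nat_lit 375)) (XT.lf (nat_lit 76) (nat_lit 1218607259) (nat_lit 0) (nat_lit 3854192912) (nat_lit 760) (nat_lit 1218607259) (nat_lit 322) (nat_lit 1) (nat_lit 321) (nat_lit 1) (nat_lit 331) (nat_lit 1) (nat_lit 340) (nat_lit 426) (nat_lit 374)))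 (XT.nd (nat_lit 78) (nat_lit 684) (nat_lit 0) (XT.lf (nat_lit 684) (nat_lit 1417956022) (nat_lit 0) (nat_lit 2410625957) (nat_lit 608) (nat_lit 2410625957) (nat_lit 322) (nat_lit 1) (nat_lit 313) (nat_lit 1) (nat_lit 321) (nat_lit 1) (nat_lit 341) (nat_lit 426) (nat_lit 373)) (XT.nd (nat_lit 78) (nat_lit 684) (nat_lit 0) (XT.lf (nat_lit 76) (nat_lit 204646274) (nat_lit 0) (nat_lit 5778555286) (nat_lit 684) (nat_lit 204646274) (nat_lit 314) (nat_lit 1) (nat_lit 313) (nat_lit 1) (nat_lit 322) (nat_lit 1) (nat_lit 342) (nat_lit 426) (nat_lit 372)) (XT.lf (nat_lit 76) (nat_lit 2763579608) (nat_lit 0) (nat_lit 609509952) (nat_lit 684) (nat_lit 2763579608) (nat_lit 305) (nat_lit 1) (nat_lit 304) (nat_lit 1) (nat_lit 313) (nat_lit 1) (nat_lit 343) (nat_lit 426) (nat_lit 371))))) (XT.nd (nat_lit 156) (nat_lit 1140) (nat_lit 0) (XT.nd (nat_lit 78) (nat_lit 0) (nat_lit 0) (XT.lf (nat_lit 684) (nat_lit 4476683490) (nat_lit 0) (nat_lit 804813663)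 (nat_lit 608) (nat_lit 804813663) (nat_lit 305) (nat_lit 1) (nat_lit 296) (nat_lit 1) (nat_lit 304) (nat_lit 1) (nat_lit 344) (nat_lit 426) (nat_lit 370)) (XT.lf (nat_lit 76) (nat_lit 1708579209) (nat_lit 0) (nat_lit 2619200155) (nat_lit 684) (nat_lit 1708579209) (nat_lit 297) (nat_lit 1) (nat_lit 296) (nat_lit 1) (nat_lit 305) (nat_lit 1) (nat_lit 345) (nat_lit 426) (nat_lit 369))) (XT.nd (nat_lit 78) (nat_lit 532) (nat_lit 0) (XT.lf (nat_lit 684) (nat_lit 2361176766) (nat_lit 0) (nat_lit 1812935572) (nat_lit 608) (nat_lit 1812935572) (nat_lit 297) (nat_lit 1) (nat_lit 288) (nat_lit 1) (nat_lit 296) (nat_lit 1) (nat_lit 346) (nat_lit 426) (nat_lit 368)) (XT.nd (nat_lit 78) (nat_lit 532) (nat_lit 0) (XT.lf (nat_lit 76) (nat_lit 655131852) (nat_lit 0) (nat_lit 4628133812) (nat_lit 684) (nat_lit 655131852) (nat_lit 289) (nat_lit 1) (nat_lit 288) (nat_lit 1) (nat_lit 297) (nat_lit 1) (nat_lit 347) (nat_lit 426) (nat_lit 367)) (XT.lf (nat_lit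 608) (nat_lit 249508534) (nat_lit 0) (nat_lit 2820297747) (nat_lit 532) (nat_lit 2820297747) (nat_lit 289) (nat_lit 1) (nat_lit 281) (nat_lit 1) (nat_lit 288) (nat_lit 1) (nat_lit 348) (nat_lit 426) (nat_lit 366))))))))
noncomputable def ec170 : XT := (XT.nd (nat_lit 1404) (nat_lit 4332) (nat_lit 0) (XT.nd (nat_lit 702) (nat_lit 2964) (nat_lit 0) (XT.nd (nat_lit 312) (nat_lit 1672) (nat_lit 0) (XT.nd (nat_lit 156) (nat_lit 532) (nat_lit 0) (XT.nd (nat_lit 78) (nat_lit 0) (nat_lit 0) (XT.lf (nat_lit 684) (nat_lit 5055629962) (nat_lit 0) (nat_lit 393444353) (nat_lit 608) (nat_lit 393444353) (nat_lit 281) (nat_lit 1) (nat_lit 272) (nat_lit 1) (nat_lit 280) (nat_lit 1) (nat_lit 349) (nat_lit 426) (nat_lit 365)) (XT.lf (nat_lit 76) (nat_lit 1981298674) (nat_lit 0) (nat_lit 1832580750) (nat_lit 684) (nat_lit 1981298674) (nat_lit 273) (nat_lit 1) (nat_lit 272) (nat_lit 1) (nat_lit 281) (nat_lit 1) (nat_lit 350) (nat_lit 426) (nat_lit 364)))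 (XT.nd (nat_lit 78) (nat_lit 0) (nat_lit 0) (XT.lf (nat_lit 608) (nat_lit 2878940296) (nat_lit 0) (nat_lit 1434794540) (nat_lit 532) (nat_lit 1434794540) (nat_lit 273) (nat_lit 1) (nat_lit 265) (nat_lit 1) (nat_lit 272) (nat_lit 1) (nat_lit 351) (nat_lit 426) (nat_lit 363)) (XT.lf (nat_lit 76) (nat_lit 898732795) (nat_lit 0) (nat_lit 3904955903) (nat_lit 608) (nat_lit 898732795) (nat_lit 266) (nat_lit 1) (nat_lit 265) (nat_lit 1) (nat_lit 273) (nat_lit 1) (nat_lit 352) (nat_lit 426) (nat_lit 362)))) (XT.nd (nat_lit 156) (nat_lit 532) (nat_lit 0) (XT.nd (nat_lit 78) (nat_lit 608) (nat_lit 0) (XT.lf (nat_lit 608) (nat_lit 711505772) (nat_lit 0) (nat_lit 2472604090) (nat_lit 532) (nat_lit 2472604090) (nat_lit 266) (nat_lit 1) (nat_lit 258) (nat_lit 1) (nat_lit 265) (nat_lit 1) (nat_lit 353) (nat_lit 426) (nat_lit 361)) (XT.lf (nat_lit 608) (nat_lit 5256198744) (nat_lit 0) (nat_lit 177759124) (nat_lit 532) (nat_lit 177759124) (nat_lit 258)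 (nat_lit 1) (nat_lit 250) (nat_lit 1) (nat_lit 257) (nat_lit 1) (nat_lit 354) (nat_lit 426) (nat_lit 360))) (XT.nd (nat_lit 78) (nat_lit 532) (nat_lit 0) (XT.lf (nat_lit 76) (nat_lit 2070115403) (nat_lit 0) (nat_lit 1426598404) (nat_lit 608) (nat_lit 2070115403) (nat_lit 251) (nat_lit 1) (nat_lit 250) (nat_lit 1) (nat_lit 258) (nat_lit 1) (nat_lit 355) (nat_lit 426) (nat_lit 359)) (XT.nd (nat_lit 78) (nat_lit 0) (nat_lit 0) (XT.lf (nat_lit 608) (nat_lit 3036759079) (nat_lit 0) (nat_lit 1242939237) (nat_lit 532) (nat_lit 1242939237) (nat_lit 251) (nat_lit 1) (nat_lit 243) (nat_lit 1) (nat_lit 250) (nat_lit 1) (nat_lit 356) (nat_lit 426) (nat_lit 358)) (XT.lf (nat_lit 76) (nat_lit 967406532) (nat_lit 0) (nat_lit 3544105001) (nat_lit 608) (nat_lit 967406532) (nat_lit 244) (nat_lit 1) (nat_lit 243) (nat_lit 1) (nat_lit 251) (nat_lit 1) (nat_lit 357) (nat_lit 426) (nat_lit 357)))))) (XT.nd (nat_lit 312) (nat_lit 1444) (nat_lit 0) (XT.nd (nat_lit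 156) (nat_lit 456) (nat_lit 0) (XT.nd (nat_lit 78) (nat_lit 608) (nat_lit 0) (XT.lf (nat_lit 532) (nat_lit 831157353) (nat_lit 0) (nat_lit 2302220641) (nat_lit 456) (nat_lit 2302220641) (nat_lit 244) (nat_lit 1) (nat_lit 237) (nat_lit 1) (nat_lit 243) (nat_lit 1) (nat_lit 358) (nat_lit 426) (nat_lit 356)) (XT.lf (nat_lit 608) (nat_lit 5138278068) (nat_lit 0) (nat_lit 127337904) (nat_lit 532) (nat_lit 127337904) (nat_lit 237) (nat_lit 1) (nat_lit 229) (nat_lit 1) (nat_lit 236) (nat_lit 1) (nat_lit 359) (nat_lit 426) (nat_lit 355))) (XT.nd (nat_lit 78) (nat_lit 456) (nat_lit 0) (XT.lf (nat_lit 76) (nat_lit 2004240029) (nat_lit 0) (nat_lit 1341892194) (nat_lit 608) (nat_lit 2004240029) (nat_lit 230) (nat_lit 1) (nat_lit 229) (nat_lit 1) (nat_lit 237) (nat_lit 1) (nat_lit 360) (nat_lit 426) (nat_lit 354)) (XT.lf (nat_lit 532) (nat_lit 2892006714) (nat_lit 0) (nat_lit 1208222874) (nat_lit 456) (nat_lit 1208222874) (nat_lit 230) (nat_lit 1)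 (nat_lit 223) (nat_lit 1) (nat_lit 229) (nat_lit 1) (nat_lit 361) (nat_lit 426) (nat_lit 353)))) (XT.nd (nat_lit 156) (nat_lit 988) (nat_lit 0) (XT.nd (nat_lit 78) (nat_lit 456) (nat_lit 0) (XT.lf (nat_lit 76) (nat_lit 889136320) (nat_lit 0) (nat_lit 3488706451) (nat_lit 532) (nat_lit 889136320) (nat_lit 224) (nat_lit 1) (nat_lit 223) (nat_lit 1) (nat_lit 230) (nat_lit 1) (nat_lit 362) (nat_lit 426) (nat_lit 352)) (XT.lf (nat_lit 532) (nat_lit 663424474) (nat_lit 0) (nat_lit 2281222205) (nat_lit 456) (nat_lit 2281222205) (nat_lit 224) (nat_lit 1) (nat_lit 217) (nat_lit 1) (nat_lit 223) (nat_lit 1) (nat_lit 363) (nat_lit 426) (nat_lit 351))) (XT.nd (nat_lit 78) (nat_lit 456) (nat_lit 0) (XT.lf (nat_lit 532) (nat_lit 4754263052) (nat_lit 0) (nat_lit 215551240) (nat_lit 456) (nat_lit 215551240) (nat_lit 217) (nat_lit 1) (nat_lit 210) (nat_lit 1) (nat_lit 216) (nat_lit 1) (nat_lit 364) (nat_lit 426) (nat_lit 350)) (XT.nd (nat_lit 78) (nat_lit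 456) (nat_lit 0) (XT.lf (nat_lit 76) (nat_lit 1809224461) (nat_lit 0) (nat_lit 1526505626) (nat_lit 532) (nat_lit 1809224461) (nat_lit 211) (nat_lit 1) (nat_lit 210) (nat_lit 1) (nat_lit 217) (nat_lit 1) (nat_lit 365) (nat_lit 426) (nat_lit 349)) (XT.lf (nat_lit 532) (nat_lit 2494862857) (nat_lit 0) (nat_lit 1305138081) (nat_lit 456) (nat_lit 1305138081) (nat_lit 211) (nat_lit 1) (nat_lit 204) (nat_lit 1) (nat_lit 210) (nat_lit 1) (nat_lit 366) (nat_lit 426) (nat_lit 348))))))) (XT.nd (nat_lit 702) (nat_lit 2204) (nat_lit 0) (XT.nd (nat_lit 312) (nat_lit 1216) (nat_lit 0) (XT.nd (nat_lit 156) (nat_lit 532) (nat_lit 0) (XT.nd (nat_lit 78) (nat_lit 380) (nat_lit 0) (XT.lf (nat_lit 76) (nat_lit 688392810) (nat_lit 0) (nat_lit 3688994599) (nat_lit 532) (nat_lit 688392810) (nat_lit 205) (nat_lit 1) (nat_lit 204) (nat_lit 1) (nat_lit 211) (nat_lit 1) (nat_lit 367) (nat_lit 426) (nat_lit 347)) (XT.lf (nat_lit 456) (nat_lit 256361765) (nat_lit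 0) (nat_lit 2385177760) (nat_lit 380) (nat_lit 2385177760) (nat_lit 205) (nat_lit 1) (nat_lit 199) (nat_lit 1) (nat_lit 204) (nat_lit 1) (nat_lit 368) (nat_lit 426) (nat_lit 346))) (XT.nd (nat_lit 78) (nat_lit 0) (nat_lit 0) (XT.lf (nat_lit 532) (nat_lit 4149927630) (nat_lit 0) (nat_lit 419119749) (nat_lit 456) (nat_lit 419119749) (nat_lit 199) (nat_lit 1) (nat_lit 192) (nat_lit 1) (nat_lit 198) (nat_lit 1) (nat_lit 369) (nat_lit 426) (nat_lit 345)) (XT.lf (nat_lit 76) (nat_lit 1507387783) (nat_lit 0) (nat_lit 1935025771) (nat_lit 532) (nat_lit 1507387783) (nat_lit 193) (nat_lit 1) (nat_lit 192) (nat_lit 1) (nat_lit 199) (nat_lit 1) (nat_lit 370) (nat_lit 426) (nat_lit 344)))) (XT.nd (nat_lit 156) (nat_lit 836) (nat_lit 0) (XT.nd (nat_lit 78) (nat_lit 0) (nat_lit 0) (XT.lf (nat_lit 456) (nat_lit 1889150954) (nat_lit 0) (nat_lit 1511393624) (nat_lit 380) (nat_lit 1511393624) (nat_lit 193) (nat_lit 1) (nat_lit 187) (nat_lit 1) (nat_lit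 192) (nat_lit 1) (nat_lit 371) (nat_lit 426) (nat_lit 343)) (XT.lf (nat_lit 76) (nat_lit 386543240) (nat_lit 0) (nat_lit 4101485688) (nat_lit 456) (nat_lit 386543240) (nat_lit 188) (nat_lit 1) (nat_lit 187) (nat_lit 1) (nat_lit 193) (nat_lit 1) (nat_lit 372) (nat_lit 426) (nat_lit 342))) (XT.nd (nat_lit 78) (nat_lit 380) (nat_lit 0) (XT.lf (nat_lit 76) (nat_lit 2246925891) (nat_lit 0) (nat_lit 343512732) (nat_lit 456) (nat_lit 2246925891) (nat_lit 182) (nat_lit 1) (nat_lit 181) (nat_lit 1) (nat_lit 187) (nat_lit 1) (nat_lit 373) (nat_lit 426) (nat_lit 341)) (XT.nd (nat_lit 78) (nat_lit 0) (nat_lit 0) (XT.lf (nat_lit 456) (nat_lit 3365197498) (nat_lit 0) (nat_lit 717723557) (nat_lit 380) (nat_lit 717723557) (nat_lit 182) (nat_lit 1) (nat_lit 176) (nat_lit 1) (nat_lit 181) (nat_lit 1) (nat_lit 374) (nat_lit 426) (nat_lit 340)) (XT.lf (nat_lit 76) (nat_lit 1118193806) (nat_lit 0) (nat_lit 2527820112) (nat_lit 456) (nat_lit 1118193806) (nat_lit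 177) (nat_lit 1) (nat_lit 176) (nat_lit 1) (nat_lit 182) (nat_lit 1) (nat_lit 375) (nat_lit 426) (nat_lit 339)))))) (XT.nd (nat_lit 312) (nat_lit 1064) (nat_lit 0) (XT.nd (nat_lit 156) (nat_lit 760) (nat_lit 0) (XT.nd (nat_lit 78) (nat_lit 0) (nat_lit 0) (XT.lf (nat_lit 456) (nat_lit 1113080859) (nat_lit 0) (nat_lit 1807539170) (nat_lit 380) (nat_lit 1807539170) (nat_lit 177) (nat_lit 1) (nat_lit 171) (nat_lit 1) (nat_lit 176) (nat_lit 1) (nat_lit 376) (nat_lit 426) (nat_lit 338)) (XT.lf (nat_lit 76) (nat_lit 2214166) (nat_lit 0) (nat_lit 4688244640) (nat_lit 456) (nat_lit 2214166) (nat_lit 172) (nat_lit 1) (nat_lit 171) (nat_lit 1) (nat_lit 177) (nat_lit 1) (nat_lit 377) (nat_lit 426) (nat_lit 337))) (XT.nd (nat_lit 78) (nat_lit 380) (nat_lit 0) (XT.lf (nat_lit 76) (nat_lit 1779202549) (nat_lit 0) (nat_lit 1098728106) (nat_lit 380) (nat_lit 1779202549) (nat_lit 167) (nat_lit 1) (nat_lit 166) (nat_lit 1) (nat_lit 171) (nat_lit 1) (nat_lit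 378) (nat_lit 426) (nat_lit 336)) (XT.lf (nat_lit 456) (nat_lit 2434835226) (nat_lit 0) (nat_lit 1093656102) (nat_lit 380) (nat_lit 1093656102) (nat_lit 167) (nat_lit 1) (nat_lit 161) (nat_lit 1) (nat_lit 166) (nat_lit 1) (nat_lit 379) (nat_lit 426) (nat_lit 335)))) (XT.nd (nat_lit 156) (nat_lit 760) (nat_lit 0) (XT.nd (nat_lit 78) (nat_lit 304) (nat_lit 0) (XT.lf (nat_lit 76) (nat_lit 658585699) (nat_lit 0) (nat_lit 3270360080) (nat_lit 456) (nat_lit 658585699) (nat_lit 162) (nat_lit 1) (nat_lit 161) (nat_lit 1) (nat_lit 167) (nat_lit 1) (nat_lit 380) (nat_lit 426) (nat_lit 334)) (XT.lf (nat_lit 380) (nat_lit 199907020) (nat_lit 0) (nat_lit 2176632689) (nat_lit 304) (nat_lit 2176632689) (nat_lit 162) (nat_lit 1) (nat_lit 157) (nat_lit 1) (nat_lit 161) (nat_lit 1) (nat_lit 381) (nat_lit 426) (nat_lit 333))) (XT.nd (nat_lit 78) (nat_lit 304) (nat_lit 0) (XT.lf (nat_lit 456) (nat_lit 3628353117) (nat_lit 0) (nat_lit 445437135) (nat_lit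 380) (nat_lit 445437135) (nat_lit 157) (nat_lit 1) (nat_lit 151) (nat_lit 1) (nat_lit 156) (nat_lit 1) (nat_lit 382) (nat_lit 426) (nat_lit 332)) (XT.nd (nat_lit 78) (nat_lit 304) (nat_lit 0) (XT.lf (nat_lit 76) (nat_lit 1252098201) (nat_lit 0) (nat_lit 1981254959) (nat_lit 456) (nat_lit 1252098201) (nat_lit 152) (nat_lit 1) (nat_lit 151) (nat_lit 1) (nat_lit 157) (nat_lit 1) (nat_lit 383) (nat_lit 426) (nat_lit 331)) (XT.lf (nat_lit 380) (nat_lit 1389047404) (nat_lit 0) (nat_lit 1531517314) (nat_lit 304) (nat_lit 1531517314) (nat_lit 152) (nat_lit 1) (nat_lit 147) (nat_lit 1) (nat_lit 151) (nat_lit 1) (nat_lit 384) (nat_lit 426) (nat_lit 330))))))))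
noncomputable def ec171 : XT := (XT.nd (nat_lit 1404) (nat_lit 2964) (nat_lit 0) (XT.nd (nat_lit 702) (nat_lit 1824) (nat_lit 0) (XT.nd (nat_lit 312) (nat_lit 988) (nat_lit 0) (XT.nd (nat_lit 156) (nat_lit 304) (nat_lit 0) (XT.nd (nat_lit 78) (nat_lit 380) (nat_lit 0) (XT.lf (nat_lit 76) (nat_lit 143282541) (nat_lit 0) (nat_lit 4132621547) (nat_lit 380) (nat_lit 143282541) (nat_lit 148) (nat_lit 1) (nat_lit 147) (nat_lit 1) (nat_lit 152) (nat_lit 1) (nat_lit 385) (nat_lit 426) (nat_lit 329)) (XT.lf (nat_lit 76) (nat_lit 1787791093) (nat_lit 0) (nat_lit 810714271) (nat_lit 380) (nat_lit 1787791093) (nat_lit 143) (nat_lit 1) (nat_lit 142) (nat_lit 1) (nat_lit 147) (nat_lit 1) (nat_lit 386) (nat_lit 426) (nat_lit 328))) (XT.nd (nat_lit 78) (nat_lit 0) (nat_lit 0) (XT.lf (nat_lit 380) (nat_lit 2464014323) (nat_lit 0) (nat_lit 944929539) (nat_lit 304) (nat_lit 944929539) (nat_lit 143) (nat_lit 1) (nat_lit 138) (nat_lit 1) (nat_lit 142) (nat_lit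 1) (nat_lit 387) (nat_lit 426) (nat_lit 327)) (XT.lf (nat_lit 76) (nat_lit 678961966) (nat_lit 0) (nat_lit 2963842201) (nat_lit 380) (nat_lit 678961966) (nat_lit 139) (nat_lit 1) (nat_lit 138) (nat_lit 1) (nat_lit 143) (nat_lit 1) (nat_lit 388) (nat_lit 426) (nat_lit 326)))) (XT.nd (nat_lit 156) (nat_lit 304) (nat_lit 0) (XT.nd (nat_lit 78) (nat_lit 380) (nat_lit 0) (XT.lf (nat_lit 380) (nat_lit 254022626) (nat_lit 0) (nat_lit 2017941729) (nat_lit 304) (nat_lit 2017941729) (nat_lit 139) (nat_lit 1) (nat_lit 134) (nat_lit 1) (nat_lit 138) (nat_lit 1) (nat_lit 389) (nat_lit 426) (nat_lit 325)) (XT.lf (nat_lit 380) (nat_lit 3433965649) (nat_lit 0) (nat_lit 412227926) (nat_lit 304) (nat_lit 412227926) (nat_lit 134) (nat_lit 1) (nat_lit 129) (nat_lit 1) (nat_lit 133) (nat_lit 1) (nat_lit 390) (nat_lit 426) (nat_lit 324))) (XT.nd (nat_lit 78) (nat_lit 304) (nat_lit 0) (XT.lf (nat_lit 76) (nat_lit 1163129481) (nat_lit 0) (nat_lit 1900817048)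 (nat_lit 380) (nat_lit 1163129481) (nat_lit 130) (nat_lit 1) (nat_lit 129) (nat_lit 1) (nat_lit 134) (nat_lit 1) (nat_lit 391) (nat_lit 426) (nat_lit 323)) (XT.nd (nat_lit 78) (nat_lit 0) (nat_lit 0) (XT.lf (nat_lit 380) (nat_lit 1227766639) (nat_lit 0) (nat_lit 1484166648) (nat_lit 304) (nat_lit 1484166648) (nat_lit 130) (nat_lit 1) (nat_lit 125) (nat_lit 1) (nat_lit 129) (nat_lit 1) (nat_lit 392) (nat_lit 426) (nat_lit 322)) (XT.lf (nat_lit 76) (nat_lit 71341238) (nat_lit 0) (nat_lit 4022889327) (nat_lit 380) (nat_lit 71341238) (nat_lit 126) (nat_lit 1) (nat_lit 125) (nat_lit 1) (nat_lit 130) (nat_lit 1) (nat_lit 393) (nat_lit 426) (nat_lit 321)))))) (XT.nd (nat_lit 312) (nat_lit 912) (nat_lit 0) (XT.nd (nat_lit 156) (nat_lit 304) (nat_lit 0) (XT.nd (nat_lit 78) (nat_lit 304) (nat_lit 0) (XT.lf (nat_lit 76) (nat_lit 1599918100) (nat_lit 0) (nat_lit 935164065) (nat_lit 304) (nat_lit 1599918100) (nat_lit 122) (nat_lit 1) (nat_lit 121)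 (nat_lit 1) (nat_lit 125) (nat_lit 1) (nat_lit 394) (nat_lit 426) (nat_lit 320)) (XT.lf (nat_lit 380) (nat_lit 2107883258) (nat_lit 0) (nat_lit 998493913) (nat_lit 304) (nat_lit 998493913) (nat_lit 122) (nat_lit 1) (nat_lit 117) (nat_lit 1) (nat_lit 121) (nat_lit 1) (nat_lit 395) (nat_lit 426) (nat_lit 319))) (XT.nd (nat_lit 78) (nat_lit 304) (nat_lit 0) (XT.lf (nat_lit 76) (nat_lit 511690832) (nat_lit 0) (nat_lit 3051677290) (nat_lit 380) (nat_lit 511690832) (nat_lit 118) (nat_lit 1) (nat_lit 117) (nat_lit 1) (nat_lit 122) (nat_lit 1) (nat_lit 396) (nat_lit 426) (nat_lit 318)) (XT.lf (nat_lit 76) (nat_lit 1993141969) (nat_lit 0) (nat_lit 59145994) (nat_lit 304) (nat_lit 1993141969) (nat_lit 114) (nat_lit 1) (nat_lit 113) (nat_lit 1) (nat_lit 117) (nat_lit 1) (nat_lit 397) (nat_lit 426) (nat_lit 317)))) (XT.nd (nat_lit 156) (nat_lit 608) (nat_lit 0) (XT.nd (nat_lit 78) (nat_lit 0) (nat_lit 0) (XT.lf (nat_lit 380) (nat_lit 2901884448)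 (nat_lit 0) (nat_lit 557114176) (nat_lit 304) (nat_lit 557114176) (nat_lit 114) (nat_lit 1) (nat_lit 109) (nat_lit 1) (nat_lit 113) (nat_lit 1) (nat_lit 398) (nat_lit 426) (nat_lit 316)) (XT.lf (nat_lit 76) (nat_lit 909764957) (nat_lit 0) (nat_lit 2167463779) (nat_lit 380) (nat_lit 909764957) (nat_lit 110) (nat_lit 1) (nat_lit 109) (nat_lit 1) (nat_lit 114) (nat_lit 1) (nat_lit 399) (nat_lit 426) (nat_lit 315))) (XT.nd (nat_lit 78) (nat_lit 380) (nat_lit 0) (XT.lf (nat_lit 304) (nat_lit 744138389) (nat_lit 0) (nat_lit 1607013780) (nat_lit 228) (nat_lit 1607013780) (nat_lit 110) (nat_lit 1) (nat_lit 106) (nat_lit 1) (nat_lit 109) (nat_lit 1) (nat_lit 400) (nat_lit 426) (nat_lit 314)) (XT.nd (nat_lit 78) (nat_lit 0) (nat_lit 0) (XT.lf (nat_lit 380) (nat_lit 3616702617) (nat_lit 0) (nat_lit 156511051) (nat_lit 304) (nat_lit 156511051) (nat_lit 106) (nat_lit 1) (nat_lit 101) (nat_lit 1) (nat_lit 105) (nat_lit 1) (nat_lit 401) (nat_lit 426)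 (nat_lit 313)) (XT.lf (nat_lit 76) (nat_lit 1268954471) (nat_lit 0) (nat_lit 1363367844) (nat_lit 380) (nat_lit 1268954471) (nat_lit 102) (nat_lit 1) (nat_lit 101) (nat_lit 1) (nat_lit 106) (nat_lit 1) (nat_lit 402) (nat_lit 426) (nat_lit 312))))))) (XT.nd (nat_lit 702) (nat_lit 1444) (nat_lit 0) (XT.nd (nat_lit 312) (nat_lit 760) (nat_lit 0) (XT.nd (nat_lit 156) (nat_lit 532) (nat_lit 0) (XT.nd (nat_lit 78) (nat_lit 0) (nat_lit 0) (XT.lf (nat_lit 304) (nat_lit 1471298559) (nat_lit 0) (nat_lit 1200956111) (nat_lit 228) (nat_lit 1200956111) (nat_lit 102) (nat_lit 1) (nat_lit 98) (nat_lit 1) (nat_lit 101) (nat_lit 1) (nat_lit 403) (nat_lit 426) (nat_lit 311)) (XT.lf (nat_lit 76) (nat_lit 207929202) (nat_lit 0) (nat_lit 3429645633) (nat_lit 304) (nat_lit 207929202) (nat_lit 99) (nat_lit 1) (nat_lit 98) (nat_lit 1) (nat_lit 102) (nat_lit 1) (nat_lit 404) (nat_lit 426) (nat_lit 310))) (XT.nd (nat_lit 78) (nat_lit 228) (nat_lit 0) (XT.lf (nat_lit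 76) (nat_lit 1592388643) (nat_lit 0) (nat_lit 633037564) (nat_lit 304) (nat_lit 1592388643) (nat_lit 95) (nat_lit 1) (nat_lit 94) (nat_lit 1) (nat_lit 98) (nat_lit 1) (nat_lit 405) (nat_lit 426) (nat_lit 309)) (XT.lf (nat_lit 304) (nat_lit 2127712945) (nat_lit 0) (nat_lit 831383870) (nat_lit 228) (nat_lit 831383870) (nat_lit 95) (nat_lit 1) (nat_lit 91) (nat_lit 1) (nat_lit 94) (nat_lit 1) (nat_lit 406) (nat_lit 426) (nat_lit 308)))) (XT.nd (nat_lit 156) (nat_lit 532) (nat_lit 0) (XT.nd (nat_lit 78) (nat_lit 228) (nat_lit 0) (XT.lf (nat_lit 76) (nat_lit 538642271) (nat_lit 0) (nat_lit 2686121654) (nat_lit 304) (nat_lit 538642271) (nat_lit 92) (nat_lit 1) (nat_lit 91) (nat_lit 1) (nat_lit 95) (nat_lit 1) (nat_lit 407) (nat_lit 426) (nat_lit 307)) (XT.lf (nat_lit 304) (nat_lit 29780922) (nat_lit 0) (nat_lit 1853367574) (nat_lit 228) (nat_lit 1853367574) (nat_lit 92) (nat_lit 1) (nat_lit 88) (nat_lit 1) (nat_lit 91) (nat_lit 1) (nat_lit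 408) (nat_lit 426) (nat_lit 306))) (XT.nd (nat_lit 78) (nat_lit 228) (nat_lit 0) (XT.lf (nat_lit 304) (nat_lit 2719070521) (nat_lit 0) (nat_lit 495409460) (nat_lit 228) (nat_lit 495409460) (nat_lit 88) (nat_lit 1) (nat_lit 84) (nat_lit 1) (nat_lit 87) (nat_lit 1) (nat_lit 409) (nat_lit 426) (nat_lit 305)) (XT.nd (nat_lit 78) (nat_lit 228) (nat_lit 0) (XT.lf (nat_lit 76) (nat_lit 837374971) (nat_lit 0) (nat_lit 2008678088) (nat_lit 304) (nat_lit 837374971) (nat_lit 85) (nat_lit 1) (nat_lit 84) (nat_lit 1) (nat_lit 88) (nat_lit 1) (nat_lit 410) (nat_lit 426) (nat_lit 304)) (XT.lf (nat_lit 304) (nat_lit 637691252) (nat_lit 0) (nat_lit 1509767551) (nat_lit 228) (nat_lit 1509767551) (nat_lit 85) (nat_lit 1) (nat_lit 81) (nat_lit 1) (nat_lit 84) (nat_lit 1) (nat_lit 411) (nat_lit 426) (nat_lit 303)))))) (XT.nd (nat_lit 390) (nat_lit 684) (nat_lit 0) (XT.nd (nat_lit 156) (nat_lit 456) (nat_lit 0) (XT.nd (nat_lit 78) (nat_lit 0) (nat_lit 0) (XT.lf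 (nat_lit 304) (nat_lit 3250621108) (nat_lit 0) (nat_lit 190367327) (nat_lit 228) (nat_lit 190367327) (nat_lit 81) (nat_lit 1) (nat_lit 77) (nat_lit 1) (nat_lit 80) (nat_lit 1) (nat_lit 412) (nat_lit 426) (nat_lit 302)) (XT.lf (nat_lit 76) (nat_lit 1106695991) (nat_lit 0) (nat_lit 1392097167) (nat_lit 304) (nat_lit 1106695991) (nat_lit 78) (nat_lit 1) (nat_lit 77) (nat_lit 1) (nat_lit 81) (nat_lit 1) (nat_lit 413) (nat_lit 426) (nat_lit 301))) (XT.nd (nat_lit 78) (nat_lit 228) (nat_lit 0) (XT.lf (nat_lit 304) (nat_lit 1187342149) (nat_lit 0) (nat_lit 1196303999) (nat_lit 228) (nat_lit 1196303999) (nat_lit 78) (nat_lit 1) (nat_lit 74) (nat_lit 1) (nat_lit 77) (nat_lit 1) (nat_lit 414) (nat_lit 426) (nat_lit 300)) (XT.nd (nat_lit 78) (nat_lit 228) (nat_lit 0) (XT.lf (nat_lit 76) (nat_lit 86773873) (nat_lit 0) (nat_lit 3381209982) (nat_lit 304) (nat_lit 86773873) (nat_lit 75) (nat_lit 1) (nat_lit 74) (nat_lit 1) (nat_lit 78) (nat_lit 1) (nat_lit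 415) (nat_lit 426) (nat_lit 299)) (XT.lf (nat_lit 76) (nat_lit 1348975788) (nat_lit 0) (nat_lit 831562113) (nat_lit 228) (nat_lit 1348975788) (nat_lit 72) (nat_lit 1) (nat_lit 71) (nat_lit 1) (nat_lit 74) (nat_lit 1) (nat_lit 416) (nat_lit 426) (nat_lit 298))))) (XT.nd (nat_lit 156) (nat_lit 456) (nat_lit 0) (XT.nd (nat_lit 78) (nat_lit 0) (nat_lit 0) (XT.lf (nat_lit 304) (nat_lit 1683404930) (nat_lit 0) (nat_lit 910604048) (nat_lit 228) (nat_lit 910604048) (nat_lit 72) (nat_lit 1) (nat_lit 68) (nat_lit 1) (nat_lit 71) (nat_lit 1) (nat_lit 417) (nat_lit 426) (nat_lit 297)) (XT.lf (nat_lit 76) (nat_lit 338801489) (nat_lit 0) (nat_lit 2802379037) (nat_lit 304) (nat_lit 338801489) (nat_lit 69) (nat_lit 1) (nat_lit 68) (nat_lit 1) (nat_lit 72) (nat_lit 1) (nat_lit 418) (nat_lit 426) (nat_lit 296))) (XT.nd (nat_lit 78) (nat_lit 228) (nat_lit 0) (XT.lf (nat_lit 76) (nat_lit 1566401738) (nat_lit 0) (nat_lit 322626534) (nat_lit 228) (nat_lit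 1566401738) (nat_lit 66) (nat_lit 1) (nat_lit 65) (nat_lit 1) (nat_lit 68) (nat_lit 1) (nat_lit 419) (nat_lit 426) (nat_lit 295)) (XT.nd (nat_lit 78) (nat_lit 0) (nat_lit 0) (XT.lf (nat_lit 304) (nat_lit 2130190569) (nat_lit 0) (nat_lit 650477061) (nat_lit 228) (nat_lit 650477061) (nat_lit 66) (nat_lit 1) (nat_lit 62) (nat_lit 1) (nat_lit 65) (nat_lit 1) (nat_lit 420) (nat_lit 426) (nat_lit 294)) (XT.lf (nat_lit 76) (nat_lit 566564758) (nat_lit 0) (nat_lit 2273929429) (nat_lit 304) (nat_lit 566564758) (nat_lit 63) (nat_lit 1) (nat_lit 62) (nat_lit 1) (nat_lit 66) (nat_lit 1) (nat_lit 421) (nat_lit 426) (nat_lit 293))))))))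
noncomputable def ec172 : XT := (XT.nd (nat_lit 49374) (nat_lit 0) (nat_lit 33440) (XT.nd (nat_lit 702) (nat_lit 152) (nat_lit 0) (XT.nd (nat_lit 312) (nat_lit 760) (nat_lit 0) (XT.nd (nat_lit 156) (nat_lit 152) (nat_lit 0) (XT.nd (nat_lit 78) (nat_lit 304) (nat_lit 0) (XT.lf (nat_lit 228) (nat_lit 140658617) (nat_lit 0) (nat_lit 1621246757) (nat_lit 152) (nat_lit 1621246757) (nat_lit 63) (nat_lit 1) (nat_lit 60) (nat_lit 1) (nat_lit 62) (nat_lit 1) (nat_lit 422) (nat_lit 426) (nat_lit 292)) (XT.lf (nat_lit 304) (nat_lit 2531677229) (nat_lit 0) (nat_lit 413900725) (nat_lit 228) (nat_lit 413900725) (nat_lit 60) (nat_lit 1) (nat_lit 56) (nat_lit 1) (nat_lit 59) (nat_lit 1) (nat_lit 423) (nat_lit 426) (nat_lit 291))) (XT.nd (nat_lit 78) (nat_lit 152) (nat_lit 0) (XT.lf (nat_lit 76) (nat_lit 772010958) (nat_lit 0) (nat_lit 1791900845) (nat_lit 304) (nat_lit 772010958) (nat_lit 57) (nat_lit 1) (nat_lit 56) (nat_lit 1) (nat_lit 60) (nat_lit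 1) (nat_lit 424) (nat_lit 426) (nat_lit 290)) (XT.lf (nat_lit 228) (nat_lit 563943572) (nat_lit 0) (nat_lit 1374326998) (nat_lit 152) (nat_lit 1374326998) (nat_lit 57) (nat_lit 1) (nat_lit 54) (nat_lit 1) (nat_lit 56) (nat_lit 1) (nat_lit 425) (nat_lit 426) (nat_lit 289)))) (XT.nd (nat_lit 156) (nat_lit 456) (nat_lit 0) (XT.nd (nat_lit 78) (nat_lit 0) (nat_lit 0) (XT.lf (nat_lit 304) (nat_lit 2891535699) (nat_lit 0) (nat_lit 199008201) (nat_lit 228) (nat_lit 199008201) (nat_lit 54) (nat_lit 1) (nat_lit 50) (nat_lit 1) (nat_lit 53) (nat_lit 1) (nat_lit 426) (nat_lit 426) (nat_lit 288)) (XT.lf (nat_lit 76) (nat_lit 956937124) (nat_lit 0) (nat_lit 1352636990) (nat_lit 304) (nat_lit 956937124) (nat_lit 51) (nat_lit 1) (nat_lit 50) (nat_lit 1) (nat_lit 54) (nat_lit 1) (nat_lit 427) (nat_lit 426) (nat_lit 287))) (XT.nd (nat_lit 78) (nat_lit 304) (nat_lit 0) (XT.lf (nat_lit 228) (nat_lit 946483702) (nat_lit 0) (nat_lit 1148631982) (nat_lit 152)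 (nat_lit 1148631982) (nat_lit 51) (nat_lit 1) (nat_lit 48) (nat_lit 1) (nat_lit 50) (nat_lit 1) (nat_lit 428) (nat_lit 426) (nat_lit 286)) (XT.nd (nat_lit 78) (nat_lit 0) (nat_lit 0) (XT.lf (nat_lit 304) (nat_lit 3213152883) (nat_lit 0) (nat_lit 4076257) (nat_lit 228) (nat_lit 4076257) (nat_lit 48) (nat_lit 1) (nat_lit 44) (nat_lit 1) (nat_lit 47) (nat_lit 1) (nat_lit 429) (nat_lit 426) (nat_lit 285)) (XT.lf (nat_lit 76) (nat_lit 1123001525) (nat_lit 0) (nat_lit 952762390) (nat_lit 304) (nat_lit 1123001525) (nat_lit 45) (nat_lit 1) (nat_lit 44) (nat_lit 1) (nat_lit 48) (nat_lit 1) (nat_lit 430) (nat_lit 426) (nat_lit 284)))))) (XT.nd (nat_lit 48282) (nat_lit 0) (nat_lit 34656) (XT.nd (nat_lit 48126) (nat_lit 0) (nat_lit 34580) (XT.nd (nat_lit 48048) (nat_lit 0) (nat_lit 34580) (XT.lf (nat_lit 228) (nat_lit 1291548768) (nat_lit 0) (nat_lit 942497885) (nat_lit 152) (nat_lit 942497885) (nat_lit 45) (nat_lit 1) (nat_lit 42) (nat_lit 1) (nat_lit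 44) (nat_lit 1) (nat_lit 431) (nat_lit 426) (nat_lit 283)) (XT.lf (nat_lit 1900) (nat_lit 1710777099) (nat_lit 0) (nat_lit 1725083175) (nat_lit 1900) (nat_lit 1710777099) (nat_lit 522) (nat_lit 1) (nat_lit 497) (nat_lit 0) (nat_lit 522) (nat_lit 0) (nat_lit 286) (nat_lit 427) (nat_lit 427))) (XT.nd (nat_lit 78) (nat_lit 0) (nat_lit 76) (XT.lf (nat_lit 1900) (nat_lit 6764669869) (nat_lit 76) (nat_lit 1713733943) (nat_lit 0) (nat_lit 1713733943) (nat_lit 522) (nat_lit 1) (nat_lit 498) (nat_lit 1) (nat_lit 497) (nat_lit 0) (nat_lit 287) (nat_lit 427) (nat_lit 426)) (XT.lf (nat_lit 1900) (nat_lit 3321485106) (nat_lit 0) (nat_lit 3449135216) (nat_lit 1824) (nat_lit 3321485106) (nat_lit 523) (nat_lit 1) (nat_lit 498) (nat_lit 1) (nat_lit 522) (nat_lit 1) (nat_lit 288) (nat_lit 427) (nat_lit 425)))) (XT.nd (nat_lit 156) (nat_lit 0) (nat_lit 76) (XT.nd (nat_lit 78) (nat_lit 0) (nat_lit 76) (XT.lf (nat_lit 1900) (nat_lit 6500965143) (nat_lit 76)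 (nat_lit 1746312219) (nat_lit 0) (nat_lit 1746312219) (nat_lit 523) (nat_lit 1) (nat_lit 499) (nat_lit 1) (nat_lit 498) (nat_lit 1) (nat_lit 289) (nat_lit 427) (nat_lit 424)) (XT.lf (nat_lit 1900) (nat_lit 3159345869) (nat_lit 0) (nat_lit 3577469510) (nat_lit 1824) (nat_lit 3159345869) (nat_lit 524) (nat_lit 1) (nat_lit 499) (nat_lit 1) (nat_lit 523) (nat_lit 1) (nat_lit 290) (nat_lit 427) (nat_lit 423))) (XT.nd (nat_lit 78) (nat_lit 0) (nat_lit 76) (XT.lf (nat_lit 1900) (nat_lit 6116456339) (nat_lit 76) (nat_lit 1841862723) (nat_lit 0) (nat_lit 1841862723) (nat_lit 524) (nat_lit 1) (nat_lit 500) (nat_lit 1) (nat_lit 499) (nat_lit 1) (nat_lit 291) (nat_lit 427) (nat_lit 422)) (XT.nd (nat_lit 78) (nat_lit 0) (nat_lit 0) (XT.lf (nat_lit 1900) (nat_lit 2938840002) (nat_lit 0) (nat_lit 3827610024) (nat_lit 1824) (nat_lit 2938840002) (nat_lit 525) (nat_lit 1) (nat_lit 500) (nat_lit 1) (nat_lit 524) (nat_lit 1) (nat_lit 292) (nat_lit 427) (nat_lit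 421)) (XT.lf (nat_lit 1900) (nat_lit 5618403916) (nat_lit 76) (nat_lit 1996680611) (nat_lit 0) (nat_lit 1996680611) (nat_lit 525) (nat_lit 1) (nat_lit 501) (nat_lit 1) (nat_lit 500) (nat_lit 1) (nat_lit 293) (nat_lit 427) (nat_lit 420))))))) (XT.nd (nat_lit 702) (nat_lit 1444) (nat_lit 0) (XT.nd (nat_lit 312) (nat_lit 0) (nat_lit 152) (XT.nd (nat_lit 156) (nat_lit 0) (nat_lit 76) (XT.nd (nat_lit 78) (nat_lit 0) (nat_lit 0) (XT.lf (nat_lit 1900) (nat_lit 2663501849) (nat_lit 0) (nat_lit 4192340804) (nat_lit 1824) (nat_lit 2663501849) (nat_lit 526) (nat_lit 1) (nat_lit 501) (nat_lit 1) (nat_lit 525) (nat_lit 1) (nat_lit 294) (nat_lit 427) (nat_lit 419)) (XT.lf (nat_lit 1900) (nat_lit 5013736021) (nat_lit 76) (nat_lit 2207229602) (nat_lit 0) (nat_lit 2207229602) (nat_lit 526) (nat_lit 1) (nat_lit 502) (nat_lit 1) (nat_lit 501) (nat_lit 1) (nat_lit 295) (nat_lit 427) (nat_lit 418))) (XT.nd (nat_lit 78) (nat_lit 0) (nat_lit 0) (XT.lf (nat_lit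 1900) (nat_lit 2336703649) (nat_lit 0) (nat_lit 4664774844) (nat_lit 1824) (nat_lit 2336703649) (nat_lit 527) (nat_lit 1) (nat_lit 502) (nat_lit 1) (nat_lit 526) (nat_lit 1) (nat_lit 296) (nat_lit 427) (nat_lit 417)) (XT.lf (nat_lit 1900) (nat_lit 4309062378) (nat_lit 76) (nat_lit 2470134945) (nat_lit 0) (nat_lit 2470134945) (nat_lit 527) (nat_lit 1) (nat_lit 503) (nat_lit 1) (nat_lit 502) (nat_lit 1) (nat_lit 297) (nat_lit 427) (nat_lit 416)))) (XT.nd (nat_lit 156) (nat_lit 0) (nat_lit 76) (XT.nd (nat_lit 78) (nat_lit 0) (nat_lit 0) (XT.lf (nat_lit 1900) (nat_lit 1961662320) (nat_lit 0) (nat_lit 5238340363) (nat_lit 1824) (nat_lit 1961662320) (nat_lit 528) (nat_lit 1) (nat_lit 503) (nat_lit 1) (nat_lit 527) (nat_lit 1) (nat_lit 298) (nat_lit 427) (nat_lit 415)) (XT.lf (nat_lit 1900) (nat_lit 3510687621) (nat_lit 76) (nat_lit 2782176671) (nat_lit 0) (nat_lit 2782176671) (nat_lit 528) (nat_lit 1) (nat_lit 504) (nat_lit 1) (nat_lit 503)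 (nat_lit 1) (nat_lit 299) (nat_lit 427) (nat_lit 414))) (XT.nd (nat_lit 78) (nat_lit 0) (nat_lit 0) (XT.lf (nat_lit 1900) (nat_lit 1541445968) (nat_lit 0) (nat_lit 5906767624) (nat_lit 1824) (nat_lit 1541445968) (nat_lit 529) (nat_lit 1) (nat_lit 504) (nat_lit 1) (nat_lit 528) (nat_lit 1) (nat_lit 300) (nat_lit 427) (nat_lit 413)) (XT.nd (nat_lit 78) (nat_lit 0) (nat_lit 76) (XT.lf (nat_lit 1900) (nat_lit 2624624090) (nat_lit 76) (nat_lit 3140283122) (nat_lit 0) (nat_lit 3140283122) (nat_lit 529) (nat_lit 1) (nat_lit 505) (nat_lit 1) (nat_lit 504) (nat_lit 1) (nat_lit 301) (nat_lit 427) (nat_lit 412)) (XT.lf (nat_lit 1900) (nat_lit 1078980135) (nat_lit 0) (nat_lit 6664076283) (nat_lit 1824) (nat_lit 1078980135) (nat_lit 530) (nat_lit 1) (nat_lit 505) (nat_lit 1) (nat_lit 529) (nat_lit 1) (nat_lit 302) (nat_lit 427) (nat_lit 411)))))) (XT.nd (nat_lit 312) (nat_lit 1748) (nat_lit 0) (XT.nd (nat_lit 156) (nat_lit 0) (nat_lit 76) (XT.nd (nat_lit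 78) (nat_lit 0) (nat_lit 76) (XT.lf (nat_lit 1900) (nat_lit 1656604116) (nat_lit 76) (nat_lit 3541524732) (nat_lit 0) (nat_lit 3541524732) (nat_lit 530) (nat_lit 1) (nat_lit 506) (nat_lit 1) (nat_lit 505) (nat_lit 1) (nat_lit 303) (nat_lit 427) (nat_lit 410)) (XT.lf (nat_lit 1900) (nat_lit 577053793) (nat_lit 0) (nat_lit 7504563257) (nat_lit 1824) (nat_lit 577053793) (nat_lit 531) (nat_lit 1) (nat_lit 506) (nat_lit 1) (nat_lit 530) (nat_lit 1) (nat_lit 304) (nat_lit 427) (nat_lit 409))) (XT.nd (nat_lit 78) (nat_lit 0) (nat_lit 76) (XT.lf (nat_lit 1900) (nat_lit 612091802) (nat_lit 76) (nat_lit 3983108059) (nat_lit 0) (nat_lit 3983108059) (nat_lit 531) (nat_lit 1) (nat_lit 507) (nat_lit 1) (nat_lit 506) (nat_lit 1) (nat_lit 305) (nat_lit 427) (nat_lit 408)) (XT.lf (nat_lit 1900) (nat_lit 38325095) (nat_lit 0) (nat_lit 8422791071) (nat_lit 1824) (nat_lit 38325095) (nat_lit 532) (nat_lit 1) (nat_lit 507) (nat_lit 1) (nat_lit 531) (nat_lit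 1) (nat_lit 306) (nat_lit 427) (nat_lit 407)))) (XT.nd (nat_lit 156) (nat_lit 0) (nat_lit 76) (XT.nd (nat_lit 78) (nat_lit 0) (nat_lit 0) (XT.lf (nat_lit 1976) (nat_lit 3961934796) (nat_lit 0) (nat_lit 497099474) (nat_lit 1900) (nat_lit 3961934796) (nat_lit 508) (nat_lit 1) (nat_lit 482) (nat_lit 1) (nat_lit 507) (nat_lit 1) (nat_lit 307) (nat_lit 427) (nat_lit 406)) (XT.lf (nat_lit 1976) (nat_lit 7281640814) (nat_lit 76) (nat_lit 531155511) (nat_lit 0) (nat_lit 531155511) (nat_lit 508) (nat_lit 1) (nat_lit 483) (nat_lit 1) (nat_lit 482) (nat_lit 1) (nat_lit 308) (nat_lit 427) (nat_lit 405))) (XT.nd (nat_lit 78) (nat_lit 0) (nat_lit 0) (XT.lf (nat_lit 1976) (nat_lit 3301890985) (nat_lit 0) (nat_lit 1663717233) (nat_lit 1900) (nat_lit 3301890985) (nat_lit 509) (nat_lit 1) (nat_lit 483) (nat_lit 1) (nat_lit 508) (nat_lit 1) (nat_lit 309) (nat_lit 427) (nat_lit 404)) (XT.nd (nat_lit 78) (nat_lit 0) (nat_lit 76) (XT.lf (nat_lit 1976) (nat_lit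 5928268967) (nat_lit 76) (nat_lit 1132031027) (nat_lit 0) (nat_lit 1132031027) (nat_lit 509) (nat_lit 1) (nat_lit 484) (nat_lit 1) (nat_lit 483) (nat_lit 1) (nat_lit 310) (nat_lit 427) (nat_lit 403)) (XT.lf (nat_lit 76) (nat_lit 2613370629) (nat_lit 0) (nat_lit 2891125665) (nat_lit 1900) (nat_lit 2613370629) (nat_lit 485) (nat_lit 1) (nat_lit 484) (nat_lit 1) (nat_lit 509) (nat_lit 1) (nat_lit 311) (nat_lit 427) (nat_lit 402))))))))
noncomputable def ec173 : XT := (XT.nd (nat_lit 1404) (nat_lit 7296) (nat_lit 0) (XT.nd (nat_lit 702) (nat_lit 4028) (nat_lit 0) (XT.nd (nat_lit 312) (nat_lit 2736) (nat_lit 0) (XT.nd (nat_lit 156) (nat_lit 912) (nat_lit 0) (XT.nd (nat_lit 78) (nat_lit 0) (nat_lit 0) (XT.lf (nat_lit 1216) (nat_lit 4519948431) (nat_lit 0) (nat_lit 1762270760) (nat_lit 1140) (nat_lit 1762270760) (nat_lit 485) (nat_lit 1) (nat_lit 469) (nat_lit 1) (nat_lit 484) (nat_lit 1) (nat_lit 312) (nat_lit 427) (nat_lit 401)) (XT.lf (nat_lit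 76) (nat_lit 1898540426) (nat_lit 0) (nat_lit 4174883961) (nat_lit 1216) (nat_lit 1898540426) (nat_lit 470) (nat_lit 1) (nat_lit 469) (nat_lit 1) (nat_lit 485) (nat_lit 1) (nat_lit 313) (nat_lit 427) (nat_lit 400))) (XT.nd (nat_lit 78) (nat_lit 0) (nat_lit 0) (XT.lf (nat_lit 988) (nat_lit 3060920808) (nat_lit 0) (nat_lit 2419701187) (nat_lit 912) (nat_lit 2419701187) (nat_lit 470) (nat_lit 1) (nat_lit 457) (nat_lit 1) (nat_lit 469) (nat_lit 1) (nat_lit 314) (nat_lit 427) (nat_lit 399)) (XT.lf (nat_lit 76) (nat_lit 1159462137) (nat_lit 0) (nat_lit 5510764545) (nat_lit 988) (nat_lit 1159462137) (nat_lit 458) (nat_lit 1) (nat_lit 457) (nat_lit 1) (nat_lit 470) (nat_lit 1) (nat_lit 315) (nat_lit 427) (nat_lit 398)))) (XT.nd (nat_lit 156) (nat_lit 1824) (nat_lit 0) (XT.nd (nat_lit 78) (nat_lit 0) (nat_lit 0) (XT.lf (nat_lit 988) (nat_lit 1555221663) (nat_lit 0) (nat_lit 3102253448) (nat_lit 912) (nat_lit 3102253448) (nat_lit 458) (nat_lit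 1) (nat_lit 445) (nat_lit 1) (nat_lit 457) (nat_lit 1) (nat_lit 316) (nat_lit 427) (nat_lit 397)) (XT.lf (nat_lit 76) (nat_lit 398097065) (nat_lit 0) (nat_lit 6894743989) (nat_lit 988) (nat_lit 398097065) (nat_lit 446) (nat_lit 1) (nat_lit 445) (nat_lit 1) (nat_lit 458) (nat_lit 1) (nat_lit 317) (nat_lit 427) (nat_lit 396))) (XT.nd (nat_lit 78) (nat_lit 988) (nat_lit 0) (XT.lf (nat_lit 912) (nat_lit 6689334) (nat_lit 0) (nat_lit 3807958881) (nat_lit 836) (nat_lit 3807958881) (nat_lit 446) (nat_lit 1) (nat_lit 434) (nat_lit 1) (nat_lit 445) (nat_lit 1) (nat_lit 318) (nat_lit 427) (nat_lit 395)) (XT.nd (nat_lit 78) (nat_lit 0) (nat_lit 0) (XT.lf (nat_lit 988) (nat_lit 6793084338) (nat_lit 0) (nat_lit 381165364) (nat_lit 912) (nat_lit 381165364) (nat_lit 434) (nat_lit 1) (nat_lit 421) (nat_lit 1) (nat_lit 433) (nat_lit 1) (nat_lit 319) (nat_lit 427) (nat_lit 394)) (XT.lf (nat_lit 76) (nat_lit 2964183203) (nat_lit 0) (nat_lit 1560291165)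 (nat_lit 988) (nat_lit 2964183203) (nat_lit 422) (nat_lit 1) (nat_lit 421) (nat_lit 1) (nat_lit 434) (nat_lit 1) (nat_lit 320) (nat_lit 427) (nat_lit 393)))))) (XT.nd (nat_lit 312) (nat_lit 2356) (nat_lit 0) (XT.nd (nat_lit 156) (nat_lit 836) (nat_lit 0) (XT.nd (nat_lit 78) (nat_lit 0) (nat_lit 0) (XT.lf (nat_lit 912) (nat_lit 5070338657) (nat_lit 0) (nat_lit 1176334557) (nat_lit 836) (nat_lit 1176334557) (nat_lit 422) (nat_lit 1) (nat_lit 410) (nat_lit 1) (nat_lit 421) (nat_lit 1) (nat_lit 321) (nat_lit 427) (nat_lit 392)) (XT.lf (nat_lit 76) (nat_lit 2097778289) (nat_lit 0) (nat_lit 3162430245) (nat_lit 912) (nat_lit 2097778289) (nat_lit 411) (nat_lit 1) (nat_lit 410) (nat_lit 1) (nat_lit 422) (nat_lit 1) (nat_lit 322) (nat_lit 427) (nat_lit 391))) (XT.nd (nat_lit 78) (nat_lit 0) (nat_lit 0) (XT.lf (nat_lit 912) (nat_lit 3317121626) (nat_lit 0) (nat_lit 1988355608) (nat_lit 836) (nat_lit 1988355608) (nat_lit 411) (nat_lit 1) (nat_lit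 399) (nat_lit 1) (nat_lit 410) (nat_lit 1) (nat_lit 323) (nat_lit 427) (nat_lit 390)) (XT.lf (nat_lit 76) (nat_lit 1216971598) (nat_lit 0) (nat_lit 4796562850) (nat_lit 912) (nat_lit 1216971598) (nat_lit 400) (nat_lit 1) (nat_lit 399) (nat_lit 1) (nat_lit 411) (nat_lit 1) (nat_lit 324) (nat_lit 427) (nat_lit 389)))) (XT.nd (nat_lit 156) (nat_lit 1596) (nat_lit 0) (XT.nd (nat_lit 78) (nat_lit 0) (nat_lit 0) (XT.lf (nat_lit 836) (nat_lit 1536525657) (nat_lit 0) (nat_lit 2815638271) (nat_lit 760) (nat_lit 2815638271) (nat_lit 400) (nat_lit 1) (nat_lit 389) (nat_lit 1) (nat_lit 399) (nat_lit 1) (nat_lit 325) (nat_lit 427) (nat_lit 388)) (XT.lf (nat_lit 76) (nat_lit 323264436) (nat_lit 0) (nat_lit 6459599445) (nat_lit 836) (nat_lit 323264436) (nat_lit 390) (nat_lit 1) (nat_lit 389) (nat_lit 1) (nat_lit 400) (nat_lit 1) (nat_lit 326) (nat_lit 427) (nat_lit 387))) (XT.nd (nat_lit 78) (nat_lit 760) (nat_lit 0) (XT.lf (nat_lit 76) (nat_lit 3389901417)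 (nat_lit 0) (nat_lit 264992744) (nat_lit 836) (nat_lit 3389901417) (nat_lit 379) (nat_lit 1) (nat_lit 378) (nat_lit 1) (nat_lit 389) (nat_lit 1) (nat_lit 327) (nat_lit 427) (nat_lit 386)) (XT.nd (nat_lit 78) (nat_lit 0) (nat_lit 0) (XT.lf (nat_lit 836) (nat_lit 5828285590) (nat_lit 0) (nat_lit 578090250) (nat_lit 760) (nat_lit 578090250) (nat_lit 379) (nat_lit 1) (nat_lit 368) (nat_lit 1) (nat_lit 378) (nat_lit 1) (nat_lit 328) (nat_lit 427) (nat_lit 385)) (XT.lf (nat_lit 76) (nat_lit 2428413814) (nat_lit 0) (nat_lit 2067735082) (nat_lit 836) (nat_lit 2428413814) (nat_lit 369) (nat_lit 1) (nat_lit 368) (nat_lit 1) (nat_lit 379) (nat_lit 1) (nat_lit 329) (nat_lit 427) (nat_lit 384))))))) (XT.nd (nat_lit 702) (nat_lit 3724) (nat_lit 0) (XT.nd (nat_lit 312) (nat_lit 2128) (nat_lit 0) (XT.nd (nat_lit 156) (nat_lit 684) (nat_lit 0) (XT.nd (nat_lit 78) (nat_lit 0) (nat_lit 0) (XT.lf (nat_lit 836) (nat_lit 3890814342) (nat_lit 0) (nat_lit 1487376415)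 (nat_lit 760) (nat_lit 1487376415) (nat_lit 369) (nat_lit 1) (nat_lit 358) (nat_lit 1) (nat_lit 368) (nat_lit 1) (nat_lit 330) (nat_lit 427) (nat_lit 383)) (XT.lf (nat_lit 76) (nat_lit 1458987755) (nat_lit 0) (nat_lit 3889247663) (nat_lit 836) (nat_lit 1458987755) (nat_lit 359) (nat_lit 1) (nat_lit 358) (nat_lit 1) (nat_lit 369) (nat_lit 1) (nat_lit 331) (nat_lit 427) (nat_lit 382))) (XT.nd (nat_lit 78) (nat_lit 0) (nat_lit 0) (XT.lf (nat_lit 760) (nat_lit 1938624793) (nat_lit 0) (nat_lit 2405448336) (nat_lit 684) (nat_lit 2405448336) (nat_lit 359) (nat_lit 1) (nat_lit 349) (nat_lit 1) (nat_lit 358) (nat_lit 1) (nat_lit 332) (nat_lit 427) (nat_lit 381)) (XT.lf (nat_lit 76) (nat_lit 482819228) (nat_lit 0) (nat_lit 5727060970) (nat_lit 760) (nat_lit 482819228) (nat_lit 350) (nat_lit 1) (nat_lit 349) (nat_lit 1) (nat_lit 359) (nat_lit 1) (nat_lit 333) (nat_lit 427) (nat_lit 380)))) (XT.nd (nat_lit 156) (nat_lit 684) (nat_lit 0) (XT.nd (nat_lit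 78) (nat_lit 684) (nat_lit 0) (XT.lf (nat_lit 76) (nat_lit 3305320977) (nat_lit 0) (nat_lit 25607438) (nat_lit 760) (nat_lit 3305320977) (nat_lit 340) (nat_lit 1) (nat_lit 339) (nat_lit 1) (nat_lit 349) (nat_lit 1) (nat_lit 334) (nat_lit 427) (nat_lit 379)) (XT.lf (nat_lit 760) (nat_lit 5589302239) (nat_lit 0) (nat_lit 495676994) (nat_lit 684) (nat_lit 495676994) (nat_lit 340) (nat_lit 1) (nat_lit 330) (nat_lit 1) (nat_lit 339) (nat_lit 1) (nat_lit 335) (nat_lit 427) (nat_lit 378))) (XT.nd (nat_lit 78) (nat_lit 684) (nat_lit 0) (XT.lf (nat_lit 76) (nat_lit 2275486773) (nat_lit 0) (nat_lit 1974453789) (nat_lit 760) (nat_lit 2275486773) (nat_lit 331) (nat_lit 1) (nat_lit 330) (nat_lit 1) (nat_lit 340) (nat_lit 1) (nat_lit 336) (nat_lit 427) (nat_lit 377)) (XT.nd (nat_lit 78) (nat_lit 0) (nat_lit 0) (XT.lf (nat_lit 760) (nat_lit 3520014412) (nat_lit 0) (nat_lit 1475506124) (nat_lit 684) (nat_lit 1475506124) (nat_lit 331) (nat_lit 1) (nat_lit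 321) (nat_lit 1) (nat_lit 330) (nat_lit 1) (nat_lit 337) (nat_lit 427) (nat_lit 376)) (XT.lf (nat_lit 76) (nat_lit 1242979404) (nat_lit 0) (nat_lit 3931276771) (nat_lit 760) (nat_lit 1242979404) (nat_lit 322) (nat_lit 1) (nat_lit 321) (nat_lit 1) (nat_lit 331) (nat_lit 1) (nat_lit 338) (nat_lit 427) (nat_lit 375)))))) (XT.nd (nat_lit 390) (nat_lit 1824) (nat_lit 0) (XT.nd (nat_lit 156) (nat_lit 1292) (nat_lit 0) (XT.nd (nat_lit 78) (nat_lit 0) (nat_lit 0) (XT.lf (nat_lit 684) (nat_lit 1446315142) (nat_lit 0) (nat_lit 2458838476) (nat_lit 608) (nat_lit 2458838476) (nat_lit 322) (nat_lit 1) (nat_lit 313) (nat_lit 1) (nat_lit 321) (nat_lit 1) (nat_lit 339) (nat_lit 427) (nat_lit 374)) (XT.lf (nat_lit 76) (nat_lit 208739200) (nat_lit 0) (nat_lit 5894126392) (nat_lit 684) (nat_lit 208739200) (nat_lit 314) (nat_lit 1) (nat_lit 313) (nat_lit 1) (nat_lit 322) (nat_lit 1) (nat_lit 340) (nat_lit 427) (nat_lit 373))) (XT.nd (nat_lit 78) (nat_lit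 608) (nat_lit 0) (XT.lf (nat_lit 76) (nat_lit 2818851200) (nat_lit 0) (nat_lit 621700151) (nat_lit 684) (nat_lit 2818851200) (nat_lit 305) (nat_lit 1) (nat_lit 304) (nat_lit 1) (nat_lit 313) (nat_lit 1) (nat_lit 341) (nat_lit 427) (nat_lit 372)) (XT.nd (nat_lit 78) (nat_lit 0) (nat_lit 0) (XT.lf (nat_lit 684) (nat_lit 4566217160) (nat_lit 0) (nat_lit 820909936) (nat_lit 608) (nat_lit 820909936) (nat_lit 305) (nat_lit 1) (nat_lit 296) (nat_lit 1) (nat_lit 304) (nat_lit 1) (nat_lit 342) (nat_lit 427) (nat_lit 371)) (XT.lf (nat_lit 76) (nat_lit 1742750793) (nat_lit 0) (nat_lit 2671584158) (nat_lit 684) (nat_lit 1742750793) (nat_lit 297) (nat_lit 1) (nat_lit 296) (nat_lit 1) (nat_lit 305) (nat_lit 1) (nat_lit 343) (nat_lit 427) (nat_lit 370))))) (XT.nd (nat_lit 156) (nat_lit 1216) (nat_lit 0) (XT.nd (nat_lit 78) (nat_lit 0) (nat_lit 0) (XT.lf (nat_lit 684) (nat_lit 2408400302) (nat_lit 0) (nat_lit 1849194283) (nat_lit 608) (nat_lit 1849194283)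 (nat_lit 297) (nat_lit 1) (nat_lit 288) (nat_lit 1) (nat_lit 296) (nat_lit 1) (nat_lit 344) (nat_lit 427) (nat_lit 369)) (XT.lf (nat_lit 76) (nat_lit 668234490) (nat_lit 0) (nat_lit 4720696488) (nat_lit 684) (nat_lit 668234490) (nat_lit 289) (nat_lit 1) (nat_lit 288) (nat_lit 1) (nat_lit 297) (nat_lit 1) (nat_lit 345) (nat_lit 427) (nat_lit 368))) (XT.nd (nat_lit 78) (nat_lit 684) (nat_lit 0) (XT.lf (nat_lit 608) (nat_lit 254498705) (nat_lit 0) (nat_lit 2876703702) (nat_lit 532) (nat_lit 2876703702) (nat_lit 289) (nat_lit 1) (nat_lit 281) (nat_lit 1) (nat_lit 288) (nat_lit 1) (nat_lit 346) (nat_lit 427) (nat_lit 367)) (XT.nd (nat_lit 78) (nat_lit 0) (nat_lit 0) (XT.lf (nat_lit 684) (nat_lit 5156742561) (nat_lit 0) (nat_lit 401313240) (nat_lit 608) (nat_lit 401313240) (nat_lit 281) (nat_lit 1) (nat_lit 272) (nat_lit 1) (nat_lit 280) (nat_lit 1) (nat_lit 347) (nat_lit 427) (nat_lit 366)) (XT.lf (nat_lit 76) (nat_lit 2020924648) (nat_lit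 0) (nat_lit 1869232365) (nat_lit 684) (nat_lit 2020924648) (nat_lit 273) (nat_lit 1) (nat_lit 272) (nat_lit 1) (nat_lit 281) (nat_lit 1) (nat_lit 348) (nat_lit 427) (nat_lit 365))))))))
noncomputable def ec174 : XT := (XT.nd (nat_lit 1404) (nat_lit 4636) (nat_lit 0) (XT.nd (nat_lit 702) (nat_lit 2280) (nat_lit 0) (XT.nd (nat_lit 312) (nat_lit 1596) (nat_lit 0) (XT.nd (nat_lit 156) (nat_lit 1140) (nat_lit 0) (XT.nd (nat_lit 78) (nat_lit 0) (nat_lit 0) (XT.lf (nat_lit 608) (nat_lit 2936519102) (nat_lit 0) (nat_lit 1463490430) (nat_lit 532) (nat_lit 1463490430) (nat_lit 273) (nat_lit 1) (nat_lit 265) (nat_lit 1) (nat_lit 272) (nat_lit 1) (nat_lit 349) (nat_lit 427) (nat_lit 364)) (XT.lf (nat_lit 76) (nat_lit 916707451) (nat_lit 0) (nat_lit 3983055021) (nat_lit 608) (nat_lit 916707451) (nat_lit 266) (nat_lit 1) (nat_lit 265) (nat_lit 1) (nat_lit 273) (nat_lit 1) (nat_lit 350) (nat_lit 427) (nat_lit 363))) (XT.nd (nat_lit 78) (nat_lit 608)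 (nat_lit 0) (XT.lf (nat_lit 608) (nat_lit 725735888) (nat_lit 0) (nat_lit 2522056172) (nat_lit 532) (nat_lit 2522056172) (nat_lit 266) (nat_lit 1) (nat_lit 258) (nat_lit 1) (nat_lit 265) (nat_lit 1) (nat_lit 351) (nat_lit 427) (nat_lit 362)) (XT.lf (nat_lit 608) (nat_lit 5361322719) (nat_lit 0) (nat_lit 181314306) (nat_lit 532) (nat_lit 181314306) (nat_lit 258) (nat_lit 1) (nat_lit 250) (nat_lit 1) (nat_lit 257) (nat_lit 1) (nat_lit 352) (nat_lit 427) (nat_lit 361)))) (XT.nd (nat_lit 156) (nat_lit 1064) (nat_lit 0) (XT.nd (nat_lit 78) (nat_lit 532) (nat_lit 0) (XT.lf (nat_lit 76) (nat_lit 2111517711) (nat_lit 0) (nat_lit 1455130372) (nat_lit 608) (nat_lit 2111517711) (nat_lit 251) (nat_lit 1) (nat_lit 250) (nat_lit 1) (nat_lit 258) (nat_lit 1) (nat_lit 353) (nat_lit 427) (nat_lit 360)) (XT.lf (nat_lit 608) (nat_lit 3097494260) (nat_lit 0) (nat_lit 1267798022) (nat_lit 532) (nat_lit 1267798022) (nat_lit 251) (nat_lit 1) (nat_lit 243) (nat_lit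 1) (nat_lit 250) (nat_lit 1) (nat_lit 354) (nat_lit 427) (nat_lit 359))) (XT.nd (nat_lit 78) (nat_lit 1064) (nat_lit 0) (XT.lf (nat_lit 76) (nat_lit 986754662) (nat_lit 0) (nat_lit 3614987101) (nat_lit 608) (nat_lit 986754662) (nat_lit 244) (nat_lit 1) (nat_lit 243) (nat_lit 1) (nat_lit 251) (nat_lit 1) (nat_lit 355) (nat_lit 427) (nat_lit 358)) (XT.nd (nat_lit 78) (nat_lit 608) (nat_lit 0) (XT.lf (nat_lit 532) (nat_lit 847780500) (nat_lit 0) (nat_lit 2348265054) (nat_lit 456) (nat_lit 2348265054) (nat_lit 244) (nat_lit 1) (nat_lit 237) (nat_lit 1) (nat_lit 243) (nat_lit 1) (nat_lit 356) (nat_lit 427) (nat_lit 357)) (XT.lf (nat_lit 608) (nat_lit 5241043630) (nat_lit 0) (nat_lit 129884662) (nat_lit 532) (nat_lit 129884662) (nat_lit 237) (nat_lit 1) (nat_lit 229) (nat_lit 1) (nat_lit 236) (nat_lit 1) (nat_lit 357) (nat_lit 427) (nat_lit 356)))))) (XT.nd (nat_lit 312) (nat_lit 1368) (nat_lit 0) (XT.nd (nat_lit 156) (nat_lit 456) (nat_lit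 0) (XT.nd (nat_lit 78) (nat_lit 456) (nat_lit 0) (XT.lf (nat_lit 76) (nat_lit 2044324830) (nat_lit 0) (nat_lit 1368730038) (nat_lit 608) (nat_lit 2044324830) (nat_lit 230) (nat_lit 1) (nat_lit 229) (nat_lit 1) (nat_lit 237) (nat_lit 1) (nat_lit 358) (nat_lit 427) (nat_lit 355)) (XT.lf (nat_lit 532) (nat_lit 2949846848) (nat_lit 0) (nat_lit 1232387332) (nat_lit 456) (nat_lit 1232387332) (nat_lit 230) (nat_lit 1) (nat_lit 223) (nat_lit 1) (nat_lit 229) (nat_lit 1) (nat_lit 359) (nat_lit 427) (nat_lit 354))) (XT.nd (nat_lit 78) (nat_lit 456) (nat_lit 0) (XT.lf (nat_lit 76) (nat_lit 906919046) (nat_lit 0) (nat_lit 3558480580) (nat_lit 532) (nat_lit 906919046) (nat_lit 224) (nat_lit 1) (nat_lit 223) (nat_lit 1) (nat_lit 230) (nat_lit 1) (nat_lit 360) (nat_lit 427) (nat_lit 353)) (XT.lf (nat_lit 532) (nat_lit 676692964) (nat_lit 0) (nat_lit 2326846649) (nat_lit 456) (nat_lit 2326846649) (nat_lit 224) (nat_lit 1) (nat_lit 217) (nat_lit 1) (nat_lit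 223) (nat_lit 1) (nat_lit 361) (nat_lit 427) (nat_lit 352)))) (XT.nd (nat_lit 156) (nat_lit 836) (nat_lit 0) (XT.nd (nat_lit 78) (nat_lit 0) (nat_lit 0) (XT.lf (nat_lit 532) (nat_lit 4849348313) (nat_lit 0) (nat_lit 219862264) (nat_lit 456) (nat_lit 219862264) (nat_lit 217) (nat_lit 1) (nat_lit 210) (nat_lit 1) (nat_lit 216) (nat_lit 1) (nat_lit 362) (nat_lit 427) (nat_lit 351)) (XT.lf (nat_lit 76) (nat_lit 1845408950) (nat_lit 0) (nat_lit 1557035738) (nat_lit 532) (nat_lit 1845408950) (nat_lit 211) (nat_lit 1) (nat_lit 210) (nat_lit 1) (nat_lit 217) (nat_lit 1) (nat_lit 363) (nat_lit 427) (nat_lit 350))) (XT.nd (nat_lit 78) (nat_lit 380) (nat_lit 0) (XT.lf (nat_lit 532) (nat_lit 2544760114) (nat_lit 0) (nat_lit 1331240842) (nat_lit 456) (nat_lit 1331240842) (nat_lit 211) (nat_lit 1) (nat_lit 204) (nat_lit 1) (nat_lit 210) (nat_lit 1) (nat_lit 364) (nat_lit 427) (nat_lit 349)) (XT.nd (nat_lit 78) (nat_lit 380) (nat_lit 0) (XT.lf (nat_lit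 76) (nat_lit 702160666) (nat_lit 0) (nat_lit 3762774491) (nat_lit 532) (nat_lit 702160666) (nat_lit 205) (nat_lit 1) (nat_lit 204) (nat_lit 1) (nat_lit 211) (nat_lit 1) (nat_lit 365) (nat_lit 427) (nat_lit 348)) (XT.lf (nat_lit 456) (nat_lit 261489001) (nat_lit 0) (nat_lit 2432881315) (nat_lit 380) (nat_lit 2432881315) (nat_lit 205) (nat_lit 1) (nat_lit 199) (nat_lit 1) (nat_lit 204) (nat_lit 1) (nat_lit 366) (nat_lit 427) (nat_lit 347))))))) (XT.nd (nat_lit 702) (nat_lit 2508) (nat_lit 0) (XT.nd (nat_lit 312) (nat_lit 1216) (nat_lit 0) (XT.nd (nat_lit 156) (nat_lit 380) (nat_lit 0) (XT.nd (nat_lit 78) (nat_lit 0) (nat_lit 0) (XT.lf (nat_lit 532) (nat_lit 4232926182) (nat_lit 0) (nat_lit 427502144) (nat_lit 456) (nat_lit 427502144) (nat_lit 199) (nat_lit 1) (nat_lit 192) (nat_lit 1) (nat_lit 198) (nat_lit 1) (nat_lit 367) (nat_lit 427) (nat_lit 346)) (XT.lf (nat_lit 76) (nat_lit 1537535539) (nat_lit 0) (nat_lit 1973726287) (nat_lit 532)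 (nat_lit 1537535539) (nat_lit 193) (nat_lit 1) (nat_lit 192) (nat_lit 1) (nat_lit 199) (nat_lit 1) (nat_lit 368) (nat_lit 427) (nat_lit 345))) (XT.nd (nat_lit 78) (nat_lit 0) (nat_lit 0) (XT.lf (nat_lit 456) (nat_lit 1926933974) (nat_lit 0) (nat_lit 1541621496) (nat_lit 380) (nat_lit 1541621496) (nat_lit 193) (nat_lit 1) (nat_lit 187) (nat_lit 1) (nat_lit 192) (nat_lit 1) (nat_lit 369) (nat_lit 427) (nat_lit 344)) (XT.lf (nat_lit 76) (nat_lit 394274104) (nat_lit 0) (nat_lit 4183515402) (nat_lit 456) (nat_lit 394274104) (nat_lit 188) (nat_lit 1) (nat_lit 187) (nat_lit 1) (nat_lit 193) (nat_lit 1) (nat_lit 370) (nat_lit 427) (nat_lit 343)))) (XT.nd (nat_lit 156) (nat_lit 380) (nat_lit 0) (XT.nd (nat_lit 78) (nat_lit 380) (nat_lit 0) (XT.lf (nat_lit 76) (nat_lit 2291864409) (nat_lit 0) (nat_lit 350382987) (nat_lit 456) (nat_lit 2291864409) (nat_lit 182) (nat_lit 1) (nat_lit 181) (nat_lit 1) (nat_lit 187) (nat_lit 1) (nat_lit 371) (nat_lit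 427) (nat_lit 342)) (XT.lf (nat_lit 456) (nat_lit 3432501448) (nat_lit 0) (nat_lit 732078028) (nat_lit 380) (nat_lit 732078028) (nat_lit 182) (nat_lit 1) (nat_lit 176) (nat_lit 1) (nat_lit 181) (nat_lit 1) (nat_lit 372) (nat_lit 427) (nat_lit 341))) (XT.nd (nat_lit 78) (nat_lit 380) (nat_lit 0) (XT.lf (nat_lit 76) (nat_lit 1140557682) (nat_lit 0) (nat_lit 2578376514) (nat_lit 456) (nat_lit 1140557682) (nat_lit 177) (nat_lit 1) (nat_lit 176) (nat_lit 1) (nat_lit 182) (nat_lit 1) (nat_lit 373) (nat_lit 427) (nat_lit 340)) (XT.nd (nat_lit 78) (nat_lit 0) (nat_lit 0) (XT.lf (nat_lit 456) (nat_lit 1135342477) (nat_lit 0) (nat_lit 1843689954) (nat_lit 380) (nat_lit 1843689954) (nat_lit 177) (nat_lit 1) (nat_lit 171) (nat_lit 1) (nat_lit 176) (nat_lit 1) (nat_lit 374) (nat_lit 427) (nat_lit 339)) (XT.lf (nat_lit 76) (nat_lit 2258449) (nat_lit 0) (nat_lit 4782009533) (nat_lit 456) (nat_lit 2258449) (nat_lit 172) (nat_lit 1) (nat_lit 171) (nat_lit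 1) (nat_lit 177) (nat_lit 1) (nat_lit 375) (nat_lit 427) (nat_lit 338)))))) (XT.nd (nat_lit 390) (nat_lit 988) (nat_lit 0) (XT.nd (nat_lit 156) (nat_lit 760) (nat_lit 0) (XT.nd (nat_lit 78) (nat_lit 380) (nat_lit 0) (XT.lf (nat_lit 76) (nat_lit 1814786600) (nat_lit 0) (nat_lit 1120702668) (nat_lit 380) (nat_lit 1814786600) (nat_lit 167) (nat_lit 1) (nat_lit 166) (nat_lit 1) (nat_lit 171) (nat_lit 1) (nat_lit 376) (nat_lit 427) (nat_lit 337)) (XT.lf (nat_lit 456) (nat_lit 2483531930) (nat_lit 0) (nat_lit 1115529224) (nat_lit 380) (nat_lit 1115529224) (nat_lit 167) (nat_lit 1) (nat_lit 161) (nat_lit 1) (nat_lit 166) (nat_lit 1) (nat_lit 377) (nat_lit 427) (nat_lit 336))) (XT.nd (nat_lit 78) (nat_lit 760) (nat_lit 0) (XT.lf (nat_lit 76) (nat_lit 671757413) (nat_lit 0) (nat_lit 3335767282) (nat_lit 456) (nat_lit 671757413) (nat_lit 162) (nat_lit 1) (nat_lit 161) (nat_lit 1) (nat_lit 167) (nat_lit 1) (nat_lit 378) (nat_lit 427) (nat_lit 335))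 (XT.nd (nat_lit 78) (nat_lit 456) (nat_lit 0) (XT.lf (nat_lit 380) (nat_lit 203905160) (nat_lit 0) (nat_lit 2220165342) (nat_lit 304) (nat_lit 2220165342) (nat_lit 162) (nat_lit 1) (nat_lit 157) (nat_lit 1) (nat_lit 161) (nat_lit 1) (nat_lit 379) (nat_lit 427) (nat_lit 334)) (XT.lf (nat_lit 456) (nat_lit 3700920179) (nat_lit 0) (nat_lit 454345877) (nat_lit 380) (nat_lit 454345877) (nat_lit 157) (nat_lit 1) (nat_lit 151) (nat_lit 1) (nat_lit 156) (nat_lit 1) (nat_lit 380) (nat_lit 427) (nat_lit 333))))) (XT.nd (nat_lit 156) (nat_lit 684) (nat_lit 0) (XT.nd (nat_lit 78) (nat_lit 304) (nat_lit 0) (XT.lf (nat_lit 76) (nat_lit 1277140165) (nat_lit 0) (nat_lit 2020880059) (nat_lit 456) (nat_lit 1277140165) (nat_lit 152) (nat_lit 1) (nat_lit 151) (nat_lit 1) (nat_lit 157) (nat_lit 1) (nat_lit 381) (nat_lit 427) (nat_lit 332)) (XT.lf (nat_lit 380) (nat_lit 1416828352) (nat_lit 0) (nat_lit 1562147660) (nat_lit 304) (nat_lit 1562147660) (nat_lit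 152) (nat_lit 1) (nat_lit 147) (nat_lit 1) (nat_lit 151) (nat_lit 1) (nat_lit 382) (nat_lit 427) (nat_lit 331))) (XT.nd (nat_lit 78) (nat_lit 684) (nat_lit 0) (XT.lf (nat_lit 76) (nat_lit 146148192) (nat_lit 0) (nat_lit 4215273978) (nat_lit 380) (nat_lit 146148192) (nat_lit 148) (nat_lit 1) (nat_lit 147) (nat_lit 1) (nat_lit 152) (nat_lit 1) (nat_lit 383) (nat_lit 427) (nat_lit 330)) (XT.nd (nat_lit 78) (nat_lit 304) (nat_lit 0) (XT.lf (nat_lit 76) (nat_lit 1823546915) (nat_lit 0) (nat_lit 826928557) (nat_lit 380) (nat_lit 1823546915) (nat_lit 143) (nat_lit 1) (nat_lit 142) (nat_lit 1) (nat_lit 147) (nat_lit 1) (nat_lit 384) (nat_lit 427) (nat_lit 329)) (XT.lf (nat_lit 380) (nat_lit 2513294610) (nat_lit 0) (nat_lit 963828130) (nat_lit 304) (nat_lit 963828130) (nat_lit 143) (nat_lit 1) (nat_lit 138) (nat_lit 1) (nat_lit 142) (nat_lit 1) (nat_lit 385) (nat_lit 427) (nat_lit 328))))))))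
noncomputable def ec175 : XT := (XT.nd (nat_lit 1404) (nat_lit 2888) (nat_lit 0) (XT.nd (nat_lit 702) (nat_lit 1748) (nat_lit 0) (XT.nd (nat_lit 312) (nat_lit 912) (nat_lit 0) (XT.nd (nat_lit 156) (nat_lit 380) (nat_lit 0) (XT.nd (nat_lit 78) (nat_lit 304) (nat_lit 0) (XT.lf (nat_lit 76) (nat_lit 692541205) (nat_lit 0) (nat_lit 3023119045) (nat_lit 380) (nat_lit 692541205) (nat_lit 139) (nat_lit 1) (nat_lit 138) (nat_lit 1) (nat_lit 143) (nat_lit 1) (nat_lit 386) (nat_lit 427) (nat_lit 327)) (XT.lf (nat_lit 380) (nat_lit 259103079) (nat_lit 0) (nat_lit 2058300564) (nat_lit 304) (nat_lit 2058300564) (nat_lit 139) (nat_lit 1) (nat_lit 134) (nat_lit 1) (nat_lit 138) (nat_lit 1) (nat_lit 387) (nat_lit 427) (nat_lit 326))) (XT.nd (nat_lit 78) (nat_lit 0) (nat_lit 0) (XT.lf (nat_lit 380) (nat_lit 3502644962) (nat_lit 0) (nat_lit 420472484) (nat_lit 304) (nat_lit 420472484) (nat_lit 134) (nat_lit 1) (nat_lit 129) (nat_lit 1) (nat_lit 133) (nat_lit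 1) (nat_lit 388) (nat_lit 427) (nat_lit 325)) (XT.lf (nat_lit 76) (nat_lit 1186392071) (nat_lit 0) (nat_lit 1938833389) (nat_lit 380) (nat_lit 1186392071) (nat_lit 130) (nat_lit 1) (nat_lit 129) (nat_lit 1) (nat_lit 134) (nat_lit 1) (nat_lit 389) (nat_lit 427) (nat_lit 324)))) (XT.nd (nat_lit 156) (nat_lit 608) (nat_lit 0) (XT.nd (nat_lit 78) (nat_lit 0) (nat_lit 0) (XT.lf (nat_lit 380) (nat_lit 1252321972) (nat_lit 0) (nat_lit 1513849981) (nat_lit 304) (nat_lit 1513849981) (nat_lit 130) (nat_lit 1) (nat_lit 125) (nat_lit 1) (nat_lit 129) (nat_lit 1) (nat_lit 390) (nat_lit 427) (nat_lit 323)) (XT.lf (nat_lit 76) (nat_lit 72768062) (nat_lit 0) (nat_lit 4103347114) (nat_lit 380) (nat_lit 72768062) (nat_lit 126) (nat_lit 1) (nat_lit 125) (nat_lit 1) (nat_lit 130) (nat_lit 1) (nat_lit 391) (nat_lit 427) (nat_lit 322))) (XT.nd (nat_lit 78) (nat_lit 304) (nat_lit 0) (XT.lf (nat_lit 76) (nat_lit 1631916462) (nat_lit 0) (nat_lit 953867346) (nat_lit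 304) (nat_lit 1631916462) (nat_lit 122) (nat_lit 1) (nat_lit 121) (nat_lit 1) (nat_lit 125) (nat_lit 1) (nat_lit 392) (nat_lit 427) (nat_lit 321)) (XT.nd (nat_lit 78) (nat_lit 0) (nat_lit 0) (XT.lf (nat_lit 380) (nat_lit 2150040923) (nat_lit 0) (nat_lit 1018463791) (nat_lit 304) (nat_lit 1018463791) (nat_lit 122) (nat_lit 1) (nat_lit 117) (nat_lit 1) (nat_lit 121) (nat_lit 1) (nat_lit 393) (nat_lit 427) (nat_lit 320)) (XT.lf (nat_lit 76) (nat_lit 521924649) (nat_lit 0) (nat_lit 3112710836) (nat_lit 380) (nat_lit 521924649) (nat_lit 118) (nat_lit 1) (nat_lit 117) (nat_lit 1) (nat_lit 122) (nat_lit 1) (nat_lit 394) (nat_lit 427) (nat_lit 319)))))) (XT.nd (nat_lit 312) (nat_lit 912) (nat_lit 0) (XT.nd (nat_lit 156) (nat_lit 228) (nat_lit 0) (XT.nd (nat_lit 78) (nat_lit 304) (nat_lit 0) (XT.lf (nat_lit 76) (nat_lit 2033004808) (nat_lit 0) (nat_lit 60328914) (nat_lit 304) (nat_lit 2033004808) (nat_lit 114) (nat_lit 1) (nat_lit 113) (nat_lit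 1) (nat_lit 117) (nat_lit 1) (nat_lit 395) (nat_lit 427) (nat_lit 318)) (XT.lf (nat_lit 380) (nat_lit 2959922137) (nat_lit 0) (nat_lit 568256459) (nat_lit 304) (nat_lit 568256459) (nat_lit 114) (nat_lit 1) (nat_lit 109) (nat_lit 1) (nat_lit 113) (nat_lit 1) (nat_lit 396) (nat_lit 427) (nat_lit 317))) (XT.nd (nat_lit 78) (nat_lit 228) (nat_lit 0) (XT.lf (nat_lit 76) (nat_lit 927960256) (nat_lit 0) (nat_lit 2210813054) (nat_lit 380) (nat_lit 927960256) (nat_lit 110) (nat_lit 1) (nat_lit 109) (nat_lit 1) (nat_lit 114) (nat_lit 1) (nat_lit 397) (nat_lit 427) (nat_lit 316)) (XT.lf (nat_lit 304) (nat_lit 759021157) (nat_lit 0) (nat_lit 1639154055) (nat_lit 228) (nat_lit 1639154055) (nat_lit 110) (nat_lit 1) (nat_lit 106) (nat_lit 1) (nat_lit 109) (nat_lit 1) (nat_lit 398) (nat_lit 427) (nat_lit 315)))) (XT.nd (nat_lit 156) (nat_lit 532) (nat_lit 0) (XT.nd (nat_lit 78) (nat_lit 0) (nat_lit 0) (XT.lf (nat_lit 380) (nat_lit 3689036669) (nat_lit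 0) (nat_lit 159641272) (nat_lit 304) (nat_lit 159641272) (nat_lit 106) (nat_lit 1) (nat_lit 101) (nat_lit 1) (nat_lit 105) (nat_lit 1) (nat_lit 399) (nat_lit 427) (nat_lit 314)) (XT.lf (nat_lit 76) (nat_lit 1294333560) (nat_lit 0) (nat_lit 1390635201) (nat_lit 380) (nat_lit 1294333560) (nat_lit 102) (nat_lit 1) (nat_lit 101) (nat_lit 1) (nat_lit 106) (nat_lit 1) (nat_lit 400) (nat_lit 427) (nat_lit 313))) (XT.nd (nat_lit 78) (nat_lit 304) (nat_lit 0) (XT.lf (nat_lit 304) (nat_lit 1500724530) (nat_lit 0) (nat_lit 1224975233) (nat_lit 228) (nat_lit 1224975233) (nat_lit 102) (nat_lit 1) (nat_lit 98) (nat_lit 1) (nat_lit 101) (nat_lit 1) (nat_lit 401) (nat_lit 427) (nat_lit 312)) (XT.nd (nat_lit 78) (nat_lit 304) (nat_lit 0) (XT.lf (nat_lit 76) (nat_lit 212087787) (nat_lit 0) (nat_lit 3498238546) (nat_lit 304) (nat_lit 212087787) (nat_lit 99) (nat_lit 1) (nat_lit 98) (nat_lit 1) (nat_lit 102) (nat_lit 1) (nat_lit 402) (nat_lit 427) (nat_lit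 311)) (XT.lf (nat_lit 76) (nat_lit 1624236416) (nat_lit 0) (nat_lit 645698315) (nat_lit 304) (nat_lit 1624236416) (nat_lit 95) (nat_lit 1) (nat_lit 94) (nat_lit 1) (nat_lit 98) (nat_lit 1) (nat_lit 403) (nat_lit 427) (nat_lit 310))))))) (XT.nd (nat_lit 702) (nat_lit 1368) (nat_lit 0) (XT.nd (nat_lit 312) (nat_lit 760) (nat_lit 0) (XT.nd (nat_lit 156) (nat_lit 532) (nat_lit 0) (XT.nd (nat_lit 78) (nat_lit 0) (nat_lit 0) (XT.lf (nat_lit 304) (nat_lit 2170267204) (nat_lit 0) (nat_lit 848011547) (nat_lit 228) (nat_lit 848011547) (nat_lit 95) (nat_lit 1) (nat_lit 91) (nat_lit 1) (nat_lit 94) (nat_lit 1) (nat_lit 404) (nat_lit 427) (nat_lit 309)) (XT.lf (nat_lit 76) (nat_lit 549415116) (nat_lit 0) (nat_lit 2739844087) (nat_lit 304) (nat_lit 549415116) (nat_lit 92) (nat_lit 1) (nat_lit 91) (nat_lit 1) (nat_lit 95) (nat_lit 1) (nat_lit 405) (nat_lit 427) (nat_lit 308))) (XT.nd (nat_lit 78) (nat_lit 304) (nat_lit 0) (XT.lf (nat_lit 304) (nat_lit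 30376541) (nat_lit 0) (nat_lit 1890434926) (nat_lit 228) (nat_lit 1890434926) (nat_lit 92) (nat_lit 1) (nat_lit 88) (nat_lit 1) (nat_lit 91) (nat_lit 1) (nat_lit 406) (nat_lit 427) (nat_lit 307)) (XT.lf (nat_lit 304) (nat_lit 2773451932) (nat_lit 0) (nat_lit 505317649) (nat_lit 228) (nat_lit 505317649) (nat_lit 88) (nat_lit 1) (nat_lit 84) (nat_lit 1) (nat_lit 87) (nat_lit 1) (nat_lit 407) (nat_lit 427) (nat_lit 306)))) (XT.nd (nat_lit 156) (nat_lit 532) (nat_lit 0) (XT.nd (nat_lit 78) (nat_lit 228) (nat_lit 0) (XT.lf (nat_lit 76) (nat_lit 854122471) (nat_lit 0) (nat_lit 2048851650) (nat_lit 304) (nat_lit 854122471) (nat_lit 85) (nat_lit 1) (nat_lit 84) (nat_lit 1) (nat_lit 88) (nat_lit 1) (nat_lit 408) (nat_lit 427) (nat_lit 305)) (XT.lf (nat_lit 304) (nat_lit 650445077) (nat_lit 0) (nat_lit 1539962902) (nat_lit 228) (nat_lit 1539962902) (nat_lit 85) (nat_lit 1) (nat_lit 81) (nat_lit 1) (nat_lit 84) (nat_lit 1) (nat_lit 409) (nat_lit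 427) (nat_lit 304))) (XT.nd (nat_lit 78) (nat_lit 228) (nat_lit 0) (XT.lf (nat_lit 304) (nat_lit 3315633530) (nat_lit 0) (nat_lit 194174673) (nat_lit 228) (nat_lit 194174673) (nat_lit 81) (nat_lit 1) (nat_lit 77) (nat_lit 1) (nat_lit 80) (nat_lit 1) (nat_lit 410) (nat_lit 427) (nat_lit 303)) (XT.nd (nat_lit 78) (nat_lit 228) (nat_lit 0) (XT.lf (nat_lit 76) (nat_lit 1128829911) (nat_lit 0) (nat_lit 1419939111) (nat_lit 304) (nat_lit 1128829911) (nat_lit 78) (nat_lit 1) (nat_lit 77) (nat_lit 1) (nat_lit 81) (nat_lit 1) (nat_lit 411) (nat_lit 427) (nat_lit 302)) (XT.lf (nat_lit 304) (nat_lit 1211088992) (nat_lit 0) (nat_lit 1220230079) (nat_lit 228) (nat_lit 1220230079) (nat_lit 78) (nat_lit 1) (nat_lit 74) (nat_lit 1) (nat_lit 77) (nat_lit 1) (nat_lit 412) (nat_lit 427) (nat_lit 301)))))) (XT.nd (nat_lit 390) (nat_lit 684) (nat_lit 0) (XT.nd (nat_lit 156) (nat_lit 456) (nat_lit 0) (XT.nd (nat_lit 78) (nat_lit 228) (nat_lit 0) (XT.lf (nat_lit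 76) (nat_lit 88509350) (nat_lit 0) (nat_lit 3448834181) (nat_lit 304) (nat_lit 88509350) (nat_lit 75) (nat_lit 1) (nat_lit 74) (nat_lit 1) (nat_lit 78) (nat_lit 1) (nat_lit 413) (nat_lit 427) (nat_lit 300)) (XT.lf (nat_lit 76) (nat_lit 1375955304) (nat_lit 0) (nat_lit 848193355) (nat_lit 228) (nat_lit 1375955304) (nat_lit 72) (nat_lit 1) (nat_lit 71) (nat_lit 1) (nat_lit 74) (nat_lit 1) (nat_lit 414) (nat_lit 427) (nat_lit 299))) (XT.nd (nat_lit 78) (nat_lit 228) (nat_lit 0) (XT.lf (nat_lit 304) (nat_lit 1717073028) (nat_lit 0) (nat_lit 928816129) (nat_lit 228) (nat_lit 928816129) (nat_lit 72) (nat_lit 1) (nat_lit 68) (nat_lit 1) (nat_lit 71) (nat_lit 1) (nat_lit 415) (nat_lit 427) (nat_lit 298)) (XT.nd (nat_lit 78) (nat_lit 228) (nat_lit 0) (XT.lf (nat_lit 76) (nat_lit 345577518) (nat_lit 0) (nat_lit 2858426618) (nat_lit 304) (nat_lit 345577518) (nat_lit 69) (nat_lit 1) (nat_lit 68) (nat_lit 1) (nat_lit 72) (nat_lit 1) (nat_lit 416)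 (nat_lit 427) (nat_lit 297)) (XT.lf (nat_lit 76) (nat_lit 1597729772) (nat_lit 0) (nat_lit 329079065) (nat_lit 228) (nat_lit 1597729772) (nat_lit 66) (nat_lit 1) (nat_lit 65) (nat_lit 1) (nat_lit 68) (nat_lit 1) (nat_lit 417) (nat_lit 427) (nat_lit 296))))) (XT.nd (nat_lit 156) (nat_lit 456) (nat_lit 0) (XT.nd (nat_lit 78) (nat_lit 0) (nat_lit 0) (XT.lf (nat_lit 304) (nat_lit 2172794380) (nat_lit 0) (nat_lit 663486603) (nat_lit 228) (nat_lit 663486603) (nat_lit 66) (nat_lit 1) (nat_lit 62) (nat_lit 1) (nat_lit 65) (nat_lit 1) (nat_lit 418) (nat_lit 427) (nat_lit 295)) (XT.lf (nat_lit 76) (nat_lit 577896053) (nat_lit 0) (nat_lit 2319408017) (nat_lit 304) (nat_lit 577896053) (nat_lit 63) (nat_lit 1) (nat_lit 62) (nat_lit 1) (nat_lit 66) (nat_lit 1) (nat_lit 419) (nat_lit 427) (nat_lit 294))) (XT.nd (nat_lit 78) (nat_lit 304) (nat_lit 0) (XT.lf (nat_lit 228) (nat_lit 143471790) (nat_lit 0) (nat_lit 1653671692) (nat_lit 152) (nat_lit 1653671692)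 (nat_lit 63) (nat_lit 1) (nat_lit 60) (nat_lit 1) (nat_lit 62) (nat_lit 1) (nat_lit 420) (nat_lit 427) (nat_lit 293)) (XT.nd (nat_lit 78) (nat_lit 0) (nat_lit 0) (XT.lf (nat_lit 304) (nat_lit 2582310774) (nat_lit 0) (nat_lit 422178740) (nat_lit 228) (nat_lit 422178740) (nat_lit 60) (nat_lit 1) (nat_lit 56) (nat_lit 1) (nat_lit 59) (nat_lit 1) (nat_lit 421) (nat_lit 427) (nat_lit 292)) (XT.lf (nat_lit 76) (nat_lit 787451177) (nat_lit 0) (nat_lit 1827738862) (nat_lit 304) (nat_lit 787451177) (nat_lit 57) (nat_lit 1) (nat_lit 56) (nat_lit 1) (nat_lit 60) (nat_lit 1) (nat_lit 422) (nat_lit 427) (nat_lit 291))))))))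
noncomputable def ec176 : XT := (XT.nd (nat_lit 49296) (nat_lit 0) (nat_lit 32452) (XT.nd (nat_lit 48594) (nat_lit 0) (nat_lit 34580) (XT.nd (nat_lit 312) (nat_lit 456) (nat_lit 0) (XT.nd (nat_lit 156) (nat_lit 152) (nat_lit 0) (XT.nd (nat_lit 78) (nat_lit 304) (nat_lit 0) (XT.lf (nat_lit 228) (nat_lit 575222444) (nat_lit 0) (nat_lit 1401813538) (nat_lit 152) (nat_lit 1401813538) (nat_lit 57) (nat_lit 1) (nat_lit 54) (nat_lit 1) (nat_lit 56) (nat_lit 1) (nat_lit 423) (nat_lit 427) (nat_lit 290)) (XT.lf (nat_lit 304) (nat_lit 2949366413) (nat_lit 0) (nat_lit 202988366) (nat_lit 228) (nat_lit 202988366) (nat_lit 54) (nat_lit 1) (nat_lit 50) (nat_lit 1) (nat_lit 53) (nat_lit 1) (nat_lit 424) (nat_lit 427) (nat_lit 289))) (XT.nd (nat_lit 78) (nat_lit 152) (nat_lit 0) (XT.lf (nat_lit 76) (nat_lit 976075866) (nat_lit 0) (nat_lit 1379689730) (nat_lit 304) (nat_lit 976075866) (nat_lit 51) (nat_lit 1) (nat_lit 50) (nat_lit 1) (nat_lit 54) (nat_lit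 1) (nat_lit 425) (nat_lit 427) (nat_lit 288)) (XT.lf (nat_lit 228) (nat_lit 965413376) (nat_lit 0) (nat_lit 1171604622) (nat_lit 152) (nat_lit 1171604622) (nat_lit 51) (nat_lit 1) (nat_lit 48) (nat_lit 1) (nat_lit 50) (nat_lit 1) (nat_lit 426) (nat_lit 427) (nat_lit 287)))) (XT.nd (nat_lit 156) (nat_lit 152) (nat_lit 0) (XT.nd (nat_lit 78) (nat_lit 0) (nat_lit 0) (XT.lf (nat_lit 304) (nat_lit 3277415940) (nat_lit 0) (nat_lit 4157782) (nat_lit 228) (nat_lit 4157782) (nat_lit 48) (nat_lit 1) (nat_lit 44) (nat_lit 1) (nat_lit 47) (nat_lit 1) (nat_lit 427) (nat_lit 427) (nat_lit 286)) (XT.lf (nat_lit 76) (nat_lit 1145461556) (nat_lit 0) (nat_lit 971817637) (nat_lit 304) (nat_lit 1145461556) (nat_lit 45) (nat_lit 1) (nat_lit 44) (nat_lit 1) (nat_lit 48) (nat_lit 1) (nat_lit 428) (nat_lit 427) (nat_lit 285))) (XT.nd (nat_lit 78) (nat_lit 0) (nat_lit 0) (XT.lf (nat_lit 228) (nat_lit 1317379743) (nat_lit 0) (nat_lit 961347842) (nat_lit 152) (nat_lit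 961347842) (nat_lit 45) (nat_lit 1) (nat_lit 42) (nat_lit 1) (nat_lit 44) (nat_lit 1) (nat_lit 429) (nat_lit 427) (nat_lit 284)) (XT.nd (nat_lit 47970) (nat_lit 0) (nat_lit 34580) (XT.lf (nat_lit 76) (nat_lit 177100545) (nat_lit 0) (nat_lit 2863482369) (nat_lit 228) (nat_lit 177100545) (nat_lit 43) (nat_lit 1) (nat_lit 42) (nat_lit 1) (nat_lit 45) (nat_lit 1) (nat_lit 430) (nat_lit 427) (nat_lit 283)) (XT.lf (nat_lit 1900) (nat_lit 1744992641) (nat_lit 0) (nat_lit 1759584838) (nat_lit 1900) (nat_lit 1744992641) (nat_lit 522) (nat_lit 1) (nat_lit 497) (nat_lit 0) (nat_lit 522) (nat_lit 0) (nat_lit 284) (nat_lit 428) (nat_lit 428)))))) (XT.nd (nat_lit 312) (nat_lit 0) (nat_lit 152) (XT.nd (nat_lit 156) (nat_lit 0) (nat_lit 76) (XT.nd (nat_lit 78) (nat_lit 0) (nat_lit 76) (XT.lf (nat_lit 1900) (nat_lit 6899963266) (nat_lit 76) (nat_lit 1748008622) (nat_lit 0) (nat_lit 1748008622) (nat_lit 522) (nat_lit 1) (nat_lit 498) (nat_lit 1) (nat_lit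 497) (nat_lit 0) (nat_lit 285) (nat_lit 428) (nat_lit 427)) (XT.lf (nat_lit 1900) (nat_lit 3387914808) (nat_lit 0) (nat_lit 3518117920) (nat_lit 1824) (nat_lit 3387914808) (nat_lit 523) (nat_lit 1) (nat_lit 498) (nat_lit 1) (nat_lit 522) (nat_lit 1) (nat_lit 286) (nat_lit 428) (nat_lit 426))) (XT.nd (nat_lit 78) (nat_lit 0) (nat_lit 76) (XT.lf (nat_lit 1900) (nat_lit 6630984446) (nat_lit 76) (nat_lit 1781238464) (nat_lit 0) (nat_lit 1781238464) (nat_lit 523) (nat_lit 1) (nat_lit 499) (nat_lit 1) (nat_lit 498) (nat_lit 1) (nat_lit 287) (nat_lit 428) (nat_lit 425)) (XT.lf (nat_lit 1900) (nat_lit 3222532786) (nat_lit 0) (nat_lit 3649018900) (nat_lit 1824) (nat_lit 3222532786) (nat_lit 524) (nat_lit 1) (nat_lit 499) (nat_lit 1) (nat_lit 523) (nat_lit 1) (nat_lit 288) (nat_lit 428) (nat_lit 424)))) (XT.nd (nat_lit 156) (nat_lit 0) (nat_lit 76) (XT.nd (nat_lit 78) (nat_lit 0) (nat_lit 76) (XT.lf (nat_lit 1900) (nat_lit 6238785465) (nat_lit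 76) (nat_lit 1878699977) (nat_lit 0) (nat_lit 1878699977) (nat_lit 524) (nat_lit 1) (nat_lit 500) (nat_lit 1) (nat_lit 499) (nat_lit 1) (nat_lit 289) (nat_lit 428) (nat_lit 423)) (XT.lf (nat_lit 1900) (nat_lit 2997616802) (nat_lit 0) (nat_lit 3904162225) (nat_lit 1824) (nat_lit 2997616802) (nat_lit 525) (nat_lit 1) (nat_lit 500) (nat_lit 1) (nat_lit 524) (nat_lit 1) (nat_lit 290) (nat_lit 428) (nat_lit 422))) (XT.nd (nat_lit 78) (nat_lit 0) (nat_lit 76) (XT.lf (nat_lit 1900) (nat_lit 5730771994) (nat_lit 76) (nat_lit 2036614224) (nat_lit 0) (nat_lit 2036614224) (nat_lit 525) (nat_lit 1) (nat_lit 501) (nat_lit 1) (nat_lit 500) (nat_lit 1) (nat_lit 291) (nat_lit 428) (nat_lit 421)) (XT.nd (nat_lit 78) (nat_lit 0) (nat_lit 0) (XT.lf (nat_lit 1900) (nat_lit 2716771886) (nat_lit 0) (nat_lit 4276187620) (nat_lit 1824) (nat_lit 2716771886) (nat_lit 526) (nat_lit 1) (nat_lit 501) (nat_lit 1) (nat_lit 525) (nat_lit 1) (nat_lit 292) (nat_lit 428)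 (nat_lit 420)) (XT.lf (nat_lit 1900) (nat_lit 5114010741) (nat_lit 76) (nat_lit 2251374194) (nat_lit 0) (nat_lit 2251374194) (nat_lit 526) (nat_lit 1) (nat_lit 502) (nat_lit 1) (nat_lit 501) (nat_lit 1) (nat_lit 293) (nat_lit 428) (nat_lit 419))))))) (XT.nd (nat_lit 702) (nat_lit 2508) (nat_lit 0) (XT.nd (nat_lit 312) (nat_lit 0) (nat_lit 152) (XT.nd (nat_lit 156) (nat_lit 0) (nat_lit 76) (XT.nd (nat_lit 78) (nat_lit 0) (nat_lit 0) (XT.lf (nat_lit 1900) (nat_lit 2383437721) (nat_lit 0) (nat_lit 4758070341) (nat_lit 1824) (nat_lit 2383437721) (nat_lit 527) (nat_lit 1) (nat_lit 502) (nat_lit 1) (nat_lit 526) (nat_lit 1) (nat_lit 294) (nat_lit 428) (nat_lit 418)) (XT.lf (nat_lit 1900) (nat_lit 4395243626) (nat_lit 76) (nat_lit 2519537644) (nat_lit 0) (nat_lit 2519537644) (nat_lit 527) (nat_lit 1) (nat_lit 503) (nat_lit 1) (nat_lit 502) (nat_lit 1) (nat_lit 295) (nat_lit 428) (nat_lit 417))) (XT.nd (nat_lit 78) (nat_lit 0) (nat_lit 0) (XT.lf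 (nat_lit 1900) (nat_lit 2000895566) (nat_lit 0) (nat_lit 5343107171) (nat_lit 1824) (nat_lit 2000895566) (nat_lit 528) (nat_lit 1) (nat_lit 503) (nat_lit 1) (nat_lit 527) (nat_lit 1) (nat_lit 296) (nat_lit 428) (nat_lit 416)) (XT.lf (nat_lit 1900) (nat_lit 3580901373) (nat_lit 76) (nat_lit 2837820205) (nat_lit 0) (nat_lit 2837820205) (nat_lit 528) (nat_lit 1) (nat_lit 504) (nat_lit 1) (nat_lit 503) (nat_lit 1) (nat_lit 297) (nat_lit 428) (nat_lit 415)))) (XT.nd (nat_lit 156) (nat_lit 0) (nat_lit 76) (XT.nd (nat_lit 78) (nat_lit 0) (nat_lit 0) (XT.lf (nat_lit 1900) (nat_lit 1572274888) (nat_lit 0) (nat_lit 6024902976) (nat_lit 1824) (nat_lit 1572274888) (nat_lit 529) (nat_lit 1) (nat_lit 504) (nat_lit 1) (nat_lit 528) (nat_lit 1) (nat_lit 298) (nat_lit 428) (nat_lit 414)) (XT.lf (nat_lit 1900) (nat_lit 2677116572) (nat_lit 76) (nat_lit 3203088785) (nat_lit 0) (nat_lit 3203088785) (nat_lit 529) (nat_lit 1) (nat_lit 505) (nat_lit 1) (nat_lit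 504) (nat_lit 1) (nat_lit 299) (nat_lit 428) (nat_lit 413))) (XT.nd (nat_lit 78) (nat_lit 0) (nat_lit 0) (XT.lf (nat_lit 1900) (nat_lit 1100559738) (nat_lit 0) (nat_lit 6797357808) (nat_lit 1824) (nat_lit 1100559738) (nat_lit 530) (nat_lit 1) (nat_lit 505) (nat_lit 1) (nat_lit 529) (nat_lit 1) (nat_lit 300) (nat_lit 428) (nat_lit 412)) (XT.nd (nat_lit 78) (nat_lit 0) (nat_lit 76) (XT.lf (nat_lit 1900) (nat_lit 1689736199) (nat_lit 76) (nat_lit 3612355226) (nat_lit 0) (nat_lit 3612355226) (nat_lit 530) (nat_lit 1) (nat_lit 506) (nat_lit 1) (nat_lit 505) (nat_lit 1) (nat_lit 301) (nat_lit 428) (nat_lit 411)) (XT.lf (nat_lit 1900) (nat_lit 588594868) (nat_lit 0) (nat_lit 7654654522) (nat_lit 1824) (nat_lit 588594868) (nat_lit 531) (nat_lit 1) (nat_lit 506) (nat_lit 1) (nat_lit 530) (nat_lit 1) (nat_lit 302) (nat_lit 428) (nat_lit 410)))))) (XT.nd (nat_lit 312) (nat_lit 988) (nat_lit 0) (XT.nd (nat_lit 156) (nat_lit 1824) (nat_lit 0) (XT.nd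 (nat_lit 78) (nat_lit 0) (nat_lit 76) (XT.lf (nat_lit 1900) (nat_lit 624333638) (nat_lit 76) (nat_lit 4062770221) (nat_lit 0) (nat_lit 4062770221) (nat_lit 531) (nat_lit 1) (nat_lit 507) (nat_lit 1) (nat_lit 506) (nat_lit 1) (nat_lit 303) (nat_lit 428) (nat_lit 409)) (XT.lf (nat_lit 1900) (nat_lit 39091597) (nat_lit 0) (nat_lit 8591246892) (nat_lit 1824) (nat_lit 39091597) (nat_lit 532) (nat_lit 1) (nat_lit 507) (nat_lit 1) (nat_lit 531) (nat_lit 1) (nat_lit 304) (nat_lit 428) (nat_lit 408))) (XT.nd (nat_lit 78) (nat_lit 0) (nat_lit 0) (XT.lf (nat_lit 1976) (nat_lit 4041173492) (nat_lit 0) (nat_lit 507041464) (nat_lit 1900) (nat_lit 4041173492) (nat_lit 508) (nat_lit 1) (nat_lit 482) (nat_lit 1) (nat_lit 507) (nat_lit 1) (nat_lit 305) (nat_lit 428) (nat_lit 407)) (XT.lf (nat_lit 1976) (nat_lit 7427273631) (nat_lit 76) (nat_lit 541778621) (nat_lit 0) (nat_lit 541778621) (nat_lit 508) (nat_lit 1) (nat_lit 483) (nat_lit 1) (nat_lit 482)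 (nat_lit 1) (nat_lit 306) (nat_lit 428) (nat_lit 406)))) (XT.nd (nat_lit 156) (nat_lit 1064) (nat_lit 0) (XT.nd (nat_lit 78) (nat_lit 0) (nat_lit 0) (XT.lf (nat_lit 1976) (nat_lit 3367928804) (nat_lit 0) (nat_lit 1696991578) (nat_lit 1900) (nat_lit 3367928804) (nat_lit 509) (nat_lit 1) (nat_lit 483) (nat_lit 1) (nat_lit 508) (nat_lit 1) (nat_lit 307) (nat_lit 428) (nat_lit 405)) (XT.lf (nat_lit 1976) (nat_lit 6046834347) (nat_lit 76) (nat_lit 1154671648) (nat_lit 0) (nat_lit 1154671648) (nat_lit 509) (nat_lit 1) (nat_lit 484) (nat_lit 1) (nat_lit 483) (nat_lit 1) (nat_lit 308) (nat_lit 428) (nat_lit 404))) (XT.nd (nat_lit 78) (nat_lit 1140) (nat_lit 0) (XT.lf (nat_lit 76) (nat_lit 2665638042) (nat_lit 0) (nat_lit 2948948178) (nat_lit 1900) (nat_lit 2665638042) (nat_lit 485) (nat_lit 1) (nat_lit 484) (nat_lit 1) (nat_lit 509) (nat_lit 1) (nat_lit 309) (nat_lit 428) (nat_lit 403)) (XT.nd (nat_lit 78) (nat_lit 0) (nat_lit 0) (XT.lf (nat_lit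 1216) (nat_lit 4610347400) (nat_lit 0) (nat_lit 1797516175) (nat_lit 1140) (nat_lit 1797516175) (nat_lit 485) (nat_lit 1) (nat_lit 469) (nat_lit 1) (nat_lit 484) (nat_lit 1) (nat_lit 310) (nat_lit 428) (nat_lit 402)) (XT.lf (nat_lit 76) (nat_lit 1936511235) (nat_lit 0) (nat_lit 4258381641) (nat_lit 1216) (nat_lit 1936511235) (nat_lit 470) (nat_lit 1) (nat_lit 469) (nat_lit 1) (nat_lit 485) (nat_lit 1) (nat_lit 311) (nat_lit 428) (nat_lit 401))))))))
noncomputable def ec177 : XT := (XT.nd (nat_lit 1404) (nat_lit 7068) (nat_lit 0) (XT.nd (nat_lit 702) (nat_lit 3952) (nat_lit 0) (XT.nd (nat_lit 312) (nat_lit 2660) (nat_lit 0) (XT.nd (nat_lit 156) (nat_lit 912) (nat_lit 0) (XT.nd (nat_lit 78) (nat_lit 0) (nat_lit 0) (XT.lf (nat_lit 988) (nat_lit 3122139224) (nat_lit 0) (nat_lit 2468095211) (nat_lit 912) (nat_lit 2468095211) (nat_lit 470) (nat_lit 1) (nat_lit 457) (nat_lit 1) (nat_lit 469) (nat_lit 1) (nat_lit 312) (nat_lit 428) (nat_lit 400))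 (XT.lf (nat_lit 76) (nat_lit 1182651380) (nat_lit 0) (nat_lit 5620979836) (nat_lit 988) (nat_lit 1182651380) (nat_lit 458) (nat_lit 1) (nat_lit 457) (nat_lit 1) (nat_lit 470) (nat_lit 1) (nat_lit 313) (nat_lit 428) (nat_lit 399))) (XT.nd (nat_lit 78) (nat_lit 0) (nat_lit 0) (XT.lf (nat_lit 988) (nat_lit 1586326096) (nat_lit 0) (nat_lit 3164298517) (nat_lit 912) (nat_lit 3164298517) (nat_lit 458) (nat_lit 1) (nat_lit 445) (nat_lit 1) (nat_lit 457) (nat_lit 1) (nat_lit 314) (nat_lit 428) (nat_lit 398)) (XT.lf (nat_lit 76) (nat_lit 406059006) (nat_lit 0) (nat_lit 7032638869) (nat_lit 988) (nat_lit 406059006) (nat_lit 446) (nat_lit 1) (nat_lit 445) (nat_lit 1) (nat_lit 458) (nat_lit 1) (nat_lit 315) (nat_lit 428) (nat_lit 397)))) (XT.nd (nat_lit 156) (nat_lit 836) (nat_lit 0) (XT.nd (nat_lit 78) (nat_lit 988) (nat_lit 0) (XT.lf (nat_lit 912) (nat_lit 6823120) (nat_lit 0) (nat_lit 3884118059) (nat_lit 836) (nat_lit 3884118059) (nat_lit 446)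 (nat_lit 1) (nat_lit 434) (nat_lit 1) (nat_lit 445) (nat_lit 1) (nat_lit 316) (nat_lit 428) (nat_lit 396)) (XT.lf (nat_lit 988) (nat_lit 6928946025) (nat_lit 0) (nat_lit 388788671) (nat_lit 912) (nat_lit 388788671) (nat_lit 434) (nat_lit 1) (nat_lit 421) (nat_lit 1) (nat_lit 433) (nat_lit 1) (nat_lit 317) (nat_lit 428) (nat_lit 395))) (XT.nd (nat_lit 78) (nat_lit 836) (nat_lit 0) (XT.lf (nat_lit 76) (nat_lit 3023466868) (nat_lit 0) (nat_lit 1591496988) (nat_lit 988) (nat_lit 3023466868) (nat_lit 422) (nat_lit 1) (nat_lit 421) (nat_lit 1) (nat_lit 434) (nat_lit 1) (nat_lit 318) (nat_lit 428) (nat_lit 394)) (XT.nd (nat_lit 78) (nat_lit 0) (nat_lit 0) (XT.lf (nat_lit 912) (nat_lit 5171745430) (nat_lit 0) (nat_lit 1199861248) (nat_lit 836) (nat_lit 1199861248) (nat_lit 422) (nat_lit 1) (nat_lit 410) (nat_lit 1) (nat_lit 421) (nat_lit 1) (nat_lit 319) (nat_lit 428) (nat_lit 393)) (XT.lf (nat_lit 76) (nat_lit 2139733854) (nat_lit 0) (nat_lit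 3225678850) (nat_lit 912) (nat_lit 2139733854) (nat_lit 411) (nat_lit 1) (nat_lit 410) (nat_lit 1) (nat_lit 422) (nat_lit 1) (nat_lit 320) (nat_lit 428) (nat_lit 392)))))) (XT.nd (nat_lit 312) (nat_lit 2356) (nat_lit 0) (XT.nd (nat_lit 156) (nat_lit 760) (nat_lit 0) (XT.nd (nat_lit 78) (nat_lit 0) (nat_lit 0) (XT.lf (nat_lit 912) (nat_lit 3383464059) (nat_lit 0) (nat_lit 2028122720) (nat_lit 836) (nat_lit 2028122720) (nat_lit 411) (nat_lit 1) (nat_lit 399) (nat_lit 1) (nat_lit 410) (nat_lit 1) (nat_lit 321) (nat_lit 428) (nat_lit 391)) (XT.lf (nat_lit 76) (nat_lit 1241311030) (nat_lit 0) (nat_lit 4892494107) (nat_lit 912) (nat_lit 1241311030) (nat_lit 400) (nat_lit 1) (nat_lit 399) (nat_lit 1) (nat_lit 411) (nat_lit 1) (nat_lit 322) (nat_lit 428) (nat_lit 390))) (XT.nd (nat_lit 78) (nat_lit 0) (nat_lit 0) (XT.lf (nat_lit 836) (nat_lit 1567256170) (nat_lit 0) (nat_lit 2871951037) (nat_lit 760) (nat_lit 2871951037) (nat_lit 400) (nat_lit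 1) (nat_lit 389) (nat_lit 1) (nat_lit 399) (nat_lit 1) (nat_lit 323) (nat_lit 428) (nat_lit 389)) (XT.lf (nat_lit 76) (nat_lit 329729725) (nat_lit 0) (nat_lit 6588791434) (nat_lit 836) (nat_lit 329729725) (nat_lit 390) (nat_lit 1) (nat_lit 389) (nat_lit 1) (nat_lit 400) (nat_lit 1) (nat_lit 324) (nat_lit 428) (nat_lit 388)))) (XT.nd (nat_lit 156) (nat_lit 760) (nat_lit 0) (XT.nd (nat_lit 78) (nat_lit 760) (nat_lit 0) (XT.lf (nat_lit 76) (nat_lit 3457699445) (nat_lit 0) (nat_lit 270292598) (nat_lit 836) (nat_lit 3457699445) (nat_lit 379) (nat_lit 1) (nat_lit 378) (nat_lit 1) (nat_lit 389) (nat_lit 1) (nat_lit 325) (nat_lit 428) (nat_lit 387)) (XT.lf (nat_lit 836) (nat_lit 5944851302) (nat_lit 0) (nat_lit 589652055) (nat_lit 760) (nat_lit 589652055) (nat_lit 379) (nat_lit 1) (nat_lit 368) (nat_lit 1) (nat_lit 378) (nat_lit 1) (nat_lit 326) (nat_lit 428) (nat_lit 386))) (XT.nd (nat_lit 78) (nat_lit 760) (nat_lit 0) (XT.lf (nat_lit 76) (nat_lit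 2476982090) (nat_lit 0) (nat_lit 2109089784) (nat_lit 836) (nat_lit 2476982090) (nat_lit 369) (nat_lit 1) (nat_lit 368) (nat_lit 1) (nat_lit 379) (nat_lit 1) (nat_lit 327) (nat_lit 428) (nat_lit 385)) (XT.nd (nat_lit 78) (nat_lit 0) (nat_lit 0) (XT.lf (nat_lit 836) (nat_lit 3968630629) (nat_lit 0) (nat_lit 1517123943) (nat_lit 760) (nat_lit 1517123943) (nat_lit 369) (nat_lit 1) (nat_lit 358) (nat_lit 1) (nat_lit 368) (nat_lit 1) (nat_lit 328) (nat_lit 428) (nat_lit 384)) (XT.lf (nat_lit 76) (nat_lit 1488167510) (nat_lit 0) (nat_lit 3967032617) (nat_lit 836) (nat_lit 1488167510) (nat_lit 359) (nat_lit 1) (nat_lit 358) (nat_lit 1) (nat_lit 369) (nat_lit 1) (nat_lit 329) (nat_lit 428) (nat_lit 383))))))) (XT.nd (nat_lit 702) (nat_lit 3648) (nat_lit 0) (XT.nd (nat_lit 312) (nat_lit 1292) (nat_lit 0) (XT.nd (nat_lit 156) (nat_lit 1444) (nat_lit 0) (XT.nd (nat_lit 78) (nat_lit 0) (nat_lit 0) (XT.lf (nat_lit 760) (nat_lit 1977397289) (nat_lit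 0) (nat_lit 2453557303) (nat_lit 684) (nat_lit 2453557303) (nat_lit 359) (nat_lit 1) (nat_lit 349) (nat_lit 1) (nat_lit 358) (nat_lit 1) (nat_lit 330) (nat_lit 428) (nat_lit 382)) (XT.lf (nat_lit 76) (nat_lit 492475613) (nat_lit 0) (nat_lit 5841602190) (nat_lit 760) (nat_lit 492475613) (nat_lit 350) (nat_lit 1) (nat_lit 349) (nat_lit 1) (nat_lit 359) (nat_lit 1) (nat_lit 331) (nat_lit 428) (nat_lit 381))) (XT.nd (nat_lit 78) (nat_lit 684) (nat_lit 0) (XT.lf (nat_lit 76) (nat_lit 3371427397) (nat_lit 0) (nat_lit 26119586) (nat_lit 760) (nat_lit 3371427397) (nat_lit 340) (nat_lit 1) (nat_lit 339) (nat_lit 1) (nat_lit 349) (nat_lit 1) (nat_lit 332) (nat_lit 428) (nat_lit 380)) (XT.lf (nat_lit 760) (nat_lit 5701088284) (nat_lit 0) (nat_lit 505590534) (nat_lit 684) (nat_lit 505590534) (nat_lit 340) (nat_lit 1) (nat_lit 330) (nat_lit 1) (nat_lit 339) (nat_lit 1) (nat_lit 333) (nat_lit 428) (nat_lit 379)))) (XT.nd (nat_lit 156) (nat_lit 608)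 (nat_lit 0) (XT.nd (nat_lit 78) (nat_lit 684) (nat_lit 0) (XT.lf (nat_lit 76) (nat_lit 2320996508) (nat_lit 0) (nat_lit 2013942865) (nat_lit 760) (nat_lit 2320996508) (nat_lit 331) (nat_lit 1) (nat_lit 330) (nat_lit 1) (nat_lit 340) (nat_lit 1) (nat_lit 334) (nat_lit 428) (nat_lit 378)) (XT.lf (nat_lit 760) (nat_lit 3590414700) (nat_lit 0) (nat_lit 1505016246) (nat_lit 684) (nat_lit 1505016246) (nat_lit 331) (nat_lit 1) (nat_lit 321) (nat_lit 1) (nat_lit 330) (nat_lit 1) (nat_lit 335) (nat_lit 428) (nat_lit 377))) (XT.nd (nat_lit 78) (nat_lit 608) (nat_lit 0) (XT.lf (nat_lit 76) (nat_lit 1267838992) (nat_lit 0) (nat_lit 4009902306) (nat_lit 760) (nat_lit 1267838992) (nat_lit 322) (nat_lit 1) (nat_lit 321) (nat_lit 1) (nat_lit 331) (nat_lit 1) (nat_lit 336) (nat_lit 428) (nat_lit 376)) (XT.nd (nat_lit 78) (nat_lit 0) (nat_lit 0) (XT.lf (nat_lit 684) (nat_lit 1475241445) (nat_lit 0) (nat_lit 2508015246) (nat_lit 608) (nat_lit 2508015246)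 (nat_lit 322) (nat_lit 1) (nat_lit 313) (nat_lit 1) (nat_lit 321) (nat_lit 1) (nat_lit 337) (nat_lit 428) (nat_lit 375)) (XT.lf (nat_lit 76) (nat_lit 212913984) (nat_lit 0) (nat_lit 6012008920) (nat_lit 684) (nat_lit 212913984) (nat_lit 314) (nat_lit 1) (nat_lit 313) (nat_lit 1) (nat_lit 322) (nat_lit 1) (nat_lit 338) (nat_lit 428) (nat_lit 374)))))) (XT.nd (nat_lit 390) (nat_lit 1748) (nat_lit 0) (XT.nd (nat_lit 156) (nat_lit 608) (nat_lit 0) (XT.nd (nat_lit 78) (nat_lit 608) (nat_lit 0) (XT.lf (nat_lit 76) (nat_lit 2875228224) (nat_lit 0) (nat_lit 634134154) (nat_lit 684) (nat_lit 2875228224) (nat_lit 305) (nat_lit 1) (nat_lit 304) (nat_lit 1) (nat_lit 313) (nat_lit 1) (nat_lit 339) (nat_lit 428) (nat_lit 373)) (XT.lf (nat_lit 684) (nat_lit 4657541503) (nat_lit 0) (nat_lit 837328135) (nat_lit 608) (nat_lit 837328135) (nat_lit 305) (nat_lit 1) (nat_lit 296) (nat_lit 1) (nat_lit 304) (nat_lit 1) (nat_lit 340) (nat_lit 428) (nat_lit 372)))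 (XT.nd (nat_lit 78) (nat_lit 608) (nat_lit 0) (XT.lf (nat_lit 76) (nat_lit 1777605809) (nat_lit 0) (nat_lit 2725015842) (nat_lit 684) (nat_lit 1777605809) (nat_lit 297) (nat_lit 1) (nat_lit 296) (nat_lit 1) (nat_lit 305) (nat_lit 1) (nat_lit 341) (nat_lit 428) (nat_lit 371)) (XT.nd (nat_lit 78) (nat_lit 0) (nat_lit 0) (XT.lf (nat_lit 684) (nat_lit 2456568308) (nat_lit 0) (nat_lit 1886178169) (nat_lit 608) (nat_lit 1886178169) (nat_lit 297) (nat_lit 1) (nat_lit 288) (nat_lit 1) (nat_lit 296) (nat_lit 1) (nat_lit 342) (nat_lit 428) (nat_lit 370)) (XT.lf (nat_lit 76) (nat_lit 681599179) (nat_lit 0) (nat_lit 4815110418) (nat_lit 684) (nat_lit 681599179) (nat_lit 289) (nat_lit 1) (nat_lit 288) (nat_lit 1) (nat_lit 297) (nat_lit 1) (nat_lit 343) (nat_lit 428) (nat_lit 369))))) (XT.nd (nat_lit 156) (nat_lit 532) (nat_lit 0) (XT.nd (nat_lit 78) (nat_lit 684) (nat_lit 0) (XT.lf (nat_lit 608) (nat_lit 259588679) (nat_lit 0) (nat_lit 2934237776)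 (nat_lit 532) (nat_lit 2934237776) (nat_lit 289) (nat_lit 1) (nat_lit 281) (nat_lit 1) (nat_lit 288) (nat_lit 1) (nat_lit 344) (nat_lit 428) (nat_lit 368)) (XT.lf (nat_lit 684) (nat_lit 5259877412) (nat_lit 0) (nat_lit 409339505) (nat_lit 608) (nat_lit 409339505) (nat_lit 281) (nat_lit 1) (nat_lit 272) (nat_lit 1) (nat_lit 280) (nat_lit 1) (nat_lit 345) (nat_lit 428) (nat_lit 367))) (XT.nd (nat_lit 78) (nat_lit 532) (nat_lit 0) (XT.lf (nat_lit 76) (nat_lit 2061343141) (nat_lit 0) (nat_lit 1906617012) (nat_lit 684) (nat_lit 2061343141) (nat_lit 273) (nat_lit 1) (nat_lit 272) (nat_lit 1) (nat_lit 281) (nat_lit 1) (nat_lit 346) (nat_lit 428) (nat_lit 366)) (XT.nd (nat_lit 78) (nat_lit 0) (nat_lit 0) (XT.lf (nat_lit 608) (nat_lit 2995249484) (nat_lit 0) (nat_lit 1492760239) (nat_lit 532) (nat_lit 1492760239) (nat_lit 273) (nat_lit 1) (nat_lit 265) (nat_lit 1) (nat_lit 272) (nat_lit 1) (nat_lit 347) (nat_lit 428) (nat_lit 365)) (XT.lf (nat_lit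 76) (nat_lit 935041600) (nat_lit 0) (nat_lit 4062716121) (nat_lit 608) (nat_lit 935041600) (nat_lit 266) (nat_lit 1) (nat_lit 265) (nat_lit 1) (nat_lit 273) (nat_lit 1) (nat_lit 348) (nat_lit 428) (nat_lit 364))))))))
noncomputable def ec178 : XT := (XT.nd (nat_lit 1404) (nat_lit 4104) (nat_lit 0) (XT.nd (nat_lit 702) (nat_lit 2356) (nat_lit 0) (XT.nd (nat_lit 312) (nat_lit 1520) (nat_lit 0) (XT.nd (nat_lit 156) (nat_lit 532) (nat_lit 0) (XT.nd (nat_lit 78) (nat_lit 608) (nat_lit 0) (XT.lf (nat_lit 608) (nat_lit 740250606) (nat_lit 0) (nat_lit 2572497295) (nat_lit 532) (nat_lit 2572497295) (nat_lit 266) (nat_lit 1) (nat_lit 258) (nat_lit 1) (nat_lit 265) (nat_lit 1) (nat_lit 349) (nat_lit 428) (nat_lit 363)) (XT.lf (nat_lit 608) (nat_lit 5468549173) (nat_lit 0) (nat_lit 184940593) (nat_lit 532) (nat_lit 184940593) (nat_lit 258) (nat_lit 1) (nat_lit 250) (nat_lit 1) (nat_lit 257) (nat_lit 1) (nat_lit 350) (nat_lit 428) (nat_lit 362)))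 (XT.nd (nat_lit 78) (nat_lit 532) (nat_lit 0) (XT.lf (nat_lit 76) (nat_lit 2153748066) (nat_lit 0) (nat_lit 1484232980) (nat_lit 608) (nat_lit 2153748066) (nat_lit 251) (nat_lit 1) (nat_lit 250) (nat_lit 1) (nat_lit 258) (nat_lit 1) (nat_lit 351) (nat_lit 428) (nat_lit 361)) (XT.lf (nat_lit 608) (nat_lit 3159444145) (nat_lit 0) (nat_lit 1293153982) (nat_lit 532) (nat_lit 1293153982) (nat_lit 251) (nat_lit 1) (nat_lit 243) (nat_lit 1) (nat_lit 250) (nat_lit 1) (nat_lit 352) (nat_lit 428) (nat_lit 360)))) (XT.nd (nat_lit 156) (nat_lit 1064) (nat_lit 0) (XT.nd (nat_lit 78) (nat_lit 456) (nat_lit 0) (XT.lf (nat_lit 76) (nat_lit 1006489755) (nat_lit 0) (nat_lit 3687286843) (nat_lit 608) (nat_lit 1006489755) (nat_lit 244) (nat_lit 1) (nat_lit 243) (nat_lit 1) (nat_lit 251) (nat_lit 1) (nat_lit 353) (nat_lit 428) (nat_lit 359)) (XT.lf (nat_lit 532) (nat_lit 864736110) (nat_lit 0) (nat_lit 2395230355) (nat_lit 456) (nat_lit 2395230355) (nat_lit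 244) (nat_lit 1) (nat_lit 237) (nat_lit 1) (nat_lit 243) (nat_lit 1) (nat_lit 354) (nat_lit 428) (nat_lit 358))) (XT.nd (nat_lit 78) (nat_lit 456) (nat_lit 0) (XT.lf (nat_lit 608) (nat_lit 5345864502) (nat_lit 0) (nat_lit 132482355) (nat_lit 532) (nat_lit 132482355) (nat_lit 237) (nat_lit 1) (nat_lit 229) (nat_lit 1) (nat_lit 236) (nat_lit 1) (nat_lit 355) (nat_lit 428) (nat_lit 357)) (XT.nd (nat_lit 78) (nat_lit 456) (nat_lit 0) (XT.lf (nat_lit 76) (nat_lit 2085211327) (nat_lit 0) (nat_lit 1396104639) (nat_lit 608) (nat_lit 2085211327) (nat_lit 230) (nat_lit 1) (nat_lit 229) (nat_lit 1) (nat_lit 237) (nat_lit 1) (nat_lit 356) (nat_lit 428) (nat_lit 356)) (XT.lf (nat_lit 532) (nat_lit 3008843785) (nat_lit 0) (nat_lit 1257035078) (nat_lit 456) (nat_lit 1257035078) (nat_lit 230) (nat_lit 1) (nat_lit 223) (nat_lit 1) (nat_lit 229) (nat_lit 1) (nat_lit 357) (nat_lit 428) (nat_lit 355)))))) (XT.nd (nat_lit 312) (nat_lit 1368) (nat_lit 0) (XT.nd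 (nat_lit 156) (nat_lit 532) (nat_lit 0) (XT.nd (nat_lit 78) (nat_lit 456) (nat_lit 0) (XT.lf (nat_lit 76) (nat_lit 925057427) (nat_lit 0) (nat_lit 3629650191) (nat_lit 532) (nat_lit 925057427) (nat_lit 224) (nat_lit 1) (nat_lit 223) (nat_lit 1) (nat_lit 230) (nat_lit 1) (nat_lit 358) (nat_lit 428) (nat_lit 354)) (XT.lf (nat_lit 532) (nat_lit 690226823) (nat_lit 0) (nat_lit 2373383582) (nat_lit 456) (nat_lit 2373383582) (nat_lit 224) (nat_lit 1) (nat_lit 217) (nat_lit 1) (nat_lit 223) (nat_lit 1) (nat_lit 359) (nat_lit 428) (nat_lit 353))) (XT.nd (nat_lit 78) (nat_lit 0) (nat_lit 0) (XT.lf (nat_lit 532) (nat_lit 4946335280) (nat_lit 0) (nat_lit 224259510) (nat_lit 456) (nat_lit 224259510) (nat_lit 217) (nat_lit 1) (nat_lit 210) (nat_lit 1) (nat_lit 216) (nat_lit 1) (nat_lit 360) (nat_lit 428) (nat_lit 352)) (XT.lf (nat_lit 76) (nat_lit 1882317129) (nat_lit 0) (nat_lit 1588176453) (nat_lit 532) (nat_lit 1882317129) (nat_lit 211) (nat_lit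 1) (nat_lit 210) (nat_lit 1) (nat_lit 217) (nat_lit 1) (nat_lit 361) (nat_lit 428) (nat_lit 351)))) (XT.nd (nat_lit 156) (nat_lit 912) (nat_lit 0) (XT.nd (nat_lit 78) (nat_lit 0) (nat_lit 0) (XT.lf (nat_lit 532) (nat_lit 2595655316) (nat_lit 0) (nat_lit 1357865659) (nat_lit 456) (nat_lit 1357865659) (nat_lit 211) (nat_lit 1) (nat_lit 204) (nat_lit 1) (nat_lit 210) (nat_lit 1) (nat_lit 362) (nat_lit 428) (nat_lit 350)) (XT.lf (nat_lit 76) (nat_lit 716203879) (nat_lit 0) (nat_lit 3838029981) (nat_lit 532) (nat_lit 716203879) (nat_lit 205) (nat_lit 1) (nat_lit 204) (nat_lit 1) (nat_lit 211) (nat_lit 1) (nat_lit 363) (nat_lit 428) (nat_lit 349))) (XT.nd (nat_lit 78) (nat_lit 532) (nat_lit 0) (XT.lf (nat_lit 456) (nat_lit 266718781) (nat_lit 0) (nat_lit 2481538941) (nat_lit 380) (nat_lit 2481538941) (nat_lit 205) (nat_lit 1) (nat_lit 199) (nat_lit 1) (nat_lit 204) (nat_lit 1) (nat_lit 364) (nat_lit 428) (nat_lit 348)) (XT.nd (nat_lit 78) (nat_lit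 0) (nat_lit 0) (XT.lf (nat_lit 532) (nat_lit 4317584706) (nat_lit 0) (nat_lit 436052187) (nat_lit 456) (nat_lit 436052187) (nat_lit 199) (nat_lit 1) (nat_lit 192) (nat_lit 1) (nat_lit 198) (nat_lit 1) (nat_lit 365) (nat_lit 428) (nat_lit 347)) (XT.lf (nat_lit 76) (nat_lit 1568286249) (nat_lit 0) (nat_lit 2013200813) (nat_lit 532) (nat_lit 1568286249) (nat_lit 193) (nat_lit 1) (nat_lit 192) (nat_lit 1) (nat_lit 199) (nat_lit 1) (nat_lit 366) (nat_lit 428) (nat_lit 346))))))) (XT.nd (nat_lit 702) (nat_lit 1748) (nat_lit 0) (XT.nd (nat_lit 312) (nat_lit 1140) (nat_lit 0) (XT.nd (nat_lit 156) (nat_lit 836) (nat_lit 0) (XT.nd (nat_lit 78) (nat_lit 0) (nat_lit 0) (XT.lf (nat_lit 456) (nat_lit 1965472653) (nat_lit 0) (nat_lit 1572453926) (nat_lit 380) (nat_lit 1572453926) (nat_lit 193) (nat_lit 1) (nat_lit 187) (nat_lit 1) (nat_lit 192) (nat_lit 1) (nat_lit 367) (nat_lit 428) (nat_lit 345)) (XT.lf (nat_lit 76) (nat_lit 402159587) (nat_lit 0)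 (nat_lit 4267185710) (nat_lit 456) (nat_lit 402159587) (nat_lit 188) (nat_lit 1) (nat_lit 187) (nat_lit 1) (nat_lit 193) (nat_lit 1) (nat_lit 368) (nat_lit 428) (nat_lit 344))) (XT.nd (nat_lit 78) (nat_lit 380) (nat_lit 0) (XT.lf (nat_lit 76) (nat_lit 2337701697) (nat_lit 0) (nat_lit 357390646) (nat_lit 456) (nat_lit 2337701697) (nat_lit 182) (nat_lit 1) (nat_lit 181) (nat_lit 1) (nat_lit 187) (nat_lit 1) (nat_lit 369) (nat_lit 428) (nat_lit 343)) (XT.lf (nat_lit 456) (nat_lit 3501151477) (nat_lit 0) (nat_lit 746719588) (nat_lit 380) (nat_lit 746719588) (nat_lit 182) (nat_lit 1) (nat_lit 176) (nat_lit 1) (nat_lit 181) (nat_lit 1) (nat_lit 370) (nat_lit 428) (nat_lit 342)))) (XT.nd (nat_lit 156) (nat_lit 760) (nat_lit 0) (XT.nd (nat_lit 78) (nat_lit 380) (nat_lit 0) (XT.lf (nat_lit 76) (nat_lit 1163368836) (nat_lit 0) (nat_lit 2629944045) (nat_lit 456) (nat_lit 1163368836) (nat_lit 177) (nat_lit 1) (nat_lit 176) (nat_lit 1) (nat_lit 182)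 (nat_lit 1) (nat_lit 371) (nat_lit 428) (nat_lit 341)) (XT.lf (nat_lit 456) (nat_lit 1158049326) (nat_lit 0) (nat_lit 1880563753) (nat_lit 380) (nat_lit 1880563753) (nat_lit 177) (nat_lit 1) (nat_lit 171) (nat_lit 1) (nat_lit 176) (nat_lit 1) (nat_lit 372) (nat_lit 428) (nat_lit 340))) (XT.nd (nat_lit 78) (nat_lit 760) (nat_lit 0) (XT.lf (nat_lit 76) (nat_lit 2303618) (nat_lit 0) (nat_lit 4877649724) (nat_lit 456) (nat_lit 2303618) (nat_lit 172) (nat_lit 1) (nat_lit 171) (nat_lit 1) (nat_lit 177) (nat_lit 1) (nat_lit 373) (nat_lit 428) (nat_lit 339)) (XT.nd (nat_lit 78) (nat_lit 380) (nat_lit 0) (XT.lf (nat_lit 76) (nat_lit 1851082332) (nat_lit 0) (nat_lit 1143116721) (nat_lit 380) (nat_lit 1851082332) (nat_lit 167) (nat_lit 1) (nat_lit 166) (nat_lit 1) (nat_lit 171) (nat_lit 1) (nat_lit 374) (nat_lit 428) (nat_lit 338)) (XT.lf (nat_lit 456) (nat_lit 2533202569) (nat_lit 0) (nat_lit 1137839808) (nat_lit 380) (nat_lit 1137839808) (nat_lit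 167) (nat_lit 1) (nat_lit 161) (nat_lit 1) (nat_lit 166) (nat_lit 1) (nat_lit 375) (nat_lit 428) (nat_lit 337)))))) (XT.nd (nat_lit 312) (nat_lit 988) (nat_lit 0) (XT.nd (nat_lit 156) (nat_lit 456) (nat_lit 0) (XT.nd (nat_lit 78) (nat_lit 304) (nat_lit 0) (XT.lf (nat_lit 76) (nat_lit 685192561) (nat_lit 0) (nat_lit 3402482627) (nat_lit 456) (nat_lit 685192561) (nat_lit 162) (nat_lit 1) (nat_lit 161) (nat_lit 1) (nat_lit 167) (nat_lit 1) (nat_lit 376) (nat_lit 428) (nat_lit 336)) (XT.lf (nat_lit 380) (nat_lit 207983264) (nat_lit 0) (nat_lit 2264568649) (nat_lit 304) (nat_lit 2264568649) (nat_lit 162) (nat_lit 1) (nat_lit 157) (nat_lit 1) (nat_lit 161) (nat_lit 1) (nat_lit 377) (nat_lit 428) (nat_lit 335))) (XT.nd (nat_lit 78) (nat_lit 0) (nat_lit 0) (XT.lf (nat_lit 456) (nat_lit 3774938583) (nat_lit 0) (nat_lit 463432795) (nat_lit 380) (nat_lit 463432795) (nat_lit 157) (nat_lit 1) (nat_lit 151) (nat_lit 1) (nat_lit 156) (nat_lit 1) (nat_lit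 378) (nat_lit 428) (nat_lit 334)) (XT.lf (nat_lit 76) (nat_lit 1302682968) (nat_lit 0) (nat_lit 2061297660) (nat_lit 456) (nat_lit 1302682968) (nat_lit 152) (nat_lit 1) (nat_lit 151) (nat_lit 1) (nat_lit 157) (nat_lit 1) (nat_lit 379) (nat_lit 428) (nat_lit 333)))) (XT.nd (nat_lit 156) (nat_lit 684) (nat_lit 0) (XT.nd (nat_lit 78) (nat_lit 0) (nat_lit 0) (XT.lf (nat_lit 380) (nat_lit 1445164919) (nat_lit 0) (nat_lit 1593390613) (nat_lit 304) (nat_lit 1593390613) (nat_lit 152) (nat_lit 1) (nat_lit 147) (nat_lit 1) (nat_lit 151) (nat_lit 1) (nat_lit 380) (nat_lit 428) (nat_lit 332)) (XT.lf (nat_lit 76) (nat_lit 149071156) (nat_lit 0) (nat_lit 4299579457) (nat_lit 380) (nat_lit 149071156) (nat_lit 148) (nat_lit 1) (nat_lit 147) (nat_lit 1) (nat_lit 152) (nat_lit 1) (nat_lit 381) (nat_lit 428) (nat_lit 331))) (XT.nd (nat_lit 78) (nat_lit 304) (nat_lit 0) (XT.lf (nat_lit 76) (nat_lit 1860017853) (nat_lit 0) (nat_lit 843467128) (nat_lit 380)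 (nat_lit 1860017853) (nat_lit 143) (nat_lit 1) (nat_lit 142) (nat_lit 1) (nat_lit 147) (nat_lit 1) (nat_lit 382) (nat_lit 428) (nat_lit 330)) (XT.nd (nat_lit 78) (nat_lit 0) (nat_lit 0) (XT.lf (nat_lit 380) (nat_lit 2563560502) (nat_lit 0) (nat_lit 983104693) (nat_lit 304) (nat_lit 983104693) (nat_lit 143) (nat_lit 1) (nat_lit 138) (nat_lit 1) (nat_lit 142) (nat_lit 1) (nat_lit 383) (nat_lit 428) (nat_lit 329)) (XT.lf (nat_lit 76) (nat_lit 706392029) (nat_lit 0) (nat_lit 3083581426) (nat_lit 380) (nat_lit 706392029) (nat_lit 139) (nat_lit 1) (nat_lit 138) (nat_lit 1) (nat_lit 143) (nat_lit 1) (nat_lit 384) (nat_lit 428) (nat_lit 328))))))))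
noncomputable def ec179 : XT := (XT.nd (nat_lit 1404) (nat_lit 2812) (nat_lit 0) (XT.nd (nat_lit 702) (nat_lit 1672) (nat_lit 0) (XT.nd (nat_lit 312) (nat_lit 912) (nat_lit 0) (XT.nd (nat_lit 156) (nat_lit 304) (nat_lit 0) (XT.nd (nat_lit 78) (nat_lit 380) (nat_lit 0) (XT.lf (nat_lit 380) (nat_lit 264285140) (nat_lit 0) (nat_lit 2099466575) (nat_lit 304) (nat_lit 2099466575) (nat_lit 139) (nat_lit 1) (nat_lit 134) (nat_lit 1) (nat_lit 138) (nat_lit 1) (nat_lit 385) (nat_lit 428) (nat_lit 327)) (XT.lf (nat_lit 380) (nat_lit 3572697861) (nat_lit 0) (nat_lit 428881934) (nat_lit 304) (nat_lit 428881934) (nat_lit 134) (nat_lit 1) (nat_lit 129) (nat_lit 1) (nat_lit 133) (nat_lit 1) (nat_lit 386) (nat_lit 428) (nat_lit 326))) (XT.nd (nat_lit 78) (nat_lit 304) (nat_lit 0) (XT.lf (nat_lit 76) (nat_lit 1210119912) (nat_lit 0) (nat_lit 1977610057) (nat_lit 380) (nat_lit 1210119912) (nat_lit 130) (nat_lit 1) (nat_lit 129) (nat_lit 1) (nat_lit 134)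 (nat_lit 1) (nat_lit 387) (nat_lit 428) (nat_lit 325)) (XT.lf (nat_lit 380) (nat_lit 1277368411) (nat_lit 0) (nat_lit 1544126980) (nat_lit 304) (nat_lit 1544126980) (nat_lit 130) (nat_lit 1) (nat_lit 125) (nat_lit 1) (nat_lit 129) (nat_lit 1) (nat_lit 388) (nat_lit 428) (nat_lit 324)))) (XT.nd (nat_lit 156) (nat_lit 608) (nat_lit 0) (XT.nd (nat_lit 78) (nat_lit 304) (nat_lit 0) (XT.lf (nat_lit 76) (nat_lit 74223424) (nat_lit 0) (nat_lit 4185414056) (nat_lit 380) (nat_lit 74223424) (nat_lit 126) (nat_lit 1) (nat_lit 125) (nat_lit 1) (nat_lit 130) (nat_lit 1) (nat_lit 389) (nat_lit 428) (nat_lit 323)) (XT.lf (nat_lit 76) (nat_lit 1664554791) (nat_lit 0) (nat_lit 972944693) (nat_lit 304) (nat_lit 1664554791) (nat_lit 122) (nat_lit 1) (nat_lit 121) (nat_lit 1) (nat_lit 125) (nat_lit 1) (nat_lit 390) (nat_lit 428) (nat_lit 322))) (XT.nd (nat_lit 78) (nat_lit 304) (nat_lit 0) (XT.lf (nat_lit 380) (nat_lit 2193041742) (nat_lit 0) (nat_lit 1038833067)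 (nat_lit 304) (nat_lit 1038833067) (nat_lit 122) (nat_lit 1) (nat_lit 117) (nat_lit 1) (nat_lit 121) (nat_lit 1) (nat_lit 391) (nat_lit 428) (nat_lit 321)) (XT.nd (nat_lit 78) (nat_lit 304) (nat_lit 0) (XT.lf (nat_lit 76) (nat_lit 532363142) (nat_lit 0) (nat_lit 3174965053) (nat_lit 380) (nat_lit 532363142) (nat_lit 118) (nat_lit 1) (nat_lit 117) (nat_lit 1) (nat_lit 122) (nat_lit 1) (nat_lit 392) (nat_lit 428) (nat_lit 320)) (XT.lf (nat_lit 76) (nat_lit 2073664905) (nat_lit 0) (nat_lit 61535492) (nat_lit 304) (nat_lit 2073664905) (nat_lit 114) (nat_lit 1) (nat_lit 113) (nat_lit 1) (nat_lit 117) (nat_lit 1) (nat_lit 393) (nat_lit 428) (nat_lit 319)))))) (XT.nd (nat_lit 312) (nat_lit 760) (nat_lit 0) (XT.nd (nat_lit 156) (nat_lit 608) (nat_lit 0) (XT.nd (nat_lit 78) (nat_lit 0) (nat_lit 0) (XT.lf (nat_lit 380) (nat_lit 3019120580) (nat_lit 0) (nat_lit 579621588) (nat_lit 304) (nat_lit 579621588) (nat_lit 114) (nat_lit 1) (nat_lit 109)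 (nat_lit 1) (nat_lit 113) (nat_lit 1) (nat_lit 394) (nat_lit 428) (nat_lit 318)) (XT.lf (nat_lit 76) (nat_lit 946519461) (nat_lit 0) (nat_lit 2255029316) (nat_lit 380) (nat_lit 946519461) (nat_lit 110) (nat_lit 1) (nat_lit 109) (nat_lit 1) (nat_lit 114) (nat_lit 1) (nat_lit 395) (nat_lit 428) (nat_lit 317))) (XT.nd (nat_lit 78) (nat_lit 380) (nat_lit 0) (XT.lf (nat_lit 304) (nat_lit 774201580) (nat_lit 0) (nat_lit 1671937137) (nat_lit 228) (nat_lit 1671937137) (nat_lit 110) (nat_lit 1) (nat_lit 106) (nat_lit 1) (nat_lit 109) (nat_lit 1) (nat_lit 396) (nat_lit 428) (nat_lit 316)) (XT.lf (nat_lit 380) (nat_lit 3762817402) (nat_lit 0) (nat_lit 162834097) (nat_lit 304) (nat_lit 162834097) (nat_lit 106) (nat_lit 1) (nat_lit 101) (nat_lit 1) (nat_lit 105) (nat_lit 1) (nat_lit 397) (nat_lit 428) (nat_lit 315)))) (XT.nd (nat_lit 156) (nat_lit 532) (nat_lit 0) (XT.nd (nat_lit 78) (nat_lit 228) (nat_lit 0) (XT.lf (nat_lit 76) (nat_lit 1320220231)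 (nat_lit 0) (nat_lit 1418447905) (nat_lit 380) (nat_lit 1320220231) (nat_lit 102) (nat_lit 1) (nat_lit 101) (nat_lit 1) (nat_lit 106) (nat_lit 1) (nat_lit 398) (nat_lit 428) (nat_lit 314)) (XT.lf (nat_lit 304) (nat_lit 1530739020) (nat_lit 0) (nat_lit 1249474738) (nat_lit 228) (nat_lit 1249474738) (nat_lit 102) (nat_lit 1) (nat_lit 98) (nat_lit 1) (nat_lit 101) (nat_lit 1) (nat_lit 399) (nat_lit 428) (nat_lit 313))) (XT.nd (nat_lit 78) (nat_lit 532) (nat_lit 0) (XT.lf (nat_lit 76) (nat_lit 216329542) (nat_lit 0) (nat_lit 3568203316) (nat_lit 304) (nat_lit 216329542) (nat_lit 99) (nat_lit 1) (nat_lit 98) (nat_lit 1) (nat_lit 102) (nat_lit 1) (nat_lit 400) (nat_lit 428) (nat_lit 312)) (XT.nd (nat_lit 78) (nat_lit 228) (nat_lit 0) (XT.lf (nat_lit 76) (nat_lit 1656721144) (nat_lit 0) (nat_lit 658612281) (nat_lit 304) (nat_lit 1656721144) (nat_lit 95) (nat_lit 1) (nat_lit 94) (nat_lit 1) (nat_lit 98) (nat_lit 1) (nat_lit 401) (nat_lit 428)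 (nat_lit 311)) (XT.lf (nat_lit 304) (nat_lit 2213672548) (nat_lit 0) (nat_lit 864971778) (nat_lit 228) (nat_lit 864971778) (nat_lit 95) (nat_lit 1) (nat_lit 91) (nat_lit 1) (nat_lit 94) (nat_lit 1) (nat_lit 402) (nat_lit 428) (nat_lit 310))))))) (XT.nd (nat_lit 702) (nat_lit 1520) (nat_lit 0) (XT.nd (nat_lit 312) (nat_lit 760) (nat_lit 0) (XT.nd (nat_lit 156) (nat_lit 304) (nat_lit 0) (XT.nd (nat_lit 78) (nat_lit 228) (nat_lit 0) (XT.lf (nat_lit 76) (nat_lit 560403419) (nat_lit 0) (nat_lit 2794640968) (nat_lit 304) (nat_lit 560403419) (nat_lit 92) (nat_lit 1) (nat_lit 91) (nat_lit 1) (nat_lit 95) (nat_lit 1) (nat_lit 403) (nat_lit 428) (nat_lit 309)) (XT.lf (nat_lit 304) (nat_lit 30984071) (nat_lit 0) (nat_lit 1928243625) (nat_lit 228) (nat_lit 1928243625) (nat_lit 92) (nat_lit 1) (nat_lit 88) (nat_lit 1) (nat_lit 91) (nat_lit 1) (nat_lit 404) (nat_lit 428) (nat_lit 308))) (XT.nd (nat_lit 78) (nat_lit 0) (nat_lit 0) (XT.lf (nat_lit 304)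 (nat_lit 2828920970) (nat_lit 0) (nat_lit 515424002) (nat_lit 228) (nat_lit 515424002) (nat_lit 88) (nat_lit 1) (nat_lit 84) (nat_lit 1) (nat_lit 87) (nat_lit 1) (nat_lit 405) (nat_lit 428) (nat_lit 307)) (XT.lf (nat_lit 76) (nat_lit 871204920) (nat_lit 0) (nat_lit 2089828683) (nat_lit 304) (nat_lit 871204920) (nat_lit 85) (nat_lit 1) (nat_lit 84) (nat_lit 1) (nat_lit 88) (nat_lit 1) (nat_lit 406) (nat_lit 428) (nat_lit 306)))) (XT.nd (nat_lit 156) (nat_lit 228) (nat_lit 0) (XT.nd (nat_lit 78) (nat_lit 304) (nat_lit 0) (XT.lf (nat_lit 304) (nat_lit 663453978) (nat_lit 0) (nat_lit 1570762160) (nat_lit 228) (nat_lit 1570762160) (nat_lit 85) (nat_lit 1) (nat_lit 81) (nat_lit 1) (nat_lit 84) (nat_lit 1) (nat_lit 407) (nat_lit 428) (nat_lit 305)) (XT.lf (nat_lit 304) (nat_lit 3381946201) (nat_lit 0) (nat_lit 198058167) (nat_lit 228) (nat_lit 198058167) (nat_lit 81) (nat_lit 1) (nat_lit 77) (nat_lit 1) (nat_lit 80) (nat_lit 1) (nat_lit 408)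 (nat_lit 428) (nat_lit 304))) (XT.nd (nat_lit 78) (nat_lit 228) (nat_lit 0) (XT.lf (nat_lit 76) (nat_lit 1151406509) (nat_lit 0) (nat_lit 1448337893) (nat_lit 304) (nat_lit 1151406509) (nat_lit 78) (nat_lit 1) (nat_lit 77) (nat_lit 1) (nat_lit 81) (nat_lit 1) (nat_lit 409) (nat_lit 428) (nat_lit 303)) (XT.nd (nat_lit 78) (nat_lit 0) (nat_lit 0) (XT.lf (nat_lit 304) (nat_lit 1235310772) (nat_lit 0) (nat_lit 1244634680) (nat_lit 228) (nat_lit 1244634680) (nat_lit 78) (nat_lit 1) (nat_lit 74) (nat_lit 1) (nat_lit 77) (nat_lit 1) (nat_lit 410) (nat_lit 428) (nat_lit 302)) (XT.lf (nat_lit 76) (nat_lit 90279537) (nat_lit 0) (nat_lit 3517810865) (nat_lit 304) (nat_lit 90279537) (nat_lit 75) (nat_lit 1) (nat_lit 74) (nat_lit 1) (nat_lit 78) (nat_lit 1) (nat_lit 411) (nat_lit 428) (nat_lit 301)))))) (XT.nd (nat_lit 390) (nat_lit 608) (nat_lit 0) (XT.nd (nat_lit 156) (nat_lit 456) (nat_lit 0) (XT.nd (nat_lit 78) (nat_lit 228) (nat_lit 0) (XT.lf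 (nat_lit 76) (nat_lit 1403474410) (nat_lit 0) (nat_lit 865157223) (nat_lit 228) (nat_lit 1403474410) (nat_lit 72) (nat_lit 1) (nat_lit 71) (nat_lit 1) (nat_lit 74) (nat_lit 1) (nat_lit 412) (nat_lit 428) (nat_lit 300)) (XT.lf (nat_lit 304) (nat_lit 1751414489) (nat_lit 0) (nat_lit 947392451) (nat_lit 228) (nat_lit 947392451) (nat_lit 72) (nat_lit 1) (nat_lit 68) (nat_lit 1) (nat_lit 71) (nat_lit 1) (nat_lit 413) (nat_lit 428) (nat_lit 299))) (XT.nd (nat_lit 78) (nat_lit 456) (nat_lit 0) (XT.lf (nat_lit 76) (nat_lit 352489069) (nat_lit 0) (nat_lit 2915595150) (nat_lit 304) (nat_lit 352489069) (nat_lit 69) (nat_lit 1) (nat_lit 68) (nat_lit 1) (nat_lit 72) (nat_lit 1) (nat_lit 414) (nat_lit 428) (nat_lit 298)) (XT.nd (nat_lit 78) (nat_lit 228) (nat_lit 0) (XT.lf (nat_lit 76) (nat_lit 1629684368) (nat_lit 0) (nat_lit 335660646) (nat_lit 228) (nat_lit 1629684368) (nat_lit 66) (nat_lit 1) (nat_lit 65) (nat_lit 1) (nat_lit 68) (nat_lit 1) (nat_lit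 415) (nat_lit 428) (nat_lit 297)) (XT.lf (nat_lit 304) (nat_lit 2216250268) (nat_lit 0) (nat_lit 676756335) (nat_lit 228) (nat_lit 676756335) (nat_lit 66) (nat_lit 1) (nat_lit 62) (nat_lit 1) (nat_lit 65) (nat_lit 1) (nat_lit 416) (nat_lit 428) (nat_lit 296))))) (XT.nd (nat_lit 156) (nat_lit 456) (nat_lit 0) (XT.nd (nat_lit 78) (nat_lit 152) (nat_lit 0) (XT.lf (nat_lit 76) (nat_lit 589453974) (nat_lit 0) (nat_lit 2365796178) (nat_lit 304) (nat_lit 589453974) (nat_lit 63) (nat_lit 1) (nat_lit 62) (nat_lit 1) (nat_lit 66) (nat_lit 1) (nat_lit 417) (nat_lit 428) (nat_lit 295)) (XT.lf (nat_lit 228) (nat_lit 146341225) (nat_lit 0) (nat_lit 1686745126) (nat_lit 152) (nat_lit 1686745126) (nat_lit 63) (nat_lit 1) (nat_lit 60) (nat_lit 1) (nat_lit 62) (nat_lit 1) (nat_lit 418) (nat_lit 428) (nat_lit 294))) (XT.nd (nat_lit 78) (nat_lit 152) (nat_lit 0) (XT.lf (nat_lit 304) (nat_lit 2633956989) (nat_lit 0) (nat_lit 430622315) (nat_lit 228) (nat_lit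 430622315) (nat_lit 60) (nat_lit 1) (nat_lit 56) (nat_lit 1) (nat_lit 59) (nat_lit 1) (nat_lit 419) (nat_lit 428) (nat_lit 293)) (XT.nd (nat_lit 78) (nat_lit 152) (nat_lit 0) (XT.lf (nat_lit 76) (nat_lit 803200201) (nat_lit 0) (nat_lit 1864293639) (nat_lit 304) (nat_lit 803200201) (nat_lit 57) (nat_lit 1) (nat_lit 56) (nat_lit 1) (nat_lit 60) (nat_lit 1) (nat_lit 420) (nat_lit 428) (nat_lit 292)) (XT.lf (nat_lit 228) (nat_lit 586726893) (nat_lit 0) (nat_lit 1429849809) (nat_lit 152) (nat_lit 1429849809) (nat_lit 57) (nat_lit 1) (nat_lit 54) (nat_lit 1) (nat_lit 56) (nat_lit 1) (nat_lit 421) (nat_lit 428) (nat_lit 291))))))))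
noncomputable def ec180 : XT := (XT.nd (nat_lit 49296) (nat_lit 0) (nat_lit 31768) (XT.nd (nat_lit 48594) (nat_lit 0) (nat_lit 34884) (XT.nd (nat_lit 312) (nat_lit 380) (nat_lit 0) (XT.nd (nat_lit 156) (nat_lit 456) (nat_lit 0) (XT.nd (nat_lit 78) (nat_lit 0) (nat_lit 0) (XT.lf (nat_lit 304) (nat_lit 3008353741) (nat_lit 0) (nat_lit 207048133) (nat_lit 228) (nat_lit 207048133) (nat_lit 54) (nat_lit 1) (nat_lit 50) (nat_lit 1) (nat_lit 53) (nat_lit 1) (nat_lit 422) (nat_lit 428) (nat_lit 290)) (XT.lf (nat_lit 76) (nat_lit 995597383) (nat_lit 0) (nat_lit 1407283525) (nat_lit 304) (nat_lit 995597383) (nat_lit 51) (nat_lit 1) (nat_lit 50) (nat_lit 1) (nat_lit 54) (nat_lit 1) (nat_lit 423) (nat_lit 428) (nat_lit 289))) (XT.nd (nat_lit 78) (nat_lit 304) (nat_lit 0) (XT.lf (nat_lit 228) (nat_lit 984721643) (nat_lit 0) (nat_lit 1195036714) (nat_lit 152) (nat_lit 1195036714) (nat_lit 51) (nat_lit 1) (nat_lit 48) (nat_lit 1) (nat_lit 50) (nat_lit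 1) (nat_lit 424) (nat_lit 428) (nat_lit 288)) (XT.lf (nat_lit 304) (nat_lit 3342964259) (nat_lit 0) (nat_lit 4240938) (nat_lit 228) (nat_lit 4240938) (nat_lit 48) (nat_lit 1) (nat_lit 44) (nat_lit 1) (nat_lit 47) (nat_lit 1) (nat_lit 425) (nat_lit 428) (nat_lit 287)))) (XT.nd (nat_lit 156) (nat_lit 228) (nat_lit 0) (XT.nd (nat_lit 78) (nat_lit 152) (nat_lit 0) (XT.lf (nat_lit 76) (nat_lit 1168370787) (nat_lit 0) (nat_lit 991253990) (nat_lit 304) (nat_lit 1168370787) (nat_lit 45) (nat_lit 1) (nat_lit 44) (nat_lit 1) (nat_lit 48) (nat_lit 1) (nat_lit 426) (nat_lit 428) (nat_lit 286)) (XT.lf (nat_lit 228) (nat_lit 1343727338) (nat_lit 0) (nat_lit 980574799) (nat_lit 152) (nat_lit 980574799) (nat_lit 45) (nat_lit 1) (nat_lit 42) (nat_lit 1) (nat_lit 44) (nat_lit 1) (nat_lit 427) (nat_lit 428) (nat_lit 285))) (XT.nd (nat_lit 78) (nat_lit 228) (nat_lit 0) (XT.lf (nat_lit 76) (nat_lit 180642556) (nat_lit 0) (nat_lit 2920752016) (nat_lit 228)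 (nat_lit 180642556) (nat_lit 43) (nat_lit 1) (nat_lit 42) (nat_lit 1) (nat_lit 45) (nat_lit 1) (nat_lit 428) (nat_lit 428) (nat_lit 284)) (XT.nd (nat_lit 47970) (nat_lit 0) (nat_lit 34808) (XT.lf (nat_lit 76) (nat_lit 1323112339) (nat_lit 0) (nat_lit 612963056) (nat_lit 228) (nat_lit 1323112339) (nat_lit 40) (nat_lit 1) (nat_lit 39) (nat_lit 1) (nat_lit 42) (nat_lit 1) (nat_lit 429) (nat_lit 428) (nat_lit 283)) (XT.lf (nat_lit 1900) (nat_lit 7037962532) (nat_lit 76) (nat_lit 1782968794) (nat_lit 0) (nat_lit 1782968794) (nat_lit 522) (nat_lit 1) (nat_lit 498) (nat_lit 1) (nat_lit 497) (nat_lit 0) (nat_lit 283) (nat_lit 429) (nat_lit 428)))))) (XT.nd (nat_lit 312) (nat_lit 0) (nat_lit 152) (XT.nd (nat_lit 156) (nat_lit 0) (nat_lit 76) (XT.nd (nat_lit 78) (nat_lit 0) (nat_lit 0) (XT.lf (nat_lit 1900) (nat_lit 3455673104) (nat_lit 0) (nat_lit 3588480278) (nat_lit 1824) (nat_lit 3455673104) (nat_lit 523) (nat_lit 1) (nat_lit 498) (nat_lit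 1) (nat_lit 522) (nat_lit 1) (nat_lit 284) (nat_lit 429) (nat_lit 427)) (XT.lf (nat_lit 1900) (nat_lit 6763604135) (nat_lit 76) (nat_lit 1816863233) (nat_lit 0) (nat_lit 1816863233) (nat_lit 523) (nat_lit 1) (nat_lit 499) (nat_lit 1) (nat_lit 498) (nat_lit 1) (nat_lit 285) (nat_lit 429) (nat_lit 426))) (XT.nd (nat_lit 78) (nat_lit 0) (nat_lit 0) (XT.lf (nat_lit 1900) (nat_lit 3286983442) (nat_lit 0) (nat_lit 3721999278) (nat_lit 1824) (nat_lit 3286983442) (nat_lit 524) (nat_lit 1) (nat_lit 499) (nat_lit 1) (nat_lit 523) (nat_lit 1) (nat_lit 286) (nat_lit 429) (nat_lit 425)) (XT.lf (nat_lit 1900) (nat_lit 6363561175) (nat_lit 76) (nat_lit 1916273977) (nat_lit 0) (nat_lit 1916273977) (nat_lit 524) (nat_lit 1) (nat_lit 500) (nat_lit 1) (nat_lit 499) (nat_lit 1) (nat_lit 287) (nat_lit 429) (nat_lit 424)))) (XT.nd (nat_lit 156) (nat_lit 0) (nat_lit 76) (XT.nd (nat_lit 78) (nat_lit 0) (nat_lit 0) (XT.lf (nat_lit 1900) (nat_lit 3057569138) (nat_lit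 0) (nat_lit 3982245469) (nat_lit 1824) (nat_lit 3057569138) (nat_lit 525) (nat_lit 1) (nat_lit 500) (nat_lit 1) (nat_lit 524) (nat_lit 1) (nat_lit 288) (nat_lit 429) (nat_lit 423)) (XT.lf (nat_lit 1900) (nat_lit 5845387434) (nat_lit 76) (nat_lit 2077346508) (nat_lit 0) (nat_lit 2077346508) (nat_lit 525) (nat_lit 1) (nat_lit 501) (nat_lit 1) (nat_lit 500) (nat_lit 1) (nat_lit 289) (nat_lit 429) (nat_lit 422))) (XT.nd (nat_lit 78) (nat_lit 0) (nat_lit 0) (XT.lf (nat_lit 1900) (nat_lit 2771107324) (nat_lit 0) (nat_lit 4361711372) (nat_lit 1824) (nat_lit 2771107324) (nat_lit 526) (nat_lit 1) (nat_lit 501) (nat_lit 1) (nat_lit 525) (nat_lit 1) (nat_lit 290) (nat_lit 429) (nat_lit 421)) (XT.nd (nat_lit 78) (nat_lit 0) (nat_lit 76) (XT.lf (nat_lit 1900) (nat_lit 5216290956) (nat_lit 76) (nat_lit 2296401678) (nat_lit 0) (nat_lit 2296401678) (nat_lit 526) (nat_lit 1) (nat_lit 502) (nat_lit 1) (nat_lit 501) (nat_lit 1) (nat_lit 291) (nat_lit 429)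 (nat_lit 420)) (XT.lf (nat_lit 1900) (nat_lit 2431106476) (nat_lit 0) (nat_lit 4853231748) (nat_lit 1824) (nat_lit 2431106476) (nat_lit 527) (nat_lit 1) (nat_lit 502) (nat_lit 1) (nat_lit 526) (nat_lit 1) (nat_lit 292) (nat_lit 429) (nat_lit 419))))))) (XT.nd (nat_lit 702) (nat_lit 3420) (nat_lit 0) (XT.nd (nat_lit 312) (nat_lit 0) (nat_lit 152) (XT.nd (nat_lit 156) (nat_lit 0) (nat_lit 76) (XT.nd (nat_lit 78) (nat_lit 0) (nat_lit 76) (XT.lf (nat_lit 1900) (nat_lit 4483148498) (nat_lit 76) (nat_lit 2569928397) (nat_lit 0) (nat_lit 2569928397) (nat_lit 527) (nat_lit 1) (nat_lit 503) (nat_lit 1) (nat_lit 502) (nat_lit 1) (nat_lit 293) (nat_lit 429) (nat_lit 418)) (XT.lf (nat_lit 1900) (nat_lit 2040913477) (nat_lit 0) (nat_lit 5449969314) (nat_lit 1824) (nat_lit 2040913477) (nat_lit 528) (nat_lit 1) (nat_lit 503) (nat_lit 1) (nat_lit 527) (nat_lit 1) (nat_lit 294) (nat_lit 429) (nat_lit 417))) (XT.nd (nat_lit 78) (nat_lit 0) (nat_lit 76)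 (XT.lf (nat_lit 1900) (nat_lit 3652519401) (nat_lit 76) (nat_lit 2894576609) (nat_lit 0) (nat_lit 2894576609) (nat_lit 528) (nat_lit 1) (nat_lit 504) (nat_lit 1) (nat_lit 503) (nat_lit 1) (nat_lit 295) (nat_lit 429) (nat_lit 416)) (XT.lf (nat_lit 1900) (nat_lit 1603720385) (nat_lit 0) (nat_lit 6145401036) (nat_lit 1824) (nat_lit 1603720385) (nat_lit 529) (nat_lit 1) (nat_lit 504) (nat_lit 1) (nat_lit 528) (nat_lit 1) (nat_lit 296) (nat_lit 429) (nat_lit 415)))) (XT.nd (nat_lit 156) (nat_lit 0) (nat_lit 76) (XT.nd (nat_lit 78) (nat_lit 0) (nat_lit 76) (XT.lf (nat_lit 1900) (nat_lit 2730658904) (nat_lit 76) (nat_lit 3267150561) (nat_lit 0) (nat_lit 3267150561) (nat_lit 529) (nat_lit 1) (nat_lit 505) (nat_lit 1) (nat_lit 504) (nat_lit 1) (nat_lit 297) (nat_lit 429) (nat_lit 414)) (XT.lf (nat_lit 1900) (nat_lit 1122570933) (nat_lit 0) (nat_lit 6933304964) (nat_lit 1824) (nat_lit 1122570933) (nat_lit 530) (nat_lit 1) (nat_lit 505) (nat_lit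 1) (nat_lit 529) (nat_lit 1) (nat_lit 298) (nat_lit 429) (nat_lit 413))) (XT.nd (nat_lit 78) (nat_lit 0) (nat_lit 76) (XT.lf (nat_lit 1900) (nat_lit 1723530923) (nat_lit 76) (nat_lit 3684602331) (nat_lit 0) (nat_lit 3684602331) (nat_lit 530) (nat_lit 1) (nat_lit 506) (nat_lit 1) (nat_lit 505) (nat_lit 1) (nat_lit 299) (nat_lit 429) (nat_lit 412)) (XT.nd (nat_lit 78) (nat_lit 0) (nat_lit 0) (XT.lf (nat_lit 1900) (nat_lit 600366766) (nat_lit 0) (nat_lit 7807747612) (nat_lit 1824) (nat_lit 600366766) (nat_lit 531) (nat_lit 1) (nat_lit 506) (nat_lit 1) (nat_lit 530) (nat_lit 1) (nat_lit 300) (nat_lit 429) (nat_lit 411)) (XT.lf (nat_lit 1900) (nat_lit 636820311) (nat_lit 76) (nat_lit 4144025625) (nat_lit 0) (nat_lit 4144025625) (nat_lit 531) (nat_lit 1) (nat_lit 507) (nat_lit 1) (nat_lit 506) (nat_lit 1) (nat_lit 301) (nat_lit 429) (nat_lit 410)))))) (XT.nd (nat_lit 312) (nat_lit 1900) (nat_lit 0) (XT.nd (nat_lit 156) (nat_lit 0) (nat_lit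 0) (XT.nd (nat_lit 78) (nat_lit 1900) (nat_lit 0) (XT.lf (nat_lit 1900) (nat_lit 39873429) (nat_lit 0) (nat_lit 8763071830) (nat_lit 1824) (nat_lit 39873429) (nat_lit 532) (nat_lit 1) (nat_lit 507) (nat_lit 1) (nat_lit 531) (nat_lit 1) (nat_lit 302) (nat_lit 429) (nat_lit 409)) (XT.lf (nat_lit 1976) (nat_lit 4121996962) (nat_lit 0) (nat_lit 517182293) (nat_lit 1900) (nat_lit 4121996962) (nat_lit 508) (nat_lit 1) (nat_lit 482) (nat_lit 1) (nat_lit 507) (nat_lit 1) (nat_lit 303) (nat_lit 429) (nat_lit 408))) (XT.nd (nat_lit 78) (nat_lit 0) (nat_lit 76) (XT.lf (nat_lit 1976) (nat_lit 7575819103) (nat_lit 76) (nat_lit 552614194) (nat_lit 0) (nat_lit 552614194) (nat_lit 508) (nat_lit 1) (nat_lit 483) (nat_lit 1) (nat_lit 482) (nat_lit 1) (nat_lit 304) (nat_lit 429) (nat_lit 407)) (XT.lf (nat_lit 1976) (nat_lit 3435287381) (nat_lit 0) (nat_lit 1730931409) (nat_lit 1900) (nat_lit 3435287381) (nat_lit 509) (nat_lit 1) (nat_lit 483) (nat_lit 1)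 (nat_lit 508) (nat_lit 1) (nat_lit 305) (nat_lit 429) (nat_lit 406)))) (XT.nd (nat_lit 156) (nat_lit 1976) (nat_lit 0) (XT.nd (nat_lit 78) (nat_lit 0) (nat_lit 76) (XT.lf (nat_lit 1976) (nat_lit 6167771034) (nat_lit 76) (nat_lit 1177765081) (nat_lit 0) (nat_lit 1177765081) (nat_lit 509) (nat_lit 1) (nat_lit 484) (nat_lit 1) (nat_lit 483) (nat_lit 1) (nat_lit 306) (nat_lit 429) (nat_lit 405)) (XT.lf (nat_lit 76) (nat_lit 2718950802) (nat_lit 0) (nat_lit 3007927142) (nat_lit 1900) (nat_lit 2718950802) (nat_lit 485) (nat_lit 1) (nat_lit 484) (nat_lit 1) (nat_lit 509) (nat_lit 1) (nat_lit 307) (nat_lit 429) (nat_lit 404))) (XT.nd (nat_lit 78) (nat_lit 912) (nat_lit 0) (XT.lf (nat_lit 1216) (nat_lit 4702554348) (nat_lit 0) (nat_lit 1833466499) (nat_lit 1140) (nat_lit 1833466499) (nat_lit 485) (nat_lit 1) (nat_lit 469) (nat_lit 1) (nat_lit 484) (nat_lit 1) (nat_lit 308) (nat_lit 429) (nat_lit 403)) (XT.nd (nat_lit 78) (nat_lit 912) (nat_lit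 0) (XT.lf (nat_lit 76) (nat_lit 1975241460) (nat_lit 0) (nat_lit 4343549273) (nat_lit 1216) (nat_lit 1975241460) (nat_lit 470) (nat_lit 1) (nat_lit 469) (nat_lit 1) (nat_lit 485) (nat_lit 1) (nat_lit 309) (nat_lit 429) (nat_lit 402)) (XT.lf (nat_lit 988) (nat_lit 3184582009) (nat_lit 0) (nat_lit 2517457115) (nat_lit 912) (nat_lit 2517457115) (nat_lit 470) (nat_lit 1) (nat_lit 457) (nat_lit 1) (nat_lit 469) (nat_lit 1) (nat_lit 310) (nat_lit 429) (nat_lit 401))))))))
noncomputable def ec181 : XT := (XT.nd (nat_lit 1404) (nat_lit 6916) (nat_lit 0) (XT.nd (nat_lit 702) (nat_lit 3800) (nat_lit 0) (XT.nd (nat_lit 312) (nat_lit 2660) (nat_lit 0) (XT.nd (nat_lit 156) (nat_lit 836) (nat_lit 0) (XT.nd (nat_lit 78) (nat_lit 912) (nat_lit 0) (XT.lf (nat_lit 76) (nat_lit 1206304407) (nat_lit 0) (nat_lit 5733399432) (nat_lit 988) (nat_lit 1206304407) (nat_lit 458) (nat_lit 1) (nat_lit 457) (nat_lit 1) (nat_lit 470) (nat_lit 1) (nat_lit 311) (nat_lit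 429) (nat_lit 400)) (XT.lf (nat_lit 988) (nat_lit 1618052618) (nat_lit 0) (nat_lit 3227584488) (nat_lit 912) (nat_lit 3227584488) (nat_lit 458) (nat_lit 1) (nat_lit 445) (nat_lit 1) (nat_lit 457) (nat_lit 1) (nat_lit 312) (nat_lit 429) (nat_lit 399))) (XT.nd (nat_lit 78) (nat_lit 836) (nat_lit 0) (XT.lf (nat_lit 76) (nat_lit 414180187) (nat_lit 0) (nat_lit 7173291646) (nat_lit 988) (nat_lit 414180187) (nat_lit 446) (nat_lit 1) (nat_lit 445) (nat_lit 1) (nat_lit 458) (nat_lit 1) (nat_lit 313) (nat_lit 429) (nat_lit 398)) (XT.lf (nat_lit 912) (nat_lit 6959583) (nat_lit 0) (nat_lit 3961800420) (nat_lit 836) (nat_lit 3961800420) (nat_lit 446) (nat_lit 1) (nat_lit 434) (nat_lit 1) (nat_lit 445) (nat_lit 1) (nat_lit 314) (nat_lit 429) (nat_lit 397)))) (XT.nd (nat_lit 156) (nat_lit 1672) (nat_lit 0) (XT.nd (nat_lit 78) (nat_lit 0) (nat_lit 0) (XT.lf (nat_lit 988) (nat_lit 7067524946) (nat_lit 0) (nat_lit 396564445) (nat_lit 912) (nat_lit 396564445)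 (nat_lit 434) (nat_lit 1) (nat_lit 421) (nat_lit 1) (nat_lit 433) (nat_lit 1) (nat_lit 315) (nat_lit 429) (nat_lit 396)) (XT.lf (nat_lit 76) (nat_lit 3083936205) (nat_lit 0) (nat_lit 1623326928) (nat_lit 988) (nat_lit 3083936205) (nat_lit 422) (nat_lit 1) (nat_lit 421) (nat_lit 1) (nat_lit 434) (nat_lit 1) (nat_lit 316) (nat_lit 429) (nat_lit 395))) (XT.nd (nat_lit 78) (nat_lit 836) (nat_lit 0) (XT.lf (nat_lit 912) (nat_lit 5275180338) (nat_lit 0) (nat_lit 1223858473) (nat_lit 836) (nat_lit 1223858473) (nat_lit 422) (nat_lit 1) (nat_lit 410) (nat_lit 1) (nat_lit 421) (nat_lit 1) (nat_lit 317) (nat_lit 429) (nat_lit 394)) (XT.nd (nat_lit 78) (nat_lit 836) (nat_lit 0) (XT.lf (nat_lit 76) (nat_lit 2182528531) (nat_lit 0) (nat_lit 3290192427) (nat_lit 912) (nat_lit 2182528531) (nat_lit 411) (nat_lit 1) (nat_lit 410) (nat_lit 1) (nat_lit 422) (nat_lit 1) (nat_lit 318) (nat_lit 429) (nat_lit 393)) (XT.lf (nat_lit 912) (nat_lit 3451133340) (nat_lit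 0) (nat_lit 2068685175) (nat_lit 836) (nat_lit 2068685175) (nat_lit 411) (nat_lit 1) (nat_lit 399) (nat_lit 1) (nat_lit 410) (nat_lit 1) (nat_lit 319) (nat_lit 429) (nat_lit 392)))))) (XT.nd (nat_lit 312) (nat_lit 2204) (nat_lit 0) (XT.nd (nat_lit 156) (nat_lit 836) (nat_lit 0) (XT.nd (nat_lit 78) (nat_lit 760) (nat_lit 0) (XT.lf (nat_lit 76) (nat_lit 1266137251) (nat_lit 0) (nat_lit 4990343989) (nat_lit 912) (nat_lit 1266137251) (nat_lit 400) (nat_lit 1) (nat_lit 399) (nat_lit 1) (nat_lit 411) (nat_lit 1) (nat_lit 320) (nat_lit 429) (nat_lit 391)) (XT.lf (nat_lit 836) (nat_lit 1598601294) (nat_lit 0) (nat_lit 2929390057) (nat_lit 760) (nat_lit 2929390057) (nat_lit 400) (nat_lit 1) (nat_lit 389) (nat_lit 1) (nat_lit 399) (nat_lit 1) (nat_lit 321) (nat_lit 429) (nat_lit 390))) (XT.nd (nat_lit 78) (nat_lit 836) (nat_lit 0) (XT.lf (nat_lit 76) (nat_lit 336324319) (nat_lit 0) (nat_lit 6720567262) (nat_lit 836) (nat_lit 336324319) (nat_lit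 390) (nat_lit 1) (nat_lit 389) (nat_lit 1) (nat_lit 400) (nat_lit 1) (nat_lit 322) (nat_lit 429) (nat_lit 389)) (XT.lf (nat_lit 76) (nat_lit 3526853434) (nat_lit 0) (nat_lit 275698450) (nat_lit 836) (nat_lit 3526853434) (nat_lit 379) (nat_lit 1) (nat_lit 378) (nat_lit 1) (nat_lit 389) (nat_lit 1) (nat_lit 323) (nat_lit 429) (nat_lit 388)))) (XT.nd (nat_lit 156) (nat_lit 1444) (nat_lit 0) (XT.nd (nat_lit 78) (nat_lit 0) (nat_lit 0) (XT.lf (nat_lit 836) (nat_lit 6063748328) (nat_lit 0) (nat_lit 601445096) (nat_lit 760) (nat_lit 601445096) (nat_lit 379) (nat_lit 1) (nat_lit 368) (nat_lit 1) (nat_lit 378) (nat_lit 1) (nat_lit 324) (nat_lit 429) (nat_lit 387)) (XT.lf (nat_lit 76) (nat_lit 2526521732) (nat_lit 0) (nat_lit 2151271580) (nat_lit 836) (nat_lit 2526521732) (nat_lit 369) (nat_lit 1) (nat_lit 368) (nat_lit 1) (nat_lit 379) (nat_lit 1) (nat_lit 325) (nat_lit 429) (nat_lit 386))) (XT.nd (nat_lit 78) (nat_lit 684) (nat_lit 0) (XT.lf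 (nat_lit 836) (nat_lit 4048003241) (nat_lit 0) (nat_lit 1547466422) (nat_lit 760) (nat_lit 1547466422) (nat_lit 369) (nat_lit 1) (nat_lit 358) (nat_lit 1) (nat_lit 368) (nat_lit 1) (nat_lit 326) (nat_lit 429) (nat_lit 385)) (XT.nd (nat_lit 78) (nat_lit 684) (nat_lit 0) (XT.lf (nat_lit 76) (nat_lit 1517930860) (nat_lit 0) (nat_lit 4046373269) (nat_lit 836) (nat_lit 1517930860) (nat_lit 359) (nat_lit 1) (nat_lit 358) (nat_lit 1) (nat_lit 369) (nat_lit 1) (nat_lit 327) (nat_lit 429) (nat_lit 384)) (XT.lf (nat_lit 760) (nat_lit 2016945235) (nat_lit 0) (nat_lit 2502628449) (nat_lit 684) (nat_lit 2502628449) (nat_lit 359) (nat_lit 1) (nat_lit 349) (nat_lit 1) (nat_lit 358) (nat_lit 1) (nat_lit 328) (nat_lit 429) (nat_lit 383))))))) (XT.nd (nat_lit 702) (nat_lit 3496) (nat_lit 0) (XT.nd (nat_lit 312) (nat_lit 1976) (nat_lit 0) (XT.nd (nat_lit 156) (nat_lit 684) (nat_lit 0) (XT.nd (nat_lit 78) (nat_lit 760) (nat_lit 0) (XT.lf (nat_lit 76) (nat_lit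 502325125) (nat_lit 0) (nat_lit 5958434233) (nat_lit 760) (nat_lit 502325125) (nat_lit 350) (nat_lit 1) (nat_lit 349) (nat_lit 1) (nat_lit 359) (nat_lit 1) (nat_lit 329) (nat_lit 429) (nat_lit 382)) (XT.lf (nat_lit 76) (nat_lit 3438855945) (nat_lit 0) (nat_lit 26641978) (nat_lit 760) (nat_lit 3438855945) (nat_lit 340) (nat_lit 1) (nat_lit 339) (nat_lit 1) (nat_lit 349) (nat_lit 1) (nat_lit 330) (nat_lit 429) (nat_lit 381))) (XT.nd (nat_lit 78) (nat_lit 0) (nat_lit 0) (XT.lf (nat_lit 760) (nat_lit 5815110050) (nat_lit 0) (nat_lit 515702344) (nat_lit 684) (nat_lit 515702344) (nat_lit 340) (nat_lit 1) (nat_lit 330) (nat_lit 1) (nat_lit 339) (nat_lit 1) (nat_lit 331) (nat_lit 429) (nat_lit 380)) (XT.lf (nat_lit 76) (nat_lit 2367416438) (nat_lit 0) (nat_lit 2054221722) (nat_lit 760) (nat_lit 2367416438) (nat_lit 331) (nat_lit 1) (nat_lit 330) (nat_lit 1) (nat_lit 340) (nat_lit 1) (nat_lit 332) (nat_lit 429) (nat_lit 379)))) (XT.nd (nat_lit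 156) (nat_lit 1292) (nat_lit 0) (XT.nd (nat_lit 78) (nat_lit 0) (nat_lit 0) (XT.lf (nat_lit 760) (nat_lit 3662222994) (nat_lit 0) (nat_lit 1535116571) (nat_lit 684) (nat_lit 1535116571) (nat_lit 331) (nat_lit 1) (nat_lit 321) (nat_lit 1) (nat_lit 330) (nat_lit 1) (nat_lit 333) (nat_lit 429) (nat_lit 378)) (XT.lf (nat_lit 76) (nat_lit 1293195772) (nat_lit 0) (nat_lit 4090100352) (nat_lit 760) (nat_lit 1293195772) (nat_lit 322) (nat_lit 1) (nat_lit 321) (nat_lit 1) (nat_lit 331) (nat_lit 1) (nat_lit 334) (nat_lit 429) (nat_lit 377))) (XT.nd (nat_lit 78) (nat_lit 684) (nat_lit 0) (XT.lf (nat_lit 684) (nat_lit 1504746274) (nat_lit 0) (nat_lit 2558175551) (nat_lit 608) (nat_lit 2558175551) (nat_lit 322) (nat_lit 1) (nat_lit 313) (nat_lit 1) (nat_lit 321) (nat_lit 1) (nat_lit 335) (nat_lit 429) (nat_lit 376)) (XT.nd (nat_lit 78) (nat_lit 684) (nat_lit 0) (XT.lf (nat_lit 76) (nat_lit 217172263) (nat_lit 0) (nat_lit 6132249098) (nat_lit 684)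 (nat_lit 217172263) (nat_lit 314) (nat_lit 1) (nat_lit 313) (nat_lit 1) (nat_lit 322) (nat_lit 1) (nat_lit 336) (nat_lit 429) (nat_lit 375)) (XT.lf (nat_lit 76) (nat_lit 2932732788) (nat_lit 0) (nat_lit 646816838) (nat_lit 684) (nat_lit 2932732788) (nat_lit 305) (nat_lit 1) (nat_lit 304) (nat_lit 1) (nat_lit 313) (nat_lit 1) (nat_lit 337) (nat_lit 429) (nat_lit 374)))))) (XT.nd (nat_lit 390) (nat_lit 1748) (nat_lit 0) (XT.nd (nat_lit 156) (nat_lit 1140) (nat_lit 0) (XT.nd (nat_lit 78) (nat_lit 0) (nat_lit 0) (XT.lf (nat_lit 684) (nat_lit 4750692334) (nat_lit 0) (nat_lit 854074698) (nat_lit 608) (nat_lit 854074698) (nat_lit 305) (nat_lit 1) (nat_lit 296) (nat_lit 1) (nat_lit 304) (nat_lit 1) (nat_lit 338) (nat_lit 429) (nat_lit 373)) (XT.lf (nat_lit 76) (nat_lit 1813157925) (nat_lit 0) (nat_lit 2779516158) (nat_lit 684) (nat_lit 1813157925) (nat_lit 297) (nat_lit 1) (nat_lit 296) (nat_lit 1) (nat_lit 305) (nat_lit 1) (nat_lit 339) (nat_lit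 429) (nat_lit 372))) (XT.nd (nat_lit 78) (nat_lit 532) (nat_lit 0) (XT.lf (nat_lit 684) (nat_lit 2505699674) (nat_lit 0) (nat_lit 1923901732) (nat_lit 608) (nat_lit 1923901732) (nat_lit 297) (nat_lit 1) (nat_lit 288) (nat_lit 1) (nat_lit 296) (nat_lit 1) (nat_lit 340) (nat_lit 429) (nat_lit 371)) (XT.nd (nat_lit 78) (nat_lit 532) (nat_lit 0) (XT.lf (nat_lit 76) (nat_lit 695231163) (nat_lit 0) (nat_lit 4911412626) (nat_lit 684) (nat_lit 695231163) (nat_lit 289) (nat_lit 1) (nat_lit 288) (nat_lit 1) (nat_lit 297) (nat_lit 1) (nat_lit 341) (nat_lit 429) (nat_lit 370)) (XT.lf (nat_lit 608) (nat_lit 264780453) (nat_lit 0) (nat_lit 2992922531) (nat_lit 532) (nat_lit 2992922531) (nat_lit 289) (nat_lit 1) (nat_lit 281) (nat_lit 1) (nat_lit 288) (nat_lit 1) (nat_lit 342) (nat_lit 429) (nat_lit 369))))) (XT.nd (nat_lit 156) (nat_lit 1064) (nat_lit 0) (XT.nd (nat_lit 78) (nat_lit 0) (nat_lit 0) (XT.lf (nat_lit 684) (nat_lit 5365074961) (nat_lit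 0) (nat_lit 417526295) (nat_lit 608) (nat_lit 417526295) (nat_lit 281) (nat_lit 1) (nat_lit 272) (nat_lit 1) (nat_lit 280) (nat_lit 1) (nat_lit 343) (nat_lit 429) (nat_lit 368)) (XT.lf (nat_lit 76) (nat_lit 2102570004) (nat_lit 0) (nat_lit 1944749353) (nat_lit 684) (nat_lit 2102570004) (nat_lit 273) (nat_lit 1) (nat_lit 272) (nat_lit 1) (nat_lit 281) (nat_lit 1) (nat_lit 344) (nat_lit 429) (nat_lit 367))) (XT.nd (nat_lit 78) (nat_lit 532) (nat_lit 0) (XT.lf (nat_lit 608) (nat_lit 3055154474) (nat_lit 0) (nat_lit 1522615444) (nat_lit 532) (nat_lit 1522615444) (nat_lit 273) (nat_lit 1) (nat_lit 265) (nat_lit 1) (nat_lit 272) (nat_lit 1) (nat_lit 345) (nat_lit 429) (nat_lit 366)) (XT.nd (nat_lit 78) (nat_lit 532) (nat_lit 0) (XT.lf (nat_lit 76) (nat_lit 953742432) (nat_lit 0) (nat_lit 4143970444) (nat_lit 608) (nat_lit 953742432) (nat_lit 266) (nat_lit 1) (nat_lit 265) (nat_lit 1) (nat_lit 273) (nat_lit 1) (nat_lit 346) (nat_lit 429) (nat_lit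 365)) (XT.lf (nat_lit 608) (nat_lit 755055618) (nat_lit 0) (nat_lit 2623947241) (nat_lit 532) (nat_lit 2623947241) (nat_lit 266) (nat_lit 1) (nat_lit 258) (nat_lit 1) (nat_lit 265) (nat_lit 1) (nat_lit 347) (nat_lit 429) (nat_lit 364))))))))
noncomputable def ec182 : XT := (XT.nd (nat_lit 1404) (nat_lit 4408) (nat_lit 0) (XT.nd (nat_lit 702) (nat_lit 2736) (nat_lit 0) (XT.nd (nat_lit 312) (nat_lit 1520) (nat_lit 0) (XT.nd (nat_lit 156) (nat_lit 532) (nat_lit 0) (XT.nd (nat_lit 78) (nat_lit 0) (nat_lit 0) (XT.lf (nat_lit 608) (nat_lit 5577920157) (nat_lit 0) (nat_lit 188639404) (nat_lit 532) (nat_lit 188639404) (nat_lit 258) (nat_lit 1) (nat_lit 250) (nat_lit 1) (nat_lit 257) (nat_lit 1) (nat_lit 348) (nat_lit 429) (nat_lit 363)) (XT.lf (nat_lit 76) (nat_lit 2196823027) (nat_lit 0) (nat_lit 1513917639) (nat_lit 608) (nat_lit 2196823027) (nat_lit 251) (nat_lit 1) (nat_lit 250) (nat_lit 1) (nat_lit 258) (nat_lit 1) (nat_lit 349) (nat_lit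 429) (nat_lit 362))) (XT.nd (nat_lit 78) (nat_lit 0) (nat_lit 0) (XT.lf (nat_lit 608) (nat_lit 3222633028) (nat_lit 0) (nat_lit 1319017062) (nat_lit 532) (nat_lit 1319017062) (nat_lit 251) (nat_lit 1) (nat_lit 243) (nat_lit 1) (nat_lit 250) (nat_lit 1) (nat_lit 350) (nat_lit 429) (nat_lit 361)) (XT.lf (nat_lit 76) (nat_lit 1026619551) (nat_lit 0) (nat_lit 3761032580) (nat_lit 608) (nat_lit 1026619551) (nat_lit 244) (nat_lit 1) (nat_lit 243) (nat_lit 1) (nat_lit 251) (nat_lit 1) (nat_lit 351) (nat_lit 429) (nat_lit 360)))) (XT.nd (nat_lit 156) (nat_lit 456) (nat_lit 0) (XT.nd (nat_lit 78) (nat_lit 608) (nat_lit 0) (XT.lf (nat_lit 532) (nat_lit 882030832) (nat_lit 0) (nat_lit 2443134962) (nat_lit 456) (nat_lit 2443134962) (nat_lit 244) (nat_lit 1) (nat_lit 237) (nat_lit 1) (nat_lit 243) (nat_lit 1) (nat_lit 352) (nat_lit 429) (nat_lit 359)) (XT.lf (nat_lit 608) (nat_lit 5452781792) (nat_lit 0) (nat_lit 135132002) (nat_lit 532) (nat_lit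 135132002) (nat_lit 237) (nat_lit 1) (nat_lit 229) (nat_lit 1) (nat_lit 236) (nat_lit 1) (nat_lit 353) (nat_lit 429) (nat_lit 358))) (XT.nd (nat_lit 78) (nat_lit 456) (nat_lit 0) (XT.lf (nat_lit 76) (nat_lit 2126915553) (nat_lit 0) (nat_lit 1424026732) (nat_lit 608) (nat_lit 2126915553) (nat_lit 230) (nat_lit 1) (nat_lit 229) (nat_lit 1) (nat_lit 237) (nat_lit 1) (nat_lit 354) (nat_lit 429) (nat_lit 357)) (XT.nd (nat_lit 78) (nat_lit 0) (nat_lit 0) (XT.lf (nat_lit 532) (nat_lit 3069020661) (nat_lit 0) (nat_lit 1282175780) (nat_lit 456) (nat_lit 1282175780) (nat_lit 230) (nat_lit 1) (nat_lit 223) (nat_lit 1) (nat_lit 229) (nat_lit 1) (nat_lit 355) (nat_lit 429) (nat_lit 356)) (XT.lf (nat_lit 76) (nat_lit 943558576) (nat_lit 0) (nat_lit 3702243195) (nat_lit 532) (nat_lit 943558576) (nat_lit 224) (nat_lit 1) (nat_lit 223) (nat_lit 1) (nat_lit 230) (nat_lit 1) (nat_lit 356) (nat_lit 429) (nat_lit 355)))))) (XT.nd (nat_lit 312) (nat_lit 1292)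 (nat_lit 0) (XT.nd (nat_lit 156) (nat_lit 456) (nat_lit 0) (XT.nd (nat_lit 78) (nat_lit 532) (nat_lit 0) (XT.lf (nat_lit 532) (nat_lit 704031359) (nat_lit 0) (nat_lit 2420851254) (nat_lit 456) (nat_lit 2420851254) (nat_lit 224) (nat_lit 1) (nat_lit 217) (nat_lit 1) (nat_lit 223) (nat_lit 1) (nat_lit 357) (nat_lit 429) (nat_lit 354)) (XT.lf (nat_lit 532) (nat_lit 5045261985) (nat_lit 0) (nat_lit 228744700) (nat_lit 456) (nat_lit 228744700) (nat_lit 217) (nat_lit 1) (nat_lit 210) (nat_lit 1) (nat_lit 216) (nat_lit 1) (nat_lit 358) (nat_lit 429) (nat_lit 353))) (XT.nd (nat_lit 78) (nat_lit 456) (nat_lit 0) (XT.lf (nat_lit 76) (nat_lit 1919963472) (nat_lit 0) (nat_lit 1619939982) (nat_lit 532) (nat_lit 1919963472) (nat_lit 211) (nat_lit 1) (nat_lit 210) (nat_lit 1) (nat_lit 217) (nat_lit 1) (nat_lit 359) (nat_lit 429) (nat_lit 352)) (XT.lf (nat_lit 532) (nat_lit 2647568422) (nat_lit 0) (nat_lit 1385022972) (nat_lit 456) (nat_lit 1385022972)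 (nat_lit 211) (nat_lit 1) (nat_lit 204) (nat_lit 1) (nat_lit 210) (nat_lit 1) (nat_lit 360) (nat_lit 429) (nat_lit 351)))) (XT.nd (nat_lit 156) (nat_lit 912) (nat_lit 0) (XT.nd (nat_lit 78) (nat_lit 380) (nat_lit 0) (XT.lf (nat_lit 76) (nat_lit 730527957) (nat_lit 0) (nat_lit 3914790581) (nat_lit 532) (nat_lit 730527957) (nat_lit 205) (nat_lit 1) (nat_lit 204) (nat_lit 1) (nat_lit 211) (nat_lit 1) (nat_lit 361) (nat_lit 429) (nat_lit 350)) (XT.lf (nat_lit 456) (nat_lit 272053156) (nat_lit 0) (nat_lit 2531169720) (nat_lit 380) (nat_lit 2531169720) (nat_lit 205) (nat_lit 1) (nat_lit 199) (nat_lit 1) (nat_lit 204) (nat_lit 1) (nat_lit 362) (nat_lit 429) (nat_lit 349))) (XT.nd (nat_lit 78) (nat_lit 380) (nat_lit 0) (XT.lf (nat_lit 532) (nat_lit 4403936400) (nat_lit 0) (nat_lit 444773231) (nat_lit 456) (nat_lit 444773231) (nat_lit 199) (nat_lit 1) (nat_lit 192) (nat_lit 1) (nat_lit 198) (nat_lit 1) (nat_lit 363) (nat_lit 429) (nat_lit 348))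 (XT.nd (nat_lit 78) (nat_lit 380) (nat_lit 0) (XT.lf (nat_lit 76) (nat_lit 1599651974) (nat_lit 0) (nat_lit 2053464829) (nat_lit 532) (nat_lit 1599651974) (nat_lit 193) (nat_lit 1) (nat_lit 192) (nat_lit 1) (nat_lit 199) (nat_lit 1) (nat_lit 364) (nat_lit 429) (nat_lit 347)) (XT.lf (nat_lit 456) (nat_lit 2004782106) (nat_lit 0) (nat_lit 1603903004) (nat_lit 380) (nat_lit 1603903004) (nat_lit 193) (nat_lit 1) (nat_lit 187) (nat_lit 1) (nat_lit 192) (nat_lit 1) (nat_lit 365) (nat_lit 429) (nat_lit 346))))))) (XT.nd (nat_lit 702) (nat_lit 2432) (nat_lit 0) (XT.nd (nat_lit 312) (nat_lit 1140) (nat_lit 0) (XT.nd (nat_lit 156) (nat_lit 380) (nat_lit 0) (XT.nd (nat_lit 78) (nat_lit 456) (nat_lit 0) (XT.lf (nat_lit 76) (nat_lit 410202778) (nat_lit 0) (nat_lit 4352529424) (nat_lit 456) (nat_lit 410202778) (nat_lit 188) (nat_lit 1) (nat_lit 187) (nat_lit 1) (nat_lit 193) (nat_lit 1) (nat_lit 366) (nat_lit 429) (nat_lit 345)) (XT.lf (nat_lit 76)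 (nat_lit 2384455731) (nat_lit 0) (nat_lit 364538459) (nat_lit 456) (nat_lit 2384455731) (nat_lit 182) (nat_lit 1) (nat_lit 181) (nat_lit 1) (nat_lit 187) (nat_lit 1) (nat_lit 367) (nat_lit 429) (nat_lit 344))) (XT.nd (nat_lit 78) (nat_lit 0) (nat_lit 0) (XT.lf (nat_lit 456) (nat_lit 3571174506) (nat_lit 0) (nat_lit 761653980) (nat_lit 380) (nat_lit 761653980) (nat_lit 182) (nat_lit 1) (nat_lit 176) (nat_lit 1) (nat_lit 181) (nat_lit 1) (nat_lit 368) (nat_lit 429) (nat_lit 343)) (XT.lf (nat_lit 76) (nat_lit 1186636213) (nat_lit 0) (nat_lit 2682542925) (nat_lit 456) (nat_lit 1186636213) (nat_lit 177) (nat_lit 1) (nat_lit 176) (nat_lit 1) (nat_lit 182) (nat_lit 1) (nat_lit 369) (nat_lit 429) (nat_lit 342)))) (XT.nd (nat_lit 156) (nat_lit 760) (nat_lit 0) (XT.nd (nat_lit 78) (nat_lit 0) (nat_lit 0) (XT.lf (nat_lit 456) (nat_lit 1181210313) (nat_lit 0) (nat_lit 1918175028) (nat_lit 380) (nat_lit 1918175028) (nat_lit 177) (nat_lit 1) (nat_lit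 171) (nat_lit 1) (nat_lit 176) (nat_lit 1) (nat_lit 370) (nat_lit 429) (nat_lit 341)) (XT.lf (nat_lit 76) (nat_lit 2349690) (nat_lit 0) (nat_lit 4975202718) (nat_lit 456) (nat_lit 2349690) (nat_lit 172) (nat_lit 1) (nat_lit 171) (nat_lit 1) (nat_lit 177) (nat_lit 1) (nat_lit 371) (nat_lit 429) (nat_lit 340))) (XT.nd (nat_lit 78) (nat_lit 380) (nat_lit 0) (XT.lf (nat_lit 76) (nat_lit 1888103979) (nat_lit 0) (nat_lit 1165979056) (nat_lit 380) (nat_lit 1888103979) (nat_lit 167) (nat_lit 1) (nat_lit 166) (nat_lit 1) (nat_lit 171) (nat_lit 1) (nat_lit 372) (nat_lit 429) (nat_lit 339)) (XT.nd (nat_lit 78) (nat_lit 0) (nat_lit 0) (XT.lf (nat_lit 456) (nat_lit 2583866620) (nat_lit 0) (nat_lit 1160596604) (nat_lit 380) (nat_lit 1160596604) (nat_lit 167) (nat_lit 1) (nat_lit 161) (nat_lit 1) (nat_lit 166) (nat_lit 1) (nat_lit 373) (nat_lit 429) (nat_lit 338)) (XT.lf (nat_lit 76) (nat_lit 698896412) (nat_lit 0) (nat_lit 3470532280) (nat_lit 456)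 (nat_lit 698896412) (nat_lit 162) (nat_lit 1) (nat_lit 161) (nat_lit 1) (nat_lit 167) (nat_lit 1) (nat_lit 374) (nat_lit 429) (nat_lit 337)))))) (XT.nd (nat_lit 390) (nat_lit 1368) (nat_lit 0) (XT.nd (nat_lit 156) (nat_lit 304) (nat_lit 0) (XT.nd (nat_lit 78) (nat_lit 456) (nat_lit 0) (XT.lf (nat_lit 380) (nat_lit 212142929) (nat_lit 0) (nat_lit 2309860022) (nat_lit 304) (nat_lit 2309860022) (nat_lit 162) (nat_lit 1) (nat_lit 157) (nat_lit 1) (nat_lit 161) (nat_lit 1) (nat_lit 375) (nat_lit 429) (nat_lit 336)) (XT.lf (nat_lit 456) (nat_lit 3850437354) (nat_lit 0) (nat_lit 472701451) (nat_lit 380) (nat_lit 472701451) (nat_lit 157) (nat_lit 1) (nat_lit 151) (nat_lit 1) (nat_lit 156) (nat_lit 1) (nat_lit 376) (nat_lit 429) (nat_lit 335))) (XT.nd (nat_lit 78) (nat_lit 304) (nat_lit 0) (XT.lf (nat_lit 76) (nat_lit 1328736627) (nat_lit 0) (nat_lit 2102523613) (nat_lit 456) (nat_lit 1328736627) (nat_lit 152) (nat_lit 1) (nat_lit 151) (nat_lit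 1) (nat_lit 157) (nat_lit 1) (nat_lit 377) (nat_lit 429) (nat_lit 334)) (XT.nd (nat_lit 78) (nat_lit 0) (nat_lit 0) (XT.lf (nat_lit 380) (nat_lit 1474068217) (nat_lit 0) (nat_lit 1625258425) (nat_lit 304) (nat_lit 1625258425) (nat_lit 152) (nat_lit 1) (nat_lit 147) (nat_lit 1) (nat_lit 151) (nat_lit 1) (nat_lit 378) (nat_lit 429) (nat_lit 333)) (XT.lf (nat_lit 76) (nat_lit 152052579) (nat_lit 0) (nat_lit 4385571046) (nat_lit 380) (nat_lit 152052579) (nat_lit 148) (nat_lit 1) (nat_lit 147) (nat_lit 1) (nat_lit 152) (nat_lit 1) (nat_lit 379) (nat_lit 429) (nat_lit 332))))) (XT.nd (nat_lit 156) (nat_lit 684) (nat_lit 0) (XT.nd (nat_lit 78) (nat_lit 304) (nat_lit 0) (XT.lf (nat_lit 76) (nat_lit 1897218210) (nat_lit 0) (nat_lit 860336470) (nat_lit 380) (nat_lit 1897218210) (nat_lit 143) (nat_lit 1) (nat_lit 142) (nat_lit 1) (nat_lit 147) (nat_lit 1) (nat_lit 380) (nat_lit 429) (nat_lit 331)) (XT.lf (nat_lit 380) (nat_lit 2614831712) (nat_lit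 0) (nat_lit 1002766787) (nat_lit 304) (nat_lit 1002766787) (nat_lit 143) (nat_lit 1) (nat_lit 138) (nat_lit 1) (nat_lit 142) (nat_lit 1) (nat_lit 381) (nat_lit 429) (nat_lit 330))) (XT.nd (nat_lit 78) (nat_lit 684) (nat_lit 0) (XT.lf (nat_lit 76) (nat_lit 720519870) (nat_lit 0) (nat_lit 3145253054) (nat_lit 380) (nat_lit 720519870) (nat_lit 139) (nat_lit 1) (nat_lit 138) (nat_lit 1) (nat_lit 143) (nat_lit 1) (nat_lit 382) (nat_lit 429) (nat_lit 329)) (XT.nd (nat_lit 78) (nat_lit 380) (nat_lit 0) (XT.lf (nat_lit 380) (nat_lit 269570843) (nat_lit 0) (nat_lit 2141455907) (nat_lit 304) (nat_lit 2141455907) (nat_lit 139) (nat_lit 1) (nat_lit 134) (nat_lit 1) (nat_lit 138) (nat_lit 1) (nat_lit 383) (nat_lit 429) (nat_lit 328)) (XT.lf (nat_lit 380) (nat_lit 3644151819) (nat_lit 0) (nat_lit 437459572) (nat_lit 304) (nat_lit 437459572) (nat_lit 134) (nat_lit 1) (nat_lit 129) (nat_lit 1) (nat_lit 133) (nat_lit 1) (nat_lit 384) (nat_lit 429) (nat_lit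 327))))))))
noncomputable def ec183 : XT := (XT.nd (nat_lit 1404) (nat_lit 2888) (nat_lit 0) (XT.nd (nat_lit 702) (nat_lit 1596) (nat_lit 0) (XT.nd (nat_lit 312) (nat_lit 912) (nat_lit 0) (XT.nd (nat_lit 156) (nat_lit 304) (nat_lit 0) (XT.nd (nat_lit 78) (nat_lit 304) (nat_lit 0) (XT.lf (nat_lit 76) (nat_lit 1234322310) (nat_lit 0) (nat_lit 2017162258) (nat_lit 380) (nat_lit 1234322310) (nat_lit 130) (nat_lit 1) (nat_lit 129) (nat_lit 1) (nat_lit 134) (nat_lit 1) (nat_lit 385) (nat_lit 429) (nat_lit 326)) (XT.lf (nat_lit 380) (nat_lit 1302915779) (nat_lit 0) (nat_lit 1575009520) (nat_lit 304) (nat_lit 1575009520) (nat_lit 130) (nat_lit 1) (nat_lit 125) (nat_lit 1) (nat_lit 129) (nat_lit 1) (nat_lit 386) (nat_lit 429) (nat_lit 325))) (XT.nd (nat_lit 78) (nat_lit 304) (nat_lit 0) (XT.lf (nat_lit 76) (nat_lit 75707892) (nat_lit 0) (nat_lit 4269122337) (nat_lit 380) (nat_lit 75707892) (nat_lit 126) (nat_lit 1) (nat_lit 125) (nat_lit 1) (nat_lit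 130) (nat_lit 1) (nat_lit 387) (nat_lit 429) (nat_lit 324)) (XT.lf (nat_lit 76) (nat_lit 1697845887) (nat_lit 0) (nat_lit 992403587) (nat_lit 304) (nat_lit 1697845887) (nat_lit 122) (nat_lit 1) (nat_lit 121) (nat_lit 1) (nat_lit 125) (nat_lit 1) (nat_lit 388) (nat_lit 429) (nat_lit 323)))) (XT.nd (nat_lit 156) (nat_lit 608) (nat_lit 0) (XT.nd (nat_lit 78) (nat_lit 0) (nat_lit 0) (XT.lf (nat_lit 380) (nat_lit 2236902576) (nat_lit 0) (nat_lit 1059609728) (nat_lit 304) (nat_lit 1059609728) (nat_lit 122) (nat_lit 1) (nat_lit 117) (nat_lit 1) (nat_lit 121) (nat_lit 1) (nat_lit 389) (nat_lit 429) (nat_lit 322)) (XT.lf (nat_lit 76) (nat_lit 543010405) (nat_lit 0) (nat_lit 3238464354) (nat_lit 380) (nat_lit 543010405) (nat_lit 118) (nat_lit 1) (nat_lit 117) (nat_lit 1) (nat_lit 122) (nat_lit 1) (nat_lit 390) (nat_lit 429) (nat_lit 321))) (XT.nd (nat_lit 78) (nat_lit 304) (nat_lit 0) (XT.lf (nat_lit 76) (nat_lit 2115138203) (nat_lit 0) (nat_lit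 62766202) (nat_lit 304) (nat_lit 2115138203) (nat_lit 114) (nat_lit 1) (nat_lit 113) (nat_lit 1) (nat_lit 117) (nat_lit 1) (nat_lit 391) (nat_lit 429) (nat_lit 320)) (XT.nd (nat_lit 78) (nat_lit 0) (nat_lit 0) (XT.lf (nat_lit 380) (nat_lit 3079502991) (nat_lit 0) (nat_lit 591214020) (nat_lit 304) (nat_lit 591214020) (nat_lit 114) (nat_lit 1) (nat_lit 109) (nat_lit 1) (nat_lit 113) (nat_lit 1) (nat_lit 392) (nat_lit 429) (nat_lit 319)) (XT.lf (nat_lit 76) (nat_lit 965449850) (nat_lit 0) (nat_lit 2300129902) (nat_lit 380) (nat_lit 965449850) (nat_lit 110) (nat_lit 1) (nat_lit 109) (nat_lit 1) (nat_lit 114) (nat_lit 1) (nat_lit 393) (nat_lit 429) (nat_lit 318)))))) (XT.nd (nat_lit 312) (nat_lit 760) (nat_lit 0) (XT.nd (nat_lit 156) (nat_lit 228) (nat_lit 0) (XT.nd (nat_lit 78) (nat_lit 380) (nat_lit 0) (XT.lf (nat_lit 304) (nat_lit 789685611) (nat_lit 0) (nat_lit 1705375879) (nat_lit 228) (nat_lit 1705375879) (nat_lit 110) (nat_lit 1) (nat_lit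 106) (nat_lit 1) (nat_lit 109) (nat_lit 1) (nat_lit 394) (nat_lit 429) (nat_lit 317)) (XT.lf (nat_lit 380) (nat_lit 3838073750) (nat_lit 0) (nat_lit 166090779) (nat_lit 304) (nat_lit 166090779) (nat_lit 106) (nat_lit 1) (nat_lit 101) (nat_lit 1) (nat_lit 105) (nat_lit 1) (nat_lit 395) (nat_lit 429) (nat_lit 316))) (XT.nd (nat_lit 78) (nat_lit 228) (nat_lit 0) (XT.lf (nat_lit 76) (nat_lit 1346624636) (nat_lit 0) (nat_lit 1446816863) (nat_lit 380) (nat_lit 1346624636) (nat_lit 102) (nat_lit 1) (nat_lit 101) (nat_lit 1) (nat_lit 106) (nat_lit 1) (nat_lit 396) (nat_lit 429) (nat_lit 315)) (XT.lf (nat_lit 304) (nat_lit 1561353801) (nat_lit 0) (nat_lit 1274464233) (nat_lit 228) (nat_lit 1274464233) (nat_lit 102) (nat_lit 1) (nat_lit 98) (nat_lit 1) (nat_lit 101) (nat_lit 1) (nat_lit 397) (nat_lit 429) (nat_lit 314)))) (XT.nd (nat_lit 156) (nat_lit 456) (nat_lit 0) (XT.nd (nat_lit 78) (nat_lit 304) (nat_lit 0) (XT.lf (nat_lit 76) (nat_lit 220656133)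 (nat_lit 0) (nat_lit 3639567383) (nat_lit 304) (nat_lit 220656133) (nat_lit 99) (nat_lit 1) (nat_lit 98) (nat_lit 1) (nat_lit 102) (nat_lit 1) (nat_lit 398) (nat_lit 429) (nat_lit 313)) (XT.lf (nat_lit 76) (nat_lit 1689855567) (nat_lit 0) (nat_lit 671784527) (nat_lit 304) (nat_lit 1689855567) (nat_lit 95) (nat_lit 1) (nat_lit 94) (nat_lit 1) (nat_lit 98) (nat_lit 1) (nat_lit 399) (nat_lit 429) (nat_lit 312))) (XT.nd (nat_lit 78) (nat_lit 228) (nat_lit 0) (XT.lf (nat_lit 304) (nat_lit 2257945999) (nat_lit 0) (nat_lit 882271214) (nat_lit 228) (nat_lit 882271214) (nat_lit 95) (nat_lit 1) (nat_lit 91) (nat_lit 1) (nat_lit 94) (nat_lit 1) (nat_lit 400) (nat_lit 429) (nat_lit 311)) (XT.nd (nat_lit 78) (nat_lit 228) (nat_lit 0) (XT.lf (nat_lit 76) (nat_lit 571611487) (nat_lit 0) (nat_lit 2850533788) (nat_lit 304) (nat_lit 571611487) (nat_lit 92) (nat_lit 1) (nat_lit 91) (nat_lit 1) (nat_lit 95) (nat_lit 1) (nat_lit 401) (nat_lit 429) (nat_lit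 310)) (XT.lf (nat_lit 304) (nat_lit 31603753) (nat_lit 0) (nat_lit 1966808497) (nat_lit 228) (nat_lit 1966808497) (nat_lit 92) (nat_lit 1) (nat_lit 88) (nat_lit 1) (nat_lit 91) (nat_lit 1) (nat_lit 402) (nat_lit 429) (nat_lit 309))))))) (XT.nd (nat_lit 702) (nat_lit 1368) (nat_lit 0) (XT.nd (nat_lit 312) (nat_lit 684) (nat_lit 0) (XT.nd (nat_lit 156) (nat_lit 532) (nat_lit 0) (XT.nd (nat_lit 78) (nat_lit 0) (nat_lit 0) (XT.lf (nat_lit 304) (nat_lit 2885499390) (nat_lit 0) (nat_lit 525732482) (nat_lit 228) (nat_lit 525732482) (nat_lit 88) (nat_lit 1) (nat_lit 84) (nat_lit 1) (nat_lit 87) (nat_lit 1) (nat_lit 403) (nat_lit 429) (nat_lit 308)) (XT.lf (nat_lit 76) (nat_lit 888629019) (nat_lit 0) (nat_lit 2131625257) (nat_lit 304) (nat_lit 888629019) (nat_lit 85) (nat_lit 1) (nat_lit 84) (nat_lit 1) (nat_lit 88) (nat_lit 1) (nat_lit 404) (nat_lit 429) (nat_lit 307))) (XT.nd (nat_lit 78) (nat_lit 304) (nat_lit 0) (XT.lf (nat_lit 304) (nat_lit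 676723058) (nat_lit 0) (nat_lit 1602177404) (nat_lit 228) (nat_lit 1602177404) (nat_lit 85) (nat_lit 1) (nat_lit 81) (nat_lit 1) (nat_lit 84) (nat_lit 1) (nat_lit 405) (nat_lit 429) (nat_lit 306)) (XT.lf (nat_lit 304) (nat_lit 3449585125) (nat_lit 0) (nat_lit 202019330) (nat_lit 228) (nat_lit 202019330) (nat_lit 81) (nat_lit 1) (nat_lit 77) (nat_lit 1) (nat_lit 80) (nat_lit 1) (nat_lit 406) (nat_lit 429) (nat_lit 305)))) (XT.nd (nat_lit 156) (nat_lit 456) (nat_lit 0) (XT.nd (nat_lit 78) (nat_lit 228) (nat_lit 0) (XT.lf (nat_lit 76) (nat_lit 1174434639) (nat_lit 0) (nat_lit 1477304651) (nat_lit 304) (nat_lit 1174434639) (nat_lit 78) (nat_lit 1) (nat_lit 77) (nat_lit 1) (nat_lit 81) (nat_lit 1) (nat_lit 407) (nat_lit 429) (nat_lit 304)) (XT.lf (nat_lit 304) (nat_lit 1260016987) (nat_lit 0) (nat_lit 1269527374) (nat_lit 228) (nat_lit 1269527374) (nat_lit 78) (nat_lit 1) (nat_lit 74) (nat_lit 1) (nat_lit 77) (nat_lit 1) (nat_lit 408) (nat_lit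 429) (nat_lit 303))) (XT.nd (nat_lit 78) (nat_lit 456) (nat_lit 0) (XT.lf (nat_lit 76) (nat_lit 92085128) (nat_lit 0) (nat_lit 3588167082) (nat_lit 304) (nat_lit 92085128) (nat_lit 75) (nat_lit 1) (nat_lit 74) (nat_lit 1) (nat_lit 78) (nat_lit 1) (nat_lit 409) (nat_lit 429) (nat_lit 302)) (XT.nd (nat_lit 78) (nat_lit 228) (nat_lit 0) (XT.lf (nat_lit 76) (nat_lit 1431543898) (nat_lit 0) (nat_lit 882460367) (nat_lit 228) (nat_lit 1431543898) (nat_lit 72) (nat_lit 1) (nat_lit 71) (nat_lit 1) (nat_lit 74) (nat_lit 1) (nat_lit 410) (nat_lit 429) (nat_lit 301)) (XT.lf (nat_lit 304) (nat_lit 1786442779) (nat_lit 0) (nat_lit 966340300) (nat_lit 228) (nat_lit 966340300) (nat_lit 72) (nat_lit 1) (nat_lit 68) (nat_lit 1) (nat_lit 71) (nat_lit 1) (nat_lit 411) (nat_lit 429) (nat_lit 300)))))) (XT.nd (nat_lit 390) (nat_lit 760) (nat_lit 0) (XT.nd (nat_lit 156) (nat_lit 380) (nat_lit 0) (XT.nd (nat_lit 78) (nat_lit 228) (nat_lit 0) (XT.lf (nat_lit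 76) (nat_lit 359538850) (nat_lit 0) (nat_lit 2973907053) (nat_lit 304) (nat_lit 359538850) (nat_lit 69) (nat_lit 1) (nat_lit 68) (nat_lit 1) (nat_lit 72) (nat_lit 1) (nat_lit 412) (nat_lit 429) (nat_lit 299)) (XT.lf (nat_lit 76) (nat_lit 1662278055) (nat_lit 0) (nat_lit 342373859) (nat_lit 228) (nat_lit 1662278055) (nat_lit 66) (nat_lit 1) (nat_lit 65) (nat_lit 1) (nat_lit 68) (nat_lit 1) (nat_lit 413) (nat_lit 429) (nat_lit 298))) (XT.nd (nat_lit 78) (nat_lit 152) (nat_lit 0) (XT.lf (nat_lit 304) (nat_lit 2260575273) (nat_lit 0) (nat_lit 690291461) (nat_lit 228) (nat_lit 690291461) (nat_lit 66) (nat_lit 1) (nat_lit 62) (nat_lit 1) (nat_lit 65) (nat_lit 1) (nat_lit 414) (nat_lit 429) (nat_lit 297)) (XT.nd (nat_lit 78) (nat_lit 152) (nat_lit 0) (XT.lf (nat_lit 76) (nat_lit 601243053) (nat_lit 0) (nat_lit 2413112101) (nat_lit 304) (nat_lit 601243053) (nat_lit 63) (nat_lit 1) (nat_lit 62) (nat_lit 1) (nat_lit 66) (nat_lit 1) (nat_lit 415)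 (nat_lit 429) (nat_lit 296)) (XT.lf (nat_lit 228) (nat_lit 149268050) (nat_lit 0) (nat_lit 1720480029) (nat_lit 152) (nat_lit 1720480029) (nat_lit 63) (nat_lit 1) (nat_lit 60) (nat_lit 1) (nat_lit 62) (nat_lit 1) (nat_lit 416) (nat_lit 429) (nat_lit 295))))) (XT.nd (nat_lit 156) (nat_lit 456) (nat_lit 0) (XT.nd (nat_lit 78) (nat_lit 0) (nat_lit 0) (XT.lf (nat_lit 304) (nat_lit 2686636129) (nat_lit 0) (nat_lit 439234761) (nat_lit 228) (nat_lit 439234761) (nat_lit 60) (nat_lit 1) (nat_lit 56) (nat_lit 1) (nat_lit 59) (nat_lit 1) (nat_lit 417) (nat_lit 429) (nat_lit 294)) (XT.lf (nat_lit 76) (nat_lit 819264205) (nat_lit 0) (nat_lit 1901579512) (nat_lit 304) (nat_lit 819264205) (nat_lit 57) (nat_lit 1) (nat_lit 56) (nat_lit 1) (nat_lit 60) (nat_lit 1) (nat_lit 418) (nat_lit 429) (nat_lit 293))) (XT.nd (nat_lit 78) (nat_lit 304) (nat_lit 0) (XT.lf (nat_lit 228) (nat_lit 598461431) (nat_lit 0) (nat_lit 1458446805) (nat_lit 152) (nat_lit 1458446805)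 (nat_lit 57) (nat_lit 1) (nat_lit 54) (nat_lit 1) (nat_lit 56) (nat_lit 1) (nat_lit 419) (nat_lit 429) (nat_lit 292)) (XT.nd (nat_lit 78) (nat_lit 0) (nat_lit 0) (XT.lf (nat_lit 304) (nat_lit 3068520816) (nat_lit 0) (nat_lit 211189096) (nat_lit 228) (nat_lit 211189096) (nat_lit 54) (nat_lit 1) (nat_lit 50) (nat_lit 1) (nat_lit 53) (nat_lit 1) (nat_lit 420) (nat_lit 429) (nat_lit 291)) (XT.lf (nat_lit 76) (nat_lit 1015509331) (nat_lit 0) (nat_lit 1435429195) (nat_lit 304) (nat_lit 1015509331) (nat_lit 51) (nat_lit 1) (nat_lit 50) (nat_lit 1) (nat_lit 54) (nat_lit 1) (nat_lit 421) (nat_lit 429) (nat_lit 290))))))))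
noncomputable def ec184 : XT := (XT.nd (nat_lit 49374) (nat_lit 0) (nat_lit 31008) (XT.nd (nat_lit 48672) (nat_lit 0) (nat_lit 35112) (XT.nd (nat_lit 312) (nat_lit 380) (nat_lit 0) (XT.nd (nat_lit 156) (nat_lit 152) (nat_lit 0) (XT.nd (nat_lit 78) (nat_lit 304) (nat_lit 0) (XT.lf (nat_lit 228) (nat_lit 1004416076) (nat_lit 0) (nat_lit 1218937449) (nat_lit 152) (nat_lit 1218937449) (nat_lit 51) (nat_lit 1) (nat_lit 48) (nat_lit 1) (nat_lit 50) (nat_lit 1) (nat_lit 422) (nat_lit 429) (nat_lit 289)) (XT.lf (nat_lit 304) (nat_lit 3409823544) (nat_lit 0) (nat_lit 4325757) (nat_lit 228) (nat_lit 4325757) (nat_lit 48) (nat_lit 1) (nat_lit 44) (nat_lit 1) (nat_lit 47) (nat_lit 1) (nat_lit 423) (nat_lit 429) (nat_lit 288))) (XT.nd (nat_lit 78) (nat_lit 152) (nat_lit 0) (XT.lf (nat_lit 76) (nat_lit 1191738203) (nat_lit 0) (nat_lit 1011079070) (nat_lit 304) (nat_lit 1191738203) (nat_lit 45) (nat_lit 1) (nat_lit 44) (nat_lit 1) (nat_lit 48) (nat_lit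 1) (nat_lit 424) (nat_lit 429) (nat_lit 287)) (XT.lf (nat_lit 228) (nat_lit 1370601885) (nat_lit 0) (nat_lit 1000186295) (nat_lit 152) (nat_lit 1000186295) (nat_lit 45) (nat_lit 1) (nat_lit 42) (nat_lit 1) (nat_lit 44) (nat_lit 1) (nat_lit 425) (nat_lit 429) (nat_lit 286)))) (XT.nd (nat_lit 156) (nat_lit 152) (nat_lit 0) (XT.nd (nat_lit 78) (nat_lit 228) (nat_lit 0) (XT.lf (nat_lit 76) (nat_lit 184255407) (nat_lit 0) (nat_lit 2979167057) (nat_lit 228) (nat_lit 184255407) (nat_lit 43) (nat_lit 1) (nat_lit 42) (nat_lit 1) (nat_lit 45) (nat_lit 1) (nat_lit 426) (nat_lit 429) (nat_lit 285)) (XT.lf (nat_lit 76) (nat_lit 1349574585) (nat_lit 0) (nat_lit 625222317) (nat_lit 228) (nat_lit 1349574585) (nat_lit 40) (nat_lit 1) (nat_lit 39) (nat_lit 1) (nat_lit 42) (nat_lit 1) (nat_lit 427) (nat_lit 429) (nat_lit 284))) (XT.nd (nat_lit 48048) (nat_lit 0) (nat_lit 35036) (XT.lf (nat_lit 228) (nat_lit 1700221034) (nat_lit 0) (nat_lit 800563131) (nat_lit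 152) (nat_lit 800563131) (nat_lit 40) (nat_lit 1) (nat_lit 37) (nat_lit 1) (nat_lit 39) (nat_lit 1) (nat_lit 428) (nat_lit 429) (nat_lit 283)) (XT.nd (nat_lit 78) (nat_lit 0) (nat_lit 76) (XT.lf (nat_lit 1900) (nat_lit 6898876218) (nat_lit 76) (nat_lit 1853200498) (nat_lit 0) (nat_lit 1853200498) (nat_lit 523) (nat_lit 1) (nat_lit 499) (nat_lit 1) (nat_lit 498) (nat_lit 1) (nat_lit 283) (nat_lit 430) (nat_lit 427)) (XT.lf (nat_lit 1900) (nat_lit 3352723111) (nat_lit 0) (nat_lit 3796439264) (nat_lit 1824) (nat_lit 3352723111) (nat_lit 524) (nat_lit 1) (nat_lit 499) (nat_lit 1) (nat_lit 523) (nat_lit 1) (nat_lit 284) (nat_lit 430) (nat_lit 426)))))) (XT.nd (nat_lit 312) (nat_lit 0) (nat_lit 152) (XT.nd (nat_lit 156) (nat_lit 0) (nat_lit 76) (XT.nd (nat_lit 78) (nat_lit 0) (nat_lit 76) (XT.lf (nat_lit 1900) (nat_lit 6490832398) (nat_lit 76) (nat_lit 1954599457) (nat_lit 0) (nat_lit 1954599457) (nat_lit 524) (nat_lit 1) (nat_lit 500) (nat_lit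 1) (nat_lit 499) (nat_lit 1) (nat_lit 285) (nat_lit 430) (nat_lit 425)) (XT.lf (nat_lit 1900) (nat_lit 3118720521) (nat_lit 0) (nat_lit 4061890379) (nat_lit 1824) (nat_lit 3118720521) (nat_lit 525) (nat_lit 1) (nat_lit 500) (nat_lit 1) (nat_lit 524) (nat_lit 1) (nat_lit 286) (nat_lit 430) (nat_lit 424))) (XT.nd (nat_lit 78) (nat_lit 0) (nat_lit 76) (XT.lf (nat_lit 1900) (nat_lit 5962295183) (nat_lit 76) (nat_lit 2118893438) (nat_lit 0) (nat_lit 2118893438) (nat_lit 525) (nat_lit 1) (nat_lit 501) (nat_lit 1) (nat_lit 500) (nat_lit 1) (nat_lit 287) (nat_lit 430) (nat_lit 423)) (XT.lf (nat_lit 1900) (nat_lit 2826529470) (nat_lit 0) (nat_lit 4448945599) (nat_lit 1824) (nat_lit 2826529470) (nat_lit 526) (nat_lit 1) (nat_lit 501) (nat_lit 1) (nat_lit 525) (nat_lit 1) (nat_lit 288) (nat_lit 430) (nat_lit 422)))) (XT.nd (nat_lit 156) (nat_lit 0) (nat_lit 76) (XT.nd (nat_lit 78) (nat_lit 0) (nat_lit 76) (XT.lf (nat_lit 1900) (nat_lit 5320616775)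 (nat_lit 76) (nat_lit 2342329712) (nat_lit 0) (nat_lit 2342329712) (nat_lit 526) (nat_lit 1) (nat_lit 502) (nat_lit 1) (nat_lit 501) (nat_lit 1) (nat_lit 289) (nat_lit 430) (nat_lit 421)) (XT.lf (nat_lit 1900) (nat_lit 2479728605) (nat_lit 0) (nat_lit 4950296383) (nat_lit 1824) (nat_lit 2479728605) (nat_lit 527) (nat_lit 1) (nat_lit 502) (nat_lit 1) (nat_lit 526) (nat_lit 1) (nat_lit 290) (nat_lit 430) (nat_lit 420))) (XT.nd (nat_lit 78) (nat_lit 0) (nat_lit 76) (XT.lf (nat_lit 1900) (nat_lit 4572811468) (nat_lit 76) (nat_lit 2621326964) (nat_lit 0) (nat_lit 2621326964) (nat_lit 527) (nat_lit 1) (nat_lit 503) (nat_lit 1) (nat_lit 502) (nat_lit 1) (nat_lit 291) (nat_lit 430) (nat_lit 419)) (XT.nd (nat_lit 78) (nat_lit 0) (nat_lit 0) (XT.lf (nat_lit 1900) (nat_lit 2081731747) (nat_lit 0) (nat_lit 5558968700) (nat_lit 1824) (nat_lit 2081731747) (nat_lit 528) (nat_lit 1) (nat_lit 503) (nat_lit 1) (nat_lit 527) (nat_lit 1) (nat_lit 292) (nat_lit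 430) (nat_lit 418)) (XT.lf (nat_lit 1900) (nat_lit 3725569789) (nat_lit 76) (nat_lit 2952468141) (nat_lit 0) (nat_lit 2952468141) (nat_lit 528) (nat_lit 1) (nat_lit 504) (nat_lit 1) (nat_lit 503) (nat_lit 1) (nat_lit 293) (nat_lit 430) (nat_lit 417))))))) (XT.nd (nat_lit 702) (nat_lit 2812) (nat_lit 0) (XT.nd (nat_lit 312) (nat_lit 1672) (nat_lit 0) (XT.nd (nat_lit 156) (nat_lit 0) (nat_lit 76) (XT.nd (nat_lit 78) (nat_lit 0) (nat_lit 0) (XT.lf (nat_lit 1900) (nat_lit 1635794793) (nat_lit 0) (nat_lit 6268309056) (nat_lit 1824) (nat_lit 1635794793) (nat_lit 529) (nat_lit 1) (nat_lit 504) (nat_lit 1) (nat_lit 528) (nat_lit 1) (nat_lit 294) (nat_lit 430) (nat_lit 416)) (XT.lf (nat_lit 1900) (nat_lit 2785272082) (nat_lit 76) (nat_lit 3332493572) (nat_lit 0) (nat_lit 3332493572) (nat_lit 529) (nat_lit 1) (nat_lit 505) (nat_lit 1) (nat_lit 504) (nat_lit 1) (nat_lit 295) (nat_lit 430) (nat_lit 415))) (XT.nd (nat_lit 78) (nat_lit 0) (nat_lit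 0) (XT.lf (nat_lit 1900) (nat_lit 1145022352) (nat_lit 0) (nat_lit 7071971064) (nat_lit 1824) (nat_lit 1145022352) (nat_lit 530) (nat_lit 1) (nat_lit 505) (nat_lit 1) (nat_lit 529) (nat_lit 1) (nat_lit 296) (nat_lit 430) (nat_lit 414)) (XT.lf (nat_lit 1900) (nat_lit 1758001541) (nat_lit 76) (nat_lit 3758294377) (nat_lit 0) (nat_lit 3758294377) (nat_lit 530) (nat_lit 1) (nat_lit 506) (nat_lit 1) (nat_lit 505) (nat_lit 1) (nat_lit 297) (nat_lit 430) (nat_lit 413)))) (XT.nd (nat_lit 156) (nat_lit 1824) (nat_lit 0) (XT.nd (nat_lit 78) (nat_lit 0) (nat_lit 0) (XT.lf (nat_lit 1900) (nat_lit 612374101) (nat_lit 0) (nat_lit 7963902565) (nat_lit 1824) (nat_lit 612374101) (nat_lit 531) (nat_lit 1) (nat_lit 506) (nat_lit 1) (nat_lit 530) (nat_lit 1) (nat_lit 298) (nat_lit 430) (nat_lit 412)) (XT.lf (nat_lit 1900) (nat_lit 649556717) (nat_lit 76) (nat_lit 4226906138) (nat_lit 0) (nat_lit 4226906138) (nat_lit 531) (nat_lit 1) (nat_lit 507) (nat_lit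 1) (nat_lit 506) (nat_lit 1) (nat_lit 299) (nat_lit 430) (nat_lit 411))) (XT.nd (nat_lit 78) (nat_lit 1900) (nat_lit 0) (XT.lf (nat_lit 1900) (nat_lit 40670897) (nat_lit 0) (nat_lit 8938333267) (nat_lit 1824) (nat_lit 40670897) (nat_lit 532) (nat_lit 1) (nat_lit 507) (nat_lit 1) (nat_lit 531) (nat_lit 1) (nat_lit 300) (nat_lit 430) (nat_lit 410)) (XT.nd (nat_lit 78) (nat_lit 0) (nat_lit 0) (XT.lf (nat_lit 1976) (nat_lit 4204436901) (nat_lit 0) (nat_lit 527525939) (nat_lit 1900) (nat_lit 4204436901) (nat_lit 508) (nat_lit 1) (nat_lit 482) (nat_lit 1) (nat_lit 507) (nat_lit 1) (nat_lit 301) (nat_lit 430) (nat_lit 409)) (XT.lf (nat_lit 1976) (nat_lit 7727335485) (nat_lit 76) (nat_lit 563666477) (nat_lit 0) (nat_lit 563666477) (nat_lit 508) (nat_lit 1) (nat_lit 483) (nat_lit 1) (nat_lit 482) (nat_lit 1) (nat_lit 302) (nat_lit 430) (nat_lit 408)))))) (XT.nd (nat_lit 312) (nat_lit 1824) (nat_lit 0) (XT.nd (nat_lit 156) (nat_lit 1064) (nat_lit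 0) (XT.nd (nat_lit 78) (nat_lit 0) (nat_lit 0) (XT.lf (nat_lit 1976) (nat_lit 3503993128) (nat_lit 0) (nat_lit 1765550037) (nat_lit 1900) (nat_lit 3503993128) (nat_lit 509) (nat_lit 1) (nat_lit 483) (nat_lit 1) (nat_lit 508) (nat_lit 1) (nat_lit 303) (nat_lit 430) (nat_lit 407)) (XT.lf (nat_lit 1976) (nat_lit 6291126454) (nat_lit 76) (nat_lit 1201320383) (nat_lit 0) (nat_lit 1201320383) (nat_lit 509) (nat_lit 1) (nat_lit 484) (nat_lit 1) (nat_lit 483) (nat_lit 1) (nat_lit 304) (nat_lit 430) (nat_lit 406))) (XT.nd (nat_lit 78) (nat_lit 1140) (nat_lit 0) (XT.lf (nat_lit 76) (nat_lit 2773329818) (nat_lit 0) (nat_lit 3068085685) (nat_lit 1900) (nat_lit 2773329818) (nat_lit 485) (nat_lit 1) (nat_lit 484) (nat_lit 1) (nat_lit 509) (nat_lit 1) (nat_lit 305) (nat_lit 430) (nat_lit 405)) (XT.lf (nat_lit 1216) (nat_lit 4796605435) (nat_lit 0) (nat_lit 1870135829) (nat_lit 1140) (nat_lit 1870135829) (nat_lit 485) (nat_lit 1) (nat_lit 469) (nat_lit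 1) (nat_lit 484) (nat_lit 1) (nat_lit 306) (nat_lit 430) (nat_lit 404)))) (XT.nd (nat_lit 156) (nat_lit 912) (nat_lit 0) (XT.nd (nat_lit 78) (nat_lit 912) (nat_lit 0) (XT.lf (nat_lit 76) (nat_lit 2014746289) (nat_lit 0) (nat_lit 4430420259) (nat_lit 1216) (nat_lit 2014746289) (nat_lit 470) (nat_lit 1) (nat_lit 469) (nat_lit 1) (nat_lit 485) (nat_lit 1) (nat_lit 307) (nat_lit 430) (nat_lit 403)) (XT.lf (nat_lit 988) (nat_lit 3248273649) (nat_lit 0) (nat_lit 2567806258) (nat_lit 912) (nat_lit 2567806258) (nat_lit 470) (nat_lit 1) (nat_lit 457) (nat_lit 1) (nat_lit 469) (nat_lit 1) (nat_lit 308) (nat_lit 430) (nat_lit 402))) (XT.nd (nat_lit 78) (nat_lit 912) (nat_lit 0) (XT.lf (nat_lit 76) (nat_lit 1230430496) (nat_lit 0) (nat_lit 5848067421) (nat_lit 988) (nat_lit 1230430496) (nat_lit 458) (nat_lit 1) (nat_lit 457) (nat_lit 1) (nat_lit 470) (nat_lit 1) (nat_lit 309) (nat_lit 430) (nat_lit 401)) (XT.nd (nat_lit 78) (nat_lit 0) (nat_lit 0)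 (XT.lf (nat_lit 988) (nat_lit 1650413670) (nat_lit 0) (nat_lit 3292136177) (nat_lit 912) (nat_lit 3292136177) (nat_lit 458) (nat_lit 1) (nat_lit 445) (nat_lit 1) (nat_lit 457) (nat_lit 1) (nat_lit 310) (nat_lit 430) (nat_lit 400)) (XT.lf (nat_lit 76) (nat_lit 422463790) (nat_lit 0) (nat_lit 7316757479) (nat_lit 988) (nat_lit 422463790) (nat_lit 446) (nat_lit 1) (nat_lit 445) (nat_lit 1) (nat_lit 458) (nat_lit 1) (nat_lit 311) (nat_lit 430) (nat_lit 399))))))))
noncomputable def ec185 : XT := (XT.nd (nat_lit 1404) (nat_lit 6612) (nat_lit 0) (XT.nd (nat_lit 702) (nat_lit 4484) (nat_lit 0) (XT.nd (nat_lit 312) (nat_lit 1596) (nat_lit 0) (XT.nd (nat_lit 156) (nat_lit 836) (nat_lit 0) (XT.nd (nat_lit 78) (nat_lit 988) (nat_lit 0) (XT.lf (nat_lit 912) (nat_lit 7098774) (nat_lit 0) (nat_lit 4041036428) (nat_lit 836) (nat_lit 4041036428) (nat_lit 446) (nat_lit 1) (nat_lit 434) (nat_lit 1) (nat_lit 445) (nat_lit 1) (nat_lit 312) (nat_lit 430)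 (nat_lit 398)) (XT.lf (nat_lit 988) (nat_lit 7208875445) (nat_lit 0) (nat_lit 404495734) (nat_lit 912) (nat_lit 404495734) (nat_lit 434) (nat_lit 1) (nat_lit 421) (nat_lit 1) (nat_lit 433) (nat_lit 1) (nat_lit 313) (nat_lit 430) (nat_lit 397))) (XT.nd (nat_lit 78) (nat_lit 836) (nat_lit 0) (XT.lf (nat_lit 76) (nat_lit 3145614929) (nat_lit 0) (nat_lit 1655793466) (nat_lit 988) (nat_lit 3145614929) (nat_lit 422) (nat_lit 1) (nat_lit 421) (nat_lit 1) (nat_lit 434) (nat_lit 1) (nat_lit 314) (nat_lit 430) (nat_lit 396)) (XT.lf (nat_lit 912) (nat_lit 5380683945) (nat_lit 0) (nat_lit 1248335643) (nat_lit 836) (nat_lit 1248335643) (nat_lit 422) (nat_lit 1) (nat_lit 410) (nat_lit 1) (nat_lit 421) (nat_lit 1) (nat_lit 315) (nat_lit 430) (nat_lit 395)))) (XT.nd (nat_lit 156) (nat_lit 760) (nat_lit 0) (XT.nd (nat_lit 78) (nat_lit 836) (nat_lit 0) (XT.lf (nat_lit 76) (nat_lit 2226179102) (nat_lit 0) (nat_lit 3355996275) (nat_lit 912) (nat_lit 2226179102)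 (nat_lit 411) (nat_lit 1) (nat_lit 410) (nat_lit 1) (nat_lit 422) (nat_lit 1) (nat_lit 316) (nat_lit 430) (nat_lit 394)) (XT.lf (nat_lit 912) (nat_lit 3520156007) (nat_lit 0) (nat_lit 2110058878) (nat_lit 836) (nat_lit 2110058878) (nat_lit 411) (nat_lit 1) (nat_lit 399) (nat_lit 1) (nat_lit 410) (nat_lit 1) (nat_lit 317) (nat_lit 430) (nat_lit 393))) (XT.nd (nat_lit 78) (nat_lit 760) (nat_lit 0) (XT.lf (nat_lit 76) (nat_lit 1291459996) (nat_lit 0) (nat_lit 5090150869) (nat_lit 912) (nat_lit 1291459996) (nat_lit 400) (nat_lit 1) (nat_lit 399) (nat_lit 1) (nat_lit 411) (nat_lit 1) (nat_lit 318) (nat_lit 430) (nat_lit 392)) (XT.nd (nat_lit 78) (nat_lit 0) (nat_lit 0) (XT.lf (nat_lit 836) (nat_lit 1630573320) (nat_lit 0) (nat_lit 2987977859) (nat_lit 760) (nat_lit 2987977859) (nat_lit 400) (nat_lit 1) (nat_lit 389) (nat_lit 1) (nat_lit 399) (nat_lit 1) (nat_lit 319) (nat_lit 430) (nat_lit 391)) (XT.lf (nat_lit 76) (nat_lit 343050806) (nat_lit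 0) (nat_lit 6854978608) (nat_lit 836) (nat_lit 343050806) (nat_lit 390) (nat_lit 1) (nat_lit 389) (nat_lit 1) (nat_lit 400) (nat_lit 1) (nat_lit 320) (nat_lit 430) (nat_lit 390)))))) (XT.nd (nat_lit 312) (nat_lit 2128) (nat_lit 0) (XT.nd (nat_lit 156) (nat_lit 760) (nat_lit 0) (XT.nd (nat_lit 78) (nat_lit 760) (nat_lit 0) (XT.lf (nat_lit 76) (nat_lit 3597390503) (nat_lit 0) (nat_lit 281212419) (nat_lit 836) (nat_lit 3597390503) (nat_lit 379) (nat_lit 1) (nat_lit 378) (nat_lit 1) (nat_lit 389) (nat_lit 1) (nat_lit 321) (nat_lit 430) (nat_lit 389)) (XT.lf (nat_lit 836) (nat_lit 6185023294) (nat_lit 0) (nat_lit 613473998) (nat_lit 760) (nat_lit 613473998) (nat_lit 379) (nat_lit 1) (nat_lit 368) (nat_lit 1) (nat_lit 378) (nat_lit 1) (nat_lit 322) (nat_lit 430) (nat_lit 388))) (XT.nd (nat_lit 78) (nat_lit 760) (nat_lit 0) (XT.lf (nat_lit 76) (nat_lit 2577052167) (nat_lit 0) (nat_lit 2194297011) (nat_lit 836) (nat_lit 2577052167) (nat_lit 369)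 (nat_lit 1) (nat_lit 368) (nat_lit 1) (nat_lit 379) (nat_lit 1) (nat_lit 323) (nat_lit 430) (nat_lit 387)) (XT.lf (nat_lit 836) (nat_lit 4128963306) (nat_lit 0) (nat_lit 1578415750) (nat_lit 760) (nat_lit 1578415750) (nat_lit 369) (nat_lit 1) (nat_lit 358) (nat_lit 1) (nat_lit 368) (nat_lit 1) (nat_lit 324) (nat_lit 430) (nat_lit 386)))) (XT.nd (nat_lit 156) (nat_lit 1444) (nat_lit 0) (XT.nd (nat_lit 78) (nat_lit 684) (nat_lit 0) (XT.lf (nat_lit 76) (nat_lit 1548289477) (nat_lit 0) (nat_lit 4127300734) (nat_lit 836) (nat_lit 1548289477) (nat_lit 359) (nat_lit 1) (nat_lit 358) (nat_lit 1) (nat_lit 369) (nat_lit 1) (nat_lit 325) (nat_lit 430) (nat_lit 385)) (XT.lf (nat_lit 760) (nat_lit 2057284140) (nat_lit 0) (nat_lit 2552681018) (nat_lit 684) (nat_lit 2552681018) (nat_lit 359) (nat_lit 1) (nat_lit 349) (nat_lit 1) (nat_lit 358) (nat_lit 1) (nat_lit 326) (nat_lit 430) (nat_lit 384))) (XT.nd (nat_lit 78) (nat_lit 1444) (nat_lit 0) (XT.lf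 (nat_lit 76) (nat_lit 512371628) (nat_lit 0) (nat_lit 6077602918) (nat_lit 760) (nat_lit 512371628) (nat_lit 350) (nat_lit 1) (nat_lit 349) (nat_lit 1) (nat_lit 359) (nat_lit 1) (nat_lit 327) (nat_lit 430) (nat_lit 383)) (XT.nd (nat_lit 78) (nat_lit 684) (nat_lit 0) (XT.lf (nat_lit 76) (nat_lit 3507633063) (nat_lit 0) (nat_lit 27174818) (nat_lit 760) (nat_lit 3507633063) (nat_lit 340) (nat_lit 1) (nat_lit 339) (nat_lit 1) (nat_lit 349) (nat_lit 1) (nat_lit 328) (nat_lit 430) (nat_lit 382)) (XT.lf (nat_lit 760) (nat_lit 5931412251) (nat_lit 0) (nat_lit 526016391) (nat_lit 684) (nat_lit 526016391) (nat_lit 340) (nat_lit 1) (nat_lit 330) (nat_lit 1) (nat_lit 339) (nat_lit 1) (nat_lit 329) (nat_lit 430) (nat_lit 381))))))) (XT.nd (nat_lit 702) (nat_lit 3420) (nat_lit 0) (XT.nd (nat_lit 312) (nat_lit 1900) (nat_lit 0) (XT.nd (nat_lit 156) (nat_lit 608) (nat_lit 0) (XT.nd (nat_lit 78) (nat_lit 684) (nat_lit 0) (XT.lf (nat_lit 76) (nat_lit 2414764767)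 (nat_lit 0) (nat_lit 2095306156) (nat_lit 760) (nat_lit 2414764767) (nat_lit 331) (nat_lit 1) (nat_lit 330) (nat_lit 1) (nat_lit 340) (nat_lit 1) (nat_lit 330) (nat_lit 430) (nat_lit 380)) (XT.lf (nat_lit 760) (nat_lit 3735467454) (nat_lit 0) (nat_lit 1565818903) (nat_lit 684) (nat_lit 1565818903) (nat_lit 331) (nat_lit 1) (nat_lit 321) (nat_lit 1) (nat_lit 330) (nat_lit 1) (nat_lit 331) (nat_lit 430) (nat_lit 379))) (XT.nd (nat_lit 78) (nat_lit 608) (nat_lit 0) (XT.lf (nat_lit 76) (nat_lit 1319059687) (nat_lit 0) (nat_lit 4171902359) (nat_lit 760) (nat_lit 1319059687) (nat_lit 322) (nat_lit 1) (nat_lit 321) (nat_lit 1) (nat_lit 331) (nat_lit 1) (nat_lit 332) (nat_lit 430) (nat_lit 378)) (XT.lf (nat_lit 684) (nat_lit 1534841199) (nat_lit 0) (nat_lit 2609339062) (nat_lit 608) (nat_lit 2609339062) (nat_lit 322) (nat_lit 1) (nat_lit 313) (nat_lit 1) (nat_lit 321) (nat_lit 1) (nat_lit 333) (nat_lit 430) (nat_lit 377)))) (XT.nd (nat_lit 156)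 (nat_lit 1216) (nat_lit 0) (XT.nd (nat_lit 78) (nat_lit 684) (nat_lit 0) (XT.lf (nat_lit 76) (nat_lit 221515709) (nat_lit 0) (nat_lit 6254894080) (nat_lit 684) (nat_lit 221515709) (nat_lit 314) (nat_lit 1) (nat_lit 313) (nat_lit 1) (nat_lit 322) (nat_lit 1) (nat_lit 334) (nat_lit 430) (nat_lit 376)) (XT.lf (nat_lit 76) (nat_lit 2991387444) (nat_lit 0) (nat_lit 659753174) (nat_lit 684) (nat_lit 2991387444) (nat_lit 305) (nat_lit 1) (nat_lit 304) (nat_lit 1) (nat_lit 313) (nat_lit 1) (nat_lit 335) (nat_lit 430) (nat_lit 375))) (XT.nd (nat_lit 78) (nat_lit 608) (nat_lit 0) (XT.lf (nat_lit 684) (nat_lit 4845706180) (nat_lit 0) (nat_lit 871156192) (nat_lit 608) (nat_lit 871156192) (nat_lit 305) (nat_lit 1) (nat_lit 296) (nat_lit 1) (nat_lit 304) (nat_lit 1) (nat_lit 336) (nat_lit 430) (nat_lit 374)) (XT.nd (nat_lit 78) (nat_lit 608) (nat_lit 0) (XT.lf (nat_lit 76) (nat_lit 1849421083) (nat_lit 0) (nat_lit 2835106482) (nat_lit 684) (nat_lit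 1849421083) (nat_lit 297) (nat_lit 1) (nat_lit 296) (nat_lit 1) (nat_lit 305) (nat_lit 1) (nat_lit 337) (nat_lit 430) (nat_lit 373)) (XT.lf (nat_lit 684) (nat_lit 2555813667) (nat_lit 0) (nat_lit 1962379767) (nat_lit 608) (nat_lit 1962379767) (nat_lit 297) (nat_lit 1) (nat_lit 288) (nat_lit 1) (nat_lit 296) (nat_lit 1) (nat_lit 338) (nat_lit 430) (nat_lit 372)))))) (XT.nd (nat_lit 390) (nat_lit 1672) (nat_lit 0) (XT.nd (nat_lit 156) (nat_lit 1216) (nat_lit 0) (XT.nd (nat_lit 78) (nat_lit 532) (nat_lit 0) (XT.lf (nat_lit 76) (nat_lit 709135786) (nat_lit 0) (nat_lit 5009640878) (nat_lit 684) (nat_lit 709135786) (nat_lit 289) (nat_lit 1) (nat_lit 288) (nat_lit 1) (nat_lit 297) (nat_lit 1) (nat_lit 339) (nat_lit 430) (nat_lit 371)) (XT.lf (nat_lit 608) (nat_lit 270076062) (nat_lit 0) (nat_lit 3052780982) (nat_lit 532) (nat_lit 3052780982) (nat_lit 289) (nat_lit 1) (nat_lit 281) (nat_lit 1) (nat_lit 288) (nat_lit 1) (nat_lit 340) (nat_lit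 430) (nat_lit 370))) (XT.nd (nat_lit 78) (nat_lit 532) (nat_lit 0) (XT.lf (nat_lit 684) (nat_lit 5472376460) (nat_lit 0) (nat_lit 425876821) (nat_lit 608) (nat_lit 425876821) (nat_lit 281) (nat_lit 1) (nat_lit 272) (nat_lit 1) (nat_lit 280) (nat_lit 1) (nat_lit 341) (nat_lit 430) (nat_lit 369)) (XT.nd (nat_lit 78) (nat_lit 532) (nat_lit 0) (XT.lf (nat_lit 76) (nat_lit 2144621404) (nat_lit 0) (nat_lit 1983644340) (nat_lit 684) (nat_lit 2144621404) (nat_lit 273) (nat_lit 1) (nat_lit 272) (nat_lit 1) (nat_lit 281) (nat_lit 1) (nat_lit 342) (nat_lit 430) (nat_lit 368)) (XT.lf (nat_lit 608) (nat_lit 3116257563) (nat_lit 0) (nat_lit 1553067753) (nat_lit 532) (nat_lit 1553067753) (nat_lit 273) (nat_lit 1) (nat_lit 265) (nat_lit 1) (nat_lit 272) (nat_lit 1) (nat_lit 343) (nat_lit 430) (nat_lit 367))))) (XT.nd (nat_lit 156) (nat_lit 1140) (nat_lit 0) (XT.nd (nat_lit 78) (nat_lit 532) (nat_lit 0) (XT.lf (nat_lit 76) (nat_lit 972817281) (nat_lit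 0) (nat_lit 4226849853) (nat_lit 608) (nat_lit 972817281) (nat_lit 266) (nat_lit 1) (nat_lit 265) (nat_lit 1) (nat_lit 273) (nat_lit 1) (nat_lit 344) (nat_lit 430) (nat_lit 366)) (XT.lf (nat_lit 608) (nat_lit 770156730) (nat_lit 0) (nat_lit 2676426186) (nat_lit 532) (nat_lit 2676426186) (nat_lit 266) (nat_lit 1) (nat_lit 258) (nat_lit 1) (nat_lit 265) (nat_lit 1) (nat_lit 345) (nat_lit 430) (nat_lit 365))) (XT.nd (nat_lit 78) (nat_lit 532) (nat_lit 0) (XT.lf (nat_lit 608) (nat_lit 5689478560) (nat_lit 0) (nat_lit 192412193) (nat_lit 532) (nat_lit 192412193) (nat_lit 258) (nat_lit 1) (nat_lit 250) (nat_lit 1) (nat_lit 257) (nat_lit 1) (nat_lit 346) (nat_lit 430) (nat_lit 364)) (XT.nd (nat_lit 78) (nat_lit 532) (nat_lit 0) (XT.lf (nat_lit 76) (nat_lit 2240759487) (nat_lit 0) (nat_lit 1544195992) (nat_lit 608) (nat_lit 2240759487) (nat_lit 251) (nat_lit 1) (nat_lit 250) (nat_lit 1) (nat_lit 258) (nat_lit 1) (nat_lit 347) (nat_lit 430) (nat_lit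 363)) (XT.lf (nat_lit 608) (nat_lit 3287085689) (nat_lit 0) (nat_lit 1345397403) (nat_lit 532) (nat_lit 1345397403) (nat_lit 251) (nat_lit 1) (nat_lit 243) (nat_lit 1) (nat_lit 250) (nat_lit 1) (nat_lit 348) (nat_lit 430) (nat_lit 362))))))))
noncomputable def ec186 : XT := (XT.nd (nat_lit 1404) (nat_lit 3876) (nat_lit 0) (XT.nd (nat_lit 702) (nat_lit 2584) (nat_lit 0) (XT.nd (nat_lit 312) (nat_lit 1444) (nat_lit 0) (XT.nd (nat_lit 156) (nat_lit 608) (nat_lit 0) (XT.nd (nat_lit 78) (nat_lit 456) (nat_lit 0) (XT.lf (nat_lit 76) (nat_lit 1047151942) (nat_lit 0) (nat_lit 3836253232) (nat_lit 608) (nat_lit 1047151942) (nat_lit 244) (nat_lit 1) (nat_lit 243) (nat_lit 1) (nat_lit 251) (nat_lit 1) (nat_lit 349) (nat_lit 430) (nat_lit 361)) (XT.lf (nat_lit 532) (nat_lit 899671449) (nat_lit 0) (nat_lit 2491997661) (nat_lit 456) (nat_lit 2491997661) (nat_lit 244) (nat_lit 1) (nat_lit 237) (nat_lit 1) (nat_lit 243) (nat_lit 1) (nat_lit 350) (nat_lit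 430) (nat_lit 360))) (XT.nd (nat_lit 78) (nat_lit 0) (nat_lit 0) (XT.lf (nat_lit 608) (nat_lit 5561837428) (nat_lit 0) (nat_lit 137834642) (nat_lit 532) (nat_lit 137834642) (nat_lit 237) (nat_lit 1) (nat_lit 229) (nat_lit 1) (nat_lit 236) (nat_lit 1) (nat_lit 351) (nat_lit 430) (nat_lit 359)) (XT.lf (nat_lit 76) (nat_lit 2169453864) (nat_lit 0) (nat_lit 1452507267) (nat_lit 608) (nat_lit 2169453864) (nat_lit 230) (nat_lit 1) (nat_lit 229) (nat_lit 1) (nat_lit 237) (nat_lit 1) (nat_lit 352) (nat_lit 430) (nat_lit 358)))) (XT.nd (nat_lit 156) (nat_lit 988) (nat_lit 0) (XT.nd (nat_lit 78) (nat_lit 0) (nat_lit 0) (XT.lf (nat_lit 532) (nat_lit 3130401074) (nat_lit 0) (nat_lit 1307819295) (nat_lit 456) (nat_lit 1307819295) (nat_lit 230) (nat_lit 1) (nat_lit 223) (nat_lit 1) (nat_lit 229) (nat_lit 1) (nat_lit 353) (nat_lit 430) (nat_lit 357)) (XT.lf (nat_lit 76) (nat_lit 962429747) (nat_lit 0) (nat_lit 3776288059) (nat_lit 532) (nat_lit 962429747)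 (nat_lit 224) (nat_lit 1) (nat_lit 223) (nat_lit 1) (nat_lit 230) (nat_lit 1) (nat_lit 354) (nat_lit 430) (nat_lit 356))) (XT.nd (nat_lit 78) (nat_lit 532) (nat_lit 0) (XT.lf (nat_lit 532) (nat_lit 718111987) (nat_lit 0) (nat_lit 2469268279) (nat_lit 456) (nat_lit 2469268279) (nat_lit 224) (nat_lit 1) (nat_lit 217) (nat_lit 1) (nat_lit 223) (nat_lit 1) (nat_lit 355) (nat_lit 430) (nat_lit 355)) (XT.nd (nat_lit 78) (nat_lit 0) (nat_lit 0) (XT.lf (nat_lit 532) (nat_lit 5146167225) (nat_lit 0) (nat_lit 233319594) (nat_lit 456) (nat_lit 233319594) (nat_lit 217) (nat_lit 1) (nat_lit 210) (nat_lit 1) (nat_lit 216) (nat_lit 1) (nat_lit 356) (nat_lit 430) (nat_lit 354)) (XT.lf (nat_lit 76) (nat_lit 1958362741) (nat_lit 0) (nat_lit 1652338782) (nat_lit 532) (nat_lit 1958362741) (nat_lit 211) (nat_lit 1) (nat_lit 210) (nat_lit 1) (nat_lit 217) (nat_lit 1) (nat_lit 357) (nat_lit 430) (nat_lit 353)))))) (XT.nd (nat_lit 312) (nat_lit 1216) (nat_lit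 0) (XT.nd (nat_lit 156) (nat_lit 912) (nat_lit 0) (XT.nd (nat_lit 78) (nat_lit 0) (nat_lit 0) (XT.lf (nat_lit 532) (nat_lit 2700519791) (nat_lit 0) (nat_lit 1412723432) (nat_lit 456) (nat_lit 1412723432) (nat_lit 211) (nat_lit 1) (nat_lit 204) (nat_lit 1) (nat_lit 210) (nat_lit 1) (nat_lit 358) (nat_lit 430) (nat_lit 352)) (XT.lf (nat_lit 76) (nat_lit 745138516) (nat_lit 0) (nat_lit 3993086392) (nat_lit 532) (nat_lit 745138516) (nat_lit 205) (nat_lit 1) (nat_lit 204) (nat_lit 1) (nat_lit 211) (nat_lit 1) (nat_lit 359) (nat_lit 430) (nat_lit 351))) (XT.nd (nat_lit 78) (nat_lit 532) (nat_lit 0) (XT.lf (nat_lit 456) (nat_lit 277494219) (nat_lit 0) (nat_lit 2581793114) (nat_lit 380) (nat_lit 2581793114) (nat_lit 205) (nat_lit 1) (nat_lit 199) (nat_lit 1) (nat_lit 204) (nat_lit 1) (nat_lit 360) (nat_lit 430) (nat_lit 350)) (XT.lf (nat_lit 532) (nat_lit 4492015128) (nat_lit 0) (nat_lit 453668695) (nat_lit 456) (nat_lit 453668695) (nat_lit 199)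 (nat_lit 1) (nat_lit 192) (nat_lit 1) (nat_lit 198) (nat_lit 1) (nat_lit 361) (nat_lit 430) (nat_lit 349)))) (XT.nd (nat_lit 156) (nat_lit 836) (nat_lit 0) (XT.nd (nat_lit 78) (nat_lit 380) (nat_lit 0) (XT.lf (nat_lit 76) (nat_lit 1631645014) (nat_lit 0) (nat_lit 2094534125) (nat_lit 532) (nat_lit 1631645014) (nat_lit 193) (nat_lit 1) (nat_lit 192) (nat_lit 1) (nat_lit 199) (nat_lit 1) (nat_lit 362) (nat_lit 430) (nat_lit 348)) (XT.lf (nat_lit 456) (nat_lit 2044877748) (nat_lit 0) (nat_lit 1635981065) (nat_lit 380) (nat_lit 1635981065) (nat_lit 193) (nat_lit 1) (nat_lit 187) (nat_lit 1) (nat_lit 192) (nat_lit 1) (nat_lit 363) (nat_lit 430) (nat_lit 347))) (XT.nd (nat_lit 78) (nat_lit 836) (nat_lit 0) (XT.lf (nat_lit 76) (nat_lit 418406834) (nat_lit 0) (nat_lit 4439580013) (nat_lit 456) (nat_lit 418406834) (nat_lit 188) (nat_lit 1) (nat_lit 187) (nat_lit 1) (nat_lit 193) (nat_lit 1) (nat_lit 364) (nat_lit 430) (nat_lit 346)) (XT.nd (nat_lit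 78) (nat_lit 380) (nat_lit 0) (XT.lf (nat_lit 76) (nat_lit 2432144846) (nat_lit 0) (nat_lit 371829228) (nat_lit 456) (nat_lit 2432144846) (nat_lit 182) (nat_lit 1) (nat_lit 181) (nat_lit 1) (nat_lit 187) (nat_lit 1) (nat_lit 365) (nat_lit 430) (nat_lit 345)) (XT.lf (nat_lit 456) (nat_lit 3642597997) (nat_lit 0) (nat_lit 776887060) (nat_lit 380) (nat_lit 776887060) (nat_lit 182) (nat_lit 1) (nat_lit 176) (nat_lit 1) (nat_lit 181) (nat_lit 1) (nat_lit 366) (nat_lit 430) (nat_lit 344))))))) (XT.nd (nat_lit 702) (nat_lit 1976) (nat_lit 0) (XT.nd (nat_lit 312) (nat_lit 1140) (nat_lit 0) (XT.nd (nat_lit 156) (nat_lit 380) (nat_lit 0) (XT.nd (nat_lit 78) (nat_lit 380) (nat_lit 0) (XT.lf (nat_lit 76) (nat_lit 1210368937) (nat_lit 0) (nat_lit 2736193784) (nat_lit 456) (nat_lit 1210368937) (nat_lit 177) (nat_lit 1) (nat_lit 176) (nat_lit 1) (nat_lit 182) (nat_lit 1) (nat_lit 367) (nat_lit 430) (nat_lit 343)) (XT.lf (nat_lit 456) (nat_lit 1204834519)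 (nat_lit 0) (nat_lit 1956538528) (nat_lit 380) (nat_lit 1956538528) (nat_lit 177) (nat_lit 1) (nat_lit 171) (nat_lit 1) (nat_lit 176) (nat_lit 1) (nat_lit 368) (nat_lit 430) (nat_lit 342))) (XT.nd (nat_lit 78) (nat_lit 380) (nat_lit 0) (XT.lf (nat_lit 76) (nat_lit 2396684) (nat_lit 0) (nat_lit 5074706773) (nat_lit 456) (nat_lit 2396684) (nat_lit 172) (nat_lit 1) (nat_lit 171) (nat_lit 1) (nat_lit 177) (nat_lit 1) (nat_lit 369) (nat_lit 430) (nat_lit 341)) (XT.lf (nat_lit 76) (nat_lit 1925866058) (nat_lit 0) (nat_lit 1189298637) (nat_lit 380) (nat_lit 1925866058) (nat_lit 167) (nat_lit 1) (nat_lit 166) (nat_lit 1) (nat_lit 171) (nat_lit 1) (nat_lit 370) (nat_lit 430) (nat_lit 340)))) (XT.nd (nat_lit 156) (nat_lit 760) (nat_lit 0) (XT.nd (nat_lit 78) (nat_lit 0) (nat_lit 0) (XT.lf (nat_lit 456) (nat_lit 2635543953) (nat_lit 0) (nat_lit 1183808536) (nat_lit 380) (nat_lit 1183808536) (nat_lit 167) (nat_lit 1) (nat_lit 161) (nat_lit 1) (nat_lit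 166) (nat_lit 1) (nat_lit 371) (nat_lit 430) (nat_lit 339)) (XT.lf (nat_lit 76) (nat_lit 712874340) (nat_lit 0) (nat_lit 3539942926) (nat_lit 456) (nat_lit 712874340) (nat_lit 162) (nat_lit 1) (nat_lit 161) (nat_lit 1) (nat_lit 167) (nat_lit 1) (nat_lit 372) (nat_lit 430) (nat_lit 338))) (XT.nd (nat_lit 78) (nat_lit 456) (nat_lit 0) (XT.lf (nat_lit 380) (nat_lit 216385787) (nat_lit 0) (nat_lit 2356057223) (nat_lit 304) (nat_lit 2356057223) (nat_lit 162) (nat_lit 1) (nat_lit 157) (nat_lit 1) (nat_lit 161) (nat_lit 1) (nat_lit 373) (nat_lit 430) (nat_lit 337)) (XT.nd (nat_lit 78) (nat_lit 0) (nat_lit 0) (XT.lf (nat_lit 456) (nat_lit 3927446102) (nat_lit 0) (nat_lit 482155480) (nat_lit 380) (nat_lit 482155480) (nat_lit 157) (nat_lit 1) (nat_lit 151) (nat_lit 1) (nat_lit 156) (nat_lit 1) (nat_lit 374) (nat_lit 430) (nat_lit 336)) (XT.lf (nat_lit 76) (nat_lit 1355311360) (nat_lit 0) (nat_lit 2144574085) (nat_lit 456) (nat_lit 1355311360) (nat_lit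 152) (nat_lit 1) (nat_lit 151) (nat_lit 1) (nat_lit 157) (nat_lit 1) (nat_lit 375) (nat_lit 430) (nat_lit 335)))))) (XT.nd (nat_lit 312) (nat_lit 988) (nat_lit 0) (XT.nd (nat_lit 156) (nat_lit 684) (nat_lit 0) (XT.nd (nat_lit 78) (nat_lit 0) (nat_lit 0) (XT.lf (nat_lit 380) (nat_lit 1503549581) (nat_lit 0) (nat_lit 1657763594) (nat_lit 304) (nat_lit 1657763594) (nat_lit 152) (nat_lit 1) (nat_lit 147) (nat_lit 1) (nat_lit 151) (nat_lit 1) (nat_lit 376) (nat_lit 430) (nat_lit 334)) (XT.lf (nat_lit 76) (nat_lit 155093630) (nat_lit 0) (nat_lit 4473282467) (nat_lit 380) (nat_lit 155093630) (nat_lit 148) (nat_lit 1) (nat_lit 147) (nat_lit 1) (nat_lit 152) (nat_lit 1) (nat_lit 377) (nat_lit 430) (nat_lit 333))) (XT.nd (nat_lit 78) (nat_lit 304) (nat_lit 0) (XT.lf (nat_lit 76) (nat_lit 1935162575) (nat_lit 0) (nat_lit 877543200) (nat_lit 380) (nat_lit 1935162575) (nat_lit 143) (nat_lit 1) (nat_lit 142) (nat_lit 1) (nat_lit 147) (nat_lit 1) (nat_lit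 378) (nat_lit 430) (nat_lit 332)) (XT.lf (nat_lit 380) (nat_lit 2667128346) (nat_lit 0) (nat_lit 1022822122) (nat_lit 304) (nat_lit 1022822122) (nat_lit 143) (nat_lit 1) (nat_lit 138) (nat_lit 1) (nat_lit 142) (nat_lit 1) (nat_lit 379) (nat_lit 430) (nat_lit 331)))) (XT.nd (nat_lit 156) (nat_lit 684) (nat_lit 0) (XT.nd (nat_lit 78) (nat_lit 304) (nat_lit 0) (XT.lf (nat_lit 76) (nat_lit 734930267) (nat_lit 0) (nat_lit 3208158115) (nat_lit 380) (nat_lit 734930267) (nat_lit 139) (nat_lit 1) (nat_lit 138) (nat_lit 1) (nat_lit 143) (nat_lit 1) (nat_lit 380) (nat_lit 430) (nat_lit 330)) (XT.lf (nat_lit 380) (nat_lit 274962260) (nat_lit 0) (nat_lit 2184285025) (nat_lit 304) (nat_lit 2184285025) (nat_lit 139) (nat_lit 1) (nat_lit 134) (nat_lit 1) (nat_lit 138) (nat_lit 1) (nat_lit 381) (nat_lit 430) (nat_lit 329))) (XT.nd (nat_lit 78) (nat_lit 304) (nat_lit 0) (XT.lf (nat_lit 380) (nat_lit 3717034855) (nat_lit 0) (nat_lit 446208764) (nat_lit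 304) (nat_lit 446208764) (nat_lit 134) (nat_lit 1) (nat_lit 129) (nat_lit 1) (nat_lit 133) (nat_lit 1) (nat_lit 382) (nat_lit 430) (nat_lit 328)) (XT.nd (nat_lit 78) (nat_lit 304) (nat_lit 0) (XT.lf (nat_lit 76) (nat_lit 1259008756) (nat_lit 0) (nat_lit 2057505504) (nat_lit 380) (nat_lit 1259008756) (nat_lit 130) (nat_lit 1) (nat_lit 129) (nat_lit 1) (nat_lit 134) (nat_lit 1) (nat_lit 383) (nat_lit 430) (nat_lit 327)) (XT.lf (nat_lit 380) (nat_lit 1328974095) (nat_lit 0) (nat_lit 1606509710) (nat_lit 304) (nat_lit 1606509710) (nat_lit 130) (nat_lit 1) (nat_lit 125) (nat_lit 1) (nat_lit 129) (nat_lit 1) (nat_lit 384) (nat_lit 430) (nat_lit 326))))))))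
noncomputable def ec187 : XT := (XT.nd (nat_lit 1404) (nat_lit 3040) (nat_lit 0) (XT.nd (nat_lit 702) (nat_lit 1292) (nat_lit 0) (XT.nd (nat_lit 312) (nat_lit 1216) (nat_lit 0) (XT.nd (nat_lit 156) (nat_lit 304) (nat_lit 0) (XT.nd (nat_lit 78) (nat_lit 304) (nat_lit 0) (XT.lf (nat_lit 76) (nat_lit 77222050) (nat_lit 0) (nat_lit 4354504784) (nat_lit 380) (nat_lit 77222050) (nat_lit 126) (nat_lit 1) (nat_lit 125) (nat_lit 1) (nat_lit 130) (nat_lit 1) (nat_lit 385) (nat_lit 430) (nat_lit 325)) (XT.lf (nat_lit 76) (nat_lit 1731802805) (nat_lit 0) (nat_lit 1012251659) (nat_lit 304) (nat_lit 1731802805) (nat_lit 122) (nat_lit 1) (nat_lit 121) (nat_lit 1) (nat_lit 125) (nat_lit 1) (nat_lit 386) (nat_lit 430) (nat_lit 324))) (XT.nd (nat_lit 78) (nat_lit 0) (nat_lit 0) (XT.lf (nat_lit 380) (nat_lit 2281640628) (nat_lit 0) (nat_lit 1080801923) (nat_lit 304) (nat_lit 1080801923) (nat_lit 122) (nat_lit 1) (nat_lit 117) (nat_lit 1) (nat_lit 121) (nat_lit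 1) (nat_lit 387) (nat_lit 430) (nat_lit 323)) (XT.lf (nat_lit 76) (nat_lit 553870613) (nat_lit 0) (nat_lit 3303233641) (nat_lit 380) (nat_lit 553870613) (nat_lit 118) (nat_lit 1) (nat_lit 117) (nat_lit 1) (nat_lit 122) (nat_lit 1) (nat_lit 388) (nat_lit 430) (nat_lit 322)))) (XT.nd (nat_lit 156) (nat_lit 608) (nat_lit 0) (XT.nd (nat_lit 78) (nat_lit 304) (nat_lit 0) (XT.lf (nat_lit 76) (nat_lit 2157440967) (nat_lit 0) (nat_lit 64021526) (nat_lit 304) (nat_lit 2157440967) (nat_lit 114) (nat_lit 1) (nat_lit 113) (nat_lit 1) (nat_lit 117) (nat_lit 1) (nat_lit 389) (nat_lit 430) (nat_lit 321)) (XT.lf (nat_lit 380) (nat_lit 3141093051) (nat_lit 0) (nat_lit 603038301) (nat_lit 304) (nat_lit 603038301) (nat_lit 114) (nat_lit 1) (nat_lit 109) (nat_lit 1) (nat_lit 113) (nat_lit 1) (nat_lit 390) (nat_lit 430) (nat_lit 320))) (XT.nd (nat_lit 78) (nat_lit 608) (nat_lit 0) (XT.lf (nat_lit 76) (nat_lit 984758847) (nat_lit 0) (nat_lit 2346132500) (nat_lit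 380) (nat_lit 984758847) (nat_lit 110) (nat_lit 1) (nat_lit 109) (nat_lit 1) (nat_lit 114) (nat_lit 1) (nat_lit 391) (nat_lit 430) (nat_lit 319)) (XT.nd (nat_lit 78) (nat_lit 380) (nat_lit 0) (XT.lf (nat_lit 304) (nat_lit 805479323) (nat_lit 0) (nat_lit 1739483397) (nat_lit 228) (nat_lit 1739483397) (nat_lit 110) (nat_lit 1) (nat_lit 106) (nat_lit 1) (nat_lit 109) (nat_lit 1) (nat_lit 392) (nat_lit 430) (nat_lit 318)) (XT.lf (nat_lit 380) (nat_lit 3914835225) (nat_lit 0) (nat_lit 169412595) (nat_lit 304) (nat_lit 169412595) (nat_lit 106) (nat_lit 1) (nat_lit 101) (nat_lit 1) (nat_lit 105) (nat_lit 1) (nat_lit 393) (nat_lit 430) (nat_lit 317)))))) (XT.nd (nat_lit 312) (nat_lit 760) (nat_lit 0) (XT.nd (nat_lit 156) (nat_lit 304) (nat_lit 0) (XT.nd (nat_lit 78) (nat_lit 228) (nat_lit 0) (XT.lf (nat_lit 76) (nat_lit 1373557129) (nat_lit 0) (nat_lit 1475753200) (nat_lit 380) (nat_lit 1373557129) (nat_lit 102) (nat_lit 1) (nat_lit 101) (nat_lit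 1) (nat_lit 106) (nat_lit 1) (nat_lit 394) (nat_lit 430) (nat_lit 316)) (XT.lf (nat_lit 304) (nat_lit 1592580877) (nat_lit 0) (nat_lit 1299953518) (nat_lit 228) (nat_lit 1299953518) (nat_lit 102) (nat_lit 1) (nat_lit 98) (nat_lit 1) (nat_lit 101) (nat_lit 1) (nat_lit 395) (nat_lit 430) (nat_lit 315))) (XT.nd (nat_lit 78) (nat_lit 304) (nat_lit 0) (XT.lf (nat_lit 76) (nat_lit 225069256) (nat_lit 0) (nat_lit 3712358730) (nat_lit 304) (nat_lit 225069256) (nat_lit 99) (nat_lit 1) (nat_lit 98) (nat_lit 1) (nat_lit 102) (nat_lit 1) (nat_lit 396) (nat_lit 430) (nat_lit 314)) (XT.lf (nat_lit 76) (nat_lit 1723652678) (nat_lit 0) (nat_lit 685220218) (nat_lit 304) (nat_lit 1723652678) (nat_lit 95) (nat_lit 1) (nat_lit 94) (nat_lit 1) (nat_lit 98) (nat_lit 1) (nat_lit 397) (nat_lit 430) (nat_lit 313)))) (XT.nd (nat_lit 156) (nat_lit 532) (nat_lit 0) (XT.nd (nat_lit 78) (nat_lit 0) (nat_lit 0) (XT.lf (nat_lit 304) (nat_lit 2303104919) (nat_lit 0)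 (nat_lit 899916638) (nat_lit 228) (nat_lit 899916638) (nat_lit 95) (nat_lit 1) (nat_lit 91) (nat_lit 1) (nat_lit 94) (nat_lit 1) (nat_lit 398) (nat_lit 430) (nat_lit 312)) (XT.lf (nat_lit 76) (nat_lit 583043717) (nat_lit 0) (nat_lit 2907544463) (nat_lit 304) (nat_lit 583043717) (nat_lit 92) (nat_lit 1) (nat_lit 91) (nat_lit 1) (nat_lit 95) (nat_lit 1) (nat_lit 399) (nat_lit 430) (nat_lit 311))) (XT.nd (nat_lit 78) (nat_lit 304) (nat_lit 0) (XT.lf (nat_lit 304) (nat_lit 32235828) (nat_lit 0) (nat_lit 2006144667) (nat_lit 228) (nat_lit 2006144667) (nat_lit 92) (nat_lit 1) (nat_lit 88) (nat_lit 1) (nat_lit 91) (nat_lit 1) (nat_lit 400) (nat_lit 430) (nat_lit 310)) (XT.nd (nat_lit 78) (nat_lit 0) (nat_lit 0) (XT.lf (nat_lit 304) (nat_lit 2943209378) (nat_lit 0) (nat_lit 536247132) (nat_lit 228) (nat_lit 536247132) (nat_lit 88) (nat_lit 1) (nat_lit 84) (nat_lit 1) (nat_lit 87) (nat_lit 1) (nat_lit 401) (nat_lit 430) (nat_lit 309)) (XT.lf (nat_lit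 76) (nat_lit 906401599) (nat_lit 0) (nat_lit 2174257762) (nat_lit 304) (nat_lit 906401599) (nat_lit 85) (nat_lit 1) (nat_lit 84) (nat_lit 1) (nat_lit 88) (nat_lit 1) (nat_lit 402) (nat_lit 430) (nat_lit 308))))))) (XT.nd (nat_lit 702) (nat_lit 1596) (nat_lit 0) (XT.nd (nat_lit 312) (nat_lit 684) (nat_lit 0) (XT.nd (nat_lit 156) (nat_lit 228) (nat_lit 0) (XT.nd (nat_lit 78) (nat_lit 304) (nat_lit 0) (XT.lf (nat_lit 304) (nat_lit 690257519) (nat_lit 0) (nat_lit 1634220952) (nat_lit 228) (nat_lit 1634220952) (nat_lit 85) (nat_lit 1) (nat_lit 81) (nat_lit 1) (nat_lit 84) (nat_lit 1) (nat_lit 403) (nat_lit 430) (nat_lit 307)) (XT.lf (nat_lit 304) (nat_lit 3518576827) (nat_lit 0) (nat_lit 206059717) (nat_lit 228) (nat_lit 206059717) (nat_lit 81) (nat_lit 1) (nat_lit 77) (nat_lit 1) (nat_lit 80) (nat_lit 1) (nat_lit 404) (nat_lit 430) (nat_lit 306))) (XT.nd (nat_lit 78) (nat_lit 228) (nat_lit 0) (XT.lf (nat_lit 76) (nat_lit 1197923332) (nat_lit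 0) (nat_lit 1506850744) (nat_lit 304) (nat_lit 1197923332) (nat_lit 78) (nat_lit 1) (nat_lit 77) (nat_lit 1) (nat_lit 81) (nat_lit 1) (nat_lit 405) (nat_lit 430) (nat_lit 305)) (XT.lf (nat_lit 304) (nat_lit 1285217327) (nat_lit 0) (nat_lit 1294917921) (nat_lit 228) (nat_lit 1294917921) (nat_lit 78) (nat_lit 1) (nat_lit 74) (nat_lit 1) (nat_lit 77) (nat_lit 1) (nat_lit 406) (nat_lit 430) (nat_lit 304)))) (XT.nd (nat_lit 156) (nat_lit 456) (nat_lit 0) (XT.nd (nat_lit 78) (nat_lit 228) (nat_lit 0) (XT.lf (nat_lit 76) (nat_lit 93926831) (nat_lit 0) (nat_lit 3659930424) (nat_lit 304) (nat_lit 93926831) (nat_lit 75) (nat_lit 1) (nat_lit 74) (nat_lit 1) (nat_lit 78) (nat_lit 1) (nat_lit 407) (nat_lit 430) (nat_lit 303)) (XT.lf (nat_lit 76) (nat_lit 1460174776) (nat_lit 0) (nat_lit 900109574) (nat_lit 228) (nat_lit 1460174776) (nat_lit 72) (nat_lit 1) (nat_lit 71) (nat_lit 1) (nat_lit 74) (nat_lit 1) (nat_lit 408) (nat_lit 430) (nat_lit 302)))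 (XT.nd (nat_lit 78) (nat_lit 228) (nat_lit 0) (XT.lf (nat_lit 304) (nat_lit 1822171634) (nat_lit 0) (nat_lit 985667106) (nat_lit 228) (nat_lit 985667106) (nat_lit 72) (nat_lit 1) (nat_lit 68) (nat_lit 1) (nat_lit 71) (nat_lit 1) (nat_lit 409) (nat_lit 430) (nat_lit 301)) (XT.nd (nat_lit 78) (nat_lit 228) (nat_lit 0) (XT.lf (nat_lit 76) (nat_lit 366729627) (nat_lit 0) (nat_lit 3033385194) (nat_lit 304) (nat_lit 366729627) (nat_lit 69) (nat_lit 1) (nat_lit 68) (nat_lit 1) (nat_lit 72) (nat_lit 1) (nat_lit 410) (nat_lit 430) (nat_lit 300)) (XT.lf (nat_lit 76) (nat_lit 1695523616) (nat_lit 0) (nat_lit 349221336) (nat_lit 228) (nat_lit 1695523616) (nat_lit 66) (nat_lit 1) (nat_lit 65) (nat_lit 1) (nat_lit 68) (nat_lit 1) (nat_lit 411) (nat_lit 430) (nat_lit 299)))))) (XT.nd (nat_lit 390) (nat_lit 912) (nat_lit 0) (XT.nd (nat_lit 156) (nat_lit 456) (nat_lit 0) (XT.nd (nat_lit 78) (nat_lit 0) (nat_lit 0) (XT.lf (nat_lit 304) (nat_lit 2305786778)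 (nat_lit 0) (nat_lit 704097291) (nat_lit 228) (nat_lit 704097291) (nat_lit 66) (nat_lit 1) (nat_lit 62) (nat_lit 1) (nat_lit 65) (nat_lit 1) (nat_lit 412) (nat_lit 430) (nat_lit 298)) (XT.lf (nat_lit 76) (nat_lit 613267914) (nat_lit 0) (nat_lit 2461374343) (nat_lit 304) (nat_lit 613267914) (nat_lit 63) (nat_lit 1) (nat_lit 62) (nat_lit 1) (nat_lit 66) (nat_lit 1) (nat_lit 413) (nat_lit 430) (nat_lit 297))) (XT.nd (nat_lit 78) (nat_lit 304) (nat_lit 0) (XT.lf (nat_lit 228) (nat_lit 152253411) (nat_lit 0) (nat_lit 1754889629) (nat_lit 152) (nat_lit 1754889629) (nat_lit 63) (nat_lit 1) (nat_lit 60) (nat_lit 1) (nat_lit 62) (nat_lit 1) (nat_lit 414) (nat_lit 430) (nat_lit 296)) (XT.nd (nat_lit 78) (nat_lit 0) (nat_lit 0) (XT.lf (nat_lit 304) (nat_lit 2740368852) (nat_lit 0) (nat_lit 448019456) (nat_lit 228) (nat_lit 448019456) (nat_lit 60) (nat_lit 1) (nat_lit 56) (nat_lit 1) (nat_lit 59) (nat_lit 1) (nat_lit 415) (nat_lit 430) (nat_lit 295))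 (XT.lf (nat_lit 76) (nat_lit 835649489) (nat_lit 0) (nat_lit 1939611102) (nat_lit 304) (nat_lit 835649489) (nat_lit 57) (nat_lit 1) (nat_lit 56) (nat_lit 1) (nat_lit 60) (nat_lit 1) (nat_lit 416) (nat_lit 430) (nat_lit 294))))) (XT.nd (nat_lit 156) (nat_lit 456) (nat_lit 0) (XT.nd (nat_lit 78) (nat_lit 304) (nat_lit 0) (XT.lf (nat_lit 228) (nat_lit 610430659) (nat_lit 0) (nat_lit 1487615741) (nat_lit 152) (nat_lit 1487615741) (nat_lit 57) (nat_lit 1) (nat_lit 54) (nat_lit 1) (nat_lit 56) (nat_lit 1) (nat_lit 417) (nat_lit 430) (nat_lit 293)) (XT.lf (nat_lit 304) (nat_lit 3129891232) (nat_lit 0) (nat_lit 215412877) (nat_lit 228) (nat_lit 215412877) (nat_lit 54) (nat_lit 1) (nat_lit 50) (nat_lit 1) (nat_lit 53) (nat_lit 1) (nat_lit 418) (nat_lit 430) (nat_lit 292))) (XT.nd (nat_lit 78) (nat_lit 456) (nat_lit 0) (XT.lf (nat_lit 76) (nat_lit 1035819518) (nat_lit 0) (nat_lit 1464137779) (nat_lit 304) (nat_lit 1035819518) (nat_lit 51) (nat_lit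 1) (nat_lit 50) (nat_lit 1) (nat_lit 54) (nat_lit 1) (nat_lit 419) (nat_lit 430) (nat_lit 291)) (XT.nd (nat_lit 78) (nat_lit 304) (nat_lit 0) (XT.lf (nat_lit 228) (nat_lit 1024504398) (nat_lit 0) (nat_lit 1243316198) (nat_lit 152) (nat_lit 1243316198) (nat_lit 51) (nat_lit 1) (nat_lit 48) (nat_lit 1) (nat_lit 50) (nat_lit 1) (nat_lit 420) (nat_lit 430) (nat_lit 290)) (XT.lf (nat_lit 304) (nat_lit 3478020015) (nat_lit 0) (nat_lit 4412272) (nat_lit 228) (nat_lit 4412272) (nat_lit 48) (nat_lit 1) (nat_lit 44) (nat_lit 1) (nat_lit 47) (nat_lit 1) (nat_lit 421) (nat_lit 430) (nat_lit 289))))))))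
noncomputable def ec188 : XT := (XT.nd (nat_lit 49452) (nat_lit 0) (nat_lit 29184) (XT.nd (nat_lit 48750) (nat_lit 0) (nat_lit 35264) (XT.nd (nat_lit 312) (nat_lit 152) (nat_lit 0) (XT.nd (nat_lit 156) (nat_lit 228) (nat_lit 0) (XT.nd (nat_lit 78) (nat_lit 152) (nat_lit 0) (XT.lf (nat_lit 76) (nat_lit 1215572967) (nat_lit 0) (nat_lit 1031300651) (nat_lit 304) (nat_lit 1215572967) (nat_lit 45) (nat_lit 1) (nat_lit 44) (nat_lit 1) (nat_lit 48) (nat_lit 1) (nat_lit 422) (nat_lit 430) (nat_lit 288)) (XT.lf (nat_lit 228) (nat_lit 1398013923) (nat_lit 0) (nat_lit 1020190021) (nat_lit 152) (nat_lit 1020190021) (nat_lit 45) (nat_lit 1) (nat_lit 42) (nat_lit 1) (nat_lit 44) (nat_lit 1) (nat_lit 423) (nat_lit 430) (nat_lit 287))) (XT.nd (nat_lit 78) (nat_lit 228) (nat_lit 0) (XT.lf (nat_lit 76) (nat_lit 187940515) (nat_lit 0) (nat_lit 3038750398) (nat_lit 228) (nat_lit 187940515) (nat_lit 43) (nat_lit 1) (nat_lit 42) (nat_lit 1) (nat_lit 45) (nat_lit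 1) (nat_lit 424) (nat_lit 430) (nat_lit 286)) (XT.lf (nat_lit 76) (nat_lit 1376566077) (nat_lit 0) (nat_lit 637726763) (nat_lit 228) (nat_lit 1376566077) (nat_lit 40) (nat_lit 1) (nat_lit 39) (nat_lit 1) (nat_lit 42) (nat_lit 1) (nat_lit 425) (nat_lit 430) (nat_lit 285)))) (XT.nd (nat_lit 48204) (nat_lit 0) (nat_lit 35112) (XT.nd (nat_lit 78) (nat_lit 0) (nat_lit 0) (XT.lf (nat_lit 228) (nat_lit 1734225455) (nat_lit 0) (nat_lit 816574394) (nat_lit 152) (nat_lit 816574394) (nat_lit 40) (nat_lit 1) (nat_lit 37) (nat_lit 1) (nat_lit 39) (nat_lit 1) (nat_lit 426) (nat_lit 430) (nat_lit 284)) (XT.lf (nat_lit 76) (nat_lit 361906190) (nat_lit 0) (nat_lit 2620312475) (nat_lit 228) (nat_lit 361906190) (nat_lit 38) (nat_lit 1) (nat_lit 37) (nat_lit 1) (nat_lit 40) (nat_lit 1) (nat_lit 427) (nat_lit 430) (nat_lit 283))) (XT.nd (nat_lit 78) (nat_lit 0) (nat_lit 76) (XT.lf (nat_lit 1900) (nat_lit 6620649046) (nat_lit 76) (nat_lit 1993691446) (nat_lit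 0) (nat_lit 1993691446) (nat_lit 524) (nat_lit 1) (nat_lit 500) (nat_lit 1) (nat_lit 499) (nat_lit 1) (nat_lit 283) (nat_lit 431) (nat_lit 426)) (XT.nd (nat_lit 78) (nat_lit 0) (nat_lit 0) (XT.lf (nat_lit 1900) (nat_lit 3181094932) (nat_lit 0) (nat_lit 4143128186) (nat_lit 1824) (nat_lit 3181094932) (nat_lit 525) (nat_lit 1) (nat_lit 500) (nat_lit 1) (nat_lit 524) (nat_lit 1) (nat_lit 284) (nat_lit 431) (nat_lit 425)) (XT.lf (nat_lit 1900) (nat_lit 6081541086) (nat_lit 76) (nat_lit 2161271307) (nat_lit 0) (nat_lit 2161271307) (nat_lit 525) (nat_lit 1) (nat_lit 501) (nat_lit 1) (nat_lit 500) (nat_lit 1) (nat_lit 285) (nat_lit 431) (nat_lit 424)))))) (XT.nd (nat_lit 312) (nat_lit 0) (nat_lit 152) (XT.nd (nat_lit 156) (nat_lit 0) (nat_lit 76) (XT.nd (nat_lit 78) (nat_lit 0) (nat_lit 0) (XT.lf (nat_lit 1900) (nat_lit 2883060059) (nat_lit 0) (nat_lit 4537924511) (nat_lit 1824) (nat_lit 2883060059) (nat_lit 526) (nat_lit 1) (nat_lit 501) (nat_lit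 1) (nat_lit 525) (nat_lit 1) (nat_lit 286) (nat_lit 431) (nat_lit 423)) (XT.lf (nat_lit 1900) (nat_lit 5427029111) (nat_lit 76) (nat_lit 2389176306) (nat_lit 0) (nat_lit 2389176306) (nat_lit 526) (nat_lit 1) (nat_lit 502) (nat_lit 1) (nat_lit 501) (nat_lit 1) (nat_lit 287) (nat_lit 431) (nat_lit 422))) (XT.nd (nat_lit 78) (nat_lit 0) (nat_lit 0) (XT.lf (nat_lit 1900) (nat_lit 2529323178) (nat_lit 0) (nat_lit 5049302310) (nat_lit 1824) (nat_lit 2529323178) (nat_lit 527) (nat_lit 1) (nat_lit 502) (nat_lit 1) (nat_lit 526) (nat_lit 1) (nat_lit 288) (nat_lit 431) (nat_lit 421)) (XT.lf (nat_lit 1900) (nat_lit 4664267697) (nat_lit 76) (nat_lit 2673753504) (nat_lit 0) (nat_lit 2673753504) (nat_lit 527) (nat_lit 1) (nat_lit 503) (nat_lit 1) (nat_lit 502) (nat_lit 1) (nat_lit 289) (nat_lit 431) (nat_lit 420)))) (XT.nd (nat_lit 156) (nat_lit 0) (nat_lit 76) (XT.nd (nat_lit 78) (nat_lit 0) (nat_lit 0) (XT.lf (nat_lit 1900) (nat_lit 2123366382) (nat_lit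 0) (nat_lit 5670148074) (nat_lit 1824) (nat_lit 2123366382) (nat_lit 528) (nat_lit 1) (nat_lit 503) (nat_lit 1) (nat_lit 527) (nat_lit 1) (nat_lit 290) (nat_lit 431) (nat_lit 419)) (XT.lf (nat_lit 1900) (nat_lit 3800081184) (nat_lit 76) (nat_lit 3011517504) (nat_lit 0) (nat_lit 3011517504) (nat_lit 528) (nat_lit 1) (nat_lit 504) (nat_lit 1) (nat_lit 503) (nat_lit 1) (nat_lit 291) (nat_lit 431) (nat_lit 418))) (XT.nd (nat_lit 78) (nat_lit 0) (nat_lit 0) (XT.lf (nat_lit 1900) (nat_lit 1668510689) (nat_lit 0) (nat_lit 6393675238) (nat_lit 1824) (nat_lit 1668510689) (nat_lit 529) (nat_lit 1) (nat_lit 504) (nat_lit 1) (nat_lit 528) (nat_lit 1) (nat_lit 292) (nat_lit 431) (nat_lit 417)) (XT.nd (nat_lit 78) (nat_lit 0) (nat_lit 76) (XT.lf (nat_lit 1900) (nat_lit 2840977523) (nat_lit 76) (nat_lit 3399143443) (nat_lit 0) (nat_lit 3399143443) (nat_lit 529) (nat_lit 1) (nat_lit 505) (nat_lit 1) (nat_lit 504) (nat_lit 1) (nat_lit 293) (nat_lit 431)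 (nat_lit 416)) (XT.lf (nat_lit 1900) (nat_lit 1167922799) (nat_lit 0) (nat_lit 7213410485) (nat_lit 1824) (nat_lit 1167922799) (nat_lit 530) (nat_lit 1) (nat_lit 505) (nat_lit 1) (nat_lit 529) (nat_lit 1) (nat_lit 294) (nat_lit 431) (nat_lit 415))))))) (XT.nd (nat_lit 702) (nat_lit 4636) (nat_lit 0) (XT.nd (nat_lit 312) (nat_lit 1748) (nat_lit 0) (XT.nd (nat_lit 156) (nat_lit 0) (nat_lit 76) (XT.nd (nat_lit 78) (nat_lit 0) (nat_lit 76) (XT.lf (nat_lit 1900) (nat_lit 1793161572) (nat_lit 76) (nat_lit 3833460265) (nat_lit 0) (nat_lit 3833460265) (nat_lit 530) (nat_lit 1) (nat_lit 506) (nat_lit 1) (nat_lit 505) (nat_lit 1) (nat_lit 295) (nat_lit 431) (nat_lit 414)) (XT.lf (nat_lit 1900) (nat_lit 624621583) (nat_lit 0) (nat_lit 8123180616) (nat_lit 1824) (nat_lit 624621583) (nat_lit 531) (nat_lit 1) (nat_lit 506) (nat_lit 1) (nat_lit 530) (nat_lit 1) (nat_lit 296) (nat_lit 431) (nat_lit 413))) (XT.nd (nat_lit 78) (nat_lit 0) (nat_lit 76)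 (XT.lf (nat_lit 1900) (nat_lit 662547851) (nat_lit 76) (nat_lit 4311444260) (nat_lit 0) (nat_lit 4311444260) (nat_lit 531) (nat_lit 1) (nat_lit 507) (nat_lit 1) (nat_lit 506) (nat_lit 1) (nat_lit 297) (nat_lit 431) (nat_lit 412)) (XT.lf (nat_lit 1900) (nat_lit 41484315) (nat_lit 0) (nat_lit 9117099932) (nat_lit 1824) (nat_lit 41484315) (nat_lit 532) (nat_lit 1) (nat_lit 507) (nat_lit 1) (nat_lit 531) (nat_lit 1) (nat_lit 298) (nat_lit 431) (nat_lit 411)))) (XT.nd (nat_lit 156) (nat_lit 0) (nat_lit 76) (XT.nd (nat_lit 78) (nat_lit 0) (nat_lit 0) (XT.lf (nat_lit 1976) (nat_lit 4288525639) (nat_lit 0) (nat_lit 538076458) (nat_lit 1900) (nat_lit 4288525639) (nat_lit 508) (nat_lit 1) (nat_lit 482) (nat_lit 1) (nat_lit 507) (nat_lit 1) (nat_lit 299) (nat_lit 431) (nat_lit 410)) (XT.lf (nat_lit 1976) (nat_lit 7881882195) (nat_lit 76) (nat_lit 574939807) (nat_lit 0) (nat_lit 574939807) (nat_lit 508) (nat_lit 1) (nat_lit 483) (nat_lit 1) (nat_lit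 482) (nat_lit 1) (nat_lit 300) (nat_lit 431) (nat_lit 409))) (XT.nd (nat_lit 78) (nat_lit 0) (nat_lit 0) (XT.lf (nat_lit 1976) (nat_lit 3574072991) (nat_lit 0) (nat_lit 1800861038) (nat_lit 1900) (nat_lit 3574072991) (nat_lit 509) (nat_lit 1) (nat_lit 483) (nat_lit 1) (nat_lit 508) (nat_lit 1) (nat_lit 301) (nat_lit 431) (nat_lit 408)) (XT.nd (nat_lit 78) (nat_lit 0) (nat_lit 76) (XT.lf (nat_lit 1976) (nat_lit 6416948983) (nat_lit 76) (nat_lit 1225346790) (nat_lit 0) (nat_lit 1225346790) (nat_lit 509) (nat_lit 1) (nat_lit 484) (nat_lit 1) (nat_lit 483) (nat_lit 1) (nat_lit 302) (nat_lit 431) (nat_lit 407)) (XT.lf (nat_lit 76) (nat_lit 2828796415) (nat_lit 0) (nat_lit 3129447398) (nat_lit 1900) (nat_lit 2828796415) (nat_lit 485) (nat_lit 1) (nat_lit 484) (nat_lit 1) (nat_lit 509) (nat_lit 1) (nat_lit 303) (nat_lit 431) (nat_lit 406)))))) (XT.nd (nat_lit 312) (nat_lit 2736) (nat_lit 0) (XT.nd (nat_lit 156) (nat_lit 912) (nat_lit 0) (XT.nd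 (nat_lit 78) (nat_lit 0) (nat_lit 0) (XT.lf (nat_lit 1216) (nat_lit 4892537543) (nat_lit 0) (nat_lit 1907538545) (nat_lit 1140) (nat_lit 1907538545) (nat_lit 485) (nat_lit 1) (nat_lit 469) (nat_lit 1) (nat_lit 484) (nat_lit 1) (nat_lit 304) (nat_lit 431) (nat_lit 405)) (XT.lf (nat_lit 76) (nat_lit 2055041215) (nat_lit 0) (nat_lit 4519028664) (nat_lit 1216) (nat_lit 2055041215) (nat_lit 470) (nat_lit 1) (nat_lit 469) (nat_lit 1) (nat_lit 485) (nat_lit 1) (nat_lit 305) (nat_lit 431) (nat_lit 404))) (XT.nd (nat_lit 78) (nat_lit 0) (nat_lit 0) (XT.lf (nat_lit 988) (nat_lit 3313239122) (nat_lit 0) (nat_lit 2619162383) (nat_lit 912) (nat_lit 2619162383) (nat_lit 470) (nat_lit 1) (nat_lit 457) (nat_lit 1) (nat_lit 469) (nat_lit 1) (nat_lit 306) (nat_lit 431) (nat_lit 403)) (XT.lf (nat_lit 76) (nat_lit 1255039105) (nat_lit 0) (nat_lit 5965028770) (nat_lit 988) (nat_lit 1255039105) (nat_lit 458) (nat_lit 1) (nat_lit 457) (nat_lit 1) (nat_lit 470)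 (nat_lit 1) (nat_lit 307) (nat_lit 431) (nat_lit 402)))) (XT.nd (nat_lit 156) (nat_lit 1824) (nat_lit 0) (XT.nd (nat_lit 78) (nat_lit 0) (nat_lit 0) (XT.lf (nat_lit 988) (nat_lit 1683421944) (nat_lit 0) (nat_lit 3357978901) (nat_lit 912) (nat_lit 3357978901) (nat_lit 458) (nat_lit 1) (nat_lit 445) (nat_lit 1) (nat_lit 457) (nat_lit 1) (nat_lit 308) (nat_lit 431) (nat_lit 401)) (XT.lf (nat_lit 76) (nat_lit 430913066) (nat_lit 0) (nat_lit 7463092628) (nat_lit 988) (nat_lit 430913066) (nat_lit 446) (nat_lit 1) (nat_lit 445) (nat_lit 1) (nat_lit 458) (nat_lit 1) (nat_lit 309) (nat_lit 431) (nat_lit 400))) (XT.nd (nat_lit 78) (nat_lit 988) (nat_lit 0) (XT.lf (nat_lit 912) (nat_lit 7240750) (nat_lit 0) (nat_lit 4121857157) (nat_lit 836) (nat_lit 4121857157) (nat_lit 446) (nat_lit 1) (nat_lit 434) (nat_lit 1) (nat_lit 445) (nat_lit 1) (nat_lit 310) (nat_lit 431) (nat_lit 399)) (XT.nd (nat_lit 78) (nat_lit 0) (nat_lit 0) (XT.lf (nat_lit 988)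 (nat_lit 7353052953) (nat_lit 0) (nat_lit 412585648) (nat_lit 912) (nat_lit 412585648) (nat_lit 434) (nat_lit 1) (nat_lit 421) (nat_lit 1) (nat_lit 433) (nat_lit 1) (nat_lit 311) (nat_lit 431) (nat_lit 398)) (XT.lf (nat_lit 76) (nat_lit 3208527228) (nat_lit 0) (nat_lit 1688909336) (nat_lit 988) (nat_lit 3208527228) (nat_lit 422) (nat_lit 1) (nat_lit 421) (nat_lit 1) (nat_lit 434) (nat_lit 1) (nat_lit 312) (nat_lit 431) (nat_lit 397))))))))
noncomputable def ec189 : XT := (XT.nd (nat_lit 1404) (nat_lit 6992) (nat_lit 0) (XT.nd (nat_lit 702) (nat_lit 3572) (nat_lit 0) (XT.nd (nat_lit 312) (nat_lit 2356) (nat_lit 0) (XT.nd (nat_lit 156) (nat_lit 836) (nat_lit 0) (XT.nd (nat_lit 78) (nat_lit 0) (nat_lit 0) (XT.lf (nat_lit 912) (nat_lit 5488297624) (nat_lit 0) (nat_lit 1273302356) (nat_lit 836) (nat_lit 1273302356) (nat_lit 422) (nat_lit 1) (nat_lit 410) (nat_lit 1) (nat_lit 421) (nat_lit 1) (nat_lit 313) (nat_lit 431) (nat_lit 396)) (XT.lf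 (nat_lit 76) (nat_lit 2270702684) (nat_lit 0) (nat_lit 3423116201) (nat_lit 912) (nat_lit 2270702684) (nat_lit 411) (nat_lit 1) (nat_lit 410) (nat_lit 1) (nat_lit 422) (nat_lit 1) (nat_lit 314) (nat_lit 431) (nat_lit 395))) (XT.nd (nat_lit 78) (nat_lit 0) (nat_lit 0) (XT.lf (nat_lit 912) (nat_lit 3590559127) (nat_lit 0) (nat_lit 2152260056) (nat_lit 836) (nat_lit 2152260056) (nat_lit 411) (nat_lit 1) (nat_lit 399) (nat_lit 1) (nat_lit 410) (nat_lit 1) (nat_lit 315) (nat_lit 431) (nat_lit 394)) (XT.lf (nat_lit 76) (nat_lit 1317289196) (nat_lit 0) (nat_lit 5191953886) (nat_lit 912) (nat_lit 1317289196) (nat_lit 400) (nat_lit 1) (nat_lit 399) (nat_lit 1) (nat_lit 411) (nat_lit 1) (nat_lit 316) (nat_lit 431) (nat_lit 393)))) (XT.nd (nat_lit 156) (nat_lit 1596) (nat_lit 0) (XT.nd (nat_lit 78) (nat_lit 0) (nat_lit 0) (XT.lf (nat_lit 836) (nat_lit 1663184786) (nat_lit 0) (nat_lit 3047737416) (nat_lit 760) (nat_lit 3047737416) (nat_lit 400) (nat_lit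 1) (nat_lit 389) (nat_lit 1) (nat_lit 399) (nat_lit 1) (nat_lit 317) (nat_lit 431) (nat_lit 392)) (XT.lf (nat_lit 76) (nat_lit 349911822) (nat_lit 0) (nat_lit 6992078180) (nat_lit 836) (nat_lit 349911822) (nat_lit 390) (nat_lit 1) (nat_lit 389) (nat_lit 1) (nat_lit 400) (nat_lit 1) (nat_lit 318) (nat_lit 431) (nat_lit 391))) (XT.nd (nat_lit 78) (nat_lit 760) (nat_lit 0) (XT.lf (nat_lit 76) (nat_lit 3669338313) (nat_lit 0) (nat_lit 286836668) (nat_lit 836) (nat_lit 3669338313) (nat_lit 379) (nat_lit 1) (nat_lit 378) (nat_lit 1) (nat_lit 389) (nat_lit 1) (nat_lit 319) (nat_lit 431) (nat_lit 390)) (XT.nd (nat_lit 78) (nat_lit 0) (nat_lit 0) (XT.lf (nat_lit 836) (nat_lit 6308723760) (nat_lit 0) (nat_lit 625743478) (nat_lit 760) (nat_lit 625743478) (nat_lit 379) (nat_lit 1) (nat_lit 368) (nat_lit 1) (nat_lit 378) (nat_lit 1) (nat_lit 320) (nat_lit 431) (nat_lit 389)) (XT.lf (nat_lit 76) (nat_lit 2628593210) (nat_lit 0) (nat_lit 2238182951)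 (nat_lit 836) (nat_lit 2628593210) (nat_lit 369) (nat_lit 1) (nat_lit 368) (nat_lit 1) (nat_lit 379) (nat_lit 1) (nat_lit 321) (nat_lit 431) (nat_lit 388)))))) (XT.nd (nat_lit 312) (nat_lit 2128) (nat_lit 0) (XT.nd (nat_lit 156) (nat_lit 684) (nat_lit 0) (XT.nd (nat_lit 78) (nat_lit 0) (nat_lit 0) (XT.lf (nat_lit 836) (nat_lit 4211542572) (nat_lit 0) (nat_lit 1609984065) (nat_lit 760) (nat_lit 1609984065) (nat_lit 369) (nat_lit 1) (nat_lit 358) (nat_lit 1) (nat_lit 368) (nat_lit 1) (nat_lit 322) (nat_lit 431) (nat_lit 387)) (XT.lf (nat_lit 76) (nat_lit 1579255267) (nat_lit 0) (nat_lit 4209846749) (nat_lit 836) (nat_lit 1579255267) (nat_lit 359) (nat_lit 1) (nat_lit 358) (nat_lit 1) (nat_lit 369) (nat_lit 1) (nat_lit 323) (nat_lit 431) (nat_lit 386))) (XT.nd (nat_lit 78) (nat_lit 0) (nat_lit 0) (XT.lf (nat_lit 760) (nat_lit 2098429822) (nat_lit 0) (nat_lit 2603734638) (nat_lit 684) (nat_lit 2603734638) (nat_lit 359) (nat_lit 1) (nat_lit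 349) (nat_lit 1) (nat_lit 358) (nat_lit 1) (nat_lit 324) (nat_lit 431) (nat_lit 385)) (XT.lf (nat_lit 76) (nat_lit 522619060) (nat_lit 0) (nat_lit 6199154976) (nat_lit 760) (nat_lit 522619060) (nat_lit 350) (nat_lit 1) (nat_lit 349) (nat_lit 1) (nat_lit 359) (nat_lit 1) (nat_lit 325) (nat_lit 431) (nat_lit 384)))) (XT.nd (nat_lit 156) (nat_lit 684) (nat_lit 0) (XT.nd (nat_lit 78) (nat_lit 684) (nat_lit 0) (XT.lf (nat_lit 76) (nat_lit 3577785725) (nat_lit 0) (nat_lit 27718314) (nat_lit 760) (nat_lit 3577785725) (nat_lit 340) (nat_lit 1) (nat_lit 339) (nat_lit 1) (nat_lit 349) (nat_lit 1) (nat_lit 326) (nat_lit 431) (nat_lit 383)) (XT.lf (nat_lit 760) (nat_lit 6050040496) (nat_lit 0) (nat_lit 536536719) (nat_lit 684) (nat_lit 536536719) (nat_lit 340) (nat_lit 1) (nat_lit 330) (nat_lit 1) (nat_lit 339) (nat_lit 1) (nat_lit 327) (nat_lit 431) (nat_lit 382))) (XT.nd (nat_lit 78) (nat_lit 684) (nat_lit 0) (XT.lf (nat_lit 76) (nat_lit 2463060063)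 (nat_lit 0) (nat_lit 2137212280) (nat_lit 760) (nat_lit 2463060063) (nat_lit 331) (nat_lit 1) (nat_lit 330) (nat_lit 1) (nat_lit 340) (nat_lit 1) (nat_lit 328) (nat_lit 431) (nat_lit 381)) (XT.nd (nat_lit 78) (nat_lit 0) (nat_lit 0) (XT.lf (nat_lit 760) (nat_lit 3810176803) (nat_lit 0) (nat_lit 1597135281) (nat_lit 684) (nat_lit 1597135281) (nat_lit 331) (nat_lit 1) (nat_lit 321) (nat_lit 1) (nat_lit 330) (nat_lit 1) (nat_lit 329) (nat_lit 431) (nat_lit 380)) (XT.lf (nat_lit 76) (nat_lit 1345440881) (nat_lit 0) (nat_lit 4255340407) (nat_lit 760) (nat_lit 1345440881) (nat_lit 322) (nat_lit 1) (nat_lit 321) (nat_lit 1) (nat_lit 331) (nat_lit 1) (nat_lit 330) (nat_lit 431) (nat_lit 379))))))) (XT.nd (nat_lit 702) (nat_lit 3268) (nat_lit 0) (XT.nd (nat_lit 312) (nat_lit 1824) (nat_lit 0) (XT.nd (nat_lit 156) (nat_lit 1292) (nat_lit 0) (XT.nd (nat_lit 78) (nat_lit 0) (nat_lit 0) (XT.lf (nat_lit 684) (nat_lit 1565538023) (nat_lit 0) (nat_lit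 2661525843) (nat_lit 608) (nat_lit 2661525843) (nat_lit 322) (nat_lit 1) (nat_lit 313) (nat_lit 1) (nat_lit 321) (nat_lit 1) (nat_lit 331) (nat_lit 431) (nat_lit 378)) (XT.lf (nat_lit 76) (nat_lit 225946023) (nat_lit 0) (nat_lit 6379991962) (nat_lit 684) (nat_lit 225946023) (nat_lit 314) (nat_lit 1) (nat_lit 313) (nat_lit 1) (nat_lit 322) (nat_lit 1) (nat_lit 332) (nat_lit 431) (nat_lit 377))) (XT.nd (nat_lit 78) (nat_lit 608) (nat_lit 0) (XT.lf (nat_lit 76) (nat_lit 3051215193) (nat_lit 0) (nat_lit 672948238) (nat_lit 684) (nat_lit 3051215193) (nat_lit 305) (nat_lit 1) (nat_lit 304) (nat_lit 1) (nat_lit 313) (nat_lit 1) (nat_lit 333) (nat_lit 431) (nat_lit 376)) (XT.lf (nat_lit 684) (nat_lit 4942620304) (nat_lit 0) (nat_lit 888579316) (nat_lit 608) (nat_lit 888579316) (nat_lit 305) (nat_lit 1) (nat_lit 296) (nat_lit 1) (nat_lit 304) (nat_lit 1) (nat_lit 334) (nat_lit 431) (nat_lit 375)))) (XT.nd (nat_lit 156) (nat_lit 1216) (nat_lit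 0) (XT.nd (nat_lit 78) (nat_lit 608) (nat_lit 0) (XT.lf (nat_lit 76) (nat_lit 1886409505) (nat_lit 0) (nat_lit 2891808611) (nat_lit 684) (nat_lit 1886409505) (nat_lit 297) (nat_lit 1) (nat_lit 296) (nat_lit 1) (nat_lit 305) (nat_lit 1) (nat_lit 335) (nat_lit 431) (nat_lit 374)) (XT.lf (nat_lit 684) (nat_lit 2606929941) (nat_lit 0) (nat_lit 2001627362) (nat_lit 608) (nat_lit 2001627362) (nat_lit 297) (nat_lit 1) (nat_lit 288) (nat_lit 1) (nat_lit 296) (nat_lit 1) (nat_lit 336) (nat_lit 431) (nat_lit 373))) (XT.nd (nat_lit 78) (nat_lit 1216) (nat_lit 0) (XT.lf (nat_lit 76) (nat_lit 723318502) (nat_lit 0) (nat_lit 5109833696) (nat_lit 684) (nat_lit 723318502) (nat_lit 289) (nat_lit 1) (nat_lit 288) (nat_lit 1) (nat_lit 297) (nat_lit 1) (nat_lit 337) (nat_lit 431) (nat_lit 372)) (XT.nd (nat_lit 78) (nat_lit 684) (nat_lit 0) (XT.lf (nat_lit 608) (nat_lit 275477583) (nat_lit 0) (nat_lit 3113836602) (nat_lit 532) (nat_lit 3113836602) (nat_lit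 289) (nat_lit 1) (nat_lit 281) (nat_lit 1) (nat_lit 288) (nat_lit 1) (nat_lit 338) (nat_lit 431) (nat_lit 371)) (XT.lf (nat_lit 684) (nat_lit 5581823989) (nat_lit 0) (nat_lit 434394357) (nat_lit 608) (nat_lit 434394357) (nat_lit 281) (nat_lit 1) (nat_lit 272) (nat_lit 1) (nat_lit 280) (nat_lit 1) (nat_lit 339) (nat_lit 431) (nat_lit 370)))))) (XT.nd (nat_lit 390) (nat_lit 1596) (nat_lit 0) (XT.nd (nat_lit 156) (nat_lit 1140) (nat_lit 0) (XT.nd (nat_lit 78) (nat_lit 532) (nat_lit 0) (XT.lf (nat_lit 76) (nat_lit 2187513832) (nat_lit 0) (nat_lit 2023317226) (nat_lit 684) (nat_lit 2187513832) (nat_lit 273) (nat_lit 1) (nat_lit 272) (nat_lit 1) (nat_lit 281) (nat_lit 1) (nat_lit 340) (nat_lit 431) (nat_lit 369)) (XT.lf (nat_lit 608) (nat_lit 3178582715) (nat_lit 0) (nat_lit 1584129108) (nat_lit 532) (nat_lit 1584129108) (nat_lit 273) (nat_lit 1) (nat_lit 265) (nat_lit 1) (nat_lit 272) (nat_lit 1) (nat_lit 341) (nat_lit 431) (nat_lit 368)))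 (XT.nd (nat_lit 78) (nat_lit 1140) (nat_lit 0) (XT.lf (nat_lit 76) (nat_lit 992273626) (nat_lit 0) (nat_lit 4311386850) (nat_lit 608) (nat_lit 992273626) (nat_lit 266) (nat_lit 1) (nat_lit 265) (nat_lit 1) (nat_lit 273) (nat_lit 1) (nat_lit 342) (nat_lit 431) (nat_lit 367)) (XT.nd (nat_lit 78) (nat_lit 608) (nat_lit 0) (XT.lf (nat_lit 608) (nat_lit 785559865) (nat_lit 0) (nat_lit 2729954709) (nat_lit 532) (nat_lit 2729954709) (nat_lit 266) (nat_lit 1) (nat_lit 258) (nat_lit 1) (nat_lit 265) (nat_lit 1) (nat_lit 343) (nat_lit 431) (nat_lit 366)) (XT.lf (nat_lit 608) (nat_lit 5803268131) (nat_lit 0) (nat_lit 196260436) (nat_lit 532) (nat_lit 196260436) (nat_lit 258) (nat_lit 1) (nat_lit 250) (nat_lit 1) (nat_lit 257) (nat_lit 1) (nat_lit 344) (nat_lit 431) (nat_lit 365))))) (XT.nd (nat_lit 156) (nat_lit 1064) (nat_lit 0) (XT.nd (nat_lit 78) (nat_lit 532) (nat_lit 0) (XT.lf (nat_lit 76) (nat_lit 2285574677) (nat_lit 0) (nat_lit 1575079912)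 (nat_lit 608) (nat_lit 2285574677) (nat_lit 251) (nat_lit 1) (nat_lit 250) (nat_lit 1) (nat_lit 258) (nat_lit 1) (nat_lit 345) (nat_lit 431) (nat_lit 364)) (XT.lf (nat_lit 608) (nat_lit 3352827403) (nat_lit 0) (nat_lit 1372305351) (nat_lit 532) (nat_lit 1372305351) (nat_lit 251) (nat_lit 1) (nat_lit 243) (nat_lit 1) (nat_lit 250) (nat_lit 1) (nat_lit 346) (nat_lit 431) (nat_lit 363))) (XT.nd (nat_lit 78) (nat_lit 1064) (nat_lit 0) (XT.lf (nat_lit 76) (nat_lit 1068094980) (nat_lit 0) (nat_lit 3912978296) (nat_lit 608) (nat_lit 1068094980) (nat_lit 244) (nat_lit 1) (nat_lit 243) (nat_lit 1) (nat_lit 251) (nat_lit 1) (nat_lit 347) (nat_lit 431) (nat_lit 362)) (XT.nd (nat_lit 78) (nat_lit 608) (nat_lit 0) (XT.lf (nat_lit 532) (nat_lit 917664878) (nat_lit 0) (nat_lit 2541837615) (nat_lit 456) (nat_lit 2541837615) (nat_lit 244) (nat_lit 1) (nat_lit 237) (nat_lit 1) (nat_lit 243) (nat_lit 1) (nat_lit 348) (nat_lit 431) (nat_lit 361)) (XT.lf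 (nat_lit 608) (nat_lit 5673074177) (nat_lit 0) (nat_lit 140591335) (nat_lit 532) (nat_lit 140591335) (nat_lit 237) (nat_lit 1) (nat_lit 229) (nat_lit 1) (nat_lit 236) (nat_lit 1) (nat_lit 349) (nat_lit 431) (nat_lit 360))))))))
noncomputable def ec190 : XT := (XT.nd (nat_lit 1404) (nat_lit 4104) (nat_lit 0) (XT.nd (nat_lit 702) (nat_lit 2128) (nat_lit 0) (XT.nd (nat_lit 312) (nat_lit 1368) (nat_lit 0) (XT.nd (nat_lit 156) (nat_lit 456) (nat_lit 0) (XT.nd (nat_lit 78) (nat_lit 456) (nat_lit 0) (XT.lf (nat_lit 76) (nat_lit 2212842941) (nat_lit 0) (nat_lit 1481557412) (nat_lit 608) (nat_lit 2212842941) (nat_lit 230) (nat_lit 1) (nat_lit 229) (nat_lit 1) (nat_lit 237) (nat_lit 1) (nat_lit 350) (nat_lit 431) (nat_lit 359)) (XT.lf (nat_lit 532) (nat_lit 3193009096) (nat_lit 0) (nat_lit 1333975681) (nat_lit 456) (nat_lit 1333975681) (nat_lit 230) (nat_lit 1) (nat_lit 223) (nat_lit 1) (nat_lit 229) (nat_lit 1) (nat_lit 351) (nat_lit 431) (nat_lit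 358))) (XT.nd (nat_lit 78) (nat_lit 456) (nat_lit 0) (XT.lf (nat_lit 76) (nat_lit 981678342) (nat_lit 0) (nat_lit 3851813820) (nat_lit 532) (nat_lit 981678342) (nat_lit 224) (nat_lit 1) (nat_lit 223) (nat_lit 1) (nat_lit 230) (nat_lit 1) (nat_lit 352) (nat_lit 431) (nat_lit 357)) (XT.lf (nat_lit 532) (nat_lit 732474226) (nat_lit 0) (nat_lit 2518653644) (nat_lit 456) (nat_lit 2518653644) (nat_lit 224) (nat_lit 1) (nat_lit 217) (nat_lit 1) (nat_lit 223) (nat_lit 1) (nat_lit 353) (nat_lit 431) (nat_lit 356)))) (XT.nd (nat_lit 156) (nat_lit 836) (nat_lit 0) (XT.nd (nat_lit 78) (nat_lit 0) (nat_lit 0) (XT.lf (nat_lit 532) (nat_lit 5249090570) (nat_lit 0) (nat_lit 237985986) (nat_lit 456) (nat_lit 237985986) (nat_lit 217) (nat_lit 1) (nat_lit 210) (nat_lit 1) (nat_lit 216) (nat_lit 1) (nat_lit 354) (nat_lit 431) (nat_lit 355)) (XT.lf (nat_lit 76) (nat_lit 1997529996) (nat_lit 0) (nat_lit 1685385558) (nat_lit 532) (nat_lit 1997529996) (nat_lit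 211) (nat_lit 1) (nat_lit 210) (nat_lit 1) (nat_lit 217) (nat_lit 1) (nat_lit 355) (nat_lit 431) (nat_lit 354))) (XT.nd (nat_lit 78) (nat_lit 380) (nat_lit 0) (XT.lf (nat_lit 532) (nat_lit 2754530187) (nat_lit 0) (nat_lit 1440977900) (nat_lit 456) (nat_lit 1440977900) (nat_lit 211) (nat_lit 1) (nat_lit 204) (nat_lit 1) (nat_lit 210) (nat_lit 1) (nat_lit 356) (nat_lit 431) (nat_lit 353)) (XT.nd (nat_lit 78) (nat_lit 380) (nat_lit 0) (XT.lf (nat_lit 76) (nat_lit 760041286) (nat_lit 0) (nat_lit 4072948120) (nat_lit 532) (nat_lit 760041286) (nat_lit 205) (nat_lit 1) (nat_lit 204) (nat_lit 1) (nat_lit 211) (nat_lit 1) (nat_lit 357) (nat_lit 431) (nat_lit 352)) (XT.lf (nat_lit 456) (nat_lit 283044104) (nat_lit 0) (nat_lit 2633428977) (nat_lit 380) (nat_lit 2633428977) (nat_lit 205) (nat_lit 1) (nat_lit 199) (nat_lit 1) (nat_lit 204) (nat_lit 1) (nat_lit 358) (nat_lit 431) (nat_lit 351)))))) (XT.nd (nat_lit 312) (nat_lit 1216) (nat_lit 0) (XT.nd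 (nat_lit 156) (nat_lit 380) (nat_lit 0) (XT.nd (nat_lit 78) (nat_lit 0) (nat_lit 0) (XT.lf (nat_lit 532) (nat_lit 4581855431) (nat_lit 0) (nat_lit 462742069) (nat_lit 456) (nat_lit 462742069) (nat_lit 199) (nat_lit 1) (nat_lit 192) (nat_lit 1) (nat_lit 198) (nat_lit 1) (nat_lit 359) (nat_lit 431) (nat_lit 350)) (XT.lf (nat_lit 76) (nat_lit 1664277914) (nat_lit 0) (nat_lit 2136424808) (nat_lit 532) (nat_lit 1664277914) (nat_lit 193) (nat_lit 1) (nat_lit 192) (nat_lit 1) (nat_lit 199) (nat_lit 1) (nat_lit 360) (nat_lit 431) (nat_lit 349))) (XT.nd (nat_lit 78) (nat_lit 0) (nat_lit 0) (XT.lf (nat_lit 456) (nat_lit 2085775303) (nat_lit 0) (nat_lit 1668700686) (nat_lit 380) (nat_lit 1668700686) (nat_lit 193) (nat_lit 1) (nat_lit 187) (nat_lit 1) (nat_lit 192) (nat_lit 1) (nat_lit 361) (nat_lit 431) (nat_lit 348)) (XT.lf (nat_lit 76) (nat_lit 426774971) (nat_lit 0) (nat_lit 4528371613) (nat_lit 456) (nat_lit 426774971) (nat_lit 188) (nat_lit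 1) (nat_lit 187) (nat_lit 1) (nat_lit 193) (nat_lit 1) (nat_lit 362) (nat_lit 431) (nat_lit 347)))) (XT.nd (nat_lit 156) (nat_lit 380) (nat_lit 0) (XT.nd (nat_lit 78) (nat_lit 380) (nat_lit 0) (XT.lf (nat_lit 76) (nat_lit 2480787743) (nat_lit 0) (nat_lit 379265813) (nat_lit 456) (nat_lit 2480787743) (nat_lit 182) (nat_lit 1) (nat_lit 181) (nat_lit 1) (nat_lit 187) (nat_lit 1) (nat_lit 363) (nat_lit 431) (nat_lit 346)) (XT.lf (nat_lit 456) (nat_lit 3715449957) (nat_lit 0) (nat_lit 792424801) (nat_lit 380) (nat_lit 792424801) (nat_lit 182) (nat_lit 1) (nat_lit 176) (nat_lit 1) (nat_lit 181) (nat_lit 1) (nat_lit 364) (nat_lit 431) (nat_lit 345))) (XT.nd (nat_lit 78) (nat_lit 380) (nat_lit 0) (XT.lf (nat_lit 76) (nat_lit 1234576316) (nat_lit 0) (nat_lit 2790917660) (nat_lit 456) (nat_lit 1234576316) (nat_lit 177) (nat_lit 1) (nat_lit 176) (nat_lit 1) (nat_lit 182) (nat_lit 1) (nat_lit 365) (nat_lit 431) (nat_lit 344)) (XT.nd (nat_lit 78)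 (nat_lit 0) (nat_lit 0) (XT.lf (nat_lit 456) (nat_lit 1228931209) (nat_lit 0) (nat_lit 1995669299) (nat_lit 380) (nat_lit 1995669299) (nat_lit 177) (nat_lit 1) (nat_lit 171) (nat_lit 1) (nat_lit 176) (nat_lit 1) (nat_lit 366) (nat_lit 431) (nat_lit 343)) (XT.lf (nat_lit 76) (nat_lit 2444618) (nat_lit 0) (nat_lit 5176200908) (nat_lit 456) (nat_lit 2444618) (nat_lit 172) (nat_lit 1) (nat_lit 171) (nat_lit 1) (nat_lit 177) (nat_lit 1) (nat_lit 367) (nat_lit 431) (nat_lit 342))))))) (XT.nd (nat_lit 702) (nat_lit 1900) (nat_lit 0) (XT.nd (nat_lit 312) (nat_lit 1140) (nat_lit 0) (XT.nd (nat_lit 156) (nat_lit 304) (nat_lit 0) (XT.nd (nat_lit 78) (nat_lit 380) (nat_lit 0) (XT.lf (nat_lit 76) (nat_lit 1964383380) (nat_lit 0) (nat_lit 1213084610) (nat_lit 380) (nat_lit 1964383380) (nat_lit 167) (nat_lit 1) (nat_lit 166) (nat_lit 1) (nat_lit 171) (nat_lit 1) (nat_lit 368) (nat_lit 431) (nat_lit 341)) (XT.lf (nat_lit 456) (nat_lit 2688254832) (nat_lit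 0) (nat_lit 1207484707) (nat_lit 380) (nat_lit 1207484707) (nat_lit 167) (nat_lit 1) (nat_lit 161) (nat_lit 1) (nat_lit 166) (nat_lit 1) (nat_lit 369) (nat_lit 431) (nat_lit 340))) (XT.nd (nat_lit 78) (nat_lit 304) (nat_lit 0) (XT.lf (nat_lit 76) (nat_lit 727131827) (nat_lit 0) (nat_lit 3610741784) (nat_lit 456) (nat_lit 727131827) (nat_lit 162) (nat_lit 1) (nat_lit 161) (nat_lit 1) (nat_lit 167) (nat_lit 1) (nat_lit 370) (nat_lit 431) (nat_lit 339)) (XT.lf (nat_lit 380) (nat_lit 220713503) (nat_lit 0) (nat_lit 2403178367) (nat_lit 304) (nat_lit 2403178367) (nat_lit 162) (nat_lit 1) (nat_lit 157) (nat_lit 1) (nat_lit 161) (nat_lit 1) (nat_lit 371) (nat_lit 431) (nat_lit 338)))) (XT.nd (nat_lit 156) (nat_lit 684) (nat_lit 0) (XT.nd (nat_lit 78) (nat_lit 0) (nat_lit 0) (XT.lf (nat_lit 456) (nat_lit 4005995024) (nat_lit 0) (nat_lit 491798590) (nat_lit 380) (nat_lit 491798590) (nat_lit 157) (nat_lit 1) (nat_lit 151) (nat_lit 1) (nat_lit 156)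 (nat_lit 1) (nat_lit 372) (nat_lit 431) (nat_lit 337)) (XT.lf (nat_lit 76) (nat_lit 1382417587) (nat_lit 0) (nat_lit 2187465567) (nat_lit 456) (nat_lit 1382417587) (nat_lit 152) (nat_lit 1) (nat_lit 151) (nat_lit 1) (nat_lit 157) (nat_lit 1) (nat_lit 373) (nat_lit 431) (nat_lit 336))) (XT.nd (nat_lit 78) (nat_lit 380) (nat_lit 0) (XT.lf (nat_lit 380) (nat_lit 1533620573) (nat_lit 0) (nat_lit 1690918866) (nat_lit 304) (nat_lit 1690918866) (nat_lit 152) (nat_lit 1) (nat_lit 147) (nat_lit 1) (nat_lit 151) (nat_lit 1) (nat_lit 374) (nat_lit 431) (nat_lit 335)) (XT.nd (nat_lit 78) (nat_lit 380) (nat_lit 0) (XT.lf (nat_lit 76) (nat_lit 158195503) (nat_lit 0) (nat_lit 4562748117) (nat_lit 380) (nat_lit 158195503) (nat_lit 148) (nat_lit 1) (nat_lit 147) (nat_lit 1) (nat_lit 152) (nat_lit 1) (nat_lit 375) (nat_lit 431) (nat_lit 334)) (XT.lf (nat_lit 76) (nat_lit 1973865826) (nat_lit 0) (nat_lit 895094064) (nat_lit 380) (nat_lit 1973865826) (nat_lit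 143) (nat_lit 1) (nat_lit 142) (nat_lit 1) (nat_lit 147) (nat_lit 1) (nat_lit 376) (nat_lit 431) (nat_lit 333)))))) (XT.nd (nat_lit 390) (nat_lit 912) (nat_lit 0) (XT.nd (nat_lit 156) (nat_lit 684) (nat_lit 0) (XT.nd (nat_lit 78) (nat_lit 0) (nat_lit 0) (XT.lf (nat_lit 380) (nat_lit 2720470913) (nat_lit 0) (nat_lit 1043278565) (nat_lit 304) (nat_lit 1043278565) (nat_lit 143) (nat_lit 1) (nat_lit 138) (nat_lit 1) (nat_lit 142) (nat_lit 1) (nat_lit 377) (nat_lit 431) (nat_lit 332)) (XT.lf (nat_lit 76) (nat_lit 749628873) (nat_lit 0) (nat_lit 3272321278) (nat_lit 380) (nat_lit 749628873) (nat_lit 139) (nat_lit 1) (nat_lit 138) (nat_lit 1) (nat_lit 143) (nat_lit 1) (nat_lit 378) (nat_lit 431) (nat_lit 331))) (XT.nd (nat_lit 78) (nat_lit 380) (nat_lit 0) (XT.lf (nat_lit 380) (nat_lit 280461505) (nat_lit 0) (nat_lit 2227970725) (nat_lit 304) (nat_lit 2227970725) (nat_lit 139) (nat_lit 1) (nat_lit 134) (nat_lit 1) (nat_lit 138) (nat_lit 1) (nat_lit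 379) (nat_lit 431) (nat_lit 330)) (XT.nd (nat_lit 78) (nat_lit 0) (nat_lit 0) (XT.lf (nat_lit 380) (nat_lit 3791375552) (nat_lit 0) (nat_lit 455132939) (nat_lit 304) (nat_lit 455132939) (nat_lit 134) (nat_lit 1) (nat_lit 129) (nat_lit 1) (nat_lit 133) (nat_lit 1) (nat_lit 380) (nat_lit 431) (nat_lit 329)) (XT.lf (nat_lit 76) (nat_lit 1284188932) (nat_lit 0) (nat_lit 2098655614) (nat_lit 380) (nat_lit 1284188932) (nat_lit 130) (nat_lit 1) (nat_lit 129) (nat_lit 1) (nat_lit 134) (nat_lit 1) (nat_lit 381) (nat_lit 431) (nat_lit 328))))) (XT.nd (nat_lit 156) (nat_lit 608) (nat_lit 0) (XT.nd (nat_lit 78) (nat_lit 0) (nat_lit 0) (XT.lf (nat_lit 380) (nat_lit 1355553577) (nat_lit 0) (nat_lit 1638639904) (nat_lit 304) (nat_lit 1638639904) (nat_lit 130) (nat_lit 1) (nat_lit 125) (nat_lit 1) (nat_lit 129) (nat_lit 1) (nat_lit 382) (nat_lit 431) (nat_lit 327)) (XT.lf (nat_lit 76) (nat_lit 78766491) (nat_lit 0) (nat_lit 4441594879) (nat_lit 380)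 (nat_lit 78766491) (nat_lit 126) (nat_lit 1) (nat_lit 125) (nat_lit 1) (nat_lit 130) (nat_lit 1) (nat_lit 383) (nat_lit 431) (nat_lit 326))) (XT.nd (nat_lit 78) (nat_lit 304) (nat_lit 0) (XT.lf (nat_lit 76) (nat_lit 1766438861) (nat_lit 0) (nat_lit 1032496692) (nat_lit 304) (nat_lit 1766438861) (nat_lit 122) (nat_lit 1) (nat_lit 121) (nat_lit 1) (nat_lit 125) (nat_lit 1) (nat_lit 384) (nat_lit 431) (nat_lit 325)) (XT.nd (nat_lit 78) (nat_lit 0) (nat_lit 0) (XT.lf (nat_lit 380) (nat_lit 2327273440) (nat_lit 0) (nat_lit 1102417961) (nat_lit 304) (nat_lit 1102417961) (nat_lit 122) (nat_lit 1) (nat_lit 117) (nat_lit 1) (nat_lit 121) (nat_lit 1) (nat_lit 385) (nat_lit 431) (nat_lit 324)) (XT.lf (nat_lit 76) (nat_lit 564948025) (nat_lit 0) (nat_lit 3369298314) (nat_lit 380) (nat_lit 564948025) (nat_lit 118) (nat_lit 1) (nat_lit 117) (nat_lit 1) (nat_lit 122) (nat_lit 1) (nat_lit 386) (nat_lit 431) (nat_lit 323))))))))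
noncomputable def ec191 : XT := (XT.nd (nat_lit 1404) (nat_lit 2660) (nat_lit 0) (XT.nd (nat_lit 702) (nat_lit 1520) (nat_lit 0) (XT.nd (nat_lit 312) (nat_lit 912) (nat_lit 0) (XT.nd (nat_lit 156) (nat_lit 228) (nat_lit 0) (XT.nd (nat_lit 78) (nat_lit 304) (nat_lit 0) (XT.lf (nat_lit 76) (nat_lit 2200589786) (nat_lit 0) (nat_lit 65301957) (nat_lit 304) (nat_lit 2200589786) (nat_lit 114) (nat_lit 1) (nat_lit 113) (nat_lit 1) (nat_lit 117) (nat_lit 1) (nat_lit 387) (nat_lit 431) (nat_lit 322)) (XT.lf (nat_lit 380) (nat_lit 3203914912) (nat_lit 0) (nat_lit 615099067) (nat_lit 304) (nat_lit 615099067) (nat_lit 114) (nat_lit 1) (nat_lit 109) (nat_lit 1) (nat_lit 113) (nat_lit 1) (nat_lit 388) (nat_lit 431) (nat_lit 321))) (XT.nd (nat_lit 78) (nat_lit 228) (nat_lit 0) (XT.lf (nat_lit 76) (nat_lit 1004454024) (nat_lit 0) (nat_lit 2393055150) (nat_lit 380) (nat_lit 1004454024) (nat_lit 110) (nat_lit 1) (nat_lit 109) (nat_lit 1) (nat_lit 114)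 (nat_lit 1) (nat_lit 389) (nat_lit 431) (nat_lit 320)) (XT.lf (nat_lit 304) (nat_lit 821588910) (nat_lit 0) (nat_lit 1774273065) (nat_lit 228) (nat_lit 1774273065) (nat_lit 110) (nat_lit 1) (nat_lit 106) (nat_lit 1) (nat_lit 109) (nat_lit 1) (nat_lit 390) (nat_lit 431) (nat_lit 319)))) (XT.nd (nat_lit 156) (nat_lit 532) (nat_lit 0) (XT.nd (nat_lit 78) (nat_lit 0) (nat_lit 0) (XT.lf (nat_lit 380) (nat_lit 3993131930) (nat_lit 0) (nat_lit 172800847) (nat_lit 304) (nat_lit 172800847) (nat_lit 106) (nat_lit 1) (nat_lit 101) (nat_lit 1) (nat_lit 105) (nat_lit 1) (nat_lit 391) (nat_lit 431) (nat_lit 318)) (XT.lf (nat_lit 76) (nat_lit 1401028271) (nat_lit 0) (nat_lit 1505268264) (nat_lit 380) (nat_lit 1401028271) (nat_lit 102) (nat_lit 1) (nat_lit 101) (nat_lit 1) (nat_lit 106) (nat_lit 1) (nat_lit 392) (nat_lit 431) (nat_lit 317))) (XT.nd (nat_lit 78) (nat_lit 304) (nat_lit 0) (XT.lf (nat_lit 304) (nat_lit 1624432494) (nat_lit 0) (nat_lit 1325952588)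 (nat_lit 228) (nat_lit 1325952588) (nat_lit 102) (nat_lit 1) (nat_lit 98) (nat_lit 1) (nat_lit 101) (nat_lit 1) (nat_lit 393) (nat_lit 431) (nat_lit 316)) (XT.nd (nat_lit 78) (nat_lit 304) (nat_lit 0) (XT.lf (nat_lit 76) (nat_lit 229570641) (nat_lit 0) (nat_lit 3786605905) (nat_lit 304) (nat_lit 229570641) (nat_lit 99) (nat_lit 1) (nat_lit 98) (nat_lit 1) (nat_lit 102) (nat_lit 1) (nat_lit 394) (nat_lit 431) (nat_lit 315)) (XT.lf (nat_lit 76) (nat_lit 1758125732) (nat_lit 0) (nat_lit 698924622) (nat_lit 304) (nat_lit 1758125732) (nat_lit 95) (nat_lit 1) (nat_lit 94) (nat_lit 1) (nat_lit 98) (nat_lit 1) (nat_lit 395) (nat_lit 431) (nat_lit 314)))))) (XT.nd (nat_lit 312) (nat_lit 760) (nat_lit 0) (XT.nd (nat_lit 156) (nat_lit 532) (nat_lit 0) (XT.nd (nat_lit 78) (nat_lit 0) (nat_lit 0) (XT.lf (nat_lit 304) (nat_lit 2349167018) (nat_lit 0) (nat_lit 917914971) (nat_lit 228) (nat_lit 917914971) (nat_lit 95) (nat_lit 1) (nat_lit 91) (nat_lit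 1) (nat_lit 94) (nat_lit 1) (nat_lit 396) (nat_lit 431) (nat_lit 313)) (XT.lf (nat_lit 76) (nat_lit 594704591) (nat_lit 0) (nat_lit 2965695353) (nat_lit 304) (nat_lit 594704591) (nat_lit 92) (nat_lit 1) (nat_lit 91) (nat_lit 1) (nat_lit 95) (nat_lit 1) (nat_lit 397) (nat_lit 431) (nat_lit 312))) (XT.nd (nat_lit 78) (nat_lit 304) (nat_lit 0) (XT.lf (nat_lit 304) (nat_lit 32880544) (nat_lit 0) (nat_lit 2046267560) (nat_lit 228) (nat_lit 2046267560) (nat_lit 92) (nat_lit 1) (nat_lit 88) (nat_lit 1) (nat_lit 91) (nat_lit 1) (nat_lit 398) (nat_lit 431) (nat_lit 311)) (XT.lf (nat_lit 304) (nat_lit 3002073565) (nat_lit 0) (nat_lit 546972075) (nat_lit 228) (nat_lit 546972075) (nat_lit 88) (nat_lit 1) (nat_lit 84) (nat_lit 1) (nat_lit 87) (nat_lit 1) (nat_lit 399) (nat_lit 431) (nat_lit 310)))) (XT.nd (nat_lit 156) (nat_lit 532) (nat_lit 0) (XT.nd (nat_lit 78) (nat_lit 228) (nat_lit 0) (XT.lf (nat_lit 76) (nat_lit 924529631) (nat_lit 0) (nat_lit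 2217742917) (nat_lit 304) (nat_lit 924529631) (nat_lit 85) (nat_lit 1) (nat_lit 84) (nat_lit 1) (nat_lit 88) (nat_lit 1) (nat_lit 400) (nat_lit 431) (nat_lit 309)) (XT.lf (nat_lit 304) (nat_lit 704062669) (nat_lit 0) (nat_lit 1666905371) (nat_lit 228) (nat_lit 1666905371) (nat_lit 85) (nat_lit 1) (nat_lit 81) (nat_lit 1) (nat_lit 84) (nat_lit 1) (nat_lit 401) (nat_lit 431) (nat_lit 308))) (XT.nd (nat_lit 78) (nat_lit 228) (nat_lit 0) (XT.lf (nat_lit 304) (nat_lit 3588948364) (nat_lit 0) (nat_lit 210180911) (nat_lit 228) (nat_lit 210180911) (nat_lit 81) (nat_lit 1) (nat_lit 77) (nat_lit 1) (nat_lit 80) (nat_lit 1) (nat_lit 402) (nat_lit 431) (nat_lit 307)) (XT.nd (nat_lit 78) (nat_lit 228) (nat_lit 0) (XT.lf (nat_lit 76) (nat_lit 1221881799) (nat_lit 0) (nat_lit 1536987759) (nat_lit 304) (nat_lit 1221881799) (nat_lit 78) (nat_lit 1) (nat_lit 77) (nat_lit 1) (nat_lit 81) (nat_lit 1) (nat_lit 403) (nat_lit 431) (nat_lit 306)) (XT.lf (nat_lit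 304) (nat_lit 1310921673) (nat_lit 0) (nat_lit 1320816280) (nat_lit 228) (nat_lit 1320816280) (nat_lit 78) (nat_lit 1) (nat_lit 74) (nat_lit 1) (nat_lit 77) (nat_lit 1) (nat_lit 404) (nat_lit 431) (nat_lit 305))))))) (XT.nd (nat_lit 702) (nat_lit 1292) (nat_lit 0) (XT.nd (nat_lit 312) (nat_lit 912) (nat_lit 0) (XT.nd (nat_lit 156) (nat_lit 228) (nat_lit 0) (XT.nd (nat_lit 78) (nat_lit 228) (nat_lit 0) (XT.lf (nat_lit 76) (nat_lit 95805367) (nat_lit 0) (nat_lit 3733129032) (nat_lit 304) (nat_lit 95805367) (nat_lit 75) (nat_lit 1) (nat_lit 74) (nat_lit 1) (nat_lit 78) (nat_lit 1) (nat_lit 405) (nat_lit 431) (nat_lit 304)) (XT.lf (nat_lit 76) (nat_lit 1489378272) (nat_lit 0) (nat_lit 918111766) (nat_lit 228) (nat_lit 1489378272) (nat_lit 72) (nat_lit 1) (nat_lit 71) (nat_lit 1) (nat_lit 74) (nat_lit 1) (nat_lit 406) (nat_lit 431) (nat_lit 303))) (XT.nd (nat_lit 78) (nat_lit 0) (nat_lit 0) (XT.lf (nat_lit 304) (nat_lit 1858615067) (nat_lit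 0) (nat_lit 1005380448) (nat_lit 228) (nat_lit 1005380448) (nat_lit 72) (nat_lit 1) (nat_lit 68) (nat_lit 1) (nat_lit 71) (nat_lit 1) (nat_lit 407) (nat_lit 431) (nat_lit 302)) (XT.lf (nat_lit 76) (nat_lit 374064220) (nat_lit 0) (nat_lit 3094052898) (nat_lit 304) (nat_lit 374064220) (nat_lit 69) (nat_lit 1) (nat_lit 68) (nat_lit 1) (nat_lit 72) (nat_lit 1) (nat_lit 408) (nat_lit 431) (nat_lit 301)))) (XT.nd (nat_lit 156) (nat_lit 456) (nat_lit 0) (XT.nd (nat_lit 78) (nat_lit 228) (nat_lit 0) (XT.lf (nat_lit 76) (nat_lit 1729434089) (nat_lit 0) (nat_lit 356205763) (nat_lit 228) (nat_lit 1729434089) (nat_lit 66) (nat_lit 1) (nat_lit 65) (nat_lit 1) (nat_lit 68) (nat_lit 1) (nat_lit 409) (nat_lit 431) (nat_lit 300)) (XT.lf (nat_lit 304) (nat_lit 2351902514) (nat_lit 0) (nat_lit 718179236) (nat_lit 228) (nat_lit 718179236) (nat_lit 66) (nat_lit 1) (nat_lit 62) (nat_lit 1) (nat_lit 65) (nat_lit 1) (nat_lit 410) (nat_lit 431) (nat_lit 299)))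 (XT.nd (nat_lit 78) (nat_lit 456) (nat_lit 0) (XT.lf (nat_lit 76) (nat_lit 625533273) (nat_lit 0) (nat_lit 2510601830) (nat_lit 304) (nat_lit 625533273) (nat_lit 63) (nat_lit 1) (nat_lit 62) (nat_lit 1) (nat_lit 66) (nat_lit 1) (nat_lit 411) (nat_lit 431) (nat_lit 298)) (XT.nd (nat_lit 78) (nat_lit 304) (nat_lit 0) (XT.lf (nat_lit 228) (nat_lit 155298479) (nat_lit 0) (nat_lit 1789987422) (nat_lit 152) (nat_lit 1789987422) (nat_lit 63) (nat_lit 1) (nat_lit 60) (nat_lit 1) (nat_lit 62) (nat_lit 1) (nat_lit 412) (nat_lit 431) (nat_lit 297)) (XT.lf (nat_lit 304) (nat_lit 2795176229) (nat_lit 0) (nat_lit 456979846) (nat_lit 228) (nat_lit 456979846) (nat_lit 60) (nat_lit 1) (nat_lit 56) (nat_lit 1) (nat_lit 59) (nat_lit 1) (nat_lit 413) (nat_lit 431) (nat_lit 296)))))) (XT.nd (nat_lit 390) (nat_lit 684) (nat_lit 0) (XT.nd (nat_lit 156) (nat_lit 456) (nat_lit 0) (XT.nd (nat_lit 78) (nat_lit 152) (nat_lit 0) (XT.lf (nat_lit 76) (nat_lit 852362478)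 (nat_lit 0) (nat_lit 1978403324) (nat_lit 304) (nat_lit 852362478) (nat_lit 57) (nat_lit 1) (nat_lit 56) (nat_lit 1) (nat_lit 60) (nat_lit 1) (nat_lit 414) (nat_lit 431) (nat_lit 295)) (XT.lf (nat_lit 228) (nat_lit 622639272) (nat_lit 0) (nat_lit 1517368056) (nat_lit 152) (nat_lit 1517368056) (nat_lit 57) (nat_lit 1) (nat_lit 54) (nat_lit 1) (nat_lit 56) (nat_lit 1) (nat_lit 415) (nat_lit 431) (nat_lit 294))) (XT.nd (nat_lit 78) (nat_lit 152) (nat_lit 0) (XT.lf (nat_lit 304) (nat_lit 3192489057) (nat_lit 0) (nat_lit 219721135) (nat_lit 228) (nat_lit 219721135) (nat_lit 54) (nat_lit 1) (nat_lit 50) (nat_lit 1) (nat_lit 53) (nat_lit 1) (nat_lit 416) (nat_lit 431) (nat_lit 293)) (XT.nd (nat_lit 78) (nat_lit 152) (nat_lit 0) (XT.lf (nat_lit 76) (nat_lit 1056535908) (nat_lit 0) (nat_lit 1493420535) (nat_lit 304) (nat_lit 1056535908) (nat_lit 51) (nat_lit 1) (nat_lit 50) (nat_lit 1) (nat_lit 54) (nat_lit 1) (nat_lit 417) (nat_lit 431) (nat_lit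 292)) (XT.lf (nat_lit 228) (nat_lit 1044994486) (nat_lit 0) (nat_lit 1268182522) (nat_lit 152) (nat_lit 1268182522) (nat_lit 51) (nat_lit 1) (nat_lit 48) (nat_lit 1) (nat_lit 50) (nat_lit 1) (nat_lit 418) (nat_lit 431) (nat_lit 291))))) (XT.nd (nat_lit 156) (nat_lit 380) (nat_lit 0) (XT.nd (nat_lit 78) (nat_lit 0) (nat_lit 0) (XT.lf (nat_lit 304) (nat_lit 3547580415) (nat_lit 0) (nat_lit 4500517) (nat_lit 228) (nat_lit 4500517) (nat_lit 48) (nat_lit 1) (nat_lit 44) (nat_lit 1) (nat_lit 47) (nat_lit 1) (nat_lit 419) (nat_lit 431) (nat_lit 290)) (XT.lf (nat_lit 76) (nat_lit 1239884426) (nat_lit 0) (nat_lit 1051926664) (nat_lit 304) (nat_lit 1239884426) (nat_lit 45) (nat_lit 1) (nat_lit 44) (nat_lit 1) (nat_lit 48) (nat_lit 1) (nat_lit 420) (nat_lit 431) (nat_lit 289))) (XT.nd (nat_lit 78) (nat_lit 228) (nat_lit 0) (XT.lf (nat_lit 228) (nat_lit 1425974201) (nat_lit 0) (nat_lit 1040593822) (nat_lit 152) (nat_lit 1040593822) (nat_lit 45) (nat_lit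 1) (nat_lit 42) (nat_lit 1) (nat_lit 44) (nat_lit 1) (nat_lit 421) (nat_lit 431) (nat_lit 288)) (XT.nd (nat_lit 78) (nat_lit 228) (nat_lit 0) (XT.lf (nat_lit 76) (nat_lit 191699326) (nat_lit 0) (nat_lit 3099525406) (nat_lit 228) (nat_lit 191699326) (nat_lit 43) (nat_lit 1) (nat_lit 42) (nat_lit 1) (nat_lit 45) (nat_lit 1) (nat_lit 422) (nat_lit 431) (nat_lit 287)) (XT.lf (nat_lit 76) (nat_lit 1404097399) (nat_lit 0) (nat_lit 650481298) (nat_lit 228) (nat_lit 1404097399) (nat_lit 40) (nat_lit 1) (nat_lit 39) (nat_lit 1) (nat_lit 42) (nat_lit 1) (nat_lit 423) (nat_lit 431) (nat_lit 286))))))))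
noncomputable def ec192 : XT := (XT.nd (nat_lit 49530) (nat_lit 0) (nat_lit 26980) (XT.nd (nat_lit 48828) (nat_lit 0) (nat_lit 34048) (XT.nd (nat_lit 48438) (nat_lit 0) (nat_lit 35492) (XT.nd (nat_lit 156) (nat_lit 228) (nat_lit 0) (XT.nd (nat_lit 78) (nat_lit 0) (nat_lit 0) (XT.lf (nat_lit 228) (nat_lit 1768909964) (nat_lit 0) (nat_lit 832905881) (nat_lit 152) (nat_lit 832905881) (nat_lit 40) (nat_lit 1) (nat_lit 37) (nat_lit 1) (nat_lit 39) (nat_lit 1) (nat_lit 424) (nat_lit 431) (nat_lit 285)) (XT.lf (nat_lit 76) (nat_lit 369144314) (nat_lit 0) (nat_lit 2672718725) (nat_lit 228) (nat_lit 369144314) (nat_lit 38) (nat_lit 1) (nat_lit 37) (nat_lit 1) (nat_lit 40) (nat_lit 1) (nat_lit 425) (nat_lit 431) (nat_lit 284))) (XT.nd (nat_lit 48204) (nat_lit 0) (nat_lit 35416) (XT.lf (nat_lit 76) (nat_lit 1550733512) (nat_lit 0) (nat_lit 285908546) (nat_lit 228) (nat_lit 1550733512) (nat_lit 35) (nat_lit 1) (nat_lit 34) (nat_lit 1) (nat_lit 37)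 (nat_lit 1) (nat_lit 426) (nat_lit 431) (nat_lit 283)) (XT.lf (nat_lit 1900) (nat_lit 6203171908) (nat_lit 76) (nat_lit 2204496733) (nat_lit 0) (nat_lit 2204496733) (nat_lit 525) (nat_lit 1) (nat_lit 501) (nat_lit 1) (nat_lit 500) (nat_lit 1) (nat_lit 283) (nat_lit 432) (nat_lit 425)))) (XT.nd (nat_lit 156) (nat_lit 0) (nat_lit 76) (XT.nd (nat_lit 78) (nat_lit 0) (nat_lit 0) (XT.lf (nat_lit 1900) (nat_lit 2940721261) (nat_lit 0) (nat_lit 4628683002) (nat_lit 1824) (nat_lit 2940721261) (nat_lit 526) (nat_lit 1) (nat_lit 501) (nat_lit 1) (nat_lit 525) (nat_lit 1) (nat_lit 284) (nat_lit 432) (nat_lit 424)) (XT.lf (nat_lit 1900) (nat_lit 5535569693) (nat_lit 76) (nat_lit 2436959832) (nat_lit 0) (nat_lit 2436959832) (nat_lit 526) (nat_lit 1) (nat_lit 502) (nat_lit 1) (nat_lit 501) (nat_lit 1) (nat_lit 285) (nat_lit 432) (nat_lit 423))) (XT.nd (nat_lit 78) (nat_lit 0) (nat_lit 0) (XT.lf (nat_lit 1900) (nat_lit 2579909641) (nat_lit 0) (nat_lit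 5150288357) (nat_lit 1824) (nat_lit 2579909641) (nat_lit 527) (nat_lit 1) (nat_lit 502) (nat_lit 1) (nat_lit 526) (nat_lit 1) (nat_lit 286) (nat_lit 432) (nat_lit 422)) (XT.nd (nat_lit 78) (nat_lit 0) (nat_lit 76) (XT.lf (nat_lit 1900) (nat_lit 4757553051) (nat_lit 76) (nat_lit 2727228574) (nat_lit 0) (nat_lit 2727228574) (nat_lit 527) (nat_lit 1) (nat_lit 503) (nat_lit 1) (nat_lit 502) (nat_lit 1) (nat_lit 287) (nat_lit 432) (nat_lit 421)) (XT.lf (nat_lit 1900) (nat_lit 2165833709) (nat_lit 0) (nat_lit 5783551036) (nat_lit 1824) (nat_lit 2165833709) (nat_lit 528) (nat_lit 1) (nat_lit 503) (nat_lit 1) (nat_lit 527) (nat_lit 1) (nat_lit 288) (nat_lit 432) (nat_lit 420)))))) (XT.nd (nat_lit 312) (nat_lit 1596) (nat_lit 0) (XT.nd (nat_lit 156) (nat_lit 0) (nat_lit 76) (XT.nd (nat_lit 78) (nat_lit 0) (nat_lit 76) (XT.lf (nat_lit 1900) (nat_lit 3876082808) (nat_lit 76) (nat_lit 3071747854) (nat_lit 0) (nat_lit 3071747854) (nat_lit 528) (nat_lit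 1) (nat_lit 504) (nat_lit 1) (nat_lit 503) (nat_lit 1) (nat_lit 289) (nat_lit 432) (nat_lit 419)) (XT.lf (nat_lit 1900) (nat_lit 1701880903) (nat_lit 0) (nat_lit 6521548742) (nat_lit 1824) (nat_lit 1701880903) (nat_lit 529) (nat_lit 1) (nat_lit 504) (nat_lit 1) (nat_lit 528) (nat_lit 1) (nat_lit 290) (nat_lit 432) (nat_lit 418))) (XT.nd (nat_lit 78) (nat_lit 0) (nat_lit 76) (XT.lf (nat_lit 1900) (nat_lit 2897797074) (nat_lit 76) (nat_lit 3467126312) (nat_lit 0) (nat_lit 3467126312) (nat_lit 529) (nat_lit 1) (nat_lit 505) (nat_lit 1) (nat_lit 504) (nat_lit 1) (nat_lit 291) (nat_lit 432) (nat_lit 417)) (XT.lf (nat_lit 1900) (nat_lit 1191281255) (nat_lit 0) (nat_lit 7357678695) (nat_lit 1824) (nat_lit 1191281255) (nat_lit 530) (nat_lit 1) (nat_lit 505) (nat_lit 1) (nat_lit 529) (nat_lit 1) (nat_lit 292) (nat_lit 432) (nat_lit 416)))) (XT.nd (nat_lit 156) (nat_lit 1748) (nat_lit 0) (XT.nd (nat_lit 78) (nat_lit 0) (nat_lit 76) (XT.lf (nat_lit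 1900) (nat_lit 1829024803) (nat_lit 76) (nat_lit 3910129470) (nat_lit 0) (nat_lit 3910129470) (nat_lit 530) (nat_lit 1) (nat_lit 506) (nat_lit 1) (nat_lit 505) (nat_lit 1) (nat_lit 293) (nat_lit 432) (nat_lit 415)) (XT.lf (nat_lit 1900) (nat_lit 637114015) (nat_lit 0) (nat_lit 8285644228) (nat_lit 1824) (nat_lit 637114015) (nat_lit 531) (nat_lit 1) (nat_lit 506) (nat_lit 1) (nat_lit 530) (nat_lit 1) (nat_lit 294) (nat_lit 432) (nat_lit 414))) (XT.nd (nat_lit 78) (nat_lit 1824) (nat_lit 0) (XT.lf (nat_lit 1900) (nat_lit 675798808) (nat_lit 76) (nat_lit 4397673146) (nat_lit 0) (nat_lit 4397673146) (nat_lit 531) (nat_lit 1) (nat_lit 507) (nat_lit 1) (nat_lit 506) (nat_lit 1) (nat_lit 295) (nat_lit 432) (nat_lit 413)) (XT.nd (nat_lit 78) (nat_lit 1900) (nat_lit 0) (XT.lf (nat_lit 1900) (nat_lit 42314001) (nat_lit 0) (nat_lit 9299441931) (nat_lit 1824) (nat_lit 42314001) (nat_lit 532) (nat_lit 1) (nat_lit 507) (nat_lit 1) (nat_lit 531) (nat_lit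 1) (nat_lit 296) (nat_lit 432) (nat_lit 412)) (XT.lf (nat_lit 1976) (nat_lit 4374296152) (nat_lit 0) (nat_lit 548837987) (nat_lit 1900) (nat_lit 4374296152) (nat_lit 508) (nat_lit 1) (nat_lit 482) (nat_lit 1) (nat_lit 507) (nat_lit 1) (nat_lit 297) (nat_lit 432) (nat_lit 411))))))) (XT.nd (nat_lit 702) (nat_lit 4256) (nat_lit 0) (XT.nd (nat_lit 312) (nat_lit 2812) (nat_lit 0) (XT.nd (nat_lit 156) (nat_lit 0) (nat_lit 76) (XT.nd (nat_lit 78) (nat_lit 0) (nat_lit 76) (XT.lf (nat_lit 1976) (nat_lit 8039519839) (nat_lit 76) (nat_lit 586438603) (nat_lit 0) (nat_lit 586438603) (nat_lit 508) (nat_lit 1) (nat_lit 483) (nat_lit 1) (nat_lit 482) (nat_lit 1) (nat_lit 298) (nat_lit 432) (nat_lit 410)) (XT.lf (nat_lit 1976) (nat_lit 3645554451) (nat_lit 0) (nat_lit 1836878259) (nat_lit 1900) (nat_lit 3645554451) (nat_lit 509) (nat_lit 1) (nat_lit 483) (nat_lit 1) (nat_lit 508) (nat_lit 1) (nat_lit 299) (nat_lit 432) (nat_lit 409))) (XT.nd (nat_lit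 78) (nat_lit 0) (nat_lit 76) (XT.lf (nat_lit 1976) (nat_lit 6545287963) (nat_lit 76) (nat_lit 1249853726) (nat_lit 0) (nat_lit 1249853726) (nat_lit 509) (nat_lit 1) (nat_lit 484) (nat_lit 1) (nat_lit 483) (nat_lit 1) (nat_lit 300) (nat_lit 432) (nat_lit 408)) (XT.lf (nat_lit 76) (nat_lit 2885372343) (nat_lit 0) (nat_lit 3192036346) (nat_lit 1900) (nat_lit 2885372343) (nat_lit 485) (nat_lit 1) (nat_lit 484) (nat_lit 1) (nat_lit 509) (nat_lit 1) (nat_lit 301) (nat_lit 432) (nat_lit 407)))) (XT.nd (nat_lit 156) (nat_lit 1824) (nat_lit 0) (XT.nd (nat_lit 78) (nat_lit 0) (nat_lit 0) (XT.lf (nat_lit 1216) (nat_lit 4990388294) (nat_lit 0) (nat_lit 1945689316) (nat_lit 1140) (nat_lit 1945689316) (nat_lit 485) (nat_lit 1) (nat_lit 469) (nat_lit 1) (nat_lit 484) (nat_lit 1) (nat_lit 302) (nat_lit 432) (nat_lit 406)) (XT.lf (nat_lit 76) (nat_lit 2096142039) (nat_lit 0) (nat_lit 4609409237) (nat_lit 1216) (nat_lit 2096142039) (nat_lit 470) (nat_lit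 1) (nat_lit 469) (nat_lit 1) (nat_lit 485) (nat_lit 1) (nat_lit 303) (nat_lit 432) (nat_lit 405))) (XT.nd (nat_lit 78) (nat_lit 912) (nat_lit 0) (XT.lf (nat_lit 988) (nat_lit 3379503904) (nat_lit 0) (nat_lit 2671545631) (nat_lit 912) (nat_lit 2671545631) (nat_lit 470) (nat_lit 1) (nat_lit 457) (nat_lit 1) (nat_lit 469) (nat_lit 1) (nat_lit 304) (nat_lit 432) (nat_lit 404)) (XT.nd (nat_lit 78) (nat_lit 912) (nat_lit 0) (XT.lf (nat_lit 76) (nat_lit 1280139888) (nat_lit 0) (nat_lit 6084329345) (nat_lit 988) (nat_lit 1280139888) (nat_lit 458) (nat_lit 1) (nat_lit 457) (nat_lit 1) (nat_lit 470) (nat_lit 1) (nat_lit 305) (nat_lit 432) (nat_lit 403)) (XT.lf (nat_lit 988) (nat_lit 1717090383) (nat_lit 0) (nat_lit 3425138479) (nat_lit 912) (nat_lit 3425138479) (nat_lit 458) (nat_lit 1) (nat_lit 445) (nat_lit 1) (nat_lit 457) (nat_lit 1) (nat_lit 306) (nat_lit 432) (nat_lit 402)))))) (XT.nd (nat_lit 312) (nat_lit 2432) (nat_lit 0) (XT.nd (nat_lit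 156) (nat_lit 988) (nat_lit 0) (XT.nd (nat_lit 78) (nat_lit 836) (nat_lit 0) (XT.lf (nat_lit 76) (nat_lit 439531327) (nat_lit 0) (nat_lit 7612354481) (nat_lit 988) (nat_lit 439531327) (nat_lit 446) (nat_lit 1) (nat_lit 445) (nat_lit 1) (nat_lit 458) (nat_lit 1) (nat_lit 307) (nat_lit 432) (nat_lit 401)) (XT.lf (nat_lit 912) (nat_lit 7385565) (nat_lit 0) (nat_lit 4204294300) (nat_lit 836) (nat_lit 4204294300) (nat_lit 446) (nat_lit 1) (nat_lit 434) (nat_lit 1) (nat_lit 445) (nat_lit 1) (nat_lit 308) (nat_lit 432) (nat_lit 400))) (XT.nd (nat_lit 78) (nat_lit 0) (nat_lit 0) (XT.lf (nat_lit 988) (nat_lit 7500114013) (nat_lit 0) (nat_lit 420837361) (nat_lit 912) (nat_lit 420837361) (nat_lit 434) (nat_lit 1) (nat_lit 421) (nat_lit 1) (nat_lit 433) (nat_lit 1) (nat_lit 309) (nat_lit 432) (nat_lit 399)) (XT.lf (nat_lit 76) (nat_lit 3272697772) (nat_lit 0) (nat_lit 1722687522) (nat_lit 988) (nat_lit 3272697772) (nat_lit 422) (nat_lit 1) (nat_lit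 421) (nat_lit 1) (nat_lit 434) (nat_lit 1) (nat_lit 310) (nat_lit 432) (nat_lit 398)))) (XT.nd (nat_lit 156) (nat_lit 1596) (nat_lit 0) (XT.nd (nat_lit 78) (nat_lit 0) (nat_lit 0) (XT.lf (nat_lit 912) (nat_lit 5598063577) (nat_lit 0) (nat_lit 1298768403) (nat_lit 836) (nat_lit 1298768403) (nat_lit 422) (nat_lit 1) (nat_lit 410) (nat_lit 1) (nat_lit 421) (nat_lit 1) (nat_lit 311) (nat_lit 432) (nat_lit 397)) (XT.lf (nat_lit 76) (nat_lit 2316116738) (nat_lit 0) (nat_lit 3491578525) (nat_lit 912) (nat_lit 2316116738) (nat_lit 411) (nat_lit 1) (nat_lit 410) (nat_lit 1) (nat_lit 422) (nat_lit 1) (nat_lit 312) (nat_lit 432) (nat_lit 396))) (XT.nd (nat_lit 78) (nat_lit 760) (nat_lit 0) (XT.lf (nat_lit 912) (nat_lit 3662370310) (nat_lit 0) (nat_lit 2195305257) (nat_lit 836) (nat_lit 2195305257) (nat_lit 411) (nat_lit 1) (nat_lit 399) (nat_lit 1) (nat_lit 410) (nat_lit 1) (nat_lit 313) (nat_lit 432) (nat_lit 395)) (XT.nd (nat_lit 78) (nat_lit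 760) (nat_lit 0) (XT.lf (nat_lit 76) (nat_lit 1343634980) (nat_lit 0) (nat_lit 5295792964) (nat_lit 912) (nat_lit 1343634980) (nat_lit 400) (nat_lit 1) (nat_lit 399) (nat_lit 1) (nat_lit 411) (nat_lit 1) (nat_lit 314) (nat_lit 432) (nat_lit 394)) (XT.lf (nat_lit 836) (nat_lit 1696448482) (nat_lit 0) (nat_lit 3108692164) (nat_lit 760) (nat_lit 3108692164) (nat_lit 400) (nat_lit 1) (nat_lit 389) (nat_lit 1) (nat_lit 399) (nat_lit 1) (nat_lit 315) (nat_lit 432) (nat_lit 393))))))))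
noncomputable def ec193 : XT := (XT.nd (nat_lit 1404) (nat_lit 6536) (nat_lit 0) (XT.nd (nat_lit 702) (nat_lit 3268) (nat_lit 0) (XT.nd (nat_lit 312) (nat_lit 2204) (nat_lit 0) (XT.nd (nat_lit 156) (nat_lit 760) (nat_lit 0) (XT.nd (nat_lit 78) (nat_lit 836) (nat_lit 0) (XT.lf (nat_lit 76) (nat_lit 356910058) (nat_lit 0) (nat_lit 7131919743) (nat_lit 836) (nat_lit 356910058) (nat_lit 390) (nat_lit 1) (nat_lit 389) (nat_lit 1) (nat_lit 400) (nat_lit 1) (nat_lit 316) (nat_lit 432) (nat_lit 392)) (XT.lf (nat_lit 76) (nat_lit 3742725079) (nat_lit 0) (nat_lit 292573401) (nat_lit 836) (nat_lit 3742725079) (nat_lit 379) (nat_lit 1) (nat_lit 378) (nat_lit 1) (nat_lit 389) (nat_lit 1) (nat_lit 317) (nat_lit 432) (nat_lit 391))) (XT.nd (nat_lit 78) (nat_lit 0) (nat_lit 0) (XT.lf (nat_lit 836) (nat_lit 6434898236) (nat_lit 0) (nat_lit 638258347) (nat_lit 760) (nat_lit 638258347) (nat_lit 379) (nat_lit 1) (nat_lit 368) (nat_lit 1) (nat_lit 378) (nat_lit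 1) (nat_lit 318) (nat_lit 432) (nat_lit 390)) (XT.lf (nat_lit 76) (nat_lit 2681165074) (nat_lit 0) (nat_lit 2282946610) (nat_lit 836) (nat_lit 2681165074) (nat_lit 369) (nat_lit 1) (nat_lit 368) (nat_lit 1) (nat_lit 379) (nat_lit 1) (nat_lit 319) (nat_lit 432) (nat_lit 389)))) (XT.nd (nat_lit 156) (nat_lit 1444) (nat_lit 0) (XT.nd (nat_lit 78) (nat_lit 0) (nat_lit 0) (XT.lf (nat_lit 836) (nat_lit 4295773424) (nat_lit 0) (nat_lit 1642183747) (nat_lit 760) (nat_lit 1642183747) (nat_lit 369) (nat_lit 1) (nat_lit 358) (nat_lit 1) (nat_lit 368) (nat_lit 1) (nat_lit 320) (nat_lit 432) (nat_lit 388)) (XT.lf (nat_lit 76) (nat_lit 1610840372) (nat_lit 0) (nat_lit 4294043684) (nat_lit 836) (nat_lit 1610840372) (nat_lit 359) (nat_lit 1) (nat_lit 358) (nat_lit 1) (nat_lit 369) (nat_lit 1) (nat_lit 321) (nat_lit 432) (nat_lit 387))) (XT.nd (nat_lit 78) (nat_lit 760) (nat_lit 0) (XT.lf (nat_lit 760) (nat_lit 2140398419) (nat_lit 0) (nat_lit 2655809331)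 (nat_lit 684) (nat_lit 2655809331) (nat_lit 359) (nat_lit 1) (nat_lit 349) (nat_lit 1) (nat_lit 358) (nat_lit 1) (nat_lit 322) (nat_lit 432) (nat_lit 386)) (XT.nd (nat_lit 78) (nat_lit 760) (nat_lit 0) (XT.lf (nat_lit 76) (nat_lit 533071441) (nat_lit 0) (nat_lit 6323138076) (nat_lit 760) (nat_lit 533071441) (nat_lit 350) (nat_lit 1) (nat_lit 349) (nat_lit 1) (nat_lit 359) (nat_lit 1) (nat_lit 323) (nat_lit 432) (nat_lit 385)) (XT.lf (nat_lit 76) (nat_lit 3649341439) (nat_lit 0) (nat_lit 28272680) (nat_lit 760) (nat_lit 3649341439) (nat_lit 340) (nat_lit 1) (nat_lit 339) (nat_lit 1) (nat_lit 349) (nat_lit 1) (nat_lit 324) (nat_lit 432) (nat_lit 384)))))) (XT.nd (nat_lit 312) (nat_lit 1900) (nat_lit 0) (XT.nd (nat_lit 156) (nat_lit 684) (nat_lit 0) (XT.nd (nat_lit 78) (nat_lit 0) (nat_lit 0) (XT.lf (nat_lit 760) (nat_lit 6171041306) (nat_lit 0) (nat_lit 547267453) (nat_lit 684) (nat_lit 547267453) (nat_lit 340) (nat_lit 1) (nat_lit 330)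 (nat_lit 1) (nat_lit 339) (nat_lit 1) (nat_lit 325) (nat_lit 432) (nat_lit 383)) (XT.lf (nat_lit 76) (nat_lit 2512321264) (nat_lit 0) (nat_lit 2179956525) (nat_lit 760) (nat_lit 2512321264) (nat_lit 331) (nat_lit 1) (nat_lit 330) (nat_lit 1) (nat_lit 340) (nat_lit 1) (nat_lit 326) (nat_lit 432) (nat_lit 382))) (XT.nd (nat_lit 78) (nat_lit 0) (nat_lit 0) (XT.lf (nat_lit 760) (nat_lit 3886380339) (nat_lit 0) (nat_lit 1629077986) (nat_lit 684) (nat_lit 1629077986) (nat_lit 331) (nat_lit 1) (nat_lit 321) (nat_lit 1) (nat_lit 330) (nat_lit 1) (nat_lit 327) (nat_lit 432) (nat_lit 381)) (XT.lf (nat_lit 76) (nat_lit 1372349699) (nat_lit 0) (nat_lit 4340447215) (nat_lit 760) (nat_lit 1372349699) (nat_lit 322) (nat_lit 1) (nat_lit 321) (nat_lit 1) (nat_lit 331) (nat_lit 1) (nat_lit 328) (nat_lit 432) (nat_lit 380)))) (XT.nd (nat_lit 156) (nat_lit 1292) (nat_lit 0) (XT.nd (nat_lit 78) (nat_lit 0) (nat_lit 0) (XT.lf (nat_lit 684) (nat_lit 1596848784)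 (nat_lit 0) (nat_lit 2714756360) (nat_lit 608) (nat_lit 2714756360) (nat_lit 322) (nat_lit 1) (nat_lit 313) (nat_lit 1) (nat_lit 321) (nat_lit 1) (nat_lit 329) (nat_lit 432) (nat_lit 379)) (XT.lf (nat_lit 76) (nat_lit 230464943) (nat_lit 0) (nat_lit 6507591801) (nat_lit 684) (nat_lit 230464943) (nat_lit 314) (nat_lit 1) (nat_lit 313) (nat_lit 1) (nat_lit 322) (nat_lit 1) (nat_lit 330) (nat_lit 432) (nat_lit 378))) (XT.nd (nat_lit 78) (nat_lit 608) (nat_lit 0) (XT.lf (nat_lit 76) (nat_lit 3112239497) (nat_lit 0) (nat_lit 686407203) (nat_lit 684) (nat_lit 3112239497) (nat_lit 305) (nat_lit 1) (nat_lit 304) (nat_lit 1) (nat_lit 313) (nat_lit 1) (nat_lit 331) (nat_lit 432) (nat_lit 377)) (XT.nd (nat_lit 78) (nat_lit 0) (nat_lit 0) (XT.lf (nat_lit 684) (nat_lit 5041472710) (nat_lit 0) (nat_lit 906350902) (nat_lit 608) (nat_lit 906350902) (nat_lit 305) (nat_lit 1) (nat_lit 296) (nat_lit 1) (nat_lit 304) (nat_lit 1) (nat_lit 332) (nat_lit 432)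 (nat_lit 376)) (XT.lf (nat_lit 76) (nat_lit 1924137695) (nat_lit 0) (nat_lit 2949644784) (nat_lit 684) (nat_lit 1924137695) (nat_lit 297) (nat_lit 1) (nat_lit 296) (nat_lit 1) (nat_lit 305) (nat_lit 1) (nat_lit 333) (nat_lit 432) (nat_lit 375))))))) (XT.nd (nat_lit 702) (nat_lit 3040) (nat_lit 0) (XT.nd (nat_lit 312) (nat_lit 1672) (nat_lit 0) (XT.nd (nat_lit 156) (nat_lit 1216) (nat_lit 0) (XT.nd (nat_lit 78) (nat_lit 0) (nat_lit 0) (XT.lf (nat_lit 684) (nat_lit 2659068540) (nat_lit 0) (nat_lit 2041659910) (nat_lit 608) (nat_lit 2041659910) (nat_lit 297) (nat_lit 1) (nat_lit 288) (nat_lit 1) (nat_lit 296) (nat_lit 1) (nat_lit 334) (nat_lit 432) (nat_lit 374)) (XT.lf (nat_lit 76) (nat_lit 737784872) (nat_lit 0) (nat_lit 5212030370) (nat_lit 684) (nat_lit 737784872) (nat_lit 289) (nat_lit 1) (nat_lit 288) (nat_lit 1) (nat_lit 297) (nat_lit 1) (nat_lit 335) (nat_lit 432) (nat_lit 373))) (XT.nd (nat_lit 78) (nat_lit 684) (nat_lit 0) (XT.lf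 (nat_lit 608) (nat_lit 280987135) (nat_lit 0) (nat_lit 3176113334) (nat_lit 532) (nat_lit 3176113334) (nat_lit 289) (nat_lit 1) (nat_lit 281) (nat_lit 1) (nat_lit 288) (nat_lit 1) (nat_lit 336) (nat_lit 432) (nat_lit 372)) (XT.lf (nat_lit 684) (nat_lit 5693460469) (nat_lit 0) (nat_lit 443082244) (nat_lit 608) (nat_lit 443082244) (nat_lit 281) (nat_lit 1) (nat_lit 272) (nat_lit 1) (nat_lit 280) (nat_lit 1) (nat_lit 337) (nat_lit 432) (nat_lit 371)))) (XT.nd (nat_lit 156) (nat_lit 1140) (nat_lit 0) (XT.nd (nat_lit 78) (nat_lit 532) (nat_lit 0) (XT.lf (nat_lit 76) (nat_lit 2231264108) (nat_lit 0) (nat_lit 2063783571) (nat_lit 684) (nat_lit 2231264108) (nat_lit 273) (nat_lit 1) (nat_lit 272) (nat_lit 1) (nat_lit 281) (nat_lit 1) (nat_lit 338) (nat_lit 432) (nat_lit 370)) (XT.lf (nat_lit 608) (nat_lit 3242154369) (nat_lit 0) (nat_lit 1615811690) (nat_lit 532) (nat_lit 1615811690) (nat_lit 273) (nat_lit 1) (nat_lit 265) (nat_lit 1) (nat_lit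 272) (nat_lit 1) (nat_lit 339) (nat_lit 432) (nat_lit 369))) (XT.nd (nat_lit 78) (nat_lit 1140) (nat_lit 0) (XT.lf (nat_lit 76) (nat_lit 1012119099) (nat_lit 0) (nat_lit 4397614587) (nat_lit 608) (nat_lit 1012119099) (nat_lit 266) (nat_lit 1) (nat_lit 265) (nat_lit 1) (nat_lit 273) (nat_lit 1) (nat_lit 340) (nat_lit 432) (nat_lit 368)) (XT.nd (nat_lit 78) (nat_lit 608) (nat_lit 0) (XT.lf (nat_lit 608) (nat_lit 801271062) (nat_lit 0) (nat_lit 2784553804) (nat_lit 532) (nat_lit 2784553804) (nat_lit 266) (nat_lit 1) (nat_lit 258) (nat_lit 1) (nat_lit 265) (nat_lit 1) (nat_lit 341) (nat_lit 432) (nat_lit 367)) (XT.lf (nat_lit 608) (nat_lit 5919333494) (nat_lit 0) (nat_lit 200185645) (nat_lit 532) (nat_lit 200185645) (nat_lit 258) (nat_lit 1) (nat_lit 250) (nat_lit 1) (nat_lit 257) (nat_lit 1) (nat_lit 342) (nat_lit 432) (nat_lit 366)))))) (XT.nd (nat_lit 390) (nat_lit 1444) (nat_lit 0) (XT.nd (nat_lit 156) (nat_lit 1064) (nat_lit 0) (XT.nd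 (nat_lit 78) (nat_lit 532) (nat_lit 0) (XT.lf (nat_lit 76) (nat_lit 2331286171) (nat_lit 0) (nat_lit 1606581510) (nat_lit 608) (nat_lit 2331286171) (nat_lit 251) (nat_lit 1) (nat_lit 250) (nat_lit 1) (nat_lit 258) (nat_lit 1) (nat_lit 343) (nat_lit 432) (nat_lit 365)) (XT.lf (nat_lit 608) (nat_lit 3419883951) (nat_lit 0) (nat_lit 1399751458) (nat_lit 532) (nat_lit 1399751458) (nat_lit 251) (nat_lit 1) (nat_lit 243) (nat_lit 1) (nat_lit 250) (nat_lit 1) (nat_lit 344) (nat_lit 432) (nat_lit 364))) (XT.nd (nat_lit 78) (nat_lit 1064) (nat_lit 0) (XT.lf (nat_lit 76) (nat_lit 1089456880) (nat_lit 0) (nat_lit 3991237862) (nat_lit 608) (nat_lit 1089456880) (nat_lit 244) (nat_lit 1) (nat_lit 243) (nat_lit 1) (nat_lit 251) (nat_lit 1) (nat_lit 345) (nat_lit 432) (nat_lit 363)) (XT.nd (nat_lit 78) (nat_lit 608) (nat_lit 0) (XT.lf (nat_lit 532) (nat_lit 936018175) (nat_lit 0) (nat_lit 2592674367) (nat_lit 456) (nat_lit 2592674367) (nat_lit 244) (nat_lit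 1) (nat_lit 237) (nat_lit 1) (nat_lit 243) (nat_lit 1) (nat_lit 346) (nat_lit 432) (nat_lit 362)) (XT.lf (nat_lit 608) (nat_lit 5786535660) (nat_lit 0) (nat_lit 143403162) (nat_lit 532) (nat_lit 143403162) (nat_lit 237) (nat_lit 1) (nat_lit 229) (nat_lit 1) (nat_lit 236) (nat_lit 1) (nat_lit 347) (nat_lit 432) (nat_lit 361))))) (XT.nd (nat_lit 156) (nat_lit 988) (nat_lit 0) (XT.nd (nat_lit 78) (nat_lit 456) (nat_lit 0) (XT.lf (nat_lit 76) (nat_lit 2257099800) (nat_lit 0) (nat_lit 1511188560) (nat_lit 608) (nat_lit 2257099800) (nat_lit 230) (nat_lit 1) (nat_lit 229) (nat_lit 1) (nat_lit 237) (nat_lit 1) (nat_lit 348) (nat_lit 432) (nat_lit 360)) (XT.lf (nat_lit 532) (nat_lit 3256869278) (nat_lit 0) (nat_lit 1360655195) (nat_lit 456) (nat_lit 1360655195) (nat_lit 230) (nat_lit 1) (nat_lit 223) (nat_lit 1) (nat_lit 229) (nat_lit 1) (nat_lit 349) (nat_lit 432) (nat_lit 359))) (XT.nd (nat_lit 78) (nat_lit 988) (nat_lit 0) (XT.lf (nat_lit 76)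 (nat_lit 1001311909) (nat_lit 0) (nat_lit 3928850097) (nat_lit 532) (nat_lit 1001311909) (nat_lit 224) (nat_lit 1) (nat_lit 223) (nat_lit 1) (nat_lit 230) (nat_lit 1) (nat_lit 350) (nat_lit 432) (nat_lit 358)) (XT.nd (nat_lit 78) (nat_lit 532) (nat_lit 0) (XT.lf (nat_lit 532) (nat_lit 747123711) (nat_lit 0) (nat_lit 2569026717) (nat_lit 456) (nat_lit 2569026717) (nat_lit 224) (nat_lit 1) (nat_lit 217) (nat_lit 1) (nat_lit 223) (nat_lit 1) (nat_lit 351) (nat_lit 432) (nat_lit 357)) (XT.lf (nat_lit 532) (nat_lit 5354072381) (nat_lit 0) (nat_lit 242745705) (nat_lit 456) (nat_lit 242745705) (nat_lit 217) (nat_lit 1) (nat_lit 210) (nat_lit 1) (nat_lit 216) (nat_lit 1) (nat_lit 352) (nat_lit 432) (nat_lit 356))))))))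
noncomputable def ec194 : XT := (XT.nd (nat_lit 1404) (nat_lit 3420) (nat_lit 0) (XT.nd (nat_lit 702) (nat_lit 2280) (nat_lit 0) (XT.nd (nat_lit 312) (nat_lit 1368) (nat_lit 0) (XT.nd (nat_lit 156) (nat_lit 380) (nat_lit 0) (XT.nd (nat_lit 78) (nat_lit 456) (nat_lit 0) (XT.lf (nat_lit 76) (nat_lit 2037480596) (nat_lit 0) (nat_lit 1719093269) (nat_lit 532) (nat_lit 2037480596) (nat_lit 211) (nat_lit 1) (nat_lit 210) (nat_lit 1) (nat_lit 217) (nat_lit 1) (nat_lit 353) (nat_lit 432) (nat_lit 355)) (XT.lf (nat_lit 532) (nat_lit 2809620790) (nat_lit 0) (nat_lit 1469797458) (nat_lit 456) (nat_lit 1469797458) (nat_lit 211) (nat_lit 1) (nat_lit 204) (nat_lit 1) (nat_lit 210) (nat_lit 1) (nat_lit 354) (nat_lit 432) (nat_lit 354))) (XT.nd (nat_lit 78) (nat_lit 380) (nat_lit 0) (XT.lf (nat_lit 76) (nat_lit 775242112) (nat_lit 0) (nat_lit 4154407083) (nat_lit 532) (nat_lit 775242112) (nat_lit 205) (nat_lit 1) (nat_lit 204) (nat_lit 1) (nat_lit 211)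 (nat_lit 1) (nat_lit 355) (nat_lit 432) (nat_lit 353)) (XT.lf (nat_lit 456) (nat_lit 288704986) (nat_lit 0) (nat_lit 2686097556) (nat_lit 380) (nat_lit 2686097556) (nat_lit 205) (nat_lit 1) (nat_lit 199) (nat_lit 1) (nat_lit 204) (nat_lit 1) (nat_lit 356) (nat_lit 432) (nat_lit 352)))) (XT.nd (nat_lit 156) (nat_lit 836) (nat_lit 0) (XT.nd (nat_lit 78) (nat_lit 0) (nat_lit 0) (XT.lf (nat_lit 532) (nat_lit 4673492539) (nat_lit 0) (nat_lit 471996911) (nat_lit 456) (nat_lit 471996911) (nat_lit 199) (nat_lit 1) (nat_lit 192) (nat_lit 1) (nat_lit 198) (nat_lit 1) (nat_lit 357) (nat_lit 432) (nat_lit 351)) (XT.lf (nat_lit 76) (nat_lit 1697563473) (nat_lit 0) (nat_lit 2179153304) (nat_lit 532) (nat_lit 1697563473) (nat_lit 193) (nat_lit 1) (nat_lit 192) (nat_lit 1) (nat_lit 199) (nat_lit 1) (nat_lit 358) (nat_lit 432) (nat_lit 350))) (XT.nd (nat_lit 78) (nat_lit 456) (nat_lit 0) (XT.lf (nat_lit 456) (nat_lit 2127490809) (nat_lit 0) (nat_lit 1702074700)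 (nat_lit 380) (nat_lit 1702074700) (nat_lit 193) (nat_lit 1) (nat_lit 187) (nat_lit 1) (nat_lit 192) (nat_lit 1) (nat_lit 359) (nat_lit 432) (nat_lit 349)) (XT.nd (nat_lit 78) (nat_lit 456) (nat_lit 0) (XT.lf (nat_lit 76) (nat_lit 435310470) (nat_lit 0) (nat_lit 4618939046) (nat_lit 456) (nat_lit 435310470) (nat_lit 188) (nat_lit 1) (nat_lit 187) (nat_lit 1) (nat_lit 193) (nat_lit 1) (nat_lit 360) (nat_lit 432) (nat_lit 348)) (XT.lf (nat_lit 76) (nat_lit 2530403498) (nat_lit 0) (nat_lit 386851129) (nat_lit 456) (nat_lit 2530403498) (nat_lit 182) (nat_lit 1) (nat_lit 181) (nat_lit 1) (nat_lit 187) (nat_lit 1) (nat_lit 361) (nat_lit 432) (nat_lit 347)))))) (XT.nd (nat_lit 312) (nat_lit 1520) (nat_lit 0) (XT.nd (nat_lit 156) (nat_lit 380) (nat_lit 0) (XT.nd (nat_lit 78) (nat_lit 0) (nat_lit 0) (XT.lf (nat_lit 456) (nat_lit 3789758956) (nat_lit 0) (nat_lit 808273297) (nat_lit 380) (nat_lit 808273297) (nat_lit 182) (nat_lit 1) (nat_lit 176)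 (nat_lit 1) (nat_lit 181) (nat_lit 1) (nat_lit 362) (nat_lit 432) (nat_lit 346)) (XT.lf (nat_lit 76) (nat_lit 1259267842) (nat_lit 0) (nat_lit 2846736013) (nat_lit 456) (nat_lit 1259267842) (nat_lit 177) (nat_lit 1) (nat_lit 176) (nat_lit 1) (nat_lit 182) (nat_lit 1) (nat_lit 363) (nat_lit 432) (nat_lit 345))) (XT.nd (nat_lit 78) (nat_lit 0) (nat_lit 0) (XT.lf (nat_lit 456) (nat_lit 1253509833) (nat_lit 0) (nat_lit 2035582685) (nat_lit 380) (nat_lit 2035582685) (nat_lit 177) (nat_lit 1) (nat_lit 171) (nat_lit 1) (nat_lit 176) (nat_lit 1) (nat_lit 364) (nat_lit 432) (nat_lit 344)) (XT.lf (nat_lit 76) (nat_lit 2493510) (nat_lit 0) (nat_lit 5279724926) (nat_lit 456) (nat_lit 2493510) (nat_lit 172) (nat_lit 1) (nat_lit 171) (nat_lit 1) (nat_lit 177) (nat_lit 1) (nat_lit 365) (nat_lit 432) (nat_lit 343)))) (XT.nd (nat_lit 156) (nat_lit 760) (nat_lit 0) (XT.nd (nat_lit 78) (nat_lit 380) (nat_lit 0) (XT.lf (nat_lit 76) (nat_lit 2003671047) (nat_lit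 0) (nat_lit 1237346302) (nat_lit 380) (nat_lit 2003671047) (nat_lit 167) (nat_lit 1) (nat_lit 166) (nat_lit 1) (nat_lit 171) (nat_lit 1) (nat_lit 366) (nat_lit 432) (nat_lit 342)) (XT.lf (nat_lit 456) (nat_lit 2742019928) (nat_lit 0) (nat_lit 1231634401) (nat_lit 380) (nat_lit 1231634401) (nat_lit 167) (nat_lit 1) (nat_lit 161) (nat_lit 1) (nat_lit 166) (nat_lit 1) (nat_lit 367) (nat_lit 432) (nat_lit 341))) (XT.nd (nat_lit 78) (nat_lit 760) (nat_lit 0) (XT.lf (nat_lit 76) (nat_lit 741674464) (nat_lit 0) (nat_lit 3682956620) (nat_lit 456) (nat_lit 741674464) (nat_lit 162) (nat_lit 1) (nat_lit 161) (nat_lit 1) (nat_lit 167) (nat_lit 1) (nat_lit 368) (nat_lit 432) (nat_lit 340)) (XT.nd (nat_lit 78) (nat_lit 456) (nat_lit 0) (XT.lf (nat_lit 380) (nat_lit 225127773) (nat_lit 0) (nat_lit 2451241935) (nat_lit 304) (nat_lit 2451241935) (nat_lit 162) (nat_lit 1) (nat_lit 157) (nat_lit 1) (nat_lit 161) (nat_lit 1) (nat_lit 369) (nat_lit 432) (nat_lit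 339)) (XT.lf (nat_lit 456) (nat_lit 4086114924) (nat_lit 0) (nat_lit 501634561) (nat_lit 380) (nat_lit 501634561) (nat_lit 157) (nat_lit 1) (nat_lit 151) (nat_lit 1) (nat_lit 156) (nat_lit 1) (nat_lit 370) (nat_lit 432) (nat_lit 338))))))) (XT.nd (nat_lit 702) (nat_lit 1748) (nat_lit 0) (XT.nd (nat_lit 312) (nat_lit 988) (nat_lit 0) (XT.nd (nat_lit 156) (nat_lit 380) (nat_lit 0) (XT.nd (nat_lit 78) (nat_lit 304) (nat_lit 0) (XT.lf (nat_lit 76) (nat_lit 1410065939) (nat_lit 0) (nat_lit 2231214878) (nat_lit 456) (nat_lit 1410065939) (nat_lit 152) (nat_lit 1) (nat_lit 151) (nat_lit 1) (nat_lit 157) (nat_lit 1) (nat_lit 371) (nat_lit 432) (nat_lit 337)) (XT.lf (nat_lit 380) (nat_lit 1564292985) (nat_lit 0) (nat_lit 1724737243) (nat_lit 304) (nat_lit 1724737243) (nat_lit 152) (nat_lit 1) (nat_lit 147) (nat_lit 1) (nat_lit 151) (nat_lit 1) (nat_lit 372) (nat_lit 432) (nat_lit 336))) (XT.nd (nat_lit 78) (nat_lit 380) (nat_lit 0) (XT.lf (nat_lit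 76) (nat_lit 161359413) (nat_lit 0) (nat_lit 4654003079) (nat_lit 380) (nat_lit 161359413) (nat_lit 148) (nat_lit 1) (nat_lit 147) (nat_lit 1) (nat_lit 152) (nat_lit 1) (nat_lit 373) (nat_lit 432) (nat_lit 335)) (XT.lf (nat_lit 76) (nat_lit 2013343143) (nat_lit 0) (nat_lit 912995945) (nat_lit 380) (nat_lit 2013343143) (nat_lit 143) (nat_lit 1) (nat_lit 142) (nat_lit 1) (nat_lit 147) (nat_lit 1) (nat_lit 374) (nat_lit 432) (nat_lit 334)))) (XT.nd (nat_lit 156) (nat_lit 684) (nat_lit 0) (XT.nd (nat_lit 78) (nat_lit 0) (nat_lit 0) (XT.lf (nat_lit 380) (nat_lit 2774880331) (nat_lit 0) (nat_lit 1064144136) (nat_lit 304) (nat_lit 1064144136) (nat_lit 143) (nat_lit 1) (nat_lit 138) (nat_lit 1) (nat_lit 142) (nat_lit 1) (nat_lit 375) (nat_lit 432) (nat_lit 333)) (XT.lf (nat_lit 76) (nat_lit 764621450) (nat_lit 0) (nat_lit 3337767703) (nat_lit 380) (nat_lit 764621450) (nat_lit 139) (nat_lit 1) (nat_lit 138) (nat_lit 1) (nat_lit 143) (nat_lit 1)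 (nat_lit 376) (nat_lit 432) (nat_lit 332))) (XT.nd (nat_lit 78) (nat_lit 380) (nat_lit 0) (XT.lf (nat_lit 380) (nat_lit 286070735) (nat_lit 0) (nat_lit 2272530140) (nat_lit 304) (nat_lit 2272530140) (nat_lit 139) (nat_lit 1) (nat_lit 134) (nat_lit 1) (nat_lit 138) (nat_lit 1) (nat_lit 377) (nat_lit 432) (nat_lit 331)) (XT.nd (nat_lit 78) (nat_lit 0) (nat_lit 0) (XT.lf (nat_lit 380) (nat_lit 3867203063) (nat_lit 0) (nat_lit 464235598) (nat_lit 304) (nat_lit 464235598) (nat_lit 134) (nat_lit 1) (nat_lit 129) (nat_lit 1) (nat_lit 133) (nat_lit 1) (nat_lit 378) (nat_lit 432) (nat_lit 330)) (XT.lf (nat_lit 76) (nat_lit 1309872710) (nat_lit 0) (nat_lit 2140628726) (nat_lit 380) (nat_lit 1309872710) (nat_lit 130) (nat_lit 1) (nat_lit 129) (nat_lit 1) (nat_lit 134) (nat_lit 1) (nat_lit 379) (nat_lit 432) (nat_lit 329)))))) (XT.nd (nat_lit 312) (nat_lit 836) (nat_lit 0) (XT.nd (nat_lit 156) (nat_lit 608) (nat_lit 0) (XT.nd (nat_lit 78) (nat_lit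 0) (nat_lit 0) (XT.lf (nat_lit 380) (nat_lit 1382664648) (nat_lit 0) (nat_lit 1671412702) (nat_lit 304) (nat_lit 1671412702) (nat_lit 130) (nat_lit 1) (nat_lit 125) (nat_lit 1) (nat_lit 129) (nat_lit 1) (nat_lit 380) (nat_lit 432) (nat_lit 328)) (XT.lf (nat_lit 76) (nat_lit 80341821) (nat_lit 0) (nat_lit 4530426777) (nat_lit 380) (nat_lit 80341821) (nat_lit 126) (nat_lit 1) (nat_lit 125) (nat_lit 1) (nat_lit 130) (nat_lit 1) (nat_lit 381) (nat_lit 432) (nat_lit 327))) (XT.nd (nat_lit 78) (nat_lit 304) (nat_lit 0) (XT.lf (nat_lit 76) (nat_lit 1801767638) (nat_lit 0) (nat_lit 1053146626) (nat_lit 304) (nat_lit 1801767638) (nat_lit 122) (nat_lit 1) (nat_lit 121) (nat_lit 1) (nat_lit 125) (nat_lit 1) (nat_lit 382) (nat_lit 432) (nat_lit 326)) (XT.lf (nat_lit 380) (nat_lit 2373818909) (nat_lit 0) (nat_lit 1124466321) (nat_lit 304) (nat_lit 1124466321) (nat_lit 122) (nat_lit 1) (nat_lit 117) (nat_lit 1) (nat_lit 121) (nat_lit 1) (nat_lit 383)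 (nat_lit 432) (nat_lit 325)))) (XT.nd (nat_lit 156) (nat_lit 532) (nat_lit 0) (XT.nd (nat_lit 78) (nat_lit 304) (nat_lit 0) (XT.lf (nat_lit 76) (nat_lit 576246986) (nat_lit 0) (nat_lit 3436684280) (nat_lit 380) (nat_lit 576246986) (nat_lit 118) (nat_lit 1) (nat_lit 117) (nat_lit 1) (nat_lit 122) (nat_lit 1) (nat_lit 384) (nat_lit 432) (nat_lit 324)) (XT.lf (nat_lit 76) (nat_lit 2244601582) (nat_lit 0) (nat_lit 66607996) (nat_lit 304) (nat_lit 2244601582) (nat_lit 114) (nat_lit 1) (nat_lit 113) (nat_lit 1) (nat_lit 117) (nat_lit 1) (nat_lit 385) (nat_lit 432) (nat_lit 323))) (XT.nd (nat_lit 78) (nat_lit 228) (nat_lit 0) (XT.lf (nat_lit 380) (nat_lit 3267993210) (nat_lit 0) (nat_lit 627401048) (nat_lit 304) (nat_lit 627401048) (nat_lit 114) (nat_lit 1) (nat_lit 109) (nat_lit 1) (nat_lit 113) (nat_lit 1) (nat_lit 386) (nat_lit 432) (nat_lit 322)) (XT.nd (nat_lit 78) (nat_lit 228) (nat_lit 0) (XT.lf (nat_lit 76) (nat_lit 1024543105) (nat_lit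 0) (nat_lit 2440916253) (nat_lit 380) (nat_lit 1024543105) (nat_lit 110) (nat_lit 1) (nat_lit 109) (nat_lit 1) (nat_lit 114) (nat_lit 1) (nat_lit 387) (nat_lit 432) (nat_lit 321)) (XT.lf (nat_lit 304) (nat_lit 838020688) (nat_lit 0) (nat_lit 1809758526) (nat_lit 228) (nat_lit 1809758526) (nat_lit 110) (nat_lit 1) (nat_lit 106) (nat_lit 1) (nat_lit 109) (nat_lit 1) (nat_lit 388) (nat_lit 432) (nat_lit 320))))))))
noncomputable def ec195 : XT := (XT.nd (nat_lit 1404) (nat_lit 2736) (nat_lit 0) (XT.nd (nat_lit 702) (nat_lit 1216) (nat_lit 0) (XT.nd (nat_lit 312) (nat_lit 1064) (nat_lit 0) (XT.nd (nat_lit 156) (nat_lit 228) (nat_lit 0) (XT.nd (nat_lit 78) (nat_lit 0) (nat_lit 0) (XT.lf (nat_lit 380) (nat_lit 4072994569) (nat_lit 0) (nat_lit 176256864) (nat_lit 304) (nat_lit 176256864) (nat_lit 106) (nat_lit 1) (nat_lit 101) (nat_lit 1) (nat_lit 105) (nat_lit 1) (nat_lit 389) (nat_lit 432) (nat_lit 319)) (XT.lf (nat_lit 76) (nat_lit 1429048837)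 (nat_lit 0) (nat_lit 1535373629) (nat_lit 380) (nat_lit 1429048837) (nat_lit 102) (nat_lit 1) (nat_lit 101) (nat_lit 1) (nat_lit 106) (nat_lit 1) (nat_lit 390) (nat_lit 432) (nat_lit 318))) (XT.nd (nat_lit 78) (nat_lit 0) (nat_lit 0) (XT.lf (nat_lit 304) (nat_lit 1656921144) (nat_lit 0) (nat_lit 1352471640) (nat_lit 228) (nat_lit 1352471640) (nat_lit 102) (nat_lit 1) (nat_lit 98) (nat_lit 1) (nat_lit 101) (nat_lit 1) (nat_lit 391) (nat_lit 432) (nat_lit 317)) (XT.lf (nat_lit 76) (nat_lit 234162054) (nat_lit 0) (nat_lit 3862338023) (nat_lit 304) (nat_lit 234162054) (nat_lit 99) (nat_lit 1) (nat_lit 98) (nat_lit 1) (nat_lit 102) (nat_lit 1) (nat_lit 392) (nat_lit 432) (nat_lit 316)))) (XT.nd (nat_lit 156) (nat_lit 532) (nat_lit 0) (XT.nd (nat_lit 78) (nat_lit 228) (nat_lit 0) (XT.lf (nat_lit 76) (nat_lit 1793288246) (nat_lit 0) (nat_lit 712903114) (nat_lit 304) (nat_lit 1793288246) (nat_lit 95) (nat_lit 1) (nat_lit 94) (nat_lit 1) (nat_lit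 98) (nat_lit 1) (nat_lit 393) (nat_lit 432) (nat_lit 315)) (XT.lf (nat_lit 304) (nat_lit 2396150358) (nat_lit 0) (nat_lit 936273271) (nat_lit 228) (nat_lit 936273271) (nat_lit 95) (nat_lit 1) (nat_lit 91) (nat_lit 1) (nat_lit 94) (nat_lit 1) (nat_lit 394) (nat_lit 432) (nat_lit 314))) (XT.nd (nat_lit 78) (nat_lit 532) (nat_lit 0) (XT.lf (nat_lit 76) (nat_lit 606598683) (nat_lit 0) (nat_lit 3025009260) (nat_lit 304) (nat_lit 606598683) (nat_lit 92) (nat_lit 1) (nat_lit 91) (nat_lit 1) (nat_lit 95) (nat_lit 1) (nat_lit 395) (nat_lit 432) (nat_lit 313)) (XT.nd (nat_lit 78) (nat_lit 304) (nat_lit 0) (XT.lf (nat_lit 304) (nat_lit 33538155) (nat_lit 0) (nat_lit 2087192912) (nat_lit 228) (nat_lit 2087192912) (nat_lit 92) (nat_lit 1) (nat_lit 88) (nat_lit 1) (nat_lit 91) (nat_lit 1) (nat_lit 396) (nat_lit 432) (nat_lit 312)) (XT.lf (nat_lit 304) (nat_lit 3062115036) (nat_lit 0) (nat_lit 557911516) (nat_lit 228) (nat_lit 557911516) (nat_lit 88)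 (nat_lit 1) (nat_lit 84) (nat_lit 1) (nat_lit 87) (nat_lit 1) (nat_lit 397) (nat_lit 432) (nat_lit 311)))))) (XT.nd (nat_lit 312) (nat_lit 684) (nat_lit 0) (XT.nd (nat_lit 156) (nat_lit 304) (nat_lit 0) (XT.nd (nat_lit 78) (nat_lit 228) (nat_lit 0) (XT.lf (nat_lit 76) (nat_lit 943020224) (nat_lit 0) (nat_lit 2262097776) (nat_lit 304) (nat_lit 943020224) (nat_lit 85) (nat_lit 1) (nat_lit 84) (nat_lit 1) (nat_lit 88) (nat_lit 1) (nat_lit 398) (nat_lit 432) (nat_lit 310)) (XT.lf (nat_lit 304) (nat_lit 718143923) (nat_lit 0) (nat_lit 1700243478) (nat_lit 228) (nat_lit 1700243478) (nat_lit 85) (nat_lit 1) (nat_lit 81) (nat_lit 1) (nat_lit 84) (nat_lit 1) (nat_lit 399) (nat_lit 432) (nat_lit 309))) (XT.nd (nat_lit 78) (nat_lit 0) (nat_lit 0) (XT.lf (nat_lit 304) (nat_lit 3660727331) (nat_lit 0) (nat_lit 214384529) (nat_lit 228) (nat_lit 214384529) (nat_lit 81) (nat_lit 1) (nat_lit 77) (nat_lit 1) (nat_lit 80) (nat_lit 1) (nat_lit 400) (nat_lit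 432) (nat_lit 308)) (XT.lf (nat_lit 76) (nat_lit 1246319435) (nat_lit 0) (nat_lit 1567727514) (nat_lit 304) (nat_lit 1246319435) (nat_lit 78) (nat_lit 1) (nat_lit 77) (nat_lit 1) (nat_lit 81) (nat_lit 1) (nat_lit 401) (nat_lit 432) (nat_lit 307)))) (XT.nd (nat_lit 156) (nat_lit 456) (nat_lit 0) (XT.nd (nat_lit 78) (nat_lit 0) (nat_lit 0) (XT.lf (nat_lit 304) (nat_lit 1337140107) (nat_lit 0) (nat_lit 1347232605) (nat_lit 228) (nat_lit 1347232605) (nat_lit 78) (nat_lit 1) (nat_lit 74) (nat_lit 1) (nat_lit 77) (nat_lit 1) (nat_lit 402) (nat_lit 432) (nat_lit 306)) (XT.lf (nat_lit 76) (nat_lit 97721475) (nat_lit 0) (nat_lit 3807791613) (nat_lit 304) (nat_lit 97721475) (nat_lit 75) (nat_lit 1) (nat_lit 74) (nat_lit 1) (nat_lit 78) (nat_lit 1) (nat_lit 403) (nat_lit 432) (nat_lit 305))) (XT.nd (nat_lit 78) (nat_lit 228) (nat_lit 0) (XT.lf (nat_lit 76) (nat_lit 1519165837) (nat_lit 0) (nat_lit 936474001) (nat_lit 228) (nat_lit 1519165837) (nat_lit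 72) (nat_lit 1) (nat_lit 71) (nat_lit 1) (nat_lit 74) (nat_lit 1) (nat_lit 404) (nat_lit 432) (nat_lit 304)) (XT.nd (nat_lit 78) (nat_lit 0) (nat_lit 0) (XT.lf (nat_lit 304) (nat_lit 1895787368) (nat_lit 0) (nat_lit 1025488057) (nat_lit 228) (nat_lit 1025488057) (nat_lit 72) (nat_lit 1) (nat_lit 68) (nat_lit 1) (nat_lit 71) (nat_lit 1) (nat_lit 405) (nat_lit 432) (nat_lit 303)) (XT.lf (nat_lit 76) (nat_lit 381545504) (nat_lit 0) (nat_lit 3155933956) (nat_lit 304) (nat_lit 381545504) (nat_lit 69) (nat_lit 1) (nat_lit 68) (nat_lit 1) (nat_lit 72) (nat_lit 1) (nat_lit 406) (nat_lit 432) (nat_lit 302))))))) (XT.nd (nat_lit 702) (nat_lit 1368) (nat_lit 0) (XT.nd (nat_lit 312) (nat_lit 760) (nat_lit 0) (XT.nd (nat_lit 156) (nat_lit 152) (nat_lit 0) (XT.nd (nat_lit 78) (nat_lit 228) (nat_lit 0) (XT.lf (nat_lit 76) (nat_lit 1764022771) (nat_lit 0) (nat_lit 363329878) (nat_lit 228) (nat_lit 1764022771) (nat_lit 66) (nat_lit 1) (nat_lit 65) (nat_lit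 1) (nat_lit 68) (nat_lit 1) (nat_lit 407) (nat_lit 432) (nat_lit 301)) (XT.lf (nat_lit 304) (nat_lit 2398940564) (nat_lit 0) (nat_lit 732542821) (nat_lit 228) (nat_lit 732542821) (nat_lit 66) (nat_lit 1) (nat_lit 62) (nat_lit 1) (nat_lit 65) (nat_lit 1) (nat_lit 408) (nat_lit 432) (nat_lit 300))) (XT.nd (nat_lit 78) (nat_lit 152) (nat_lit 0) (XT.lf (nat_lit 76) (nat_lit 638043938) (nat_lit 0) (nat_lit 2560813867) (nat_lit 304) (nat_lit 638043938) (nat_lit 63) (nat_lit 1) (nat_lit 62) (nat_lit 1) (nat_lit 66) (nat_lit 1) (nat_lit 409) (nat_lit 432) (nat_lit 299)) (XT.lf (nat_lit 228) (nat_lit 158404449) (nat_lit 0) (nat_lit 1825787170) (nat_lit 152) (nat_lit 1825787170) (nat_lit 63) (nat_lit 1) (nat_lit 60) (nat_lit 1) (nat_lit 62) (nat_lit 1) (nat_lit 410) (nat_lit 432) (nat_lit 298)))) (XT.nd (nat_lit 156) (nat_lit 456) (nat_lit 0) (XT.nd (nat_lit 78) (nat_lit 0) (nat_lit 0) (XT.lf (nat_lit 304) (nat_lit 2851079753) (nat_lit 0) (nat_lit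 466119442) (nat_lit 228) (nat_lit 466119442) (nat_lit 60) (nat_lit 1) (nat_lit 56) (nat_lit 1) (nat_lit 59) (nat_lit 1) (nat_lit 411) (nat_lit 432) (nat_lit 297)) (XT.lf (nat_lit 76) (nat_lit 869409728) (nat_lit 0) (nat_lit 2017971390) (nat_lit 304) (nat_lit 869409728) (nat_lit 57) (nat_lit 1) (nat_lit 56) (nat_lit 1) (nat_lit 60) (nat_lit 1) (nat_lit 412) (nat_lit 432) (nat_lit 296))) (XT.nd (nat_lit 78) (nat_lit 304) (nat_lit 0) (XT.lf (nat_lit 228) (nat_lit 635092058) (nat_lit 0) (nat_lit 1547715417) (nat_lit 152) (nat_lit 1547715417) (nat_lit 57) (nat_lit 1) (nat_lit 54) (nat_lit 1) (nat_lit 56) (nat_lit 1) (nat_lit 413) (nat_lit 432) (nat_lit 295)) (XT.nd (nat_lit 78) (nat_lit 0) (nat_lit 0) (XT.lf (nat_lit 304) (nat_lit 3256338838) (nat_lit 0) (nat_lit 224115558) (nat_lit 228) (nat_lit 224115558) (nat_lit 54) (nat_lit 1) (nat_lit 50) (nat_lit 1) (nat_lit 53) (nat_lit 1) (nat_lit 414) (nat_lit 432) (nat_lit 294)) (XT.lf (nat_lit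 76) (nat_lit 1077666626) (nat_lit 0) (nat_lit 1523288945) (nat_lit 304) (nat_lit 1077666626) (nat_lit 51) (nat_lit 1) (nat_lit 50) (nat_lit 1) (nat_lit 54) (nat_lit 1) (nat_lit 415) (nat_lit 432) (nat_lit 293)))))) (XT.nd (nat_lit 390) (nat_lit 760) (nat_lit 0) (XT.nd (nat_lit 156) (nat_lit 152) (nat_lit 0) (XT.nd (nat_lit 78) (nat_lit 304) (nat_lit 0) (XT.lf (nat_lit 228) (nat_lit 1065894375) (nat_lit 0) (nat_lit 1293546172) (nat_lit 152) (nat_lit 1293546172) (nat_lit 51) (nat_lit 1) (nat_lit 48) (nat_lit 1) (nat_lit 50) (nat_lit 1) (nat_lit 416) (nat_lit 432) (nat_lit 292)) (XT.lf (nat_lit 304) (nat_lit 3618532024) (nat_lit 0) (nat_lit 4590528) (nat_lit 228) (nat_lit 4590528) (nat_lit 48) (nat_lit 1) (nat_lit 44) (nat_lit 1) (nat_lit 47) (nat_lit 1) (nat_lit 417) (nat_lit 432) (nat_lit 291))) (XT.nd (nat_lit 78) (nat_lit 152) (nat_lit 0) (XT.lf (nat_lit 76) (nat_lit 1264682115) (nat_lit 0) (nat_lit 1072965198) (nat_lit 304) (nat_lit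 1264682115) (nat_lit 45) (nat_lit 1) (nat_lit 44) (nat_lit 1) (nat_lit 48) (nat_lit 1) (nat_lit 418) (nat_lit 432) (nat_lit 290)) (XT.nd (nat_lit 78) (nat_lit 0) (nat_lit 0) (XT.lf (nat_lit 228) (nat_lit 1454493685) (nat_lit 0) (nat_lit 1061405698) (nat_lit 152) (nat_lit 1061405698) (nat_lit 45) (nat_lit 1) (nat_lit 42) (nat_lit 1) (nat_lit 44) (nat_lit 1) (nat_lit 419) (nat_lit 432) (nat_lit 289)) (XT.lf (nat_lit 76) (nat_lit 195533312) (nat_lit 0) (nat_lit 3161515914) (nat_lit 228) (nat_lit 195533312) (nat_lit 43) (nat_lit 1) (nat_lit 42) (nat_lit 1) (nat_lit 45) (nat_lit 1) (nat_lit 420) (nat_lit 432) (nat_lit 288))))) (XT.nd (nat_lit 156) (nat_lit 380) (nat_lit 0) (XT.nd (nat_lit 78) (nat_lit 152) (nat_lit 0) (XT.lf (nat_lit 76) (nat_lit 1432179347) (nat_lit 0) (nat_lit 663490924) (nat_lit 228) (nat_lit 1432179347) (nat_lit 40) (nat_lit 1) (nat_lit 39) (nat_lit 1) (nat_lit 42) (nat_lit 1) (nat_lit 421) (nat_lit 432) (nat_lit 287))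 (XT.lf (nat_lit 228) (nat_lit 1804288163) (nat_lit 0) (nat_lit 849563999) (nat_lit 152) (nat_lit 849563999) (nat_lit 40) (nat_lit 1) (nat_lit 37) (nat_lit 1) (nat_lit 39) (nat_lit 1) (nat_lit 422) (nat_lit 432) (nat_lit 286))) (XT.nd (nat_lit 78) (nat_lit 380) (nat_lit 0) (XT.lf (nat_lit 76) (nat_lit 376527200) (nat_lit 0) (nat_lit 2726173099) (nat_lit 228) (nat_lit 376527200) (nat_lit 38) (nat_lit 1) (nat_lit 37) (nat_lit 1) (nat_lit 40) (nat_lit 1) (nat_lit 423) (nat_lit 432) (nat_lit 285)) (XT.nd (nat_lit 78) (nat_lit 152) (nat_lit 0) (XT.lf (nat_lit 76) (nat_lit 1581748182) (nat_lit 0) (nat_lit 291626717) (nat_lit 228) (nat_lit 1581748182) (nat_lit 35) (nat_lit 1) (nat_lit 34) (nat_lit 1) (nat_lit 37) (nat_lit 1) (nat_lit 424) (nat_lit 432) (nat_lit 284)) (XT.lf (nat_lit 228) (nat_lit 2118413588) (nat_lit 0) (nat_lit 656423854) (nat_lit 152) (nat_lit 656423854) (nat_lit 35) (nat_lit 1) (nat_lit 32) (nat_lit 1) (nat_lit 34) (nat_lit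 1) (nat_lit 425) (nat_lit 432) (nat_lit 283))))))))
noncomputable def ec196 : XT := (XT.nd (nat_lit 1404) (nat_lit 8436) (nat_lit 0) (XT.nd (nat_lit 702) (nat_lit 2432) (nat_lit 0) (XT.nd (nat_lit 312) (nat_lit 0) (nat_lit 152) (XT.nd (nat_lit 156) (nat_lit 0) (nat_lit 76) (XT.nd (nat_lit 78) (nat_lit 0) (nat_lit 76) (XT.lf (nat_lit 1900) (nat_lit 5646281087) (nat_lit 76) (nat_lit 2485699029) (nat_lit 0) (nat_lit 2485699029) (nat_lit 526) (nat_lit 1) (nat_lit 502) (nat_lit 1) (nat_lit 501) (nat_lit 1) (nat_lit 283) (nat_lit 433) (nat_lit 424)) (XT.lf (nat_lit 1900) (nat_lit 2631507834) (nat_lit 0) (nat_lit 5253294124) (nat_lit 1824) (nat_lit 2631507834) (nat_lit 527) (nat_lit 1) (nat_lit 502) (nat_lit 1) (nat_lit 526) (nat_lit 1) (nat_lit 284) (nat_lit 433) (nat_lit 423))) (XT.nd (nat_lit 78) (nat_lit 0) (nat_lit 76) (XT.lf (nat_lit 1900) (nat_lit 4852704112) (nat_lit 76) (nat_lit 2781773145) (nat_lit 0) (nat_lit 2781773145) (nat_lit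 527) (nat_lit 1) (nat_lit 503) (nat_lit 1) (nat_lit 502) (nat_lit 1) (nat_lit 285) (nat_lit 433) (nat_lit 422)) (XT.lf (nat_lit 1900) (nat_lit 2209150384) (nat_lit 0) (nat_lit 5899222057) (nat_lit 1824) (nat_lit 2209150384) (nat_lit 528) (nat_lit 1) (nat_lit 503) (nat_lit 1) (nat_lit 527) (nat_lit 1) (nat_lit 286) (nat_lit 433) (nat_lit 421)))) (XT.nd (nat_lit 156) (nat_lit 0) (nat_lit 76) (XT.nd (nat_lit 78) (nat_lit 0) (nat_lit 76) (XT.lf (nat_lit 1900) (nat_lit 3953604464) (nat_lit 76) (nat_lit 3133182811) (nat_lit 0) (nat_lit 3133182811) (nat_lit 528) (nat_lit 1) (nat_lit 504) (nat_lit 1) (nat_lit 503) (nat_lit 1) (nat_lit 287) (nat_lit 433) (nat_lit 420)) (XT.lf (nat_lit 1900) (nat_lit 1735918521) (nat_lit 0) (nat_lit 6651979717) (nat_lit 1824) (nat_lit 1735918521) (nat_lit 529) (nat_lit 1) (nat_lit 504) (nat_lit 1) (nat_lit 528) (nat_lit 1) (nat_lit 288) (nat_lit 433) (nat_lit 419))) (XT.nd (nat_lit 78) (nat_lit 0) (nat_lit 76)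 (XT.lf (nat_lit 1900) (nat_lit 2955753015) (nat_lit 76) (nat_lit 3536468838) (nat_lit 0) (nat_lit 3536468838) (nat_lit 529) (nat_lit 1) (nat_lit 505) (nat_lit 1) (nat_lit 504) (nat_lit 1) (nat_lit 289) (nat_lit 433) (nat_lit 418)) (XT.nd (nat_lit 78) (nat_lit 0) (nat_lit 0) (XT.lf (nat_lit 1900) (nat_lit 1215106880) (nat_lit 0) (nat_lit 7504832269) (nat_lit 1824) (nat_lit 1215106880) (nat_lit 530) (nat_lit 1) (nat_lit 505) (nat_lit 1) (nat_lit 529) (nat_lit 1) (nat_lit 290) (nat_lit 433) (nat_lit 417)) (XT.lf (nat_lit 1900) (nat_lit 1865605299) (nat_lit 76) (nat_lit 3988332060) (nat_lit 0) (nat_lit 3988332060) (nat_lit 530) (nat_lit 1) (nat_lit 506) (nat_lit 1) (nat_lit 505) (nat_lit 1) (nat_lit 291) (nat_lit 433) (nat_lit 416)))))) (XT.nd (nat_lit 312) (nat_lit 988) (nat_lit 0) (XT.nd (nat_lit 156) (nat_lit 1824) (nat_lit 0) (XT.nd (nat_lit 78) (nat_lit 0) (nat_lit 0) (XT.lf (nat_lit 1900) (nat_lit 649856295) (nat_lit 0) (nat_lit 8451357113)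 (nat_lit 1824) (nat_lit 649856295) (nat_lit 531) (nat_lit 1) (nat_lit 506) (nat_lit 1) (nat_lit 530) (nat_lit 1) (nat_lit 292) (nat_lit 433) (nat_lit 415)) (XT.lf (nat_lit 1900) (nat_lit 689314784) (nat_lit 76) (nat_lit 4485626608) (nat_lit 0) (nat_lit 4485626608) (nat_lit 531) (nat_lit 1) (nat_lit 507) (nat_lit 1) (nat_lit 506) (nat_lit 1) (nat_lit 293) (nat_lit 433) (nat_lit 414))) (XT.nd (nat_lit 78) (nat_lit 1900) (nat_lit 0) (XT.lf (nat_lit 1900) (nat_lit 43160282) (nat_lit 0) (nat_lit 9485430770) (nat_lit 1824) (nat_lit 43160282) (nat_lit 532) (nat_lit 1) (nat_lit 507) (nat_lit 1) (nat_lit 531) (nat_lit 1) (nat_lit 294) (nat_lit 433) (nat_lit 413)) (XT.lf (nat_lit 1976) (nat_lit 4461782075) (nat_lit 0) (nat_lit 559814747) (nat_lit 1900) (nat_lit 4461782075) (nat_lit 508) (nat_lit 1) (nat_lit 482) (nat_lit 1) (nat_lit 507) (nat_lit 1) (nat_lit 295) (nat_lit 433) (nat_lit 412)))) (XT.nd (nat_lit 156) (nat_lit 988) (nat_lit 0) (XT.nd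 (nat_lit 78) (nat_lit 0) (nat_lit 76) (XT.lf (nat_lit 1976) (nat_lit 8200310236) (nat_lit 76) (nat_lit 598167375) (nat_lit 0) (nat_lit 598167375) (nat_lit 508) (nat_lit 1) (nat_lit 483) (nat_lit 1) (nat_lit 482) (nat_lit 1) (nat_lit 296) (nat_lit 433) (nat_lit 411)) (XT.lf (nat_lit 1976) (nat_lit 3718465540) (nat_lit 0) (nat_lit 1873615824) (nat_lit 1900) (nat_lit 3718465540) (nat_lit 509) (nat_lit 1) (nat_lit 483) (nat_lit 1) (nat_lit 508) (nat_lit 1) (nat_lit 297) (nat_lit 433) (nat_lit 410))) (XT.nd (nat_lit 78) (nat_lit 1064) (nat_lit 0) (XT.lf (nat_lit 1976) (nat_lit 6676193722) (nat_lit 76) (nat_lit 1274850801) (nat_lit 0) (nat_lit 1274850801) (nat_lit 509) (nat_lit 1) (nat_lit 484) (nat_lit 1) (nat_lit 483) (nat_lit 1) (nat_lit 298) (nat_lit 433) (nat_lit 409)) (XT.nd (nat_lit 78) (nat_lit 1140) (nat_lit 0) (XT.lf (nat_lit 76) (nat_lit 2943079790) (nat_lit 0) (nat_lit 3255877073) (nat_lit 1900) (nat_lit 2943079790) (nat_lit 485)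 (nat_lit 1) (nat_lit 484) (nat_lit 1) (nat_lit 509) (nat_lit 1) (nat_lit 299) (nat_lit 433) (nat_lit 408)) (XT.lf (nat_lit 1216) (nat_lit 5090196060) (nat_lit 0) (nat_lit 1984603103) (nat_lit 1140) (nat_lit 1984603103) (nat_lit 485) (nat_lit 1) (nat_lit 469) (nat_lit 1) (nat_lit 484) (nat_lit 1) (nat_lit 300) (nat_lit 433) (nat_lit 407))))))) (XT.nd (nat_lit 702) (nat_lit 3952) (nat_lit 0) (XT.nd (nat_lit 312) (nat_lit 2660) (nat_lit 0) (XT.nd (nat_lit 156) (nat_lit 912) (nat_lit 0) (XT.nd (nat_lit 78) (nat_lit 912) (nat_lit 0) (XT.lf (nat_lit 76) (nat_lit 2138064880) (nat_lit 0) (nat_lit 4701597422) (nat_lit 1216) (nat_lit 2138064880) (nat_lit 470) (nat_lit 1) (nat_lit 469) (nat_lit 1) (nat_lit 485) (nat_lit 1) (nat_lit 301) (nat_lit 433) (nat_lit 406)) (XT.lf (nat_lit 988) (nat_lit 3447093982) (nat_lit 0) (nat_lit 2724976543) (nat_lit 912) (nat_lit 2724976543) (nat_lit 470) (nat_lit 1) (nat_lit 457) (nat_lit 1) (nat_lit 469) (nat_lit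 1) (nat_lit 302) (nat_lit 433) (nat_lit 405))) (XT.nd (nat_lit 78) (nat_lit 912) (nat_lit 0) (XT.lf (nat_lit 76) (nat_lit 1305742685) (nat_lit 0) (nat_lit 6206015932) (nat_lit 988) (nat_lit 1305742685) (nat_lit 458) (nat_lit 1) (nat_lit 457) (nat_lit 1) (nat_lit 470) (nat_lit 1) (nat_lit 303) (nat_lit 433) (nat_lit 404)) (XT.lf (nat_lit 988) (nat_lit 1751432190) (nat_lit 0) (nat_lit 3493641249) (nat_lit 912) (nat_lit 3493641249) (nat_lit 458) (nat_lit 1) (nat_lit 445) (nat_lit 1) (nat_lit 457) (nat_lit 1) (nat_lit 304) (nat_lit 433) (nat_lit 403)))) (XT.nd (nat_lit 156) (nat_lit 1824) (nat_lit 0) (XT.nd (nat_lit 78) (nat_lit 836) (nat_lit 0) (XT.lf (nat_lit 76) (nat_lit 448321954) (nat_lit 0) (nat_lit 7764601571) (nat_lit 988) (nat_lit 448321954) (nat_lit 446) (nat_lit 1) (nat_lit 445) (nat_lit 1) (nat_lit 458) (nat_lit 1) (nat_lit 305) (nat_lit 433) (nat_lit 402)) (XT.lf (nat_lit 912) (nat_lit 7533276) (nat_lit 0) (nat_lit 4288380186)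 (nat_lit 836) (nat_lit 4288380186) (nat_lit 446) (nat_lit 1) (nat_lit 434) (nat_lit 1) (nat_lit 445) (nat_lit 1) (nat_lit 306) (nat_lit 433) (nat_lit 401))) (XT.nd (nat_lit 78) (nat_lit 836) (nat_lit 0) (XT.lf (nat_lit 988) (nat_lit 7650116293) (nat_lit 0) (nat_lit 429254108) (nat_lit 912) (nat_lit 429254108) (nat_lit 434) (nat_lit 1) (nat_lit 421) (nat_lit 1) (nat_lit 433) (nat_lit 1) (nat_lit 307) (nat_lit 433) (nat_lit 400)) (XT.nd (nat_lit 78) (nat_lit 836) (nat_lit 0) (XT.lf (nat_lit 76) (nat_lit 3338151728) (nat_lit 0) (nat_lit 1757141273) (nat_lit 988) (nat_lit 3338151728) (nat_lit 422) (nat_lit 1) (nat_lit 421) (nat_lit 1) (nat_lit 434) (nat_lit 1) (nat_lit 308) (nat_lit 433) (nat_lit 399)) (XT.lf (nat_lit 912) (nat_lit 5710024848) (nat_lit 0) (nat_lit 1324743771) (nat_lit 836) (nat_lit 1324743771) (nat_lit 422) (nat_lit 1) (nat_lit 410) (nat_lit 1) (nat_lit 421) (nat_lit 1) (nat_lit 309) (nat_lit 433) (nat_lit 398)))))) (XT.nd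 (nat_lit 312) (nat_lit 2356) (nat_lit 0) (XT.nd (nat_lit 156) (nat_lit 760) (nat_lit 0) (XT.nd (nat_lit 78) (nat_lit 836) (nat_lit 0) (XT.lf (nat_lit 76) (nat_lit 2362439073) (nat_lit 0) (nat_lit 3561410095) (nat_lit 912) (nat_lit 2362439073) (nat_lit 411) (nat_lit 1) (nat_lit 410) (nat_lit 1) (nat_lit 422) (nat_lit 1) (nat_lit 310) (nat_lit 433) (nat_lit 397)) (XT.lf (nat_lit 912) (nat_lit 3735617716) (nat_lit 0) (nat_lit 2239211362) (nat_lit 836) (nat_lit 2239211362) (nat_lit 411) (nat_lit 1) (nat_lit 399) (nat_lit 1) (nat_lit 410) (nat_lit 1) (nat_lit 311) (nat_lit 433) (nat_lit 396))) (XT.nd (nat_lit 78) (nat_lit 760) (nat_lit 0) (XT.lf (nat_lit 76) (nat_lit 1370507679) (nat_lit 0) (nat_lit 5401708823) (nat_lit 912) (nat_lit 1370507679) (nat_lit 400) (nat_lit 1) (nat_lit 399) (nat_lit 1) (nat_lit 411) (nat_lit 1) (nat_lit 312) (nat_lit 433) (nat_lit 395)) (XT.lf (nat_lit 836) (nat_lit 1730377451) (nat_lit 0) (nat_lit 3170866007) (nat_lit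 760) (nat_lit 3170866007) (nat_lit 400) (nat_lit 1) (nat_lit 389) (nat_lit 1) (nat_lit 399) (nat_lit 1) (nat_lit 313) (nat_lit 433) (nat_lit 394)))) (XT.nd (nat_lit 156) (nat_lit 1520) (nat_lit 0) (XT.nd (nat_lit 78) (nat_lit 836) (nat_lit 0) (XT.lf (nat_lit 76) (nat_lit 364048260) (nat_lit 0) (nat_lit 7274558138) (nat_lit 836) (nat_lit 364048260) (nat_lit 390) (nat_lit 1) (nat_lit 389) (nat_lit 1) (nat_lit 400) (nat_lit 1) (nat_lit 314) (nat_lit 433) (nat_lit 393)) (XT.lf (nat_lit 76) (nat_lit 3817579581) (nat_lit 0) (nat_lit 298424869) (nat_lit 836) (nat_lit 3817579581) (nat_lit 379) (nat_lit 1) (nat_lit 378) (nat_lit 1) (nat_lit 389) (nat_lit 1) (nat_lit 315) (nat_lit 433) (nat_lit 392))) (XT.nd (nat_lit 78) (nat_lit 760) (nat_lit 0) (XT.lf (nat_lit 836) (nat_lit 6563596200) (nat_lit 0) (nat_lit 651023514) (nat_lit 760) (nat_lit 651023514) (nat_lit 379) (nat_lit 1) (nat_lit 368) (nat_lit 1) (nat_lit 378) (nat_lit 1) (nat_lit 316) (nat_lit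 433) (nat_lit 391)) (XT.nd (nat_lit 78) (nat_lit 760) (nat_lit 0) (XT.lf (nat_lit 76) (nat_lit 2734788376) (nat_lit 0) (nat_lit 2328605543) (nat_lit 836) (nat_lit 2734788376) (nat_lit 369) (nat_lit 1) (nat_lit 368) (nat_lit 1) (nat_lit 379) (nat_lit 1) (nat_lit 317) (nat_lit 433) (nat_lit 390)) (XT.lf (nat_lit 836) (nat_lit 4381688892) (nat_lit 0) (nat_lit 1675027422) (nat_lit 760) (nat_lit 1675027422) (nat_lit 369) (nat_lit 1) (nat_lit 358) (nat_lit 1) (nat_lit 368) (nat_lit 1) (nat_lit 318) (nat_lit 433) (nat_lit 389))))))))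
noncomputable def ec197 : XT := (XT.nd (nat_lit 1404) (nat_lit 6080) (nat_lit 0) (XT.nd (nat_lit 702) (nat_lit 3116) (nat_lit 0) (XT.nd (nat_lit 312) (nat_lit 1976) (nat_lit 0) (XT.nd (nat_lit 156) (nat_lit 760) (nat_lit 0) (XT.nd (nat_lit 78) (nat_lit 684) (nat_lit 0) (XT.lf (nat_lit 76) (nat_lit 1643057179) (nat_lit 0) (nat_lit 4379924558) (nat_lit 836) (nat_lit 1643057179) (nat_lit 359) (nat_lit 1) (nat_lit 358) (nat_lit 1) (nat_lit 369) (nat_lit 1) (nat_lit 319) (nat_lit 433) (nat_lit 388)) (XT.lf (nat_lit 760) (nat_lit 2183206387) (nat_lit 0) (nat_lit 2708925517) (nat_lit 684) (nat_lit 2708925517) (nat_lit 359) (nat_lit 1) (nat_lit 349) (nat_lit 1) (nat_lit 358) (nat_lit 1) (nat_lit 320) (nat_lit 433) (nat_lit 387))) (XT.nd (nat_lit 78) (nat_lit 760) (nat_lit 0) (XT.lf (nat_lit 76) (nat_lit 543732870) (nat_lit 0) (nat_lit 6449600837) (nat_lit 760) (nat_lit 543732870) (nat_lit 350) (nat_lit 1) (nat_lit 349) (nat_lit 1) (nat_lit 359)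 (nat_lit 1) (nat_lit 321) (nat_lit 433) (nat_lit 386)) (XT.lf (nat_lit 76) (nat_lit 3722328268) (nat_lit 0) (nat_lit 28838134) (nat_lit 760) (nat_lit 3722328268) (nat_lit 340) (nat_lit 1) (nat_lit 339) (nat_lit 1) (nat_lit 349) (nat_lit 1) (nat_lit 322) (nat_lit 433) (nat_lit 385)))) (XT.nd (nat_lit 156) (nat_lit 1292) (nat_lit 0) (XT.nd (nat_lit 78) (nat_lit 0) (nat_lit 0) (XT.lf (nat_lit 760) (nat_lit 6294462132) (nat_lit 0) (nat_lit 558212803) (nat_lit 684) (nat_lit 558212803) (nat_lit 340) (nat_lit 1) (nat_lit 330) (nat_lit 1) (nat_lit 339) (nat_lit 1) (nat_lit 323) (nat_lit 433) (nat_lit 384)) (XT.lf (nat_lit 76) (nat_lit 2562567689) (nat_lit 0) (nat_lit 2223555656) (nat_lit 760) (nat_lit 2562567689) (nat_lit 331) (nat_lit 1) (nat_lit 330) (nat_lit 1) (nat_lit 340) (nat_lit 1) (nat_lit 324) (nat_lit 433) (nat_lit 383))) (XT.nd (nat_lit 78) (nat_lit 608) (nat_lit 0) (XT.lf (nat_lit 760) (nat_lit 3964107946) (nat_lit 0) (nat_lit 1661659546)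 (nat_lit 684) (nat_lit 1661659546) (nat_lit 331) (nat_lit 1) (nat_lit 321) (nat_lit 1) (nat_lit 330) (nat_lit 1) (nat_lit 325) (nat_lit 433) (nat_lit 382)) (XT.nd (nat_lit 78) (nat_lit 608) (nat_lit 0) (XT.lf (nat_lit 76) (nat_lit 1399796693) (nat_lit 0) (nat_lit 4427256159) (nat_lit 760) (nat_lit 1399796693) (nat_lit 322) (nat_lit 1) (nat_lit 321) (nat_lit 1) (nat_lit 331) (nat_lit 1) (nat_lit 326) (nat_lit 433) (nat_lit 381)) (XT.lf (nat_lit 684) (nat_lit 1628785760) (nat_lit 0) (nat_lit 2769051487) (nat_lit 608) (nat_lit 2769051487) (nat_lit 322) (nat_lit 1) (nat_lit 313) (nat_lit 1) (nat_lit 321) (nat_lit 1) (nat_lit 327) (nat_lit 433) (nat_lit 380)))))) (XT.nd (nat_lit 312) (nat_lit 1824) (nat_lit 0) (XT.nd (nat_lit 156) (nat_lit 608) (nat_lit 0) (XT.nd (nat_lit 78) (nat_lit 684) (nat_lit 0) (XT.lf (nat_lit 76) (nat_lit 235074242) (nat_lit 0) (nat_lit 6637743637) (nat_lit 684) (nat_lit 235074242) (nat_lit 314) (nat_lit 1) (nat_lit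 313) (nat_lit 1) (nat_lit 322) (nat_lit 1) (nat_lit 328) (nat_lit 433) (nat_lit 379)) (XT.lf (nat_lit 76) (nat_lit 3174484287) (nat_lit 0) (nat_lit 700135347) (nat_lit 684) (nat_lit 3174484287) (nat_lit 305) (nat_lit 1) (nat_lit 304) (nat_lit 1) (nat_lit 313) (nat_lit 1) (nat_lit 329) (nat_lit 433) (nat_lit 378))) (XT.nd (nat_lit 78) (nat_lit 0) (nat_lit 0) (XT.lf (nat_lit 684) (nat_lit 5142302164) (nat_lit 0) (nat_lit 924477920) (nat_lit 608) (nat_lit 924477920) (nat_lit 305) (nat_lit 1) (nat_lit 296) (nat_lit 1) (nat_lit 304) (nat_lit 1) (nat_lit 330) (nat_lit 433) (nat_lit 377)) (XT.lf (nat_lit 76) (nat_lit 1962620449) (nat_lit 0) (nat_lit 3008637679) (nat_lit 684) (nat_lit 1962620449) (nat_lit 297) (nat_lit 1) (nat_lit 296) (nat_lit 1) (nat_lit 305) (nat_lit 1) (nat_lit 331) (nat_lit 433) (nat_lit 376)))) (XT.nd (nat_lit 156) (nat_lit 1216) (nat_lit 0) (XT.nd (nat_lit 78) (nat_lit 0) (nat_lit 0) (XT.lf (nat_lit 684) (nat_lit 2712249910)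 (nat_lit 0) (nat_lit 2082493108) (nat_lit 608) (nat_lit 2082493108) (nat_lit 297) (nat_lit 1) (nat_lit 288) (nat_lit 1) (nat_lit 296) (nat_lit 1) (nat_lit 332) (nat_lit 433) (nat_lit 375)) (XT.lf (nat_lit 76) (nat_lit 752540569) (nat_lit 0) (nat_lit 5316270977) (nat_lit 684) (nat_lit 752540569) (nat_lit 289) (nat_lit 1) (nat_lit 288) (nat_lit 1) (nat_lit 297) (nat_lit 1) (nat_lit 333) (nat_lit 433) (nat_lit 374))) (XT.nd (nat_lit 78) (nat_lit 684) (nat_lit 0) (XT.lf (nat_lit 608) (nat_lit 286606877) (nat_lit 0) (nat_lit 3239635600) (nat_lit 532) (nat_lit 3239635600) (nat_lit 289) (nat_lit 1) (nat_lit 281) (nat_lit 1) (nat_lit 288) (nat_lit 1) (nat_lit 334) (nat_lit 433) (nat_lit 373)) (XT.nd (nat_lit 78) (nat_lit 0) (nat_lit 0) (XT.lf (nat_lit 684) (nat_lit 5807329678) (nat_lit 0) (nat_lit 451943889) (nat_lit 608) (nat_lit 451943889) (nat_lit 281) (nat_lit 1) (nat_lit 272) (nat_lit 1) (nat_lit 280) (nat_lit 1) (nat_lit 335) (nat_lit 433)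 (nat_lit 372)) (XT.lf (nat_lit 76) (nat_lit 2275889391) (nat_lit 0) (nat_lit 2105059242) (nat_lit 684) (nat_lit 2275889391) (nat_lit 273) (nat_lit 1) (nat_lit 272) (nat_lit 1) (nat_lit 281) (nat_lit 1) (nat_lit 336) (nat_lit 433) (nat_lit 371))))))) (XT.nd (nat_lit 702) (nat_lit 2812) (nat_lit 0) (XT.nd (nat_lit 312) (nat_lit 1596) (nat_lit 0) (XT.nd (nat_lit 156) (nat_lit 1140) (nat_lit 0) (XT.nd (nat_lit 78) (nat_lit 0) (nat_lit 0) (XT.lf (nat_lit 608) (nat_lit 3306997456) (nat_lit 0) (nat_lit 1648127924) (nat_lit 532) (nat_lit 1648127924) (nat_lit 273) (nat_lit 1) (nat_lit 265) (nat_lit 1) (nat_lit 272) (nat_lit 1) (nat_lit 337) (nat_lit 433) (nat_lit 370)) (XT.lf (nat_lit 76) (nat_lit 1032361481) (nat_lit 0) (nat_lit 4485566879) (nat_lit 608) (nat_lit 1032361481) (nat_lit 266) (nat_lit 1) (nat_lit 265) (nat_lit 1) (nat_lit 273) (nat_lit 1) (nat_lit 338) (nat_lit 433) (nat_lit 369))) (XT.nd (nat_lit 78) (nat_lit 608) (nat_lit 0) (XT.lf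 (nat_lit 608) (nat_lit 817296483) (nat_lit 0) (nat_lit 2840244880) (nat_lit 532) (nat_lit 2840244880) (nat_lit 266) (nat_lit 1) (nat_lit 258) (nat_lit 1) (nat_lit 265) (nat_lit 1) (nat_lit 339) (nat_lit 433) (nat_lit 368)) (XT.lf (nat_lit 608) (nat_lit 6037720164) (nat_lit 0) (nat_lit 204189358) (nat_lit 532) (nat_lit 204189358) (nat_lit 258) (nat_lit 1) (nat_lit 250) (nat_lit 1) (nat_lit 257) (nat_lit 1) (nat_lit 340) (nat_lit 433) (nat_lit 367)))) (XT.nd (nat_lit 156) (nat_lit 1064) (nat_lit 0) (XT.nd (nat_lit 78) (nat_lit 532) (nat_lit 0) (XT.lf (nat_lit 76) (nat_lit 2377911894) (nat_lit 0) (nat_lit 1638713140) (nat_lit 608) (nat_lit 2377911894) (nat_lit 251) (nat_lit 1) (nat_lit 250) (nat_lit 1) (nat_lit 258) (nat_lit 1) (nat_lit 341) (nat_lit 433) (nat_lit 366)) (XT.lf (nat_lit 608) (nat_lit 3488281630) (nat_lit 0) (nat_lit 1427746487) (nat_lit 532) (nat_lit 1427746487) (nat_lit 251) (nat_lit 1) (nat_lit 243) (nat_lit 1) (nat_lit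 250) (nat_lit 1) (nat_lit 342) (nat_lit 433) (nat_lit 365))) (XT.nd (nat_lit 78) (nat_lit 1064) (nat_lit 0) (XT.lf (nat_lit 76) (nat_lit 1111246018) (nat_lit 0) (nat_lit 4071062619) (nat_lit 608) (nat_lit 1111246018) (nat_lit 244) (nat_lit 1) (nat_lit 243) (nat_lit 1) (nat_lit 251) (nat_lit 1) (nat_lit 343) (nat_lit 433) (nat_lit 364)) (XT.nd (nat_lit 78) (nat_lit 608) (nat_lit 0) (XT.lf (nat_lit 532) (nat_lit 954738539) (nat_lit 0) (nat_lit 2644527854) (nat_lit 456) (nat_lit 2644527854) (nat_lit 244) (nat_lit 1) (nat_lit 237) (nat_lit 1) (nat_lit 243) (nat_lit 1) (nat_lit 344) (nat_lit 433) (nat_lit 363)) (XT.lf (nat_lit 608) (nat_lit 5902266374) (nat_lit 0) (nat_lit 146271225) (nat_lit 532) (nat_lit 146271225) (nat_lit 237) (nat_lit 1) (nat_lit 229) (nat_lit 1) (nat_lit 236) (nat_lit 1) (nat_lit 345) (nat_lit 433) (nat_lit 362)))))) (XT.nd (nat_lit 390) (nat_lit 1368) (nat_lit 0) (XT.nd (nat_lit 156) (nat_lit 988) (nat_lit 0) (XT.nd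 (nat_lit 78) (nat_lit 456) (nat_lit 0) (XT.lf (nat_lit 76) (nat_lit 2302241796) (nat_lit 0) (nat_lit 1541412331) (nat_lit 608) (nat_lit 2302241796) (nat_lit 230) (nat_lit 1) (nat_lit 229) (nat_lit 1) (nat_lit 237) (nat_lit 1) (nat_lit 346) (nat_lit 433) (nat_lit 361)) (XT.lf (nat_lit 532) (nat_lit 3322006663) (nat_lit 0) (nat_lit 1387868299) (nat_lit 456) (nat_lit 1387868299) (nat_lit 230) (nat_lit 1) (nat_lit 223) (nat_lit 1) (nat_lit 229) (nat_lit 1) (nat_lit 347) (nat_lit 433) (nat_lit 360))) (XT.nd (nat_lit 78) (nat_lit 988) (nat_lit 0) (XT.lf (nat_lit 76) (nat_lit 1021338147) (nat_lit 0) (nat_lit 4007427099) (nat_lit 532) (nat_lit 1021338147) (nat_lit 224) (nat_lit 1) (nat_lit 223) (nat_lit 1) (nat_lit 230) (nat_lit 1) (nat_lit 348) (nat_lit 433) (nat_lit 359)) (XT.nd (nat_lit 78) (nat_lit 532) (nat_lit 0) (XT.lf (nat_lit 532) (nat_lit 762066185) (nat_lit 0) (nat_lit 2620407251) (nat_lit 456) (nat_lit 2620407251) (nat_lit 224) (nat_lit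 1) (nat_lit 217) (nat_lit 1) (nat_lit 223) (nat_lit 1) (nat_lit 349) (nat_lit 433) (nat_lit 358)) (XT.lf (nat_lit 532) (nat_lit 5461153829) (nat_lit 0) (nat_lit 247600620) (nat_lit 456) (nat_lit 247600620) (nat_lit 217) (nat_lit 1) (nat_lit 210) (nat_lit 1) (nat_lit 216) (nat_lit 1) (nat_lit 350) (nat_lit 433) (nat_lit 357))))) (XT.nd (nat_lit 156) (nat_lit 912) (nat_lit 0) (XT.nd (nat_lit 78) (nat_lit 456) (nat_lit 0) (XT.lf (nat_lit 76) (nat_lit 2078230208) (nat_lit 0) (nat_lit 1753475134) (nat_lit 532) (nat_lit 2078230208) (nat_lit 211) (nat_lit 1) (nat_lit 210) (nat_lit 1) (nat_lit 217) (nat_lit 1) (nat_lit 351) (nat_lit 433) (nat_lit 356)) (XT.lf (nat_lit 532) (nat_lit 2865813206) (nat_lit 0) (nat_lit 1499193408) (nat_lit 456) (nat_lit 1499193408) (nat_lit 211) (nat_lit 1) (nat_lit 204) (nat_lit 1) (nat_lit 210) (nat_lit 1) (nat_lit 352) (nat_lit 433) (nat_lit 355))) (XT.nd (nat_lit 78) (nat_lit 912) (nat_lit 0) (XT.lf (nat_lit 76)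 (nat_lit 790746954) (nat_lit 0) (nat_lit 4237495224) (nat_lit 532) (nat_lit 790746954) (nat_lit 205) (nat_lit 1) (nat_lit 204) (nat_lit 1) (nat_lit 211) (nat_lit 1) (nat_lit 353) (nat_lit 433) (nat_lit 354)) (XT.nd (nat_lit 78) (nat_lit 532) (nat_lit 0) (XT.lf (nat_lit 456) (nat_lit 294479086) (nat_lit 0) (nat_lit 2739819507) (nat_lit 380) (nat_lit 2739819507) (nat_lit 205) (nat_lit 1) (nat_lit 199) (nat_lit 1) (nat_lit 204) (nat_lit 1) (nat_lit 354) (nat_lit 433) (nat_lit 353)) (XT.lf (nat_lit 532) (nat_lit 4766962390) (nat_lit 0) (nat_lit 481436849) (nat_lit 456) (nat_lit 481436849) (nat_lit 199) (nat_lit 1) (nat_lit 192) (nat_lit 1) (nat_lit 198) (nat_lit 1) (nat_lit 355) (nat_lit 433) (nat_lit 352))))))))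
noncomputable def ec198 : XT := (XT.nd (nat_lit 1404) (nat_lit 3572) (nat_lit 0) (XT.nd (nat_lit 702) (nat_lit 2128) (nat_lit 0) (XT.nd (nat_lit 312) (nat_lit 1140) (nat_lit 0) (XT.nd (nat_lit 156) (nat_lit 456) (nat_lit 0) (XT.nd (nat_lit 78) (nat_lit 380) (nat_lit 0) (XT.lf (nat_lit 76) (nat_lit 1731514742) (nat_lit 0) (nat_lit 2222736370) (nat_lit 532) (nat_lit 1731514742) (nat_lit 193) (nat_lit 1) (nat_lit 192) (nat_lit 1) (nat_lit 199) (nat_lit 1) (nat_lit 356) (nat_lit 433) (nat_lit 351)) (XT.lf (nat_lit 456) (nat_lit 2170040626) (nat_lit 0) (nat_lit 1736116194) (nat_lit 380) (nat_lit 1736116194) (nat_lit 193) (nat_lit 1) (nat_lit 187) (nat_lit 1) (nat_lit 192) (nat_lit 1) (nat_lit 357) (nat_lit 433) (nat_lit 350))) (XT.nd (nat_lit 78) (nat_lit 456) (nat_lit 0) (XT.lf (nat_lit 76) (nat_lit 444016679) (nat_lit 0) (nat_lit 4711317826) (nat_lit 456) (nat_lit 444016679) (nat_lit 188) (nat_lit 1) (nat_lit 187) (nat_lit 1) (nat_lit 193)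 (nat_lit 1) (nat_lit 358) (nat_lit 433) (nat_lit 349)) (XT.lf (nat_lit 76) (nat_lit 2581011568) (nat_lit 0) (nat_lit 394588152) (nat_lit 456) (nat_lit 2581011568) (nat_lit 182) (nat_lit 1) (nat_lit 181) (nat_lit 1) (nat_lit 187) (nat_lit 1) (nat_lit 359) (nat_lit 433) (nat_lit 348)))) (XT.nd (nat_lit 156) (nat_lit 760) (nat_lit 0) (XT.nd (nat_lit 78) (nat_lit 0) (nat_lit 0) (XT.lf (nat_lit 456) (nat_lit 3865554135) (nat_lit 0) (nat_lit 824438763) (nat_lit 380) (nat_lit 824438763) (nat_lit 182) (nat_lit 1) (nat_lit 176) (nat_lit 1) (nat_lit 181) (nat_lit 1) (nat_lit 360) (nat_lit 433) (nat_lit 347)) (XT.lf (nat_lit 76) (nat_lit 1284453199) (nat_lit 0) (nat_lit 2903670733) (nat_lit 456) (nat_lit 1284453199) (nat_lit 177) (nat_lit 1) (nat_lit 176) (nat_lit 1) (nat_lit 182) (nat_lit 1) (nat_lit 361) (nat_lit 433) (nat_lit 346))) (XT.nd (nat_lit 78) (nat_lit 380) (nat_lit 0) (XT.lf (nat_lit 456) (nat_lit 1278580030) (nat_lit 0) (nat_lit 2076294339)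 (nat_lit 380) (nat_lit 2076294339) (nat_lit 177) (nat_lit 1) (nat_lit 171) (nat_lit 1) (nat_lit 176) (nat_lit 1) (nat_lit 362) (nat_lit 433) (nat_lit 345)) (XT.nd (nat_lit 78) (nat_lit 380) (nat_lit 0) (XT.lf (nat_lit 76) (nat_lit 2543381) (nat_lit 0) (nat_lit 5385319425) (nat_lit 456) (nat_lit 2543381) (nat_lit 172) (nat_lit 1) (nat_lit 171) (nat_lit 1) (nat_lit 177) (nat_lit 1) (nat_lit 363) (nat_lit 433) (nat_lit 344)) (XT.lf (nat_lit 76) (nat_lit 2043744468) (nat_lit 0) (nat_lit 1262093228) (nat_lit 380) (nat_lit 2043744468) (nat_lit 167) (nat_lit 1) (nat_lit 166) (nat_lit 1) (nat_lit 171) (nat_lit 1) (nat_lit 364) (nat_lit 433) (nat_lit 343)))))) (XT.nd (nat_lit 312) (nat_lit 988) (nat_lit 0) (XT.nd (nat_lit 156) (nat_lit 760) (nat_lit 0) (XT.nd (nat_lit 78) (nat_lit 0) (nat_lit 0) (XT.lf (nat_lit 456) (nat_lit 2796860327) (nat_lit 0) (nat_lit 1256267089) (nat_lit 380) (nat_lit 1256267089) (nat_lit 167) (nat_lit 1) (nat_lit 161)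 (nat_lit 1) (nat_lit 166) (nat_lit 1) (nat_lit 365) (nat_lit 433) (nat_lit 342)) (XT.lf (nat_lit 76) (nat_lit 756507953) (nat_lit 0) (nat_lit 3756615752) (nat_lit 456) (nat_lit 756507953) (nat_lit 162) (nat_lit 1) (nat_lit 161) (nat_lit 1) (nat_lit 167) (nat_lit 1) (nat_lit 366) (nat_lit 433) (nat_lit 341))) (XT.nd (nat_lit 78) (nat_lit 456) (nat_lit 0) (XT.lf (nat_lit 380) (nat_lit 229630329) (nat_lit 0) (nat_lit 2500266773) (nat_lit 304) (nat_lit 2500266773) (nat_lit 162) (nat_lit 1) (nat_lit 157) (nat_lit 1) (nat_lit 161) (nat_lit 1) (nat_lit 367) (nat_lit 433) (nat_lit 340)) (XT.lf (nat_lit 456) (nat_lit 4167837223) (nat_lit 0) (nat_lit 511667253) (nat_lit 380) (nat_lit 511667253) (nat_lit 157) (nat_lit 1) (nat_lit 151) (nat_lit 1) (nat_lit 156) (nat_lit 1) (nat_lit 368) (nat_lit 433) (nat_lit 339)))) (XT.nd (nat_lit 156) (nat_lit 684) (nat_lit 0) (XT.nd (nat_lit 78) (nat_lit 304) (nat_lit 0) (XT.lf (nat_lit 76) (nat_lit 1438267258)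 (nat_lit 0) (nat_lit 2275839176) (nat_lit 456) (nat_lit 1438267258) (nat_lit 152) (nat_lit 1) (nat_lit 151) (nat_lit 1) (nat_lit 157) (nat_lit 1) (nat_lit 369) (nat_lit 433) (nat_lit 338)) (XT.lf (nat_lit 380) (nat_lit 1595578844) (nat_lit 0) (nat_lit 1759231988) (nat_lit 304) (nat_lit 1759231988) (nat_lit 152) (nat_lit 1) (nat_lit 147) (nat_lit 1) (nat_lit 151) (nat_lit 1) (nat_lit 370) (nat_lit 433) (nat_lit 337))) (XT.nd (nat_lit 78) (nat_lit 684) (nat_lit 0) (XT.lf (nat_lit 76) (nat_lit 164586601) (nat_lit 0) (nat_lit 4747083141) (nat_lit 380) (nat_lit 164586601) (nat_lit 148) (nat_lit 1) (nat_lit 147) (nat_lit 1) (nat_lit 152) (nat_lit 1) (nat_lit 371) (nat_lit 433) (nat_lit 336)) (XT.nd (nat_lit 78) (nat_lit 304) (nat_lit 0) (XT.lf (nat_lit 76) (nat_lit 2053610006) (nat_lit 0) (nat_lit 931255864) (nat_lit 380) (nat_lit 2053610006) (nat_lit 143) (nat_lit 1) (nat_lit 142) (nat_lit 1) (nat_lit 147) (nat_lit 1) (nat_lit 372) (nat_lit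 433) (nat_lit 335)) (XT.lf (nat_lit 380) (nat_lit 2830377938) (nat_lit 0) (nat_lit 1085427019) (nat_lit 304) (nat_lit 1085427019) (nat_lit 143) (nat_lit 1) (nat_lit 138) (nat_lit 1) (nat_lit 142) (nat_lit 1) (nat_lit 373) (nat_lit 433) (nat_lit 334))))))) (XT.nd (nat_lit 702) (nat_lit 1976) (nat_lit 0) (XT.nd (nat_lit 312) (nat_lit 912) (nat_lit 0) (XT.nd (nat_lit 156) (nat_lit 380) (nat_lit 0) (XT.nd (nat_lit 78) (nat_lit 304) (nat_lit 0) (XT.lf (nat_lit 76) (nat_lit 779913879) (nat_lit 0) (nat_lit 3404523057) (nat_lit 380) (nat_lit 779913879) (nat_lit 139) (nat_lit 1) (nat_lit 138) (nat_lit 1) (nat_lit 143) (nat_lit 1) (nat_lit 374) (nat_lit 433) (nat_lit 333)) (XT.lf (nat_lit 380) (nat_lit 291792150) (nat_lit 0) (nat_lit 2317980743) (nat_lit 304) (nat_lit 2317980743) (nat_lit 139) (nat_lit 1) (nat_lit 134) (nat_lit 1) (nat_lit 138) (nat_lit 1) (nat_lit 375) (nat_lit 433) (nat_lit 332))) (XT.nd (nat_lit 78) (nat_lit 0) (nat_lit 0) (XT.lf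 (nat_lit 380) (nat_lit 3944547125) (nat_lit 0) (nat_lit 473520310) (nat_lit 304) (nat_lit 473520310) (nat_lit 134) (nat_lit 1) (nat_lit 129) (nat_lit 1) (nat_lit 133) (nat_lit 1) (nat_lit 376) (nat_lit 433) (nat_lit 331)) (XT.lf (nat_lit 76) (nat_lit 1336070164) (nat_lit 0) (nat_lit 2183441300) (nat_lit 380) (nat_lit 1336070164) (nat_lit 130) (nat_lit 1) (nat_lit 129) (nat_lit 1) (nat_lit 134) (nat_lit 1) (nat_lit 377) (nat_lit 433) (nat_lit 330)))) (XT.nd (nat_lit 156) (nat_lit 608) (nat_lit 0) (XT.nd (nat_lit 78) (nat_lit 0) (nat_lit 0) (XT.lf (nat_lit 380) (nat_lit 1410317941) (nat_lit 0) (nat_lit 1704840957) (nat_lit 304) (nat_lit 1704840957) (nat_lit 130) (nat_lit 1) (nat_lit 125) (nat_lit 1) (nat_lit 129) (nat_lit 1) (nat_lit 378) (nat_lit 433) (nat_lit 329)) (XT.lf (nat_lit 76) (nat_lit 81948657) (nat_lit 0) (nat_lit 4621035313) (nat_lit 380) (nat_lit 81948657) (nat_lit 126) (nat_lit 1) (nat_lit 125) (nat_lit 1) (nat_lit 130) (nat_lit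 1) (nat_lit 379) (nat_lit 433) (nat_lit 328))) (XT.nd (nat_lit 78) (nat_lit 304) (nat_lit 0) (XT.lf (nat_lit 76) (nat_lit 1837802991) (nat_lit 0) (nat_lit 1074209558) (nat_lit 304) (nat_lit 1837802991) (nat_lit 122) (nat_lit 1) (nat_lit 121) (nat_lit 1) (nat_lit 125) (nat_lit 1) (nat_lit 380) (nat_lit 433) (nat_lit 327)) (XT.nd (nat_lit 78) (nat_lit 0) (nat_lit 0) (XT.lf (nat_lit 380) (nat_lit 2421295288) (nat_lit 0) (nat_lit 1146955647) (nat_lit 304) (nat_lit 1146955647) (nat_lit 122) (nat_lit 1) (nat_lit 117) (nat_lit 1) (nat_lit 121) (nat_lit 1) (nat_lit 381) (nat_lit 433) (nat_lit 326)) (XT.lf (nat_lit 76) (nat_lit 587771926) (nat_lit 0) (nat_lit 3505417966) (nat_lit 380) (nat_lit 587771926) (nat_lit 118) (nat_lit 1) (nat_lit 117) (nat_lit 1) (nat_lit 122) (nat_lit 1) (nat_lit 382) (nat_lit 433) (nat_lit 325)))))) (XT.nd (nat_lit 390) (nat_lit 760) (nat_lit 0) (XT.nd (nat_lit 156) (nat_lit 608) (nat_lit 0) (XT.nd (nat_lit 78) (nat_lit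 304) (nat_lit 0) (XT.lf (nat_lit 76) (nat_lit 2289493614) (nat_lit 0) (nat_lit 67940156) (nat_lit 304) (nat_lit 2289493614) (nat_lit 114) (nat_lit 1) (nat_lit 113) (nat_lit 1) (nat_lit 117) (nat_lit 1) (nat_lit 383) (nat_lit 433) (nat_lit 324)) (XT.lf (nat_lit 380) (nat_lit 3333353075) (nat_lit 0) (nat_lit 639949069) (nat_lit 304) (nat_lit 639949069) (nat_lit 114) (nat_lit 1) (nat_lit 109) (nat_lit 1) (nat_lit 113) (nat_lit 1) (nat_lit 384) (nat_lit 433) (nat_lit 323))) (XT.nd (nat_lit 78) (nat_lit 608) (nat_lit 0) (XT.lf (nat_lit 76) (nat_lit 1045033967) (nat_lit 0) (nat_lit 2489734578) (nat_lit 380) (nat_lit 1045033967) (nat_lit 110) (nat_lit 1) (nat_lit 109) (nat_lit 1) (nat_lit 114) (nat_lit 1) (nat_lit 385) (nat_lit 433) (nat_lit 322)) (XT.nd (nat_lit 78) (nat_lit 380) (nat_lit 0) (XT.lf (nat_lit 304) (nat_lit 854781102) (nat_lit 0) (nat_lit 1845953697) (nat_lit 228) (nat_lit 1845953697) (nat_lit 110) (nat_lit 1) (nat_lit 106) (nat_lit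 1) (nat_lit 109) (nat_lit 1) (nat_lit 386) (nat_lit 433) (nat_lit 321)) (XT.lf (nat_lit 380) (nat_lit 4154454460) (nat_lit 0) (nat_lit 179782001) (nat_lit 304) (nat_lit 179782001) (nat_lit 106) (nat_lit 1) (nat_lit 101) (nat_lit 1) (nat_lit 105) (nat_lit 1) (nat_lit 387) (nat_lit 433) (nat_lit 320))))) (XT.nd (nat_lit 156) (nat_lit 532) (nat_lit 0) (XT.nd (nat_lit 78) (nat_lit 228) (nat_lit 0) (XT.lf (nat_lit 76) (nat_lit 1457629813) (nat_lit 0) (nat_lit 1566081102) (nat_lit 380) (nat_lit 1457629813) (nat_lit 102) (nat_lit 1) (nat_lit 101) (nat_lit 1) (nat_lit 106) (nat_lit 1) (nat_lit 388) (nat_lit 433) (nat_lit 319)) (XT.lf (nat_lit 304) (nat_lit 1690059567) (nat_lit 0) (nat_lit 1379521072) (nat_lit 228) (nat_lit 1379521072) (nat_lit 102) (nat_lit 1) (nat_lit 98) (nat_lit 1) (nat_lit 101) (nat_lit 1) (nat_lit 389) (nat_lit 433) (nat_lit 318))) (XT.nd (nat_lit 78) (nat_lit 532) (nat_lit 0) (XT.lf (nat_lit 76) (nat_lit 238845295) (nat_lit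 0) (nat_lit 3939584784) (nat_lit 304) (nat_lit 238845295) (nat_lit 99) (nat_lit 1) (nat_lit 98) (nat_lit 1) (nat_lit 102) (nat_lit 1) (nat_lit 390) (nat_lit 433) (nat_lit 317)) (XT.nd (nat_lit 78) (nat_lit 228) (nat_lit 0) (XT.lf (nat_lit 76) (nat_lit 1829154011) (nat_lit 0) (nat_lit 727161177) (nat_lit 304) (nat_lit 1829154011) (nat_lit 95) (nat_lit 1) (nat_lit 94) (nat_lit 1) (nat_lit 98) (nat_lit 1) (nat_lit 391) (nat_lit 433) (nat_lit 316)) (XT.lf (nat_lit 304) (nat_lit 2444073365) (nat_lit 0) (nat_lit 954998736) (nat_lit 228) (nat_lit 954998736) (nat_lit 95) (nat_lit 1) (nat_lit 91) (nat_lit 1) (nat_lit 94) (nat_lit 1) (nat_lit 392) (nat_lit 433) (nat_lit 315))))))))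
noncomputable def ec199 : XT := (XT.nd (nat_lit 1404) (nat_lit 1824) (nat_lit 0) (XT.nd (nat_lit 702) (nat_lit 1368) (nat_lit 0) (XT.nd (nat_lit 312) (nat_lit 760) (nat_lit 0) (XT.nd (nat_lit 156) (nat_lit 304) (nat_lit 0) (XT.nd (nat_lit 78) (nat_lit 228) (nat_lit 0) (XT.lf (nat_lit 76) (nat_lit 618730657) (nat_lit 0) (nat_lit 3085509445) (nat_lit 304) (nat_lit 618730657) (nat_lit 92) (nat_lit 1) (nat_lit 91) (nat_lit 1) (nat_lit 95) (nat_lit 1) (nat_lit 393) (nat_lit 433) (nat_lit 314)) (XT.lf (nat_lit 304) (nat_lit 34208918) (nat_lit 0) (nat_lit 2128936770) (nat_lit 228) (nat_lit 2128936770) (nat_lit 92) (nat_lit 1) (nat_lit 88) (nat_lit 1) (nat_lit 91) (nat_lit 1) (nat_lit 394) (nat_lit 433) (nat_lit 313))) (XT.nd (nat_lit 78) (nat_lit 0) (nat_lit 0) (XT.lf (nat_lit 304) (nat_lit 3123357337) (nat_lit 0) (nat_lit 569069746) (nat_lit 228) (nat_lit 569069746) (nat_lit 88) (nat_lit 1) (nat_lit 84) (nat_lit 1) (nat_lit 87) (nat_lit 1)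 (nat_lit 395) (nat_lit 433) (nat_lit 312)) (XT.lf (nat_lit 76) (nat_lit 961880628) (nat_lit 0) (nat_lit 2307339731) (nat_lit 304) (nat_lit 961880628) (nat_lit 85) (nat_lit 1) (nat_lit 84) (nat_lit 1) (nat_lit 88) (nat_lit 1) (nat_lit 396) (nat_lit 433) (nat_lit 311)))) (XT.nd (nat_lit 156) (nat_lit 228) (nat_lit 0) (XT.nd (nat_lit 78) (nat_lit 304) (nat_lit 0) (XT.lf (nat_lit 304) (nat_lit 732506801) (nat_lit 0) (nat_lit 1734248348) (nat_lit 228) (nat_lit 1734248348) (nat_lit 85) (nat_lit 1) (nat_lit 81) (nat_lit 1) (nat_lit 84) (nat_lit 1) (nat_lit 397) (nat_lit 433) (nat_lit 310)) (XT.lf (nat_lit 304) (nat_lit 3733941878) (nat_lit 0) (nat_lit 218672220) (nat_lit 228) (nat_lit 218672220) (nat_lit 81) (nat_lit 1) (nat_lit 77) (nat_lit 1) (nat_lit 80) (nat_lit 1) (nat_lit 398) (nat_lit 433) (nat_lit 309))) (XT.nd (nat_lit 78) (nat_lit 228) (nat_lit 0) (XT.lf (nat_lit 76) (nat_lit 1271245823) (nat_lit 0) (nat_lit 1599082064) (nat_lit 304)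 (nat_lit 1271245823) (nat_lit 78) (nat_lit 1) (nat_lit 77) (nat_lit 1) (nat_lit 81) (nat_lit 1) (nat_lit 399) (nat_lit 433) (nat_lit 308)) (XT.nd (nat_lit 78) (nat_lit 0) (nat_lit 0) (XT.lf (nat_lit 304) (nat_lit 1363882909) (nat_lit 0) (nat_lit 1374177257) (nat_lit 228) (nat_lit 1374177257) (nat_lit 78) (nat_lit 1) (nat_lit 74) (nat_lit 1) (nat_lit 77) (nat_lit 1) (nat_lit 400) (nat_lit 433) (nat_lit 307)) (XT.lf (nat_lit 76) (nat_lit 99675904) (nat_lit 0) (nat_lit 3883947445) (nat_lit 304) (nat_lit 99675904) (nat_lit 75) (nat_lit 1) (nat_lit 74) (nat_lit 1) (nat_lit 78) (nat_lit 1) (nat_lit 401) (nat_lit 433) (nat_lit 306)))))) (XT.nd (nat_lit 312) (nat_lit 684) (nat_lit 0) (XT.nd (nat_lit 156) (nat_lit 228) (nat_lit 0) (XT.nd (nat_lit 78) (nat_lit 228) (nat_lit 0) (XT.lf (nat_lit 76) (nat_lit 1549549154) (nat_lit 0) (nat_lit 955203481) (nat_lit 228) (nat_lit 1549549154) (nat_lit 72) (nat_lit 1) (nat_lit 71) (nat_lit 1) (nat_lit 74)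 (nat_lit 1) (nat_lit 402) (nat_lit 433) (nat_lit 305)) (XT.lf (nat_lit 304) (nat_lit 1933703116) (nat_lit 0) (nat_lit 1045997819) (nat_lit 228) (nat_lit 1045997819) (nat_lit 72) (nat_lit 1) (nat_lit 68) (nat_lit 1) (nat_lit 71) (nat_lit 1) (nat_lit 403) (nat_lit 433) (nat_lit 304))) (XT.nd (nat_lit 78) (nat_lit 228) (nat_lit 0) (XT.lf (nat_lit 76) (nat_lit 389176414) (nat_lit 0) (nat_lit 3219052635) (nat_lit 304) (nat_lit 389176414) (nat_lit 69) (nat_lit 1) (nat_lit 68) (nat_lit 1) (nat_lit 72) (nat_lit 1) (nat_lit 404) (nat_lit 433) (nat_lit 303)) (XT.lf (nat_lit 76) (nat_lit 1799303226) (nat_lit 0) (nat_lit 370596476) (nat_lit 228) (nat_lit 1799303226) (nat_lit 66) (nat_lit 1) (nat_lit 65) (nat_lit 1) (nat_lit 68) (nat_lit 1) (nat_lit 405) (nat_lit 433) (nat_lit 302)))) (XT.nd (nat_lit 156) (nat_lit 456) (nat_lit 0) (XT.nd (nat_lit 78) (nat_lit 0) (nat_lit 0) (XT.lf (nat_lit 304) (nat_lit 2446919376) (nat_lit 0) (nat_lit 747193678)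 (nat_lit 228) (nat_lit 747193678) (nat_lit 66) (nat_lit 1) (nat_lit 62) (nat_lit 1) (nat_lit 65) (nat_lit 1) (nat_lit 406) (nat_lit 433) (nat_lit 301)) (XT.lf (nat_lit 76) (nat_lit 650804817) (nat_lit 0) (nat_lit 2612030144) (nat_lit 304) (nat_lit 650804817) (nat_lit 63) (nat_lit 1) (nat_lit 62) (nat_lit 1) (nat_lit 66) (nat_lit 1) (nat_lit 407) (nat_lit 433) (nat_lit 300))) (XT.nd (nat_lit 78) (nat_lit 304) (nat_lit 0) (XT.lf (nat_lit 228) (nat_lit 161572538) (nat_lit 0) (nat_lit 1862302914) (nat_lit 152) (nat_lit 1862302914) (nat_lit 63) (nat_lit 1) (nat_lit 60) (nat_lit 1) (nat_lit 62) (nat_lit 1) (nat_lit 408) (nat_lit 433) (nat_lit 299)) (XT.nd (nat_lit 78) (nat_lit 0) (nat_lit 0) (XT.lf (nat_lit 304) (nat_lit 2908101348) (nat_lit 0) (nat_lit 475441831) (nat_lit 228) (nat_lit 475441831) (nat_lit 60) (nat_lit 1) (nat_lit 56) (nat_lit 1) (nat_lit 59) (nat_lit 1) (nat_lit 409) (nat_lit 433) (nat_lit 298)) (XT.lf (nat_lit 76) (nat_lit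 886797923) (nat_lit 0) (nat_lit 2058330818) (nat_lit 304) (nat_lit 886797923) (nat_lit 57) (nat_lit 1) (nat_lit 56) (nat_lit 1) (nat_lit 60) (nat_lit 1) (nat_lit 410) (nat_lit 433) (nat_lit 297))))))) (XT.nd (nat_lit 702) (nat_lit 532) (nat_lit 0) (XT.nd (nat_lit 312) (nat_lit 684) (nat_lit 0) (XT.nd (nat_lit 156) (nat_lit 152) (nat_lit 0) (XT.nd (nat_lit 78) (nat_lit 304) (nat_lit 0) (XT.lf (nat_lit 228) (nat_lit 647793899) (nat_lit 0) (nat_lit 1578669725) (nat_lit 152) (nat_lit 1578669725) (nat_lit 57) (nat_lit 1) (nat_lit 54) (nat_lit 1) (nat_lit 56) (nat_lit 1) (nat_lit 411) (nat_lit 433) (nat_lit 296)) (XT.lf (nat_lit 304) (nat_lit 3321465614) (nat_lit 0) (nat_lit 228597869) (nat_lit 228) (nat_lit 228597869) (nat_lit 54) (nat_lit 1) (nat_lit 50) (nat_lit 1) (nat_lit 53) (nat_lit 1) (nat_lit 412) (nat_lit 433) (nat_lit 295))) (XT.nd (nat_lit 78) (nat_lit 152) (nat_lit 0) (XT.lf (nat_lit 76) (nat_lit 1099219959) (nat_lit 0) (nat_lit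 1553754724) (nat_lit 304) (nat_lit 1099219959) (nat_lit 51) (nat_lit 1) (nat_lit 50) (nat_lit 1) (nat_lit 54) (nat_lit 1) (nat_lit 413) (nat_lit 433) (nat_lit 294)) (XT.lf (nat_lit 228) (nat_lit 1087212263) (nat_lit 0) (nat_lit 1319417096) (nat_lit 152) (nat_lit 1319417096) (nat_lit 51) (nat_lit 1) (nat_lit 48) (nat_lit 1) (nat_lit 50) (nat_lit 1) (nat_lit 414) (nat_lit 433) (nat_lit 293)))) (XT.nd (nat_lit 156) (nat_lit 380) (nat_lit 0) (XT.nd (nat_lit 78) (nat_lit 0) (nat_lit 0) (XT.lf (nat_lit 304) (nat_lit 3690902664) (nat_lit 0) (nat_lit 4682338) (nat_lit 228) (nat_lit 4682338) (nat_lit 48) (nat_lit 1) (nat_lit 44) (nat_lit 1) (nat_lit 47) (nat_lit 1) (nat_lit 415) (nat_lit 433) (nat_lit 292)) (XT.lf (nat_lit 76) (nat_lit 1289975757) (nat_lit 0) (nat_lit 1094424502) (nat_lit 304) (nat_lit 1289975757) (nat_lit 45) (nat_lit 1) (nat_lit 44) (nat_lit 1) (nat_lit 48) (nat_lit 1) (nat_lit 416) (nat_lit 433) (nat_lit 291))) (XT.nd (nat_lit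 78) (nat_lit 228) (nat_lit 0) (XT.lf (nat_lit 228) (nat_lit 1483583559) (nat_lit 0) (nat_lit 1082633812) (nat_lit 152) (nat_lit 1082633812) (nat_lit 45) (nat_lit 1) (nat_lit 42) (nat_lit 1) (nat_lit 44) (nat_lit 1) (nat_lit 417) (nat_lit 433) (nat_lit 290)) (XT.nd (nat_lit 78) (nat_lit 228) (nat_lit 0) (XT.lf (nat_lit 76) (nat_lit 199443979) (nat_lit 0) (nat_lit 3224746232) (nat_lit 228) (nat_lit 199443979) (nat_lit 43) (nat_lit 1) (nat_lit 42) (nat_lit 1) (nat_lit 45) (nat_lit 1) (nat_lit 418) (nat_lit 433) (nat_lit 289)) (XT.lf (nat_lit 76) (nat_lit 1460822934) (nat_lit 0) (nat_lit 676760743) (nat_lit 228) (nat_lit 1460822934) (nat_lit 40) (nat_lit 1) (nat_lit 39) (nat_lit 1) (nat_lit 42) (nat_lit 1) (nat_lit 419) (nat_lit 433) (nat_lit 288)))))) (XT.nd (nat_lit 48750) (nat_lit 0) (nat_lit 35796) (XT.nd (nat_lit 156) (nat_lit 380) (nat_lit 0) (XT.nd (nat_lit 78) (nat_lit 0) (nat_lit 0) (XT.lf (nat_lit 228) (nat_lit 1840373927) (nat_lit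 0) (nat_lit 866555279) (nat_lit 152) (nat_lit 866555279) (nat_lit 40) (nat_lit 1) (nat_lit 37) (nat_lit 1) (nat_lit 39) (nat_lit 1) (nat_lit 420) (nat_lit 433) (nat_lit 287)) (XT.lf (nat_lit 76) (nat_lit 384057744) (nat_lit 0) (nat_lit 2780696561) (nat_lit 228) (nat_lit 384057744) (nat_lit 38) (nat_lit 1) (nat_lit 37) (nat_lit 1) (nat_lit 40) (nat_lit 1) (nat_lit 421) (nat_lit 433) (nat_lit 286))) (XT.nd (nat_lit 78) (nat_lit 152) (nat_lit 0) (XT.lf (nat_lit 76) (nat_lit 1613383145) (nat_lit 0) (nat_lit 297459251) (nat_lit 228) (nat_lit 1613383145) (nat_lit 35) (nat_lit 1) (nat_lit 34) (nat_lit 1) (nat_lit 37) (nat_lit 1) (nat_lit 422) (nat_lit 433) (nat_lit 285)) (XT.nd (nat_lit 78) (nat_lit 0) (nat_lit 0) (XT.lf (nat_lit 228) (nat_lit 2160781860) (nat_lit 0) (nat_lit 669552331) (nat_lit 152) (nat_lit 669552331) (nat_lit 35) (nat_lit 1) (nat_lit 32) (nat_lit 1) (nat_lit 34) (nat_lit 1) (nat_lit 423) (nat_lit 433) (nat_lit 284)) (XT.lf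 (nat_lit 76) (nat_lit 550694635) (nat_lit 0) (nat_lit 2374354882) (nat_lit 228) (nat_lit 550694635) (nat_lit 33) (nat_lit 1) (nat_lit 32) (nat_lit 1) (nat_lit 35) (nat_lit 1) (nat_lit 424) (nat_lit 433) (nat_lit 283))))) (XT.nd (nat_lit 156) (nat_lit 0) (nat_lit 76) (XT.nd (nat_lit 78) (nat_lit 0) (nat_lit 0) (XT.lf (nat_lit 1900) (nat_lit 2253333391) (nat_lit 0) (nat_lit 6017206498) (nat_lit 1824) (nat_lit 2253333391) (nat_lit 528) (nat_lit 1) (nat_lit 503) (nat_lit 1) (nat_lit 527) (nat_lit 1) (nat_lit 284) (nat_lit 434) (nat_lit 422)) (XT.lf (nat_lit 1900) (nat_lit 4032676554) (nat_lit 76) (nat_lit 3195846467) (nat_lit 0) (nat_lit 3195846467) (nat_lit 528) (nat_lit 1) (nat_lit 504) (nat_lit 1) (nat_lit 503) (nat_lit 1) (nat_lit 285) (nat_lit 434) (nat_lit 421))) (XT.nd (nat_lit 78) (nat_lit 0) (nat_lit 0) (XT.lf (nat_lit 1900) (nat_lit 1770636891) (nat_lit 0) (nat_lit 6785019312) (nat_lit 1824) (nat_lit 1770636891) (nat_lit 529) (nat_lit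 1) (nat_lit 504) (nat_lit 1) (nat_lit 528) (nat_lit 1) (nat_lit 286) (nat_lit 434) (nat_lit 420)) (XT.nd (nat_lit 78) (nat_lit 0) (nat_lit 76) (XT.lf (nat_lit 1900) (nat_lit 3014868076) (nat_lit 76) (nat_lit 3607198215) (nat_lit 0) (nat_lit 3607198215) (nat_lit 529) (nat_lit 1) (nat_lit 505) (nat_lit 1) (nat_lit 504) (nat_lit 1) (nat_lit 287) (nat_lit 434) (nat_lit 419)) (XT.lf (nat_lit 1900) (nat_lit 1239409017) (nat_lit 0) (nat_lit 7654928914) (nat_lit 1824) (nat_lit 1239409017) (nat_lit 530) (nat_lit 1) (nat_lit 505) (nat_lit 1) (nat_lit 529) (nat_lit 1) (nat_lit 288) (nat_lit 434) (nat_lit 418))))))))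
noncomputable def ec200 : XT := (XT.nd (nat_lit 1404) (nat_lit 7600) (nat_lit 0) (XT.nd (nat_lit 702) (nat_lit 4636) (nat_lit 0) (XT.nd (nat_lit 312) (nat_lit 1748) (nat_lit 0) (XT.nd (nat_lit 156) (nat_lit 0) (nat_lit 76) (XT.nd (nat_lit 78) (nat_lit 0) (nat_lit 76) (XT.lf (nat_lit 1900) (nat_lit 1902917405) (nat_lit 76) (nat_lit 4068098701) (nat_lit 0) (nat_lit 4068098701) (nat_lit 530) (nat_lit 1) (nat_lit 506) (nat_lit 1) (nat_lit 505) (nat_lit 1) (nat_lit 289) (nat_lit 434) (nat_lit 417)) (XT.lf (nat_lit 1900) (nat_lit 662853421) (nat_lit 0) (nat_lit 8620384255) (nat_lit 1824) (nat_lit 662853421) (nat_lit 531) (nat_lit 1) (nat_lit 506) (nat_lit 1) (nat_lit 530) (nat_lit 1) (nat_lit 290) (nat_lit 434) (nat_lit 416))) (XT.nd (nat_lit 78) (nat_lit 0) (nat_lit 76) (XT.lf (nat_lit 1900) (nat_lit 703101080) (nat_lit 76) (nat_lit 4575339141) (nat_lit 0) (nat_lit 4575339141) (nat_lit 531) (nat_lit 1) (nat_lit 507) (nat_lit 1) (nat_lit 506)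 (nat_lit 1) (nat_lit 291) (nat_lit 434) (nat_lit 415)) (XT.lf (nat_lit 1900) (nat_lit 44023487) (nat_lit 0) (nat_lit 9675139385) (nat_lit 1824) (nat_lit 44023487) (nat_lit 532) (nat_lit 1) (nat_lit 507) (nat_lit 1) (nat_lit 531) (nat_lit 1) (nat_lit 292) (nat_lit 434) (nat_lit 414)))) (XT.nd (nat_lit 156) (nat_lit 0) (nat_lit 76) (XT.nd (nat_lit 78) (nat_lit 0) (nat_lit 0) (XT.lf (nat_lit 1976) (nat_lit 4551017717) (nat_lit 0) (nat_lit 571011042) (nat_lit 1900) (nat_lit 4551017717) (nat_lit 508) (nat_lit 1) (nat_lit 482) (nat_lit 1) (nat_lit 507) (nat_lit 1) (nat_lit 293) (nat_lit 434) (nat_lit 413)) (XT.lf (nat_lit 1976) (nat_lit 8364316440) (nat_lit 76) (nat_lit 610130723) (nat_lit 0) (nat_lit 610130723) (nat_lit 508) (nat_lit 1) (nat_lit 483) (nat_lit 1) (nat_lit 482) (nat_lit 1) (nat_lit 294) (nat_lit 434) (nat_lit 412))) (XT.nd (nat_lit 78) (nat_lit 0) (nat_lit 0) (XT.lf (nat_lit 1976) (nat_lit 3792834850) (nat_lit 0) (nat_lit 1911088141)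 (nat_lit 1900) (nat_lit 3792834850) (nat_lit 509) (nat_lit 1) (nat_lit 483) (nat_lit 1) (nat_lit 508) (nat_lit 1) (nat_lit 295) (nat_lit 434) (nat_lit 411)) (XT.nd (nat_lit 78) (nat_lit 0) (nat_lit 76) (XT.lf (nat_lit 1976) (nat_lit 6809717597) (nat_lit 76) (nat_lit 1300347817) (nat_lit 0) (nat_lit 1300347817) (nat_lit 509) (nat_lit 1) (nat_lit 484) (nat_lit 1) (nat_lit 483) (nat_lit 1) (nat_lit 296) (nat_lit 434) (nat_lit 410)) (XT.lf (nat_lit 76) (nat_lit 3001941386) (nat_lit 0) (nat_lit 3320994615) (nat_lit 1900) (nat_lit 3001941386) (nat_lit 485) (nat_lit 1) (nat_lit 484) (nat_lit 1) (nat_lit 509) (nat_lit 1) (nat_lit 297) (nat_lit 434) (nat_lit 409)))))) (XT.nd (nat_lit 312) (nat_lit 2736) (nat_lit 0) (XT.nd (nat_lit 156) (nat_lit 912) (nat_lit 0) (XT.nd (nat_lit 78) (nat_lit 0) (nat_lit 0) (XT.lf (nat_lit 1216) (nat_lit 5191999981) (nat_lit 0) (nat_lit 2024295165) (nat_lit 1140) (nat_lit 2024295165) (nat_lit 485) (nat_lit 1) (nat_lit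 469) (nat_lit 1) (nat_lit 484) (nat_lit 1) (nat_lit 298) (nat_lit 434) (nat_lit 408)) (XT.lf (nat_lit 76) (nat_lit 2180826177) (nat_lit 0) (nat_lit 4795629371) (nat_lit 1216) (nat_lit 2180826177) (nat_lit 470) (nat_lit 1) (nat_lit 469) (nat_lit 1) (nat_lit 485) (nat_lit 1) (nat_lit 299) (nat_lit 434) (nat_lit 407))) (XT.nd (nat_lit 78) (nat_lit 0) (nat_lit 0) (XT.lf (nat_lit 988) (nat_lit 3516035862) (nat_lit 0) (nat_lit 2779476074) (nat_lit 912) (nat_lit 2779476074) (nat_lit 470) (nat_lit 1) (nat_lit 457) (nat_lit 1) (nat_lit 469) (nat_lit 1) (nat_lit 300) (nat_lit 434) (nat_lit 406)) (XT.lf (nat_lit 76) (nat_lit 1331857539) (nat_lit 0) (nat_lit 6330136251) (nat_lit 988) (nat_lit 1331857539) (nat_lit 458) (nat_lit 1) (nat_lit 457) (nat_lit 1) (nat_lit 470) (nat_lit 1) (nat_lit 301) (nat_lit 434) (nat_lit 405)))) (XT.nd (nat_lit 156) (nat_lit 1824) (nat_lit 0) (XT.nd (nat_lit 78) (nat_lit 0) (nat_lit 0) (XT.lf (nat_lit 988) (nat_lit 1786460834)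 (nat_lit 0) (nat_lit 3563514074) (nat_lit 912) (nat_lit 3563514074) (nat_lit 458) (nat_lit 1) (nat_lit 445) (nat_lit 1) (nat_lit 457) (nat_lit 1) (nat_lit 302) (nat_lit 434) (nat_lit 404)) (XT.lf (nat_lit 76) (nat_lit 457288393) (nat_lit 0) (nat_lit 7919893602) (nat_lit 988) (nat_lit 457288393) (nat_lit 446) (nat_lit 1) (nat_lit 445) (nat_lit 1) (nat_lit 458) (nat_lit 1) (nat_lit 303) (nat_lit 434) (nat_lit 403))) (XT.nd (nat_lit 78) (nat_lit 988) (nat_lit 0) (XT.lf (nat_lit 912) (nat_lit 7683942) (nat_lit 0) (nat_lit 4374147790) (nat_lit 836) (nat_lit 4374147790) (nat_lit 446) (nat_lit 1) (nat_lit 434) (nat_lit 1) (nat_lit 445) (nat_lit 1) (nat_lit 304) (nat_lit 434) (nat_lit 402)) (XT.nd (nat_lit 78) (nat_lit 0) (nat_lit 0) (XT.lf (nat_lit 988) (nat_lit 7803118619) (nat_lit 0) (nat_lit 437839191) (nat_lit 912) (nat_lit 437839191) (nat_lit 434) (nat_lit 1) (nat_lit 421) (nat_lit 1) (nat_lit 433) (nat_lit 1) (nat_lit 305) (nat_lit 434)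 (nat_lit 401)) (XT.lf (nat_lit 76) (nat_lit 3404914762) (nat_lit 0) (nat_lit 1792284098) (nat_lit 988) (nat_lit 3404914762) (nat_lit 422) (nat_lit 1) (nat_lit 421) (nat_lit 1) (nat_lit 434) (nat_lit 1) (nat_lit 306) (nat_lit 434) (nat_lit 400))))))) (XT.nd (nat_lit 702) (nat_lit 3572) (nat_lit 0) (XT.nd (nat_lit 312) (nat_lit 2356) (nat_lit 0) (XT.nd (nat_lit 156) (nat_lit 836) (nat_lit 0) (XT.nd (nat_lit 78) (nat_lit 0) (nat_lit 0) (XT.lf (nat_lit 912) (nat_lit 5824225345) (nat_lit 0) (nat_lit 1351238646) (nat_lit 836) (nat_lit 1351238646) (nat_lit 422) (nat_lit 1) (nat_lit 410) (nat_lit 1) (nat_lit 421) (nat_lit 1) (nat_lit 307) (nat_lit 434) (nat_lit 399)) (XT.lf (nat_lit 76) (nat_lit 2409687854) (nat_lit 0) (nat_lit 3632638297) (nat_lit 912) (nat_lit 2409687854) (nat_lit 411) (nat_lit 1) (nat_lit 410) (nat_lit 1) (nat_lit 422) (nat_lit 1) (nat_lit 308) (nat_lit 434) (nat_lit 398))) (XT.nd (nat_lit 78) (nat_lit 0) (nat_lit 0) (XT.lf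 (nat_lit 912) (nat_lit 3810330070) (nat_lit 0) (nat_lit 2283995590) (nat_lit 836) (nat_lit 2283995590) (nat_lit 411) (nat_lit 1) (nat_lit 399) (nat_lit 1) (nat_lit 410) (nat_lit 1) (nat_lit 309) (nat_lit 434) (nat_lit 397)) (XT.lf (nat_lit 76) (nat_lit 1397917833) (nat_lit 0) (nat_lit 5509743000) (nat_lit 912) (nat_lit 1397917833) (nat_lit 400) (nat_lit 1) (nat_lit 399) (nat_lit 1) (nat_lit 411) (nat_lit 1) (nat_lit 310) (nat_lit 434) (nat_lit 396)))) (XT.nd (nat_lit 156) (nat_lit 1596) (nat_lit 0) (XT.nd (nat_lit 78) (nat_lit 0) (nat_lit 0) (XT.lf (nat_lit 836) (nat_lit 1764985000) (nat_lit 0) (nat_lit 3234283328) (nat_lit 760) (nat_lit 3234283328) (nat_lit 400) (nat_lit 1) (nat_lit 389) (nat_lit 1) (nat_lit 399) (nat_lit 1) (nat_lit 311) (nat_lit 434) (nat_lit 395)) (XT.lf (nat_lit 76) (nat_lit 371329225) (nat_lit 0) (nat_lit 7420049301) (nat_lit 836) (nat_lit 371329225) (nat_lit 390) (nat_lit 1) (nat_lit 389) (nat_lit 1) (nat_lit 400)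 (nat_lit 1) (nat_lit 312) (nat_lit 434) (nat_lit 394))) (XT.nd (nat_lit 78) (nat_lit 760) (nat_lit 0) (XT.lf (nat_lit 76) (nat_lit 3893931173) (nat_lit 0) (nat_lit 304393367) (nat_lit 836) (nat_lit 3893931173) (nat_lit 379) (nat_lit 1) (nat_lit 378) (nat_lit 1) (nat_lit 389) (nat_lit 1) (nat_lit 313) (nat_lit 434) (nat_lit 393)) (XT.nd (nat_lit 78) (nat_lit 0) (nat_lit 0) (XT.lf (nat_lit 836) (nat_lit 6694868124) (nat_lit 0) (nat_lit 664043984) (nat_lit 760) (nat_lit 664043984) (nat_lit 379) (nat_lit 1) (nat_lit 368) (nat_lit 1) (nat_lit 378) (nat_lit 1) (nat_lit 314) (nat_lit 434) (nat_lit 392)) (XT.lf (nat_lit 76) (nat_lit 2789484143) (nat_lit 0) (nat_lit 2375177653) (nat_lit 836) (nat_lit 2789484143) (nat_lit 369) (nat_lit 1) (nat_lit 368) (nat_lit 1) (nat_lit 379) (nat_lit 1) (nat_lit 315) (nat_lit 434) (nat_lit 391)))))) (XT.nd (nat_lit 312) (nat_lit 2128) (nat_lit 0) (XT.nd (nat_lit 156) (nat_lit 684) (nat_lit 0) (XT.nd (nat_lit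 78) (nat_lit 0) (nat_lit 0) (XT.lf (nat_lit 836) (nat_lit 4469322670) (nat_lit 0) (nat_lit 1708527970) (nat_lit 760) (nat_lit 1708527970) (nat_lit 369) (nat_lit 1) (nat_lit 358) (nat_lit 1) (nat_lit 368) (nat_lit 1) (nat_lit 316) (nat_lit 434) (nat_lit 390)) (XT.lf (nat_lit 76) (nat_lit 1675918323) (nat_lit 0) (nat_lit 4467523049) (nat_lit 836) (nat_lit 1675918323) (nat_lit 359) (nat_lit 1) (nat_lit 358) (nat_lit 1) (nat_lit 369) (nat_lit 1) (nat_lit 317) (nat_lit 434) (nat_lit 389))) (XT.nd (nat_lit 78) (nat_lit 0) (nat_lit 0) (XT.lf (nat_lit 760) (nat_lit 2226870515) (nat_lit 0) (nat_lit 2763104028) (nat_lit 684) (nat_lit 2763104028) (nat_lit 359) (nat_lit 1) (nat_lit 349) (nat_lit 1) (nat_lit 358) (nat_lit 1) (nat_lit 318) (nat_lit 434) (nat_lit 388)) (XT.lf (nat_lit 76) (nat_lit 554607528) (nat_lit 0) (nat_lit 6578592854) (nat_lit 760) (nat_lit 554607528) (nat_lit 350) (nat_lit 1) (nat_lit 349) (nat_lit 1) (nat_lit 359) (nat_lit 1)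 (nat_lit 319) (nat_lit 434) (nat_lit 387)))) (XT.nd (nat_lit 156) (nat_lit 684) (nat_lit 0) (XT.nd (nat_lit 78) (nat_lit 684) (nat_lit 0) (XT.lf (nat_lit 76) (nat_lit 3796774833) (nat_lit 0) (nat_lit 29414897) (nat_lit 760) (nat_lit 3796774833) (nat_lit 340) (nat_lit 1) (nat_lit 339) (nat_lit 1) (nat_lit 349) (nat_lit 1) (nat_lit 320) (nat_lit 434) (nat_lit 386)) (XT.lf (nat_lit 760) (nat_lit 6420351374) (nat_lit 0) (nat_lit 569377059) (nat_lit 684) (nat_lit 569377059) (nat_lit 340) (nat_lit 1) (nat_lit 330) (nat_lit 1) (nat_lit 339) (nat_lit 1) (nat_lit 321) (nat_lit 434) (nat_lit 385))) (XT.nd (nat_lit 78) (nat_lit 684) (nat_lit 0) (XT.lf (nat_lit 76) (nat_lit 2613819043) (nat_lit 0) (nat_lit 2268026769) (nat_lit 760) (nat_lit 2613819043) (nat_lit 331) (nat_lit 1) (nat_lit 330) (nat_lit 1) (nat_lit 340) (nat_lit 1) (nat_lit 322) (nat_lit 434) (nat_lit 384)) (XT.nd (nat_lit 78) (nat_lit 0) (nat_lit 0) (XT.lf (nat_lit 760) (nat_lit 4043390105)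 (nat_lit 0) (nat_lit 1694892737) (nat_lit 684) (nat_lit 1694892737) (nat_lit 331) (nat_lit 1) (nat_lit 321) (nat_lit 1) (nat_lit 330) (nat_lit 1) (nat_lit 323) (nat_lit 434) (nat_lit 383)) (XT.lf (nat_lit 76) (nat_lit 1427792627) (nat_lit 0) (nat_lit 4515801282) (nat_lit 760) (nat_lit 1427792627) (nat_lit 322) (nat_lit 1) (nat_lit 321) (nat_lit 1) (nat_lit 331) (nat_lit 1) (nat_lit 324) (nat_lit 434) (nat_lit 382))))))))
noncomputable def ec201 : XT := (XT.nd (nat_lit 1404) (nat_lit 5016) (nat_lit 0) (XT.nd (nat_lit 702) (nat_lit 2660) (nat_lit 0) (XT.nd (nat_lit 312) (nat_lit 1824) (nat_lit 0) (XT.nd (nat_lit 156) (nat_lit 1292) (nat_lit 0) (XT.nd (nat_lit 78) (nat_lit 0) (nat_lit 0) (XT.lf (nat_lit 684) (nat_lit 1661361475) (nat_lit 0) (nat_lit 2824432517) (nat_lit 608) (nat_lit 2824432517) (nat_lit 322) (nat_lit 1) (nat_lit 313) (nat_lit 1) (nat_lit 321) (nat_lit 1) (nat_lit 325) (nat_lit 434) (nat_lit 381)) (XT.lf (nat_lit 76) (nat_lit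 239775727) (nat_lit 0) (nat_lit 6770498510) (nat_lit 684) (nat_lit 239775727) (nat_lit 314) (nat_lit 1) (nat_lit 313) (nat_lit 1) (nat_lit 322) (nat_lit 1) (nat_lit 326) (nat_lit 434) (nat_lit 380))) (XT.nd (nat_lit 78) (nat_lit 608) (nat_lit 0) (XT.lf (nat_lit 76) (nat_lit 3237973973) (nat_lit 0) (nat_lit 714138054) (nat_lit 684) (nat_lit 3237973973) (nat_lit 305) (nat_lit 1) (nat_lit 304) (nat_lit 1) (nat_lit 313) (nat_lit 1) (nat_lit 327) (nat_lit 434) (nat_lit 379)) (XT.lf (nat_lit 684) (nat_lit 5245148207) (nat_lit 0) (nat_lit 942967479) (nat_lit 608) (nat_lit 942967479) (nat_lit 305) (nat_lit 1) (nat_lit 296) (nat_lit 1) (nat_lit 304) (nat_lit 1) (nat_lit 328) (nat_lit 434) (nat_lit 378)))) (XT.nd (nat_lit 156) (nat_lit 1216) (nat_lit 0) (XT.nd (nat_lit 78) (nat_lit 608) (nat_lit 0) (XT.lf (nat_lit 76) (nat_lit 2001872858) (nat_lit 0) (nat_lit 3068810433) (nat_lit 684) (nat_lit 2001872858) (nat_lit 297) (nat_lit 1) (nat_lit 296)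 (nat_lit 1) (nat_lit 305) (nat_lit 1) (nat_lit 329) (nat_lit 434) (nat_lit 377)) (XT.lf (nat_lit 684) (nat_lit 2766494909) (nat_lit 0) (nat_lit 2124142970) (nat_lit 608) (nat_lit 2124142970) (nat_lit 297) (nat_lit 1) (nat_lit 288) (nat_lit 1) (nat_lit 296) (nat_lit 1) (nat_lit 330) (nat_lit 434) (nat_lit 376))) (XT.nd (nat_lit 78) (nat_lit 1216) (nat_lit 0) (XT.lf (nat_lit 76) (nat_lit 767591381) (nat_lit 0) (nat_lit 5422596397) (nat_lit 684) (nat_lit 767591381) (nat_lit 289) (nat_lit 1) (nat_lit 288) (nat_lit 1) (nat_lit 297) (nat_lit 1) (nat_lit 331) (nat_lit 434) (nat_lit 375)) (XT.nd (nat_lit 78) (nat_lit 684) (nat_lit 0) (XT.lf (nat_lit 608) (nat_lit 292339015) (nat_lit 0) (nat_lit 3304428312) (nat_lit 532) (nat_lit 3304428312) (nat_lit 289) (nat_lit 1) (nat_lit 281) (nat_lit 1) (nat_lit 288) (nat_lit 1) (nat_lit 332) (nat_lit 434) (nat_lit 374)) (XT.lf (nat_lit 684) (nat_lit 5923476272) (nat_lit 0) (nat_lit 460982767) (nat_lit 608)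 (nat_lit 460982767) (nat_lit 281) (nat_lit 1) (nat_lit 272) (nat_lit 1) (nat_lit 280) (nat_lit 1) (nat_lit 333) (nat_lit 434) (nat_lit 373)))))) (XT.nd (nat_lit 312) (nat_lit 1596) (nat_lit 0) (XT.nd (nat_lit 156) (nat_lit 532) (nat_lit 0) (XT.nd (nat_lit 78) (nat_lit 532) (nat_lit 0) (XT.lf (nat_lit 76) (nat_lit 2321407178) (nat_lit 0) (nat_lit 2147160427) (nat_lit 684) (nat_lit 2321407178) (nat_lit 273) (nat_lit 1) (nat_lit 272) (nat_lit 1) (nat_lit 281) (nat_lit 1) (nat_lit 334) (nat_lit 434) (nat_lit 372)) (XT.lf (nat_lit 608) (nat_lit 3373137405) (nat_lit 0) (nat_lit 1681090482) (nat_lit 532) (nat_lit 1681090482) (nat_lit 273) (nat_lit 1) (nat_lit 265) (nat_lit 1) (nat_lit 272) (nat_lit 1) (nat_lit 335) (nat_lit 434) (nat_lit 371))) (XT.nd (nat_lit 78) (nat_lit 532) (nat_lit 0) (XT.lf (nat_lit 76) (nat_lit 1053008711) (nat_lit 0) (nat_lit 4575278216) (nat_lit 608) (nat_lit 1053008711) (nat_lit 266) (nat_lit 1) (nat_lit 265) (nat_lit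 1) (nat_lit 273) (nat_lit 1) (nat_lit 336) (nat_lit 434) (nat_lit 370)) (XT.lf (nat_lit 608) (nat_lit 833642413) (nat_lit 0) (nat_lit 2897049777) (nat_lit 532) (nat_lit 2897049777) (nat_lit 266) (nat_lit 1) (nat_lit 258) (nat_lit 1) (nat_lit 265) (nat_lit 1) (nat_lit 337) (nat_lit 434) (nat_lit 369)))) (XT.nd (nat_lit 156) (nat_lit 988) (nat_lit 0) (XT.nd (nat_lit 78) (nat_lit 0) (nat_lit 0) (XT.lf (nat_lit 608) (nat_lit 6158474567) (nat_lit 0) (nat_lit 208273145) (nat_lit 532) (nat_lit 208273145) (nat_lit 258) (nat_lit 1) (nat_lit 250) (nat_lit 1) (nat_lit 257) (nat_lit 1) (nat_lit 338) (nat_lit 434) (nat_lit 368)) (XT.lf (nat_lit 76) (nat_lit 2425470132) (nat_lit 0) (nat_lit 1671487403) (nat_lit 608) (nat_lit 2425470132) (nat_lit 251) (nat_lit 1) (nat_lit 250) (nat_lit 1) (nat_lit 258) (nat_lit 1) (nat_lit 339) (nat_lit 434) (nat_lit 367))) (XT.nd (nat_lit 78) (nat_lit 456) (nat_lit 0) (XT.lf (nat_lit 608) (nat_lit 3558047262) (nat_lit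 0) (nat_lit 1456301417) (nat_lit 532) (nat_lit 1456301417) (nat_lit 251) (nat_lit 1) (nat_lit 243) (nat_lit 1) (nat_lit 250) (nat_lit 1) (nat_lit 340) (nat_lit 434) (nat_lit 366)) (XT.nd (nat_lit 78) (nat_lit 456) (nat_lit 0) (XT.lf (nat_lit 76) (nat_lit 1133470938) (nat_lit 0) (nat_lit 4152483872) (nat_lit 608) (nat_lit 1133470938) (nat_lit 244) (nat_lit 1) (nat_lit 243) (nat_lit 1) (nat_lit 251) (nat_lit 1) (nat_lit 341) (nat_lit 434) (nat_lit 365)) (XT.lf (nat_lit 532) (nat_lit 973833310) (nat_lit 0) (nat_lit 2697418411) (nat_lit 456) (nat_lit 2697418411) (nat_lit 244) (nat_lit 1) (nat_lit 237) (nat_lit 1) (nat_lit 243) (nat_lit 1) (nat_lit 342) (nat_lit 434) (nat_lit 364))))))) (XT.nd (nat_lit 702) (nat_lit 2508) (nat_lit 0) (XT.nd (nat_lit 312) (nat_lit 1444) (nat_lit 0) (XT.nd (nat_lit 156) (nat_lit 456) (nat_lit 0) (XT.nd (nat_lit 78) (nat_lit 0) (nat_lit 0) (XT.lf (nat_lit 608) (nat_lit 6020311701) (nat_lit 0) (nat_lit 149196649)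 (nat_lit 532) (nat_lit 149196649) (nat_lit 237) (nat_lit 1) (nat_lit 229) (nat_lit 1) (nat_lit 236) (nat_lit 1) (nat_lit 343) (nat_lit 434) (nat_lit 363)) (XT.lf (nat_lit 76) (nat_lit 2348286632) (nat_lit 0) (nat_lit 1572240578) (nat_lit 608) (nat_lit 2348286632) (nat_lit 230) (nat_lit 1) (nat_lit 229) (nat_lit 1) (nat_lit 237) (nat_lit 1) (nat_lit 344) (nat_lit 434) (nat_lit 362))) (XT.nd (nat_lit 78) (nat_lit 0) (nat_lit 0) (XT.lf (nat_lit 532) (nat_lit 3388446796) (nat_lit 0) (nat_lit 1415625665) (nat_lit 456) (nat_lit 1415625665) (nat_lit 230) (nat_lit 1) (nat_lit 223) (nat_lit 1) (nat_lit 229) (nat_lit 1) (nat_lit 345) (nat_lit 434) (nat_lit 361)) (XT.lf (nat_lit 76) (nat_lit 1041764910) (nat_lit 0) (nat_lit 4087575641) (nat_lit 532) (nat_lit 1041764910) (nat_lit 224) (nat_lit 1) (nat_lit 223) (nat_lit 1) (nat_lit 230) (nat_lit 1) (nat_lit 346) (nat_lit 434) (nat_lit 360)))) (XT.nd (nat_lit 156) (nat_lit 456) (nat_lit 0) (XT.nd (nat_lit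 78) (nat_lit 532) (nat_lit 0) (XT.lf (nat_lit 532) (nat_lit 777307509) (nat_lit 0) (nat_lit 2672815397) (nat_lit 456) (nat_lit 2672815397) (nat_lit 224) (nat_lit 1) (nat_lit 217) (nat_lit 1) (nat_lit 223) (nat_lit 1) (nat_lit 347) (nat_lit 434) (nat_lit 359)) (XT.lf (nat_lit 532) (nat_lit 5570376905) (nat_lit 0) (nat_lit 252552632) (nat_lit 456) (nat_lit 252552632) (nat_lit 217) (nat_lit 1) (nat_lit 210) (nat_lit 1) (nat_lit 216) (nat_lit 1) (nat_lit 348) (nat_lit 434) (nat_lit 358))) (XT.nd (nat_lit 78) (nat_lit 456) (nat_lit 0) (XT.lf (nat_lit 76) (nat_lit 2119794812) (nat_lit 0) (nat_lit 1788544637) (nat_lit 532) (nat_lit 2119794812) (nat_lit 211) (nat_lit 1) (nat_lit 210) (nat_lit 1) (nat_lit 217) (nat_lit 1) (nat_lit 349) (nat_lit 434) (nat_lit 357)) (XT.nd (nat_lit 78) (nat_lit 0) (nat_lit 0) (XT.lf (nat_lit 532) (nat_lit 2923129470) (nat_lit 0) (nat_lit 1529177276) (nat_lit 456) (nat_lit 1529177276) (nat_lit 211) (nat_lit 1) (nat_lit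 204) (nat_lit 1) (nat_lit 210) (nat_lit 1) (nat_lit 350) (nat_lit 434) (nat_lit 356)) (XT.lf (nat_lit 76) (nat_lit 806561893) (nat_lit 0) (nat_lit 4322245129) (nat_lit 532) (nat_lit 806561893) (nat_lit 205) (nat_lit 1) (nat_lit 204) (nat_lit 1) (nat_lit 211) (nat_lit 1) (nat_lit 351) (nat_lit 434) (nat_lit 355)))))) (XT.nd (nat_lit 390) (nat_lit 1216) (nat_lit 0) (XT.nd (nat_lit 156) (nat_lit 380) (nat_lit 0) (XT.nd (nat_lit 78) (nat_lit 532) (nat_lit 0) (XT.lf (nat_lit 456) (nat_lit 300368667) (nat_lit 0) (nat_lit 2794615898) (nat_lit 380) (nat_lit 2794615898) (nat_lit 205) (nat_lit 1) (nat_lit 199) (nat_lit 1) (nat_lit 204) (nat_lit 1) (nat_lit 352) (nat_lit 434) (nat_lit 354)) (XT.lf (nat_lit 532) (nat_lit 4862301638) (nat_lit 0) (nat_lit 491065586) (nat_lit 456) (nat_lit 491065586) (nat_lit 199) (nat_lit 1) (nat_lit 192) (nat_lit 1) (nat_lit 198) (nat_lit 1) (nat_lit 353) (nat_lit 434) (nat_lit 353))) (XT.nd (nat_lit 78) (nat_lit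 380) (nat_lit 0) (XT.lf (nat_lit 76) (nat_lit 1766145037) (nat_lit 0) (nat_lit 2267191098) (nat_lit 532) (nat_lit 1766145037) (nat_lit 193) (nat_lit 1) (nat_lit 192) (nat_lit 1) (nat_lit 199) (nat_lit 1) (nat_lit 354) (nat_lit 434) (nat_lit 352)) (XT.nd (nat_lit 78) (nat_lit 0) (nat_lit 0) (XT.lf (nat_lit 456) (nat_lit 2213441438) (nat_lit 0) (nat_lit 1770838517) (nat_lit 380) (nat_lit 1770838517) (nat_lit 193) (nat_lit 1) (nat_lit 187) (nat_lit 1) (nat_lit 192) (nat_lit 1) (nat_lit 355) (nat_lit 434) (nat_lit 351)) (XT.lf (nat_lit 76) (nat_lit 452897013) (nat_lit 0) (nat_lit 4805544183) (nat_lit 456) (nat_lit 452897013) (nat_lit 188) (nat_lit 1) (nat_lit 187) (nat_lit 1) (nat_lit 193) (nat_lit 1) (nat_lit 356) (nat_lit 434) (nat_lit 350))))) (XT.nd (nat_lit 156) (nat_lit 380) (nat_lit 0) (XT.nd (nat_lit 78) (nat_lit 380) (nat_lit 0) (XT.lf (nat_lit 76) (nat_lit 2632631799) (nat_lit 0) (nat_lit 402479915) (nat_lit 456) (nat_lit 2632631799)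 (nat_lit 182) (nat_lit 1) (nat_lit 181) (nat_lit 1) (nat_lit 187) (nat_lit 1) (nat_lit 357) (nat_lit 434) (nat_lit 349)) (XT.lf (nat_lit 456) (nat_lit 3942865218) (nat_lit 0) (nat_lit 840927538) (nat_lit 380) (nat_lit 840927538) (nat_lit 182) (nat_lit 1) (nat_lit 176) (nat_lit 1) (nat_lit 181) (nat_lit 1) (nat_lit 358) (nat_lit 434) (nat_lit 348))) (XT.nd (nat_lit 78) (nat_lit 380) (nat_lit 0) (XT.lf (nat_lit 76) (nat_lit 1310142263) (nat_lit 0) (nat_lit 2961744148) (nat_lit 456) (nat_lit 1310142263) (nat_lit 177) (nat_lit 1) (nat_lit 176) (nat_lit 1) (nat_lit 182) (nat_lit 1) (nat_lit 359) (nat_lit 434) (nat_lit 347)) (XT.nd (nat_lit 78) (nat_lit 0) (nat_lit 0) (XT.lf (nat_lit 456) (nat_lit 1304151631) (nat_lit 0) (nat_lit 2117820225) (nat_lit 380) (nat_lit 2117820225) (nat_lit 177) (nat_lit 1) (nat_lit 171) (nat_lit 1) (nat_lit 176) (nat_lit 1) (nat_lit 360) (nat_lit 434) (nat_lit 346)) (XT.lf (nat_lit 76) (nat_lit 2594248) (nat_lit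 0) (nat_lit 5493025813) (nat_lit 456) (nat_lit 2594248) (nat_lit 172) (nat_lit 1) (nat_lit 171) (nat_lit 1) (nat_lit 177) (nat_lit 1) (nat_lit 361) (nat_lit 434) (nat_lit 345))))))))
noncomputable def ec202 : XT := (XT.nd (nat_lit 1404) (nat_lit 3040) (nat_lit 0) (XT.nd (nat_lit 702) (nat_lit 1900) (nat_lit 0) (XT.nd (nat_lit 312) (nat_lit 1140) (nat_lit 0) (XT.nd (nat_lit 156) (nat_lit 304) (nat_lit 0) (XT.nd (nat_lit 78) (nat_lit 380) (nat_lit 0) (XT.lf (nat_lit 76) (nat_lit 2084619358) (nat_lit 0) (nat_lit 1287335093) (nat_lit 380) (nat_lit 2084619358) (nat_lit 167) (nat_lit 1) (nat_lit 166) (nat_lit 1) (nat_lit 171) (nat_lit 1) (nat_lit 362) (nat_lit 434) (nat_lit 344)) (XT.lf (nat_lit 456) (nat_lit 2852797533) (nat_lit 0) (nat_lit 1281392431) (nat_lit 380) (nat_lit 1281392431) (nat_lit 167) (nat_lit 1) (nat_lit 161) (nat_lit 1) (nat_lit 166) (nat_lit 1) (nat_lit 363) (nat_lit 434) (nat_lit 343))) (XT.nd (nat_lit 78) (nat_lit 304)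 (nat_lit 0) (XT.lf (nat_lit 76) (nat_lit 771638112) (nat_lit 0) (nat_lit 3831748067) (nat_lit 456) (nat_lit 771638112) (nat_lit 162) (nat_lit 1) (nat_lit 161) (nat_lit 1) (nat_lit 167) (nat_lit 1) (nat_lit 364) (nat_lit 434) (nat_lit 342)) (XT.lf (nat_lit 380) (nat_lit 234222935) (nat_lit 0) (nat_lit 2550272109) (nat_lit 304) (nat_lit 2550272109) (nat_lit 162) (nat_lit 1) (nat_lit 157) (nat_lit 1) (nat_lit 161) (nat_lit 1) (nat_lit 365) (nat_lit 434) (nat_lit 341)))) (XT.nd (nat_lit 156) (nat_lit 684) (nat_lit 0) (XT.nd (nat_lit 78) (nat_lit 0) (nat_lit 0) (XT.lf (nat_lit 456) (nat_lit 4251193967) (nat_lit 0) (nat_lit 521900598) (nat_lit 380) (nat_lit 521900598) (nat_lit 157) (nat_lit 1) (nat_lit 151) (nat_lit 1) (nat_lit 156) (nat_lit 1) (nat_lit 366) (nat_lit 434) (nat_lit 340)) (XT.lf (nat_lit 76) (nat_lit 1467032603) (nat_lit 0) (nat_lit 2321355959) (nat_lit 456) (nat_lit 1467032603) (nat_lit 152) (nat_lit 1) (nat_lit 151) (nat_lit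 1) (nat_lit 157) (nat_lit 1) (nat_lit 367) (nat_lit 434) (nat_lit 339))) (XT.nd (nat_lit 78) (nat_lit 380) (nat_lit 0) (XT.lf (nat_lit 380) (nat_lit 1627490421) (nat_lit 0) (nat_lit 1794416628) (nat_lit 304) (nat_lit 1794416628) (nat_lit 152) (nat_lit 1) (nat_lit 147) (nat_lit 1) (nat_lit 151) (nat_lit 1) (nat_lit 368) (nat_lit 434) (nat_lit 338)) (XT.nd (nat_lit 78) (nat_lit 380) (nat_lit 0) (XT.lf (nat_lit 76) (nat_lit 167878333) (nat_lit 0) (nat_lit 4842024803) (nat_lit 380) (nat_lit 167878333) (nat_lit 148) (nat_lit 1) (nat_lit 147) (nat_lit 1) (nat_lit 152) (nat_lit 1) (nat_lit 369) (nat_lit 434) (nat_lit 337)) (XT.lf (nat_lit 76) (nat_lit 2094682206) (nat_lit 0) (nat_lit 949880981) (nat_lit 380) (nat_lit 2094682206) (nat_lit 143) (nat_lit 1) (nat_lit 142) (nat_lit 1) (nat_lit 147) (nat_lit 1) (nat_lit 370) (nat_lit 434) (nat_lit 336)))))) (XT.nd (nat_lit 312) (nat_lit 912) (nat_lit 0) (XT.nd (nat_lit 156) (nat_lit 684) (nat_lit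 0) (XT.nd (nat_lit 78) (nat_lit 0) (nat_lit 0) (XT.lf (nat_lit 380) (nat_lit 2886985497) (nat_lit 0) (nat_lit 1107135559) (nat_lit 304) (nat_lit 1107135559) (nat_lit 143) (nat_lit 1) (nat_lit 138) (nat_lit 1) (nat_lit 142) (nat_lit 1) (nat_lit 371) (nat_lit 434) (nat_lit 335)) (XT.lf (nat_lit 76) (nat_lit 795512157) (nat_lit 0) (nat_lit 3472613518) (nat_lit 380) (nat_lit 795512157) (nat_lit 139) (nat_lit 1) (nat_lit 138) (nat_lit 1) (nat_lit 143) (nat_lit 1) (nat_lit 372) (nat_lit 434) (nat_lit 334))) (XT.nd (nat_lit 78) (nat_lit 380) (nat_lit 0) (XT.lf (nat_lit 380) (nat_lit 297627993) (nat_lit 0) (nat_lit 2364340357) (nat_lit 304) (nat_lit 2364340357) (nat_lit 139) (nat_lit 1) (nat_lit 134) (nat_lit 1) (nat_lit 138) (nat_lit 1) (nat_lit 373) (nat_lit 434) (nat_lit 333)) (XT.lf (nat_lit 380) (nat_lit 4023438067) (nat_lit 0) (nat_lit 482990716) (nat_lit 304) (nat_lit 482990716) (nat_lit 134) (nat_lit 1) (nat_lit 129) (nat_lit 1) (nat_lit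 133) (nat_lit 1) (nat_lit 374) (nat_lit 434) (nat_lit 332)))) (XT.nd (nat_lit 156) (nat_lit 608) (nat_lit 0) (XT.nd (nat_lit 78) (nat_lit 304) (nat_lit 0) (XT.lf (nat_lit 76) (nat_lit 1362791568) (nat_lit 0) (nat_lit 2227110126) (nat_lit 380) (nat_lit 1362791568) (nat_lit 130) (nat_lit 1) (nat_lit 129) (nat_lit 1) (nat_lit 134) (nat_lit 1) (nat_lit 375) (nat_lit 434) (nat_lit 331)) (XT.lf (nat_lit 380) (nat_lit 1438524300) (nat_lit 0) (nat_lit 1738937776) (nat_lit 304) (nat_lit 1738937776) (nat_lit 130) (nat_lit 1) (nat_lit 125) (nat_lit 1) (nat_lit 129) (nat_lit 1) (nat_lit 376) (nat_lit 434) (nat_lit 330))) (XT.nd (nat_lit 78) (nat_lit 608) (nat_lit 0) (XT.lf (nat_lit 76) (nat_lit 83587630) (nat_lit 0) (nat_lit 4713456019) (nat_lit 380) (nat_lit 83587630) (nat_lit 126) (nat_lit 1) (nat_lit 125) (nat_lit 1) (nat_lit 130) (nat_lit 1) (nat_lit 377) (nat_lit 434) (nat_lit 329)) (XT.nd (nat_lit 78) (nat_lit 304) (nat_lit 0) (XT.lf (nat_lit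 76) (nat_lit 1874559051) (nat_lit 0) (nat_lit 1095693750) (nat_lit 304) (nat_lit 1874559051) (nat_lit 122) (nat_lit 1) (nat_lit 121) (nat_lit 1) (nat_lit 125) (nat_lit 1) (nat_lit 378) (nat_lit 434) (nat_lit 328)) (XT.lf (nat_lit 380) (nat_lit 2469721193) (nat_lit 0) (nat_lit 1169894760) (nat_lit 304) (nat_lit 1169894760) (nat_lit 122) (nat_lit 1) (nat_lit 117) (nat_lit 1) (nat_lit 121) (nat_lit 1) (nat_lit 379) (nat_lit 434) (nat_lit 327))))))) (XT.nd (nat_lit 702) (nat_lit 1596) (nat_lit 0) (XT.nd (nat_lit 312) (nat_lit 836) (nat_lit 0) (XT.nd (nat_lit 156) (nat_lit 304) (nat_lit 0) (XT.nd (nat_lit 78) (nat_lit 304) (nat_lit 0) (XT.lf (nat_lit 76) (nat_lit 599527364) (nat_lit 0) (nat_lit 3575526325) (nat_lit 380) (nat_lit 599527364) (nat_lit 118) (nat_lit 1) (nat_lit 117) (nat_lit 1) (nat_lit 122) (nat_lit 1) (nat_lit 380) (nat_lit 434) (nat_lit 326)) (XT.lf (nat_lit 76) (nat_lit 2335283486) (nat_lit 0) (nat_lit 69298959) (nat_lit 304)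 (nat_lit 2335283486) (nat_lit 114) (nat_lit 1) (nat_lit 113) (nat_lit 1) (nat_lit 117) (nat_lit 1) (nat_lit 381) (nat_lit 434) (nat_lit 325))) (XT.nd (nat_lit 78) (nat_lit 0) (nat_lit 0) (XT.lf (nat_lit 380) (nat_lit 3400020136) (nat_lit 0) (nat_lit 652748050) (nat_lit 304) (nat_lit 652748050) (nat_lit 114) (nat_lit 1) (nat_lit 109) (nat_lit 1) (nat_lit 113) (nat_lit 1) (nat_lit 382) (nat_lit 434) (nat_lit 324)) (XT.lf (nat_lit 76) (nat_lit 1065934646) (nat_lit 0) (nat_lit 2539529270) (nat_lit 380) (nat_lit 1065934646) (nat_lit 110) (nat_lit 1) (nat_lit 109) (nat_lit 1) (nat_lit 114) (nat_lit 1) (nat_lit 383) (nat_lit 434) (nat_lit 323)))) (XT.nd (nat_lit 156) (nat_lit 228) (nat_lit 0) (XT.nd (nat_lit 78) (nat_lit 380) (nat_lit 0) (XT.lf (nat_lit 304) (nat_lit 871876724) (nat_lit 0) (nat_lit 1882872771) (nat_lit 228) (nat_lit 1882872771) (nat_lit 110) (nat_lit 1) (nat_lit 106) (nat_lit 1) (nat_lit 109) (nat_lit 1) (nat_lit 384) (nat_lit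 434) (nat_lit 322)) (XT.lf (nat_lit 380) (nat_lit 4237543549) (nat_lit 0) (nat_lit 183377641) (nat_lit 304) (nat_lit 183377641) (nat_lit 106) (nat_lit 1) (nat_lit 101) (nat_lit 1) (nat_lit 105) (nat_lit 1) (nat_lit 385) (nat_lit 434) (nat_lit 321))) (XT.nd (nat_lit 78) (nat_lit 228) (nat_lit 0) (XT.lf (nat_lit 76) (nat_lit 1486782410) (nat_lit 0) (nat_lit 1597402724) (nat_lit 380) (nat_lit 1486782410) (nat_lit 102) (nat_lit 1) (nat_lit 101) (nat_lit 1) (nat_lit 106) (nat_lit 1) (nat_lit 386) (nat_lit 434) (nat_lit 320)) (XT.nd (nat_lit 78) (nat_lit 0) (nat_lit 0) (XT.lf (nat_lit 304) (nat_lit 1723860758) (nat_lit 0) (nat_lit 1407111494) (nat_lit 228) (nat_lit 1407111494) (nat_lit 102) (nat_lit 1) (nat_lit 98) (nat_lit 1) (nat_lit 101) (nat_lit 1) (nat_lit 387) (nat_lit 434) (nat_lit 319)) (XT.lf (nat_lit 76) (nat_lit 243622201) (nat_lit 0) (nat_lit 4018376479) (nat_lit 304) (nat_lit 243622201) (nat_lit 99) (nat_lit 1) (nat_lit 98) (nat_lit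 1) (nat_lit 102) (nat_lit 1) (nat_lit 388) (nat_lit 434) (nat_lit 318)))))) (XT.nd (nat_lit 312) (nat_lit 836) (nat_lit 0) (XT.nd (nat_lit 156) (nat_lit 228) (nat_lit 0) (XT.nd (nat_lit 78) (nat_lit 228) (nat_lit 0) (XT.lf (nat_lit 76) (nat_lit 1865737091) (nat_lit 0) (nat_lit 741704400) (nat_lit 304) (nat_lit 1865737091) (nat_lit 95) (nat_lit 1) (nat_lit 94) (nat_lit 1) (nat_lit 98) (nat_lit 1) (nat_lit 389) (nat_lit 434) (nat_lit 317)) (XT.lf (nat_lit 304) (nat_lit 2492954833) (nat_lit 0) (nat_lit 974098711) (nat_lit 228) (nat_lit 974098711) (nat_lit 95) (nat_lit 1) (nat_lit 91) (nat_lit 1) (nat_lit 94) (nat_lit 1) (nat_lit 390) (nat_lit 434) (nat_lit 316))) (XT.nd (nat_lit 78) (nat_lit 228) (nat_lit 0) (XT.lf (nat_lit 76) (nat_lit 631105270) (nat_lit 0) (nat_lit 3147219634) (nat_lit 304) (nat_lit 631105270) (nat_lit 92) (nat_lit 1) (nat_lit 91) (nat_lit 1) (nat_lit 95) (nat_lit 1) (nat_lit 391) (nat_lit 434) (nat_lit 315)) (XT.lf (nat_lit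 304) (nat_lit 34893097) (nat_lit 0) (nat_lit 2171515505) (nat_lit 228) (nat_lit 2171515505) (nat_lit 92) (nat_lit 1) (nat_lit 88) (nat_lit 1) (nat_lit 91) (nat_lit 1) (nat_lit 392) (nat_lit 434) (nat_lit 314)))) (XT.nd (nat_lit 156) (nat_lit 532) (nat_lit 0) (XT.nd (nat_lit 78) (nat_lit 0) (nat_lit 0) (XT.lf (nat_lit 304) (nat_lit 3185824484) (nat_lit 0) (nat_lit 580451141) (nat_lit 228) (nat_lit 580451141) (nat_lit 88) (nat_lit 1) (nat_lit 84) (nat_lit 1) (nat_lit 87) (nat_lit 1) (nat_lit 393) (nat_lit 434) (nat_lit 313)) (XT.lf (nat_lit 76) (nat_lit 981118241) (nat_lit 0) (nat_lit 2353486526) (nat_lit 304) (nat_lit 981118241) (nat_lit 85) (nat_lit 1) (nat_lit 84) (nat_lit 1) (nat_lit 88) (nat_lit 1) (nat_lit 394) (nat_lit 434) (nat_lit 312))) (XT.nd (nat_lit 78) (nat_lit 304) (nat_lit 0) (XT.lf (nat_lit 304) (nat_lit 747156937) (nat_lit 0) (nat_lit 1768933315) (nat_lit 228) (nat_lit 1768933315) (nat_lit 85) (nat_lit 1) (nat_lit 81)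 (nat_lit 1) (nat_lit 84) (nat_lit 1) (nat_lit 395) (nat_lit 434) (nat_lit 311)) (XT.nd (nat_lit 78) (nat_lit 0) (nat_lit 0) (XT.lf (nat_lit 304) (nat_lit 3808620715) (nat_lit 0) (nat_lit 223045664) (nat_lit 228) (nat_lit 223045664) (nat_lit 81) (nat_lit 1) (nat_lit 77) (nat_lit 1) (nat_lit 80) (nat_lit 1) (nat_lit 396) (nat_lit 434) (nat_lit 310)) (XT.lf (nat_lit 76) (nat_lit 1296670740) (nat_lit 0) (nat_lit 1631063705) (nat_lit 304) (nat_lit 1296670740) (nat_lit 78) (nat_lit 1) (nat_lit 77) (nat_lit 1) (nat_lit 81) (nat_lit 1) (nat_lit 397) (nat_lit 434) (nat_lit 309))))))))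
noncomputable def ec203 : XT := (XT.nd (nat_lit 1404) (nat_lit 760) (nat_lit 0) (XT.nd (nat_lit 702) (nat_lit 1368) (nat_lit 0) (XT.nd (nat_lit 312) (nat_lit 608) (nat_lit 0) (XT.nd (nat_lit 156) (nat_lit 456) (nat_lit 0) (XT.nd (nat_lit 78) (nat_lit 0) (nat_lit 0) (XT.lf (nat_lit 304) (nat_lit 1391160567) (nat_lit 0) (nat_lit 1401660803) (nat_lit 228) (nat_lit 1401660803) (nat_lit 78) (nat_lit 1) (nat_lit 74) (nat_lit 1) (nat_lit 77) (nat_lit 1) (nat_lit 398) (nat_lit 434) (nat_lit 308)) (XT.lf (nat_lit 76) (nat_lit 101669422) (nat_lit 0) (nat_lit 3961626394) (nat_lit 304) (nat_lit 101669422) (nat_lit 75) (nat_lit 1) (nat_lit 74) (nat_lit 1) (nat_lit 78) (nat_lit 1) (nat_lit 399) (nat_lit 434) (nat_lit 307))) (XT.nd (nat_lit 78) (nat_lit 228) (nat_lit 0) (XT.lf (nat_lit 76) (nat_lit 1580540137) (nat_lit 0) (nat_lit 974307551) (nat_lit 228) (nat_lit 1580540137) (nat_lit 72) (nat_lit 1) (nat_lit 71) (nat_lit 1) (nat_lit 74) (nat_lit 1)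 (nat_lit 400) (nat_lit 434) (nat_lit 306)) (XT.lf (nat_lit 304) (nat_lit 1972377178) (nat_lit 0) (nat_lit 1066917775) (nat_lit 228) (nat_lit 1066917775) (nat_lit 72) (nat_lit 1) (nat_lit 68) (nat_lit 1) (nat_lit 71) (nat_lit 1) (nat_lit 401) (nat_lit 434) (nat_lit 305)))) (XT.nd (nat_lit 156) (nat_lit 380) (nat_lit 0) (XT.nd (nat_lit 78) (nat_lit 228) (nat_lit 0) (XT.lf (nat_lit 76) (nat_lit 396959943) (nat_lit 0) (nat_lit 3283433688) (nat_lit 304) (nat_lit 396959943) (nat_lit 69) (nat_lit 1) (nat_lit 68) (nat_lit 1) (nat_lit 72) (nat_lit 1) (nat_lit 402) (nat_lit 434) (nat_lit 304)) (XT.lf (nat_lit 76) (nat_lit 1835289290) (nat_lit 0) (nat_lit 378008405) (nat_lit 228) (nat_lit 1835289290) (nat_lit 66) (nat_lit 1) (nat_lit 65) (nat_lit 1) (nat_lit 68) (nat_lit 1) (nat_lit 403) (nat_lit 434) (nat_lit 303))) (XT.nd (nat_lit 78) (nat_lit 152) (nat_lit 0) (XT.lf (nat_lit 304) (nat_lit 2495857763) (nat_lit 0) (nat_lit 762137551) (nat_lit 228)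 (nat_lit 762137551) (nat_lit 66) (nat_lit 1) (nat_lit 62) (nat_lit 1) (nat_lit 65) (nat_lit 1) (nat_lit 404) (nat_lit 434) (nat_lit 302)) (XT.nd (nat_lit 78) (nat_lit 152) (nat_lit 0) (XT.lf (nat_lit 76) (nat_lit 663820913) (nat_lit 0) (nat_lit 2664270747) (nat_lit 304) (nat_lit 663820913) (nat_lit 63) (nat_lit 1) (nat_lit 62) (nat_lit 1) (nat_lit 66) (nat_lit 1) (nat_lit 405) (nat_lit 434) (nat_lit 301)) (XT.lf (nat_lit 228) (nat_lit 164803989) (nat_lit 0) (nat_lit 1899548972) (nat_lit 152) (nat_lit 1899548972) (nat_lit 63) (nat_lit 1) (nat_lit 60) (nat_lit 1) (nat_lit 62) (nat_lit 1) (nat_lit 406) (nat_lit 434) (nat_lit 300)))))) (XT.nd (nat_lit 312) (nat_lit 608) (nat_lit 0) (XT.nd (nat_lit 156) (nat_lit 456) (nat_lit 0) (XT.nd (nat_lit 78) (nat_lit 0) (nat_lit 0) (XT.lf (nat_lit 304) (nat_lit 2966263375) (nat_lit 0) (nat_lit 484950668) (nat_lit 228) (nat_lit 484950668) (nat_lit 60) (nat_lit 1) (nat_lit 56) (nat_lit 1) (nat_lit 59)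 (nat_lit 1) (nat_lit 407) (nat_lit 434) (nat_lit 299)) (XT.lf (nat_lit 76) (nat_lit 904533881) (nat_lit 0) (nat_lit 2099497435) (nat_lit 304) (nat_lit 904533881) (nat_lit 57) (nat_lit 1) (nat_lit 56) (nat_lit 1) (nat_lit 60) (nat_lit 1) (nat_lit 408) (nat_lit 434) (nat_lit 298))) (XT.nd (nat_lit 78) (nat_lit 304) (nat_lit 0) (XT.lf (nat_lit 228) (nat_lit 660749777) (nat_lit 0) (nat_lit 1610243120) (nat_lit 152) (nat_lit 1610243120) (nat_lit 57) (nat_lit 1) (nat_lit 54) (nat_lit 1) (nat_lit 56) (nat_lit 1) (nat_lit 409) (nat_lit 434) (nat_lit 297)) (XT.lf (nat_lit 304) (nat_lit 3387894927) (nat_lit 0) (nat_lit 233169826) (nat_lit 228) (nat_lit 233169826) (nat_lit 54) (nat_lit 1) (nat_lit 50) (nat_lit 1) (nat_lit 53) (nat_lit 1) (nat_lit 410) (nat_lit 434) (nat_lit 296)))) (XT.nd (nat_lit 156) (nat_lit 456) (nat_lit 0) (XT.nd (nat_lit 78) (nat_lit 152) (nat_lit 0) (XT.lf (nat_lit 76) (nat_lit 1121204358) (nat_lit 0) (nat_lit 1584829819)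 (nat_lit 304) (nat_lit 1121204358) (nat_lit 51) (nat_lit 1) (nat_lit 50) (nat_lit 1) (nat_lit 54) (nat_lit 1) (nat_lit 411) (nat_lit 434) (nat_lit 295)) (XT.lf (nat_lit 228) (nat_lit 1108956508) (nat_lit 0) (nat_lit 1345805437) (nat_lit 152) (nat_lit 1345805437) (nat_lit 51) (nat_lit 1) (nat_lit 48) (nat_lit 1) (nat_lit 50) (nat_lit 1) (nat_lit 412) (nat_lit 434) (nat_lit 294))) (XT.nd (nat_lit 78) (nat_lit 152) (nat_lit 0) (XT.lf (nat_lit 304) (nat_lit 3764720717) (nat_lit 0) (nat_lit 4775985) (nat_lit 228) (nat_lit 4775985) (nat_lit 48) (nat_lit 1) (nat_lit 44) (nat_lit 1) (nat_lit 47) (nat_lit 1) (nat_lit 413) (nat_lit 434) (nat_lit 293)) (XT.nd (nat_lit 78) (nat_lit 152) (nat_lit 0) (XT.lf (nat_lit 76) (nat_lit 1315775272) (nat_lit 0) (nat_lit 1116312992) (nat_lit 304) (nat_lit 1315775272) (nat_lit 45) (nat_lit 1) (nat_lit 44) (nat_lit 1) (nat_lit 48) (nat_lit 1) (nat_lit 414) (nat_lit 434) (nat_lit 292)) (XT.lf (nat_lit 228) (nat_lit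 1513255230) (nat_lit 0) (nat_lit 1104286488) (nat_lit 152) (nat_lit 1104286488) (nat_lit 45) (nat_lit 1) (nat_lit 42) (nat_lit 1) (nat_lit 44) (nat_lit 1) (nat_lit 415) (nat_lit 434) (nat_lit 291))))))) (XT.nd (nat_lit 49218) (nat_lit 0) (nat_lit 34200) (XT.nd (nat_lit 312) (nat_lit 380) (nat_lit 0) (XT.nd (nat_lit 156) (nat_lit 152) (nat_lit 0) (XT.nd (nat_lit 78) (nat_lit 228) (nat_lit 0) (XT.lf (nat_lit 76) (nat_lit 203432858) (nat_lit 0) (nat_lit 3289241157) (nat_lit 228) (nat_lit 203432858) (nat_lit 43) (nat_lit 1) (nat_lit 42) (nat_lit 1) (nat_lit 45) (nat_lit 1) (nat_lit 416) (nat_lit 434) (nat_lit 290)) (XT.lf (nat_lit 76) (nat_lit 1490039392) (nat_lit 0) (nat_lit 690295958) (nat_lit 228) (nat_lit 1490039392) (nat_lit 40) (nat_lit 1) (nat_lit 39) (nat_lit 1) (nat_lit 42) (nat_lit 1) (nat_lit 417) (nat_lit 434) (nat_lit 289))) (XT.nd (nat_lit 78) (nat_lit 0) (nat_lit 0) (XT.lf (nat_lit 228) (nat_lit 1877181405) (nat_lit 0) (nat_lit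 883886385) (nat_lit 152) (nat_lit 883886385) (nat_lit 40) (nat_lit 1) (nat_lit 37) (nat_lit 1) (nat_lit 39) (nat_lit 1) (nat_lit 418) (nat_lit 434) (nat_lit 288)) (XT.lf (nat_lit 76) (nat_lit 391738899) (nat_lit 0) (nat_lit 2836310492) (nat_lit 228) (nat_lit 391738899) (nat_lit 38) (nat_lit 1) (nat_lit 37) (nat_lit 1) (nat_lit 40) (nat_lit 1) (nat_lit 419) (nat_lit 434) (nat_lit 287)))) (XT.nd (nat_lit 156) (nat_lit 0) (nat_lit 0) (XT.nd (nat_lit 78) (nat_lit 152) (nat_lit 0) (XT.lf (nat_lit 76) (nat_lit 1645650808) (nat_lit 0) (nat_lit 303408436) (nat_lit 228) (nat_lit 1645650808) (nat_lit 35) (nat_lit 1) (nat_lit 34) (nat_lit 1) (nat_lit 37) (nat_lit 1) (nat_lit 420) (nat_lit 434) (nat_lit 286)) (XT.lf (nat_lit 228) (nat_lit 2203997497) (nat_lit 0) (nat_lit 682943377) (nat_lit 152) (nat_lit 682943377) (nat_lit 35) (nat_lit 1) (nat_lit 32) (nat_lit 1) (nat_lit 34) (nat_lit 1) (nat_lit 421) (nat_lit 434) (nat_lit 285))) (XT.nd (nat_lit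 48594) (nat_lit 0) (nat_lit 35872) (XT.lf (nat_lit 76) (nat_lit 561708527) (nat_lit 0) (nat_lit 2421841979) (nat_lit 228) (nat_lit 561708527) (nat_lit 33) (nat_lit 1) (nat_lit 32) (nat_lit 1) (nat_lit 35) (nat_lit 1) (nat_lit 422) (nat_lit 434) (nat_lit 284)) (XT.nd (nat_lit 78) (nat_lit 0) (nat_lit 0) (XT.lf (nat_lit 1900) (nat_lit 1806049629) (nat_lit 0) (nat_lit 6920719698) (nat_lit 1824) (nat_lit 1806049629) (nat_lit 529) (nat_lit 1) (nat_lit 504) (nat_lit 1) (nat_lit 528) (nat_lit 1) (nat_lit 284) (nat_lit 435) (nat_lit 421)) (XT.lf (nat_lit 1900) (nat_lit 3075165437) (nat_lit 76) (nat_lit 3679342179) (nat_lit 0) (nat_lit 3679342179) (nat_lit 529) (nat_lit 1) (nat_lit 505) (nat_lit 1) (nat_lit 504) (nat_lit 1) (nat_lit 285) (nat_lit 435) (nat_lit 420)))))) (XT.nd (nat_lit 390) (nat_lit 1748) (nat_lit 0) (XT.nd (nat_lit 156) (nat_lit 0) (nat_lit 76) (XT.nd (nat_lit 78) (nat_lit 0) (nat_lit 0) (XT.lf (nat_lit 1900) (nat_lit 1264197198)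 (nat_lit 0) (nat_lit 7808027492) (nat_lit 1824) (nat_lit 1264197198) (nat_lit 530) (nat_lit 1) (nat_lit 505) (nat_lit 1) (nat_lit 529) (nat_lit 1) (nat_lit 286) (nat_lit 435) (nat_lit 419)) (XT.lf (nat_lit 1900) (nat_lit 1940975753) (nat_lit 76) (nat_lit 4149460675) (nat_lit 0) (nat_lit 4149460675) (nat_lit 530) (nat_lit 1) (nat_lit 506) (nat_lit 1) (nat_lit 505) (nat_lit 1) (nat_lit 287) (nat_lit 435) (nat_lit 418))) (XT.nd (nat_lit 78) (nat_lit 0) (nat_lit 0) (XT.lf (nat_lit 1900) (nat_lit 676110490) (nat_lit 0) (nat_lit 8792791940) (nat_lit 1824) (nat_lit 676110490) (nat_lit 531) (nat_lit 1) (nat_lit 506) (nat_lit 1) (nat_lit 530) (nat_lit 1) (nat_lit 288) (nat_lit 435) (nat_lit 417)) (XT.nd (nat_lit 78) (nat_lit 0) (nat_lit 76) (XT.lf (nat_lit 1900) (nat_lit 717163102) (nat_lit 76) (nat_lit 4666845923) (nat_lit 0) (nat_lit 4666845923) (nat_lit 531) (nat_lit 1) (nat_lit 507) (nat_lit 1) (nat_lit 506) (nat_lit 1) (nat_lit 289) (nat_lit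 435) (nat_lit 416)) (XT.lf (nat_lit 1900) (nat_lit 44903957) (nat_lit 0) (nat_lit 9868642173) (nat_lit 1824) (nat_lit 44903957) (nat_lit 532) (nat_lit 1) (nat_lit 507) (nat_lit 1) (nat_lit 531) (nat_lit 1) (nat_lit 290) (nat_lit 435) (nat_lit 415))))) (XT.nd (nat_lit 156) (nat_lit 0) (nat_lit 76) (XT.nd (nat_lit 78) (nat_lit 0) (nat_lit 0) (XT.lf (nat_lit 1976) (nat_lit 4642038071) (nat_lit 0) (nat_lit 582431262) (nat_lit 1900) (nat_lit 4642038071) (nat_lit 508) (nat_lit 1) (nat_lit 482) (nat_lit 1) (nat_lit 507) (nat_lit 1) (nat_lit 291) (nat_lit 435) (nat_lit 414)) (XT.lf (nat_lit 1976) (nat_lit 8531602769) (nat_lit 76) (nat_lit 622333337) (nat_lit 0) (nat_lit 622333337) (nat_lit 508) (nat_lit 1) (nat_lit 483) (nat_lit 1) (nat_lit 482) (nat_lit 1) (nat_lit 292) (nat_lit 435) (nat_lit 413))) (XT.nd (nat_lit 78) (nat_lit 0) (nat_lit 0) (XT.lf (nat_lit 1976) (nat_lit 3868691547) (nat_lit 0) (nat_lit 1949309903) (nat_lit 1900) (nat_lit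 3868691547) (nat_lit 509) (nat_lit 1) (nat_lit 483) (nat_lit 1) (nat_lit 508) (nat_lit 1) (nat_lit 293) (nat_lit 435) (nat_lit 412)) (XT.nd (nat_lit 78) (nat_lit 0) (nat_lit 76) (XT.lf (nat_lit 1976) (nat_lit 6945911949) (nat_lit 76) (nat_lit 1326354773) (nat_lit 0) (nat_lit 1326354773) (nat_lit 509) (nat_lit 1) (nat_lit 484) (nat_lit 1) (nat_lit 483) (nat_lit 1) (nat_lit 294) (nat_lit 435) (nat_lit 411)) (XT.lf (nat_lit 76) (nat_lit 3061980214) (nat_lit 0) (nat_lit 3387414507) (nat_lit 1900) (nat_lit 3061980214) (nat_lit 485) (nat_lit 1) (nat_lit 484) (nat_lit 1) (nat_lit 509) (nat_lit 1) (nat_lit 295) (nat_lit 435) (nat_lit 410))))))))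
noncomputable def ec204 : XT := (XT.nd (nat_lit 1404) (nat_lit 7296) (nat_lit 0) (XT.nd (nat_lit 702) (nat_lit 4028) (nat_lit 0) (XT.nd (nat_lit 312) (nat_lit 2736) (nat_lit 0) (XT.nd (nat_lit 156) (nat_lit 912) (nat_lit 0) (XT.nd (nat_lit 78) (nat_lit 0) (nat_lit 0) (XT.lf (nat_lit 1216) (nat_lit 5295839981) (nat_lit 0) (nat_lit 2064781068) (nat_lit 1140) (nat_lit 2064781068) (nat_lit 485) (nat_lit 1) (nat_lit 469) (nat_lit 1) (nat_lit 484) (nat_lit 1) (nat_lit 296) (nat_lit 435) (nat_lit 409)) (XT.lf (nat_lit 76) (nat_lit 2224442701) (nat_lit 0) (nat_lit 4891541958) (nat_lit 1216) (nat_lit 2224442701) (nat_lit 470) (nat_lit 1) (nat_lit 469) (nat_lit 1) (nat_lit 485) (nat_lit 1) (nat_lit 297) (nat_lit 435) (nat_lit 408))) (XT.nd (nat_lit 78) (nat_lit 0) (nat_lit 0) (XT.lf (nat_lit 988) (nat_lit 3586356579) (nat_lit 0) (nat_lit 2835065596) (nat_lit 912) (nat_lit 2835065596) (nat_lit 470) (nat_lit 1) (nat_lit 457) (nat_lit 1) (nat_lit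 469) (nat_lit 1) (nat_lit 298) (nat_lit 435) (nat_lit 407)) (XT.lf (nat_lit 76) (nat_lit 1358494690) (nat_lit 0) (nat_lit 6456738976) (nat_lit 988) (nat_lit 1358494690) (nat_lit 458) (nat_lit 1) (nat_lit 457) (nat_lit 1) (nat_lit 470) (nat_lit 1) (nat_lit 299) (nat_lit 435) (nat_lit 406)))) (XT.nd (nat_lit 156) (nat_lit 1824) (nat_lit 0) (XT.nd (nat_lit 78) (nat_lit 0) (nat_lit 0) (XT.lf (nat_lit 988) (nat_lit 1822190051) (nat_lit 0) (nat_lit 3634784355) (nat_lit 912) (nat_lit 3634784355) (nat_lit 458) (nat_lit 1) (nat_lit 445) (nat_lit 1) (nat_lit 457) (nat_lit 1) (nat_lit 300) (nat_lit 435) (nat_lit 405)) (XT.lf (nat_lit 76) (nat_lit 466434161) (nat_lit 0) (nat_lit 8078291474) (nat_lit 988) (nat_lit 466434161) (nat_lit 446) (nat_lit 1) (nat_lit 445) (nat_lit 1) (nat_lit 458) (nat_lit 1) (nat_lit 301) (nat_lit 435) (nat_lit 404))) (XT.nd (nat_lit 78) (nat_lit 988) (nat_lit 0) (XT.lf (nat_lit 912) (nat_lit 7837621) (nat_lit 0) (nat_lit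 4461630746) (nat_lit 836) (nat_lit 4461630746) (nat_lit 446) (nat_lit 1) (nat_lit 434) (nat_lit 1) (nat_lit 445) (nat_lit 1) (nat_lit 302) (nat_lit 435) (nat_lit 403)) (XT.nd (nat_lit 78) (nat_lit 0) (nat_lit 0) (XT.lf (nat_lit 988) (nat_lit 7959180991) (nat_lit 0) (nat_lit 446595974) (nat_lit 912) (nat_lit 446595974) (nat_lit 434) (nat_lit 1) (nat_lit 421) (nat_lit 1) (nat_lit 433) (nat_lit 1) (nat_lit 303) (nat_lit 435) (nat_lit 402)) (XT.lf (nat_lit 76) (nat_lit 3473013057) (nat_lit 0) (nat_lit 1828129780) (nat_lit 988) (nat_lit 3473013057) (nat_lit 422) (nat_lit 1) (nat_lit 421) (nat_lit 1) (nat_lit 434) (nat_lit 1) (nat_lit 304) (nat_lit 435) (nat_lit 401)))))) (XT.nd (nat_lit 312) (nat_lit 2356) (nat_lit 0) (XT.nd (nat_lit 156) (nat_lit 836) (nat_lit 0) (XT.nd (nat_lit 78) (nat_lit 0) (nat_lit 0) (XT.lf (nat_lit 912) (nat_lit 5940709852) (nat_lit 0) (nat_lit 1378263419) (nat_lit 836) (nat_lit 1378263419) (nat_lit 422) (nat_lit 1)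 (nat_lit 410) (nat_lit 1) (nat_lit 421) (nat_lit 1) (nat_lit 305) (nat_lit 435) (nat_lit 400)) (XT.lf (nat_lit 76) (nat_lit 2457881611) (nat_lit 0) (nat_lit 3705291063) (nat_lit 912) (nat_lit 2457881611) (nat_lit 411) (nat_lit 1) (nat_lit 410) (nat_lit 1) (nat_lit 422) (nat_lit 1) (nat_lit 306) (nat_lit 435) (nat_lit 399))) (XT.nd (nat_lit 78) (nat_lit 0) (nat_lit 0) (XT.lf (nat_lit 912) (nat_lit 3886536672) (nat_lit 0) (nat_lit 2329675501) (nat_lit 836) (nat_lit 2329675501) (nat_lit 411) (nat_lit 1) (nat_lit 399) (nat_lit 1) (nat_lit 410) (nat_lit 1) (nat_lit 307) (nat_lit 435) (nat_lit 398)) (XT.lf (nat_lit 76) (nat_lit 1425876190) (nat_lit 0) (nat_lit 5619937860) (nat_lit 912) (nat_lit 1425876190) (nat_lit 400) (nat_lit 1) (nat_lit 399) (nat_lit 1) (nat_lit 411) (nat_lit 1) (nat_lit 308) (nat_lit 435) (nat_lit 397)))) (XT.nd (nat_lit 156) (nat_lit 1596) (nat_lit 0) (XT.nd (nat_lit 78) (nat_lit 0) (nat_lit 0) (XT.lf (nat_lit 836) (nat_lit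 1800284700) (nat_lit 0) (nat_lit 3298968994) (nat_lit 760) (nat_lit 3298968994) (nat_lit 400) (nat_lit 1) (nat_lit 389) (nat_lit 1) (nat_lit 399) (nat_lit 1) (nat_lit 309) (nat_lit 435) (nat_lit 396)) (XT.lf (nat_lit 76) (nat_lit 378755809) (nat_lit 0) (nat_lit 7568450287) (nat_lit 836) (nat_lit 378755809) (nat_lit 390) (nat_lit 1) (nat_lit 389) (nat_lit 1) (nat_lit 400) (nat_lit 1) (nat_lit 310) (nat_lit 435) (nat_lit 395))) (XT.nd (nat_lit 78) (nat_lit 760) (nat_lit 0) (XT.lf (nat_lit 76) (nat_lit 3971809796) (nat_lit 0) (nat_lit 310481234) (nat_lit 836) (nat_lit 3971809796) (nat_lit 379) (nat_lit 1) (nat_lit 378) (nat_lit 1) (nat_lit 389) (nat_lit 1) (nat_lit 311) (nat_lit 435) (nat_lit 394)) (XT.nd (nat_lit 78) (nat_lit 0) (nat_lit 0) (XT.lf (nat_lit 836) (nat_lit 6828765487) (nat_lit 0) (nat_lit 677324864) (nat_lit 760) (nat_lit 677324864) (nat_lit 379) (nat_lit 1) (nat_lit 368) (nat_lit 1) (nat_lit 378) (nat_lit 1) (nat_lit 312)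 (nat_lit 435) (nat_lit 393)) (XT.lf (nat_lit 76) (nat_lit 2845273826) (nat_lit 0) (nat_lit 2422681207) (nat_lit 836) (nat_lit 2845273826) (nat_lit 369) (nat_lit 1) (nat_lit 368) (nat_lit 1) (nat_lit 379) (nat_lit 1) (nat_lit 313) (nat_lit 435) (nat_lit 392))))))) (XT.nd (nat_lit 702) (nat_lit 3724) (nat_lit 0) (XT.nd (nat_lit 312) (nat_lit 2128) (nat_lit 0) (XT.nd (nat_lit 156) (nat_lit 684) (nat_lit 0) (XT.nd (nat_lit 78) (nat_lit 0) (nat_lit 0) (XT.lf (nat_lit 836) (nat_lit 4558709123) (nat_lit 0) (nat_lit 1742698529) (nat_lit 760) (nat_lit 1742698529) (nat_lit 369) (nat_lit 1) (nat_lit 358) (nat_lit 1) (nat_lit 368) (nat_lit 1) (nat_lit 314) (nat_lit 435) (nat_lit 391)) (XT.lf (nat_lit 76) (nat_lit 1709436690) (nat_lit 0) (nat_lit 4556873510) (nat_lit 836) (nat_lit 1709436690) (nat_lit 359) (nat_lit 1) (nat_lit 358) (nat_lit 1) (nat_lit 369) (nat_lit 1) (nat_lit 315) (nat_lit 435) (nat_lit 390))) (XT.nd (nat_lit 78) (nat_lit 0) (nat_lit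 0) (XT.lf (nat_lit 760) (nat_lit 2271407925) (nat_lit 0) (nat_lit 2818366108) (nat_lit 684) (nat_lit 2818366108) (nat_lit 359) (nat_lit 1) (nat_lit 349) (nat_lit 1) (nat_lit 358) (nat_lit 1) (nat_lit 316) (nat_lit 435) (nat_lit 389)) (XT.lf (nat_lit 76) (nat_lit 565699678) (nat_lit 0) (nat_lit 6710164711) (nat_lit 760) (nat_lit 565699678) (nat_lit 350) (nat_lit 1) (nat_lit 349) (nat_lit 1) (nat_lit 359) (nat_lit 1) (nat_lit 317) (nat_lit 435) (nat_lit 388)))) (XT.nd (nat_lit 156) (nat_lit 684) (nat_lit 0) (XT.nd (nat_lit 78) (nat_lit 684) (nat_lit 0) (XT.lf (nat_lit 76) (nat_lit 3872710330) (nat_lit 0) (nat_lit 30003195) (nat_lit 760) (nat_lit 3872710330) (nat_lit 340) (nat_lit 1) (nat_lit 339) (nat_lit 1) (nat_lit 349) (nat_lit 1) (nat_lit 318) (nat_lit 435) (nat_lit 387)) (XT.lf (nat_lit 760) (nat_lit 6548758402) (nat_lit 0) (nat_lit 580764600) (nat_lit 684) (nat_lit 580764600) (nat_lit 340) (nat_lit 1) (nat_lit 330) (nat_lit 1) (nat_lit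 339) (nat_lit 1) (nat_lit 319) (nat_lit 435) (nat_lit 386))) (XT.nd (nat_lit 78) (nat_lit 684) (nat_lit 0) (XT.lf (nat_lit 76) (nat_lit 2666095424) (nat_lit 0) (nat_lit 2313387304) (nat_lit 760) (nat_lit 2666095424) (nat_lit 331) (nat_lit 1) (nat_lit 330) (nat_lit 1) (nat_lit 340) (nat_lit 1) (nat_lit 320) (nat_lit 435) (nat_lit 385)) (XT.nd (nat_lit 78) (nat_lit 0) (nat_lit 0) (XT.lf (nat_lit 760) (nat_lit 4124257907) (nat_lit 0) (nat_lit 1728790592) (nat_lit 684) (nat_lit 1728790592) (nat_lit 331) (nat_lit 1) (nat_lit 321) (nat_lit 1) (nat_lit 330) (nat_lit 1) (nat_lit 321) (nat_lit 435) (nat_lit 384)) (XT.lf (nat_lit 76) (nat_lit 1456348479) (nat_lit 0) (nat_lit 4606117308) (nat_lit 760) (nat_lit 1456348479) (nat_lit 322) (nat_lit 1) (nat_lit 321) (nat_lit 1) (nat_lit 331) (nat_lit 1) (nat_lit 322) (nat_lit 435) (nat_lit 383)))))) (XT.nd (nat_lit 312) (nat_lit 1824) (nat_lit 0) (XT.nd (nat_lit 156) (nat_lit 1292) (nat_lit 0) (XT.nd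 (nat_lit 78) (nat_lit 0) (nat_lit 0) (XT.lf (nat_lit 684) (nat_lit 1694588704) (nat_lit 0) (nat_lit 2880921167) (nat_lit 608) (nat_lit 2880921167) (nat_lit 322) (nat_lit 1) (nat_lit 313) (nat_lit 1) (nat_lit 321) (nat_lit 1) (nat_lit 323) (nat_lit 435) (nat_lit 382)) (XT.lf (nat_lit 76) (nat_lit 244571242) (nat_lit 0) (nat_lit 6905908480) (nat_lit 684) (nat_lit 244571242) (nat_lit 314) (nat_lit 1) (nat_lit 313) (nat_lit 1) (nat_lit 322) (nat_lit 1) (nat_lit 324) (nat_lit 435) (nat_lit 381))) (XT.nd (nat_lit 78) (nat_lit 608) (nat_lit 0) (XT.lf (nat_lit 76) (nat_lit 3302733452) (nat_lit 0) (nat_lit 728420815) (nat_lit 684) (nat_lit 3302733452) (nat_lit 305) (nat_lit 1) (nat_lit 304) (nat_lit 1) (nat_lit 313) (nat_lit 1) (nat_lit 325) (nat_lit 435) (nat_lit 380)) (XT.lf (nat_lit 684) (nat_lit 5350051172) (nat_lit 0) (nat_lit 961826828) (nat_lit 608) (nat_lit 961826828) (nat_lit 305) (nat_lit 1) (nat_lit 296) (nat_lit 1) (nat_lit 304) (nat_lit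 1) (nat_lit 326) (nat_lit 435) (nat_lit 379)))) (XT.nd (nat_lit 156) (nat_lit 1216) (nat_lit 0) (XT.nd (nat_lit 78) (nat_lit 608) (nat_lit 0) (XT.lf (nat_lit 76) (nat_lit 2041910315) (nat_lit 0) (nat_lit 3130186641) (nat_lit 684) (nat_lit 2041910315) (nat_lit 297) (nat_lit 1) (nat_lit 296) (nat_lit 1) (nat_lit 305) (nat_lit 1) (nat_lit 327) (nat_lit 435) (nat_lit 378)) (XT.lf (nat_lit 684) (nat_lit 2821824807) (nat_lit 0) (nat_lit 2166625829) (nat_lit 608) (nat_lit 2166625829) (nat_lit 297) (nat_lit 1) (nat_lit 288) (nat_lit 1) (nat_lit 296) (nat_lit 1) (nat_lit 328) (nat_lit 435) (nat_lit 377))) (XT.nd (nat_lit 78) (nat_lit 1216) (nat_lit 0) (XT.lf (nat_lit 76) (nat_lit 782943208) (nat_lit 0) (nat_lit 5531048325) (nat_lit 684) (nat_lit 782943208) (nat_lit 289) (nat_lit 1) (nat_lit 288) (nat_lit 1) (nat_lit 297) (nat_lit 1) (nat_lit 329) (nat_lit 435) (nat_lit 376)) (XT.nd (nat_lit 78) (nat_lit 684) (nat_lit 0) (XT.lf (nat_lit 608) (nat_lit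 298185795) (nat_lit 0) (nat_lit 3370516879) (nat_lit 532) (nat_lit 3370516879) (nat_lit 289) (nat_lit 1) (nat_lit 281) (nat_lit 1) (nat_lit 288) (nat_lit 1) (nat_lit 330) (nat_lit 435) (nat_lit 375)) (XT.lf (nat_lit 684) (nat_lit 6041945797) (nat_lit 0) (nat_lit 470202422) (nat_lit 608) (nat_lit 470202422) (nat_lit 281) (nat_lit 1) (nat_lit 272) (nat_lit 1) (nat_lit 280) (nat_lit 1) (nat_lit 331) (nat_lit 435) (nat_lit 374))))))))
noncomputable def ec205 : XT := (XT.nd (nat_lit 1404) (nat_lit 4712) (nat_lit 0) (XT.nd (nat_lit 702) (nat_lit 2508) (nat_lit 0) (XT.nd (nat_lit 312) (nat_lit 1596) (nat_lit 0) (XT.nd (nat_lit 156) (nat_lit 532) (nat_lit 0) (XT.nd (nat_lit 78) (nat_lit 532) (nat_lit 0) (XT.lf (nat_lit 76) (nat_lit 2367835322) (nat_lit 0) (nat_lit 2190103636) (nat_lit 684) (nat_lit 2367835322) (nat_lit 273) (nat_lit 1) (nat_lit 272) (nat_lit 1) (nat_lit 281) (nat_lit 1) (nat_lit 332) (nat_lit 435) (nat_lit 373)) (XT.lf (nat_lit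 608) (nat_lit 3440600153) (nat_lit 0) (nat_lit 1714712292) (nat_lit 532) (nat_lit 1714712292) (nat_lit 273) (nat_lit 1) (nat_lit 265) (nat_lit 1) (nat_lit 272) (nat_lit 1) (nat_lit 333) (nat_lit 435) (nat_lit 372))) (XT.nd (nat_lit 78) (nat_lit 532) (nat_lit 0) (XT.lf (nat_lit 76) (nat_lit 1074068885) (nat_lit 0) (nat_lit 4666783781) (nat_lit 608) (nat_lit 1074068885) (nat_lit 266) (nat_lit 1) (nat_lit 265) (nat_lit 1) (nat_lit 273) (nat_lit 1) (nat_lit 334) (nat_lit 435) (nat_lit 371)) (XT.lf (nat_lit 608) (nat_lit 850315261) (nat_lit 0) (nat_lit 2954990773) (nat_lit 532) (nat_lit 2954990773) (nat_lit 266) (nat_lit 1) (nat_lit 258) (nat_lit 1) (nat_lit 265) (nat_lit 1) (nat_lit 335) (nat_lit 435) (nat_lit 370)))) (XT.nd (nat_lit 156) (nat_lit 988) (nat_lit 0) (XT.nd (nat_lit 78) (nat_lit 0) (nat_lit 0) (XT.lf (nat_lit 608) (nat_lit 6281644058) (nat_lit 0) (nat_lit 212438608) (nat_lit 532) (nat_lit 212438608) (nat_lit 258) (nat_lit 1)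 (nat_lit 250) (nat_lit 1) (nat_lit 257) (nat_lit 1) (nat_lit 336) (nat_lit 435) (nat_lit 369)) (XT.lf (nat_lit 76) (nat_lit 2473979535) (nat_lit 0) (nat_lit 1704917151) (nat_lit 608) (nat_lit 2473979535) (nat_lit 251) (nat_lit 1) (nat_lit 250) (nat_lit 1) (nat_lit 258) (nat_lit 1) (nat_lit 337) (nat_lit 435) (nat_lit 368))) (XT.nd (nat_lit 78) (nat_lit 456) (nat_lit 0) (XT.lf (nat_lit 608) (nat_lit 3629208208) (nat_lit 0) (nat_lit 1485427445) (nat_lit 532) (nat_lit 1485427445) (nat_lit 251) (nat_lit 1) (nat_lit 243) (nat_lit 1) (nat_lit 250) (nat_lit 1) (nat_lit 338) (nat_lit 435) (nat_lit 367)) (XT.nd (nat_lit 78) (nat_lit 456) (nat_lit 0) (XT.lf (nat_lit 76) (nat_lit 1156140357) (nat_lit 0) (nat_lit 4235533549) (nat_lit 608) (nat_lit 1156140357) (nat_lit 244) (nat_lit 1) (nat_lit 243) (nat_lit 1) (nat_lit 251) (nat_lit 1) (nat_lit 339) (nat_lit 435) (nat_lit 366)) (XT.lf (nat_lit 532) (nat_lit 993309976) (nat_lit 0) (nat_lit 2751366780)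 (nat_lit 456) (nat_lit 2751366780) (nat_lit 244) (nat_lit 1) (nat_lit 237) (nat_lit 1) (nat_lit 243) (nat_lit 1) (nat_lit 340) (nat_lit 435) (nat_lit 365)))))) (XT.nd (nat_lit 312) (nat_lit 1444) (nat_lit 0) (XT.nd (nat_lit 156) (nat_lit 456) (nat_lit 0) (XT.nd (nat_lit 78) (nat_lit 0) (nat_lit 0) (XT.lf (nat_lit 608) (nat_lit 6140717935) (nat_lit 0) (nat_lit 152180582) (nat_lit 532) (nat_lit 152180582) (nat_lit 237) (nat_lit 1) (nat_lit 229) (nat_lit 1) (nat_lit 236) (nat_lit 1) (nat_lit 341) (nat_lit 435) (nat_lit 364)) (XT.lf (nat_lit 76) (nat_lit 2395252365) (nat_lit 0) (nat_lit 1603685390) (nat_lit 608) (nat_lit 2395252365) (nat_lit 230) (nat_lit 1) (nat_lit 229) (nat_lit 1) (nat_lit 237) (nat_lit 1) (nat_lit 342) (nat_lit 435) (nat_lit 363))) (XT.nd (nat_lit 78) (nat_lit 0) (nat_lit 0) (XT.lf (nat_lit 532) (nat_lit 3456215732) (nat_lit 0) (nat_lit 1443938178) (nat_lit 456) (nat_lit 1443938178) (nat_lit 230) (nat_lit 1) (nat_lit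 223) (nat_lit 1) (nat_lit 229) (nat_lit 1) (nat_lit 343) (nat_lit 435) (nat_lit 362)) (XT.lf (nat_lit 76) (nat_lit 1062600209) (nat_lit 0) (nat_lit 4169327154) (nat_lit 532) (nat_lit 1062600209) (nat_lit 224) (nat_lit 1) (nat_lit 223) (nat_lit 1) (nat_lit 230) (nat_lit 1) (nat_lit 344) (nat_lit 435) (nat_lit 361)))) (XT.nd (nat_lit 156) (nat_lit 456) (nat_lit 0) (XT.nd (nat_lit 78) (nat_lit 532) (nat_lit 0) (XT.lf (nat_lit 532) (nat_lit 792853659) (nat_lit 0) (nat_lit 2726271704) (nat_lit 456) (nat_lit 2726271704) (nat_lit 224) (nat_lit 1) (nat_lit 217) (nat_lit 1) (nat_lit 223) (nat_lit 1) (nat_lit 345) (nat_lit 435) (nat_lit 360)) (XT.lf (nat_lit 532) (nat_lit 5681784443) (nat_lit 0) (nat_lit 257603685) (nat_lit 456) (nat_lit 257603685) (nat_lit 217) (nat_lit 1) (nat_lit 210) (nat_lit 1) (nat_lit 216) (nat_lit 1) (nat_lit 346) (nat_lit 435) (nat_lit 359))) (XT.nd (nat_lit 78) (nat_lit 456) (nat_lit 0) (XT.lf (nat_lit 76) (nat_lit 2162190708)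 (nat_lit 0) (nat_lit 1824315530) (nat_lit 532) (nat_lit 2162190708) (nat_lit 211) (nat_lit 1) (nat_lit 210) (nat_lit 1) (nat_lit 217) (nat_lit 1) (nat_lit 347) (nat_lit 435) (nat_lit 358)) (XT.nd (nat_lit 78) (nat_lit 0) (nat_lit 0) (XT.lf (nat_lit 532) (nat_lit 2981592060) (nat_lit 0) (nat_lit 1559760821) (nat_lit 456) (nat_lit 1559760821) (nat_lit 211) (nat_lit 1) (nat_lit 204) (nat_lit 1) (nat_lit 210) (nat_lit 1) (nat_lit 348) (nat_lit 435) (nat_lit 357)) (XT.lf (nat_lit 76) (nat_lit 822693131) (nat_lit 0) (nat_lit 4408690031) (nat_lit 532) (nat_lit 822693131) (nat_lit 205) (nat_lit 1) (nat_lit 204) (nat_lit 1) (nat_lit 211) (nat_lit 1) (nat_lit 349) (nat_lit 435) (nat_lit 356))))))) (XT.nd (nat_lit 702) (nat_lit 2204) (nat_lit 0) (XT.nd (nat_lit 312) (nat_lit 1216) (nat_lit 0) (XT.nd (nat_lit 156) (nat_lit 380) (nat_lit 0) (XT.nd (nat_lit 78) (nat_lit 532) (nat_lit 0) (XT.lf (nat_lit 456) (nat_lit 306376041) (nat_lit 0) (nat_lit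 2850508215) (nat_lit 380) (nat_lit 2850508215) (nat_lit 205) (nat_lit 1) (nat_lit 199) (nat_lit 1) (nat_lit 204) (nat_lit 1) (nat_lit 350) (nat_lit 435) (nat_lit 355)) (XT.lf (nat_lit 532) (nat_lit 4959547670) (nat_lit 0) (nat_lit 500886897) (nat_lit 456) (nat_lit 500886897) (nat_lit 199) (nat_lit 1) (nat_lit 192) (nat_lit 1) (nat_lit 198) (nat_lit 1) (nat_lit 351) (nat_lit 435) (nat_lit 354))) (XT.nd (nat_lit 78) (nat_lit 380) (nat_lit 0) (XT.lf (nat_lit 76) (nat_lit 1801467938) (nat_lit 0) (nat_lit 2312534920) (nat_lit 532) (nat_lit 1801467938) (nat_lit 193) (nat_lit 1) (nat_lit 192) (nat_lit 1) (nat_lit 199) (nat_lit 1) (nat_lit 352) (nat_lit 435) (nat_lit 353)) (XT.lf (nat_lit 456) (nat_lit 2257710267) (nat_lit 0) (nat_lit 1806255288) (nat_lit 380) (nat_lit 1806255288) (nat_lit 193) (nat_lit 1) (nat_lit 187) (nat_lit 1) (nat_lit 192) (nat_lit 1) (nat_lit 353) (nat_lit 435) (nat_lit 352)))) (XT.nd (nat_lit 156) (nat_lit 760) (nat_lit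 0) (XT.nd (nat_lit 78) (nat_lit 456) (nat_lit 0) (XT.lf (nat_lit 76) (nat_lit 461954953) (nat_lit 0) (nat_lit 4901655067) (nat_lit 456) (nat_lit 461954953) (nat_lit 188) (nat_lit 1) (nat_lit 187) (nat_lit 1) (nat_lit 193) (nat_lit 1) (nat_lit 354) (nat_lit 435) (nat_lit 351)) (XT.lf (nat_lit 76) (nat_lit 2685284435) (nat_lit 0) (nat_lit 410529513) (nat_lit 456) (nat_lit 2685284435) (nat_lit 182) (nat_lit 1) (nat_lit 181) (nat_lit 1) (nat_lit 187) (nat_lit 1) (nat_lit 355) (nat_lit 435) (nat_lit 350))) (XT.nd (nat_lit 78) (nat_lit 380) (nat_lit 0) (XT.lf (nat_lit 456) (nat_lit 4021722522) (nat_lit 0) (nat_lit 857746089) (nat_lit 380) (nat_lit 857746089) (nat_lit 182) (nat_lit 1) (nat_lit 176) (nat_lit 1) (nat_lit 181) (nat_lit 1) (nat_lit 356) (nat_lit 435) (nat_lit 349)) (XT.nd (nat_lit 78) (nat_lit 380) (nat_lit 0) (XT.lf (nat_lit 76) (nat_lit 1336345108) (nat_lit 0) (nat_lit 3020979031) (nat_lit 456) (nat_lit 1336345108) (nat_lit 177)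 (nat_lit 1) (nat_lit 176) (nat_lit 1) (nat_lit 182) (nat_lit 1) (nat_lit 357) (nat_lit 435) (nat_lit 348)) (XT.lf (nat_lit 456) (nat_lit 1330234663) (nat_lit 0) (nat_lit 2160176630) (nat_lit 380) (nat_lit 2160176630) (nat_lit 177) (nat_lit 1) (nat_lit 171) (nat_lit 1) (nat_lit 176) (nat_lit 1) (nat_lit 358) (nat_lit 435) (nat_lit 347)))))) (XT.nd (nat_lit 390) (nat_lit 1140) (nat_lit 0) (XT.nd (nat_lit 156) (nat_lit 684) (nat_lit 0) (XT.nd (nat_lit 78) (nat_lit 380) (nat_lit 0) (XT.lf (nat_lit 76) (nat_lit 2646133) (nat_lit 0) (nat_lit 5602886330) (nat_lit 456) (nat_lit 2646133) (nat_lit 172) (nat_lit 1) (nat_lit 171) (nat_lit 1) (nat_lit 177) (nat_lit 1) (nat_lit 359) (nat_lit 435) (nat_lit 346)) (XT.lf (nat_lit 76) (nat_lit 2126311745) (nat_lit 0) (nat_lit 1313081794) (nat_lit 380) (nat_lit 2126311745) (nat_lit 167) (nat_lit 1) (nat_lit 166) (nat_lit 1) (nat_lit 171) (nat_lit 1) (nat_lit 360) (nat_lit 435) (nat_lit 345))) (XT.nd (nat_lit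 78) (nat_lit 304) (nat_lit 0) (XT.lf (nat_lit 456) (nat_lit 2909853484) (nat_lit 0) (nat_lit 1307020280) (nat_lit 380) (nat_lit 1307020280) (nat_lit 167) (nat_lit 1) (nat_lit 161) (nat_lit 1) (nat_lit 166) (nat_lit 1) (nat_lit 361) (nat_lit 435) (nat_lit 344)) (XT.nd (nat_lit 78) (nat_lit 304) (nat_lit 0) (XT.lf (nat_lit 76) (nat_lit 787070874) (nat_lit 0) (nat_lit 3908383029) (nat_lit 456) (nat_lit 787070874) (nat_lit 162) (nat_lit 1) (nat_lit 161) (nat_lit 1) (nat_lit 167) (nat_lit 1) (nat_lit 362) (nat_lit 435) (nat_lit 343)) (XT.lf (nat_lit 380) (nat_lit 238907394) (nat_lit 0) (nat_lit 2601277551) (nat_lit 304) (nat_lit 2601277551) (nat_lit 162) (nat_lit 1) (nat_lit 157) (nat_lit 1) (nat_lit 161) (nat_lit 1) (nat_lit 363) (nat_lit 435) (nat_lit 342))))) (XT.nd (nat_lit 156) (nat_lit 684) (nat_lit 0) (XT.nd (nat_lit 78) (nat_lit 0) (nat_lit 0) (XT.lf (nat_lit 456) (nat_lit 4336217846) (nat_lit 0) (nat_lit 532338610) (nat_lit 380) (nat_lit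 532338610) (nat_lit 157) (nat_lit 1) (nat_lit 151) (nat_lit 1) (nat_lit 156) (nat_lit 1) (nat_lit 364) (nat_lit 435) (nat_lit 341)) (XT.lf (nat_lit 76) (nat_lit 1496373255) (nat_lit 0) (nat_lit 2367783079) (nat_lit 456) (nat_lit 1496373255) (nat_lit 152) (nat_lit 1) (nat_lit 151) (nat_lit 1) (nat_lit 157) (nat_lit 1) (nat_lit 365) (nat_lit 435) (nat_lit 340))) (XT.nd (nat_lit 78) (nat_lit 380) (nat_lit 0) (XT.lf (nat_lit 380) (nat_lit 1660040230) (nat_lit 0) (nat_lit 1830304960) (nat_lit 304) (nat_lit 1830304960) (nat_lit 152) (nat_lit 1) (nat_lit 147) (nat_lit 1) (nat_lit 151) (nat_lit 1) (nat_lit 366) (nat_lit 435) (nat_lit 339)) (XT.nd (nat_lit 78) (nat_lit 380) (nat_lit 0) (XT.lf (nat_lit 76) (nat_lit 171235900) (nat_lit 0) (nat_lit 4938865299) (nat_lit 380) (nat_lit 171235900) (nat_lit 148) (nat_lit 1) (nat_lit 147) (nat_lit 1) (nat_lit 152) (nat_lit 1) (nat_lit 367) (nat_lit 435) (nat_lit 338)) (XT.lf (nat_lit 76) (nat_lit 2136575850)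 (nat_lit 0) (nat_lit 968878601) (nat_lit 380) (nat_lit 2136575850) (nat_lit 143) (nat_lit 1) (nat_lit 142) (nat_lit 1) (nat_lit 147) (nat_lit 1) (nat_lit 368) (nat_lit 435) (nat_lit 337))))))))
noncomputable def ec206 : XT := (XT.nd (nat_lit 1404) (nat_lit 3192) (nat_lit 0) (XT.nd (nat_lit 702) (nat_lit 1444) (nat_lit 0) (XT.nd (nat_lit 312) (nat_lit 912) (nat_lit 0) (XT.nd (nat_lit 156) (nat_lit 684) (nat_lit 0) (XT.nd (nat_lit 78) (nat_lit 0) (nat_lit 0) (XT.lf (nat_lit 380) (nat_lit 2944725207) (nat_lit 0) (nat_lit 1129278271) (nat_lit 304) (nat_lit 1129278271) (nat_lit 143) (nat_lit 1) (nat_lit 138) (nat_lit 1) (nat_lit 142) (nat_lit 1) (nat_lit 369) (nat_lit 435) (nat_lit 336)) (XT.lf (nat_lit 76) (nat_lit 811422400) (nat_lit 0) (nat_lit 3542065789) (nat_lit 380) (nat_lit 811422400) (nat_lit 139) (nat_lit 1) (nat_lit 138) (nat_lit 1) (nat_lit 143) (nat_lit 1) (nat_lit 370) (nat_lit 435) (nat_lit 335))) (XT.nd (nat_lit 78) (nat_lit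 380) (nat_lit 0) (XT.lf (nat_lit 380) (nat_lit 303580553) (nat_lit 0) (nat_lit 2411627165) (nat_lit 304) (nat_lit 2411627165) (nat_lit 139) (nat_lit 1) (nat_lit 134) (nat_lit 1) (nat_lit 138) (nat_lit 1) (nat_lit 371) (nat_lit 435) (nat_lit 334)) (XT.lf (nat_lit 380) (nat_lit 4103906828) (nat_lit 0) (nat_lit 492650531) (nat_lit 304) (nat_lit 492650531) (nat_lit 134) (nat_lit 1) (nat_lit 129) (nat_lit 1) (nat_lit 133) (nat_lit 1) (nat_lit 372) (nat_lit 435) (nat_lit 333)))) (XT.nd (nat_lit 156) (nat_lit 608) (nat_lit 0) (XT.nd (nat_lit 78) (nat_lit 304) (nat_lit 0) (XT.lf (nat_lit 76) (nat_lit 1390047399) (nat_lit 0) (nat_lit 2271652329) (nat_lit 380) (nat_lit 1390047399) (nat_lit 130) (nat_lit 1) (nat_lit 129) (nat_lit 1) (nat_lit 134) (nat_lit 1) (nat_lit 373) (nat_lit 435) (nat_lit 332)) (XT.lf (nat_lit 380) (nat_lit 1467294786) (nat_lit 0) (nat_lit 1773716531) (nat_lit 304) (nat_lit 1773716531) (nat_lit 130) (nat_lit 1) (nat_lit 125)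 (nat_lit 1) (nat_lit 129) (nat_lit 1) (nat_lit 374) (nat_lit 435) (nat_lit 331))) (XT.nd (nat_lit 78) (nat_lit 608) (nat_lit 0) (XT.lf (nat_lit 76) (nat_lit 85259383) (nat_lit 0) (nat_lit 4807725139) (nat_lit 380) (nat_lit 85259383) (nat_lit 126) (nat_lit 1) (nat_lit 125) (nat_lit 1) (nat_lit 130) (nat_lit 1) (nat_lit 375) (nat_lit 435) (nat_lit 330)) (XT.nd (nat_lit 78) (nat_lit 304) (nat_lit 0) (XT.lf (nat_lit 76) (nat_lit 1912050232) (nat_lit 0) (nat_lit 1117607625) (nat_lit 304) (nat_lit 1912050232) (nat_lit 122) (nat_lit 1) (nat_lit 121) (nat_lit 1) (nat_lit 125) (nat_lit 1) (nat_lit 376) (nat_lit 435) (nat_lit 329)) (XT.lf (nat_lit 380) (nat_lit 2519115617) (nat_lit 0) (nat_lit 1193292655) (nat_lit 304) (nat_lit 1193292655) (nat_lit 122) (nat_lit 1) (nat_lit 117) (nat_lit 1) (nat_lit 121) (nat_lit 1) (nat_lit 377) (nat_lit 435) (nat_lit 328)))))) (XT.nd (nat_lit 312) (nat_lit 836) (nat_lit 0) (XT.nd (nat_lit 156) (nat_lit 304) (nat_lit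 0) (XT.nd (nat_lit 78) (nat_lit 304) (nat_lit 0) (XT.lf (nat_lit 76) (nat_lit 611517911) (nat_lit 0) (nat_lit 3647036851) (nat_lit 380) (nat_lit 611517911) (nat_lit 118) (nat_lit 1) (nat_lit 117) (nat_lit 1) (nat_lit 122) (nat_lit 1) (nat_lit 378) (nat_lit 435) (nat_lit 327)) (XT.lf (nat_lit 76) (nat_lit 2381989156) (nat_lit 0) (nat_lit 70684938) (nat_lit 304) (nat_lit 2381989156) (nat_lit 114) (nat_lit 1) (nat_lit 113) (nat_lit 1) (nat_lit 117) (nat_lit 1) (nat_lit 379) (nat_lit 435) (nat_lit 326))) (XT.nd (nat_lit 78) (nat_lit 0) (nat_lit 0) (XT.lf (nat_lit 380) (nat_lit 3468020539) (nat_lit 0) (nat_lit 665803011) (nat_lit 304) (nat_lit 665803011) (nat_lit 114) (nat_lit 1) (nat_lit 109) (nat_lit 1) (nat_lit 113) (nat_lit 1) (nat_lit 380) (nat_lit 435) (nat_lit 325)) (XT.lf (nat_lit 76) (nat_lit 1087253339) (nat_lit 0) (nat_lit 2590319855) (nat_lit 380) (nat_lit 1087253339) (nat_lit 110) (nat_lit 1) (nat_lit 109) (nat_lit 1) (nat_lit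 114) (nat_lit 1) (nat_lit 381) (nat_lit 435) (nat_lit 324)))) (XT.nd (nat_lit 156) (nat_lit 228) (nat_lit 0) (XT.nd (nat_lit 78) (nat_lit 380) (nat_lit 0) (XT.lf (nat_lit 304) (nat_lit 889314258) (nat_lit 0) (nat_lit 1920530226) (nat_lit 228) (nat_lit 1920530226) (nat_lit 110) (nat_lit 1) (nat_lit 106) (nat_lit 1) (nat_lit 109) (nat_lit 1) (nat_lit 382) (nat_lit 435) (nat_lit 323)) (XT.lf (nat_lit 380) (nat_lit 4322294420) (nat_lit 0) (nat_lit 187045194) (nat_lit 304) (nat_lit 187045194) (nat_lit 106) (nat_lit 1) (nat_lit 101) (nat_lit 1) (nat_lit 105) (nat_lit 1) (nat_lit 383) (nat_lit 435) (nat_lit 322))) (XT.nd (nat_lit 78) (nat_lit 228) (nat_lit 0) (XT.lf (nat_lit 76) (nat_lit 1516518058) (nat_lit 0) (nat_lit 1629350778) (nat_lit 380) (nat_lit 1516518058) (nat_lit 102) (nat_lit 1) (nat_lit 101) (nat_lit 1) (nat_lit 106) (nat_lit 1) (nat_lit 384) (nat_lit 435) (nat_lit 321)) (XT.nd (nat_lit 78) (nat_lit 0) (nat_lit 0) (XT.lf (nat_lit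 304) (nat_lit 1758337974) (nat_lit 0) (nat_lit 1435253724) (nat_lit 228) (nat_lit 1435253724) (nat_lit 102) (nat_lit 1) (nat_lit 98) (nat_lit 1) (nat_lit 101) (nat_lit 1) (nat_lit 385) (nat_lit 435) (nat_lit 320)) (XT.lf (nat_lit 76) (nat_lit 248494645) (nat_lit 0) (nat_lit 4098744009) (nat_lit 304) (nat_lit 248494645) (nat_lit 99) (nat_lit 1) (nat_lit 98) (nat_lit 1) (nat_lit 102) (nat_lit 1) (nat_lit 386) (nat_lit 435) (nat_lit 319))))))) (XT.nd (nat_lit 702) (nat_lit 1596) (nat_lit 0) (XT.nd (nat_lit 312) (nat_lit 836) (nat_lit 0) (XT.nd (nat_lit 156) (nat_lit 228) (nat_lit 0) (XT.nd (nat_lit 78) (nat_lit 228) (nat_lit 0) (XT.lf (nat_lit 76) (nat_lit 1903051833) (nat_lit 0) (nat_lit 756538488) (nat_lit 304) (nat_lit 1903051833) (nat_lit 95) (nat_lit 1) (nat_lit 94) (nat_lit 1) (nat_lit 98) (nat_lit 1) (nat_lit 387) (nat_lit 435) (nat_lit 318)) (XT.lf (nat_lit 304) (nat_lit 2542813929) (nat_lit 0) (nat_lit 993580685) (nat_lit 228) (nat_lit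 993580685) (nat_lit 95) (nat_lit 1) (nat_lit 91) (nat_lit 1) (nat_lit 94) (nat_lit 1) (nat_lit 388) (nat_lit 435) (nat_lit 317))) (XT.nd (nat_lit 78) (nat_lit 228) (nat_lit 0) (XT.lf (nat_lit 76) (nat_lit 643727375) (nat_lit 0) (nat_lit 3210164027) (nat_lit 304) (nat_lit 643727375) (nat_lit 92) (nat_lit 1) (nat_lit 91) (nat_lit 1) (nat_lit 95) (nat_lit 1) (nat_lit 389) (nat_lit 435) (nat_lit 316)) (XT.lf (nat_lit 304) (nat_lit 35590959) (nat_lit 0) (nat_lit 2214945815) (nat_lit 228) (nat_lit 2214945815) (nat_lit 92) (nat_lit 1) (nat_lit 88) (nat_lit 1) (nat_lit 91) (nat_lit 1) (nat_lit 390) (nat_lit 435) (nat_lit 315)))) (XT.nd (nat_lit 156) (nat_lit 532) (nat_lit 0) (XT.nd (nat_lit 78) (nat_lit 0) (nat_lit 0) (XT.lf (nat_lit 304) (nat_lit 3249540974) (nat_lit 0) (nat_lit 592060164) (nat_lit 228) (nat_lit 592060164) (nat_lit 88) (nat_lit 1) (nat_lit 84) (nat_lit 1) (nat_lit 87) (nat_lit 1) (nat_lit 391) (nat_lit 435) (nat_lit 314)) (XT.lf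 (nat_lit 76) (nat_lit 1000740605) (nat_lit 0) (nat_lit 2400556256) (nat_lit 304) (nat_lit 1000740605) (nat_lit 85) (nat_lit 1) (nat_lit 84) (nat_lit 1) (nat_lit 88) (nat_lit 1) (nat_lit 392) (nat_lit 435) (nat_lit 313))) (XT.nd (nat_lit 78) (nat_lit 304) (nat_lit 0) (XT.lf (nat_lit 304) (nat_lit 762100076) (nat_lit 0) (nat_lit 1804311981) (nat_lit 228) (nat_lit 1804311981) (nat_lit 85) (nat_lit 1) (nat_lit 81) (nat_lit 1) (nat_lit 84) (nat_lit 1) (nat_lit 393) (nat_lit 435) (nat_lit 312)) (XT.nd (nat_lit 78) (nat_lit 0) (nat_lit 0) (XT.lf (nat_lit 304) (nat_lit 3884793130) (nat_lit 0) (nat_lit 227506578) (nat_lit 228) (nat_lit 227506578) (nat_lit 81) (nat_lit 1) (nat_lit 77) (nat_lit 1) (nat_lit 80) (nat_lit 1) (nat_lit 394) (nat_lit 435) (nat_lit 311)) (XT.lf (nat_lit 76) (nat_lit 1322604155) (nat_lit 0) (nat_lit 1663684979) (nat_lit 304) (nat_lit 1322604155) (nat_lit 78) (nat_lit 1) (nat_lit 77) (nat_lit 1) (nat_lit 81) (nat_lit 1)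 (nat_lit 395) (nat_lit 435) (nat_lit 310)))))) (XT.nd (nat_lit 390) (nat_lit 912) (nat_lit 0) (XT.nd (nat_lit 156) (nat_lit 456) (nat_lit 0) (XT.nd (nat_lit 78) (nat_lit 0) (nat_lit 0) (XT.lf (nat_lit 304) (nat_lit 1418983779) (nat_lit 0) (nat_lit 1429694019) (nat_lit 228) (nat_lit 1429694019) (nat_lit 78) (nat_lit 1) (nat_lit 74) (nat_lit 1) (nat_lit 77) (nat_lit 1) (nat_lit 396) (nat_lit 435) (nat_lit 309)) (XT.lf (nat_lit 76) (nat_lit 103702811) (nat_lit 0) (nat_lit 4040858922) (nat_lit 304) (nat_lit 103702811) (nat_lit 75) (nat_lit 1) (nat_lit 74) (nat_lit 1) (nat_lit 78) (nat_lit 1) (nat_lit 397) (nat_lit 435) (nat_lit 308))) (XT.nd (nat_lit 78) (nat_lit 228) (nat_lit 0) (XT.lf (nat_lit 76) (nat_lit 1612150940) (nat_lit 0) (nat_lit 993793702) (nat_lit 228) (nat_lit 1612150940) (nat_lit 72) (nat_lit 1) (nat_lit 71) (nat_lit 1) (nat_lit 74) (nat_lit 1) (nat_lit 398) (nat_lit 435) (nat_lit 307)) (XT.nd (nat_lit 78) (nat_lit 0) (nat_lit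 0) (XT.lf (nat_lit 304) (nat_lit 2011824722) (nat_lit 0) (nat_lit 1088256131) (nat_lit 228) (nat_lit 1088256131) (nat_lit 72) (nat_lit 1) (nat_lit 68) (nat_lit 1) (nat_lit 71) (nat_lit 1) (nat_lit 399) (nat_lit 435) (nat_lit 306)) (XT.lf (nat_lit 76) (nat_lit 404899141) (nat_lit 0) (nat_lit 3349102362) (nat_lit 304) (nat_lit 404899141) (nat_lit 69) (nat_lit 1) (nat_lit 68) (nat_lit 1) (nat_lit 72) (nat_lit 1) (nat_lit 400) (nat_lit 435) (nat_lit 305))))) (XT.nd (nat_lit 156) (nat_lit 456) (nat_lit 0) (XT.nd (nat_lit 78) (nat_lit 228) (nat_lit 0) (XT.lf (nat_lit 76) (nat_lit 1871995076) (nat_lit 0) (nat_lit 385568573) (nat_lit 228) (nat_lit 1871995076) (nat_lit 66) (nat_lit 1) (nat_lit 65) (nat_lit 1) (nat_lit 68) (nat_lit 1) (nat_lit 401) (nat_lit 435) (nat_lit 304)) (XT.lf (nat_lit 304) (nat_lit 2545774918) (nat_lit 0) (nat_lit 777380302) (nat_lit 228) (nat_lit 777380302) (nat_lit 66) (nat_lit 1) (nat_lit 62) (nat_lit 1) (nat_lit 65)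 (nat_lit 1) (nat_lit 402) (nat_lit 435) (nat_lit 303))) (XT.nd (nat_lit 78) (nat_lit 456) (nat_lit 0) (XT.lf (nat_lit 76) (nat_lit 677097331) (nat_lit 0) (nat_lit 2717556162) (nat_lit 304) (nat_lit 677097331) (nat_lit 63) (nat_lit 1) (nat_lit 62) (nat_lit 1) (nat_lit 66) (nat_lit 1) (nat_lit 403) (nat_lit 435) (nat_lit 302)) (XT.nd (nat_lit 78) (nat_lit 304) (nat_lit 0) (XT.lf (nat_lit 228) (nat_lit 168100068) (nat_lit 0) (nat_lit 1937539951) (nat_lit 152) (nat_lit 1937539951) (nat_lit 63) (nat_lit 1) (nat_lit 60) (nat_lit 1) (nat_lit 62) (nat_lit 1) (nat_lit 404) (nat_lit 435) (nat_lit 301)) (XT.lf (nat_lit 304) (nat_lit 3025588643) (nat_lit 0) (nat_lit 494649681) (nat_lit 228) (nat_lit 494649681) (nat_lit 60) (nat_lit 1) (nat_lit 56) (nat_lit 1) (nat_lit 59) (nat_lit 1) (nat_lit 405) (nat_lit 435) (nat_lit 300))))))))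
noncomputable def ec207 : XT := (XT.nd (nat_lit 50076) (nat_lit 0) (nat_lit 28044) (XT.nd (nat_lit 702) (nat_lit 912) (nat_lit 0) (XT.nd (nat_lit 312) (nat_lit 608) (nat_lit 0) (XT.nd (nat_lit 156) (nat_lit 304) (nat_lit 0) (XT.nd (nat_lit 78) (nat_lit 152) (nat_lit 0) (XT.lf (nat_lit 76) (nat_lit 922624559) (nat_lit 0) (nat_lit 2141487383) (nat_lit 304) (nat_lit 922624559) (nat_lit 57) (nat_lit 1) (nat_lit 56) (nat_lit 1) (nat_lit 60) (nat_lit 1) (nat_lit 406) (nat_lit 435) (nat_lit 299)) (XT.lf (nat_lit 228) (nat_lit 673964773) (nat_lit 0) (nat_lit 1642447982) (nat_lit 152) (nat_lit 1642447982) (nat_lit 57) (nat_lit 1) (nat_lit 54) (nat_lit 1) (nat_lit 56) (nat_lit 1) (nat_lit 407) (nat_lit 435) (nat_lit 298))) (XT.nd (nat_lit 78) (nat_lit 0) (nat_lit 0) (XT.lf (nat_lit 304) (nat_lit 3455652825) (nat_lit 0) (nat_lit 237833223) (nat_lit 228) (nat_lit 237833223) (nat_lit 54) (nat_lit 1) (nat_lit 50) (nat_lit 1) (nat_lit 53) (nat_lit 1)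 (nat_lit 408) (nat_lit 435) (nat_lit 297)) (XT.lf (nat_lit 76) (nat_lit 1143628445) (nat_lit 0) (nat_lit 1616526415) (nat_lit 304) (nat_lit 1143628445) (nat_lit 51) (nat_lit 1) (nat_lit 50) (nat_lit 1) (nat_lit 54) (nat_lit 1) (nat_lit 409) (nat_lit 435) (nat_lit 296)))) (XT.nd (nat_lit 156) (nat_lit 152) (nat_lit 0) (XT.nd (nat_lit 78) (nat_lit 304) (nat_lit 0) (XT.lf (nat_lit 228) (nat_lit 1131135638) (nat_lit 0) (nat_lit 1372721546) (nat_lit 152) (nat_lit 1372721546) (nat_lit 51) (nat_lit 1) (nat_lit 48) (nat_lit 1) (nat_lit 50) (nat_lit 1) (nat_lit 410) (nat_lit 435) (nat_lit 295)) (XT.lf (nat_lit 304) (nat_lit 3840015132) (nat_lit 0) (nat_lit 4871505) (nat_lit 228) (nat_lit 4871505) (nat_lit 48) (nat_lit 1) (nat_lit 44) (nat_lit 1) (nat_lit 47) (nat_lit 1) (nat_lit 411) (nat_lit 435) (nat_lit 294))) (XT.nd (nat_lit 78) (nat_lit 152) (nat_lit 0) (XT.lf (nat_lit 76) (nat_lit 1342090777) (nat_lit 0) (nat_lit 1138639252) (nat_lit 304)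 (nat_lit 1342090777) (nat_lit 45) (nat_lit 1) (nat_lit 44) (nat_lit 1) (nat_lit 48) (nat_lit 1) (nat_lit 412) (nat_lit 435) (nat_lit 293)) (XT.nd (nat_lit 78) (nat_lit 0) (nat_lit 0) (XT.lf (nat_lit 228) (nat_lit 1543520335) (nat_lit 0) (nat_lit 1126372218) (nat_lit 152) (nat_lit 1126372218) (nat_lit 45) (nat_lit 1) (nat_lit 42) (nat_lit 1) (nat_lit 44) (nat_lit 1) (nat_lit 413) (nat_lit 435) (nat_lit 292)) (XT.lf (nat_lit 76) (nat_lit 207501515) (nat_lit 0) (nat_lit 3355025980) (nat_lit 228) (nat_lit 207501515) (nat_lit 43) (nat_lit 1) (nat_lit 42) (nat_lit 1) (nat_lit 45) (nat_lit 1) (nat_lit 414) (nat_lit 435) (nat_lit 291)))))) (XT.nd (nat_lit 312) (nat_lit 304) (nat_lit 0) (XT.nd (nat_lit 156) (nat_lit 228) (nat_lit 0) (XT.nd (nat_lit 78) (nat_lit 152) (nat_lit 0) (XT.lf (nat_lit 76) (nat_lit 1519840180) (nat_lit 0) (nat_lit 704101877) (nat_lit 228) (nat_lit 1519840180) (nat_lit 40) (nat_lit 1) (nat_lit 39) (nat_lit 1) (nat_lit 42)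 (nat_lit 1) (nat_lit 415) (nat_lit 435) (nat_lit 290)) (XT.lf (nat_lit 228) (nat_lit 1914725033) (nat_lit 0) (nat_lit 901564112) (nat_lit 152) (nat_lit 901564112) (nat_lit 40) (nat_lit 1) (nat_lit 37) (nat_lit 1) (nat_lit 39) (nat_lit 1) (nat_lit 416) (nat_lit 435) (nat_lit 289))) (XT.nd (nat_lit 78) (nat_lit 228) (nat_lit 0) (XT.lf (nat_lit 76) (nat_lit 399573677) (nat_lit 0) (nat_lit 2893036702) (nat_lit 228) (nat_lit 399573677) (nat_lit 38) (nat_lit 1) (nat_lit 37) (nat_lit 1) (nat_lit 40) (nat_lit 1) (nat_lit 417) (nat_lit 435) (nat_lit 288)) (XT.lf (nat_lit 76) (nat_lit 1678563824) (nat_lit 0) (nat_lit 309476605) (nat_lit 228) (nat_lit 1678563824) (nat_lit 35) (nat_lit 1) (nat_lit 34) (nat_lit 1) (nat_lit 37) (nat_lit 1) (nat_lit 418) (nat_lit 435) (nat_lit 287)))) (XT.nd (nat_lit 156) (nat_lit 152) (nat_lit 0) (XT.nd (nat_lit 78) (nat_lit 0) (nat_lit 0) (XT.lf (nat_lit 228) (nat_lit 2248077447) (nat_lit 0) (nat_lit 696602245) (nat_lit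 152) (nat_lit 696602245) (nat_lit 35) (nat_lit 1) (nat_lit 32) (nat_lit 1) (nat_lit 34) (nat_lit 1) (nat_lit 419) (nat_lit 435) (nat_lit 286)) (XT.lf (nat_lit 76) (nat_lit 572942698) (nat_lit 0) (nat_lit 2470278819) (nat_lit 228) (nat_lit 572942698) (nat_lit 33) (nat_lit 1) (nat_lit 32) (nat_lit 1) (nat_lit 35) (nat_lit 1) (nat_lit 420) (nat_lit 435) (nat_lit 285))) (XT.nd (nat_lit 48750) (nat_lit 0) (nat_lit 36100) (XT.lf (nat_lit 228) (nat_lit 49053121) (nat_lit 0) (nat_lit 1771083607) (nat_lit 152) (nat_lit 1771083607) (nat_lit 33) (nat_lit 1) (nat_lit 30) (nat_lit 1) (nat_lit 32) (nat_lit 1) (nat_lit 421) (nat_lit 435) (nat_lit 284)) (XT.nd (nat_lit 78) (nat_lit 0) (nat_lit 76) (XT.lf (nat_lit 1900) (nat_lit 1979795269) (nat_lit 76) (nat_lit 4232449888) (nat_lit 0) (nat_lit 4232449888) (nat_lit 530) (nat_lit 1) (nat_lit 506) (nat_lit 1) (nat_lit 505) (nat_lit 1) (nat_lit 285) (nat_lit 436) (nat_lit 419)) (XT.lf (nat_lit 1900) (nat_lit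 689632699) (nat_lit 0) (nat_lit 8968647779) (nat_lit 1824) (nat_lit 689632699) (nat_lit 531) (nat_lit 1) (nat_lit 506) (nat_lit 1) (nat_lit 530) (nat_lit 1) (nat_lit 286) (nat_lit 436) (nat_lit 418))))))) (XT.nd (nat_lit 702) (nat_lit 5320) (nat_lit 0) (XT.nd (nat_lit 312) (nat_lit 988) (nat_lit 0) (XT.nd (nat_lit 156) (nat_lit 1824) (nat_lit 0) (XT.nd (nat_lit 78) (nat_lit 0) (nat_lit 76) (XT.lf (nat_lit 1900) (nat_lit 731506364) (nat_lit 76) (nat_lit 4760182842) (nat_lit 0) (nat_lit 4760182842) (nat_lit 531) (nat_lit 1) (nat_lit 507) (nat_lit 1) (nat_lit 506) (nat_lit 1) (nat_lit 287) (nat_lit 436) (nat_lit 417)) (XT.lf (nat_lit 1900) (nat_lit 45802036) (nat_lit 0) (nat_lit 10066015016) (nat_lit 1824) (nat_lit 45802036) (nat_lit 532) (nat_lit 1) (nat_lit 507) (nat_lit 1) (nat_lit 531) (nat_lit 1) (nat_lit 288) (nat_lit 436) (nat_lit 416))) (XT.nd (nat_lit 78) (nat_lit 0) (nat_lit 0) (XT.lf (nat_lit 1976) (nat_lit 4734878832) (nat_lit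 0) (nat_lit 594079888) (nat_lit 1900) (nat_lit 4734878832) (nat_lit 508) (nat_lit 1) (nat_lit 482) (nat_lit 1) (nat_lit 507) (nat_lit 1) (nat_lit 289) (nat_lit 436) (nat_lit 415)) (XT.lf (nat_lit 1976) (nat_lit 8702234825) (nat_lit 76) (nat_lit 634780004) (nat_lit 0) (nat_lit 634780004) (nat_lit 508) (nat_lit 1) (nat_lit 483) (nat_lit 1) (nat_lit 482) (nat_lit 1) (nat_lit 290) (nat_lit 436) (nat_lit 414)))) (XT.nd (nat_lit 156) (nat_lit 1064) (nat_lit 0) (XT.nd (nat_lit 78) (nat_lit 0) (nat_lit 0) (XT.lf (nat_lit 1976) (nat_lit 3946065378) (nat_lit 0) (nat_lit 1988296101) (nat_lit 1900) (nat_lit 3946065378) (nat_lit 509) (nat_lit 1) (nat_lit 483) (nat_lit 1) (nat_lit 508) (nat_lit 1) (nat_lit 291) (nat_lit 436) (nat_lit 413)) (XT.lf (nat_lit 1976) (nat_lit 7084830188) (nat_lit 76) (nat_lit 1352881868) (nat_lit 0) (nat_lit 1352881868) (nat_lit 509) (nat_lit 1) (nat_lit 484) (nat_lit 1) (nat_lit 483) (nat_lit 1) (nat_lit 292) (nat_lit 436)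 (nat_lit 412))) (XT.nd (nat_lit 78) (nat_lit 1140) (nat_lit 0) (XT.lf (nat_lit 76) (nat_lit 3123219818) (nat_lit 0) (nat_lit 3455162797) (nat_lit 1900) (nat_lit 3123219818) (nat_lit 485) (nat_lit 1) (nat_lit 484) (nat_lit 1) (nat_lit 509) (nat_lit 1) (nat_lit 293) (nat_lit 436) (nat_lit 411)) (XT.nd (nat_lit 78) (nat_lit 0) (nat_lit 0) (XT.lf (nat_lit 1216) (nat_lit 5401756781) (nat_lit 0) (nat_lit 2106076689) (nat_lit 1140) (nat_lit 2106076689) (nat_lit 485) (nat_lit 1) (nat_lit 469) (nat_lit 1) (nat_lit 484) (nat_lit 1) (nat_lit 294) (nat_lit 436) (nat_lit 410)) (XT.lf (nat_lit 76) (nat_lit 2268931555) (nat_lit 0) (nat_lit 4989372797) (nat_lit 1216) (nat_lit 2268931555) (nat_lit 470) (nat_lit 1) (nat_lit 469) (nat_lit 1) (nat_lit 485) (nat_lit 1) (nat_lit 295) (nat_lit 436) (nat_lit 409)))))) (XT.nd (nat_lit 390) (nat_lit 2660) (nat_lit 0) (XT.nd (nat_lit 156) (nat_lit 1748) (nat_lit 0) (XT.nd (nat_lit 78) (nat_lit 0) (nat_lit 0) (XT.lf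 (nat_lit 988) (nat_lit 3658083711) (nat_lit 0) (nat_lit 2891766908) (nat_lit 912) (nat_lit 2891766908) (nat_lit 470) (nat_lit 1) (nat_lit 457) (nat_lit 1) (nat_lit 469) (nat_lit 1) (nat_lit 296) (nat_lit 436) (nat_lit 408)) (XT.lf (nat_lit 76) (nat_lit 1385664584) (nat_lit 0) (nat_lit 6585873755) (nat_lit 988) (nat_lit 1385664584) (nat_lit 458) (nat_lit 1) (nat_lit 457) (nat_lit 1) (nat_lit 470) (nat_lit 1) (nat_lit 297) (nat_lit 436) (nat_lit 407))) (XT.nd (nat_lit 78) (nat_lit 836) (nat_lit 0) (XT.lf (nat_lit 988) (nat_lit 1858633852) (nat_lit 0) (nat_lit 3707480042) (nat_lit 912) (nat_lit 3707480042) (nat_lit 458) (nat_lit 1) (nat_lit 445) (nat_lit 1) (nat_lit 457) (nat_lit 1) (nat_lit 298) (nat_lit 436) (nat_lit 406)) (XT.nd (nat_lit 78) (nat_lit 836) (nat_lit 0) (XT.lf (nat_lit 76) (nat_lit 475762844) (nat_lit 0) (nat_lit 8239857304) (nat_lit 988) (nat_lit 475762844) (nat_lit 446) (nat_lit 1) (nat_lit 445) (nat_lit 1) (nat_lit 458)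 (nat_lit 1) (nat_lit 299) (nat_lit 436) (nat_lit 405)) (XT.lf (nat_lit 912) (nat_lit 7994373) (nat_lit 0) (nat_lit 4550863361) (nat_lit 836) (nat_lit 4550863361) (nat_lit 446) (nat_lit 1) (nat_lit 434) (nat_lit 1) (nat_lit 445) (nat_lit 1) (nat_lit 300) (nat_lit 436) (nat_lit 404))))) (XT.nd (nat_lit 156) (nat_lit 1672) (nat_lit 0) (XT.nd (nat_lit 78) (nat_lit 0) (nat_lit 0) (XT.lf (nat_lit 988) (nat_lit 8118364611) (nat_lit 0) (nat_lit 455527894) (nat_lit 912) (nat_lit 455527894) (nat_lit 434) (nat_lit 1) (nat_lit 421) (nat_lit 1) (nat_lit 433) (nat_lit 1) (nat_lit 301) (nat_lit 436) (nat_lit 403)) (XT.lf (nat_lit 76) (nat_lit 3542473319) (nat_lit 0) (nat_lit 1864692376) (nat_lit 988) (nat_lit 3542473319) (nat_lit 422) (nat_lit 1) (nat_lit 421) (nat_lit 1) (nat_lit 434) (nat_lit 1) (nat_lit 302) (nat_lit 436) (nat_lit 402))) (XT.nd (nat_lit 78) (nat_lit 836) (nat_lit 0) (XT.lf (nat_lit 912) (nat_lit 6059524049) (nat_lit 0) (nat_lit 1405828688)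 (nat_lit 836) (nat_lit 1405828688) (nat_lit 422) (nat_lit 1) (nat_lit 410) (nat_lit 1) (nat_lit 421) (nat_lit 1) (nat_lit 303) (nat_lit 436) (nat_lit 401)) (XT.nd (nat_lit 78) (nat_lit 836) (nat_lit 0) (XT.lf (nat_lit 76) (nat_lit 2507039243) (nat_lit 0) (nat_lit 3779396884) (nat_lit 912) (nat_lit 2507039243) (nat_lit 411) (nat_lit 1) (nat_lit 410) (nat_lit 1) (nat_lit 422) (nat_lit 1) (nat_lit 304) (nat_lit 436) (nat_lit 400)) (XT.lf (nat_lit 912) (nat_lit 3964267405) (nat_lit 0) (nat_lit 2376269011) (nat_lit 836) (nat_lit 2376269011) (nat_lit 411) (nat_lit 1) (nat_lit 399) (nat_lit 1) (nat_lit 410) (nat_lit 1) (nat_lit 305) (nat_lit 436) (nat_lit 399))))))))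
noncomputable def ec208 : XT := (XT.nd (nat_lit 1404) (nat_lit 6156) (nat_lit 0) (XT.nd (nat_lit 702) (nat_lit 3420) (nat_lit 0) (XT.nd (nat_lit 312) (nat_lit 2204) (nat_lit 0) (XT.nd (nat_lit 156) (nat_lit 836) (nat_lit 0) (XT.nd (nat_lit 78) (nat_lit 760) (nat_lit 0) (XT.lf (nat_lit 76) (nat_lit 1454393713) (nat_lit 0) (nat_lit 5732336617) (nat_lit 912) (nat_lit 1454393713) (nat_lit 400) (nat_lit 1) (nat_lit 399) (nat_lit 1) (nat_lit 411) (nat_lit 1) (nat_lit 306) (nat_lit 436) (nat_lit 398)) (XT.lf (nat_lit 836) (nat_lit 1836290394) (nat_lit 0) (nat_lit 3364948374) (nat_lit 760) (nat_lit 3364948374) (nat_lit 400) (nat_lit 1) (nat_lit 389) (nat_lit 1) (nat_lit 399) (nat_lit 1) (nat_lit 307) (nat_lit 436) (nat_lit 397))) (XT.nd (nat_lit 78) (nat_lit 836) (nat_lit 0) (XT.lf (nat_lit 76) (nat_lit 386330926) (nat_lit 0) (nat_lit 7719819293) (nat_lit 836) (nat_lit 386330926) (nat_lit 390) (nat_lit 1) (nat_lit 389) (nat_lit 1) (nat_lit 400)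 (nat_lit 1) (nat_lit 308) (nat_lit 436) (nat_lit 396)) (XT.lf (nat_lit 76) (nat_lit 4051245992) (nat_lit 0) (nat_lit 316690859) (nat_lit 836) (nat_lit 4051245992) (nat_lit 379) (nat_lit 1) (nat_lit 378) (nat_lit 1) (nat_lit 389) (nat_lit 1) (nat_lit 309) (nat_lit 436) (nat_lit 395)))) (XT.nd (nat_lit 156) (nat_lit 1444) (nat_lit 0) (XT.nd (nat_lit 78) (nat_lit 0) (nat_lit 0) (XT.lf (nat_lit 836) (nat_lit 6965340796) (nat_lit 0) (nat_lit 690871361) (nat_lit 760) (nat_lit 690871361) (nat_lit 379) (nat_lit 1) (nat_lit 368) (nat_lit 1) (nat_lit 378) (nat_lit 1) (nat_lit 310) (nat_lit 436) (nat_lit 394)) (XT.lf (nat_lit 76) (nat_lit 2902179303) (nat_lit 0) (nat_lit 2471134831) (nat_lit 836) (nat_lit 2902179303) (nat_lit 369) (nat_lit 1) (nat_lit 368) (nat_lit 1) (nat_lit 379) (nat_lit 1) (nat_lit 311) (nat_lit 436) (nat_lit 393))) (XT.nd (nat_lit 78) (nat_lit 684) (nat_lit 0) (XT.lf (nat_lit 836) (nat_lit 4649883306) (nat_lit 0) (nat_lit 1777552500)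 (nat_lit 760) (nat_lit 1777552500) (nat_lit 369) (nat_lit 1) (nat_lit 358) (nat_lit 1) (nat_lit 368) (nat_lit 1) (nat_lit 312) (nat_lit 436) (nat_lit 392)) (XT.nd (nat_lit 78) (nat_lit 684) (nat_lit 0) (XT.lf (nat_lit 76) (nat_lit 1743625423) (nat_lit 0) (nat_lit 4648010980) (nat_lit 836) (nat_lit 1743625423) (nat_lit 359) (nat_lit 1) (nat_lit 358) (nat_lit 1) (nat_lit 369) (nat_lit 1) (nat_lit 313) (nat_lit 436) (nat_lit 391)) (XT.lf (nat_lit 760) (nat_lit 2316836084) (nat_lit 0) (nat_lit 2874733431) (nat_lit 684) (nat_lit 2874733431) (nat_lit 359) (nat_lit 1) (nat_lit 349) (nat_lit 1) (nat_lit 358) (nat_lit 1) (nat_lit 314) (nat_lit 436) (nat_lit 390)))))) (XT.nd (nat_lit 312) (nat_lit 1976) (nat_lit 0) (XT.nd (nat_lit 156) (nat_lit 684) (nat_lit 0) (XT.nd (nat_lit 78) (nat_lit 760) (nat_lit 0) (XT.lf (nat_lit 76) (nat_lit 577013672) (nat_lit 0) (nat_lit 6844368006) (nat_lit 760) (nat_lit 577013672) (nat_lit 350) (nat_lit 1) (nat_lit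 349) (nat_lit 1) (nat_lit 359) (nat_lit 1) (nat_lit 315) (nat_lit 436) (nat_lit 389)) (XT.lf (nat_lit 76) (nat_lit 3950164537) (nat_lit 0) (nat_lit 30603259) (nat_lit 760) (nat_lit 3950164537) (nat_lit 340) (nat_lit 1) (nat_lit 339) (nat_lit 1) (nat_lit 349) (nat_lit 1) (nat_lit 316) (nat_lit 436) (nat_lit 388))) (XT.nd (nat_lit 78) (nat_lit 0) (nat_lit 0) (XT.lf (nat_lit 760) (nat_lit 6679733570) (nat_lit 0) (nat_lit 592379892) (nat_lit 684) (nat_lit 592379892) (nat_lit 340) (nat_lit 1) (nat_lit 330) (nat_lit 1) (nat_lit 339) (nat_lit 1) (nat_lit 317) (nat_lit 436) (nat_lit 387)) (XT.lf (nat_lit 76) (nat_lit 2719417332) (nat_lit 0) (nat_lit 2359655050) (nat_lit 760) (nat_lit 2719417332) (nat_lit 331) (nat_lit 1) (nat_lit 330) (nat_lit 1) (nat_lit 340) (nat_lit 1) (nat_lit 318) (nat_lit 436) (nat_lit 386)))) (XT.nd (nat_lit 156) (nat_lit 1292) (nat_lit 0) (XT.nd (nat_lit 78) (nat_lit 0) (nat_lit 0) (XT.lf (nat_lit 760) (nat_lit 4206743065)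 (nat_lit 0) (nat_lit 1763366404) (nat_lit 684) (nat_lit 1763366404) (nat_lit 331) (nat_lit 1) (nat_lit 321) (nat_lit 1) (nat_lit 330) (nat_lit 1) (nat_lit 319) (nat_lit 436) (nat_lit 385)) (XT.lf (nat_lit 76) (nat_lit 1485475449) (nat_lit 0) (nat_lit 4698239654) (nat_lit 760) (nat_lit 1485475449) (nat_lit 322) (nat_lit 1) (nat_lit 321) (nat_lit 1) (nat_lit 331) (nat_lit 1) (nat_lit 320) (nat_lit 436) (nat_lit 384))) (XT.nd (nat_lit 78) (nat_lit 684) (nat_lit 0) (XT.lf (nat_lit 684) (nat_lit 1728480478) (nat_lit 0) (nat_lit 2938539590) (nat_lit 608) (nat_lit 2938539590) (nat_lit 322) (nat_lit 1) (nat_lit 313) (nat_lit 1) (nat_lit 321) (nat_lit 1) (nat_lit 321) (nat_lit 436) (nat_lit 383)) (XT.nd (nat_lit 78) (nat_lit 684) (nat_lit 0) (XT.lf (nat_lit 76) (nat_lit 249462666) (nat_lit 0) (nat_lit 7044026649) (nat_lit 684) (nat_lit 249462666) (nat_lit 314) (nat_lit 1) (nat_lit 313) (nat_lit 1) (nat_lit 322) (nat_lit 1) (nat_lit 322) (nat_lit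 436) (nat_lit 382)) (XT.lf (nat_lit 76) (nat_lit 3368788121) (nat_lit 0) (nat_lit 742989231) (nat_lit 684) (nat_lit 3368788121) (nat_lit 305) (nat_lit 1) (nat_lit 304) (nat_lit 1) (nat_lit 313) (nat_lit 1) (nat_lit 323) (nat_lit 436) (nat_lit 381))))))) (XT.nd (nat_lit 702) (nat_lit 3192) (nat_lit 0) (XT.nd (nat_lit 312) (nat_lit 1748) (nat_lit 0) (XT.nd (nat_lit 156) (nat_lit 608) (nat_lit 0) (XT.nd (nat_lit 78) (nat_lit 0) (nat_lit 0) (XT.lf (nat_lit 684) (nat_lit 5457052195) (nat_lit 0) (nat_lit 981063365) (nat_lit 608) (nat_lit 981063365) (nat_lit 305) (nat_lit 1) (nat_lit 296) (nat_lit 1) (nat_lit 304) (nat_lit 1) (nat_lit 324) (nat_lit 436) (nat_lit 380)) (XT.lf (nat_lit 76) (nat_lit 2082748522) (nat_lit 0) (nat_lit 3192790374) (nat_lit 684) (nat_lit 2082748522) (nat_lit 297) (nat_lit 1) (nat_lit 296) (nat_lit 1) (nat_lit 305) (nat_lit 1) (nat_lit 325) (nat_lit 436) (nat_lit 379))) (XT.nd (nat_lit 78) (nat_lit 0) (nat_lit 0) (XT.lf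 (nat_lit 684) (nat_lit 2878261303) (nat_lit 0) (nat_lit 2209958346) (nat_lit 608) (nat_lit 2209958346) (nat_lit 297) (nat_lit 1) (nat_lit 288) (nat_lit 1) (nat_lit 296) (nat_lit 1) (nat_lit 326) (nat_lit 436) (nat_lit 378)) (XT.lf (nat_lit 76) (nat_lit 798602073) (nat_lit 0) (nat_lit 5641669291) (nat_lit 684) (nat_lit 798602073) (nat_lit 289) (nat_lit 1) (nat_lit 288) (nat_lit 1) (nat_lit 297) (nat_lit 1) (nat_lit 327) (nat_lit 436) (nat_lit 377)))) (XT.nd (nat_lit 156) (nat_lit 532) (nat_lit 0) (XT.nd (nat_lit 78) (nat_lit 684) (nat_lit 0) (XT.lf (nat_lit 608) (nat_lit 304149511) (nat_lit 0) (nat_lit 3437927216) (nat_lit 532) (nat_lit 3437927216) (nat_lit 289) (nat_lit 1) (nat_lit 281) (nat_lit 1) (nat_lit 288) (nat_lit 1) (nat_lit 328) (nat_lit 436) (nat_lit 376)) (XT.lf (nat_lit 684) (nat_lit 6162784713) (nat_lit 0) (nat_lit 479606471) (nat_lit 608) (nat_lit 479606471) (nat_lit 281) (nat_lit 1) (nat_lit 272) (nat_lit 1) (nat_lit 280)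 (nat_lit 1) (nat_lit 329) (nat_lit 436) (nat_lit 375))) (XT.nd (nat_lit 78) (nat_lit 532) (nat_lit 0) (XT.lf (nat_lit 76) (nat_lit 2415192028) (nat_lit 0) (nat_lit 2233905709) (nat_lit 684) (nat_lit 2415192028) (nat_lit 273) (nat_lit 1) (nat_lit 272) (nat_lit 1) (nat_lit 281) (nat_lit 1) (nat_lit 330) (nat_lit 436) (nat_lit 374)) (XT.nd (nat_lit 78) (nat_lit 0) (nat_lit 0) (XT.lf (nat_lit 608) (nat_lit 3509412157) (nat_lit 0) (nat_lit 1749006538) (nat_lit 532) (nat_lit 1749006538) (nat_lit 273) (nat_lit 1) (nat_lit 265) (nat_lit 1) (nat_lit 272) (nat_lit 1) (nat_lit 331) (nat_lit 436) (nat_lit 373)) (XT.lf (nat_lit 76) (nat_lit 1095550262) (nat_lit 0) (nat_lit 4760119456) (nat_lit 608) (nat_lit 1095550262) (nat_lit 266) (nat_lit 1) (nat_lit 265) (nat_lit 1) (nat_lit 273) (nat_lit 1) (nat_lit 332) (nat_lit 436) (nat_lit 372)))))) (XT.nd (nat_lit 312) (nat_lit 1520) (nat_lit 0) (XT.nd (nat_lit 156) (nat_lit 532) (nat_lit 0) (XT.nd (nat_lit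 78) (nat_lit 608) (nat_lit 0) (XT.lf (nat_lit 608) (nat_lit 867321567) (nat_lit 0) (nat_lit 3014090588) (nat_lit 532) (nat_lit 3014090588) (nat_lit 266) (nat_lit 1) (nat_lit 258) (nat_lit 1) (nat_lit 265) (nat_lit 1) (nat_lit 333) (nat_lit 436) (nat_lit 371)) (XT.lf (nat_lit 608) (nat_lit 6407276939) (nat_lit 0) (nat_lit 216687380) (nat_lit 532) (nat_lit 216687380) (nat_lit 258) (nat_lit 1) (nat_lit 250) (nat_lit 1) (nat_lit 257) (nat_lit 1) (nat_lit 334) (nat_lit 436) (nat_lit 370))) (XT.nd (nat_lit 78) (nat_lit 532) (nat_lit 0) (XT.lf (nat_lit 76) (nat_lit 2523459125) (nat_lit 0) (nat_lit 1739015494) (nat_lit 608) (nat_lit 2523459125) (nat_lit 251) (nat_lit 1) (nat_lit 250) (nat_lit 1) (nat_lit 258) (nat_lit 1) (nat_lit 335) (nat_lit 436) (nat_lit 369)) (XT.lf (nat_lit 608) (nat_lit 3701792372) (nat_lit 0) (nat_lit 1515135994) (nat_lit 532) (nat_lit 1515135994) (nat_lit 251) (nat_lit 1) (nat_lit 243) (nat_lit 1) (nat_lit 250) (nat_lit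 1) (nat_lit 336) (nat_lit 436) (nat_lit 368)))) (XT.nd (nat_lit 156) (nat_lit 1064) (nat_lit 0) (XT.nd (nat_lit 78) (nat_lit 456) (nat_lit 0) (XT.lf (nat_lit 76) (nat_lit 1179263164) (nat_lit 0) (nat_lit 4320244220) (nat_lit 608) (nat_lit 1179263164) (nat_lit 244) (nat_lit 1) (nat_lit 243) (nat_lit 1) (nat_lit 251) (nat_lit 1) (nat_lit 337) (nat_lit 436) (nat_lit 367)) (XT.lf (nat_lit 532) (nat_lit 1013176175) (nat_lit 0) (nat_lit 2806394115) (nat_lit 456) (nat_lit 2806394115) (nat_lit 244) (nat_lit 1) (nat_lit 237) (nat_lit 1) (nat_lit 243) (nat_lit 1) (nat_lit 338) (nat_lit 436) (nat_lit 366))) (XT.nd (nat_lit 78) (nat_lit 456) (nat_lit 0) (XT.lf (nat_lit 608) (nat_lit 6263532294) (nat_lit 0) (nat_lit 155224194) (nat_lit 532) (nat_lit 155224194) (nat_lit 237) (nat_lit 1) (nat_lit 229) (nat_lit 1) (nat_lit 236) (nat_lit 1) (nat_lit 339) (nat_lit 436) (nat_lit 365)) (XT.nd (nat_lit 78) (nat_lit 456) (nat_lit 0) (XT.lf (nat_lit 76) (nat_lit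 2443157412) (nat_lit 0) (nat_lit 1635759097) (nat_lit 608) (nat_lit 2443157412) (nat_lit 230) (nat_lit 1) (nat_lit 229) (nat_lit 1) (nat_lit 237) (nat_lit 1) (nat_lit 340) (nat_lit 436) (nat_lit 364)) (XT.lf (nat_lit 532) (nat_lit 3525340047) (nat_lit 0) (nat_lit 1472816942) (nat_lit 456) (nat_lit 1472816942) (nat_lit 230) (nat_lit 1) (nat_lit 223) (nat_lit 1) (nat_lit 229) (nat_lit 1) (nat_lit 341) (nat_lit 436) (nat_lit 363))))))))
noncomputable def ec209 : XT := (XT.nd (nat_lit 1404) (nat_lit 3952) (nat_lit 0) (XT.nd (nat_lit 702) (nat_lit 2356) (nat_lit 0) (XT.nd (nat_lit 312) (nat_lit 1368) (nat_lit 0) (XT.nd (nat_lit 156) (nat_lit 532) (nat_lit 0) (XT.nd (nat_lit 78) (nat_lit 456) (nat_lit 0) (XT.lf (nat_lit 76) (nat_lit 1083852213) (nat_lit 0) (nat_lit 4252713697) (nat_lit 532) (nat_lit 1083852213) (nat_lit 224) (nat_lit 1) (nat_lit 223) (nat_lit 1) (nat_lit 230) (nat_lit 1) (nat_lit 342) (nat_lit 436) (nat_lit 362)) (XT.lf (nat_lit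 532) (nat_lit 808710732) (nat_lit 0) (nat_lit 2780797139) (nat_lit 456) (nat_lit 2780797139) (nat_lit 224) (nat_lit 1) (nat_lit 217) (nat_lit 1) (nat_lit 223) (nat_lit 1) (nat_lit 343) (nat_lit 436) (nat_lit 361))) (XT.nd (nat_lit 78) (nat_lit 0) (nat_lit 0) (XT.lf (nat_lit 532) (nat_lit 5795420132) (nat_lit 0) (nat_lit 262755758) (nat_lit 456) (nat_lit 262755758) (nat_lit 217) (nat_lit 1) (nat_lit 210) (nat_lit 1) (nat_lit 216) (nat_lit 1) (nat_lit 344) (nat_lit 436) (nat_lit 360)) (XT.lf (nat_lit 76) (nat_lit 2205434522) (nat_lit 0) (nat_lit 1860801840) (nat_lit 532) (nat_lit 2205434522) (nat_lit 211) (nat_lit 1) (nat_lit 210) (nat_lit 1) (nat_lit 217) (nat_lit 1) (nat_lit 345) (nat_lit 436) (nat_lit 359)))) (XT.nd (nat_lit 156) (nat_lit 912) (nat_lit 0) (XT.nd (nat_lit 78) (nat_lit 0) (nat_lit 0) (XT.lf (nat_lit 532) (nat_lit 3041223901) (nat_lit 0) (nat_lit 1590956038) (nat_lit 456) (nat_lit 1590956038) (nat_lit 211) (nat_lit 1) (nat_lit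 204) (nat_lit 1) (nat_lit 210) (nat_lit 1) (nat_lit 346) (nat_lit 436) (nat_lit 358)) (XT.lf (nat_lit 76) (nat_lit 839146994) (nat_lit 0) (nat_lit 4496863832) (nat_lit 532) (nat_lit 839146994) (nat_lit 205) (nat_lit 1) (nat_lit 204) (nat_lit 1) (nat_lit 211) (nat_lit 1) (nat_lit 347) (nat_lit 436) (nat_lit 357))) (XT.nd (nat_lit 78) (nat_lit 532) (nat_lit 0) (XT.lf (nat_lit 456) (nat_lit 312503561) (nat_lit 0) (nat_lit 2907518380) (nat_lit 380) (nat_lit 2907518380) (nat_lit 205) (nat_lit 1) (nat_lit 199) (nat_lit 1) (nat_lit 204) (nat_lit 1) (nat_lit 348) (nat_lit 436) (nat_lit 356)) (XT.nd (nat_lit 78) (nat_lit 0) (nat_lit 0) (XT.lf (nat_lit 532) (nat_lit 5058738624) (nat_lit 0) (nat_lit 510904635) (nat_lit 456) (nat_lit 510904635) (nat_lit 199) (nat_lit 1) (nat_lit 192) (nat_lit 1) (nat_lit 198) (nat_lit 1) (nat_lit 349) (nat_lit 436) (nat_lit 355)) (XT.lf (nat_lit 76) (nat_lit 1837497296) (nat_lit 0) (nat_lit 2358785618) (nat_lit 532)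 (nat_lit 1837497296) (nat_lit 193) (nat_lit 1) (nat_lit 192) (nat_lit 1) (nat_lit 199) (nat_lit 1) (nat_lit 350) (nat_lit 436) (nat_lit 354)))))) (XT.nd (nat_lit 312) (nat_lit 1140) (nat_lit 0) (XT.nd (nat_lit 156) (nat_lit 836) (nat_lit 0) (XT.nd (nat_lit 78) (nat_lit 0) (nat_lit 0) (XT.lf (nat_lit 456) (nat_lit 2302864472) (nat_lit 0) (nat_lit 1842380394) (nat_lit 380) (nat_lit 1842380394) (nat_lit 193) (nat_lit 1) (nat_lit 187) (nat_lit 1) (nat_lit 192) (nat_lit 1) (nat_lit 351) (nat_lit 436) (nat_lit 353)) (XT.lf (nat_lit 76) (nat_lit 471194052) (nat_lit 0) (nat_lit 4999688168) (nat_lit 456) (nat_lit 471194052) (nat_lit 188) (nat_lit 1) (nat_lit 187) (nat_lit 1) (nat_lit 193) (nat_lit 1) (nat_lit 352) (nat_lit 436) (nat_lit 352))) (XT.nd (nat_lit 78) (nat_lit 380) (nat_lit 0) (XT.lf (nat_lit 76) (nat_lit 2738990124) (nat_lit 0) (nat_lit 418740104) (nat_lit 456) (nat_lit 2738990124) (nat_lit 182) (nat_lit 1) (nat_lit 181) (nat_lit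 1) (nat_lit 187) (nat_lit 1) (nat_lit 353) (nat_lit 436) (nat_lit 351)) (XT.lf (nat_lit 456) (nat_lit 4102156972) (nat_lit 0) (nat_lit 874901011) (nat_lit 380) (nat_lit 874901011) (nat_lit 182) (nat_lit 1) (nat_lit 176) (nat_lit 1) (nat_lit 181) (nat_lit 1) (nat_lit 354) (nat_lit 436) (nat_lit 350)))) (XT.nd (nat_lit 156) (nat_lit 760) (nat_lit 0) (XT.nd (nat_lit 78) (nat_lit 380) (nat_lit 0) (XT.lf (nat_lit 76) (nat_lit 1363072010) (nat_lit 0) (nat_lit 3081398611) (nat_lit 456) (nat_lit 1363072010) (nat_lit 177) (nat_lit 1) (nat_lit 176) (nat_lit 1) (nat_lit 182) (nat_lit 1) (nat_lit 355) (nat_lit 436) (nat_lit 349)) (XT.lf (nat_lit 456) (nat_lit 1356839357) (nat_lit 0) (nat_lit 2203380163) (nat_lit 380) (nat_lit 2203380163) (nat_lit 177) (nat_lit 1) (nat_lit 171) (nat_lit 1) (nat_lit 176) (nat_lit 1) (nat_lit 356) (nat_lit 436) (nat_lit 348))) (XT.nd (nat_lit 78) (nat_lit 760) (nat_lit 0) (XT.lf (nat_lit 76) (nat_lit 2699056) (nat_lit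 0) (nat_lit 5714944056) (nat_lit 456) (nat_lit 2699056) (nat_lit 172) (nat_lit 1) (nat_lit 171) (nat_lit 1) (nat_lit 177) (nat_lit 1) (nat_lit 357) (nat_lit 436) (nat_lit 347)) (XT.nd (nat_lit 78) (nat_lit 380) (nat_lit 0) (XT.lf (nat_lit 76) (nat_lit 2168837980) (nat_lit 0) (nat_lit 1339343430) (nat_lit 380) (nat_lit 2168837980) (nat_lit 167) (nat_lit 1) (nat_lit 166) (nat_lit 1) (nat_lit 171) (nat_lit 1) (nat_lit 358) (nat_lit 436) (nat_lit 346)) (XT.lf (nat_lit 456) (nat_lit 2968050554) (nat_lit 0) (nat_lit 1333160685) (nat_lit 380) (nat_lit 1333160685) (nat_lit 167) (nat_lit 1) (nat_lit 161) (nat_lit 1) (nat_lit 166) (nat_lit 1) (nat_lit 359) (nat_lit 436) (nat_lit 345))))))) (XT.nd (nat_lit 702) (nat_lit 2204) (nat_lit 0) (XT.nd (nat_lit 312) (nat_lit 988) (nat_lit 0) (XT.nd (nat_lit 156) (nat_lit 456) (nat_lit 0) (XT.nd (nat_lit 78) (nat_lit 304) (nat_lit 0) (XT.lf (nat_lit 76) (nat_lit 802812292) (nat_lit 0) (nat_lit 3986550689)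 (nat_lit 456) (nat_lit 802812292) (nat_lit 162) (nat_lit 1) (nat_lit 161) (nat_lit 1) (nat_lit 167) (nat_lit 1) (nat_lit 360) (nat_lit 436) (nat_lit 344)) (XT.lf (nat_lit 380) (nat_lit 243685542) (nat_lit 0) (nat_lit 2653303102) (nat_lit 304) (nat_lit 2653303102) (nat_lit 162) (nat_lit 1) (nat_lit 157) (nat_lit 1) (nat_lit 161) (nat_lit 1) (nat_lit 361) (nat_lit 436) (nat_lit 343))) (XT.nd (nat_lit 78) (nat_lit 0) (nat_lit 0) (XT.lf (nat_lit 456) (nat_lit 4422942203) (nat_lit 0) (nat_lit 542985382) (nat_lit 380) (nat_lit 542985382) (nat_lit 157) (nat_lit 1) (nat_lit 151) (nat_lit 1) (nat_lit 156) (nat_lit 1) (nat_lit 362) (nat_lit 436) (nat_lit 342)) (XT.lf (nat_lit 76) (nat_lit 1526300720) (nat_lit 0) (nat_lit 2415138740) (nat_lit 456) (nat_lit 1526300720) (nat_lit 152) (nat_lit 1) (nat_lit 151) (nat_lit 1) (nat_lit 157) (nat_lit 1) (nat_lit 363) (nat_lit 436) (nat_lit 341)))) (XT.nd (nat_lit 156) (nat_lit 684) (nat_lit 0) (XT.nd (nat_lit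 78) (nat_lit 0) (nat_lit 0) (XT.lf (nat_lit 380) (nat_lit 1693241034) (nat_lit 0) (nat_lit 1866911059) (nat_lit 304) (nat_lit 1866911059) (nat_lit 152) (nat_lit 1) (nat_lit 147) (nat_lit 1) (nat_lit 151) (nat_lit 1) (nat_lit 364) (nat_lit 436) (nat_lit 340)) (XT.lf (nat_lit 76) (nat_lit 174660618) (nat_lit 0) (nat_lit 5037642605) (nat_lit 380) (nat_lit 174660618) (nat_lit 148) (nat_lit 1) (nat_lit 147) (nat_lit 1) (nat_lit 152) (nat_lit 1) (nat_lit 365) (nat_lit 436) (nat_lit 339))) (XT.nd (nat_lit 78) (nat_lit 304) (nat_lit 0) (XT.lf (nat_lit 76) (nat_lit 2179307367) (nat_lit 0) (nat_lit 988256173) (nat_lit 380) (nat_lit 2179307367) (nat_lit 143) (nat_lit 1) (nat_lit 142) (nat_lit 1) (nat_lit 147) (nat_lit 1) (nat_lit 366) (nat_lit 436) (nat_lit 338)) (XT.nd (nat_lit 78) (nat_lit 0) (nat_lit 0) (XT.lf (nat_lit 380) (nat_lit 3003619711) (nat_lit 0) (nat_lit 1151863836) (nat_lit 304) (nat_lit 1151863836) (nat_lit 143) (nat_lit 1) (nat_lit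 138) (nat_lit 1) (nat_lit 142) (nat_lit 1) (nat_lit 367) (nat_lit 436) (nat_lit 337)) (XT.lf (nat_lit 76) (nat_lit 827650848) (nat_lit 0) (nat_lit 3612907105) (nat_lit 380) (nat_lit 827650848) (nat_lit 139) (nat_lit 1) (nat_lit 138) (nat_lit 1) (nat_lit 143) (nat_lit 1) (nat_lit 368) (nat_lit 436) (nat_lit 336)))))) (XT.nd (nat_lit 390) (nat_lit 1216) (nat_lit 0) (XT.nd (nat_lit 156) (nat_lit 304) (nat_lit 0) (XT.nd (nat_lit 78) (nat_lit 380) (nat_lit 0) (XT.lf (nat_lit 380) (nat_lit 309652164) (nat_lit 0) (nat_lit 2459859708) (nat_lit 304) (nat_lit 2459859708) (nat_lit 139) (nat_lit 1) (nat_lit 134) (nat_lit 1) (nat_lit 138) (nat_lit 1) (nat_lit 369) (nat_lit 436) (nat_lit 335)) (XT.lf (nat_lit 380) (nat_lit 4185984965) (nat_lit 0) (nat_lit 502503541) (nat_lit 304) (nat_lit 502503541) (nat_lit 134) (nat_lit 1) (nat_lit 129) (nat_lit 1) (nat_lit 133) (nat_lit 1) (nat_lit 370) (nat_lit 436) (nat_lit 334))) (XT.nd (nat_lit 78) (nat_lit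 304) (nat_lit 0) (XT.lf (nat_lit 76) (nat_lit 1417848347) (nat_lit 0) (nat_lit 2317085376) (nat_lit 380) (nat_lit 1417848347) (nat_lit 130) (nat_lit 1) (nat_lit 129) (nat_lit 1) (nat_lit 134) (nat_lit 1) (nat_lit 371) (nat_lit 436) (nat_lit 333)) (XT.nd (nat_lit 78) (nat_lit 0) (nat_lit 0) (XT.lf (nat_lit 380) (nat_lit 1496640682) (nat_lit 0) (nat_lit 1809190862) (nat_lit 304) (nat_lit 1809190862) (nat_lit 130) (nat_lit 1) (nat_lit 125) (nat_lit 1) (nat_lit 129) (nat_lit 1) (nat_lit 372) (nat_lit 436) (nat_lit 332)) (XT.lf (nat_lit 76) (nat_lit 86964571) (nat_lit 0) (nat_lit 4903879642) (nat_lit 380) (nat_lit 86964571) (nat_lit 126) (nat_lit 1) (nat_lit 125) (nat_lit 1) (nat_lit 130) (nat_lit 1) (nat_lit 373) (nat_lit 436) (nat_lit 331))))) (XT.nd (nat_lit 156) (nat_lit 608) (nat_lit 0) (XT.nd (nat_lit 78) (nat_lit 304) (nat_lit 0) (XT.lf (nat_lit 76) (nat_lit 1950291237) (nat_lit 0) (nat_lit 1139959777) (nat_lit 304) (nat_lit 1950291237)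 (nat_lit 122) (nat_lit 1) (nat_lit 121) (nat_lit 1) (nat_lit 125) (nat_lit 1) (nat_lit 374) (nat_lit 436) (nat_lit 330)) (XT.lf (nat_lit 380) (nat_lit 2569497929) (nat_lit 0) (nat_lit 1217158508) (nat_lit 304) (nat_lit 1217158508) (nat_lit 122) (nat_lit 1) (nat_lit 117) (nat_lit 1) (nat_lit 121) (nat_lit 1) (nat_lit 375) (nat_lit 436) (nat_lit 329))) (XT.nd (nat_lit 78) (nat_lit 608) (nat_lit 0) (XT.lf (nat_lit 76) (nat_lit 623748270) (nat_lit 0) (nat_lit 3719977589) (nat_lit 380) (nat_lit 623748270) (nat_lit 118) (nat_lit 1) (nat_lit 117) (nat_lit 1) (nat_lit 122) (nat_lit 1) (nat_lit 376) (nat_lit 436) (nat_lit 328)) (XT.nd (nat_lit 78) (nat_lit 304) (nat_lit 0) (XT.lf (nat_lit 76) (nat_lit 2429628939) (nat_lit 0) (nat_lit 72098637) (nat_lit 304) (nat_lit 2429628939) (nat_lit 114) (nat_lit 1) (nat_lit 113) (nat_lit 1) (nat_lit 117) (nat_lit 1) (nat_lit 377) (nat_lit 436) (nat_lit 327)) (XT.lf (nat_lit 380) (nat_lit 3537380950) (nat_lit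 0) (nat_lit 679119072) (nat_lit 304) (nat_lit 679119072) (nat_lit 114) (nat_lit 1) (nat_lit 109) (nat_lit 1) (nat_lit 113) (nat_lit 1) (nat_lit 378) (nat_lit 436) (nat_lit 326))))))))
noncomputable def ec210 : XT := (XT.nd (nat_lit 1404) (nat_lit 2584) (nat_lit 0) (XT.nd (nat_lit 702) (nat_lit 1520) (nat_lit 0) (XT.nd (nat_lit 312) (nat_lit 760) (nat_lit 0) (XT.nd (nat_lit 156) (nat_lit 380) (nat_lit 0) (XT.nd (nat_lit 78) (nat_lit 228) (nat_lit 0) (XT.lf (nat_lit 76) (nat_lit 1108998406) (nat_lit 0) (nat_lit 2642126252) (nat_lit 380) (nat_lit 1108998406) (nat_lit 110) (nat_lit 1) (nat_lit 109) (nat_lit 1) (nat_lit 114) (nat_lit 1) (nat_lit 379) (nat_lit 436) (nat_lit 325)) (XT.lf (nat_lit 304) (nat_lit 907100544) (nat_lit 0) (nat_lit 1958940831) (nat_lit 228) (nat_lit 1958940831) (nat_lit 110) (nat_lit 1) (nat_lit 106) (nat_lit 1) (nat_lit 109) (nat_lit 1) (nat_lit 380) (nat_lit 436) (nat_lit 324))) (XT.nd (nat_lit 78) (nat_lit 0) (nat_lit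 0) (XT.lf (nat_lit 380) (nat_lit 4408740309) (nat_lit 0) (nat_lit 190786098) (nat_lit 304) (nat_lit 190786098) (nat_lit 106) (nat_lit 1) (nat_lit 101) (nat_lit 1) (nat_lit 105) (nat_lit 1) (nat_lit 381) (nat_lit 436) (nat_lit 323)) (XT.lf (nat_lit 76) (nat_lit 1546848419) (nat_lit 0) (nat_lit 1661937794) (nat_lit 380) (nat_lit 1546848419) (nat_lit 102) (nat_lit 1) (nat_lit 101) (nat_lit 1) (nat_lit 106) (nat_lit 1) (nat_lit 382) (nat_lit 436) (nat_lit 322)))) (XT.nd (nat_lit 156) (nat_lit 532) (nat_lit 0) (XT.nd (nat_lit 78) (nat_lit 0) (nat_lit 0) (XT.lf (nat_lit 304) (nat_lit 1793504733) (nat_lit 0) (nat_lit 1463958798) (nat_lit 228) (nat_lit 1463958798) (nat_lit 102) (nat_lit 1) (nat_lit 98) (nat_lit 1) (nat_lit 101) (nat_lit 1) (nat_lit 383) (nat_lit 436) (nat_lit 321)) (XT.lf (nat_lit 76) (nat_lit 253464538) (nat_lit 0) (nat_lit 4180718889) (nat_lit 304) (nat_lit 253464538) (nat_lit 99) (nat_lit 1) (nat_lit 98) (nat_lit 1) (nat_lit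 102) (nat_lit 1) (nat_lit 384) (nat_lit 436) (nat_lit 320))) (XT.nd (nat_lit 78) (nat_lit 228) (nat_lit 0) (XT.lf (nat_lit 76) (nat_lit 1941112870) (nat_lit 0) (nat_lit 771669258) (nat_lit 304) (nat_lit 1941112870) (nat_lit 95) (nat_lit 1) (nat_lit 94) (nat_lit 1) (nat_lit 98) (nat_lit 1) (nat_lit 385) (nat_lit 436) (nat_lit 319)) (XT.nd (nat_lit 78) (nat_lit 0) (nat_lit 0) (XT.lf (nat_lit 304) (nat_lit 2593670208) (nat_lit 0) (nat_lit 1013452299) (nat_lit 228) (nat_lit 1013452299) (nat_lit 95) (nat_lit 1) (nat_lit 91) (nat_lit 1) (nat_lit 94) (nat_lit 1) (nat_lit 386) (nat_lit 436) (nat_lit 318)) (XT.lf (nat_lit 76) (nat_lit 656601923) (nat_lit 0) (nat_lit 3274367307) (nat_lit 304) (nat_lit 656601923) (nat_lit 92) (nat_lit 1) (nat_lit 91) (nat_lit 1) (nat_lit 95) (nat_lit 1) (nat_lit 387) (nat_lit 436) (nat_lit 317)))))) (XT.nd (nat_lit 312) (nat_lit 760) (nat_lit 0) (XT.nd (nat_lit 156) (nat_lit 228) (nat_lit 0) (XT.nd (nat_lit 78)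 (nat_lit 304) (nat_lit 0) (XT.lf (nat_lit 304) (nat_lit 36302778) (nat_lit 0) (nat_lit 2259244732) (nat_lit 228) (nat_lit 2259244732) (nat_lit 92) (nat_lit 1) (nat_lit 88) (nat_lit 1) (nat_lit 91) (nat_lit 1) (nat_lit 388) (nat_lit 436) (nat_lit 316)) (XT.lf (nat_lit 304) (nat_lit 3314531793) (nat_lit 0) (nat_lit 603901368) (nat_lit 228) (nat_lit 603901368) (nat_lit 88) (nat_lit 1) (nat_lit 84) (nat_lit 1) (nat_lit 87) (nat_lit 1) (nat_lit 389) (nat_lit 436) (nat_lit 315))) (XT.nd (nat_lit 78) (nat_lit 228) (nat_lit 0) (XT.lf (nat_lit 76) (nat_lit 1020755418) (nat_lit 0) (nat_lit 2448567381) (nat_lit 304) (nat_lit 1020755418) (nat_lit 85) (nat_lit 1) (nat_lit 84) (nat_lit 1) (nat_lit 88) (nat_lit 1) (nat_lit 390) (nat_lit 436) (nat_lit 314)) (XT.lf (nat_lit 304) (nat_lit 777342077) (nat_lit 0) (nat_lit 1840398221) (nat_lit 228) (nat_lit 1840398221) (nat_lit 85) (nat_lit 1) (nat_lit 81) (nat_lit 1) (nat_lit 84) (nat_lit 1) (nat_lit 391)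 (nat_lit 436) (nat_lit 313)))) (XT.nd (nat_lit 156) (nat_lit 456) (nat_lit 0) (XT.nd (nat_lit 78) (nat_lit 0) (nat_lit 0) (XT.lf (nat_lit 304) (nat_lit 3962488992) (nat_lit 0) (nat_lit 232056709) (nat_lit 228) (nat_lit 232056709) (nat_lit 81) (nat_lit 1) (nat_lit 77) (nat_lit 1) (nat_lit 80) (nat_lit 1) (nat_lit 392) (nat_lit 436) (nat_lit 312)) (XT.lf (nat_lit 76) (nat_lit 1349056238) (nat_lit 0) (nat_lit 1696958679) (nat_lit 304) (nat_lit 1349056238) (nat_lit 78) (nat_lit 1) (nat_lit 77) (nat_lit 1) (nat_lit 81) (nat_lit 1) (nat_lit 393) (nat_lit 436) (nat_lit 311))) (XT.nd (nat_lit 78) (nat_lit 228) (nat_lit 0) (XT.lf (nat_lit 304) (nat_lit 1447363454) (nat_lit 0) (nat_lit 1458287899) (nat_lit 228) (nat_lit 1458287899) (nat_lit 78) (nat_lit 1) (nat_lit 74) (nat_lit 1) (nat_lit 77) (nat_lit 1) (nat_lit 394) (nat_lit 436) (nat_lit 310)) (XT.nd (nat_lit 78) (nat_lit 228) (nat_lit 0) (XT.lf (nat_lit 76) (nat_lit 105776867) (nat_lit 0)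 (nat_lit 4121676100) (nat_lit 304) (nat_lit 105776867) (nat_lit 75) (nat_lit 1) (nat_lit 74) (nat_lit 1) (nat_lit 78) (nat_lit 1) (nat_lit 395) (nat_lit 436) (nat_lit 309)) (XT.lf (nat_lit 76) (nat_lit 1644393958) (nat_lit 0) (nat_lit 1013669576) (nat_lit 228) (nat_lit 1644393958) (nat_lit 72) (nat_lit 1) (nat_lit 71) (nat_lit 1) (nat_lit 74) (nat_lit 1) (nat_lit 396) (nat_lit 436) (nat_lit 308))))))) (XT.nd (nat_lit 702) (nat_lit 1292) (nat_lit 0) (XT.nd (nat_lit 312) (nat_lit 608) (nat_lit 0) (XT.nd (nat_lit 156) (nat_lit 456) (nat_lit 0) (XT.nd (nat_lit 78) (nat_lit 0) (nat_lit 0) (XT.lf (nat_lit 304) (nat_lit 2052061216) (nat_lit 0) (nat_lit 1110021253) (nat_lit 228) (nat_lit 1110021253) (nat_lit 72) (nat_lit 1) (nat_lit 68) (nat_lit 1) (nat_lit 71) (nat_lit 1) (nat_lit 397) (nat_lit 436) (nat_lit 307)) (XT.lf (nat_lit 76) (nat_lit 412997124) (nat_lit 0) (nat_lit 3416084409) (nat_lit 304) (nat_lit 412997124) (nat_lit 69) (nat_lit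 1) (nat_lit 68) (nat_lit 1) (nat_lit 72) (nat_lit 1) (nat_lit 398) (nat_lit 436) (nat_lit 306))) (XT.nd (nat_lit 78) (nat_lit 228) (nat_lit 0) (XT.lf (nat_lit 76) (nat_lit 1909434978) (nat_lit 0) (nat_lit 393279945) (nat_lit 228) (nat_lit 1909434978) (nat_lit 66) (nat_lit 1) (nat_lit 65) (nat_lit 1) (nat_lit 68) (nat_lit 1) (nat_lit 399) (nat_lit 436) (nat_lit 305)) (XT.lf (nat_lit 304) (nat_lit 2596690417) (nat_lit 0) (nat_lit 792927908) (nat_lit 228) (nat_lit 792927908) (nat_lit 66) (nat_lit 1) (nat_lit 62) (nat_lit 1) (nat_lit 65) (nat_lit 1) (nat_lit 400) (nat_lit 436) (nat_lit 304)))) (XT.nd (nat_lit 156) (nat_lit 456) (nat_lit 0) (XT.nd (nat_lit 78) (nat_lit 152) (nat_lit 0) (XT.lf (nat_lit 76) (nat_lit 690639278) (nat_lit 0) (nat_lit 2771907285) (nat_lit 304) (nat_lit 690639278) (nat_lit 63) (nat_lit 1) (nat_lit 62) (nat_lit 1) (nat_lit 66) (nat_lit 1) (nat_lit 401) (nat_lit 436) (nat_lit 303)) (XT.lf (nat_lit 228) (nat_lit 171462070)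 (nat_lit 0) (nat_lit 1976290751) (nat_lit 152) (nat_lit 1976290751) (nat_lit 63) (nat_lit 1) (nat_lit 60) (nat_lit 1) (nat_lit 62) (nat_lit 1) (nat_lit 402) (nat_lit 436) (nat_lit 302))) (XT.nd (nat_lit 78) (nat_lit 152) (nat_lit 0) (XT.lf (nat_lit 304) (nat_lit 3086100416) (nat_lit 0) (nat_lit 504542675) (nat_lit 228) (nat_lit 504542675) (nat_lit 60) (nat_lit 1) (nat_lit 56) (nat_lit 1) (nat_lit 59) (nat_lit 1) (nat_lit 403) (nat_lit 436) (nat_lit 301)) (XT.nd (nat_lit 78) (nat_lit 152) (nat_lit 0) (XT.lf (nat_lit 76) (nat_lit 941077050) (nat_lit 0) (nat_lit 2184317131) (nat_lit 304) (nat_lit 941077050) (nat_lit 57) (nat_lit 1) (nat_lit 56) (nat_lit 1) (nat_lit 60) (nat_lit 1) (nat_lit 404) (nat_lit 436) (nat_lit 300)) (XT.lf (nat_lit 228) (nat_lit 687444068) (nat_lit 0) (nat_lit 1675296942) (nat_lit 152) (nat_lit 1675296942) (nat_lit 57) (nat_lit 1) (nat_lit 54) (nat_lit 1) (nat_lit 56) (nat_lit 1) (nat_lit 405) (nat_lit 436) (nat_lit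 299)))))) (XT.nd (nat_lit 312) (nat_lit 532) (nat_lit 0) (XT.nd (nat_lit 156) (nat_lit 456) (nat_lit 0) (XT.nd (nat_lit 78) (nat_lit 0) (nat_lit 0) (XT.lf (nat_lit 304) (nat_lit 3524765882) (nat_lit 0) (nat_lit 242589887) (nat_lit 228) (nat_lit 242589887) (nat_lit 54) (nat_lit 1) (nat_lit 50) (nat_lit 1) (nat_lit 53) (nat_lit 1) (nat_lit 406) (nat_lit 436) (nat_lit 298)) (XT.lf (nat_lit 76) (nat_lit 1166501014) (nat_lit 0) (nat_lit 1648856943) (nat_lit 304) (nat_lit 1166501014) (nat_lit 51) (nat_lit 1) (nat_lit 50) (nat_lit 1) (nat_lit 54) (nat_lit 1) (nat_lit 407) (nat_lit 436) (nat_lit 297))) (XT.nd (nat_lit 78) (nat_lit 304) (nat_lit 0) (XT.lf (nat_lit 228) (nat_lit 1153758351) (nat_lit 0) (nat_lit 1400175977) (nat_lit 152) (nat_lit 1400175977) (nat_lit 51) (nat_lit 1) (nat_lit 48) (nat_lit 1) (nat_lit 50) (nat_lit 1) (nat_lit 408) (nat_lit 436) (nat_lit 296)) (XT.lf (nat_lit 304) (nat_lit 3916815434) (nat_lit 0) (nat_lit 4968935)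 (nat_lit 228) (nat_lit 4968935) (nat_lit 48) (nat_lit 1) (nat_lit 44) (nat_lit 1) (nat_lit 47) (nat_lit 1) (nat_lit 409) (nat_lit 436) (nat_lit 295)))) (XT.nd (nat_lit 156) (nat_lit 380) (nat_lit 0) (XT.nd (nat_lit 78) (nat_lit 152) (nat_lit 0) (XT.lf (nat_lit 76) (nat_lit 1368932593) (nat_lit 0) (nat_lit 1161412037) (nat_lit 304) (nat_lit 1368932593) (nat_lit 45) (nat_lit 1) (nat_lit 44) (nat_lit 1) (nat_lit 48) (nat_lit 1) (nat_lit 410) (nat_lit 436) (nat_lit 294)) (XT.lf (nat_lit 228) (nat_lit 1574390741) (nat_lit 0) (nat_lit 1148899662) (nat_lit 152) (nat_lit 1148899662) (nat_lit 45) (nat_lit 1) (nat_lit 42) (nat_lit 1) (nat_lit 44) (nat_lit 1) (nat_lit 411) (nat_lit 436) (nat_lit 293))) (XT.nd (nat_lit 78) (nat_lit 380) (nat_lit 0) (XT.lf (nat_lit 76) (nat_lit 211651546) (nat_lit 0) (nat_lit 3422126500) (nat_lit 228) (nat_lit 211651546) (nat_lit 43) (nat_lit 1) (nat_lit 42) (nat_lit 1) (nat_lit 45) (nat_lit 1) (nat_lit 412) (nat_lit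 436) (nat_lit 292)) (XT.nd (nat_lit 78) (nat_lit 152) (nat_lit 0) (XT.lf (nat_lit 76) (nat_lit 1550236984) (nat_lit 0) (nat_lit 718183915) (nat_lit 228) (nat_lit 1550236984) (nat_lit 40) (nat_lit 1) (nat_lit 39) (nat_lit 1) (nat_lit 42) (nat_lit 1) (nat_lit 413) (nat_lit 436) (nat_lit 291)) (XT.lf (nat_lit 228) (nat_lit 1953019534) (nat_lit 0) (nat_lit 919595395) (nat_lit 152) (nat_lit 919595395) (nat_lit 40) (nat_lit 1) (nat_lit 37) (nat_lit 1) (nat_lit 39) (nat_lit 1) (nat_lit 414) (nat_lit 436) (nat_lit 290))))))))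
noncomputable def ec211 : XT := (XT.nd (nat_lit 50232) (nat_lit 0) (nat_lit 22800) (XT.nd (nat_lit 49530) (nat_lit 0) (nat_lit 31540) (XT.nd (nat_lit 312) (nat_lit 152) (nat_lit 0) (XT.nd (nat_lit 156) (nat_lit 152) (nat_lit 0) (XT.nd (nat_lit 78) (nat_lit 228) (nat_lit 0) (XT.lf (nat_lit 76) (nat_lit 407565151) (nat_lit 0) (nat_lit 2950897436) (nat_lit 228) (nat_lit 407565151) (nat_lit 38) (nat_lit 1) (nat_lit 37) (nat_lit 1) (nat_lit 40) (nat_lit 1) (nat_lit 415) (nat_lit 436) (nat_lit 289)) (XT.lf (nat_lit 76) (nat_lit 1712135101) (nat_lit 0) (nat_lit 315666137) (nat_lit 228) (nat_lit 1712135101) (nat_lit 35) (nat_lit 1) (nat_lit 34) (nat_lit 1) (nat_lit 37) (nat_lit 1) (nat_lit 416) (nat_lit 436) (nat_lit 288))) (XT.nd (nat_lit 78) (nat_lit 0) (nat_lit 0) (XT.lf (nat_lit 228) (nat_lit 2293038996) (nat_lit 0) (nat_lit 710534290) (nat_lit 152) (nat_lit 710534290) (nat_lit 35) (nat_lit 1) (nat_lit 32) (nat_lit 1) (nat_lit 34) (nat_lit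 1) (nat_lit 417) (nat_lit 436) (nat_lit 287)) (XT.lf (nat_lit 76) (nat_lit 584401552) (nat_lit 0) (nat_lit 2519684395) (nat_lit 228) (nat_lit 584401552) (nat_lit 33) (nat_lit 1) (nat_lit 32) (nat_lit 1) (nat_lit 35) (nat_lit 1) (nat_lit 418) (nat_lit 436) (nat_lit 286)))) (XT.nd (nat_lit 48984) (nat_lit 0) (nat_lit 34352) (XT.nd (nat_lit 48906) (nat_lit 0) (nat_lit 36176) (XT.lf (nat_lit 228) (nat_lit 50034183) (nat_lit 0) (nat_lit 1806505279) (nat_lit 152) (nat_lit 1806505279) (nat_lit 33) (nat_lit 1) (nat_lit 30) (nat_lit 1) (nat_lit 32) (nat_lit 1) (nat_lit 419) (nat_lit 436) (nat_lit 285)) (XT.lf (nat_lit 1900) (nat_lit 746136491) (nat_lit 76) (nat_lit 4855386499) (nat_lit 0) (nat_lit 4855386499) (nat_lit 531) (nat_lit 1) (nat_lit 507) (nat_lit 1) (nat_lit 506) (nat_lit 1) (nat_lit 285) (nat_lit 437) (nat_lit 418))) (XT.nd (nat_lit 78) (nat_lit 1900) (nat_lit 0) (XT.lf (nat_lit 1900) (nat_lit 46718077) (nat_lit 0) (nat_lit 10267335316)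 (nat_lit 1824) (nat_lit 46718077) (nat_lit 532) (nat_lit 1) (nat_lit 507) (nat_lit 1) (nat_lit 531) (nat_lit 1) (nat_lit 286) (nat_lit 437) (nat_lit 417)) (XT.nd (nat_lit 78) (nat_lit 0) (nat_lit 0) (XT.lf (nat_lit 1976) (nat_lit 4829576409) (nat_lit 0) (nat_lit 605961485) (nat_lit 1900) (nat_lit 4829576409) (nat_lit 508) (nat_lit 1) (nat_lit 482) (nat_lit 1) (nat_lit 507) (nat_lit 1) (nat_lit 287) (nat_lit 437) (nat_lit 416)) (XT.lf (nat_lit 1976) (nat_lit 8876279521) (nat_lit 76) (nat_lit 647475604) (nat_lit 0) (nat_lit 647475604) (nat_lit 508) (nat_lit 1) (nat_lit 483) (nat_lit 1) (nat_lit 482) (nat_lit 1) (nat_lit 288) (nat_lit 437) (nat_lit 415)))))) (XT.nd (nat_lit 312) (nat_lit 1824) (nat_lit 0) (XT.nd (nat_lit 156) (nat_lit 1064) (nat_lit 0) (XT.nd (nat_lit 78) (nat_lit 0) (nat_lit 0) (XT.lf (nat_lit 1976) (nat_lit 4024986686) (nat_lit 0) (nat_lit 2028062023) (nat_lit 1900) (nat_lit 4024986686) (nat_lit 509) (nat_lit 1) (nat_lit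 483) (nat_lit 1) (nat_lit 508) (nat_lit 1) (nat_lit 289) (nat_lit 437) (nat_lit 414)) (XT.lf (nat_lit 1976) (nat_lit 7226526792) (nat_lit 76) (nat_lit 1379939506) (nat_lit 0) (nat_lit 1379939506) (nat_lit 509) (nat_lit 1) (nat_lit 484) (nat_lit 1) (nat_lit 483) (nat_lit 1) (nat_lit 290) (nat_lit 437) (nat_lit 413))) (XT.nd (nat_lit 78) (nat_lit 1140) (nat_lit 0) (XT.lf (nat_lit 76) (nat_lit 3185684214) (nat_lit 0) (nat_lit 3524266053) (nat_lit 1900) (nat_lit 3185684214) (nat_lit 485) (nat_lit 1) (nat_lit 484) (nat_lit 1) (nat_lit 509) (nat_lit 1) (nat_lit 291) (nat_lit 437) (nat_lit 412)) (XT.lf (nat_lit 1216) (nat_lit 5509791916) (nat_lit 0) (nat_lit 2148198223) (nat_lit 1140) (nat_lit 2148198223) (nat_lit 485) (nat_lit 1) (nat_lit 469) (nat_lit 1) (nat_lit 484) (nat_lit 1) (nat_lit 292) (nat_lit 437) (nat_lit 411)))) (XT.nd (nat_lit 156) (nat_lit 912) (nat_lit 0) (XT.nd (nat_lit 78) (nat_lit 912) (nat_lit 0) (XT.lf (nat_lit 76) (nat_lit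 2314310186) (nat_lit 0) (nat_lit 5089160253) (nat_lit 1216) (nat_lit 2314310186) (nat_lit 470) (nat_lit 1) (nat_lit 469) (nat_lit 1) (nat_lit 485) (nat_lit 1) (nat_lit 293) (nat_lit 437) (nat_lit 410)) (XT.lf (nat_lit 988) (nat_lit 3731245385) (nat_lit 0) (nat_lit 2949602246) (nat_lit 912) (nat_lit 2949602246) (nat_lit 470) (nat_lit 1) (nat_lit 457) (nat_lit 1) (nat_lit 469) (nat_lit 1) (nat_lit 294) (nat_lit 437) (nat_lit 409))) (XT.nd (nat_lit 78) (nat_lit 912) (nat_lit 0) (XT.lf (nat_lit 76) (nat_lit 1413377875) (nat_lit 0) (nat_lit 6717591230) (nat_lit 988) (nat_lit 1413377875) (nat_lit 458) (nat_lit 1) (nat_lit 457) (nat_lit 1) (nat_lit 470) (nat_lit 1) (nat_lit 295) (nat_lit 437) (nat_lit 408)) (XT.nd (nat_lit 78) (nat_lit 0) (nat_lit 0) (XT.lf (nat_lit 988) (nat_lit 1895806529) (nat_lit 0) (nat_lit 3781629643) (nat_lit 912) (nat_lit 3781629643) (nat_lit 458) (nat_lit 1) (nat_lit 445) (nat_lit 1) (nat_lit 457) (nat_lit 1) (nat_lit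 296) (nat_lit 437) (nat_lit 407)) (XT.lf (nat_lit 76) (nat_lit 485278101) (nat_lit 0) (nat_lit 8404654450) (nat_lit 988) (nat_lit 485278101) (nat_lit 446) (nat_lit 1) (nat_lit 445) (nat_lit 1) (nat_lit 458) (nat_lit 1) (nat_lit 297) (nat_lit 437) (nat_lit 406))))))) (XT.nd (nat_lit 702) (nat_lit 4484) (nat_lit 0) (XT.nd (nat_lit 312) (nat_lit 1596) (nat_lit 0) (XT.nd (nat_lit 156) (nat_lit 836) (nat_lit 0) (XT.nd (nat_lit 78) (nat_lit 988) (nat_lit 0) (XT.lf (nat_lit 912) (nat_lit 8154261) (nat_lit 0) (nat_lit 4641880628) (nat_lit 836) (nat_lit 4641880628) (nat_lit 446) (nat_lit 1) (nat_lit 434) (nat_lit 1) (nat_lit 445) (nat_lit 1) (nat_lit 298) (nat_lit 437) (nat_lit 405)) (XT.lf (nat_lit 988) (nat_lit 8280731903) (nat_lit 0) (nat_lit 464638452) (nat_lit 912) (nat_lit 464638452) (nat_lit 434) (nat_lit 1) (nat_lit 421) (nat_lit 1) (nat_lit 433) (nat_lit 1) (nat_lit 299) (nat_lit 437) (nat_lit 404))) (XT.nd (nat_lit 78) (nat_lit 836)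 (nat_lit 0) (XT.lf (nat_lit 76) (nat_lit 3613322785) (nat_lit 0) (nat_lit 1901986223) (nat_lit 988) (nat_lit 3613322785) (nat_lit 422) (nat_lit 1) (nat_lit 421) (nat_lit 1) (nat_lit 434) (nat_lit 1) (nat_lit 300) (nat_lit 437) (nat_lit 403)) (XT.lf (nat_lit 912) (nat_lit 6180714530) (nat_lit 0) (nat_lit 1433945262) (nat_lit 836) (nat_lit 1433945262) (nat_lit 422) (nat_lit 1) (nat_lit 410) (nat_lit 1) (nat_lit 421) (nat_lit 1) (nat_lit 301) (nat_lit 437) (nat_lit 402)))) (XT.nd (nat_lit 156) (nat_lit 760) (nat_lit 0) (XT.nd (nat_lit 78) (nat_lit 836) (nat_lit 0) (XT.lf (nat_lit 76) (nat_lit 2557180028) (nat_lit 0) (nat_lit 3854984822) (nat_lit 912) (nat_lit 2557180028) (nat_lit 411) (nat_lit 1) (nat_lit 410) (nat_lit 1) (nat_lit 422) (nat_lit 1) (nat_lit 302) (nat_lit 437) (nat_lit 401)) (XT.lf (nat_lit 912) (nat_lit 4043552753) (nat_lit 0) (nat_lit 2423794392) (nat_lit 836) (nat_lit 2423794392) (nat_lit 411) (nat_lit 1) (nat_lit 399)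 (nat_lit 1) (nat_lit 410) (nat_lit 1) (nat_lit 303) (nat_lit 437) (nat_lit 400))) (XT.nd (nat_lit 78) (nat_lit 760) (nat_lit 0) (XT.lf (nat_lit 76) (nat_lit 1483481588) (nat_lit 0) (nat_lit 5846983349) (nat_lit 912) (nat_lit 1483481588) (nat_lit 400) (nat_lit 1) (nat_lit 399) (nat_lit 1) (nat_lit 411) (nat_lit 1) (nat_lit 304) (nat_lit 437) (nat_lit 399)) (XT.nd (nat_lit 78) (nat_lit 0) (nat_lit 0) (XT.lf (nat_lit 836) (nat_lit 1873016202) (nat_lit 0) (nat_lit 3432247341) (nat_lit 760) (nat_lit 3432247341) (nat_lit 400) (nat_lit 1) (nat_lit 389) (nat_lit 1) (nat_lit 399) (nat_lit 1) (nat_lit 305) (nat_lit 437) (nat_lit 398)) (XT.lf (nat_lit 76) (nat_lit 394057544) (nat_lit 0) (nat_lit 7874215679) (nat_lit 836) (nat_lit 394057544) (nat_lit 390) (nat_lit 1) (nat_lit 389) (nat_lit 1) (nat_lit 400) (nat_lit 1) (nat_lit 306) (nat_lit 437) (nat_lit 397)))))) (XT.nd (nat_lit 390) (nat_lit 2128) (nat_lit 0) (XT.nd (nat_lit 156) (nat_lit 760)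 (nat_lit 0) (XT.nd (nat_lit 78) (nat_lit 760) (nat_lit 0) (XT.lf (nat_lit 76) (nat_lit 4132270912) (nat_lit 0) (nat_lit 323024676) (nat_lit 836) (nat_lit 4132270912) (nat_lit 379) (nat_lit 1) (nat_lit 378) (nat_lit 1) (nat_lit 389) (nat_lit 1) (nat_lit 307) (nat_lit 437) (nat_lit 396)) (XT.lf (nat_lit 836) (nat_lit 7104647612) (nat_lit 0) (nat_lit 704688789) (nat_lit 760) (nat_lit 704688789) (nat_lit 379) (nat_lit 1) (nat_lit 368) (nat_lit 1) (nat_lit 378) (nat_lit 1) (nat_lit 308) (nat_lit 437) (nat_lit 395))) (XT.nd (nat_lit 78) (nat_lit 760) (nat_lit 0) (XT.lf (nat_lit 76) (nat_lit 2960222889) (nat_lit 0) (nat_lit 2520557527) (nat_lit 836) (nat_lit 2960222889) (nat_lit 369) (nat_lit 1) (nat_lit 368) (nat_lit 1) (nat_lit 379) (nat_lit 1) (nat_lit 309) (nat_lit 437) (nat_lit 394)) (XT.nd (nat_lit 78) (nat_lit 0) (nat_lit 0) (XT.lf (nat_lit 836) (nat_lit 4742880972) (nat_lit 0) (nat_lit 1813103550) (nat_lit 760) (nat_lit 1813103550) (nat_lit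 369) (nat_lit 1) (nat_lit 358) (nat_lit 1) (nat_lit 368) (nat_lit 1) (nat_lit 310) (nat_lit 437) (nat_lit 393)) (XT.lf (nat_lit 76) (nat_lit 1778497932) (nat_lit 0) (nat_lit 4740971200) (nat_lit 836) (nat_lit 1778497932) (nat_lit 359) (nat_lit 1) (nat_lit 358) (nat_lit 1) (nat_lit 369) (nat_lit 1) (nat_lit 311) (nat_lit 437) (nat_lit 392))))) (XT.nd (nat_lit 156) (nat_lit 1444) (nat_lit 0) (XT.nd (nat_lit 78) (nat_lit 0) (nat_lit 0) (XT.lf (nat_lit 760) (nat_lit 2363172806) (nat_lit 0) (nat_lit 2932228099) (nat_lit 684) (nat_lit 2932228099) (nat_lit 359) (nat_lit 1) (nat_lit 349) (nat_lit 1) (nat_lit 358) (nat_lit 1) (nat_lit 312) (nat_lit 437) (nat_lit 391)) (XT.lf (nat_lit 76) (nat_lit 588553945) (nat_lit 0) (nat_lit 6981255366) (nat_lit 760) (nat_lit 588553945) (nat_lit 350) (nat_lit 1) (nat_lit 349) (nat_lit 1) (nat_lit 359) (nat_lit 1) (nat_lit 313) (nat_lit 437) (nat_lit 390))) (XT.nd (nat_lit 78) (nat_lit 684) (nat_lit 0) (XT.lf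 (nat_lit 76) (nat_lit 4029167827) (nat_lit 0) (nat_lit 31215324) (nat_lit 760) (nat_lit 4029167827) (nat_lit 340) (nat_lit 1) (nat_lit 339) (nat_lit 1) (nat_lit 349) (nat_lit 1) (nat_lit 314) (nat_lit 437) (nat_lit 389)) (XT.nd (nat_lit 78) (nat_lit 0) (nat_lit 0) (XT.lf (nat_lit 760) (nat_lit 6813328241) (nat_lit 0) (nat_lit 604227490) (nat_lit 684) (nat_lit 604227490) (nat_lit 340) (nat_lit 1) (nat_lit 330) (nat_lit 1) (nat_lit 339) (nat_lit 1) (nat_lit 315) (nat_lit 437) (nat_lit 388)) (XT.lf (nat_lit 76) (nat_lit 2773805679) (nat_lit 0) (nat_lit 2406848151) (nat_lit 760) (nat_lit 2773805679) (nat_lit 331) (nat_lit 1) (nat_lit 330) (nat_lit 1) (nat_lit 340) (nat_lit 1) (nat_lit 316) (nat_lit 437) (nat_lit 387))))))))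
noncomputable def ec212 : XT := (XT.nd (nat_lit 1404) (nat_lit 5092) (nat_lit 0) (XT.nd (nat_lit 702) (nat_lit 3420) (nat_lit 0) (XT.nd (nat_lit 312) (nat_lit 1900) (nat_lit 0) (XT.nd (nat_lit 156) (nat_lit 608) (nat_lit 0) (XT.nd (nat_lit 78) (nat_lit 0) (nat_lit 0) (XT.lf (nat_lit 760) (nat_lit 4290877926) (nat_lit 0) (nat_lit 1798633732) (nat_lit 684) (nat_lit 1798633732) (nat_lit 331) (nat_lit 1) (nat_lit 321) (nat_lit 1) (nat_lit 330) (nat_lit 1) (nat_lit 317) (nat_lit 437) (nat_lit 386)) (XT.lf (nat_lit 76) (nat_lit 1515184958) (nat_lit 0) (nat_lit 4792204447) (nat_lit 760) (nat_lit 1515184958) (nat_lit 322) (nat_lit 1) (nat_lit 321) (nat_lit 1) (nat_lit 331) (nat_lit 1) (nat_lit 318) (nat_lit 437) (nat_lit 385))) (XT.nd (nat_lit 78) (nat_lit 0) (nat_lit 0) (XT.lf (nat_lit 684) (nat_lit 1763050088) (nat_lit 0) (nat_lit 2997310382) (nat_lit 608) (nat_lit 2997310382) (nat_lit 322) (nat_lit 1) (nat_lit 313) (nat_lit 1) (nat_lit 321)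 (nat_lit 1) (nat_lit 319) (nat_lit 437) (nat_lit 384)) (XT.lf (nat_lit 76) (nat_lit 254451920) (nat_lit 0) (nat_lit 7184907182) (nat_lit 684) (nat_lit 254451920) (nat_lit 314) (nat_lit 1) (nat_lit 313) (nat_lit 1) (nat_lit 322) (nat_lit 1) (nat_lit 320) (nat_lit 437) (nat_lit 383)))) (XT.nd (nat_lit 156) (nat_lit 608) (nat_lit 0) (XT.nd (nat_lit 78) (nat_lit 608) (nat_lit 0) (XT.lf (nat_lit 76) (nat_lit 3436163884) (nat_lit 0) (nat_lit 757849016) (nat_lit 684) (nat_lit 3436163884) (nat_lit 305) (nat_lit 1) (nat_lit 304) (nat_lit 1) (nat_lit 313) (nat_lit 1) (nat_lit 321) (nat_lit 437) (nat_lit 382)) (XT.lf (nat_lit 684) (nat_lit 5566193239) (nat_lit 0) (nat_lit 1000684632) (nat_lit 608) (nat_lit 1000684632) (nat_lit 305) (nat_lit 1) (nat_lit 296) (nat_lit 1) (nat_lit 304) (nat_lit 1) (nat_lit 322) (nat_lit 437) (nat_lit 381))) (XT.nd (nat_lit 78) (nat_lit 608) (nat_lit 0) (XT.lf (nat_lit 76) (nat_lit 2124403492) (nat_lit 0) (nat_lit 3256646182)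 (nat_lit 684) (nat_lit 2124403492) (nat_lit 297) (nat_lit 1) (nat_lit 296) (nat_lit 1) (nat_lit 305) (nat_lit 1) (nat_lit 323) (nat_lit 437) (nat_lit 380)) (XT.nd (nat_lit 78) (nat_lit 0) (nat_lit 0) (XT.lf (nat_lit 684) (nat_lit 2935826529) (nat_lit 0) (nat_lit 2254157513) (nat_lit 608) (nat_lit 2254157513) (nat_lit 297) (nat_lit 1) (nat_lit 288) (nat_lit 1) (nat_lit 296) (nat_lit 1) (nat_lit 324) (nat_lit 437) (nat_lit 379)) (XT.lf (nat_lit 76) (nat_lit 814574114) (nat_lit 0) (nat_lit 5754502677) (nat_lit 684) (nat_lit 814574114) (nat_lit 289) (nat_lit 1) (nat_lit 288) (nat_lit 1) (nat_lit 297) (nat_lit 1) (nat_lit 325) (nat_lit 437) (nat_lit 378)))))) (XT.nd (nat_lit 312) (nat_lit 1672) (nat_lit 0) (XT.nd (nat_lit 156) (nat_lit 532) (nat_lit 0) (XT.nd (nat_lit 78) (nat_lit 684) (nat_lit 0) (XT.lf (nat_lit 608) (nat_lit 310232501) (nat_lit 0) (nat_lit 3506685761) (nat_lit 532) (nat_lit 3506685761) (nat_lit 289) (nat_lit 1) (nat_lit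 281) (nat_lit 1) (nat_lit 288) (nat_lit 1) (nat_lit 326) (nat_lit 437) (nat_lit 377)) (XT.lf (nat_lit 684) (nat_lit 6286040407) (nat_lit 0) (nat_lit 489198600) (nat_lit 608) (nat_lit 489198600) (nat_lit 281) (nat_lit 1) (nat_lit 272) (nat_lit 1) (nat_lit 280) (nat_lit 1) (nat_lit 327) (nat_lit 437) (nat_lit 376))) (XT.nd (nat_lit 78) (nat_lit 532) (nat_lit 0) (XT.lf (nat_lit 76) (nat_lit 2463495869) (nat_lit 0) (nat_lit 2278583823) (nat_lit 684) (nat_lit 2463495869) (nat_lit 273) (nat_lit 1) (nat_lit 272) (nat_lit 1) (nat_lit 281) (nat_lit 1) (nat_lit 328) (nat_lit 437) (nat_lit 375)) (XT.lf (nat_lit 608) (nat_lit 3579600400) (nat_lit 0) (nat_lit 1783986669) (nat_lit 532) (nat_lit 1783986669) (nat_lit 273) (nat_lit 1) (nat_lit 265) (nat_lit 1) (nat_lit 272) (nat_lit 1) (nat_lit 329) (nat_lit 437) (nat_lit 374)))) (XT.nd (nat_lit 156) (nat_lit 1140) (nat_lit 0) (XT.nd (nat_lit 78) (nat_lit 532) (nat_lit 0) (XT.lf (nat_lit 76) (nat_lit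 1117461268) (nat_lit 0) (nat_lit 4855321845) (nat_lit 608) (nat_lit 1117461268) (nat_lit 266) (nat_lit 1) (nat_lit 265) (nat_lit 1) (nat_lit 273) (nat_lit 1) (nat_lit 330) (nat_lit 437) (nat_lit 373)) (XT.lf (nat_lit 608) (nat_lit 884667998) (nat_lit 0) (nat_lit 3074372400) (nat_lit 532) (nat_lit 3074372400) (nat_lit 266) (nat_lit 1) (nat_lit 258) (nat_lit 1) (nat_lit 265) (nat_lit 1) (nat_lit 331) (nat_lit 437) (nat_lit 372))) (XT.nd (nat_lit 78) (nat_lit 532) (nat_lit 0) (XT.lf (nat_lit 608) (nat_lit 6535422478) (nat_lit 0) (nat_lit 221021128) (nat_lit 532) (nat_lit 221021128) (nat_lit 258) (nat_lit 1) (nat_lit 250) (nat_lit 1) (nat_lit 257) (nat_lit 1) (nat_lit 332) (nat_lit 437) (nat_lit 371)) (XT.nd (nat_lit 78) (nat_lit 532) (nat_lit 0) (XT.lf (nat_lit 76) (nat_lit 2573928308) (nat_lit 0) (nat_lit 1773795804) (nat_lit 608) (nat_lit 2573928308) (nat_lit 251) (nat_lit 1) (nat_lit 250) (nat_lit 1) (nat_lit 258) (nat_lit 1) (nat_lit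 333) (nat_lit 437) (nat_lit 370)) (XT.lf (nat_lit 608) (nat_lit 3775828219) (nat_lit 0) (nat_lit 1545438714) (nat_lit 532) (nat_lit 1545438714) (nat_lit 251) (nat_lit 1) (nat_lit 243) (nat_lit 1) (nat_lit 250) (nat_lit 1) (nat_lit 334) (nat_lit 437) (nat_lit 369))))))) (XT.nd (nat_lit 702) (nat_lit 2584) (nat_lit 0) (XT.nd (nat_lit 312) (nat_lit 1444) (nat_lit 0) (XT.nd (nat_lit 156) (nat_lit 608) (nat_lit 0) (XT.nd (nat_lit 78) (nat_lit 456) (nat_lit 0) (XT.lf (nat_lit 76) (nat_lit 1202848427) (nat_lit 0) (nat_lit 4406649105) (nat_lit 608) (nat_lit 1202848427) (nat_lit 244) (nat_lit 1) (nat_lit 243) (nat_lit 1) (nat_lit 251) (nat_lit 1) (nat_lit 335) (nat_lit 437) (nat_lit 368)) (XT.lf (nat_lit 532) (nat_lit 1033439699) (nat_lit 0) (nat_lit 2862521997) (nat_lit 456) (nat_lit 2862521997) (nat_lit 244) (nat_lit 1) (nat_lit 237) (nat_lit 1) (nat_lit 243) (nat_lit 1) (nat_lit 336) (nat_lit 437) (nat_lit 367))) (XT.nd (nat_lit 78) (nat_lit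 0) (nat_lit 0) (XT.lf (nat_lit 608) (nat_lit 6388802940) (nat_lit 0) (nat_lit 158328678) (nat_lit 532) (nat_lit 158328678) (nat_lit 237) (nat_lit 1) (nat_lit 229) (nat_lit 1) (nat_lit 236) (nat_lit 1) (nat_lit 337) (nat_lit 437) (nat_lit 366)) (XT.lf (nat_lit 76) (nat_lit 2492020560) (nat_lit 0) (nat_lit 1668474279) (nat_lit 608) (nat_lit 2492020560) (nat_lit 230) (nat_lit 1) (nat_lit 229) (nat_lit 1) (nat_lit 237) (nat_lit 1) (nat_lit 338) (nat_lit 437) (nat_lit 365)))) (XT.nd (nat_lit 156) (nat_lit 988) (nat_lit 0) (XT.nd (nat_lit 78) (nat_lit 0) (nat_lit 0) (XT.lf (nat_lit 532) (nat_lit 3595846848) (nat_lit 0) (nat_lit 1502273280) (nat_lit 456) (nat_lit 1502273280) (nat_lit 230) (nat_lit 1) (nat_lit 223) (nat_lit 1) (nat_lit 229) (nat_lit 1) (nat_lit 339) (nat_lit 437) (nat_lit 364)) (XT.lf (nat_lit 76) (nat_lit 1105529257) (nat_lit 0) (nat_lit 4337767971) (nat_lit 532) (nat_lit 1105529257) (nat_lit 224) (nat_lit 1) (nat_lit 223) (nat_lit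 1) (nat_lit 230) (nat_lit 1) (nat_lit 340) (nat_lit 437) (nat_lit 363))) (XT.nd (nat_lit 78) (nat_lit 532) (nat_lit 0) (XT.lf (nat_lit 532) (nat_lit 824884947) (nat_lit 0) (nat_lit 2836413081) (nat_lit 456) (nat_lit 2836413081) (nat_lit 224) (nat_lit 1) (nat_lit 217) (nat_lit 1) (nat_lit 223) (nat_lit 1) (nat_lit 341) (nat_lit 437) (nat_lit 362)) (XT.nd (nat_lit 78) (nat_lit 0) (nat_lit 0) (XT.lf (nat_lit 532) (nat_lit 5911328535) (nat_lit 0) (nat_lit 268010874) (nat_lit 456) (nat_lit 268010874) (nat_lit 217) (nat_lit 1) (nat_lit 210) (nat_lit 1) (nat_lit 216) (nat_lit 1) (nat_lit 342) (nat_lit 437) (nat_lit 361)) (XT.lf (nat_lit 76) (nat_lit 2249543213) (nat_lit 0) (nat_lit 1898017877) (nat_lit 532) (nat_lit 2249543213) (nat_lit 211) (nat_lit 1) (nat_lit 210) (nat_lit 1) (nat_lit 217) (nat_lit 1) (nat_lit 343) (nat_lit 437) (nat_lit 360)))))) (XT.nd (nat_lit 312) (nat_lit 1216) (nat_lit 0) (XT.nd (nat_lit 156) (nat_lit 912) (nat_lit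 0) (XT.nd (nat_lit 78) (nat_lit 0) (nat_lit 0) (XT.lf (nat_lit 532) (nat_lit 3102048379) (nat_lit 0) (nat_lit 1622775158) (nat_lit 456) (nat_lit 1622775158) (nat_lit 211) (nat_lit 1) (nat_lit 204) (nat_lit 1) (nat_lit 210) (nat_lit 1) (nat_lit 344) (nat_lit 437) (nat_lit 359)) (XT.lf (nat_lit 76) (nat_lit 855929934) (nat_lit 0) (nat_lit 4586801109) (nat_lit 532) (nat_lit 855929934) (nat_lit 205) (nat_lit 1) (nat_lit 204) (nat_lit 1) (nat_lit 211) (nat_lit 1) (nat_lit 345) (nat_lit 437) (nat_lit 358))) (XT.nd (nat_lit 78) (nat_lit 532) (nat_lit 0) (XT.lf (nat_lit 456) (nat_lit 318753633) (nat_lit 0) (nat_lit 2965668747) (nat_lit 380) (nat_lit 2965668747) (nat_lit 205) (nat_lit 1) (nat_lit 199) (nat_lit 1) (nat_lit 204) (nat_lit 1) (nat_lit 346) (nat_lit 437) (nat_lit 357)) (XT.lf (nat_lit 532) (nat_lit 5159913396) (nat_lit 0) (nat_lit 521122728) (nat_lit 456) (nat_lit 521122728) (nat_lit 199) (nat_lit 1) (nat_lit 192) (nat_lit 1) (nat_lit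 198) (nat_lit 1) (nat_lit 347) (nat_lit 437) (nat_lit 356)))) (XT.nd (nat_lit 156) (nat_lit 836) (nat_lit 0) (XT.nd (nat_lit 78) (nat_lit 380) (nat_lit 0) (XT.lf (nat_lit 76) (nat_lit 1874247242) (nat_lit 0) (nat_lit 2405961330) (nat_lit 532) (nat_lit 1874247242) (nat_lit 193) (nat_lit 1) (nat_lit 192) (nat_lit 1) (nat_lit 199) (nat_lit 1) (nat_lit 348) (nat_lit 437) (nat_lit 355)) (XT.lf (nat_lit 456) (nat_lit 2348921762) (nat_lit 0) (nat_lit 1879228002) (nat_lit 380) (nat_lit 1879228002) (nat_lit 193) (nat_lit 1) (nat_lit 187) (nat_lit 1) (nat_lit 192) (nat_lit 1) (nat_lit 349) (nat_lit 437) (nat_lit 354))) (XT.nd (nat_lit 78) (nat_lit 836) (nat_lit 0) (XT.lf (nat_lit 76) (nat_lit 480617933) (nat_lit 0) (nat_lit 5099681931) (nat_lit 456) (nat_lit 480617933) (nat_lit 188) (nat_lit 1) (nat_lit 187) (nat_lit 1) (nat_lit 193) (nat_lit 1) (nat_lit 350) (nat_lit 437) (nat_lit 353)) (XT.nd (nat_lit 78) (nat_lit 380) (nat_lit 0) (XT.lf (nat_lit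 76) (nat_lit 2793769926) (nat_lit 0) (nat_lit 427114906) (nat_lit 456) (nat_lit 2793769926) (nat_lit 182) (nat_lit 1) (nat_lit 181) (nat_lit 1) (nat_lit 187) (nat_lit 1) (nat_lit 351) (nat_lit 437) (nat_lit 352)) (XT.lf (nat_lit 456) (nat_lit 4184200112) (nat_lit 0) (nat_lit 892399031) (nat_lit 380) (nat_lit 892399031) (nat_lit 182) (nat_lit 1) (nat_lit 176) (nat_lit 1) (nat_lit 181) (nat_lit 1) (nat_lit 352) (nat_lit 437) (nat_lit 351))))))))
noncomputable def ec213 : XT := (XT.nd (nat_lit 1404) (nat_lit 3344) (nat_lit 0) (XT.nd (nat_lit 702) (nat_lit 1976) (nat_lit 0) (XT.nd (nat_lit 312) (nat_lit 1140) (nat_lit 0) (XT.nd (nat_lit 156) (nat_lit 380) (nat_lit 0) (XT.nd (nat_lit 78) (nat_lit 380) (nat_lit 0) (XT.lf (nat_lit 76) (nat_lit 1390333451) (nat_lit 0) (nat_lit 3143026584) (nat_lit 456) (nat_lit 1390333451) (nat_lit 177) (nat_lit 1) (nat_lit 176) (nat_lit 1) (nat_lit 182) (nat_lit 1) (nat_lit 353) (nat_lit 437) (nat_lit 350))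 (XT.lf (nat_lit 456) (nat_lit 1383976144) (nat_lit 0) (nat_lit 2247447766) (nat_lit 380) (nat_lit 2247447766) (nat_lit 177) (nat_lit 1) (nat_lit 171) (nat_lit 1) (nat_lit 176) (nat_lit 1) (nat_lit 354) (nat_lit 437) (nat_lit 349))) (XT.nd (nat_lit 78) (nat_lit 380) (nat_lit 0) (XT.lf (nat_lit 76) (nat_lit 2753037) (nat_lit 0) (nat_lit 5829242938) (nat_lit 456) (nat_lit 2753037) (nat_lit 172) (nat_lit 1) (nat_lit 171) (nat_lit 1) (nat_lit 177) (nat_lit 1) (nat_lit 355) (nat_lit 437) (nat_lit 348)) (XT.lf (nat_lit 76) (nat_lit 2212214739) (nat_lit 0) (nat_lit 1366130299) (nat_lit 380) (nat_lit 2212214739) (nat_lit 167) (nat_lit 1) (nat_lit 166) (nat_lit 1) (nat_lit 171) (nat_lit 1) (nat_lit 356) (nat_lit 437) (nat_lit 347)))) (XT.nd (nat_lit 156) (nat_lit 760) (nat_lit 0) (XT.nd (nat_lit 78) (nat_lit 0) (nat_lit 0) (XT.lf (nat_lit 456) (nat_lit 3027411565) (nat_lit 0) (nat_lit 1359823899) (nat_lit 380) (nat_lit 1359823899) (nat_lit 167)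 (nat_lit 1) (nat_lit 161) (nat_lit 1) (nat_lit 166) (nat_lit 1) (nat_lit 357) (nat_lit 437) (nat_lit 346)) (XT.lf (nat_lit 76) (nat_lit 818868538) (nat_lit 0) (nat_lit 4066281703) (nat_lit 456) (nat_lit 818868538) (nat_lit 162) (nat_lit 1) (nat_lit 161) (nat_lit 1) (nat_lit 167) (nat_lit 1) (nat_lit 358) (nat_lit 437) (nat_lit 345))) (XT.nd (nat_lit 78) (nat_lit 456) (nat_lit 0) (XT.lf (nat_lit 380) (nat_lit 248559253) (nat_lit 0) (nat_lit 2706369164) (nat_lit 304) (nat_lit 2706369164) (nat_lit 162) (nat_lit 1) (nat_lit 157) (nat_lit 1) (nat_lit 161) (nat_lit 1) (nat_lit 359) (nat_lit 437) (nat_lit 344)) (XT.nd (nat_lit 78) (nat_lit 0) (nat_lit 0) (XT.lf (nat_lit 456) (nat_lit 4511401047) (nat_lit 0) (nat_lit 553845090) (nat_lit 380) (nat_lit 553845090) (nat_lit 157) (nat_lit 1) (nat_lit 151) (nat_lit 1) (nat_lit 156) (nat_lit 1) (nat_lit 360) (nat_lit 437) (nat_lit 343)) (XT.lf (nat_lit 76) (nat_lit 1556826734) (nat_lit 0) (nat_lit 2463441515)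 (nat_lit 456) (nat_lit 1556826734) (nat_lit 152) (nat_lit 1) (nat_lit 151) (nat_lit 1) (nat_lit 157) (nat_lit 1) (nat_lit 361) (nat_lit 437) (nat_lit 342)))))) (XT.nd (nat_lit 312) (nat_lit 988) (nat_lit 0) (XT.nd (nat_lit 156) (nat_lit 684) (nat_lit 0) (XT.nd (nat_lit 78) (nat_lit 0) (nat_lit 0) (XT.lf (nat_lit 380) (nat_lit 1727105855) (nat_lit 0) (nat_lit 1904249281) (nat_lit 304) (nat_lit 1904249281) (nat_lit 152) (nat_lit 1) (nat_lit 147) (nat_lit 1) (nat_lit 151) (nat_lit 1) (nat_lit 362) (nat_lit 437) (nat_lit 341)) (XT.lf (nat_lit 76) (nat_lit 178153830) (nat_lit 0) (nat_lit 5138395458) (nat_lit 380) (nat_lit 178153830) (nat_lit 148) (nat_lit 1) (nat_lit 147) (nat_lit 1) (nat_lit 152) (nat_lit 1) (nat_lit 363) (nat_lit 437) (nat_lit 340))) (XT.nd (nat_lit 78) (nat_lit 304) (nat_lit 0) (XT.lf (nat_lit 76) (nat_lit 2222893514) (nat_lit 0) (nat_lit 1008021296) (nat_lit 380) (nat_lit 2222893514) (nat_lit 143) (nat_lit 1) (nat_lit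 142) (nat_lit 1) (nat_lit 147) (nat_lit 1) (nat_lit 364) (nat_lit 437) (nat_lit 339)) (XT.lf (nat_lit 380) (nat_lit 3063692105) (nat_lit 0) (nat_lit 1174901113) (nat_lit 304) (nat_lit 1174901113) (nat_lit 143) (nat_lit 1) (nat_lit 138) (nat_lit 1) (nat_lit 142) (nat_lit 1) (nat_lit 365) (nat_lit 437) (nat_lit 338)))) (XT.nd (nat_lit 156) (nat_lit 684) (nat_lit 0) (XT.nd (nat_lit 78) (nat_lit 304) (nat_lit 0) (XT.lf (nat_lit 76) (nat_lit 844203865) (nat_lit 0) (nat_lit 3685165247) (nat_lit 380) (nat_lit 844203865) (nat_lit 139) (nat_lit 1) (nat_lit 138) (nat_lit 1) (nat_lit 143) (nat_lit 1) (nat_lit 366) (nat_lit 437) (nat_lit 337)) (XT.lf (nat_lit 380) (nat_lit 315845207) (nat_lit 0) (nat_lit 2509056902) (nat_lit 304) (nat_lit 2509056902) (nat_lit 139) (nat_lit 1) (nat_lit 134) (nat_lit 1) (nat_lit 138) (nat_lit 1) (nat_lit 367) (nat_lit 437) (nat_lit 336))) (XT.nd (nat_lit 78) (nat_lit 304) (nat_lit 0) (XT.lf (nat_lit 380) (nat_lit 4269704664)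 (nat_lit 0) (nat_lit 512553612) (nat_lit 304) (nat_lit 512553612) (nat_lit 134) (nat_lit 1) (nat_lit 129) (nat_lit 1) (nat_lit 133) (nat_lit 1) (nat_lit 368) (nat_lit 437) (nat_lit 335)) (XT.nd (nat_lit 78) (nat_lit 304) (nat_lit 0) (XT.lf (nat_lit 76) (nat_lit 1446205314) (nat_lit 0) (nat_lit 2363427083) (nat_lit 380) (nat_lit 1446205314) (nat_lit 130) (nat_lit 1) (nat_lit 129) (nat_lit 1) (nat_lit 134) (nat_lit 1) (nat_lit 369) (nat_lit 437) (nat_lit 334)) (XT.lf (nat_lit 380) (nat_lit 1526573496) (nat_lit 0) (nat_lit 1845374679) (nat_lit 304) (nat_lit 1845374679) (nat_lit 130) (nat_lit 1) (nat_lit 125) (nat_lit 1) (nat_lit 129) (nat_lit 1) (nat_lit 370) (nat_lit 437) (nat_lit 333))))))) (XT.nd (nat_lit 702) (nat_lit 1520) (nat_lit 0) (XT.nd (nat_lit 312) (nat_lit 1216) (nat_lit 0) (XT.nd (nat_lit 156) (nat_lit 304) (nat_lit 0) (XT.nd (nat_lit 78) (nat_lit 304) (nat_lit 0) (XT.lf (nat_lit 76) (nat_lit 88703862) (nat_lit 0) (nat_lit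 5001957235) (nat_lit 380) (nat_lit 88703862) (nat_lit 126) (nat_lit 1) (nat_lit 125) (nat_lit 1) (nat_lit 130) (nat_lit 1) (nat_lit 371) (nat_lit 437) (nat_lit 332)) (XT.lf (nat_lit 76) (nat_lit 1989297061) (nat_lit 0) (nat_lit 1162758973) (nat_lit 304) (nat_lit 1989297061) (nat_lit 122) (nat_lit 1) (nat_lit 121) (nat_lit 1) (nat_lit 125) (nat_lit 1) (nat_lit 372) (nat_lit 437) (nat_lit 331))) (XT.nd (nat_lit 78) (nat_lit 0) (nat_lit 0) (XT.lf (nat_lit 380) (nat_lit 2620887888) (nat_lit 0) (nat_lit 1241501679) (nat_lit 304) (nat_lit 1241501679) (nat_lit 122) (nat_lit 1) (nat_lit 117) (nat_lit 1) (nat_lit 121) (nat_lit 1) (nat_lit 373) (nat_lit 437) (nat_lit 330)) (XT.lf (nat_lit 76) (nat_lit 636223235) (nat_lit 0) (nat_lit 3794377140) (nat_lit 380) (nat_lit 636223235) (nat_lit 118) (nat_lit 1) (nat_lit 117) (nat_lit 1) (nat_lit 122) (nat_lit 1) (nat_lit 374) (nat_lit 437) (nat_lit 329)))) (XT.nd (nat_lit 156) (nat_lit 608) (nat_lit 0)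 (XT.nd (nat_lit 78) (nat_lit 304) (nat_lit 0) (XT.lf (nat_lit 76) (nat_lit 2478221517) (nat_lit 0) (nat_lit 73540610) (nat_lit 304) (nat_lit 2478221517) (nat_lit 114) (nat_lit 1) (nat_lit 113) (nat_lit 1) (nat_lit 117) (nat_lit 1) (nat_lit 375) (nat_lit 437) (nat_lit 328)) (XT.lf (nat_lit 380) (nat_lit 3608128569) (nat_lit 0) (nat_lit 692701453) (nat_lit 304) (nat_lit 692701453) (nat_lit 114) (nat_lit 1) (nat_lit 109) (nat_lit 1) (nat_lit 113) (nat_lit 1) (nat_lit 376) (nat_lit 437) (nat_lit 327))) (XT.nd (nat_lit 78) (nat_lit 608) (nat_lit 0) (XT.lf (nat_lit 76) (nat_lit 1131178374) (nat_lit 0) (nat_lit 2694968777) (nat_lit 380) (nat_lit 1131178374) (nat_lit 110) (nat_lit 1) (nat_lit 109) (nat_lit 1) (nat_lit 114) (nat_lit 1) (nat_lit 377) (nat_lit 437) (nat_lit 326)) (XT.nd (nat_lit 78) (nat_lit 380) (nat_lit 0) (XT.lf (nat_lit 304) (nat_lit 925242555) (nat_lit 0) (nat_lit 1998119647) (nat_lit 228) (nat_lit 1998119647) (nat_lit 110)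 (nat_lit 1) (nat_lit 106) (nat_lit 1) (nat_lit 109) (nat_lit 1) (nat_lit 378) (nat_lit 437) (nat_lit 325)) (XT.lf (nat_lit 380) (nat_lit 4496915115) (nat_lit 0) (nat_lit 194601820) (nat_lit 304) (nat_lit 194601820) (nat_lit 106) (nat_lit 1) (nat_lit 101) (nat_lit 1) (nat_lit 105) (nat_lit 1) (nat_lit 379) (nat_lit 437) (nat_lit 324)))))) (XT.nd (nat_lit 390) (nat_lit 760) (nat_lit 0) (XT.nd (nat_lit 156) (nat_lit 532) (nat_lit 0) (XT.nd (nat_lit 78) (nat_lit 228) (nat_lit 0) (XT.lf (nat_lit 76) (nat_lit 1577785387) (nat_lit 0) (nat_lit 1695176550) (nat_lit 380) (nat_lit 1577785387) (nat_lit 102) (nat_lit 1) (nat_lit 101) (nat_lit 1) (nat_lit 106) (nat_lit 1) (nat_lit 380) (nat_lit 437) (nat_lit 323)) (XT.lf (nat_lit 304) (nat_lit 1829374828) (nat_lit 0) (nat_lit 1493237974) (nat_lit 228) (nat_lit 1493237974) (nat_lit 102) (nat_lit 1) (nat_lit 98) (nat_lit 1) (nat_lit 101) (nat_lit 1) (nat_lit 381) (nat_lit 437) (nat_lit 322))) (XT.nd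 (nat_lit 78) (nat_lit 532) (nat_lit 0) (XT.lf (nat_lit 76) (nat_lit 258533828) (nat_lit 0) (nat_lit 4264333267) (nat_lit 304) (nat_lit 258533828) (nat_lit 99) (nat_lit 1) (nat_lit 98) (nat_lit 1) (nat_lit 102) (nat_lit 1) (nat_lit 382) (nat_lit 437) (nat_lit 321)) (XT.nd (nat_lit 78) (nat_lit 228) (nat_lit 0) (XT.lf (nat_lit 76) (nat_lit 1979935127) (nat_lit 0) (nat_lit 787102643) (nat_lit 304) (nat_lit 1979935127) (nat_lit 95) (nat_lit 1) (nat_lit 94) (nat_lit 1) (nat_lit 98) (nat_lit 1) (nat_lit 383) (nat_lit 437) (nat_lit 320)) (XT.lf (nat_lit 304) (nat_lit 2645543612) (nat_lit 0) (nat_lit 1033721345) (nat_lit 228) (nat_lit 1033721345) (nat_lit 95) (nat_lit 1) (nat_lit 91) (nat_lit 1) (nat_lit 94) (nat_lit 1) (nat_lit 384) (nat_lit 437) (nat_lit 319))))) (XT.nd (nat_lit 156) (nat_lit 532) (nat_lit 0) (XT.nd (nat_lit 78) (nat_lit 228) (nat_lit 0) (XT.lf (nat_lit 76) (nat_lit 669733961) (nat_lit 0) (nat_lit 3339854653) (nat_lit 304)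 (nat_lit 669733961) (nat_lit 92) (nat_lit 1) (nat_lit 91) (nat_lit 1) (nat_lit 95) (nat_lit 1) (nat_lit 385) (nat_lit 437) (nat_lit 318)) (XT.lf (nat_lit 304) (nat_lit 37028834) (nat_lit 0) (nat_lit 2304429626) (nat_lit 228) (nat_lit 2304429626) (nat_lit 92) (nat_lit 1) (nat_lit 88) (nat_lit 1) (nat_lit 91) (nat_lit 1) (nat_lit 386) (nat_lit 437) (nat_lit 317))) (XT.nd (nat_lit 78) (nat_lit 228) (nat_lit 0) (XT.lf (nat_lit 304) (nat_lit 3380822429) (nat_lit 0) (nat_lit 615979395) (nat_lit 228) (nat_lit 615979395) (nat_lit 88) (nat_lit 1) (nat_lit 84) (nat_lit 1) (nat_lit 87) (nat_lit 1) (nat_lit 387) (nat_lit 437) (nat_lit 316)) (XT.nd (nat_lit 78) (nat_lit 228) (nat_lit 0) (XT.lf (nat_lit 76) (nat_lit 1041170526) (nat_lit 0) (nat_lit 2497538729) (nat_lit 304) (nat_lit 1041170526) (nat_lit 85) (nat_lit 1) (nat_lit 84) (nat_lit 1) (nat_lit 88) (nat_lit 1) (nat_lit 388) (nat_lit 437) (nat_lit 315)) (XT.lf (nat_lit 304) (nat_lit 792888919)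 (nat_lit 0) (nat_lit 1877206185) (nat_lit 228) (nat_lit 1877206185) (nat_lit 85) (nat_lit 1) (nat_lit 81) (nat_lit 1) (nat_lit 84) (nat_lit 1) (nat_lit 389) (nat_lit 437) (nat_lit 314))))))))
noncomputable def ec214 : XT := (XT.nd (nat_lit 1404) (nat_lit 1292) (nat_lit 0) (XT.nd (nat_lit 702) (nat_lit 1368) (nat_lit 0) (XT.nd (nat_lit 312) (nat_lit 912) (nat_lit 0) (XT.nd (nat_lit 156) (nat_lit 228) (nat_lit 0) (XT.nd (nat_lit 78) (nat_lit 0) (nat_lit 0) (XT.lf (nat_lit 304) (nat_lit 4041738772) (nat_lit 0) (nat_lit 236697843) (nat_lit 228) (nat_lit 236697843) (nat_lit 81) (nat_lit 1) (nat_lit 77) (nat_lit 1) (nat_lit 80) (nat_lit 1) (nat_lit 390) (nat_lit 437) (nat_lit 313)) (XT.lf (nat_lit 76) (nat_lit 1376037363) (nat_lit 0) (nat_lit 1730897853) (nat_lit 304) (nat_lit 1376037363) (nat_lit 78) (nat_lit 1) (nat_lit 77) (nat_lit 1) (nat_lit 81) (nat_lit 1) (nat_lit 391) (nat_lit 437) (nat_lit 312))) (XT.nd (nat_lit 78) (nat_lit 0) (nat_lit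 0) (XT.lf (nat_lit 304) (nat_lit 1476310723) (nat_lit 0) (nat_lit 1487453657) (nat_lit 228) (nat_lit 1487453657) (nat_lit 78) (nat_lit 1) (nat_lit 74) (nat_lit 1) (nat_lit 77) (nat_lit 1) (nat_lit 392) (nat_lit 437) (nat_lit 311)) (XT.lf (nat_lit 76) (nat_lit 107892404) (nat_lit 0) (nat_lit 4204109622) (nat_lit 304) (nat_lit 107892404) (nat_lit 75) (nat_lit 1) (nat_lit 74) (nat_lit 1) (nat_lit 78) (nat_lit 1) (nat_lit 393) (nat_lit 437) (nat_lit 310)))) (XT.nd (nat_lit 156) (nat_lit 456) (nat_lit 0) (XT.nd (nat_lit 78) (nat_lit 228) (nat_lit 0) (XT.lf (nat_lit 76) (nat_lit 1677281838) (nat_lit 0) (nat_lit 1033942968) (nat_lit 228) (nat_lit 1677281838) (nat_lit 72) (nat_lit 1) (nat_lit 71) (nat_lit 1) (nat_lit 74) (nat_lit 1) (nat_lit 394) (nat_lit 437) (nat_lit 309)) (XT.lf (nat_lit 304) (nat_lit 2093102440) (nat_lit 0) (nat_lit 1132221678) (nat_lit 228) (nat_lit 1132221678) (nat_lit 72) (nat_lit 1) (nat_lit 68) (nat_lit 1) (nat_lit 71)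 (nat_lit 1) (nat_lit 395) (nat_lit 437) (nat_lit 308))) (XT.nd (nat_lit 78) (nat_lit 456) (nat_lit 0) (XT.lf (nat_lit 76) (nat_lit 421257067) (nat_lit 0) (nat_lit 3484406097) (nat_lit 304) (nat_lit 421257067) (nat_lit 69) (nat_lit 1) (nat_lit 68) (nat_lit 1) (nat_lit 72) (nat_lit 1) (nat_lit 396) (nat_lit 437) (nat_lit 307)) (XT.nd (nat_lit 78) (nat_lit 228) (nat_lit 0) (XT.lf (nat_lit 76) (nat_lit 1947623677) (nat_lit 0) (nat_lit 401145544) (nat_lit 228) (nat_lit 1947623677) (nat_lit 66) (nat_lit 1) (nat_lit 65) (nat_lit 1) (nat_lit 68) (nat_lit 1) (nat_lit 397) (nat_lit 437) (nat_lit 306)) (XT.lf (nat_lit 304) (nat_lit 2648624225) (nat_lit 0) (nat_lit 808786466) (nat_lit 228) (nat_lit 808786466) (nat_lit 66) (nat_lit 1) (nat_lit 62) (nat_lit 1) (nat_lit 65) (nat_lit 1) (nat_lit 398) (nat_lit 437) (nat_lit 305)))))) (XT.nd (nat_lit 312) (nat_lit 912) (nat_lit 0) (XT.nd (nat_lit 156) (nat_lit 304) (nat_lit 0) (XT.nd (nat_lit 78) (nat_lit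 152) (nat_lit 0) (XT.lf (nat_lit 76) (nat_lit 704452064) (nat_lit 0) (nat_lit 2827345431) (nat_lit 304) (nat_lit 704452064) (nat_lit 63) (nat_lit 1) (nat_lit 62) (nat_lit 1) (nat_lit 66) (nat_lit 1) (nat_lit 399) (nat_lit 437) (nat_lit 304)) (XT.lf (nat_lit 228) (nat_lit 174891311) (nat_lit 0) (nat_lit 2015816566) (nat_lit 152) (nat_lit 2015816566) (nat_lit 63) (nat_lit 1) (nat_lit 60) (nat_lit 1) (nat_lit 62) (nat_lit 1) (nat_lit 400) (nat_lit 437) (nat_lit 303))) (XT.nd (nat_lit 78) (nat_lit 0) (nat_lit 0) (XT.lf (nat_lit 304) (nat_lit 3147822424) (nat_lit 0) (nat_lit 514633528) (nat_lit 228) (nat_lit 514633528) (nat_lit 60) (nat_lit 1) (nat_lit 56) (nat_lit 1) (nat_lit 59) (nat_lit 1) (nat_lit 401) (nat_lit 437) (nat_lit 302)) (XT.lf (nat_lit 76) (nat_lit 959898591) (nat_lit 0) (nat_lit 2228003474) (nat_lit 304) (nat_lit 959898591) (nat_lit 57) (nat_lit 1) (nat_lit 56) (nat_lit 1) (nat_lit 60) (nat_lit 1) (nat_lit 402) (nat_lit 437)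 (nat_lit 301)))) (XT.nd (nat_lit 156) (nat_lit 456) (nat_lit 0) (XT.nd (nat_lit 78) (nat_lit 304) (nat_lit 0) (XT.lf (nat_lit 228) (nat_lit 701192949) (nat_lit 0) (nat_lit 1708802881) (nat_lit 152) (nat_lit 1708802881) (nat_lit 57) (nat_lit 1) (nat_lit 54) (nat_lit 1) (nat_lit 56) (nat_lit 1) (nat_lit 403) (nat_lit 437) (nat_lit 300)) (XT.lf (nat_lit 304) (nat_lit 3595261199) (nat_lit 0) (nat_lit 247441685) (nat_lit 228) (nat_lit 247441685) (nat_lit 54) (nat_lit 1) (nat_lit 50) (nat_lit 1) (nat_lit 53) (nat_lit 1) (nat_lit 404) (nat_lit 437) (nat_lit 299))) (XT.nd (nat_lit 78) (nat_lit 456) (nat_lit 0) (XT.lf (nat_lit 76) (nat_lit 1189831034) (nat_lit 0) (nat_lit 1681834082) (nat_lit 304) (nat_lit 1189831034) (nat_lit 51) (nat_lit 1) (nat_lit 50) (nat_lit 1) (nat_lit 54) (nat_lit 1) (nat_lit 405) (nat_lit 437) (nat_lit 298)) (XT.nd (nat_lit 78) (nat_lit 304) (nat_lit 0) (XT.lf (nat_lit 228) (nat_lit 1176833518) (nat_lit 0) (nat_lit 1428179497)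 (nat_lit 152) (nat_lit 1428179497) (nat_lit 51) (nat_lit 1) (nat_lit 48) (nat_lit 1) (nat_lit 50) (nat_lit 1) (nat_lit 406) (nat_lit 437) (nat_lit 297)) (XT.lf (nat_lit 304) (nat_lit 3995151743) (nat_lit 0) (nat_lit 5068314) (nat_lit 228) (nat_lit 5068314) (nat_lit 48) (nat_lit 1) (nat_lit 44) (nat_lit 1) (nat_lit 47) (nat_lit 1) (nat_lit 407) (nat_lit 437) (nat_lit 296))))))) (XT.nd (nat_lit 702) (nat_lit 380) (nat_lit 0) (XT.nd (nat_lit 312) (nat_lit 532) (nat_lit 0) (XT.nd (nat_lit 156) (nat_lit 228) (nat_lit 0) (XT.nd (nat_lit 78) (nat_lit 152) (nat_lit 0) (XT.lf (nat_lit 76) (nat_lit 1396311245) (nat_lit 0) (nat_lit 1184640277) (nat_lit 304) (nat_lit 1396311245) (nat_lit 45) (nat_lit 1) (nat_lit 44) (nat_lit 1) (nat_lit 48) (nat_lit 1) (nat_lit 408) (nat_lit 437) (nat_lit 295)) (XT.lf (nat_lit 228) (nat_lit 1605878556) (nat_lit 0) (nat_lit 1171877656) (nat_lit 152) (nat_lit 1171877656) (nat_lit 45) (nat_lit 1) (nat_lit 42) (nat_lit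 1) (nat_lit 44) (nat_lit 1) (nat_lit 409) (nat_lit 437) (nat_lit 294))) (XT.nd (nat_lit 78) (nat_lit 228) (nat_lit 0) (XT.lf (nat_lit 76) (nat_lit 215884577) (nat_lit 0) (nat_lit 3490569030) (nat_lit 228) (nat_lit 215884577) (nat_lit 43) (nat_lit 1) (nat_lit 42) (nat_lit 1) (nat_lit 45) (nat_lit 1) (nat_lit 410) (nat_lit 437) (nat_lit 293)) (XT.lf (nat_lit 76) (nat_lit 1581241724) (nat_lit 0) (nat_lit 732547593) (nat_lit 228) (nat_lit 1581241724) (nat_lit 40) (nat_lit 1) (nat_lit 39) (nat_lit 1) (nat_lit 42) (nat_lit 1) (nat_lit 411) (nat_lit 437) (nat_lit 292)))) (XT.nd (nat_lit 156) (nat_lit 380) (nat_lit 0) (XT.nd (nat_lit 78) (nat_lit 0) (nat_lit 0) (XT.lf (nat_lit 228) (nat_lit 1992079925) (nat_lit 0) (nat_lit 937987303) (nat_lit 152) (nat_lit 937987303) (nat_lit 40) (nat_lit 1) (nat_lit 37) (nat_lit 1) (nat_lit 39) (nat_lit 1) (nat_lit 412) (nat_lit 437) (nat_lit 291)) (XT.lf (nat_lit 76) (nat_lit 415716454) (nat_lit 0) (nat_lit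 3009915385) (nat_lit 228) (nat_lit 415716454) (nat_lit 38) (nat_lit 1) (nat_lit 37) (nat_lit 1) (nat_lit 40) (nat_lit 1) (nat_lit 413) (nat_lit 437) (nat_lit 290))) (XT.nd (nat_lit 78) (nat_lit 152) (nat_lit 0) (XT.lf (nat_lit 76) (nat_lit 1746377803) (nat_lit 0) (nat_lit 321979460) (nat_lit 228) (nat_lit 1746377803) (nat_lit 35) (nat_lit 1) (nat_lit 34) (nat_lit 1) (nat_lit 37) (nat_lit 1) (nat_lit 414) (nat_lit 437) (nat_lit 289)) (XT.nd (nat_lit 78) (nat_lit 0) (nat_lit 0) (XT.lf (nat_lit 228) (nat_lit 2338899776) (nat_lit 0) (nat_lit 724744976) (nat_lit 152) (nat_lit 724744976) (nat_lit 35) (nat_lit 1) (nat_lit 32) (nat_lit 1) (nat_lit 34) (nat_lit 1) (nat_lit 415) (nat_lit 437) (nat_lit 288)) (XT.lf (nat_lit 76) (nat_lit 596089583) (nat_lit 0) (nat_lit 2570078083) (nat_lit 228) (nat_lit 596089583) (nat_lit 33) (nat_lit 1) (nat_lit 32) (nat_lit 1) (nat_lit 35) (nat_lit 1) (nat_lit 416) (nat_lit 437) (nat_lit 287)))))) (XT.nd (nat_lit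 49374) (nat_lit 0) (nat_lit 32680) (XT.nd (nat_lit 49140) (nat_lit 0) (nat_lit 34580) (XT.nd (nat_lit 78) (nat_lit 228) (nat_lit 0) (XT.lf (nat_lit 228) (nat_lit 51034867) (nat_lit 0) (nat_lit 1842635385) (nat_lit 152) (nat_lit 1842635385) (nat_lit 33) (nat_lit 1) (nat_lit 30) (nat_lit 1) (nat_lit 32) (nat_lit 1) (nat_lit 417) (nat_lit 437) (nat_lit 286)) (XT.lf (nat_lit 228) (nat_lit 2649532692) (nat_lit 0) (nat_lit 530522621) (nat_lit 152) (nat_lit 530522621) (nat_lit 30) (nat_lit 1) (nat_lit 27) (nat_lit 1) (nat_lit 29) (nat_lit 1) (nat_lit 418) (nat_lit 437) (nat_lit 285))) (XT.nd (nat_lit 78) (nat_lit 0) (nat_lit 76) (XT.lf (nat_lit 1976) (nat_lit 9053805112) (nat_lit 76) (nat_lit 660425116) (nat_lit 0) (nat_lit 660425116) (nat_lit 508) (nat_lit 1) (nat_lit 483) (nat_lit 1) (nat_lit 482) (nat_lit 1) (nat_lit 286) (nat_lit 438) (nat_lit 416)) (XT.nd (nat_lit 78) (nat_lit 0) (nat_lit 0) (XT.lf (nat_lit 1976) (nat_lit 4105486420) (nat_lit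 0) (nat_lit 2068623264) (nat_lit 1900) (nat_lit 4105486420) (nat_lit 509) (nat_lit 1) (nat_lit 483) (nat_lit 1) (nat_lit 508) (nat_lit 1) (nat_lit 287) (nat_lit 438) (nat_lit 415)) (XT.lf (nat_lit 1976) (nat_lit 7371057327) (nat_lit 76) (nat_lit 1407538296) (nat_lit 0) (nat_lit 1407538296) (nat_lit 509) (nat_lit 1) (nat_lit 484) (nat_lit 1) (nat_lit 483) (nat_lit 1) (nat_lit 288) (nat_lit 438) (nat_lit 414))))) (XT.nd (nat_lit 156) (nat_lit 912) (nat_lit 0) (XT.nd (nat_lit 78) (nat_lit 1140) (nat_lit 0) (XT.lf (nat_lit 76) (nat_lit 3249397898) (nat_lit 0) (nat_lit 3594751374) (nat_lit 1900) (nat_lit 3249397898) (nat_lit 485) (nat_lit 1) (nat_lit 484) (nat_lit 1) (nat_lit 509) (nat_lit 1) (nat_lit 289) (nat_lit 438) (nat_lit 413)) (XT.lf (nat_lit 1216) (nat_lit 5619987755) (nat_lit 0) (nat_lit 2191162188) (nat_lit 1140) (nat_lit 2191162188) (nat_lit 485) (nat_lit 1) (nat_lit 469) (nat_lit 1) (nat_lit 484) (nat_lit 1) (nat_lit 290) (nat_lit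 438) (nat_lit 412))) (XT.nd (nat_lit 78) (nat_lit 912) (nat_lit 0) (XT.lf (nat_lit 76) (nat_lit 2360596390) (nat_lit 0) (nat_lit 5190943458) (nat_lit 1216) (nat_lit 2360596390) (nat_lit 470) (nat_lit 1) (nat_lit 469) (nat_lit 1) (nat_lit 485) (nat_lit 1) (nat_lit 291) (nat_lit 438) (nat_lit 411)) (XT.nd (nat_lit 78) (nat_lit 0) (nat_lit 0) (XT.lf (nat_lit 988) (nat_lit 3805870293) (nat_lit 0) (nat_lit 3008594291) (nat_lit 912) (nat_lit 3008594291) (nat_lit 470) (nat_lit 1) (nat_lit 457) (nat_lit 1) (nat_lit 469) (nat_lit 1) (nat_lit 292) (nat_lit 438) (nat_lit 410)) (XT.lf (nat_lit 76) (nat_lit 1441645433) (nat_lit 0) (nat_lit 6851943055) (nat_lit 988) (nat_lit 1441645433) (nat_lit 458) (nat_lit 1) (nat_lit 457) (nat_lit 1) (nat_lit 470) (nat_lit 1) (nat_lit 293) (nat_lit 438) (nat_lit 409))))))))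
noncomputable def ec215 : XT := (XT.nd (nat_lit 1404) (nat_lit 7524) (nat_lit 0) (XT.nd (nat_lit 702) (nat_lit 3800) (nat_lit 0) (XT.nd (nat_lit 312) (nat_lit 1672) (nat_lit 0) (XT.nd (nat_lit 156) (nat_lit 1824) (nat_lit 0) (XT.nd (nat_lit 78) (nat_lit 0) (nat_lit 0) (XT.lf (nat_lit 988) (nat_lit 1933722659) (nat_lit 0) (nat_lit 3857262236) (nat_lit 912) (nat_lit 3857262236) (nat_lit 458) (nat_lit 1) (nat_lit 445) (nat_lit 1) (nat_lit 457) (nat_lit 1) (nat_lit 294) (nat_lit 438) (nat_lit 408)) (XT.lf (nat_lit 76) (nat_lit 494983663) (nat_lit 0) (nat_lit 8572747539) (nat_lit 988) (nat_lit 494983663) (nat_lit 446) (nat_lit 1) (nat_lit 445) (nat_lit 1) (nat_lit 458) (nat_lit 1) (nat_lit 295) (nat_lit 438) (nat_lit 407))) (XT.nd (nat_lit 78) (nat_lit 988) (nat_lit 0) (XT.lf (nat_lit 912) (nat_lit 8317346) (nat_lit 0) (nat_lit 4734718240) (nat_lit 836) (nat_lit 4734718240) (nat_lit 446) (nat_lit 1) (nat_lit 434) (nat_lit 1) (nat_lit 445)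 (nat_lit 1) (nat_lit 296) (nat_lit 438) (nat_lit 406)) (XT.lf (nat_lit 988) (nat_lit 8446346541) (nat_lit 0) (nat_lit 473931221) (nat_lit 912) (nat_lit 473931221) (nat_lit 434) (nat_lit 1) (nat_lit 421) (nat_lit 1) (nat_lit 433) (nat_lit 1) (nat_lit 297) (nat_lit 438) (nat_lit 405)))) (XT.nd (nat_lit 156) (nat_lit 836) (nat_lit 0) (XT.nd (nat_lit 78) (nat_lit 836) (nat_lit 0) (XT.lf (nat_lit 76) (nat_lit 3685589241) (nat_lit 0) (nat_lit 1940025948) (nat_lit 988) (nat_lit 3685589241) (nat_lit 422) (nat_lit 1) (nat_lit 421) (nat_lit 1) (nat_lit 434) (nat_lit 1) (nat_lit 298) (nat_lit 438) (nat_lit 404)) (XT.lf (nat_lit 912) (nat_lit 6304328821) (nat_lit 0) (nat_lit 1462624167) (nat_lit 836) (nat_lit 1462624167) (nat_lit 422) (nat_lit 1) (nat_lit 410) (nat_lit 1) (nat_lit 421) (nat_lit 1) (nat_lit 299) (nat_lit 438) (nat_lit 403))) (XT.nd (nat_lit 78) (nat_lit 836) (nat_lit 0) (XT.lf (nat_lit 76) (nat_lit 2608323629) (nat_lit 0) (nat_lit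 3932084519) (nat_lit 912) (nat_lit 2608323629) (nat_lit 411) (nat_lit 1) (nat_lit 410) (nat_lit 1) (nat_lit 422) (nat_lit 1) (nat_lit 300) (nat_lit 438) (nat_lit 402)) (XT.nd (nat_lit 78) (nat_lit 0) (nat_lit 0) (XT.lf (nat_lit 912) (nat_lit 4124423808) (nat_lit 0) (nat_lit 2472270279) (nat_lit 836) (nat_lit 2472270279) (nat_lit 411) (nat_lit 1) (nat_lit 399) (nat_lit 1) (nat_lit 410) (nat_lit 1) (nat_lit 301) (nat_lit 438) (nat_lit 401)) (XT.lf (nat_lit 76) (nat_lit 1513151219) (nat_lit 0) (nat_lit 5963923016) (nat_lit 912) (nat_lit 1513151219) (nat_lit 400) (nat_lit 1) (nat_lit 399) (nat_lit 1) (nat_lit 411) (nat_lit 1) (nat_lit 302) (nat_lit 438) (nat_lit 400)))))) (XT.nd (nat_lit 312) (nat_lit 1444) (nat_lit 0) (XT.nd (nat_lit 156) (nat_lit 1596) (nat_lit 0) (XT.nd (nat_lit 78) (nat_lit 0) (nat_lit 0) (XT.lf (nat_lit 836) (nat_lit 1910476526) (nat_lit 0) (nat_lit 3500892288) (nat_lit 760) (nat_lit 3500892288) (nat_lit 400) (nat_lit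 1) (nat_lit 389) (nat_lit 1) (nat_lit 399) (nat_lit 1) (nat_lit 303) (nat_lit 438) (nat_lit 399)) (XT.lf (nat_lit 76) (nat_lit 401938695) (nat_lit 0) (nat_lit 8031699992) (nat_lit 836) (nat_lit 401938695) (nat_lit 390) (nat_lit 1) (nat_lit 389) (nat_lit 1) (nat_lit 400) (nat_lit 1) (nat_lit 304) (nat_lit 438) (nat_lit 398))) (XT.nd (nat_lit 78) (nat_lit 760) (nat_lit 0) (XT.lf (nat_lit 76) (nat_lit 4214916330) (nat_lit 0) (nat_lit 329485169) (nat_lit 836) (nat_lit 4214916330) (nat_lit 379) (nat_lit 1) (nat_lit 378) (nat_lit 1) (nat_lit 389) (nat_lit 1) (nat_lit 305) (nat_lit 438) (nat_lit 397)) (XT.lf (nat_lit 836) (nat_lit 7246740565) (nat_lit 0) (nat_lit 718782564) (nat_lit 760) (nat_lit 718782564) (nat_lit 379) (nat_lit 1) (nat_lit 368) (nat_lit 1) (nat_lit 378) (nat_lit 1) (nat_lit 306) (nat_lit 438) (nat_lit 396)))) (XT.nd (nat_lit 156) (nat_lit 684) (nat_lit 0) (XT.nd (nat_lit 78) (nat_lit 760) (nat_lit 0) (XT.lf (nat_lit 76) (nat_lit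 3019427346) (nat_lit 0) (nat_lit 2570968678) (nat_lit 836) (nat_lit 3019427346) (nat_lit 369) (nat_lit 1) (nat_lit 368) (nat_lit 1) (nat_lit 379) (nat_lit 1) (nat_lit 307) (nat_lit 438) (nat_lit 395)) (XT.lf (nat_lit 836) (nat_lit 4837738591) (nat_lit 0) (nat_lit 1849365621) (nat_lit 760) (nat_lit 1849365621) (nat_lit 369) (nat_lit 1) (nat_lit 358) (nat_lit 1) (nat_lit 368) (nat_lit 1) (nat_lit 308) (nat_lit 438) (nat_lit 394))) (XT.nd (nat_lit 78) (nat_lit 684) (nat_lit 0) (XT.lf (nat_lit 76) (nat_lit 1814067890) (nat_lit 0) (nat_lit 4835790624) (nat_lit 836) (nat_lit 1814067890) (nat_lit 359) (nat_lit 1) (nat_lit 358) (nat_lit 1) (nat_lit 369) (nat_lit 1) (nat_lit 309) (nat_lit 438) (nat_lit 393)) (XT.nd (nat_lit 78) (nat_lit 0) (nat_lit 0) (XT.lf (nat_lit 760) (nat_lit 2410436262) (nat_lit 0) (nat_lit 2990872661) (nat_lit 684) (nat_lit 2990872661) (nat_lit 359) (nat_lit 1) (nat_lit 349) (nat_lit 1) (nat_lit 358) (nat_lit 1) (nat_lit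 310) (nat_lit 438) (nat_lit 392)) (XT.lf (nat_lit 76) (nat_lit 600325024) (nat_lit 0) (nat_lit 7120880473) (nat_lit 760) (nat_lit 600325024) (nat_lit 350) (nat_lit 1) (nat_lit 349) (nat_lit 1) (nat_lit 359) (nat_lit 1) (nat_lit 311) (nat_lit 438) (nat_lit 391))))))) (XT.nd (nat_lit 702) (nat_lit 3496) (nat_lit 0) (XT.nd (nat_lit 312) (nat_lit 1900) (nat_lit 0) (XT.nd (nat_lit 156) (nat_lit 684) (nat_lit 0) (XT.nd (nat_lit 78) (nat_lit 684) (nat_lit 0) (XT.lf (nat_lit 76) (nat_lit 4109751184) (nat_lit 0) (nat_lit 31839630) (nat_lit 760) (nat_lit 4109751184) (nat_lit 340) (nat_lit 1) (nat_lit 339) (nat_lit 1) (nat_lit 349) (nat_lit 1) (nat_lit 312) (nat_lit 438) (nat_lit 390)) (XT.lf (nat_lit 760) (nat_lit 6949594806) (nat_lit 0) (nat_lit 616312039) (nat_lit 684) (nat_lit 616312039) (nat_lit 340) (nat_lit 1) (nat_lit 330) (nat_lit 1) (nat_lit 339) (nat_lit 1) (nat_lit 313) (nat_lit 438) (nat_lit 389))) (XT.nd (nat_lit 78) (nat_lit 684)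 (nat_lit 0) (XT.lf (nat_lit 76) (nat_lit 2829281793) (nat_lit 0) (nat_lit 2454985114) (nat_lit 760) (nat_lit 2829281793) (nat_lit 331) (nat_lit 1) (nat_lit 330) (nat_lit 1) (nat_lit 340) (nat_lit 1) (nat_lit 314) (nat_lit 438) (nat_lit 388)) (XT.lf (nat_lit 760) (nat_lit 4376695485) (nat_lit 0) (nat_lit 1834606406) (nat_lit 684) (nat_lit 1834606406) (nat_lit 331) (nat_lit 1) (nat_lit 321) (nat_lit 1) (nat_lit 330) (nat_lit 1) (nat_lit 315) (nat_lit 438) (nat_lit 387)))) (XT.nd (nat_lit 156) (nat_lit 1292) (nat_lit 0) (XT.nd (nat_lit 78) (nat_lit 608) (nat_lit 0) (XT.lf (nat_lit 76) (nat_lit 1545488657) (nat_lit 0) (nat_lit 4888048536) (nat_lit 760) (nat_lit 1545488657) (nat_lit 322) (nat_lit 1) (nat_lit 321) (nat_lit 1) (nat_lit 331) (nat_lit 1) (nat_lit 316) (nat_lit 438) (nat_lit 386)) (XT.lf (nat_lit 684) (nat_lit 1798311090) (nat_lit 0) (nat_lit 3057256590) (nat_lit 608) (nat_lit 3057256590) (nat_lit 322) (nat_lit 1) (nat_lit 313)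 (nat_lit 1) (nat_lit 321) (nat_lit 1) (nat_lit 317) (nat_lit 438) (nat_lit 385))) (XT.nd (nat_lit 78) (nat_lit 1292) (nat_lit 0) (XT.lf (nat_lit 76) (nat_lit 259540958) (nat_lit 0) (nat_lit 7328605326) (nat_lit 684) (nat_lit 259540958) (nat_lit 314) (nat_lit 1) (nat_lit 313) (nat_lit 1) (nat_lit 322) (nat_lit 1) (nat_lit 318) (nat_lit 438) (nat_lit 384)) (XT.nd (nat_lit 78) (nat_lit 608) (nat_lit 0) (XT.lf (nat_lit 76) (nat_lit 3504887161) (nat_lit 0) (nat_lit 773005996) (nat_lit 684) (nat_lit 3504887161) (nat_lit 305) (nat_lit 1) (nat_lit 304) (nat_lit 1) (nat_lit 313) (nat_lit 1) (nat_lit 319) (nat_lit 438) (nat_lit 383)) (XT.lf (nat_lit 684) (nat_lit 5677517104) (nat_lit 0) (nat_lit 1020698325) (nat_lit 608) (nat_lit 1020698325) (nat_lit 305) (nat_lit 1) (nat_lit 296) (nat_lit 1) (nat_lit 304) (nat_lit 1) (nat_lit 320) (nat_lit 438) (nat_lit 382)))))) (XT.nd (nat_lit 390) (nat_lit 1672) (nat_lit 0) (XT.nd (nat_lit 156) (nat_lit 1216)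 (nat_lit 0) (XT.nd (nat_lit 78) (nat_lit 608) (nat_lit 0) (XT.lf (nat_lit 76) (nat_lit 2166891562) (nat_lit 0) (nat_lit 3321779105) (nat_lit 684) (nat_lit 2166891562) (nat_lit 297) (nat_lit 1) (nat_lit 296) (nat_lit 1) (nat_lit 305) (nat_lit 1) (nat_lit 321) (nat_lit 438) (nat_lit 381)) (XT.lf (nat_lit 684) (nat_lit 2994543060) (nat_lit 0) (nat_lit 2299240663) (nat_lit 608) (nat_lit 2299240663) (nat_lit 297) (nat_lit 1) (nat_lit 288) (nat_lit 1) (nat_lit 296) (nat_lit 1) (nat_lit 322) (nat_lit 438) (nat_lit 380))) (XT.nd (nat_lit 78) (nat_lit 1216) (nat_lit 0) (XT.lf (nat_lit 76) (nat_lit 830865596) (nat_lit 0) (nat_lit 5869592731) (nat_lit 684) (nat_lit 830865596) (nat_lit 289) (nat_lit 1) (nat_lit 288) (nat_lit 1) (nat_lit 297) (nat_lit 1) (nat_lit 323) (nat_lit 438) (nat_lit 379)) (XT.nd (nat_lit 78) (nat_lit 684) (nat_lit 0) (XT.lf (nat_lit 608) (nat_lit 316437151) (nat_lit 0) (nat_lit 3576819476) (nat_lit 532) (nat_lit 3576819476)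 (nat_lit 289) (nat_lit 1) (nat_lit 281) (nat_lit 1) (nat_lit 288) (nat_lit 1) (nat_lit 324) (nat_lit 438) (nat_lit 378)) (XT.lf (nat_lit 684) (nat_lit 6411761216) (nat_lit 0) (nat_lit 498982572) (nat_lit 608) (nat_lit 498982572) (nat_lit 281) (nat_lit 1) (nat_lit 272) (nat_lit 1) (nat_lit 280) (nat_lit 1) (nat_lit 325) (nat_lit 438) (nat_lit 377))))) (XT.nd (nat_lit 156) (nat_lit 1140) (nat_lit 0) (XT.nd (nat_lit 78) (nat_lit 532) (nat_lit 0) (XT.lf (nat_lit 76) (nat_lit 2512765786) (nat_lit 0) (nat_lit 2324155499) (nat_lit 684) (nat_lit 2512765786) (nat_lit 273) (nat_lit 1) (nat_lit 272) (nat_lit 1) (nat_lit 281) (nat_lit 1) (nat_lit 326) (nat_lit 438) (nat_lit 376)) (XT.lf (nat_lit 608) (nat_lit 3651192408) (nat_lit 0) (nat_lit 1819666402) (nat_lit 532) (nat_lit 1819666402) (nat_lit 273) (nat_lit 1) (nat_lit 265) (nat_lit 1) (nat_lit 272) (nat_lit 1) (nat_lit 327) (nat_lit 438) (nat_lit 375))) (XT.nd (nat_lit 78) (nat_lit 1140) (nat_lit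 0) (XT.lf (nat_lit 76) (nat_lit 1139810493) (nat_lit 0) (nat_lit 4952428282) (nat_lit 608) (nat_lit 1139810493) (nat_lit 266) (nat_lit 1) (nat_lit 265) (nat_lit 1) (nat_lit 273) (nat_lit 1) (nat_lit 328) (nat_lit 438) (nat_lit 374)) (XT.nd (nat_lit 78) (nat_lit 608) (nat_lit 0) (XT.lf (nat_lit 608) (nat_lit 902361358) (nat_lit 0) (nat_lit 3135859848) (nat_lit 532) (nat_lit 3135859848) (nat_lit 266) (nat_lit 1) (nat_lit 258) (nat_lit 1) (nat_lit 265) (nat_lit 1) (nat_lit 329) (nat_lit 438) (nat_lit 373)) (XT.lf (nat_lit 608) (nat_lit 6666130928) (nat_lit 0) (nat_lit 225441550) (nat_lit 532) (nat_lit 225441550) (nat_lit 258) (nat_lit 1) (nat_lit 250) (nat_lit 1) (nat_lit 257) (nat_lit 1) (nat_lit 330) (nat_lit 438) (nat_lit 372))))))))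
noncomputable def ec216 : XT := (XT.nd (nat_lit 1404) (nat_lit 4408) (nat_lit 0) (XT.nd (nat_lit 702) (nat_lit 2280) (nat_lit 0) (XT.nd (nat_lit 312) (nat_lit 1520) (nat_lit 0) (XT.nd (nat_lit 156) (nat_lit 456) (nat_lit 0) (XT.nd (nat_lit 78) (nat_lit 532) (nat_lit 0) (XT.lf (nat_lit 76) (nat_lit 2625406874) (nat_lit 0) (nat_lit 1809271720) (nat_lit 608) (nat_lit 2625406874) (nat_lit 251) (nat_lit 1) (nat_lit 250) (nat_lit 1) (nat_lit 258) (nat_lit 1) (nat_lit 331) (nat_lit 438) (nat_lit 371)) (XT.lf (nat_lit 608) (nat_lit 3851344784) (nat_lit 0) (nat_lit 1576347488) (nat_lit 532) (nat_lit 1576347488) (nat_lit 251) (nat_lit 1) (nat_lit 243) (nat_lit 1) (nat_lit 250) (nat_lit 1) (nat_lit 332) (nat_lit 438) (nat_lit 370))) (XT.nd (nat_lit 78) (nat_lit 456) (nat_lit 0) (XT.lf (nat_lit 76) (nat_lit 1226905396) (nat_lit 0) (nat_lit 4494782087) (nat_lit 608) (nat_lit 1226905396) (nat_lit 244) (nat_lit 1) (nat_lit 243) (nat_lit 1) (nat_lit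 251) (nat_lit 1) (nat_lit 333) (nat_lit 438) (nat_lit 369)) (XT.lf (nat_lit 532) (nat_lit 1054108493) (nat_lit 0) (nat_lit 2919772437) (nat_lit 456) (nat_lit 2919772437) (nat_lit 244) (nat_lit 1) (nat_lit 237) (nat_lit 1) (nat_lit 243) (nat_lit 1) (nat_lit 334) (nat_lit 438) (nat_lit 368)))) (XT.nd (nat_lit 156) (nat_lit 912) (nat_lit 0) (XT.nd (nat_lit 78) (nat_lit 0) (nat_lit 0) (XT.lf (nat_lit 608) (nat_lit 6516578998) (nat_lit 0) (nat_lit 161495251) (nat_lit 532) (nat_lit 161495251) (nat_lit 237) (nat_lit 1) (nat_lit 229) (nat_lit 1) (nat_lit 236) (nat_lit 1) (nat_lit 335) (nat_lit 438) (nat_lit 367)) (XT.lf (nat_lit 76) (nat_lit 2541860972) (nat_lit 0) (nat_lit 1701843765) (nat_lit 608) (nat_lit 2541860972) (nat_lit 230) (nat_lit 1) (nat_lit 229) (nat_lit 1) (nat_lit 237) (nat_lit 1) (nat_lit 336) (nat_lit 438) (nat_lit 366))) (XT.nd (nat_lit 78) (nat_lit 456) (nat_lit 0) (XT.lf (nat_lit 532) (nat_lit 3667763785) (nat_lit 0) (nat_lit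 1532318746) (nat_lit 456) (nat_lit 1532318746) (nat_lit 230) (nat_lit 1) (nat_lit 223) (nat_lit 1) (nat_lit 229) (nat_lit 1) (nat_lit 337) (nat_lit 438) (nat_lit 365)) (XT.nd (nat_lit 78) (nat_lit 456) (nat_lit 0) (XT.lf (nat_lit 76) (nat_lit 1127639842) (nat_lit 0) (nat_lit 4424523330) (nat_lit 532) (nat_lit 1127639842) (nat_lit 224) (nat_lit 1) (nat_lit 223) (nat_lit 1) (nat_lit 230) (nat_lit 1) (nat_lit 338) (nat_lit 438) (nat_lit 364)) (XT.lf (nat_lit 532) (nat_lit 841382646) (nat_lit 0) (nat_lit 2893141343) (nat_lit 456) (nat_lit 2893141343) (nat_lit 224) (nat_lit 1) (nat_lit 217) (nat_lit 1) (nat_lit 223) (nat_lit 1) (nat_lit 339) (nat_lit 438) (nat_lit 363)))))) (XT.nd (nat_lit 312) (nat_lit 1292) (nat_lit 0) (XT.nd (nat_lit 156) (nat_lit 456) (nat_lit 0) (XT.nd (nat_lit 78) (nat_lit 0) (nat_lit 0) (XT.lf (nat_lit 532) (nat_lit 6029555105) (nat_lit 0) (nat_lit 273371091) (nat_lit 456) (nat_lit 273371091) (nat_lit 217) (nat_lit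 1) (nat_lit 210) (nat_lit 1) (nat_lit 216) (nat_lit 1) (nat_lit 340) (nat_lit 438) (nat_lit 362)) (XT.lf (nat_lit 76) (nat_lit 2294534077) (nat_lit 0) (nat_lit 1935978235) (nat_lit 532) (nat_lit 2294534077) (nat_lit 211) (nat_lit 1) (nat_lit 210) (nat_lit 1) (nat_lit 217) (nat_lit 1) (nat_lit 341) (nat_lit 438) (nat_lit 361))) (XT.nd (nat_lit 78) (nat_lit 0) (nat_lit 0) (XT.lf (nat_lit 532) (nat_lit 3164089347) (nat_lit 0) (nat_lit 1655230662) (nat_lit 456) (nat_lit 1655230662) (nat_lit 211) (nat_lit 1) (nat_lit 204) (nat_lit 1) (nat_lit 210) (nat_lit 1) (nat_lit 342) (nat_lit 438) (nat_lit 360)) (XT.lf (nat_lit 76) (nat_lit 873048533) (nat_lit 0) (nat_lit 4678537131) (nat_lit 532) (nat_lit 873048533) (nat_lit 205) (nat_lit 1) (nat_lit 204) (nat_lit 1) (nat_lit 211) (nat_lit 1) (nat_lit 343) (nat_lit 438) (nat_lit 359)))) (XT.nd (nat_lit 156) (nat_lit 380) (nat_lit 0) (XT.nd (nat_lit 78) (nat_lit 532) (nat_lit 0) (XT.lf (nat_lit 456)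 (nat_lit 325128705) (nat_lit 0) (nat_lit 3024982122) (nat_lit 380) (nat_lit 3024982122) (nat_lit 205) (nat_lit 1) (nat_lit 199) (nat_lit 1) (nat_lit 204) (nat_lit 1) (nat_lit 344) (nat_lit 438) (nat_lit 358)) (XT.lf (nat_lit 532) (nat_lit 5263111664) (nat_lit 0) (nat_lit 531545183) (nat_lit 456) (nat_lit 531545183) (nat_lit 199) (nat_lit 1) (nat_lit 192) (nat_lit 1) (nat_lit 198) (nat_lit 1) (nat_lit 345) (nat_lit 438) (nat_lit 357))) (XT.nd (nat_lit 78) (nat_lit 380) (nat_lit 0) (XT.lf (nat_lit 76) (nat_lit 1911732187) (nat_lit 0) (nat_lit 2454080557) (nat_lit 532) (nat_lit 1911732187) (nat_lit 193) (nat_lit 1) (nat_lit 192) (nat_lit 1) (nat_lit 199) (nat_lit 1) (nat_lit 346) (nat_lit 438) (nat_lit 356)) (XT.nd (nat_lit 78) (nat_lit 0) (nat_lit 0) (XT.lf (nat_lit 456) (nat_lit 2395900197) (nat_lit 0) (nat_lit 1916812562) (nat_lit 380) (nat_lit 1916812562) (nat_lit 193) (nat_lit 1) (nat_lit 187) (nat_lit 1) (nat_lit 192) (nat_lit 1) (nat_lit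 347) (nat_lit 438) (nat_lit 355)) (XT.lf (nat_lit 76) (nat_lit 490230292) (nat_lit 0) (nat_lit 5201675570) (nat_lit 456) (nat_lit 490230292) (nat_lit 188) (nat_lit 1) (nat_lit 187) (nat_lit 1) (nat_lit 193) (nat_lit 1) (nat_lit 348) (nat_lit 438) (nat_lit 354))))))) (XT.nd (nat_lit 702) (nat_lit 2128) (nat_lit 0) (XT.nd (nat_lit 312) (nat_lit 1064) (nat_lit 0) (XT.nd (nat_lit 156) (nat_lit 380) (nat_lit 0) (XT.nd (nat_lit 78) (nat_lit 380) (nat_lit 0) (XT.lf (nat_lit 76) (nat_lit 2849645325) (nat_lit 0) (nat_lit 435657204) (nat_lit 456) (nat_lit 2849645325) (nat_lit 182) (nat_lit 1) (nat_lit 181) (nat_lit 1) (nat_lit 187) (nat_lit 1) (nat_lit 349) (nat_lit 438) (nat_lit 353)) (XT.lf (nat_lit 456) (nat_lit 4267884114) (nat_lit 0) (nat_lit 910247012) (nat_lit 380) (nat_lit 910247012) (nat_lit 182) (nat_lit 1) (nat_lit 176) (nat_lit 1) (nat_lit 181) (nat_lit 1) (nat_lit 350) (nat_lit 438) (nat_lit 352))) (XT.nd (nat_lit 78) (nat_lit 380)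 (nat_lit 0) (XT.lf (nat_lit 76) (nat_lit 1418140120) (nat_lit 0) (nat_lit 3205887115) (nat_lit 456) (nat_lit 1418140120) (nat_lit 177) (nat_lit 1) (nat_lit 176) (nat_lit 1) (nat_lit 182) (nat_lit 1) (nat_lit 351) (nat_lit 438) (nat_lit 351)) (XT.lf (nat_lit 456) (nat_lit 1411655667) (nat_lit 0) (nat_lit 2292396721) (nat_lit 380) (nat_lit 2292396721) (nat_lit 177) (nat_lit 1) (nat_lit 171) (nat_lit 1) (nat_lit 176) (nat_lit 1) (nat_lit 352) (nat_lit 438) (nat_lit 350)))) (XT.nd (nat_lit 156) (nat_lit 684) (nat_lit 0) (XT.nd (nat_lit 78) (nat_lit 380) (nat_lit 0) (XT.lf (nat_lit 76) (nat_lit 2808098) (nat_lit 0) (nat_lit 5945827796) (nat_lit 456) (nat_lit 2808098) (nat_lit 172) (nat_lit 1) (nat_lit 171) (nat_lit 1) (nat_lit 177) (nat_lit 1) (nat_lit 353) (nat_lit 438) (nat_lit 349)) (XT.lf (nat_lit 76) (nat_lit 2256459034) (nat_lit 0) (nat_lit 1393452905) (nat_lit 380) (nat_lit 2256459034) (nat_lit 167) (nat_lit 1) (nat_lit 166) (nat_lit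 1) (nat_lit 171) (nat_lit 1) (nat_lit 354) (nat_lit 438) (nat_lit 348))) (XT.nd (nat_lit 78) (nat_lit 304) (nat_lit 0) (XT.lf (nat_lit 456) (nat_lit 3087959796) (nat_lit 0) (nat_lit 1387020377) (nat_lit 380) (nat_lit 1387020377) (nat_lit 167) (nat_lit 1) (nat_lit 161) (nat_lit 1) (nat_lit 166) (nat_lit 1) (nat_lit 355) (nat_lit 438) (nat_lit 347)) (XT.nd (nat_lit 78) (nat_lit 304) (nat_lit 0) (XT.lf (nat_lit 76) (nat_lit 835245908) (nat_lit 0) (nat_lit 4147607337) (nat_lit 456) (nat_lit 835245908) (nat_lit 162) (nat_lit 1) (nat_lit 161) (nat_lit 1) (nat_lit 167) (nat_lit 1) (nat_lit 356) (nat_lit 438) (nat_lit 346)) (XT.lf (nat_lit 380) (nat_lit 253530438) (nat_lit 0) (nat_lit 2760496547) (nat_lit 304) (nat_lit 2760496547) (nat_lit 162) (nat_lit 1) (nat_lit 157) (nat_lit 1) (nat_lit 161) (nat_lit 1) (nat_lit 357) (nat_lit 438) (nat_lit 345)))))) (XT.nd (nat_lit 312) (nat_lit 1368) (nat_lit 0) (XT.nd (nat_lit 156) (nat_lit 304) (nat_lit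 0) (XT.nd (nat_lit 78) (nat_lit 0) (nat_lit 0) (XT.lf (nat_lit 456) (nat_lit 4601629068) (nat_lit 0) (nat_lit 564921991) (nat_lit 380) (nat_lit 564921991) (nat_lit 157) (nat_lit 1) (nat_lit 151) (nat_lit 1) (nat_lit 156) (nat_lit 1) (nat_lit 358) (nat_lit 438) (nat_lit 344)) (XT.lf (nat_lit 76) (nat_lit 1587963269) (nat_lit 0) (nat_lit 2512710345) (nat_lit 456) (nat_lit 1587963269) (nat_lit 152) (nat_lit 1) (nat_lit 151) (nat_lit 1) (nat_lit 157) (nat_lit 1) (nat_lit 359) (nat_lit 438) (nat_lit 343))) (XT.nd (nat_lit 78) (nat_lit 0) (nat_lit 0) (XT.lf (nat_lit 380) (nat_lit 1761647972) (nat_lit 0) (nat_lit 1942334266) (nat_lit 304) (nat_lit 1942334266) (nat_lit 152) (nat_lit 1) (nat_lit 147) (nat_lit 1) (nat_lit 151) (nat_lit 1) (nat_lit 360) (nat_lit 438) (nat_lit 342)) (XT.lf (nat_lit 76) (nat_lit 181716907) (nat_lit 0) (nat_lit 5241163367) (nat_lit 380) (nat_lit 181716907) (nat_lit 148) (nat_lit 1) (nat_lit 147) (nat_lit 1) (nat_lit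 152) (nat_lit 1) (nat_lit 361) (nat_lit 438) (nat_lit 341)))) (XT.nd (nat_lit 156) (nat_lit 684) (nat_lit 0) (XT.nd (nat_lit 78) (nat_lit 304) (nat_lit 0) (XT.lf (nat_lit 76) (nat_lit 2267351384) (nat_lit 0) (nat_lit 1028181722) (nat_lit 380) (nat_lit 2267351384) (nat_lit 143) (nat_lit 1) (nat_lit 142) (nat_lit 1) (nat_lit 147) (nat_lit 1) (nat_lit 362) (nat_lit 438) (nat_lit 340)) (XT.lf (nat_lit 380) (nat_lit 3124965947) (nat_lit 0) (nat_lit 1198399135) (nat_lit 304) (nat_lit 1198399135) (nat_lit 143) (nat_lit 1) (nat_lit 138) (nat_lit 1) (nat_lit 142) (nat_lit 1) (nat_lit 363) (nat_lit 438) (nat_lit 339))) (XT.nd (nat_lit 78) (nat_lit 684) (nat_lit 0) (XT.lf (nat_lit 76) (nat_lit 861087942) (nat_lit 0) (nat_lit 3758868552) (nat_lit 380) (nat_lit 861087942) (nat_lit 139) (nat_lit 1) (nat_lit 138) (nat_lit 1) (nat_lit 143) (nat_lit 1) (nat_lit 364) (nat_lit 438) (nat_lit 338)) (XT.nd (nat_lit 78) (nat_lit 380) (nat_lit 0) (XT.lf (nat_lit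 380) (nat_lit 322162111) (nat_lit 0) (nat_lit 2559238040) (nat_lit 304) (nat_lit 2559238040) (nat_lit 139) (nat_lit 1) (nat_lit 134) (nat_lit 1) (nat_lit 138) (nat_lit 1) (nat_lit 365) (nat_lit 438) (nat_lit 337)) (XT.lf (nat_lit 380) (nat_lit 4355098758) (nat_lit 0) (nat_lit 522804684) (nat_lit 304) (nat_lit 522804684) (nat_lit 134) (nat_lit 1) (nat_lit 129) (nat_lit 1) (nat_lit 133) (nat_lit 1) (nat_lit 366) (nat_lit 438) (nat_lit 336))))))))
noncomputable def ec217 : XT := (XT.nd (nat_lit 1404) (nat_lit 2888) (nat_lit 0) (XT.nd (nat_lit 702) (nat_lit 1596) (nat_lit 0) (XT.nd (nat_lit 312) (nat_lit 912) (nat_lit 0) (XT.nd (nat_lit 156) (nat_lit 304) (nat_lit 0) (XT.nd (nat_lit 78) (nat_lit 304) (nat_lit 0) (XT.lf (nat_lit 76) (nat_lit 1475129420) (nat_lit 0) (nat_lit 2410695625) (nat_lit 380) (nat_lit 1475129420) (nat_lit 130) (nat_lit 1) (nat_lit 129) (nat_lit 1) (nat_lit 134) (nat_lit 1) (nat_lit 367) (nat_lit 438) (nat_lit 335))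 (XT.lf (nat_lit 380) (nat_lit 1557104966) (nat_lit 0) (nat_lit 1882282173) (nat_lit 304) (nat_lit 1882282173) (nat_lit 130) (nat_lit 1) (nat_lit 125) (nat_lit 1) (nat_lit 129) (nat_lit 1) (nat_lit 368) (nat_lit 438) (nat_lit 334))) (XT.nd (nat_lit 78) (nat_lit 304) (nat_lit 0) (XT.lf (nat_lit 76) (nat_lit 90477939) (nat_lit 0) (nat_lit 5101996380) (nat_lit 380) (nat_lit 90477939) (nat_lit 126) (nat_lit 1) (nat_lit 125) (nat_lit 1) (nat_lit 130) (nat_lit 1) (nat_lit 369) (nat_lit 438) (nat_lit 333)) (XT.lf (nat_lit 76) (nat_lit 2029083003) (nat_lit 0) (nat_lit 1186014152) (nat_lit 304) (nat_lit 2029083003) (nat_lit 122) (nat_lit 1) (nat_lit 121) (nat_lit 1) (nat_lit 125) (nat_lit 1) (nat_lit 370) (nat_lit 438) (nat_lit 332)))) (XT.nd (nat_lit 156) (nat_lit 608) (nat_lit 0) (XT.nd (nat_lit 78) (nat_lit 0) (nat_lit 0) (XT.lf (nat_lit 380) (nat_lit 2673305646) (nat_lit 0) (nat_lit 1266331712) (nat_lit 304) (nat_lit 1266331712) (nat_lit 122)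 (nat_lit 1) (nat_lit 117) (nat_lit 1) (nat_lit 121) (nat_lit 1) (nat_lit 371) (nat_lit 438) (nat_lit 331)) (XT.lf (nat_lit 76) (nat_lit 648947700) (nat_lit 0) (nat_lit 3870264683) (nat_lit 380) (nat_lit 648947700) (nat_lit 118) (nat_lit 1) (nat_lit 117) (nat_lit 1) (nat_lit 122) (nat_lit 1) (nat_lit 372) (nat_lit 438) (nat_lit 330))) (XT.nd (nat_lit 78) (nat_lit 304) (nat_lit 0) (XT.lf (nat_lit 76) (nat_lit 2527785948) (nat_lit 0) (nat_lit 75011422) (nat_lit 304) (nat_lit 2527785948) (nat_lit 114) (nat_lit 1) (nat_lit 113) (nat_lit 1) (nat_lit 117) (nat_lit 1) (nat_lit 373) (nat_lit 438) (nat_lit 329)) (XT.nd (nat_lit 78) (nat_lit 0) (nat_lit 0) (XT.lf (nat_lit 380) (nat_lit 3680291140) (nat_lit 0) (nat_lit 706555482) (nat_lit 304) (nat_lit 706555482) (nat_lit 114) (nat_lit 1) (nat_lit 109) (nat_lit 1) (nat_lit 113) (nat_lit 1) (nat_lit 374) (nat_lit 438) (nat_lit 328)) (XT.lf (nat_lit 76) (nat_lit 1153801942) (nat_lit 0) (nat_lit 2748868153)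 (nat_lit 380) (nat_lit 1153801942) (nat_lit 110) (nat_lit 1) (nat_lit 109) (nat_lit 1) (nat_lit 114) (nat_lit 1) (nat_lit 375) (nat_lit 438) (nat_lit 327)))))) (XT.nd (nat_lit 312) (nat_lit 760) (nat_lit 0) (XT.nd (nat_lit 156) (nat_lit 228) (nat_lit 0) (XT.nd (nat_lit 78) (nat_lit 380) (nat_lit 0) (XT.lf (nat_lit 304) (nat_lit 943747406) (nat_lit 0) (nat_lit 2038082040) (nat_lit 228) (nat_lit 2038082040) (nat_lit 110) (nat_lit 1) (nat_lit 106) (nat_lit 1) (nat_lit 109) (nat_lit 1) (nat_lit 376) (nat_lit 438) (nat_lit 326)) (XT.lf (nat_lit 380) (nat_lit 4586853417) (nat_lit 0) (nat_lit 198493856) (nat_lit 304) (nat_lit 198493856) (nat_lit 106) (nat_lit 1) (nat_lit 101) (nat_lit 1) (nat_lit 105) (nat_lit 1) (nat_lit 377) (nat_lit 438) (nat_lit 325))) (XT.nd (nat_lit 78) (nat_lit 228) (nat_lit 0) (XT.lf (nat_lit 76) (nat_lit 1609341095) (nat_lit 0) (nat_lit 1729080081) (nat_lit 380) (nat_lit 1609341095) (nat_lit 102) (nat_lit 1) (nat_lit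 101) (nat_lit 1) (nat_lit 106) (nat_lit 1) (nat_lit 378) (nat_lit 438) (nat_lit 324)) (XT.lf (nat_lit 304) (nat_lit 1865962324) (nat_lit 0) (nat_lit 1523102734) (nat_lit 228) (nat_lit 1523102734) (nat_lit 102) (nat_lit 1) (nat_lit 98) (nat_lit 1) (nat_lit 101) (nat_lit 1) (nat_lit 379) (nat_lit 438) (nat_lit 323)))) (XT.nd (nat_lit 156) (nat_lit 456) (nat_lit 0) (XT.nd (nat_lit 78) (nat_lit 304) (nat_lit 0) (XT.lf (nat_lit 76) (nat_lit 263704505) (nat_lit 0) (nat_lit 4349619932) (nat_lit 304) (nat_lit 263704505) (nat_lit 99) (nat_lit 1) (nat_lit 98) (nat_lit 1) (nat_lit 102) (nat_lit 1) (nat_lit 380) (nat_lit 438) (nat_lit 322)) (XT.lf (nat_lit 76) (nat_lit 2019533830) (nat_lit 0) (nat_lit 802844696) (nat_lit 304) (nat_lit 2019533830) (nat_lit 95) (nat_lit 1) (nat_lit 94) (nat_lit 1) (nat_lit 98) (nat_lit 1) (nat_lit 381) (nat_lit 438) (nat_lit 321))) (XT.nd (nat_lit 78) (nat_lit 228) (nat_lit 0) (XT.lf (nat_lit 304) (nat_lit 2698454484)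 (nat_lit 0) (nat_lit 1054395771) (nat_lit 228) (nat_lit 1054395771) (nat_lit 95) (nat_lit 1) (nat_lit 91) (nat_lit 1) (nat_lit 94) (nat_lit 1) (nat_lit 382) (nat_lit 438) (nat_lit 320)) (XT.nd (nat_lit 78) (nat_lit 228) (nat_lit 0) (XT.lf (nat_lit 76) (nat_lit 683128641) (nat_lit 0) (nat_lit 3406651746) (nat_lit 304) (nat_lit 683128641) (nat_lit 92) (nat_lit 1) (nat_lit 91) (nat_lit 1) (nat_lit 95) (nat_lit 1) (nat_lit 383) (nat_lit 438) (nat_lit 319)) (XT.lf (nat_lit 304) (nat_lit 37769410) (nat_lit 0) (nat_lit 2350518219) (nat_lit 228) (nat_lit 2350518219) (nat_lit 92) (nat_lit 1) (nat_lit 88) (nat_lit 1) (nat_lit 91) (nat_lit 1) (nat_lit 384) (nat_lit 438) (nat_lit 318))))))) (XT.nd (nat_lit 702) (nat_lit 1368) (nat_lit 0) (XT.nd (nat_lit 312) (nat_lit 684) (nat_lit 0) (XT.nd (nat_lit 156) (nat_lit 532) (nat_lit 0) (XT.nd (nat_lit 78) (nat_lit 0) (nat_lit 0) (XT.lf (nat_lit 304) (nat_lit 3448438878) (nat_lit 0) (nat_lit 628298983)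 (nat_lit 228) (nat_lit 628298983) (nat_lit 88) (nat_lit 1) (nat_lit 84) (nat_lit 1) (nat_lit 87) (nat_lit 1) (nat_lit 385) (nat_lit 438) (nat_lit 317)) (XT.lf (nat_lit 76) (nat_lit 1061993936) (nat_lit 0) (nat_lit 2547489504) (nat_lit 304) (nat_lit 1061993936) (nat_lit 85) (nat_lit 1) (nat_lit 84) (nat_lit 1) (nat_lit 88) (nat_lit 1) (nat_lit 386) (nat_lit 438) (nat_lit 316))) (XT.nd (nat_lit 78) (nat_lit 304) (nat_lit 0) (XT.lf (nat_lit 304) (nat_lit 808746697) (nat_lit 0) (nat_lit 1914750309) (nat_lit 228) (nat_lit 1914750309) (nat_lit 85) (nat_lit 1) (nat_lit 81) (nat_lit 1) (nat_lit 84) (nat_lit 1) (nat_lit 387) (nat_lit 438) (nat_lit 315)) (XT.lf (nat_lit 304) (nat_lit 4122573548) (nat_lit 0) (nat_lit 241431800) (nat_lit 228) (nat_lit 241431800) (nat_lit 81) (nat_lit 1) (nat_lit 77) (nat_lit 1) (nat_lit 80) (nat_lit 1) (nat_lit 388) (nat_lit 438) (nat_lit 314)))) (XT.nd (nat_lit 156) (nat_lit 456) (nat_lit 0) (XT.nd (nat_lit 78)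 (nat_lit 228) (nat_lit 0) (XT.lf (nat_lit 76) (nat_lit 1403558110) (nat_lit 0) (nat_lit 1765515810) (nat_lit 304) (nat_lit 1403558110) (nat_lit 78) (nat_lit 1) (nat_lit 77) (nat_lit 1) (nat_lit 81) (nat_lit 1) (nat_lit 389) (nat_lit 438) (nat_lit 313)) (XT.lf (nat_lit 304) (nat_lit 1505836938) (nat_lit 0) (nat_lit 1517202730) (nat_lit 228) (nat_lit 1517202730) (nat_lit 78) (nat_lit 1) (nat_lit 74) (nat_lit 1) (nat_lit 77) (nat_lit 1) (nat_lit 390) (nat_lit 438) (nat_lit 312))) (XT.nd (nat_lit 78) (nat_lit 456) (nat_lit 0) (XT.lf (nat_lit 76) (nat_lit 110050252) (nat_lit 0) (nat_lit 4288191815) (nat_lit 304) (nat_lit 110050252) (nat_lit 75) (nat_lit 1) (nat_lit 74) (nat_lit 1) (nat_lit 78) (nat_lit 1) (nat_lit 391) (nat_lit 438) (nat_lit 311)) (XT.nd (nat_lit 78) (nat_lit 228) (nat_lit 0) (XT.lf (nat_lit 76) (nat_lit 1710827474) (nat_lit 0) (nat_lit 1054621827) (nat_lit 228) (nat_lit 1710827474) (nat_lit 72) (nat_lit 1) (nat_lit 71) (nat_lit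 1) (nat_lit 74) (nat_lit 1) (nat_lit 392) (nat_lit 438) (nat_lit 310)) (XT.lf (nat_lit 304) (nat_lit 2134964489) (nat_lit 0) (nat_lit 1154866112) (nat_lit 228) (nat_lit 1154866112) (nat_lit 72) (nat_lit 1) (nat_lit 68) (nat_lit 1) (nat_lit 71) (nat_lit 1) (nat_lit 393) (nat_lit 438) (nat_lit 309)))))) (XT.nd (nat_lit 390) (nat_lit 760) (nat_lit 0) (XT.nd (nat_lit 156) (nat_lit 380) (nat_lit 0) (XT.nd (nat_lit 78) (nat_lit 228) (nat_lit 0) (XT.lf (nat_lit 76) (nat_lit 429682208) (nat_lit 0) (nat_lit 3554094219) (nat_lit 304) (nat_lit 429682208) (nat_lit 69) (nat_lit 1) (nat_lit 68) (nat_lit 1) (nat_lit 72) (nat_lit 1) (nat_lit 394) (nat_lit 438) (nat_lit 308)) (XT.lf (nat_lit 76) (nat_lit 1986576151) (nat_lit 0) (nat_lit 409168454) (nat_lit 228) (nat_lit 1986576151) (nat_lit 66) (nat_lit 1) (nat_lit 65) (nat_lit 1) (nat_lit 68) (nat_lit 1) (nat_lit 395) (nat_lit 438) (nat_lit 307))) (XT.nd (nat_lit 78) (nat_lit 152) (nat_lit 0) (XT.lf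 (nat_lit 304) (nat_lit 2701596710) (nat_lit 0) (nat_lit 824962196) (nat_lit 228) (nat_lit 824962196) (nat_lit 66) (nat_lit 1) (nat_lit 62) (nat_lit 1) (nat_lit 65) (nat_lit 1) (nat_lit 396) (nat_lit 438) (nat_lit 306)) (XT.nd (nat_lit 78) (nat_lit 152) (nat_lit 0) (XT.lf (nat_lit 76) (nat_lit 718541105) (nat_lit 0) (nat_lit 2883892340) (nat_lit 304) (nat_lit 718541105) (nat_lit 63) (nat_lit 1) (nat_lit 62) (nat_lit 1) (nat_lit 66) (nat_lit 1) (nat_lit 397) (nat_lit 438) (nat_lit 305)) (XT.lf (nat_lit 228) (nat_lit 178389137) (nat_lit 0) (nat_lit 2056132897) (nat_lit 152) (nat_lit 2056132897) (nat_lit 63) (nat_lit 1) (nat_lit 60) (nat_lit 1) (nat_lit 62) (nat_lit 1) (nat_lit 398) (nat_lit 438) (nat_lit 304))))) (XT.nd (nat_lit 156) (nat_lit 456) (nat_lit 0) (XT.nd (nat_lit 78) (nat_lit 0) (nat_lit 0) (XT.lf (nat_lit 304) (nat_lit 3210778872) (nat_lit 0) (nat_lit 524926199) (nat_lit 228) (nat_lit 524926199) (nat_lit 60) (nat_lit 1) (nat_lit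 56) (nat_lit 1) (nat_lit 59) (nat_lit 1) (nat_lit 399) (nat_lit 438) (nat_lit 303)) (XT.lf (nat_lit 76) (nat_lit 979096563) (nat_lit 0) (nat_lit 2272563543) (nat_lit 304) (nat_lit 979096563) (nat_lit 57) (nat_lit 1) (nat_lit 56) (nat_lit 1) (nat_lit 60) (nat_lit 1) (nat_lit 400) (nat_lit 438) (nat_lit 302))) (XT.nd (nat_lit 78) (nat_lit 304) (nat_lit 0) (XT.lf (nat_lit 228) (nat_lit 715216808) (nat_lit 0) (nat_lit 1742978938) (nat_lit 152) (nat_lit 1742978938) (nat_lit 57) (nat_lit 1) (nat_lit 54) (nat_lit 1) (nat_lit 56) (nat_lit 1) (nat_lit 401) (nat_lit 438) (nat_lit 301)) (XT.nd (nat_lit 78) (nat_lit 0) (nat_lit 0) (XT.lf (nat_lit 304) (nat_lit 3667166423) (nat_lit 0) (nat_lit 252390519) (nat_lit 228) (nat_lit 252390519) (nat_lit 54) (nat_lit 1) (nat_lit 50) (nat_lit 1) (nat_lit 53) (nat_lit 1) (nat_lit 402) (nat_lit 438) (nat_lit 300)) (XT.lf (nat_lit 76) (nat_lit 1213627655) (nat_lit 0) (nat_lit 1715470764) (nat_lit 304) (nat_lit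 1213627655) (nat_lit 51) (nat_lit 1) (nat_lit 50) (nat_lit 1) (nat_lit 54) (nat_lit 1) (nat_lit 403) (nat_lit 438) (nat_lit 299))))))))
noncomputable def ec218 : XT := (XT.nd (nat_lit 50622) (nat_lit 0) (nat_lit 24472) (XT.nd (nat_lit 702) (nat_lit 532) (nat_lit 0) (XT.nd (nat_lit 312) (nat_lit 608) (nat_lit 0) (XT.nd (nat_lit 156) (nat_lit 152) (nat_lit 0) (XT.nd (nat_lit 78) (nat_lit 304) (nat_lit 0) (XT.lf (nat_lit 228) (nat_lit 1200370188) (nat_lit 0) (nat_lit 1456743087) (nat_lit 152) (nat_lit 1456743087) (nat_lit 51) (nat_lit 1) (nat_lit 48) (nat_lit 1) (nat_lit 50) (nat_lit 1) (nat_lit 404) (nat_lit 438) (nat_lit 298)) (XT.lf (nat_lit 304) (nat_lit 4075054778) (nat_lit 0) (nat_lit 5169680) (nat_lit 228) (nat_lit 5169680) (nat_lit 48) (nat_lit 1) (nat_lit 44) (nat_lit 1) (nat_lit 47) (nat_lit 1) (nat_lit 405) (nat_lit 438) (nat_lit 297))) (XT.nd (nat_lit 78) (nat_lit 152) (nat_lit 0) (XT.lf (nat_lit 76) (nat_lit 1424237470) (nat_lit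 0) (nat_lit 1208333083) (nat_lit 304) (nat_lit 1424237470) (nat_lit 45) (nat_lit 1) (nat_lit 44) (nat_lit 1) (nat_lit 48) (nat_lit 1) (nat_lit 406) (nat_lit 438) (nat_lit 296)) (XT.lf (nat_lit 228) (nat_lit 1637996127) (nat_lit 0) (nat_lit 1195315209) (nat_lit 152) (nat_lit 1195315209) (nat_lit 45) (nat_lit 1) (nat_lit 42) (nat_lit 1) (nat_lit 44) (nat_lit 1) (nat_lit 407) (nat_lit 438) (nat_lit 295)))) (XT.nd (nat_lit 156) (nat_lit 380) (nat_lit 0) (XT.nd (nat_lit 78) (nat_lit 228) (nat_lit 0) (XT.lf (nat_lit 76) (nat_lit 220202268) (nat_lit 0) (nat_lit 3560380410) (nat_lit 228) (nat_lit 220202268) (nat_lit 43) (nat_lit 1) (nat_lit 42) (nat_lit 1) (nat_lit 45) (nat_lit 1) (nat_lit 408) (nat_lit 438) (nat_lit 294)) (XT.lf (nat_lit 76) (nat_lit 1612866558) (nat_lit 0) (nat_lit 747198545) (nat_lit 228) (nat_lit 1612866558) (nat_lit 40) (nat_lit 1) (nat_lit 39) (nat_lit 1) (nat_lit 42) (nat_lit 1) (nat_lit 409) (nat_lit 438) (nat_lit 293)))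 (XT.nd (nat_lit 78) (nat_lit 228) (nat_lit 0) (XT.lf (nat_lit 228) (nat_lit 2031921523) (nat_lit 0) (nat_lit 956747049) (nat_lit 152) (nat_lit 956747049) (nat_lit 40) (nat_lit 1) (nat_lit 37) (nat_lit 1) (nat_lit 39) (nat_lit 1) (nat_lit 410) (nat_lit 438) (nat_lit 292)) (XT.nd (nat_lit 78) (nat_lit 228) (nat_lit 0) (XT.lf (nat_lit 76) (nat_lit 424030783) (nat_lit 0) (nat_lit 3070113693) (nat_lit 228) (nat_lit 424030783) (nat_lit 38) (nat_lit 1) (nat_lit 37) (nat_lit 1) (nat_lit 40) (nat_lit 1) (nat_lit 411) (nat_lit 438) (nat_lit 291)) (XT.lf (nat_lit 76) (nat_lit 1781305359) (nat_lit 0) (nat_lit 328419049) (nat_lit 228) (nat_lit 1781305359) (nat_lit 35) (nat_lit 1) (nat_lit 34) (nat_lit 1) (nat_lit 37) (nat_lit 1) (nat_lit 412) (nat_lit 438) (nat_lit 290)))))) (XT.nd (nat_lit 49530) (nat_lit 0) (nat_lit 32680) (XT.nd (nat_lit 156) (nat_lit 380) (nat_lit 0) (XT.nd (nat_lit 78) (nat_lit 0) (nat_lit 0) (XT.lf (nat_lit 228) (nat_lit 2385677771)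 (nat_lit 0) (nat_lit 739239875) (nat_lit 152) (nat_lit 739239875) (nat_lit 35) (nat_lit 1) (nat_lit 32) (nat_lit 1) (nat_lit 34) (nat_lit 1) (nat_lit 413) (nat_lit 438) (nat_lit 289)) (XT.lf (nat_lit 76) (nat_lit 608011375) (nat_lit 0) (nat_lit 2621479645) (nat_lit 228) (nat_lit 608011375) (nat_lit 33) (nat_lit 1) (nat_lit 32) (nat_lit 1) (nat_lit 35) (nat_lit 1) (nat_lit 414) (nat_lit 438) (nat_lit 288))) (XT.nd (nat_lit 78) (nat_lit 228) (nat_lit 0) (XT.lf (nat_lit 228) (nat_lit 52055564) (nat_lit 0) (nat_lit 1879488092) (nat_lit 152) (nat_lit 1879488092) (nat_lit 33) (nat_lit 1) (nat_lit 30) (nat_lit 1) (nat_lit 32) (nat_lit 1) (nat_lit 415) (nat_lit 438) (nat_lit 287)) (XT.lf (nat_lit 228) (nat_lit 2702523346) (nat_lit 0) (nat_lit 541133074) (nat_lit 152) (nat_lit 541133074) (nat_lit 30) (nat_lit 1) (nat_lit 27) (nat_lit 1) (nat_lit 29) (nat_lit 1) (nat_lit 416) (nat_lit 438) (nat_lit 286)))) (XT.nd (nat_lit 156) (nat_lit 912) (nat_lit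 0) (XT.nd (nat_lit 78) (nat_lit 1140) (nat_lit 0) (XT.lf (nat_lit 76) (nat_lit 3314385856) (nat_lit 0) (nat_lit 3666646402) (nat_lit 1900) (nat_lit 3314385856) (nat_lit 485) (nat_lit 1) (nat_lit 484) (nat_lit 1) (nat_lit 509) (nat_lit 1) (nat_lit 287) (nat_lit 439) (nat_lit 414)) (XT.lf (nat_lit 1216) (nat_lit 5732387510) (nat_lit 0) (nat_lit 2234985431) (nat_lit 1140) (nat_lit 2234985431) (nat_lit 485) (nat_lit 1) (nat_lit 469) (nat_lit 1) (nat_lit 484) (nat_lit 1) (nat_lit 288) (nat_lit 439) (nat_lit 413))) (XT.nd (nat_lit 78) (nat_lit 912) (nat_lit 0) (XT.lf (nat_lit 76) (nat_lit 2407808318) (nat_lit 0) (nat_lit 5294762327) (nat_lit 1216) (nat_lit 2407808318) (nat_lit 470) (nat_lit 1) (nat_lit 469) (nat_lit 1) (nat_lit 485) (nat_lit 1) (nat_lit 289) (nat_lit 439) (nat_lit 412)) (XT.nd (nat_lit 78) (nat_lit 0) (nat_lit 0) (XT.lf (nat_lit 988) (nat_lit 3881987699) (nat_lit 0) (nat_lit 3068766176) (nat_lit 912) (nat_lit 3068766176) (nat_lit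 470) (nat_lit 1) (nat_lit 457) (nat_lit 1) (nat_lit 469) (nat_lit 1) (nat_lit 290) (nat_lit 439) (nat_lit 411)) (XT.lf (nat_lit 76) (nat_lit 1470478341) (nat_lit 0) (nat_lit 6988981916) (nat_lit 988) (nat_lit 1470478341) (nat_lit 458) (nat_lit 1) (nat_lit 457) (nat_lit 1) (nat_lit 470) (nat_lit 1) (nat_lit 291) (nat_lit 439) (nat_lit 410))))))) (XT.nd (nat_lit 702) (nat_lit 3800) (nat_lit 0) (XT.nd (nat_lit 312) (nat_lit 1672) (nat_lit 0) (XT.nd (nat_lit 156) (nat_lit 1824) (nat_lit 0) (XT.nd (nat_lit 78) (nat_lit 0) (nat_lit 0) (XT.lf (nat_lit 988) (nat_lit 1972397113) (nat_lit 0) (nat_lit 3934407481) (nat_lit 912) (nat_lit 3934407481) (nat_lit 458) (nat_lit 1) (nat_lit 445) (nat_lit 1) (nat_lit 457) (nat_lit 1) (nat_lit 292) (nat_lit 439) (nat_lit 409)) (XT.lf (nat_lit 76) (nat_lit 504883336) (nat_lit 0) (nat_lit 8744202490) (nat_lit 988) (nat_lit 504883336) (nat_lit 446) (nat_lit 1) (nat_lit 445) (nat_lit 1) (nat_lit 458) (nat_lit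 1) (nat_lit 293) (nat_lit 439) (nat_lit 408))) (XT.nd (nat_lit 78) (nat_lit 988) (nat_lit 0) (XT.lf (nat_lit 912) (nat_lit 8483693) (nat_lit 0) (nat_lit 4829412605) (nat_lit 836) (nat_lit 4829412605) (nat_lit 446) (nat_lit 1) (nat_lit 434) (nat_lit 1) (nat_lit 445) (nat_lit 1) (nat_lit 294) (nat_lit 439) (nat_lit 407)) (XT.lf (nat_lit 988) (nat_lit 8615273472) (nat_lit 0) (nat_lit 483409845) (nat_lit 912) (nat_lit 483409845) (nat_lit 434) (nat_lit 1) (nat_lit 421) (nat_lit 1) (nat_lit 433) (nat_lit 1) (nat_lit 295) (nat_lit 439) (nat_lit 406)))) (XT.nd (nat_lit 156) (nat_lit 836) (nat_lit 0) (XT.nd (nat_lit 78) (nat_lit 836) (nat_lit 0) (XT.lf (nat_lit 76) (nat_lit 3759301026) (nat_lit 0) (nat_lit 1978826467) (nat_lit 988) (nat_lit 3759301026) (nat_lit 422) (nat_lit 1) (nat_lit 421) (nat_lit 1) (nat_lit 434) (nat_lit 1) (nat_lit 296) (nat_lit 439) (nat_lit 405)) (XT.lf (nat_lit 912) (nat_lit 6430415397) (nat_lit 0) (nat_lit 1491876650)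 (nat_lit 836) (nat_lit 1491876650) (nat_lit 422) (nat_lit 1) (nat_lit 410) (nat_lit 1) (nat_lit 421) (nat_lit 1) (nat_lit 297) (nat_lit 439) (nat_lit 404))) (XT.nd (nat_lit 78) (nat_lit 836) (nat_lit 0) (XT.lf (nat_lit 76) (nat_lit 2660490101) (nat_lit 0) (nat_lit 4010726209) (nat_lit 912) (nat_lit 2660490101) (nat_lit 411) (nat_lit 1) (nat_lit 410) (nat_lit 1) (nat_lit 422) (nat_lit 1) (nat_lit 298) (nat_lit 439) (nat_lit 403)) (XT.nd (nat_lit 78) (nat_lit 0) (nat_lit 0) (XT.lf (nat_lit 912) (nat_lit 4206912284) (nat_lit 0) (nat_lit 2521715685) (nat_lit 836) (nat_lit 2521715685) (nat_lit 411) (nat_lit 1) (nat_lit 399) (nat_lit 1) (nat_lit 410) (nat_lit 1) (nat_lit 299) (nat_lit 439) (nat_lit 402)) (XT.lf (nat_lit 76) (nat_lit 1543414244) (nat_lit 0) (nat_lit 6083201476) (nat_lit 912) (nat_lit 1543414244) (nat_lit 400) (nat_lit 1) (nat_lit 399) (nat_lit 1) (nat_lit 411) (nat_lit 1) (nat_lit 300) (nat_lit 439) (nat_lit 401)))))) (XT.nd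 (nat_lit 312) (nat_lit 1444) (nat_lit 0) (XT.nd (nat_lit 156) (nat_lit 1596) (nat_lit 0) (XT.nd (nat_lit 78) (nat_lit 0) (nat_lit 0) (XT.lf (nat_lit 836) (nat_lit 1948686057) (nat_lit 0) (nat_lit 3570910134) (nat_lit 760) (nat_lit 3570910134) (nat_lit 400) (nat_lit 1) (nat_lit 389) (nat_lit 1) (nat_lit 399) (nat_lit 1) (nat_lit 301) (nat_lit 439) (nat_lit 400)) (XT.lf (nat_lit 76) (nat_lit 409977469) (nat_lit 0) (nat_lit 8192333992) (nat_lit 836) (nat_lit 409977469) (nat_lit 390) (nat_lit 1) (nat_lit 389) (nat_lit 1) (nat_lit 400) (nat_lit 1) (nat_lit 302) (nat_lit 439) (nat_lit 399))) (XT.nd (nat_lit 78) (nat_lit 760) (nat_lit 0) (XT.lf (nat_lit 76) (nat_lit 4299214657) (nat_lit 0) (nat_lit 336074873) (nat_lit 836) (nat_lit 4299214657) (nat_lit 379) (nat_lit 1) (nat_lit 378) (nat_lit 1) (nat_lit 389) (nat_lit 1) (nat_lit 303) (nat_lit 439) (nat_lit 398)) (XT.lf (nat_lit 836) (nat_lit 7391675376) (nat_lit 0) (nat_lit 733158216) (nat_lit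 760) (nat_lit 733158216) (nat_lit 379) (nat_lit 1) (nat_lit 368) (nat_lit 1) (nat_lit 378) (nat_lit 1) (nat_lit 304) (nat_lit 439) (nat_lit 397)))) (XT.nd (nat_lit 156) (nat_lit 684) (nat_lit 0) (XT.nd (nat_lit 78) (nat_lit 760) (nat_lit 0) (XT.lf (nat_lit 76) (nat_lit 3079815893) (nat_lit 0) (nat_lit 2622388051) (nat_lit 836) (nat_lit 3079815893) (nat_lit 369) (nat_lit 1) (nat_lit 368) (nat_lit 1) (nat_lit 379) (nat_lit 1) (nat_lit 305) (nat_lit 439) (nat_lit 396)) (XT.lf (nat_lit 836) (nat_lit 4934493363) (nat_lit 0) (nat_lit 1886352934) (nat_lit 760) (nat_lit 1886352934) (nat_lit 369) (nat_lit 1) (nat_lit 358) (nat_lit 1) (nat_lit 368) (nat_lit 1) (nat_lit 306) (nat_lit 439) (nat_lit 395))) (XT.nd (nat_lit 78) (nat_lit 684) (nat_lit 0) (XT.lf (nat_lit 76) (nat_lit 1850349248) (nat_lit 0) (nat_lit 4932506436) (nat_lit 836) (nat_lit 1850349248) (nat_lit 359) (nat_lit 1) (nat_lit 358) (nat_lit 1) (nat_lit 369) (nat_lit 1) (nat_lit 307)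 (nat_lit 439) (nat_lit 394)) (XT.nd (nat_lit 78) (nat_lit 0) (nat_lit 0) (XT.lf (nat_lit 760) (nat_lit 2458644987) (nat_lit 0) (nat_lit 3050690114) (nat_lit 684) (nat_lit 3050690114) (nat_lit 359) (nat_lit 1) (nat_lit 349) (nat_lit 1) (nat_lit 358) (nat_lit 1) (nat_lit 308) (nat_lit 439) (nat_lit 393)) (XT.lf (nat_lit 76) (nat_lit 612331525) (nat_lit 0) (nat_lit 7263298083) (nat_lit 760) (nat_lit 612331525) (nat_lit 350) (nat_lit 1) (nat_lit 349) (nat_lit 1) (nat_lit 359) (nat_lit 1) (nat_lit 309) (nat_lit 439) (nat_lit 392))))))))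
noncomputable def ec219 : XT := (XT.nd (nat_lit 1404) (nat_lit 5396) (nat_lit 0) (XT.nd (nat_lit 702) (nat_lit 2888) (nat_lit 0) (XT.nd (nat_lit 312) (nat_lit 1900) (nat_lit 0) (XT.nd (nat_lit 156) (nat_lit 684) (nat_lit 0) (XT.nd (nat_lit 78) (nat_lit 684) (nat_lit 0) (XT.lf (nat_lit 76) (nat_lit 4191946208) (nat_lit 0) (nat_lit 32476423) (nat_lit 760) (nat_lit 4191946208) (nat_lit 340) (nat_lit 1) (nat_lit 339) (nat_lit 1) (nat_lit 349) (nat_lit 1) (nat_lit 310) (nat_lit 439) (nat_lit 391)) (XT.lf (nat_lit 760) (nat_lit 7088586702) (nat_lit 0) (nat_lit 628638280) (nat_lit 684) (nat_lit 628638280) (nat_lit 340) (nat_lit 1) (nat_lit 330) (nat_lit 1) (nat_lit 339) (nat_lit 1) (nat_lit 311) (nat_lit 439) (nat_lit 390))) (XT.nd (nat_lit 78) (nat_lit 684) (nat_lit 0) (XT.lf (nat_lit 76) (nat_lit 2885867428) (nat_lit 0) (nat_lit 2504084817) (nat_lit 760) (nat_lit 2885867428) (nat_lit 331) (nat_lit 1) (nat_lit 330) (nat_lit 1) (nat_lit 340)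 (nat_lit 1) (nat_lit 312) (nat_lit 439) (nat_lit 389)) (XT.lf (nat_lit 760) (nat_lit 4464229394) (nat_lit 0) (nat_lit 1871298535) (nat_lit 684) (nat_lit 1871298535) (nat_lit 331) (nat_lit 1) (nat_lit 321) (nat_lit 1) (nat_lit 330) (nat_lit 1) (nat_lit 313) (nat_lit 439) (nat_lit 388)))) (XT.nd (nat_lit 156) (nat_lit 1292) (nat_lit 0) (XT.nd (nat_lit 78) (nat_lit 608) (nat_lit 0) (XT.lf (nat_lit 76) (nat_lit 1576398430) (nat_lit 0) (nat_lit 4985809507) (nat_lit 760) (nat_lit 1576398430) (nat_lit 322) (nat_lit 1) (nat_lit 321) (nat_lit 1) (nat_lit 331) (nat_lit 1) (nat_lit 314) (nat_lit 439) (nat_lit 387)) (XT.lf (nat_lit 684) (nat_lit 1834277311) (nat_lit 0) (nat_lit 3118401722) (nat_lit 608) (nat_lit 3118401722) (nat_lit 322) (nat_lit 1) (nat_lit 313) (nat_lit 1) (nat_lit 321) (nat_lit 1) (nat_lit 315) (nat_lit 439) (nat_lit 386))) (XT.nd (nat_lit 78) (nat_lit 1292) (nat_lit 0) (XT.lf (nat_lit 76) (nat_lit 264731777) (nat_lit 0) (nat_lit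 7475177433) (nat_lit 684) (nat_lit 264731777) (nat_lit 314) (nat_lit 1) (nat_lit 313) (nat_lit 1) (nat_lit 322) (nat_lit 1) (nat_lit 316) (nat_lit 439) (nat_lit 385)) (XT.nd (nat_lit 78) (nat_lit 608) (nat_lit 0) (XT.lf (nat_lit 76) (nat_lit 3574984904) (nat_lit 0) (nat_lit 788466116) (nat_lit 684) (nat_lit 3574984904) (nat_lit 305) (nat_lit 1) (nat_lit 304) (nat_lit 1) (nat_lit 313) (nat_lit 1) (nat_lit 317) (nat_lit 439) (nat_lit 384)) (XT.lf (nat_lit 684) (nat_lit 5791067446) (nat_lit 0) (nat_lit 1041112291) (nat_lit 608) (nat_lit 1041112291) (nat_lit 305) (nat_lit 1) (nat_lit 296) (nat_lit 1) (nat_lit 304) (nat_lit 1) (nat_lit 318) (nat_lit 439) (nat_lit 383)))))) (XT.nd (nat_lit 312) (nat_lit 1748) (nat_lit 0) (XT.nd (nat_lit 156) (nat_lit 532) (nat_lit 0) (XT.nd (nat_lit 78) (nat_lit 608) (nat_lit 0) (XT.lf (nat_lit 76) (nat_lit 2210229393) (nat_lit 0) (nat_lit 3388214688) (nat_lit 684) (nat_lit 2210229393) (nat_lit 297) (nat_lit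 1) (nat_lit 296) (nat_lit 1) (nat_lit 305) (nat_lit 1) (nat_lit 319) (nat_lit 439) (nat_lit 382)) (XT.lf (nat_lit 684) (nat_lit 3054433921) (nat_lit 0) (nat_lit 2345225476) (nat_lit 608) (nat_lit 2345225476) (nat_lit 297) (nat_lit 1) (nat_lit 288) (nat_lit 1) (nat_lit 296) (nat_lit 1) (nat_lit 320) (nat_lit 439) (nat_lit 381))) (XT.nd (nat_lit 78) (nat_lit 532) (nat_lit 0) (XT.lf (nat_lit 76) (nat_lit 847482908) (nat_lit 0) (nat_lit 5986984585) (nat_lit 684) (nat_lit 847482908) (nat_lit 289) (nat_lit 1) (nat_lit 288) (nat_lit 1) (nat_lit 297) (nat_lit 1) (nat_lit 321) (nat_lit 439) (nat_lit 380)) (XT.lf (nat_lit 608) (nat_lit 322765894) (nat_lit 0) (nat_lit 3648355865) (nat_lit 532) (nat_lit 3648355865) (nat_lit 289) (nat_lit 1) (nat_lit 281) (nat_lit 1) (nat_lit 288) (nat_lit 1) (nat_lit 322) (nat_lit 439) (nat_lit 379)))) (XT.nd (nat_lit 156) (nat_lit 1064) (nat_lit 0) (XT.nd (nat_lit 78) (nat_lit 0) (nat_lit 0) (XT.lf (nat_lit 684)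 (nat_lit 6539996440) (nat_lit 0) (nat_lit 508962224) (nat_lit 608) (nat_lit 508962224) (nat_lit 281) (nat_lit 1) (nat_lit 272) (nat_lit 1) (nat_lit 280) (nat_lit 1) (nat_lit 323) (nat_lit 439) (nat_lit 378)) (XT.lf (nat_lit 76) (nat_lit 2563021102) (nat_lit 0) (nat_lit 2370638609) (nat_lit 684) (nat_lit 2563021102) (nat_lit 273) (nat_lit 1) (nat_lit 272) (nat_lit 1) (nat_lit 281) (nat_lit 1) (nat_lit 324) (nat_lit 439) (nat_lit 377))) (XT.nd (nat_lit 78) (nat_lit 532) (nat_lit 0) (XT.lf (nat_lit 608) (nat_lit 3724216256) (nat_lit 0) (nat_lit 1856059730) (nat_lit 532) (nat_lit 1856059730) (nat_lit 273) (nat_lit 1) (nat_lit 265) (nat_lit 1) (nat_lit 272) (nat_lit 1) (nat_lit 325) (nat_lit 439) (nat_lit 376)) (XT.nd (nat_lit 78) (nat_lit 532) (nat_lit 0) (XT.lf (nat_lit 76) (nat_lit 1162606703) (nat_lit 0) (nat_lit 5051476848) (nat_lit 608) (nat_lit 1162606703) (nat_lit 266) (nat_lit 1) (nat_lit 265) (nat_lit 1) (nat_lit 273) (nat_lit 1)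 (nat_lit 326) (nat_lit 439) (nat_lit 375)) (XT.lf (nat_lit 608) (nat_lit 920408585) (nat_lit 0) (nat_lit 3198577045) (nat_lit 532) (nat_lit 3198577045) (nat_lit 266) (nat_lit 1) (nat_lit 258) (nat_lit 1) (nat_lit 265) (nat_lit 1) (nat_lit 327) (nat_lit 439) (nat_lit 374))))))) (XT.nd (nat_lit 702) (nat_lit 2736) (nat_lit 0) (XT.nd (nat_lit 312) (nat_lit 1520) (nat_lit 0) (XT.nd (nat_lit 156) (nat_lit 532) (nat_lit 0) (XT.nd (nat_lit 78) (nat_lit 0) (nat_lit 0) (XT.lf (nat_lit 608) (nat_lit 6799453546) (nat_lit 0) (nat_lit 229950381) (nat_lit 532) (nat_lit 229950381) (nat_lit 258) (nat_lit 1) (nat_lit 250) (nat_lit 1) (nat_lit 257) (nat_lit 1) (nat_lit 328) (nat_lit 439) (nat_lit 373)) (XT.lf (nat_lit 76) (nat_lit 2677915012) (nat_lit 0) (nat_lit 1845457155) (nat_lit 608) (nat_lit 2677915012) (nat_lit 251) (nat_lit 1) (nat_lit 250) (nat_lit 1) (nat_lit 258) (nat_lit 1) (nat_lit 329) (nat_lit 439) (nat_lit 372))) (XT.nd (nat_lit 78) (nat_lit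 0) (nat_lit 0) (XT.lf (nat_lit 608) (nat_lit 3928371679) (nat_lit 0) (nat_lit 1607874438) (nat_lit 532) (nat_lit 1607874438) (nat_lit 251) (nat_lit 1) (nat_lit 243) (nat_lit 1) (nat_lit 250) (nat_lit 1) (nat_lit 330) (nat_lit 439) (nat_lit 371)) (XT.lf (nat_lit 76) (nat_lit 1251443504) (nat_lit 0) (nat_lit 4584677729) (nat_lit 608) (nat_lit 1251443504) (nat_lit 244) (nat_lit 1) (nat_lit 243) (nat_lit 1) (nat_lit 251) (nat_lit 1) (nat_lit 331) (nat_lit 439) (nat_lit 370)))) (XT.nd (nat_lit 156) (nat_lit 456) (nat_lit 0) (XT.nd (nat_lit 78) (nat_lit 608) (nat_lit 0) (XT.lf (nat_lit 532) (nat_lit 1075190663) (nat_lit 0) (nat_lit 2978167886) (nat_lit 456) (nat_lit 2978167886) (nat_lit 244) (nat_lit 1) (nat_lit 237) (nat_lit 1) (nat_lit 243) (nat_lit 1) (nat_lit 332) (nat_lit 439) (nat_lit 369)) (XT.lf (nat_lit 608) (nat_lit 6646910578) (nat_lit 0) (nat_lit 164725156) (nat_lit 532) (nat_lit 164725156) (nat_lit 237) (nat_lit 1) (nat_lit 229)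 (nat_lit 1) (nat_lit 236) (nat_lit 1) (nat_lit 333) (nat_lit 439) (nat_lit 368))) (XT.nd (nat_lit 78) (nat_lit 456) (nat_lit 0) (XT.lf (nat_lit 76) (nat_lit 2592698191) (nat_lit 0) (nat_lit 1735880640) (nat_lit 608) (nat_lit 2592698191) (nat_lit 230) (nat_lit 1) (nat_lit 229) (nat_lit 1) (nat_lit 237) (nat_lit 1) (nat_lit 334) (nat_lit 439) (nat_lit 367)) (XT.nd (nat_lit 78) (nat_lit 0) (nat_lit 0) (XT.lf (nat_lit 532) (nat_lit 3741119061) (nat_lit 0) (nat_lit 1562965121) (nat_lit 456) (nat_lit 1562965121) (nat_lit 230) (nat_lit 1) (nat_lit 223) (nat_lit 1) (nat_lit 229) (nat_lit 1) (nat_lit 335) (nat_lit 439) (nat_lit 366)) (XT.lf (nat_lit 76) (nat_lit 1150192639) (nat_lit 0) (nat_lit 4513013797) (nat_lit 532) (nat_lit 1150192639) (nat_lit 224) (nat_lit 1) (nat_lit 223) (nat_lit 1) (nat_lit 230) (nat_lit 1) (nat_lit 336) (nat_lit 439) (nat_lit 365)))))) (XT.nd (nat_lit 390) (nat_lit 1292) (nat_lit 0) (XT.nd (nat_lit 156) (nat_lit 456)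 (nat_lit 0) (XT.nd (nat_lit 78) (nat_lit 532) (nat_lit 0) (XT.lf (nat_lit 532) (nat_lit 858210299) (nat_lit 0) (nat_lit 2951004170) (nat_lit 456) (nat_lit 2951004170) (nat_lit 224) (nat_lit 1) (nat_lit 217) (nat_lit 1) (nat_lit 223) (nat_lit 1) (nat_lit 337) (nat_lit 439) (nat_lit 364)) (XT.lf (nat_lit 532) (nat_lit 6150146208) (nat_lit 0) (nat_lit 278838513) (nat_lit 456) (nat_lit 278838513) (nat_lit 217) (nat_lit 1) (nat_lit 210) (nat_lit 1) (nat_lit 216) (nat_lit 1) (nat_lit 338) (nat_lit 439) (nat_lit 363))) (XT.nd (nat_lit 78) (nat_lit 456) (nat_lit 0) (XT.lf (nat_lit 76) (nat_lit 2340424759) (nat_lit 0) (nat_lit 1974697799) (nat_lit 532) (nat_lit 2340424759) (nat_lit 211) (nat_lit 1) (nat_lit 210) (nat_lit 1) (nat_lit 217) (nat_lit 1) (nat_lit 339) (nat_lit 439) (nat_lit 362)) (XT.nd (nat_lit 78) (nat_lit 0) (nat_lit 0) (XT.lf (nat_lit 532) (nat_lit 3227371134) (nat_lit 0) (nat_lit 1688335275) (nat_lit 456) (nat_lit 1688335275)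 (nat_lit 211) (nat_lit 1) (nat_lit 204) (nat_lit 1) (nat_lit 210) (nat_lit 1) (nat_lit 340) (nat_lit 439) (nat_lit 361)) (XT.lf (nat_lit 76) (nat_lit 890509503) (nat_lit 0) (nat_lit 4772107873) (nat_lit 532) (nat_lit 890509503) (nat_lit 205) (nat_lit 1) (nat_lit 204) (nat_lit 1) (nat_lit 211) (nat_lit 1) (nat_lit 341) (nat_lit 439) (nat_lit 360))))) (XT.nd (nat_lit 156) (nat_lit 380) (nat_lit 0) (XT.nd (nat_lit 78) (nat_lit 532) (nat_lit 0) (XT.lf (nat_lit 456) (nat_lit 331631280) (nat_lit 0) (nat_lit 3085481765) (nat_lit 380) (nat_lit 3085481765) (nat_lit 205) (nat_lit 1) (nat_lit 199) (nat_lit 1) (nat_lit 204) (nat_lit 1) (nat_lit 342) (nat_lit 439) (nat_lit 359)) (XT.lf (nat_lit 532) (nat_lit 5368373898) (nat_lit 0) (nat_lit 542176086) (nat_lit 456) (nat_lit 542176086) (nat_lit 199) (nat_lit 1) (nat_lit 192) (nat_lit 1) (nat_lit 198) (nat_lit 1) (nat_lit 343) (nat_lit 439) (nat_lit 358))) (XT.nd (nat_lit 78) (nat_lit 380) (nat_lit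 0) (XT.lf (nat_lit 76) (nat_lit 1949966831) (nat_lit 0) (nat_lit 2503162168) (nat_lit 532) (nat_lit 1949966831) (nat_lit 193) (nat_lit 1) (nat_lit 192) (nat_lit 1) (nat_lit 199) (nat_lit 1) (nat_lit 344) (nat_lit 439) (nat_lit 357)) (XT.nd (nat_lit 78) (nat_lit 0) (nat_lit 0) (XT.lf (nat_lit 456) (nat_lit 2443818201) (nat_lit 0) (nat_lit 1955148813) (nat_lit 380) (nat_lit 1955148813) (nat_lit 193) (nat_lit 1) (nat_lit 187) (nat_lit 1) (nat_lit 192) (nat_lit 1) (nat_lit 345) (nat_lit 439) (nat_lit 356)) (XT.lf (nat_lit 76) (nat_lit 500034898) (nat_lit 0) (nat_lit 5305709081) (nat_lit 456) (nat_lit 500034898) (nat_lit 188) (nat_lit 1) (nat_lit 187) (nat_lit 1) (nat_lit 193) (nat_lit 1) (nat_lit 346) (nat_lit 439) (nat_lit 355))))))))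
noncomputable def ec220 : XT := (XT.nd (nat_lit 1404) (nat_lit 3116) (nat_lit 0) (XT.nd (nat_lit 702) (nat_lit 2128) (nat_lit 0) (XT.nd (nat_lit 312) (nat_lit 1064) (nat_lit 0) (XT.nd (nat_lit 156) (nat_lit 380) (nat_lit 0) (XT.nd (nat_lit 78) (nat_lit 380) (nat_lit 0) (XT.lf (nat_lit 76) (nat_lit 2906638231) (nat_lit 0) (nat_lit 444370348) (nat_lit 456) (nat_lit 2906638231) (nat_lit 182) (nat_lit 1) (nat_lit 181) (nat_lit 1) (nat_lit 187) (nat_lit 1) (nat_lit 347) (nat_lit 439) (nat_lit 354)) (XT.lf (nat_lit 456) (nat_lit 4353241796) (nat_lit 0) (nat_lit 928451952) (nat_lit 380) (nat_lit 928451952) (nat_lit 182) (nat_lit 1) (nat_lit 176) (nat_lit 1) (nat_lit 181) (nat_lit 1) (nat_lit 348) (nat_lit 439) (nat_lit 353))) (XT.nd (nat_lit 78) (nat_lit 380) (nat_lit 0) (XT.lf (nat_lit 76) (nat_lit 1446502922) (nat_lit 0) (nat_lit 3270004858) (nat_lit 456) (nat_lit 1446502922) (nat_lit 177) (nat_lit 1) (nat_lit 176) (nat_lit 1) (nat_lit 182)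 (nat_lit 1) (nat_lit 349) (nat_lit 439) (nat_lit 352)) (XT.lf (nat_lit 456) (nat_lit 1439888780) (nat_lit 0) (nat_lit 2338244656) (nat_lit 380) (nat_lit 2338244656) (nat_lit 177) (nat_lit 1) (nat_lit 171) (nat_lit 1) (nat_lit 176) (nat_lit 1) (nat_lit 350) (nat_lit 439) (nat_lit 351)))) (XT.nd (nat_lit 156) (nat_lit 684) (nat_lit 0) (XT.nd (nat_lit 78) (nat_lit 380) (nat_lit 0) (XT.lf (nat_lit 76) (nat_lit 2864260) (nat_lit 0) (nat_lit 6064744352) (nat_lit 456) (nat_lit 2864260) (nat_lit 172) (nat_lit 1) (nat_lit 171) (nat_lit 1) (nat_lit 177) (nat_lit 1) (nat_lit 351) (nat_lit 439) (nat_lit 350)) (XT.lf (nat_lit 76) (nat_lit 2301588215) (nat_lit 0) (nat_lit 1421321963) (nat_lit 380) (nat_lit 2301588215) (nat_lit 167) (nat_lit 1) (nat_lit 166) (nat_lit 1) (nat_lit 171) (nat_lit 1) (nat_lit 352) (nat_lit 439) (nat_lit 349))) (XT.nd (nat_lit 78) (nat_lit 304) (nat_lit 0) (XT.lf (nat_lit 456) (nat_lit 3149718992) (nat_lit 0) (nat_lit 1414760785)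 (nat_lit 380) (nat_lit 1414760785) (nat_lit 167) (nat_lit 1) (nat_lit 161) (nat_lit 1) (nat_lit 166) (nat_lit 1) (nat_lit 353) (nat_lit 439) (nat_lit 348)) (XT.nd (nat_lit 78) (nat_lit 304) (nat_lit 0) (XT.lf (nat_lit 76) (nat_lit 851950827) (nat_lit 0) (nat_lit 4230559484) (nat_lit 456) (nat_lit 851950827) (nat_lit 162) (nat_lit 1) (nat_lit 161) (nat_lit 1) (nat_lit 167) (nat_lit 1) (nat_lit 354) (nat_lit 439) (nat_lit 347)) (XT.lf (nat_lit 380) (nat_lit 258601047) (nat_lit 0) (nat_lit 2815706478) (nat_lit 304) (nat_lit 2815706478) (nat_lit 162) (nat_lit 1) (nat_lit 157) (nat_lit 1) (nat_lit 161) (nat_lit 1) (nat_lit 355) (nat_lit 439) (nat_lit 346)))))) (XT.nd (nat_lit 312) (nat_lit 1368) (nat_lit 0) (XT.nd (nat_lit 156) (nat_lit 304) (nat_lit 0) (XT.nd (nat_lit 78) (nat_lit 0) (nat_lit 0) (XT.lf (nat_lit 456) (nat_lit 4693661650) (nat_lit 0) (nat_lit 576220431) (nat_lit 380) (nat_lit 576220431) (nat_lit 157) (nat_lit 1) (nat_lit 151)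 (nat_lit 1) (nat_lit 156) (nat_lit 1) (nat_lit 356) (nat_lit 439) (nat_lit 345)) (XT.lf (nat_lit 76) (nat_lit 1619722535) (nat_lit 0) (nat_lit 2562964552) (nat_lit 456) (nat_lit 1619722535) (nat_lit 152) (nat_lit 1) (nat_lit 151) (nat_lit 1) (nat_lit 157) (nat_lit 1) (nat_lit 357) (nat_lit 439) (nat_lit 344))) (XT.nd (nat_lit 78) (nat_lit 0) (nat_lit 0) (XT.lf (nat_lit 380) (nat_lit 1796880931) (nat_lit 0) (nat_lit 1981180952) (nat_lit 304) (nat_lit 1981180952) (nat_lit 152) (nat_lit 1) (nat_lit 147) (nat_lit 1) (nat_lit 151) (nat_lit 1) (nat_lit 358) (nat_lit 439) (nat_lit 343)) (XT.lf (nat_lit 76) (nat_lit 185351245) (nat_lit 0) (nat_lit 5345986634) (nat_lit 380) (nat_lit 185351245) (nat_lit 148) (nat_lit 1) (nat_lit 147) (nat_lit 1) (nat_lit 152) (nat_lit 1) (nat_lit 359) (nat_lit 439) (nat_lit 342)))) (XT.nd (nat_lit 156) (nat_lit 684) (nat_lit 0) (XT.nd (nat_lit 78) (nat_lit 304) (nat_lit 0) (XT.lf (nat_lit 76) (nat_lit 2312698412)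 (nat_lit 0) (nat_lit 1048745357) (nat_lit 380) (nat_lit 2312698412) (nat_lit 143) (nat_lit 1) (nat_lit 142) (nat_lit 1) (nat_lit 147) (nat_lit 1) (nat_lit 360) (nat_lit 439) (nat_lit 341)) (XT.lf (nat_lit 380) (nat_lit 3187465266) (nat_lit 0) (nat_lit 1222367118) (nat_lit 304) (nat_lit 1222367118) (nat_lit 143) (nat_lit 1) (nat_lit 138) (nat_lit 1) (nat_lit 142) (nat_lit 1) (nat_lit 361) (nat_lit 439) (nat_lit 340))) (XT.nd (nat_lit 78) (nat_lit 684) (nat_lit 0) (XT.lf (nat_lit 76) (nat_lit 878309701) (nat_lit 0) (nat_lit 3834045923) (nat_lit 380) (nat_lit 878309701) (nat_lit 139) (nat_lit 1) (nat_lit 138) (nat_lit 1) (nat_lit 143) (nat_lit 1) (nat_lit 362) (nat_lit 439) (nat_lit 339)) (XT.nd (nat_lit 78) (nat_lit 380) (nat_lit 0) (XT.lf (nat_lit 380) (nat_lit 328605354) (nat_lit 0) (nat_lit 2610422801) (nat_lit 304) (nat_lit 2610422801) (nat_lit 139) (nat_lit 1) (nat_lit 134) (nat_lit 1) (nat_lit 138) (nat_lit 1) (nat_lit 363) (nat_lit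 439) (nat_lit 338)) (XT.lf (nat_lit 380) (nat_lit 4442200733) (nat_lit 0) (nat_lit 533260778) (nat_lit 304) (nat_lit 533260778) (nat_lit 134) (nat_lit 1) (nat_lit 129) (nat_lit 1) (nat_lit 133) (nat_lit 1) (nat_lit 364) (nat_lit 439) (nat_lit 337))))))) (XT.nd (nat_lit 702) (nat_lit 1596) (nat_lit 0) (XT.nd (nat_lit 312) (nat_lit 912) (nat_lit 0) (XT.nd (nat_lit 156) (nat_lit 304) (nat_lit 0) (XT.nd (nat_lit 78) (nat_lit 304) (nat_lit 0) (XT.lf (nat_lit 76) (nat_lit 1504632009) (nat_lit 0) (nat_lit 2458909537) (nat_lit 380) (nat_lit 1504632009) (nat_lit 130) (nat_lit 1) (nat_lit 129) (nat_lit 1) (nat_lit 134) (nat_lit 1) (nat_lit 365) (nat_lit 439) (nat_lit 336)) (XT.lf (nat_lit 380) (nat_lit 1588247065) (nat_lit 0) (nat_lit 1919927816) (nat_lit 304) (nat_lit 1919927816) (nat_lit 130) (nat_lit 1) (nat_lit 125) (nat_lit 1) (nat_lit 129) (nat_lit 1) (nat_lit 366) (nat_lit 439) (nat_lit 335))) (XT.nd (nat_lit 78) (nat_lit 304) (nat_lit 0)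 (XT.lf (nat_lit 76) (nat_lit 92287498) (nat_lit 0) (nat_lit 5204036307) (nat_lit 380) (nat_lit 92287498) (nat_lit 126) (nat_lit 1) (nat_lit 125) (nat_lit 1) (nat_lit 130) (nat_lit 1) (nat_lit 367) (nat_lit 439) (nat_lit 334)) (XT.lf (nat_lit 76) (nat_lit 2069664663) (nat_lit 0) (nat_lit 1209734435) (nat_lit 304) (nat_lit 2069664663) (nat_lit 122) (nat_lit 1) (nat_lit 121) (nat_lit 1) (nat_lit 125) (nat_lit 1) (nat_lit 368) (nat_lit 439) (nat_lit 333)))) (XT.nd (nat_lit 156) (nat_lit 608) (nat_lit 0) (XT.nd (nat_lit 78) (nat_lit 0) (nat_lit 0) (XT.lf (nat_lit 380) (nat_lit 2726771759) (nat_lit 0) (nat_lit 1291658346) (nat_lit 304) (nat_lit 1291658346) (nat_lit 122) (nat_lit 1) (nat_lit 117) (nat_lit 1) (nat_lit 121) (nat_lit 1) (nat_lit 369) (nat_lit 439) (nat_lit 332)) (XT.lf (nat_lit 76) (nat_lit 661926654) (nat_lit 0) (nat_lit 3947669977) (nat_lit 380) (nat_lit 661926654) (nat_lit 118) (nat_lit 1) (nat_lit 117) (nat_lit 1) (nat_lit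 122) (nat_lit 1) (nat_lit 370) (nat_lit 439) (nat_lit 331))) (XT.nd (nat_lit 78) (nat_lit 304) (nat_lit 0) (XT.lf (nat_lit 76) (nat_lit 2578341667) (nat_lit 0) (nat_lit 76511650) (nat_lit 304) (nat_lit 2578341667) (nat_lit 114) (nat_lit 1) (nat_lit 113) (nat_lit 1) (nat_lit 117) (nat_lit 1) (nat_lit 371) (nat_lit 439) (nat_lit 330)) (XT.nd (nat_lit 78) (nat_lit 0) (nat_lit 0) (XT.lf (nat_lit 380) (nat_lit 3753896963) (nat_lit 0) (nat_lit 720686592) (nat_lit 304) (nat_lit 720686592) (nat_lit 114) (nat_lit 1) (nat_lit 109) (nat_lit 1) (nat_lit 113) (nat_lit 1) (nat_lit 372) (nat_lit 439) (nat_lit 329)) (XT.lf (nat_lit 76) (nat_lit 1176877981) (nat_lit 0) (nat_lit 2803845516) (nat_lit 380) (nat_lit 1176877981) (nat_lit 110) (nat_lit 1) (nat_lit 109) (nat_lit 1) (nat_lit 114) (nat_lit 1) (nat_lit 373) (nat_lit 439) (nat_lit 328)))))) (XT.nd (nat_lit 312) (nat_lit 760) (nat_lit 0) (XT.nd (nat_lit 156) (nat_lit 228) (nat_lit 0) (XT.nd (nat_lit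 78) (nat_lit 380) (nat_lit 0) (XT.lf (nat_lit 304) (nat_lit 962622354) (nat_lit 0) (nat_lit 2078843681) (nat_lit 228) (nat_lit 2078843681) (nat_lit 110) (nat_lit 1) (nat_lit 106) (nat_lit 1) (nat_lit 109) (nat_lit 1) (nat_lit 374) (nat_lit 439) (nat_lit 327)) (XT.lf (nat_lit 380) (nat_lit 4678590485) (nat_lit 0) (nat_lit 202463733) (nat_lit 304) (nat_lit 202463733) (nat_lit 106) (nat_lit 1) (nat_lit 101) (nat_lit 1) (nat_lit 105) (nat_lit 1) (nat_lit 375) (nat_lit 439) (nat_lit 326))) (XT.nd (nat_lit 78) (nat_lit 228) (nat_lit 0) (XT.lf (nat_lit 76) (nat_lit 1641527917) (nat_lit 0) (nat_lit 1763661683) (nat_lit 380) (nat_lit 1641527917) (nat_lit 102) (nat_lit 1) (nat_lit 101) (nat_lit 1) (nat_lit 106) (nat_lit 1) (nat_lit 376) (nat_lit 439) (nat_lit 325)) (XT.lf (nat_lit 304) (nat_lit 1903281571) (nat_lit 0) (nat_lit 1553564788) (nat_lit 228) (nat_lit 1553564788) (nat_lit 102) (nat_lit 1) (nat_lit 98) (nat_lit 1) (nat_lit 101) (nat_lit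 1) (nat_lit 377) (nat_lit 439) (nat_lit 324)))) (XT.nd (nat_lit 156) (nat_lit 456) (nat_lit 0) (XT.nd (nat_lit 78) (nat_lit 304) (nat_lit 0) (XT.lf (nat_lit 76) (nat_lit 268978595) (nat_lit 0) (nat_lit 4436612331) (nat_lit 304) (nat_lit 268978595) (nat_lit 99) (nat_lit 1) (nat_lit 98) (nat_lit 1) (nat_lit 102) (nat_lit 1) (nat_lit 378) (nat_lit 439) (nat_lit 323)) (XT.lf (nat_lit 76) (nat_lit 2059924507) (nat_lit 0) (nat_lit 818901590) (nat_lit 304) (nat_lit 2059924507) (nat_lit 95) (nat_lit 1) (nat_lit 94) (nat_lit 1) (nat_lit 98) (nat_lit 1) (nat_lit 379) (nat_lit 439) (nat_lit 322))) (XT.nd (nat_lit 78) (nat_lit 228) (nat_lit 0) (XT.lf (nat_lit 304) (nat_lit 2752423574) (nat_lit 0) (nat_lit 1075483687) (nat_lit 228) (nat_lit 1075483687) (nat_lit 95) (nat_lit 1) (nat_lit 91) (nat_lit 1) (nat_lit 94) (nat_lit 1) (nat_lit 380) (nat_lit 439) (nat_lit 321)) (XT.nd (nat_lit 78) (nat_lit 228) (nat_lit 0) (XT.lf (nat_lit 76) (nat_lit 696791213)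 (nat_lit 0) (nat_lit 3474784781) (nat_lit 304) (nat_lit 696791213) (nat_lit 92) (nat_lit 1) (nat_lit 91) (nat_lit 1) (nat_lit 95) (nat_lit 1) (nat_lit 381) (nat_lit 439) (nat_lit 320)) (XT.lf (nat_lit 304) (nat_lit 38524798) (nat_lit 0) (nat_lit 2397528583) (nat_lit 228) (nat_lit 2397528583) (nat_lit 92) (nat_lit 1) (nat_lit 88) (nat_lit 1) (nat_lit 91) (nat_lit 1) (nat_lit 382) (nat_lit 439) (nat_lit 319))))))))
noncomputable def ec221 : XT := (XT.nd (nat_lit 1404) (nat_lit 1748) (nat_lit 0) (XT.nd (nat_lit 702) (nat_lit 1368) (nat_lit 0) (XT.nd (nat_lit 312) (nat_lit 684) (nat_lit 0) (XT.nd (nat_lit 156) (nat_lit 532) (nat_lit 0) (XT.nd (nat_lit 78) (nat_lit 0) (nat_lit 0) (XT.lf (nat_lit 304) (nat_lit 3517407655) (nat_lit 0) (nat_lit 640864962) (nat_lit 228) (nat_lit 640864962) (nat_lit 88) (nat_lit 1) (nat_lit 84) (nat_lit 1) (nat_lit 87) (nat_lit 1) (nat_lit 383) (nat_lit 439) (nat_lit 318)) (XT.lf (nat_lit 76) (nat_lit 1083233815)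 (nat_lit 0) (nat_lit 2598439294) (nat_lit 304) (nat_lit 1083233815) (nat_lit 85) (nat_lit 1) (nat_lit 84) (nat_lit 1) (nat_lit 88) (nat_lit 1) (nat_lit 384) (nat_lit 439) (nat_lit 317))) (XT.nd (nat_lit 78) (nat_lit 304) (nat_lit 0) (XT.lf (nat_lit 304) (nat_lit 824921631) (nat_lit 0) (nat_lit 1953045315) (nat_lit 228) (nat_lit 1953045315) (nat_lit 85) (nat_lit 1) (nat_lit 81) (nat_lit 1) (nat_lit 84) (nat_lit 1) (nat_lit 385) (nat_lit 439) (nat_lit 316)) (XT.lf (nat_lit 304) (nat_lit 4205025019) (nat_lit 0) (nat_lit 246260436) (nat_lit 228) (nat_lit 246260436) (nat_lit 81) (nat_lit 1) (nat_lit 77) (nat_lit 1) (nat_lit 80) (nat_lit 1) (nat_lit 386) (nat_lit 439) (nat_lit 315)))) (XT.nd (nat_lit 156) (nat_lit 456) (nat_lit 0) (XT.nd (nat_lit 78) (nat_lit 228) (nat_lit 0) (XT.lf (nat_lit 76) (nat_lit 1431629272) (nat_lit 0) (nat_lit 1800826126) (nat_lit 304) (nat_lit 1431629272) (nat_lit 78) (nat_lit 1) (nat_lit 77) (nat_lit 1) (nat_lit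 81) (nat_lit 1) (nat_lit 387) (nat_lit 439) (nat_lit 314)) (XT.lf (nat_lit 304) (nat_lit 1535953676) (nat_lit 0) (nat_lit 1547546785) (nat_lit 228) (nat_lit 1547546785) (nat_lit 78) (nat_lit 1) (nat_lit 74) (nat_lit 1) (nat_lit 77) (nat_lit 1) (nat_lit 388) (nat_lit 439) (nat_lit 313))) (XT.nd (nat_lit 78) (nat_lit 456) (nat_lit 0) (XT.lf (nat_lit 76) (nat_lit 112251258) (nat_lit 0) (nat_lit 4373955651) (nat_lit 304) (nat_lit 112251258) (nat_lit 75) (nat_lit 1) (nat_lit 74) (nat_lit 1) (nat_lit 78) (nat_lit 1) (nat_lit 389) (nat_lit 439) (nat_lit 312)) (XT.nd (nat_lit 78) (nat_lit 228) (nat_lit 0) (XT.lf (nat_lit 76) (nat_lit 1745044024) (nat_lit 0) (nat_lit 1075714263) (nat_lit 228) (nat_lit 1745044024) (nat_lit 72) (nat_lit 1) (nat_lit 71) (nat_lit 1) (nat_lit 74) (nat_lit 1) (nat_lit 390) (nat_lit 439) (nat_lit 311)) (XT.lf (nat_lit 304) (nat_lit 2177663779) (nat_lit 0) (nat_lit 1177963434) (nat_lit 228) (nat_lit 1177963434) (nat_lit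 72) (nat_lit 1) (nat_lit 68) (nat_lit 1) (nat_lit 71) (nat_lit 1) (nat_lit 391) (nat_lit 439) (nat_lit 310)))))) (XT.nd (nat_lit 312) (nat_lit 912) (nat_lit 0) (XT.nd (nat_lit 156) (nat_lit 228) (nat_lit 0) (XT.nd (nat_lit 78) (nat_lit 228) (nat_lit 0) (XT.lf (nat_lit 76) (nat_lit 438275852) (nat_lit 0) (nat_lit 3625176103) (nat_lit 304) (nat_lit 438275852) (nat_lit 69) (nat_lit 1) (nat_lit 68) (nat_lit 1) (nat_lit 72) (nat_lit 1) (nat_lit 392) (nat_lit 439) (nat_lit 309)) (XT.lf (nat_lit 76) (nat_lit 2026307674) (nat_lit 0) (nat_lit 417351823) (nat_lit 228) (nat_lit 2026307674) (nat_lit 66) (nat_lit 1) (nat_lit 65) (nat_lit 1) (nat_lit 68) (nat_lit 1) (nat_lit 393) (nat_lit 439) (nat_lit 308))) (XT.nd (nat_lit 78) (nat_lit 0) (nat_lit 0) (XT.lf (nat_lit 304) (nat_lit 2755628644) (nat_lit 0) (nat_lit 841461440) (nat_lit 228) (nat_lit 841461440) (nat_lit 66) (nat_lit 1) (nat_lit 62) (nat_lit 1) (nat_lit 65) (nat_lit 1) (nat_lit 394) (nat_lit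 439) (nat_lit 307)) (XT.lf (nat_lit 76) (nat_lit 732911927) (nat_lit 0) (nat_lit 2941570187) (nat_lit 304) (nat_lit 732911927) (nat_lit 63) (nat_lit 1) (nat_lit 62) (nat_lit 1) (nat_lit 66) (nat_lit 1) (nat_lit 395) (nat_lit 439) (nat_lit 306)))) (XT.nd (nat_lit 156) (nat_lit 456) (nat_lit 0) (XT.nd (nat_lit 78) (nat_lit 304) (nat_lit 0) (XT.lf (nat_lit 228) (nat_lit 181956920) (nat_lit 0) (nat_lit 2097255555) (nat_lit 152) (nat_lit 2097255555) (nat_lit 63) (nat_lit 1) (nat_lit 60) (nat_lit 1) (nat_lit 62) (nat_lit 1) (nat_lit 396) (nat_lit 439) (nat_lit 305)) (XT.lf (nat_lit 304) (nat_lit 3274994450) (nat_lit 0) (nat_lit 535424723) (nat_lit 228) (nat_lit 535424723) (nat_lit 60) (nat_lit 1) (nat_lit 56) (nat_lit 1) (nat_lit 59) (nat_lit 1) (nat_lit 397) (nat_lit 439) (nat_lit 304))) (XT.nd (nat_lit 78) (nat_lit 456) (nat_lit 0) (XT.lf (nat_lit 76) (nat_lit 998678494) (nat_lit 0) (nat_lit 2318014814) (nat_lit 304) (nat_lit 998678494) (nat_lit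 57) (nat_lit 1) (nat_lit 56) (nat_lit 1) (nat_lit 60) (nat_lit 1) (nat_lit 398) (nat_lit 439) (nat_lit 303)) (XT.nd (nat_lit 78) (nat_lit 304) (nat_lit 0) (XT.lf (nat_lit 228) (nat_lit 729521145) (nat_lit 0) (nat_lit 1777838517) (nat_lit 152) (nat_lit 1777838517) (nat_lit 57) (nat_lit 1) (nat_lit 54) (nat_lit 1) (nat_lit 56) (nat_lit 1) (nat_lit 399) (nat_lit 439) (nat_lit 302)) (XT.lf (nat_lit 304) (nat_lit 3740509752) (nat_lit 0) (nat_lit 257438329) (nat_lit 228) (nat_lit 257438329) (nat_lit 54) (nat_lit 1) (nat_lit 50) (nat_lit 1) (nat_lit 53) (nat_lit 1) (nat_lit 400) (nat_lit 439) (nat_lit 301))))))) (XT.nd (nat_lit 702) (nat_lit 760) (nat_lit 0) (XT.nd (nat_lit 312) (nat_lit 532) (nat_lit 0) (XT.nd (nat_lit 156) (nat_lit 304) (nat_lit 0) (XT.nd (nat_lit 78) (nat_lit 152) (nat_lit 0) (XT.lf (nat_lit 76) (nat_lit 1237900208) (nat_lit 0) (nat_lit 1749780179) (nat_lit 304) (nat_lit 1237900208) (nat_lit 51) (nat_lit 1) (nat_lit 50) (nat_lit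 1) (nat_lit 54) (nat_lit 1) (nat_lit 401) (nat_lit 439) (nat_lit 300)) (XT.lf (nat_lit 228) (nat_lit 1224377592) (nat_lit 0) (nat_lit 1485877948) (nat_lit 152) (nat_lit 1485877948) (nat_lit 51) (nat_lit 1) (nat_lit 48) (nat_lit 1) (nat_lit 50) (nat_lit 1) (nat_lit 402) (nat_lit 439) (nat_lit 299))) (XT.nd (nat_lit 78) (nat_lit 0) (nat_lit 0) (XT.lf (nat_lit 304) (nat_lit 4156555874) (nat_lit 0) (nat_lit 5273074) (nat_lit 228) (nat_lit 5273074) (nat_lit 48) (nat_lit 1) (nat_lit 44) (nat_lit 1) (nat_lit 47) (nat_lit 1) (nat_lit 403) (nat_lit 439) (nat_lit 298)) (XT.lf (nat_lit 76) (nat_lit 1452722219) (nat_lit 0) (nat_lit 1232499745) (nat_lit 304) (nat_lit 1452722219) (nat_lit 45) (nat_lit 1) (nat_lit 44) (nat_lit 1) (nat_lit 48) (nat_lit 1) (nat_lit 404) (nat_lit 439) (nat_lit 297)))) (XT.nd (nat_lit 156) (nat_lit 380) (nat_lit 0) (XT.nd (nat_lit 78) (nat_lit 0) (nat_lit 0) (XT.lf (nat_lit 228) (nat_lit 1670756050) (nat_lit 0) (nat_lit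 1219221513) (nat_lit 152) (nat_lit 1219221513) (nat_lit 45) (nat_lit 1) (nat_lit 42) (nat_lit 1) (nat_lit 44) (nat_lit 1) (nat_lit 405) (nat_lit 439) (nat_lit 296)) (XT.lf (nat_lit 76) (nat_lit 224606313) (nat_lit 0) (nat_lit 3631588018) (nat_lit 228) (nat_lit 224606313) (nat_lit 43) (nat_lit 1) (nat_lit 42) (nat_lit 1) (nat_lit 45) (nat_lit 1) (nat_lit 406) (nat_lit 439) (nat_lit 295))) (XT.nd (nat_lit 78) (nat_lit 152) (nat_lit 0) (XT.lf (nat_lit 76) (nat_lit 1645123889) (nat_lit 0) (nat_lit 762142516) (nat_lit 228) (nat_lit 1645123889) (nat_lit 40) (nat_lit 1) (nat_lit 39) (nat_lit 1) (nat_lit 42) (nat_lit 1) (nat_lit 407) (nat_lit 439) (nat_lit 294)) (XT.nd (nat_lit 78) (nat_lit 0) (nat_lit 0) (XT.lf (nat_lit 228) (nat_lit 2072559954) (nat_lit 0) (nat_lit 975881990) (nat_lit 152) (nat_lit 975881990) (nat_lit 40) (nat_lit 1) (nat_lit 37) (nat_lit 1) (nat_lit 39) (nat_lit 1) (nat_lit 408) (nat_lit 439) (nat_lit 293)) (XT.lf (nat_lit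 76) (nat_lit 432511399) (nat_lit 0) (nat_lit 3131515967) (nat_lit 228) (nat_lit 432511399) (nat_lit 38) (nat_lit 1) (nat_lit 37) (nat_lit 1) (nat_lit 40) (nat_lit 1) (nat_lit 409) (nat_lit 439) (nat_lit 292)))))) (XT.nd (nat_lit 49842) (nat_lit 0) (nat_lit 30932) (XT.nd (nat_lit 156) (nat_lit 380) (nat_lit 0) (XT.nd (nat_lit 78) (nat_lit 152) (nat_lit 0) (XT.lf (nat_lit 76) (nat_lit 1816931466) (nat_lit 0) (nat_lit 334987430) (nat_lit 228) (nat_lit 1816931466) (nat_lit 35) (nat_lit 1) (nat_lit 34) (nat_lit 1) (nat_lit 37) (nat_lit 1) (nat_lit 410) (nat_lit 439) (nat_lit 291)) (XT.lf (nat_lit 228) (nat_lit 2433391327) (nat_lit 0) (nat_lit 754024673) (nat_lit 152) (nat_lit 754024673) (nat_lit 35) (nat_lit 1) (nat_lit 32) (nat_lit 1) (nat_lit 34) (nat_lit 1) (nat_lit 411) (nat_lit 439) (nat_lit 290))) (XT.nd (nat_lit 78) (nat_lit 380) (nat_lit 0) (XT.lf (nat_lit 76) (nat_lit 620171602) (nat_lit 0) (nat_lit 2673909238) (nat_lit 228) (nat_lit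 620171602) (nat_lit 33) (nat_lit 1) (nat_lit 32) (nat_lit 1) (nat_lit 35) (nat_lit 1) (nat_lit 412) (nat_lit 439) (nat_lit 289)) (XT.nd (nat_lit 78) (nat_lit 228) (nat_lit 0) (XT.lf (nat_lit 228) (nat_lit 53096675) (nat_lit 0) (nat_lit 1917077854) (nat_lit 152) (nat_lit 1917077854) (nat_lit 33) (nat_lit 1) (nat_lit 30) (nat_lit 1) (nat_lit 32) (nat_lit 1) (nat_lit 413) (nat_lit 439) (nat_lit 288)) (XT.lf (nat_lit 228) (nat_lit 2756573813) (nat_lit 0) (nat_lit 551955735) (nat_lit 152) (nat_lit 551955735) (nat_lit 30) (nat_lit 1) (nat_lit 27) (nat_lit 1) (nat_lit 29) (nat_lit 1) (nat_lit 414) (nat_lit 439) (nat_lit 287))))) (XT.nd (nat_lit 156) (nat_lit 1748) (nat_lit 0) (XT.nd (nat_lit 78) (nat_lit 0) (nat_lit 0) (XT.lf (nat_lit 988) (nat_lit 3959627453) (nat_lit 0) (nat_lit 3130141500) (nat_lit 912) (nat_lit 3130141500) (nat_lit 470) (nat_lit 1) (nat_lit 457) (nat_lit 1) (nat_lit 469) (nat_lit 1) (nat_lit 288) (nat_lit 440) (nat_lit 412))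 (XT.lf (nat_lit 76) (nat_lit 1499887908) (nat_lit 0) (nat_lit 7128761554) (nat_lit 988) (nat_lit 1499887908) (nat_lit 458) (nat_lit 1) (nat_lit 457) (nat_lit 1) (nat_lit 470) (nat_lit 1) (nat_lit 289) (nat_lit 440) (nat_lit 411))) (XT.nd (nat_lit 78) (nat_lit 836) (nat_lit 0) (XT.lf (nat_lit 988) (nat_lit 2011845055) (nat_lit 0) (nat_lit 4013095630) (nat_lit 912) (nat_lit 4013095630) (nat_lit 458) (nat_lit 1) (nat_lit 445) (nat_lit 1) (nat_lit 457) (nat_lit 1) (nat_lit 290) (nat_lit 440) (nat_lit 410)) (XT.nd (nat_lit 78) (nat_lit 836) (nat_lit 0) (XT.lf (nat_lit 76) (nat_lit 514981003) (nat_lit 0) (nat_lit 8919086539) (nat_lit 988) (nat_lit 514981003) (nat_lit 446) (nat_lit 1) (nat_lit 445) (nat_lit 1) (nat_lit 458) (nat_lit 1) (nat_lit 291) (nat_lit 440) (nat_lit 409)) (XT.lf (nat_lit 912) (nat_lit 8653367) (nat_lit 0) (nat_lit 4926000857) (nat_lit 836) (nat_lit 4926000857) (nat_lit 446) (nat_lit 1) (nat_lit 434) (nat_lit 1) (nat_lit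 445) (nat_lit 1) (nat_lit 292) (nat_lit 440) (nat_lit 408))))))))
noncomputable def ec222 : XT := (XT.nd (nat_lit 1404) (nat_lit 6612) (nat_lit 0) (XT.nd (nat_lit 702) (nat_lit 3648) (nat_lit 0) (XT.nd (nat_lit 312) (nat_lit 2432) (nat_lit 0) (XT.nd (nat_lit 156) (nat_lit 836) (nat_lit 0) (XT.nd (nat_lit 78) (nat_lit 0) (nat_lit 0) (XT.lf (nat_lit 988) (nat_lit 8787578941) (nat_lit 0) (nat_lit 493078042) (nat_lit 912) (nat_lit 493078042) (nat_lit 434) (nat_lit 1) (nat_lit 421) (nat_lit 1) (nat_lit 433) (nat_lit 1) (nat_lit 293) (nat_lit 440) (nat_lit 407)) (XT.lf (nat_lit 76) (nat_lit 3834487046) (nat_lit 0) (nat_lit 2018402996) (nat_lit 988) (nat_lit 3834487046) (nat_lit 422) (nat_lit 1) (nat_lit 421) (nat_lit 1) (nat_lit 434) (nat_lit 1) (nat_lit 294) (nat_lit 440) (nat_lit 406))) (XT.nd (nat_lit 78) (nat_lit 0) (nat_lit 0) (XT.lf (nat_lit 912) (nat_lit 6559023705) (nat_lit 0) (nat_lit 1521714183) (nat_lit 836) (nat_lit 1521714183)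 (nat_lit 422) (nat_lit 1) (nat_lit 410) (nat_lit 1) (nat_lit 421) (nat_lit 1) (nat_lit 295) (nat_lit 440) (nat_lit 405)) (XT.lf (nat_lit 76) (nat_lit 2713699904) (nat_lit 0) (nat_lit 4090940733) (nat_lit 912) (nat_lit 2713699904) (nat_lit 411) (nat_lit 1) (nat_lit 410) (nat_lit 1) (nat_lit 422) (nat_lit 1) (nat_lit 296) (nat_lit 440) (nat_lit 404)))) (XT.nd (nat_lit 156) (nat_lit 1596) (nat_lit 0) (XT.nd (nat_lit 78) (nat_lit 0) (nat_lit 0) (XT.lf (nat_lit 912) (nat_lit 4291050530) (nat_lit 0) (nat_lit 2572149999) (nat_lit 836) (nat_lit 2572149999) (nat_lit 411) (nat_lit 1) (nat_lit 399) (nat_lit 1) (nat_lit 410) (nat_lit 1) (nat_lit 297) (nat_lit 440) (nat_lit 403)) (XT.lf (nat_lit 76) (nat_lit 1574282529) (nat_lit 0) (nat_lit 6204865506) (nat_lit 912) (nat_lit 1574282529) (nat_lit 400) (nat_lit 1) (nat_lit 399) (nat_lit 1) (nat_lit 411) (nat_lit 1) (nat_lit 298) (nat_lit 440) (nat_lit 402))) (XT.nd (nat_lit 78) (nat_lit 836) (nat_lit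 0) (XT.lf (nat_lit 836) (nat_lit 1987659778) (nat_lit 0) (nat_lit 3642328337) (nat_lit 760) (nat_lit 3642328337) (nat_lit 400) (nat_lit 1) (nat_lit 389) (nat_lit 1) (nat_lit 399) (nat_lit 1) (nat_lit 299) (nat_lit 440) (nat_lit 401)) (XT.nd (nat_lit 78) (nat_lit 836) (nat_lit 0) (XT.lf (nat_lit 76) (nat_lit 418177018) (nat_lit 0) (nat_lit 8356180672) (nat_lit 836) (nat_lit 418177018) (nat_lit 390) (nat_lit 1) (nat_lit 389) (nat_lit 1) (nat_lit 400) (nat_lit 1) (nat_lit 300) (nat_lit 440) (nat_lit 400)) (XT.lf (nat_lit 76) (nat_lit 4385198950) (nat_lit 0) (nat_lit 342796370) (nat_lit 836) (nat_lit 4385198950) (nat_lit 379) (nat_lit 1) (nat_lit 378) (nat_lit 1) (nat_lit 389) (nat_lit 1) (nat_lit 301) (nat_lit 440) (nat_lit 399)))))) (XT.nd (nat_lit 312) (nat_lit 2128) (nat_lit 0) (XT.nd (nat_lit 156) (nat_lit 760) (nat_lit 0) (XT.nd (nat_lit 78) (nat_lit 0) (nat_lit 0) (XT.lf (nat_lit 836) (nat_lit 7539508884) (nat_lit 0) (nat_lit 747821380)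 (nat_lit 760) (nat_lit 747821380) (nat_lit 379) (nat_lit 1) (nat_lit 368) (nat_lit 1) (nat_lit 378) (nat_lit 1) (nat_lit 302) (nat_lit 440) (nat_lit 398)) (XT.lf (nat_lit 76) (nat_lit 3141412211) (nat_lit 0) (nat_lit 2674835812) (nat_lit 836) (nat_lit 3141412211) (nat_lit 369) (nat_lit 1) (nat_lit 368) (nat_lit 1) (nat_lit 379) (nat_lit 1) (nat_lit 303) (nat_lit 440) (nat_lit 397))) (XT.nd (nat_lit 78) (nat_lit 0) (nat_lit 0) (XT.lf (nat_lit 836) (nat_lit 5033183230) (nat_lit 0) (nat_lit 1924079992) (nat_lit 760) (nat_lit 1924079992) (nat_lit 369) (nat_lit 1) (nat_lit 358) (nat_lit 1) (nat_lit 368) (nat_lit 1) (nat_lit 304) (nat_lit 440) (nat_lit 396)) (XT.lf (nat_lit 76) (nat_lit 1887356233) (nat_lit 0) (nat_lit 5031156565) (nat_lit 836) (nat_lit 1887356233) (nat_lit 359) (nat_lit 1) (nat_lit 358) (nat_lit 1) (nat_lit 369) (nat_lit 1) (nat_lit 305) (nat_lit 440) (nat_lit 395)))) (XT.nd (nat_lit 156) (nat_lit 1444) (nat_lit 0) (XT.nd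 (nat_lit 78) (nat_lit 0) (nat_lit 0) (XT.lf (nat_lit 760) (nat_lit 2507817887) (nat_lit 0) (nat_lit 3111703917) (nat_lit 684) (nat_lit 3111703917) (nat_lit 359) (nat_lit 1) (nat_lit 349) (nat_lit 1) (nat_lit 358) (nat_lit 1) (nat_lit 306) (nat_lit 440) (nat_lit 394)) (XT.lf (nat_lit 76) (nat_lit 624578155) (nat_lit 0) (nat_lit 7408564044) (nat_lit 760) (nat_lit 624578155) (nat_lit 350) (nat_lit 1) (nat_lit 349) (nat_lit 1) (nat_lit 359) (nat_lit 1) (nat_lit 307) (nat_lit 440) (nat_lit 393))) (XT.nd (nat_lit 78) (nat_lit 684) (nat_lit 0) (XT.lf (nat_lit 76) (nat_lit 4275785132) (nat_lit 0) (nat_lit 33125951) (nat_lit 760) (nat_lit 4275785132) (nat_lit 340) (nat_lit 1) (nat_lit 339) (nat_lit 1) (nat_lit 349) (nat_lit 1) (nat_lit 308) (nat_lit 440) (nat_lit 392)) (XT.nd (nat_lit 78) (nat_lit 0) (nat_lit 0) (XT.lf (nat_lit 760) (nat_lit 7230358436) (nat_lit 0) (nat_lit 641211046) (nat_lit 684) (nat_lit 641211046) (nat_lit 340) (nat_lit 1)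 (nat_lit 330) (nat_lit 1) (nat_lit 339) (nat_lit 1) (nat_lit 309) (nat_lit 440) (nat_lit 391)) (XT.lf (nat_lit 76) (nat_lit 2943584777) (nat_lit 0) (nat_lit 2554166513) (nat_lit 760) (nat_lit 2943584777) (nat_lit 331) (nat_lit 1) (nat_lit 330) (nat_lit 1) (nat_lit 340) (nat_lit 1) (nat_lit 310) (nat_lit 440) (nat_lit 390))))))) (XT.nd (nat_lit 702) (nat_lit 3420) (nat_lit 0) (XT.nd (nat_lit 312) (nat_lit 1900) (nat_lit 0) (XT.nd (nat_lit 156) (nat_lit 608) (nat_lit 0) (XT.nd (nat_lit 78) (nat_lit 0) (nat_lit 0) (XT.lf (nat_lit 760) (nat_lit 4553513982) (nat_lit 0) (nat_lit 1908724505) (nat_lit 684) (nat_lit 1908724505) (nat_lit 331) (nat_lit 1) (nat_lit 321) (nat_lit 1) (nat_lit 330) (nat_lit 1) (nat_lit 311) (nat_lit 440) (nat_lit 389)) (XT.lf (nat_lit 76) (nat_lit 1607926399) (nat_lit 0) (nat_lit 5085525697) (nat_lit 760) (nat_lit 1607926399) (nat_lit 322) (nat_lit 1) (nat_lit 321) (nat_lit 1) (nat_lit 331) (nat_lit 1) (nat_lit 312)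 (nat_lit 440) (nat_lit 388))) (XT.nd (nat_lit 78) (nat_lit 0) (nat_lit 0) (XT.lf (nat_lit 684) (nat_lit 1870962858) (nat_lit 0) (nat_lit 3180769756) (nat_lit 608) (nat_lit 3180769756) (nat_lit 322) (nat_lit 1) (nat_lit 313) (nat_lit 1) (nat_lit 321) (nat_lit 1) (nat_lit 313) (nat_lit 440) (nat_lit 387)) (XT.lf (nat_lit 76) (nat_lit 270026413) (nat_lit 0) (nat_lit 7624680981) (nat_lit 684) (nat_lit 270026413) (nat_lit 314) (nat_lit 1) (nat_lit 313) (nat_lit 1) (nat_lit 322) (nat_lit 1) (nat_lit 314) (nat_lit 440) (nat_lit 386)))) (XT.nd (nat_lit 156) (nat_lit 608) (nat_lit 0) (XT.nd (nat_lit 78) (nat_lit 608) (nat_lit 0) (XT.lf (nat_lit 76) (nat_lit 3646484603) (nat_lit 0) (nat_lit 804235438) (nat_lit 684) (nat_lit 3646484603) (nat_lit 305) (nat_lit 1) (nat_lit 304) (nat_lit 1) (nat_lit 313) (nat_lit 1) (nat_lit 315) (nat_lit 440) (nat_lit 385)) (XT.lf (nat_lit 684) (nat_lit 5906888795) (nat_lit 0) (nat_lit 1061934537) (nat_lit 608) (nat_lit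 1061934537) (nat_lit 305) (nat_lit 1) (nat_lit 296) (nat_lit 1) (nat_lit 304) (nat_lit 1) (nat_lit 316) (nat_lit 440) (nat_lit 384))) (XT.nd (nat_lit 78) (nat_lit 608) (nat_lit 0) (XT.lf (nat_lit 76) (nat_lit 2254433981) (nat_lit 0) (nat_lit 3455978981) (nat_lit 684) (nat_lit 2254433981) (nat_lit 297) (nat_lit 1) (nat_lit 296) (nat_lit 1) (nat_lit 305) (nat_lit 1) (nat_lit 317) (nat_lit 440) (nat_lit 383)) (XT.nd (nat_lit 78) (nat_lit 0) (nat_lit 0) (XT.lf (nat_lit 684) (nat_lit 3115522599) (nat_lit 0) (nat_lit 2392129986) (nat_lit 608) (nat_lit 2392129986) (nat_lit 297) (nat_lit 1) (nat_lit 288) (nat_lit 1) (nat_lit 296) (nat_lit 1) (nat_lit 318) (nat_lit 440) (nat_lit 382)) (XT.lf (nat_lit 76) (nat_lit 864432567) (nat_lit 0) (nat_lit 6106724277) (nat_lit 684) (nat_lit 864432567) (nat_lit 289) (nat_lit 1) (nat_lit 288) (nat_lit 1) (nat_lit 297) (nat_lit 1) (nat_lit 319) (nat_lit 440) (nat_lit 381)))))) (XT.nd (nat_lit 390) (nat_lit 1672)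 (nat_lit 0) (XT.nd (nat_lit 156) (nat_lit 532) (nat_lit 0) (XT.nd (nat_lit 78) (nat_lit 684) (nat_lit 0) (XT.lf (nat_lit 608) (nat_lit 329221212) (nat_lit 0) (nat_lit 3721322983) (nat_lit 532) (nat_lit 3721322983) (nat_lit 289) (nat_lit 1) (nat_lit 281) (nat_lit 1) (nat_lit 288) (nat_lit 1) (nat_lit 320) (nat_lit 440) (nat_lit 380)) (XT.lf (nat_lit 684) (nat_lit 6670796369) (nat_lit 0) (nat_lit 519141468) (nat_lit 608) (nat_lit 519141468) (nat_lit 281) (nat_lit 1) (nat_lit 272) (nat_lit 1) (nat_lit 280) (nat_lit 1) (nat_lit 321) (nat_lit 440) (nat_lit 379))) (XT.nd (nat_lit 78) (nat_lit 532) (nat_lit 0) (XT.lf (nat_lit 76) (nat_lit 2614281524) (nat_lit 0) (nat_lit 2418051381) (nat_lit 684) (nat_lit 2614281524) (nat_lit 273) (nat_lit 1) (nat_lit 272) (nat_lit 1) (nat_lit 281) (nat_lit 1) (nat_lit 322) (nat_lit 440) (nat_lit 378)) (XT.nd (nat_lit 78) (nat_lit 0) (nat_lit 0) (XT.lf (nat_lit 608) (nat_lit 3798700581) (nat_lit 0) (nat_lit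 1893180925) (nat_lit 532) (nat_lit 1893180925) (nat_lit 273) (nat_lit 1) (nat_lit 265) (nat_lit 1) (nat_lit 272) (nat_lit 1) (nat_lit 323) (nat_lit 440) (nat_lit 377)) (XT.lf (nat_lit 76) (nat_lit 1185858837) (nat_lit 0) (nat_lit 5152506385) (nat_lit 608) (nat_lit 1185858837) (nat_lit 266) (nat_lit 1) (nat_lit 265) (nat_lit 1) (nat_lit 273) (nat_lit 1) (nat_lit 324) (nat_lit 440) (nat_lit 376))))) (XT.nd (nat_lit 156) (nat_lit 532) (nat_lit 0) (XT.nd (nat_lit 78) (nat_lit 608) (nat_lit 0) (XT.lf (nat_lit 608) (nat_lit 938816757) (nat_lit 0) (nat_lit 3262548586) (nat_lit 532) (nat_lit 3262548586) (nat_lit 266) (nat_lit 1) (nat_lit 258) (nat_lit 1) (nat_lit 265) (nat_lit 1) (nat_lit 325) (nat_lit 440) (nat_lit 375)) (XT.lf (nat_lit 608) (nat_lit 6935442617) (nat_lit 0) (nat_lit 234549389) (nat_lit 532) (nat_lit 234549389) (nat_lit 258) (nat_lit 1) (nat_lit 250) (nat_lit 1) (nat_lit 257) (nat_lit 1) (nat_lit 326) (nat_lit 440) (nat_lit 374)))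 (XT.nd (nat_lit 78) (nat_lit 532) (nat_lit 0) (XT.lf (nat_lit 76) (nat_lit 2731473312) (nat_lit 0) (nat_lit 1882366298) (nat_lit 608) (nat_lit 2731473312) (nat_lit 251) (nat_lit 1) (nat_lit 250) (nat_lit 1) (nat_lit 258) (nat_lit 1) (nat_lit 327) (nat_lit 440) (nat_lit 373)) (XT.nd (nat_lit 78) (nat_lit 0) (nat_lit 0) (XT.lf (nat_lit 608) (nat_lit 4006939113) (nat_lit 0) (nat_lit 1640031927) (nat_lit 532) (nat_lit 1640031927) (nat_lit 251) (nat_lit 1) (nat_lit 243) (nat_lit 1) (nat_lit 250) (nat_lit 1) (nat_lit 328) (nat_lit 440) (nat_lit 372)) (XT.lf (nat_lit 76) (nat_lit 1276472374) (nat_lit 0) (nat_lit 4676371283) (nat_lit 608) (nat_lit 1276472374) (nat_lit 244) (nat_lit 1) (nat_lit 243) (nat_lit 1) (nat_lit 251) (nat_lit 1) (nat_lit 329) (nat_lit 440) (nat_lit 371))))))))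
noncomputable def ec223 : XT := (XT.nd (nat_lit 1404) (nat_lit 4180) (nat_lit 0) (XT.nd (nat_lit 702) (nat_lit 2128) (nat_lit 0) (XT.nd (nat_lit 312) (nat_lit 1444) (nat_lit 0) (XT.nd (nat_lit 156) (nat_lit 456) (nat_lit 0) (XT.nd (nat_lit 78) (nat_lit 608) (nat_lit 0) (XT.lf (nat_lit 532) (nat_lit 1096694476) (nat_lit 0) (nat_lit 3037731244) (nat_lit 456) (nat_lit 3037731244) (nat_lit 244) (nat_lit 1) (nat_lit 237) (nat_lit 1) (nat_lit 243) (nat_lit 1) (nat_lit 330) (nat_lit 440) (nat_lit 370)) (XT.lf (nat_lit 608) (nat_lit 6779848790) (nat_lit 0) (nat_lit 168019660) (nat_lit 532) (nat_lit 168019660) (nat_lit 237) (nat_lit 1) (nat_lit 229) (nat_lit 1) (nat_lit 236) (nat_lit 1) (nat_lit 331) (nat_lit 440) (nat_lit 369))) (XT.nd (nat_lit 78) (nat_lit 456) (nat_lit 0) (XT.lf (nat_lit 76) (nat_lit 2644552155) (nat_lit 0) (nat_lit 1770598253) (nat_lit 608) (nat_lit 2644552155) (nat_lit 230) (nat_lit 1) (nat_lit 229) (nat_lit 1) (nat_lit 237)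 (nat_lit 1) (nat_lit 332) (nat_lit 440) (nat_lit 368)) (XT.lf (nat_lit 532) (nat_lit 3815941442) (nat_lit 0) (nat_lit 1594224423) (nat_lit 456) (nat_lit 1594224423) (nat_lit 230) (nat_lit 1) (nat_lit 223) (nat_lit 1) (nat_lit 229) (nat_lit 1) (nat_lit 333) (nat_lit 440) (nat_lit 367)))) (XT.nd (nat_lit 156) (nat_lit 988) (nat_lit 0) (XT.nd (nat_lit 78) (nat_lit 456) (nat_lit 0) (XT.lf (nat_lit 76) (nat_lit 1173196492) (nat_lit 0) (nat_lit 4603274073) (nat_lit 532) (nat_lit 1173196492) (nat_lit 224) (nat_lit 1) (nat_lit 223) (nat_lit 1) (nat_lit 230) (nat_lit 1) (nat_lit 334) (nat_lit 440) (nat_lit 366)) (XT.lf (nat_lit 532) (nat_lit 875374505) (nat_lit 0) (nat_lit 3010024253) (nat_lit 456) (nat_lit 3010024253) (nat_lit 224) (nat_lit 1) (nat_lit 217) (nat_lit 1) (nat_lit 223) (nat_lit 1) (nat_lit 335) (nat_lit 440) (nat_lit 365))) (XT.nd (nat_lit 78) (nat_lit 456) (nat_lit 0) (XT.lf (nat_lit 532) (nat_lit 6273149132) (nat_lit 0) (nat_lit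 284415283) (nat_lit 456) (nat_lit 284415283) (nat_lit 217) (nat_lit 1) (nat_lit 210) (nat_lit 1) (nat_lit 216) (nat_lit 1) (nat_lit 336) (nat_lit 440) (nat_lit 364)) (XT.nd (nat_lit 78) (nat_lit 456) (nat_lit 0) (XT.lf (nat_lit 76) (nat_lit 2387233254) (nat_lit 0) (nat_lit 2014191755) (nat_lit 532) (nat_lit 2387233254) (nat_lit 211) (nat_lit 1) (nat_lit 210) (nat_lit 1) (nat_lit 217) (nat_lit 1) (nat_lit 337) (nat_lit 440) (nat_lit 363)) (XT.lf (nat_lit 532) (nat_lit 3291918556) (nat_lit 0) (nat_lit 1722101980) (nat_lit 456) (nat_lit 1722101980) (nat_lit 211) (nat_lit 1) (nat_lit 204) (nat_lit 1) (nat_lit 210) (nat_lit 1) (nat_lit 338) (nat_lit 440) (nat_lit 362)))))) (XT.nd (nat_lit 312) (nat_lit 1216) (nat_lit 0) (XT.nd (nat_lit 156) (nat_lit 532) (nat_lit 0) (XT.nd (nat_lit 78) (nat_lit 380) (nat_lit 0) (XT.lf (nat_lit 76) (nat_lit 908319693) (nat_lit 0) (nat_lit 4867550031) (nat_lit 532) (nat_lit 908319693) (nat_lit 205) (nat_lit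 1) (nat_lit 204) (nat_lit 1) (nat_lit 211) (nat_lit 1) (nat_lit 339) (nat_lit 440) (nat_lit 361)) (XT.lf (nat_lit 456) (nat_lit 338263905) (nat_lit 0) (nat_lit 3147191400) (nat_lit 380) (nat_lit 3147191400) (nat_lit 205) (nat_lit 1) (nat_lit 199) (nat_lit 1) (nat_lit 204) (nat_lit 1) (nat_lit 340) (nat_lit 440) (nat_lit 360))) (XT.nd (nat_lit 78) (nat_lit 0) (nat_lit 0) (XT.lf (nat_lit 532) (nat_lit 5475741376) (nat_lit 0) (nat_lit 553019608) (nat_lit 456) (nat_lit 553019608) (nat_lit 199) (nat_lit 1) (nat_lit 192) (nat_lit 1) (nat_lit 198) (nat_lit 1) (nat_lit 341) (nat_lit 440) (nat_lit 359)) (XT.lf (nat_lit 76) (nat_lit 1988966168) (nat_lit 0) (nat_lit 2553225411) (nat_lit 532) (nat_lit 1988966168) (nat_lit 193) (nat_lit 1) (nat_lit 192) (nat_lit 1) (nat_lit 199) (nat_lit 1) (nat_lit 342) (nat_lit 440) (nat_lit 358)))) (XT.nd (nat_lit 156) (nat_lit 836) (nat_lit 0) (XT.nd (nat_lit 78) (nat_lit 0) (nat_lit 0) (XT.lf (nat_lit 456) (nat_lit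 2492694565) (nat_lit 0) (nat_lit 1994251789) (nat_lit 380) (nat_lit 1994251789) (nat_lit 193) (nat_lit 1) (nat_lit 187) (nat_lit 1) (nat_lit 192) (nat_lit 1) (nat_lit 343) (nat_lit 440) (nat_lit 357)) (XT.lf (nat_lit 76) (nat_lit 510035596) (nat_lit 0) (nat_lit 5411823263) (nat_lit 456) (nat_lit 510035596) (nat_lit 188) (nat_lit 1) (nat_lit 187) (nat_lit 1) (nat_lit 193) (nat_lit 1) (nat_lit 344) (nat_lit 440) (nat_lit 356))) (XT.nd (nat_lit 78) (nat_lit 380) (nat_lit 0) (XT.lf (nat_lit 76) (nat_lit 2964770996) (nat_lit 0) (nat_lit 453257755) (nat_lit 456) (nat_lit 2964770996) (nat_lit 182) (nat_lit 1) (nat_lit 181) (nat_lit 1) (nat_lit 187) (nat_lit 1) (nat_lit 345) (nat_lit 440) (nat_lit 355)) (XT.nd (nat_lit 78) (nat_lit 0) (nat_lit 0) (XT.lf (nat_lit 456) (nat_lit 4440306632) (nat_lit 0) (nat_lit 947020991) (nat_lit 380) (nat_lit 947020991) (nat_lit 182) (nat_lit 1) (nat_lit 176) (nat_lit 1) (nat_lit 181) (nat_lit 1) (nat_lit 346)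 (nat_lit 440) (nat_lit 354)) (XT.lf (nat_lit 76) (nat_lit 1475432980) (nat_lit 0) (nat_lit 3335404955) (nat_lit 456) (nat_lit 1475432980) (nat_lit 177) (nat_lit 1) (nat_lit 176) (nat_lit 1) (nat_lit 182) (nat_lit 1) (nat_lit 347) (nat_lit 440) (nat_lit 353))))))) (XT.nd (nat_lit 702) (nat_lit 1976) (nat_lit 0) (XT.nd (nat_lit 312) (nat_lit 1064) (nat_lit 0) (XT.nd (nat_lit 156) (nat_lit 760) (nat_lit 0) (XT.nd (nat_lit 78) (nat_lit 0) (nat_lit 0) (XT.lf (nat_lit 456) (nat_lit 1468686556) (nat_lit 0) (nat_lit 2385009549) (nat_lit 380) (nat_lit 2385009549) (nat_lit 177) (nat_lit 1) (nat_lit 171) (nat_lit 1) (nat_lit 176) (nat_lit 1) (nat_lit 348) (nat_lit 440) (nat_lit 352)) (XT.lf (nat_lit 76) (nat_lit 2921545) (nat_lit 0) (nat_lit 6186039239) (nat_lit 456) (nat_lit 2921545) (nat_lit 172) (nat_lit 1) (nat_lit 171) (nat_lit 1) (nat_lit 177) (nat_lit 1) (nat_lit 349) (nat_lit 440) (nat_lit 351))) (XT.nd (nat_lit 78) (nat_lit 380) (nat_lit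 0) (XT.lf (nat_lit 76) (nat_lit 2347619979) (nat_lit 0) (nat_lit 1449748402) (nat_lit 380) (nat_lit 2347619979) (nat_lit 167) (nat_lit 1) (nat_lit 166) (nat_lit 1) (nat_lit 171) (nat_lit 1) (nat_lit 350) (nat_lit 440) (nat_lit 350)) (XT.lf (nat_lit 456) (nat_lit 3212713372) (nat_lit 0) (nat_lit 1443056000) (nat_lit 380) (nat_lit 1443056000) (nat_lit 167) (nat_lit 1) (nat_lit 161) (nat_lit 1) (nat_lit 166) (nat_lit 1) (nat_lit 351) (nat_lit 440) (nat_lit 349)))) (XT.nd (nat_lit 156) (nat_lit 760) (nat_lit 0) (XT.nd (nat_lit 78) (nat_lit 304) (nat_lit 0) (XT.lf (nat_lit 76) (nat_lit 868989843) (nat_lit 0) (nat_lit 4315170674) (nat_lit 456) (nat_lit 868989843) (nat_lit 162) (nat_lit 1) (nat_lit 161) (nat_lit 1) (nat_lit 167) (nat_lit 1) (nat_lit 352) (nat_lit 440) (nat_lit 348)) (XT.lf (nat_lit 380) (nat_lit 263773068) (nat_lit 0) (nat_lit 2872020608) (nat_lit 304) (nat_lit 2872020608) (nat_lit 162) (nat_lit 1) (nat_lit 157) (nat_lit 1)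 (nat_lit 161) (nat_lit 1) (nat_lit 353) (nat_lit 440) (nat_lit 347))) (XT.nd (nat_lit 78) (nat_lit 304) (nat_lit 0) (XT.lf (nat_lit 456) (nat_lit 4787534883) (nat_lit 0) (nat_lit 587744840) (nat_lit 380) (nat_lit 587744840) (nat_lit 157) (nat_lit 1) (nat_lit 151) (nat_lit 1) (nat_lit 156) (nat_lit 1) (nat_lit 354) (nat_lit 440) (nat_lit 346)) (XT.nd (nat_lit 78) (nat_lit 304) (nat_lit 0) (XT.lf (nat_lit 76) (nat_lit 1652116985) (nat_lit 0) (nat_lit 2614223843) (nat_lit 456) (nat_lit 1652116985) (nat_lit 152) (nat_lit 1) (nat_lit 151) (nat_lit 1) (nat_lit 157) (nat_lit 1) (nat_lit 355) (nat_lit 440) (nat_lit 345)) (XT.lf (nat_lit 380) (nat_lit 1832818550) (nat_lit 0) (nat_lit 2020804571) (nat_lit 304) (nat_lit 2020804571) (nat_lit 152) (nat_lit 1) (nat_lit 147) (nat_lit 1) (nat_lit 151) (nat_lit 1) (nat_lit 356) (nat_lit 440) (nat_lit 344)))))) (XT.nd (nat_lit 390) (nat_lit 988) (nat_lit 0) (XT.nd (nat_lit 156) (nat_lit 608) (nat_lit 0)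 (XT.nd (nat_lit 78) (nat_lit 380) (nat_lit 0) (XT.lf (nat_lit 76) (nat_lit 189058270) (nat_lit 0) (nat_lit 5452906367) (nat_lit 380) (nat_lit 189058270) (nat_lit 148) (nat_lit 1) (nat_lit 147) (nat_lit 1) (nat_lit 152) (nat_lit 1) (nat_lit 357) (nat_lit 440) (nat_lit 343)) (XT.lf (nat_lit 76) (nat_lit 2358952380) (nat_lit 0) (nat_lit 1069720264) (nat_lit 380) (nat_lit 2358952380) (nat_lit 143) (nat_lit 1) (nat_lit 142) (nat_lit 1) (nat_lit 147) (nat_lit 1) (nat_lit 358) (nat_lit 440) (nat_lit 342))) (XT.nd (nat_lit 78) (nat_lit 304) (nat_lit 0) (XT.lf (nat_lit 380) (nat_lit 3251214571) (nat_lit 0) (nat_lit 1246814460) (nat_lit 304) (nat_lit 1246814460) (nat_lit 143) (nat_lit 1) (nat_lit 138) (nat_lit 1) (nat_lit 142) (nat_lit 1) (nat_lit 359) (nat_lit 440) (nat_lit 341)) (XT.nd (nat_lit 78) (nat_lit 304) (nat_lit 0) (XT.lf (nat_lit 76) (nat_lit 895875895) (nat_lit 0) (nat_lit 3910726841) (nat_lit 380) (nat_lit 895875895) (nat_lit 139)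 (nat_lit 1) (nat_lit 138) (nat_lit 1) (nat_lit 143) (nat_lit 1) (nat_lit 360) (nat_lit 440) (nat_lit 340)) (XT.lf (nat_lit 380) (nat_lit 335177461) (nat_lit 0) (nat_lit 2662631257) (nat_lit 304) (nat_lit 2662631257) (nat_lit 139) (nat_lit 1) (nat_lit 134) (nat_lit 1) (nat_lit 138) (nat_lit 1) (nat_lit 361) (nat_lit 440) (nat_lit 339))))) (XT.nd (nat_lit 156) (nat_lit 608) (nat_lit 0) (XT.nd (nat_lit 78) (nat_lit 0) (nat_lit 0) (XT.lf (nat_lit 380) (nat_lit 4531044747) (nat_lit 0) (nat_lit 543925993) (nat_lit 304) (nat_lit 543925993) (nat_lit 134) (nat_lit 1) (nat_lit 129) (nat_lit 1) (nat_lit 133) (nat_lit 1) (nat_lit 362) (nat_lit 440) (nat_lit 338)) (XT.lf (nat_lit 76) (nat_lit 1534724649) (nat_lit 0) (nat_lit 2508087728) (nat_lit 380) (nat_lit 1534724649) (nat_lit 130) (nat_lit 1) (nat_lit 129) (nat_lit 1) (nat_lit 134) (nat_lit 1) (nat_lit 363) (nat_lit 440) (nat_lit 337))) (XT.nd (nat_lit 78) (nat_lit 304) (nat_lit 0) (XT.lf (nat_lit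 380) (nat_lit 1620012006) (nat_lit 0) (nat_lit 1958326372) (nat_lit 304) (nat_lit 1958326372) (nat_lit 130) (nat_lit 1) (nat_lit 125) (nat_lit 1) (nat_lit 129) (nat_lit 1) (nat_lit 364) (nat_lit 440) (nat_lit 336)) (XT.nd (nat_lit 78) (nat_lit 304) (nat_lit 0) (XT.lf (nat_lit 76) (nat_lit 94133248) (nat_lit 0) (nat_lit 5308117033) (nat_lit 380) (nat_lit 94133248) (nat_lit 126) (nat_lit 1) (nat_lit 125) (nat_lit 1) (nat_lit 130) (nat_lit 1) (nat_lit 365) (nat_lit 440) (nat_lit 335)) (XT.lf (nat_lit 76) (nat_lit 2111057956) (nat_lit 0) (nat_lit 1233929124) (nat_lit 304) (nat_lit 2111057956) (nat_lit 122) (nat_lit 1) (nat_lit 121) (nat_lit 1) (nat_lit 125) (nat_lit 1) (nat_lit 366) (nat_lit 440) (nat_lit 334))))))))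
noncomputable def ec224 : XT := (XT.nd (nat_lit 1404) (nat_lit 2508) (nat_lit 0) (XT.nd (nat_lit 702) (nat_lit 1596) (nat_lit 0) (XT.nd (nat_lit 312) (nat_lit 836) (nat_lit 0) (XT.nd (nat_lit 156) (nat_lit 608) (nat_lit 0) (XT.nd (nat_lit 78) (nat_lit 0) (nat_lit 0) (XT.lf (nat_lit 380) (nat_lit 2781307194) (nat_lit 0) (nat_lit 1317491513) (nat_lit 304) (nat_lit 1317491513) (nat_lit 122) (nat_lit 1) (nat_lit 117) (nat_lit 1) (nat_lit 121) (nat_lit 1) (nat_lit 367) (nat_lit 440) (nat_lit 333)) (XT.lf (nat_lit 76) (nat_lit 675165187) (nat_lit 0) (nat_lit 4026623376) (nat_lit 380) (nat_lit 675165187) (nat_lit 118) (nat_lit 1) (nat_lit 117) (nat_lit 1) (nat_lit 122) (nat_lit 1) (nat_lit 368) (nat_lit 440) (nat_lit 332))) (XT.nd (nat_lit 78) (nat_lit 304) (nat_lit 0) (XT.lf (nat_lit 76) (nat_lit 2629908500) (nat_lit 0) (nat_lit 78041883) (nat_lit 304) (nat_lit 2629908500) (nat_lit 114) (nat_lit 1) (nat_lit 113) (nat_lit 1) (nat_lit 117) (nat_lit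 1) (nat_lit 369) (nat_lit 440) (nat_lit 331)) (XT.lf (nat_lit 380) (nat_lit 3828974902) (nat_lit 0) (nat_lit 735100324) (nat_lit 304) (nat_lit 735100324) (nat_lit 114) (nat_lit 1) (nat_lit 109) (nat_lit 1) (nat_lit 113) (nat_lit 1) (nat_lit 370) (nat_lit 440) (nat_lit 330)))) (XT.nd (nat_lit 156) (nat_lit 608) (nat_lit 0) (XT.nd (nat_lit 78) (nat_lit 228) (nat_lit 0) (XT.lf (nat_lit 76) (nat_lit 1200415540) (nat_lit 0) (nat_lit 2859922426) (nat_lit 380) (nat_lit 1200415540) (nat_lit 110) (nat_lit 1) (nat_lit 109) (nat_lit 1) (nat_lit 114) (nat_lit 1) (nat_lit 371) (nat_lit 440) (nat_lit 329)) (XT.lf (nat_lit 304) (nat_lit 981874801) (nat_lit 0) (nat_lit 2120420555) (nat_lit 228) (nat_lit 2120420555) (nat_lit 110) (nat_lit 1) (nat_lit 106) (nat_lit 1) (nat_lit 109) (nat_lit 1) (nat_lit 372) (nat_lit 440) (nat_lit 328))) (XT.nd (nat_lit 78) (nat_lit 228) (nat_lit 0) (XT.lf (nat_lit 380) (nat_lit 4772162295) (nat_lit 0) (nat_lit 206513008)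 (nat_lit 304) (nat_lit 206513008) (nat_lit 106) (nat_lit 1) (nat_lit 101) (nat_lit 1) (nat_lit 105) (nat_lit 1) (nat_lit 373) (nat_lit 440) (nat_lit 327)) (XT.nd (nat_lit 78) (nat_lit 228) (nat_lit 0) (XT.lf (nat_lit 76) (nat_lit 1674358475) (nat_lit 0) (nat_lit 1798934916) (nat_lit 380) (nat_lit 1674358475) (nat_lit 102) (nat_lit 1) (nat_lit 101) (nat_lit 1) (nat_lit 106) (nat_lit 1) (nat_lit 374) (nat_lit 440) (nat_lit 326)) (XT.lf (nat_lit 304) (nat_lit 1941347202) (nat_lit 0) (nat_lit 1584636084) (nat_lit 228) (nat_lit 1584636084) (nat_lit 102) (nat_lit 1) (nat_lit 98) (nat_lit 1) (nat_lit 101) (nat_lit 1) (nat_lit 375) (nat_lit 440) (nat_lit 325)))))) (XT.nd (nat_lit 312) (nat_lit 1064) (nat_lit 0) (XT.nd (nat_lit 156) (nat_lit 228) (nat_lit 0) (XT.nd (nat_lit 78) (nat_lit 304) (nat_lit 0) (XT.lf (nat_lit 76) (nat_lit 274358167) (nat_lit 0) (nat_lit 4525344578) (nat_lit 304) (nat_lit 274358167) (nat_lit 99) (nat_lit 1) (nat_lit 98)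 (nat_lit 1) (nat_lit 102) (nat_lit 1) (nat_lit 376) (nat_lit 440) (nat_lit 324)) (XT.lf (nat_lit 76) (nat_lit 2101122997) (nat_lit 0) (nat_lit 835279622) (nat_lit 304) (nat_lit 2101122997) (nat_lit 95) (nat_lit 1) (nat_lit 94) (nat_lit 1) (nat_lit 98) (nat_lit 1) (nat_lit 377) (nat_lit 440) (nat_lit 323))) (XT.nd (nat_lit 78) (nat_lit 0) (nat_lit 0) (XT.lf (nat_lit 304) (nat_lit 2807472046) (nat_lit 0) (nat_lit 1096993361) (nat_lit 228) (nat_lit 1096993361) (nat_lit 95) (nat_lit 1) (nat_lit 91) (nat_lit 1) (nat_lit 94) (nat_lit 1) (nat_lit 378) (nat_lit 440) (nat_lit 322)) (XT.lf (nat_lit 76) (nat_lit 710727038) (nat_lit 0) (nat_lit 3544280477) (nat_lit 304) (nat_lit 710727038) (nat_lit 92) (nat_lit 1) (nat_lit 91) (nat_lit 1) (nat_lit 95) (nat_lit 1) (nat_lit 379) (nat_lit 440) (nat_lit 321)))) (XT.nd (nat_lit 156) (nat_lit 532) (nat_lit 0) (XT.nd (nat_lit 78) (nat_lit 304) (nat_lit 0) (XT.lf (nat_lit 304) (nat_lit 39295294) (nat_lit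 0) (nat_lit 2445479155) (nat_lit 228) (nat_lit 2445479155) (nat_lit 92) (nat_lit 1) (nat_lit 88) (nat_lit 1) (nat_lit 91) (nat_lit 1) (nat_lit 380) (nat_lit 440) (nat_lit 320)) (XT.lf (nat_lit 304) (nat_lit 3587755808) (nat_lit 0) (nat_lit 653682262) (nat_lit 228) (nat_lit 653682262) (nat_lit 88) (nat_lit 1) (nat_lit 84) (nat_lit 1) (nat_lit 87) (nat_lit 1) (nat_lit 381) (nat_lit 440) (nat_lit 319))) (XT.nd (nat_lit 78) (nat_lit 532) (nat_lit 0) (XT.lf (nat_lit 76) (nat_lit 1104898492) (nat_lit 0) (nat_lit 2650408080) (nat_lit 304) (nat_lit 1104898492) (nat_lit 85) (nat_lit 1) (nat_lit 84) (nat_lit 1) (nat_lit 88) (nat_lit 1) (nat_lit 382) (nat_lit 440) (nat_lit 318)) (XT.nd (nat_lit 78) (nat_lit 304) (nat_lit 0) (XT.lf (nat_lit 304) (nat_lit 841420064) (nat_lit 0) (nat_lit 1992106221) (nat_lit 228) (nat_lit 1992106221) (nat_lit 85) (nat_lit 1) (nat_lit 81) (nat_lit 1) (nat_lit 84) (nat_lit 1) (nat_lit 383) (nat_lit 440) (nat_lit 317))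 (XT.lf (nat_lit 304) (nat_lit 4289125519) (nat_lit 0) (nat_lit 251185645) (nat_lit 228) (nat_lit 251185645) (nat_lit 81) (nat_lit 1) (nat_lit 77) (nat_lit 1) (nat_lit 80) (nat_lit 1) (nat_lit 384) (nat_lit 440) (nat_lit 316))))))) (XT.nd (nat_lit 702) (nat_lit 1368) (nat_lit 0) (XT.nd (nat_lit 312) (nat_lit 684) (nat_lit 0) (XT.nd (nat_lit 156) (nat_lit 228) (nat_lit 0) (XT.nd (nat_lit 78) (nat_lit 228) (nat_lit 0) (XT.lf (nat_lit 76) (nat_lit 1460261857) (nat_lit 0) (nat_lit 1836842648) (nat_lit 304) (nat_lit 1460261857) (nat_lit 78) (nat_lit 1) (nat_lit 77) (nat_lit 1) (nat_lit 81) (nat_lit 1) (nat_lit 385) (nat_lit 440) (nat_lit 315)) (XT.lf (nat_lit 304) (nat_lit 1566672750) (nat_lit 0) (nat_lit 1578497720) (nat_lit 228) (nat_lit 1578497720) (nat_lit 78) (nat_lit 1) (nat_lit 74) (nat_lit 1) (nat_lit 77) (nat_lit 1) (nat_lit 386) (nat_lit 440) (nat_lit 314))) (XT.nd (nat_lit 78) (nat_lit 228) (nat_lit 0) (XT.lf (nat_lit 76) (nat_lit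 114496283) (nat_lit 0) (nat_lit 4461434764) (nat_lit 304) (nat_lit 114496283) (nat_lit 75) (nat_lit 1) (nat_lit 74) (nat_lit 1) (nat_lit 78) (nat_lit 1) (nat_lit 387) (nat_lit 440) (nat_lit 313)) (XT.lf (nat_lit 76) (nat_lit 1779944904) (nat_lit 0) (nat_lit 1097228549) (nat_lit 228) (nat_lit 1779944904) (nat_lit 72) (nat_lit 1) (nat_lit 71) (nat_lit 1) (nat_lit 74) (nat_lit 1) (nat_lit 388) (nat_lit 440) (nat_lit 312)))) (XT.nd (nat_lit 156) (nat_lit 456) (nat_lit 0) (XT.nd (nat_lit 78) (nat_lit 0) (nat_lit 0) (XT.lf (nat_lit 304) (nat_lit 2221217055) (nat_lit 0) (nat_lit 1201522703) (nat_lit 228) (nat_lit 1201522703) (nat_lit 72) (nat_lit 1) (nat_lit 68) (nat_lit 1) (nat_lit 71) (nat_lit 1) (nat_lit 389) (nat_lit 440) (nat_lit 311)) (XT.lf (nat_lit 76) (nat_lit 447041369) (nat_lit 0) (nat_lit 3697679626) (nat_lit 304) (nat_lit 447041369) (nat_lit 69) (nat_lit 1) (nat_lit 68) (nat_lit 1) (nat_lit 72) (nat_lit 1) (nat_lit 390) (nat_lit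 440) (nat_lit 310))) (XT.nd (nat_lit 78) (nat_lit 228) (nat_lit 0) (XT.lf (nat_lit 76) (nat_lit 2066833827) (nat_lit 0) (nat_lit 425698860) (nat_lit 228) (nat_lit 2066833827) (nat_lit 66) (nat_lit 1) (nat_lit 65) (nat_lit 1) (nat_lit 68) (nat_lit 1) (nat_lit 391) (nat_lit 440) (nat_lit 309)) (XT.nd (nat_lit 78) (nat_lit 0) (nat_lit 0) (XT.lf (nat_lit 304) (nat_lit 2810741217) (nat_lit 0) (nat_lit 858290669) (nat_lit 228) (nat_lit 858290669) (nat_lit 66) (nat_lit 1) (nat_lit 62) (nat_lit 1) (nat_lit 65) (nat_lit 1) (nat_lit 392) (nat_lit 440) (nat_lit 308)) (XT.lf (nat_lit 76) (nat_lit 747570166) (nat_lit 0) (nat_lit 3000401590) (nat_lit 304) (nat_lit 747570166) (nat_lit 63) (nat_lit 1) (nat_lit 62) (nat_lit 1) (nat_lit 66) (nat_lit 1) (nat_lit 393) (nat_lit 440) (nat_lit 307)))))) (XT.nd (nat_lit 312) (nat_lit 760) (nat_lit 0) (XT.nd (nat_lit 156) (nat_lit 152) (nat_lit 0) (XT.nd (nat_lit 78) (nat_lit 304) (nat_lit 0) (XT.lf (nat_lit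 228) (nat_lit 185596059) (nat_lit 0) (nat_lit 2139200666) (nat_lit 152) (nat_lit 2139200666) (nat_lit 63) (nat_lit 1) (nat_lit 60) (nat_lit 1) (nat_lit 62) (nat_lit 1) (nat_lit 394) (nat_lit 440) (nat_lit 306)) (XT.lf (nat_lit 304) (nat_lit 3340494339) (nat_lit 0) (nat_lit 546133217) (nat_lit 228) (nat_lit 546133217) (nat_lit 60) (nat_lit 1) (nat_lit 56) (nat_lit 1) (nat_lit 59) (nat_lit 1) (nat_lit 395) (nat_lit 440) (nat_lit 305))) (XT.nd (nat_lit 78) (nat_lit 152) (nat_lit 0) (XT.lf (nat_lit 76) (nat_lit 1018652064) (nat_lit 0) (nat_lit 2364375110) (nat_lit 304) (nat_lit 1018652064) (nat_lit 57) (nat_lit 1) (nat_lit 56) (nat_lit 1) (nat_lit 60) (nat_lit 1) (nat_lit 396) (nat_lit 440) (nat_lit 304)) (XT.lf (nat_lit 228) (nat_lit 744111567) (nat_lit 0) (nat_lit 1813395287) (nat_lit 152) (nat_lit 1813395287) (nat_lit 57) (nat_lit 1) (nat_lit 54) (nat_lit 1) (nat_lit 56) (nat_lit 1) (nat_lit 397) (nat_lit 440) (nat_lit 303)))) (XT.nd (nat_lit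 156) (nat_lit 456) (nat_lit 0) (XT.nd (nat_lit 78) (nat_lit 0) (nat_lit 0) (XT.lf (nat_lit 304) (nat_lit 3815319947) (nat_lit 0) (nat_lit 262587096) (nat_lit 228) (nat_lit 262587096) (nat_lit 54) (nat_lit 1) (nat_lit 50) (nat_lit 1) (nat_lit 53) (nat_lit 1) (nat_lit 398) (nat_lit 440) (nat_lit 302)) (XT.lf (nat_lit 76) (nat_lit 1262658212) (nat_lit 0) (nat_lit 1784775783) (nat_lit 304) (nat_lit 1262658212) (nat_lit 51) (nat_lit 1) (nat_lit 50) (nat_lit 1) (nat_lit 54) (nat_lit 1) (nat_lit 399) (nat_lit 440) (nat_lit 301))) (XT.nd (nat_lit 78) (nat_lit 304) (nat_lit 0) (XT.lf (nat_lit 228) (nat_lit 1248865144) (nat_lit 0) (nat_lit 1515595507) (nat_lit 152) (nat_lit 1515595507) (nat_lit 51) (nat_lit 1) (nat_lit 48) (nat_lit 1) (nat_lit 50) (nat_lit 1) (nat_lit 400) (nat_lit 440) (nat_lit 300)) (XT.nd (nat_lit 78) (nat_lit 0) (nat_lit 0) (XT.lf (nat_lit 304) (nat_lit 4239686991) (nat_lit 0) (nat_lit 5378535) (nat_lit 228) (nat_lit 5378535)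 (nat_lit 48) (nat_lit 1) (nat_lit 44) (nat_lit 1) (nat_lit 47) (nat_lit 1) (nat_lit 401) (nat_lit 440) (nat_lit 299)) (XT.lf (nat_lit 76) (nat_lit 1481776664) (nat_lit 0) (nat_lit 1257149739) (nat_lit 304) (nat_lit 1481776664) (nat_lit 45) (nat_lit 1) (nat_lit 44) (nat_lit 1) (nat_lit 48) (nat_lit 1) (nat_lit 402) (nat_lit 440) (nat_lit 298))))))))
noncomputable def ec225 : XT := (XT.nd (nat_lit 51090) (nat_lit 0) (nat_lit 20444) (XT.nd (nat_lit 702) (nat_lit 228) (nat_lit 0) (XT.nd (nat_lit 312) (nat_lit 532) (nat_lit 0) (XT.nd (nat_lit 156) (nat_lit 380) (nat_lit 0) (XT.nd (nat_lit 78) (nat_lit 0) (nat_lit 0) (XT.lf (nat_lit 228) (nat_lit 1704171171) (nat_lit 0) (nat_lit 1243605943) (nat_lit 152) (nat_lit 1243605943) (nat_lit 45) (nat_lit 1) (nat_lit 42) (nat_lit 1) (nat_lit 44) (nat_lit 1) (nat_lit 403) (nat_lit 440) (nat_lit 297)) (XT.lf (nat_lit 76) (nat_lit 229098440) (nat_lit 0) (nat_lit 3704219779) (nat_lit 228) (nat_lit 229098440)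 (nat_lit 43) (nat_lit 1) (nat_lit 42) (nat_lit 1) (nat_lit 45) (nat_lit 1) (nat_lit 404) (nat_lit 440) (nat_lit 296))) (XT.nd (nat_lit 78) (nat_lit 152) (nat_lit 0) (XT.lf (nat_lit 76) (nat_lit 1678026367) (nat_lit 0) (nat_lit 777385366) (nat_lit 228) (nat_lit 1678026367) (nat_lit 40) (nat_lit 1) (nat_lit 39) (nat_lit 1) (nat_lit 42) (nat_lit 1) (nat_lit 405) (nat_lit 440) (nat_lit 295)) (XT.lf (nat_lit 228) (nat_lit 2114011153) (nat_lit 0) (nat_lit 995399629) (nat_lit 152) (nat_lit 995399629) (nat_lit 40) (nat_lit 1) (nat_lit 37) (nat_lit 1) (nat_lit 39) (nat_lit 1) (nat_lit 406) (nat_lit 440) (nat_lit 294)))) (XT.nd (nat_lit 156) (nat_lit 304) (nat_lit 0) (XT.nd (nat_lit 78) (nat_lit 228) (nat_lit 0) (XT.lf (nat_lit 76) (nat_lit 441161627) (nat_lit 0) (nat_lit 3194146286) (nat_lit 228) (nat_lit 441161627) (nat_lit 38) (nat_lit 1) (nat_lit 37) (nat_lit 1) (nat_lit 40) (nat_lit 1) (nat_lit 407) (nat_lit 440) (nat_lit 293)) (XT.lf (nat_lit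 76) (nat_lit 1853270096) (nat_lit 0) (nat_lit 341687179) (nat_lit 228) (nat_lit 1853270096) (nat_lit 35) (nat_lit 1) (nat_lit 34) (nat_lit 1) (nat_lit 37) (nat_lit 1) (nat_lit 408) (nat_lit 440) (nat_lit 292))) (XT.nd (nat_lit 78) (nat_lit 152) (nat_lit 0) (XT.lf (nat_lit 228) (nat_lit 2482059153) (nat_lit 0) (nat_lit 769105166) (nat_lit 152) (nat_lit 769105166) (nat_lit 35) (nat_lit 1) (nat_lit 32) (nat_lit 1) (nat_lit 34) (nat_lit 1) (nat_lit 409) (nat_lit 440) (nat_lit 291)) (XT.nd (nat_lit 78) (nat_lit 152) (nat_lit 0) (XT.lf (nat_lit 76) (nat_lit 632575034) (nat_lit 0) (nat_lit 2727387423) (nat_lit 228) (nat_lit 632575034) (nat_lit 33) (nat_lit 1) (nat_lit 32) (nat_lit 1) (nat_lit 35) (nat_lit 1) (nat_lit 410) (nat_lit 440) (nat_lit 290)) (XT.lf (nat_lit 228) (nat_lit 54158609) (nat_lit 0) (nat_lit 1955419411) (nat_lit 152) (nat_lit 1955419411) (nat_lit 33) (nat_lit 1) (nat_lit 30) (nat_lit 1) (nat_lit 32) (nat_lit 1) (nat_lit 411)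 (nat_lit 440) (nat_lit 289)))))) (XT.nd (nat_lit 49998) (nat_lit 0) (nat_lit 28272) (XT.nd (nat_lit 49842) (nat_lit 0) (nat_lit 29944) (XT.nd (nat_lit 49764) (nat_lit 0) (nat_lit 31768) (XT.lf (nat_lit 228) (nat_lit 2811705289) (nat_lit 0) (nat_lit 562994850) (nat_lit 152) (nat_lit 562994850) (nat_lit 30) (nat_lit 1) (nat_lit 27) (nat_lit 1) (nat_lit 29) (nat_lit 1) (nat_lit 412) (nat_lit 440) (nat_lit 288)) (XT.lf (nat_lit 76) (nat_lit 525280623) (nat_lit 0) (nat_lit 9097468270) (nat_lit 988) (nat_lit 525280623) (nat_lit 446) (nat_lit 1) (nat_lit 445) (nat_lit 1) (nat_lit 458) (nat_lit 1) (nat_lit 289) (nat_lit 441) (nat_lit 410))) (XT.nd (nat_lit 78) (nat_lit 988) (nat_lit 0) (XT.lf (nat_lit 912) (nat_lit 8826434) (nat_lit 0) (nat_lit 5024520874) (nat_lit 836) (nat_lit 5024520874) (nat_lit 446) (nat_lit 1) (nat_lit 434) (nat_lit 1) (nat_lit 445) (nat_lit 1) (nat_lit 290) (nat_lit 441) (nat_lit 409)) (XT.lf (nat_lit 988) (nat_lit 8963330520)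 (nat_lit 0) (nat_lit 502939603) (nat_lit 912) (nat_lit 502939603) (nat_lit 434) (nat_lit 1) (nat_lit 421) (nat_lit 1) (nat_lit 433) (nat_lit 1) (nat_lit 291) (nat_lit 441) (nat_lit 408)))) (XT.nd (nat_lit 156) (nat_lit 836) (nat_lit 0) (XT.nd (nat_lit 78) (nat_lit 836) (nat_lit 0) (XT.lf (nat_lit 76) (nat_lit 3911176787) (nat_lit 0) (nat_lit 2058771056) (nat_lit 988) (nat_lit 3911176787) (nat_lit 422) (nat_lit 1) (nat_lit 421) (nat_lit 1) (nat_lit 434) (nat_lit 1) (nat_lit 292) (nat_lit 441) (nat_lit 407)) (XT.lf (nat_lit 912) (nat_lit 6690204179) (nat_lit 0) (nat_lit 1552148467) (nat_lit 836) (nat_lit 1552148467) (nat_lit 422) (nat_lit 1) (nat_lit 410) (nat_lit 1) (nat_lit 421) (nat_lit 1) (nat_lit 293) (nat_lit 441) (nat_lit 406))) (XT.nd (nat_lit 78) (nat_lit 836) (nat_lit 0) (XT.lf (nat_lit 76) (nat_lit 2767973902) (nat_lit 0) (nat_lit 4172759548) (nat_lit 912) (nat_lit 2767973902) (nat_lit 411) (nat_lit 1) (nat_lit 410) (nat_lit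 1) (nat_lit 422) (nat_lit 1) (nat_lit 294) (nat_lit 441) (nat_lit 405)) (XT.nd (nat_lit 78) (nat_lit 0) (nat_lit 0) (XT.lf (nat_lit 912) (nat_lit 4376871541) (nat_lit 0) (nat_lit 2623592999) (nat_lit 836) (nat_lit 2623592999) (nat_lit 411) (nat_lit 1) (nat_lit 399) (nat_lit 1) (nat_lit 410) (nat_lit 1) (nat_lit 295) (nat_lit 441) (nat_lit 404)) (XT.lf (nat_lit 76) (nat_lit 1605768179) (nat_lit 0) (nat_lit 6328962816) (nat_lit 912) (nat_lit 1605768179) (nat_lit 400) (nat_lit 1) (nat_lit 399) (nat_lit 1) (nat_lit 411) (nat_lit 1) (nat_lit 296) (nat_lit 441) (nat_lit 403))))))) (XT.nd (nat_lit 702) (nat_lit 4028) (nat_lit 0) (XT.nd (nat_lit 312) (nat_lit 1444) (nat_lit 0) (XT.nd (nat_lit 156) (nat_lit 1596) (nat_lit 0) (XT.nd (nat_lit 78) (nat_lit 0) (nat_lit 0) (XT.lf (nat_lit 836) (nat_lit 2027412974) (nat_lit 0) (nat_lit 3715174904) (nat_lit 760) (nat_lit 3715174904) (nat_lit 400) (nat_lit 1) (nat_lit 389) (nat_lit 1) (nat_lit 399) (nat_lit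 1) (nat_lit 297) (nat_lit 441) (nat_lit 402)) (XT.lf (nat_lit 76) (nat_lit 426540559) (nat_lit 0) (nat_lit 8523304286) (nat_lit 836) (nat_lit 426540559) (nat_lit 390) (nat_lit 1) (nat_lit 389) (nat_lit 1) (nat_lit 400) (nat_lit 1) (nat_lit 298) (nat_lit 441) (nat_lit 401))) (XT.nd (nat_lit 78) (nat_lit 760) (nat_lit 0) (XT.lf (nat_lit 76) (nat_lit 4472902929) (nat_lit 0) (nat_lit 349652298) (nat_lit 836) (nat_lit 4472902929) (nat_lit 379) (nat_lit 1) (nat_lit 378) (nat_lit 1) (nat_lit 389) (nat_lit 1) (nat_lit 299) (nat_lit 441) (nat_lit 400)) (XT.lf (nat_lit 836) (nat_lit 7690299061) (nat_lit 0) (nat_lit 762777808) (nat_lit 760) (nat_lit 762777808) (nat_lit 379) (nat_lit 1) (nat_lit 368) (nat_lit 1) (nat_lit 378) (nat_lit 1) (nat_lit 300) (nat_lit 441) (nat_lit 399)))) (XT.nd (nat_lit 156) (nat_lit 684) (nat_lit 0) (XT.nd (nat_lit 78) (nat_lit 760) (nat_lit 0) (XT.lf (nat_lit 76) (nat_lit 3204240456) (nat_lit 0) (nat_lit 2728332529)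 (nat_lit 836) (nat_lit 3204240456) (nat_lit 369) (nat_lit 1) (nat_lit 368) (nat_lit 1) (nat_lit 379) (nat_lit 1) (nat_lit 301) (nat_lit 441) (nat_lit 398)) (XT.lf (nat_lit 836) (nat_lit 5133846895) (nat_lit 0) (nat_lit 1962561592) (nat_lit 760) (nat_lit 1962561592) (nat_lit 369) (nat_lit 1) (nat_lit 358) (nat_lit 1) (nat_lit 368) (nat_lit 1) (nat_lit 302) (nat_lit 441) (nat_lit 397))) (XT.nd (nat_lit 78) (nat_lit 684) (nat_lit 0) (XT.lf (nat_lit 76) (nat_lit 1925103358) (nat_lit 0) (nat_lit 5131779696) (nat_lit 836) (nat_lit 1925103358) (nat_lit 359) (nat_lit 1) (nat_lit 358) (nat_lit 1) (nat_lit 369) (nat_lit 1) (nat_lit 303) (nat_lit 441) (nat_lit 396)) (XT.nd (nat_lit 78) (nat_lit 0) (nat_lit 0) (XT.lf (nat_lit 760) (nat_lit 2557974244) (nat_lit 0) (nat_lit 3173937995) (nat_lit 684) (nat_lit 3173937995) (nat_lit 359) (nat_lit 1) (nat_lit 349) (nat_lit 1) (nat_lit 358) (nat_lit 1) (nat_lit 304) (nat_lit 441) (nat_lit 395)) (XT.lf (nat_lit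 76) (nat_lit 637069718) (nat_lit 0) (nat_lit 7556735325) (nat_lit 760) (nat_lit 637069718) (nat_lit 350) (nat_lit 1) (nat_lit 349) (nat_lit 1) (nat_lit 359) (nat_lit 1) (nat_lit 305) (nat_lit 441) (nat_lit 394)))))) (XT.nd (nat_lit 390) (nat_lit 1900) (nat_lit 0) (XT.nd (nat_lit 156) (nat_lit 684) (nat_lit 0) (XT.nd (nat_lit 78) (nat_lit 684) (nat_lit 0) (XT.lf (nat_lit 76) (nat_lit 4361300835) (nat_lit 0) (nat_lit 33788470) (nat_lit 760) (nat_lit 4361300835) (nat_lit 340) (nat_lit 1) (nat_lit 339) (nat_lit 1) (nat_lit 349) (nat_lit 1) (nat_lit 306) (nat_lit 441) (nat_lit 393)) (XT.lf (nat_lit 760) (nat_lit 7374965605) (nat_lit 0) (nat_lit 654035267) (nat_lit 684) (nat_lit 654035267) (nat_lit 340) (nat_lit 1) (nat_lit 330) (nat_lit 1) (nat_lit 339) (nat_lit 1) (nat_lit 307) (nat_lit 441) (nat_lit 392))) (XT.nd (nat_lit 78) (nat_lit 684) (nat_lit 0) (XT.lf (nat_lit 76) (nat_lit 3002456473) (nat_lit 0) (nat_lit 2605249843) (nat_lit 760)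 (nat_lit 3002456473) (nat_lit 331) (nat_lit 1) (nat_lit 330) (nat_lit 1) (nat_lit 340) (nat_lit 1) (nat_lit 308) (nat_lit 441) (nat_lit 391)) (XT.nd (nat_lit 78) (nat_lit 0) (nat_lit 0) (XT.lf (nat_lit 760) (nat_lit 4644584262) (nat_lit 0) (nat_lit 1946898995) (nat_lit 684) (nat_lit 1946898995) (nat_lit 331) (nat_lit 1) (nat_lit 321) (nat_lit 1) (nat_lit 330) (nat_lit 1) (nat_lit 309) (nat_lit 441) (nat_lit 390)) (XT.lf (nat_lit 76) (nat_lit 1640084927) (nat_lit 0) (nat_lit 5187236211) (nat_lit 760) (nat_lit 1640084927) (nat_lit 322) (nat_lit 1) (nat_lit 321) (nat_lit 1) (nat_lit 331) (nat_lit 1) (nat_lit 310) (nat_lit 441) (nat_lit 389))))) (XT.nd (nat_lit 156) (nat_lit 1292) (nat_lit 0) (XT.nd (nat_lit 78) (nat_lit 0) (nat_lit 0) (XT.lf (nat_lit 684) (nat_lit 1908382115) (nat_lit 0) (nat_lit 3244385151) (nat_lit 608) (nat_lit 3244385151) (nat_lit 322) (nat_lit 1) (nat_lit 313) (nat_lit 1) (nat_lit 321) (nat_lit 1) (nat_lit 311) (nat_lit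 441) (nat_lit 388)) (XT.lf (nat_lit 76) (nat_lit 275426941) (nat_lit 0) (nat_lit 7777174601) (nat_lit 684) (nat_lit 275426941) (nat_lit 314) (nat_lit 1) (nat_lit 313) (nat_lit 1) (nat_lit 322) (nat_lit 1) (nat_lit 312) (nat_lit 441) (nat_lit 387))) (XT.nd (nat_lit 78) (nat_lit 608) (nat_lit 0) (XT.lf (nat_lit 76) (nat_lit 3719414295) (nat_lit 0) (nat_lit 820320147) (nat_lit 684) (nat_lit 3719414295) (nat_lit 305) (nat_lit 1) (nat_lit 304) (nat_lit 1) (nat_lit 313) (nat_lit 1) (nat_lit 313) (nat_lit 441) (nat_lit 386)) (XT.nd (nat_lit 78) (nat_lit 0) (nat_lit 0) (XT.lf (nat_lit 684) (nat_lit 6025026571) (nat_lit 0) (nat_lit 1083173228) (nat_lit 608) (nat_lit 1083173228) (nat_lit 305) (nat_lit 1) (nat_lit 296) (nat_lit 1) (nat_lit 304) (nat_lit 1) (nat_lit 314) (nat_lit 441) (nat_lit 385)) (XT.lf (nat_lit 76) (nat_lit 2299522661) (nat_lit 0) (nat_lit 3525098561) (nat_lit 684) (nat_lit 2299522661) (nat_lit 297) (nat_lit 1) (nat_lit 296)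 (nat_lit 1) (nat_lit 305) (nat_lit 1) (nat_lit 315) (nat_lit 441) (nat_lit 384))))))))
noncomputable def ec226 : XT := (XT.nd (nat_lit 1404) (nat_lit 4560) (nat_lit 0) (XT.nd (nat_lit 702) (nat_lit 2508) (nat_lit 0) (XT.nd (nat_lit 312) (nat_lit 1672) (nat_lit 0) (XT.nd (nat_lit 156) (nat_lit 1216) (nat_lit 0) (XT.nd (nat_lit 78) (nat_lit 0) (nat_lit 0) (XT.lf (nat_lit 684) (nat_lit 3177833051) (nat_lit 0) (nat_lit 2439972586) (nat_lit 608) (nat_lit 2439972586) (nat_lit 297) (nat_lit 1) (nat_lit 288) (nat_lit 1) (nat_lit 296) (nat_lit 1) (nat_lit 316) (nat_lit 441) (nat_lit 383)) (XT.lf (nat_lit 76) (nat_lit 881721218) (nat_lit 0) (nat_lit 6228858763) (nat_lit 684) (nat_lit 881721218) (nat_lit 289) (nat_lit 1) (nat_lit 288) (nat_lit 1) (nat_lit 297) (nat_lit 1) (nat_lit 317) (nat_lit 441) (nat_lit 382))) (XT.nd (nat_lit 78) (nat_lit 684) (nat_lit 0) (XT.lf (nat_lit 608) (nat_lit 335805637) (nat_lit 0) (nat_lit 3795749442) (nat_lit 532)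 (nat_lit 3795749442) (nat_lit 289) (nat_lit 1) (nat_lit 281) (nat_lit 1) (nat_lit 288) (nat_lit 1) (nat_lit 318) (nat_lit 441) (nat_lit 381)) (XT.lf (nat_lit 684) (nat_lit 6804212296) (nat_lit 0) (nat_lit 529524297) (nat_lit 608) (nat_lit 529524297) (nat_lit 281) (nat_lit 1) (nat_lit 272) (nat_lit 1) (nat_lit 280) (nat_lit 1) (nat_lit 319) (nat_lit 441) (nat_lit 380)))) (XT.nd (nat_lit 156) (nat_lit 1140) (nat_lit 0) (XT.nd (nat_lit 78) (nat_lit 532) (nat_lit 0) (XT.lf (nat_lit 76) (nat_lit 2666567155) (nat_lit 0) (nat_lit 2466412409) (nat_lit 684) (nat_lit 2666567155) (nat_lit 273) (nat_lit 1) (nat_lit 272) (nat_lit 1) (nat_lit 281) (nat_lit 1) (nat_lit 320) (nat_lit 441) (nat_lit 379)) (XT.lf (nat_lit 608) (nat_lit 3874674593) (nat_lit 0) (nat_lit 1931044543) (nat_lit 532) (nat_lit 1931044543) (nat_lit 273) (nat_lit 1) (nat_lit 265) (nat_lit 1) (nat_lit 272) (nat_lit 1) (nat_lit 321) (nat_lit 441) (nat_lit 378))) (XT.nd (nat_lit 78)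 (nat_lit 1140) (nat_lit 0) (XT.lf (nat_lit 76) (nat_lit 1209576014) (nat_lit 0) (nat_lit 5255556513) (nat_lit 608) (nat_lit 1209576014) (nat_lit 266) (nat_lit 1) (nat_lit 265) (nat_lit 1) (nat_lit 273) (nat_lit 1) (nat_lit 322) (nat_lit 441) (nat_lit 377)) (XT.nd (nat_lit 78) (nat_lit 608) (nat_lit 0) (XT.lf (nat_lit 608) (nat_lit 957593092) (nat_lit 0) (nat_lit 3327799558) (nat_lit 532) (nat_lit 3327799558) (nat_lit 266) (nat_lit 1) (nat_lit 258) (nat_lit 1) (nat_lit 265) (nat_lit 1) (nat_lit 323) (nat_lit 441) (nat_lit 376)) (XT.lf (nat_lit 608) (nat_lit 7074151470) (nat_lit 0) (nat_lit 239240377) (nat_lit 532) (nat_lit 239240377) (nat_lit 258) (nat_lit 1) (nat_lit 250) (nat_lit 1) (nat_lit 257) (nat_lit 1) (nat_lit 324) (nat_lit 441) (nat_lit 375)))))) (XT.nd (nat_lit 312) (nat_lit 1520) (nat_lit 0) (XT.nd (nat_lit 156) (nat_lit 456) (nat_lit 0) (XT.nd (nat_lit 78) (nat_lit 532) (nat_lit 0) (XT.lf (nat_lit 76) (nat_lit 2786102778)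 (nat_lit 0) (nat_lit 1920013624) (nat_lit 608) (nat_lit 2786102778) (nat_lit 251) (nat_lit 1) (nat_lit 250) (nat_lit 1) (nat_lit 258) (nat_lit 1) (nat_lit 325) (nat_lit 441) (nat_lit 374)) (XT.lf (nat_lit 608) (nat_lit 4087077895) (nat_lit 0) (nat_lit 1672832566) (nat_lit 532) (nat_lit 1672832566) (nat_lit 251) (nat_lit 1) (nat_lit 243) (nat_lit 1) (nat_lit 250) (nat_lit 1) (nat_lit 326) (nat_lit 441) (nat_lit 373))) (XT.nd (nat_lit 78) (nat_lit 456) (nat_lit 0) (XT.lf (nat_lit 76) (nat_lit 1302001821) (nat_lit 0) (nat_lit 4769898709) (nat_lit 608) (nat_lit 1302001821) (nat_lit 244) (nat_lit 1) (nat_lit 243) (nat_lit 1) (nat_lit 251) (nat_lit 1) (nat_lit 327) (nat_lit 441) (nat_lit 372)) (XT.lf (nat_lit 532) (nat_lit 1118628365) (nat_lit 0) (nat_lit 3098485869) (nat_lit 456) (nat_lit 3098485869) (nat_lit 244) (nat_lit 1) (nat_lit 237) (nat_lit 1) (nat_lit 243) (nat_lit 1) (nat_lit 328) (nat_lit 441) (nat_lit 371)))) (XT.nd (nat_lit 156)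 (nat_lit 912) (nat_lit 0) (XT.nd (nat_lit 78) (nat_lit 0) (nat_lit 0) (XT.lf (nat_lit 608) (nat_lit 6915445766) (nat_lit 0) (nat_lit 171380053) (nat_lit 532) (nat_lit 171380053) (nat_lit 237) (nat_lit 1) (nat_lit 229) (nat_lit 1) (nat_lit 236) (nat_lit 1) (nat_lit 329) (nat_lit 441) (nat_lit 370)) (XT.lf (nat_lit 76) (nat_lit 2697443198) (nat_lit 0) (nat_lit 1806010218) (nat_lit 608) (nat_lit 2697443198) (nat_lit 230) (nat_lit 1) (nat_lit 229) (nat_lit 1) (nat_lit 237) (nat_lit 1) (nat_lit 330) (nat_lit 441) (nat_lit 369))) (XT.nd (nat_lit 78) (nat_lit 456) (nat_lit 0) (XT.lf (nat_lit 532) (nat_lit 3892260271) (nat_lit 0) (nat_lit 1626108912) (nat_lit 456) (nat_lit 1626108912) (nat_lit 230) (nat_lit 1) (nat_lit 223) (nat_lit 1) (nat_lit 229) (nat_lit 1) (nat_lit 331) (nat_lit 441) (nat_lit 368)) (XT.nd (nat_lit 78) (nat_lit 456) (nat_lit 0) (XT.lf (nat_lit 76) (nat_lit 1196660422) (nat_lit 0) (nat_lit 4695339554) (nat_lit 532) (nat_lit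 1196660422) (nat_lit 224) (nat_lit 1) (nat_lit 223) (nat_lit 1) (nat_lit 230) (nat_lit 1) (nat_lit 332) (nat_lit 441) (nat_lit 367)) (XT.lf (nat_lit 532) (nat_lit 892881995) (nat_lit 0) (nat_lit 3070224738) (nat_lit 456) (nat_lit 3070224738) (nat_lit 224) (nat_lit 1) (nat_lit 217) (nat_lit 1) (nat_lit 223) (nat_lit 1) (nat_lit 333) (nat_lit 441) (nat_lit 366))))))) (XT.nd (nat_lit 702) (nat_lit 2280) (nat_lit 0) (XT.nd (nat_lit 312) (nat_lit 1292) (nat_lit 0) (XT.nd (nat_lit 156) (nat_lit 456) (nat_lit 0) (XT.nd (nat_lit 78) (nat_lit 0) (nat_lit 0) (XT.lf (nat_lit 532) (nat_lit 6398612114) (nat_lit 0) (nat_lit 290103589) (nat_lit 456) (nat_lit 290103589) (nat_lit 217) (nat_lit 1) (nat_lit 210) (nat_lit 1) (nat_lit 216) (nat_lit 1) (nat_lit 334) (nat_lit 441) (nat_lit 365)) (XT.lf (nat_lit 76) (nat_lit 2434977919) (nat_lit 0) (nat_lit 2054475590) (nat_lit 532) (nat_lit 2434977919) (nat_lit 211) (nat_lit 1) (nat_lit 210) (nat_lit 1) (nat_lit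 217) (nat_lit 1) (nat_lit 335) (nat_lit 441) (nat_lit 364))) (XT.nd (nat_lit 78) (nat_lit 0) (nat_lit 0) (XT.lf (nat_lit 532) (nat_lit 3357756927) (nat_lit 0) (nat_lit 1756544020) (nat_lit 456) (nat_lit 1756544020) (nat_lit 211) (nat_lit 1) (nat_lit 204) (nat_lit 1) (nat_lit 210) (nat_lit 1) (nat_lit 336) (nat_lit 441) (nat_lit 363)) (XT.lf (nat_lit 76) (nat_lit 926486087) (nat_lit 0) (nat_lit 4964901032) (nat_lit 532) (nat_lit 926486087) (nat_lit 205) (nat_lit 1) (nat_lit 204) (nat_lit 1) (nat_lit 211) (nat_lit 1) (nat_lit 337) (nat_lit 441) (nat_lit 362)))) (XT.nd (nat_lit 156) (nat_lit 380) (nat_lit 0) (XT.nd (nat_lit 78) (nat_lit 532) (nat_lit 0) (XT.lf (nat_lit 456) (nat_lit 345029183) (nat_lit 0) (nat_lit 3210135228) (nat_lit 380) (nat_lit 3210135228) (nat_lit 205) (nat_lit 1) (nat_lit 199) (nat_lit 1) (nat_lit 204) (nat_lit 1) (nat_lit 338) (nat_lit 441) (nat_lit 361)) (XT.lf (nat_lit 532) (nat_lit 5585256203) (nat_lit 0) (nat_lit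 564080000) (nat_lit 456) (nat_lit 564080000) (nat_lit 199) (nat_lit 1) (nat_lit 192) (nat_lit 1) (nat_lit 198) (nat_lit 1) (nat_lit 339) (nat_lit 441) (nat_lit 360))) (XT.nd (nat_lit 78) (nat_lit 380) (nat_lit 0) (XT.lf (nat_lit 76) (nat_lit 2028745491) (nat_lit 0) (nat_lit 2604289920) (nat_lit 532) (nat_lit 2028745491) (nat_lit 193) (nat_lit 1) (nat_lit 192) (nat_lit 1) (nat_lit 199) (nat_lit 1) (nat_lit 340) (nat_lit 441) (nat_lit 359)) (XT.nd (nat_lit 78) (nat_lit 0) (nat_lit 0) (XT.lf (nat_lit 456) (nat_lit 2542548456) (nat_lit 0) (nat_lit 2034136825) (nat_lit 380) (nat_lit 2034136825) (nat_lit 193) (nat_lit 1) (nat_lit 187) (nat_lit 1) (nat_lit 192) (nat_lit 1) (nat_lit 341) (nat_lit 441) (nat_lit 358)) (XT.lf (nat_lit 76) (nat_lit 520236308) (nat_lit 0) (nat_lit 5520059728) (nat_lit 456) (nat_lit 520236308) (nat_lit 188) (nat_lit 1) (nat_lit 187) (nat_lit 1) (nat_lit 193) (nat_lit 1) (nat_lit 342) (nat_lit 441) (nat_lit 357))))))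 (XT.nd (nat_lit 312) (nat_lit 1064) (nat_lit 0) (XT.nd (nat_lit 156) (nat_lit 380) (nat_lit 0) (XT.nd (nat_lit 78) (nat_lit 380) (nat_lit 0) (XT.lf (nat_lit 76) (nat_lit 3024066416) (nat_lit 0) (nat_lit 462322910) (nat_lit 456) (nat_lit 3024066416) (nat_lit 182) (nat_lit 1) (nat_lit 181) (nat_lit 1) (nat_lit 187) (nat_lit 1) (nat_lit 343) (nat_lit 441) (nat_lit 356)) (XT.lf (nat_lit 456) (nat_lit 4529112765) (nat_lit 0) (nat_lit 965961411) (nat_lit 380) (nat_lit 965961411) (nat_lit 182) (nat_lit 1) (nat_lit 176) (nat_lit 1) (nat_lit 181) (nat_lit 1) (nat_lit 344) (nat_lit 441) (nat_lit 355))) (XT.nd (nat_lit 78) (nat_lit 380) (nat_lit 0) (XT.lf (nat_lit 76) (nat_lit 1504941640) (nat_lit 0) (nat_lit 3402113054) (nat_lit 456) (nat_lit 1504941640) (nat_lit 177) (nat_lit 1) (nat_lit 176) (nat_lit 1) (nat_lit 182) (nat_lit 1) (nat_lit 345) (nat_lit 441) (nat_lit 354)) (XT.lf (nat_lit 456) (nat_lit 1498060287) (nat_lit 0) (nat_lit 2432709740)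 (nat_lit 380) (nat_lit 2432709740) (nat_lit 177) (nat_lit 1) (nat_lit 171) (nat_lit 1) (nat_lit 176) (nat_lit 1) (nat_lit 346) (nat_lit 441) (nat_lit 353)))) (XT.nd (nat_lit 156) (nat_lit 684) (nat_lit 0) (XT.nd (nat_lit 78) (nat_lit 380) (nat_lit 0) (XT.lf (nat_lit 76) (nat_lit 2979976) (nat_lit 0) (nat_lit 6309760024) (nat_lit 456) (nat_lit 2979976) (nat_lit 172) (nat_lit 1) (nat_lit 171) (nat_lit 1) (nat_lit 177) (nat_lit 1) (nat_lit 347) (nat_lit 441) (nat_lit 352)) (XT.lf (nat_lit 76) (nat_lit 2394572379) (nat_lit 0) (nat_lit 1478743370) (nat_lit 380) (nat_lit 2394572379) (nat_lit 167) (nat_lit 1) (nat_lit 166) (nat_lit 1) (nat_lit 171) (nat_lit 1) (nat_lit 348) (nat_lit 441) (nat_lit 351))) (XT.nd (nat_lit 78) (nat_lit 304) (nat_lit 0) (XT.lf (nat_lit 456) (nat_lit 3276967639) (nat_lit 0) (nat_lit 1471917120) (nat_lit 380) (nat_lit 1471917120) (nat_lit 167) (nat_lit 1) (nat_lit 161) (nat_lit 1) (nat_lit 166) (nat_lit 1) (nat_lit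 349) (nat_lit 441) (nat_lit 350)) (XT.nd (nat_lit 78) (nat_lit 304) (nat_lit 0) (XT.lf (nat_lit 76) (nat_lit 886369640) (nat_lit 0) (nat_lit 4401474087) (nat_lit 456) (nat_lit 886369640) (nat_lit 162) (nat_lit 1) (nat_lit 161) (nat_lit 1) (nat_lit 167) (nat_lit 1) (nat_lit 350) (nat_lit 441) (nat_lit 349)) (XT.lf (nat_lit 380) (nat_lit 269048529) (nat_lit 0) (nat_lit 2929461020) (nat_lit 304) (nat_lit 2929461020) (nat_lit 162) (nat_lit 1) (nat_lit 157) (nat_lit 1) (nat_lit 161) (nat_lit 1) (nat_lit 351) (nat_lit 441) (nat_lit 348))))))))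
noncomputable def ec227 : XT := (XT.nd (nat_lit 1404) (nat_lit 3116) (nat_lit 0) (XT.nd (nat_lit 702) (nat_lit 1520) (nat_lit 0) (XT.nd (nat_lit 312) (nat_lit 1368) (nat_lit 0) (XT.nd (nat_lit 156) (nat_lit 304) (nat_lit 0) (XT.nd (nat_lit 78) (nat_lit 0) (nat_lit 0) (XT.lf (nat_lit 456) (nat_lit 4883285580) (nat_lit 0) (nat_lit 599499737) (nat_lit 380) (nat_lit 599499737) (nat_lit 157) (nat_lit 1) (nat_lit 151) (nat_lit 1) (nat_lit 156) (nat_lit 1) (nat_lit 352) (nat_lit 441) (nat_lit 347)) (XT.lf (nat_lit 76) (nat_lit 1685159325) (nat_lit 0) (nat_lit 2666508320) (nat_lit 456) (nat_lit 1685159325) (nat_lit 152) (nat_lit 1) (nat_lit 151) (nat_lit 1) (nat_lit 157) (nat_lit 1) (nat_lit 353) (nat_lit 441) (nat_lit 346))) (XT.nd (nat_lit 78) (nat_lit 0) (nat_lit 0) (XT.lf (nat_lit 380) (nat_lit 1869474921) (nat_lit 0) (nat_lit 2061220662) (nat_lit 304) (nat_lit 2061220662) (nat_lit 152) (nat_lit 1) (nat_lit 147) (nat_lit 1) (nat_lit 151)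 (nat_lit 1) (nat_lit 354) (nat_lit 441) (nat_lit 345)) (XT.lf (nat_lit 76) (nat_lit 192839435) (nat_lit 0) (nat_lit 5561964494) (nat_lit 380) (nat_lit 192839435) (nat_lit 148) (nat_lit 1) (nat_lit 147) (nat_lit 1) (nat_lit 152) (nat_lit 1) (nat_lit 355) (nat_lit 441) (nat_lit 344)))) (XT.nd (nat_lit 156) (nat_lit 684) (nat_lit 0) (XT.nd (nat_lit 78) (nat_lit 304) (nat_lit 0) (XT.lf (nat_lit 76) (nat_lit 2406131428) (nat_lit 0) (nat_lit 1091114669) (nat_lit 380) (nat_lit 2406131428) (nat_lit 143) (nat_lit 1) (nat_lit 142) (nat_lit 1) (nat_lit 147) (nat_lit 1) (nat_lit 356) (nat_lit 441) (nat_lit 343)) (XT.lf (nat_lit 380) (nat_lit 3316238863) (nat_lit 0) (nat_lit 1271750749) (nat_lit 304) (nat_lit 1271750749) (nat_lit 143) (nat_lit 1) (nat_lit 138) (nat_lit 1) (nat_lit 142) (nat_lit 1) (nat_lit 357) (nat_lit 441) (nat_lit 342))) (XT.nd (nat_lit 78) (nat_lit 684) (nat_lit 0) (XT.lf (nat_lit 76) (nat_lit 913793413) (nat_lit 0) (nat_lit 3988941378)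 (nat_lit 380) (nat_lit 913793413) (nat_lit 139) (nat_lit 1) (nat_lit 138) (nat_lit 1) (nat_lit 143) (nat_lit 1) (nat_lit 358) (nat_lit 441) (nat_lit 341)) (XT.nd (nat_lit 78) (nat_lit 380) (nat_lit 0) (XT.lf (nat_lit 380) (nat_lit 341881010) (nat_lit 0) (nat_lit 2715883882) (nat_lit 304) (nat_lit 2715883882) (nat_lit 139) (nat_lit 1) (nat_lit 134) (nat_lit 1) (nat_lit 138) (nat_lit 1) (nat_lit 359) (nat_lit 441) (nat_lit 340)) (XT.lf (nat_lit 380) (nat_lit 4621665642) (nat_lit 0) (nat_lit 554804513) (nat_lit 304) (nat_lit 554804513) (nat_lit 134) (nat_lit 1) (nat_lit 129) (nat_lit 1) (nat_lit 133) (nat_lit 1) (nat_lit 360) (nat_lit 441) (nat_lit 339)))))) (XT.nd (nat_lit 312) (nat_lit 912) (nat_lit 0) (XT.nd (nat_lit 156) (nat_lit 304) (nat_lit 0) (XT.nd (nat_lit 78) (nat_lit 304) (nat_lit 0) (XT.lf (nat_lit 76) (nat_lit 1565419142) (nat_lit 0) (nat_lit 2558249483) (nat_lit 380) (nat_lit 1565419142) (nat_lit 130) (nat_lit 1) (nat_lit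 129) (nat_lit 1) (nat_lit 134) (nat_lit 1) (nat_lit 361) (nat_lit 441) (nat_lit 338)) (XT.lf (nat_lit 380) (nat_lit 1652412246) (nat_lit 0) (nat_lit 1997492900) (nat_lit 304) (nat_lit 1997492900) (nat_lit 130) (nat_lit 1) (nat_lit 125) (nat_lit 1) (nat_lit 129) (nat_lit 1) (nat_lit 362) (nat_lit 441) (nat_lit 337))) (XT.nd (nat_lit 78) (nat_lit 304) (nat_lit 0) (XT.lf (nat_lit 76) (nat_lit 96015913) (nat_lit 0) (nat_lit 5414279374) (nat_lit 380) (nat_lit 96015913) (nat_lit 126) (nat_lit 1) (nat_lit 125) (nat_lit 1) (nat_lit 130) (nat_lit 1) (nat_lit 363) (nat_lit 441) (nat_lit 336)) (XT.lf (nat_lit 76) (nat_lit 2153279115) (nat_lit 0) (nat_lit 1258607706) (nat_lit 304) (nat_lit 2153279115) (nat_lit 122) (nat_lit 1) (nat_lit 121) (nat_lit 1) (nat_lit 125) (nat_lit 1) (nat_lit 364) (nat_lit 441) (nat_lit 335)))) (XT.nd (nat_lit 156) (nat_lit 608) (nat_lit 0) (XT.nd (nat_lit 78) (nat_lit 0) (nat_lit 0) (XT.lf (nat_lit 380) (nat_lit 2836933338)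 (nat_lit 0) (nat_lit 1343841344) (nat_lit 304) (nat_lit 1343841344) (nat_lit 122) (nat_lit 1) (nat_lit 117) (nat_lit 1) (nat_lit 121) (nat_lit 1) (nat_lit 365) (nat_lit 441) (nat_lit 334)) (XT.lf (nat_lit 76) (nat_lit 688668491) (nat_lit 0) (nat_lit 4107155844) (nat_lit 380) (nat_lit 688668491) (nat_lit 118) (nat_lit 1) (nat_lit 117) (nat_lit 1) (nat_lit 122) (nat_lit 1) (nat_lit 366) (nat_lit 441) (nat_lit 333))) (XT.nd (nat_lit 78) (nat_lit 304) (nat_lit 0) (XT.lf (nat_lit 76) (nat_lit 2682506670) (nat_lit 0) (nat_lit 79602721) (nat_lit 304) (nat_lit 2682506670) (nat_lit 114) (nat_lit 1) (nat_lit 113) (nat_lit 1) (nat_lit 117) (nat_lit 1) (nat_lit 367) (nat_lit 441) (nat_lit 332)) (XT.nd (nat_lit 78) (nat_lit 0) (nat_lit 0) (XT.lf (nat_lit 380) (nat_lit 3905554400) (nat_lit 0) (nat_lit 749802330) (nat_lit 304) (nat_lit 749802330) (nat_lit 114) (nat_lit 1) (nat_lit 109) (nat_lit 1) (nat_lit 113) (nat_lit 1) (nat_lit 368) (nat_lit 441)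 (nat_lit 331)) (XT.lf (nat_lit 76) (nat_lit 1224423851) (nat_lit 0) (nat_lit 2917120875) (nat_lit 380) (nat_lit 1224423851) (nat_lit 110) (nat_lit 1) (nat_lit 109) (nat_lit 1) (nat_lit 114) (nat_lit 1) (nat_lit 369) (nat_lit 441) (nat_lit 330))))))) (XT.nd (nat_lit 702) (nat_lit 1520) (nat_lit 0) (XT.nd (nat_lit 312) (nat_lit 760) (nat_lit 0) (XT.nd (nat_lit 156) (nat_lit 228) (nat_lit 0) (XT.nd (nat_lit 78) (nat_lit 380) (nat_lit 0) (XT.lf (nat_lit 304) (nat_lit 1001512297) (nat_lit 0) (nat_lit 2162828966) (nat_lit 228) (nat_lit 2162828966) (nat_lit 110) (nat_lit 1) (nat_lit 106) (nat_lit 1) (nat_lit 109) (nat_lit 1) (nat_lit 370) (nat_lit 441) (nat_lit 329)) (XT.lf (nat_lit 380) (nat_lit 4867605541) (nat_lit 0) (nat_lit 210643268) (nat_lit 304) (nat_lit 210643268) (nat_lit 106) (nat_lit 1) (nat_lit 101) (nat_lit 1) (nat_lit 105) (nat_lit 1) (nat_lit 371) (nat_lit 441) (nat_lit 328))) (XT.nd (nat_lit 78) (nat_lit 228) (nat_lit 0) (XT.lf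 (nat_lit 76) (nat_lit 1707845645) (nat_lit 0) (nat_lit 1834913615) (nat_lit 380) (nat_lit 1707845645) (nat_lit 102) (nat_lit 1) (nat_lit 101) (nat_lit 1) (nat_lit 106) (nat_lit 1) (nat_lit 372) (nat_lit 441) (nat_lit 327)) (XT.lf (nat_lit 304) (nat_lit 1980174146) (nat_lit 0) (nat_lit 1616328806) (nat_lit 228) (nat_lit 1616328806) (nat_lit 102) (nat_lit 1) (nat_lit 98) (nat_lit 1) (nat_lit 101) (nat_lit 1) (nat_lit 373) (nat_lit 441) (nat_lit 326)))) (XT.nd (nat_lit 156) (nat_lit 456) (nat_lit 0) (XT.nd (nat_lit 78) (nat_lit 304) (nat_lit 0) (XT.lf (nat_lit 76) (nat_lit 279845330) (nat_lit 0) (nat_lit 4615851469) (nat_lit 304) (nat_lit 279845330) (nat_lit 99) (nat_lit 1) (nat_lit 98) (nat_lit 1) (nat_lit 102) (nat_lit 1) (nat_lit 374) (nat_lit 441) (nat_lit 325)) (XT.lf (nat_lit 76) (nat_lit 2143145457) (nat_lit 0) (nat_lit 851985214) (nat_lit 304) (nat_lit 2143145457) (nat_lit 95) (nat_lit 1) (nat_lit 94) (nat_lit 1) (nat_lit 98) (nat_lit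 1) (nat_lit 375) (nat_lit 441) (nat_lit 324))) (XT.nd (nat_lit 78) (nat_lit 228) (nat_lit 0) (XT.lf (nat_lit 304) (nat_lit 2863621486) (nat_lit 0) (nat_lit 1118933228) (nat_lit 228) (nat_lit 1118933228) (nat_lit 95) (nat_lit 1) (nat_lit 91) (nat_lit 1) (nat_lit 94) (nat_lit 1) (nat_lit 376) (nat_lit 441) (nat_lit 323)) (XT.nd (nat_lit 78) (nat_lit 228) (nat_lit 0) (XT.lf (nat_lit 76) (nat_lit 724941578) (nat_lit 0) (nat_lit 3615166087) (nat_lit 304) (nat_lit 724941578) (nat_lit 92) (nat_lit 1) (nat_lit 91) (nat_lit 1) (nat_lit 95) (nat_lit 1) (nat_lit 377) (nat_lit 441) (nat_lit 322)) (XT.lf (nat_lit 304) (nat_lit 40081200) (nat_lit 0) (nat_lit 2494388738) (nat_lit 228) (nat_lit 2494388738) (nat_lit 92) (nat_lit 1) (nat_lit 88) (nat_lit 1) (nat_lit 91) (nat_lit 1) (nat_lit 378) (nat_lit 441) (nat_lit 321)))))) (XT.nd (nat_lit 390) (nat_lit 684) (nat_lit 0) (XT.nd (nat_lit 156) (nat_lit 532) (nat_lit 0) (XT.nd (nat_lit 78) (nat_lit 0)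 (nat_lit 0) (XT.lf (nat_lit 304) (nat_lit 3659510924) (nat_lit 0) (nat_lit 666755907) (nat_lit 228) (nat_lit 666755907) (nat_lit 88) (nat_lit 1) (nat_lit 84) (nat_lit 1) (nat_lit 87) (nat_lit 1) (nat_lit 379) (nat_lit 441) (nat_lit 320)) (XT.lf (nat_lit 76) (nat_lit 1126996461) (nat_lit 0) (nat_lit 2703416241) (nat_lit 304) (nat_lit 1126996461) (nat_lit 85) (nat_lit 1) (nat_lit 84) (nat_lit 1) (nat_lit 88) (nat_lit 1) (nat_lit 380) (nat_lit 441) (nat_lit 319))) (XT.nd (nat_lit 78) (nat_lit 304) (nat_lit 0) (XT.lf (nat_lit 304) (nat_lit 858248465) (nat_lit 0) (nat_lit 2031948346) (nat_lit 228) (nat_lit 2031948346) (nat_lit 85) (nat_lit 1) (nat_lit 81) (nat_lit 1) (nat_lit 84) (nat_lit 1) (nat_lit 381) (nat_lit 441) (nat_lit 318)) (XT.nd (nat_lit 78) (nat_lit 0) (nat_lit 0) (XT.lf (nat_lit 304) (nat_lit 4374908029) (nat_lit 0) (nat_lit 256209358) (nat_lit 228) (nat_lit 256209358) (nat_lit 81) (nat_lit 1) (nat_lit 77) (nat_lit 1) (nat_lit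 80) (nat_lit 1) (nat_lit 382) (nat_lit 441) (nat_lit 317)) (XT.lf (nat_lit 76) (nat_lit 1489467095) (nat_lit 0) (nat_lit 1873579501) (nat_lit 304) (nat_lit 1489467095) (nat_lit 78) (nat_lit 1) (nat_lit 77) (nat_lit 1) (nat_lit 81) (nat_lit 1) (nat_lit 383) (nat_lit 441) (nat_lit 316))))) (XT.nd (nat_lit 156) (nat_lit 456) (nat_lit 0) (XT.nd (nat_lit 78) (nat_lit 0) (nat_lit 0) (XT.lf (nat_lit 304) (nat_lit 1598006205) (nat_lit 0) (nat_lit 1610067675) (nat_lit 228) (nat_lit 1610067675) (nat_lit 78) (nat_lit 1) (nat_lit 74) (nat_lit 1) (nat_lit 77) (nat_lit 1) (nat_lit 384) (nat_lit 441) (nat_lit 315)) (XT.lf (nat_lit 76) (nat_lit 116786208) (nat_lit 0) (nat_lit 4550663460) (nat_lit 304) (nat_lit 116786208) (nat_lit 75) (nat_lit 1) (nat_lit 74) (nat_lit 1) (nat_lit 78) (nat_lit 1) (nat_lit 385) (nat_lit 441) (nat_lit 314))) (XT.nd (nat_lit 78) (nat_lit 228) (nat_lit 0) (XT.lf (nat_lit 76) (nat_lit 1815543802) (nat_lit 0) (nat_lit 1119173120)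 (nat_lit 228) (nat_lit 1815543802) (nat_lit 72) (nat_lit 1) (nat_lit 71) (nat_lit 1) (nat_lit 74) (nat_lit 1) (nat_lit 386) (nat_lit 441) (nat_lit 313)) (XT.nd (nat_lit 78) (nat_lit 0) (nat_lit 0) (XT.lf (nat_lit 304) (nat_lit 2265641396) (nat_lit 0) (nat_lit 1225553157) (nat_lit 228) (nat_lit 1225553157) (nat_lit 72) (nat_lit 1) (nat_lit 68) (nat_lit 1) (nat_lit 71) (nat_lit 1) (nat_lit 387) (nat_lit 441) (nat_lit 312)) (XT.lf (nat_lit 76) (nat_lit 455982197) (nat_lit 0) (nat_lit 3771633218) (nat_lit 304) (nat_lit 455982197) (nat_lit 69) (nat_lit 1) (nat_lit 68) (nat_lit 1) (nat_lit 72) (nat_lit 1) (nat_lit 388) (nat_lit 441) (nat_lit 311))))))))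
noncomputable def ec228 : XT := (XT.nd (nat_lit 1404) (nat_lit 532) (nat_lit 0) (XT.nd (nat_lit 702) (nat_lit 1216) (nat_lit 0) (XT.nd (nat_lit 312) (nat_lit 760) (nat_lit 0) (XT.nd (nat_lit 156) (nat_lit 152) (nat_lit 0) (XT.nd (nat_lit 78) (nat_lit 228) (nat_lit 0) (XT.lf (nat_lit 76) (nat_lit 2108170504) (nat_lit 0) (nat_lit 434212837) (nat_lit 228) (nat_lit 2108170504) (nat_lit 66) (nat_lit 1) (nat_lit 65) (nat_lit 1) (nat_lit 68) (nat_lit 1) (nat_lit 389) (nat_lit 441) (nat_lit 310)) (XT.lf (nat_lit 304) (nat_lit 2866956041) (nat_lit 0) (nat_lit 875456482) (nat_lit 228) (nat_lit 875456482) (nat_lit 66) (nat_lit 1) (nat_lit 62) (nat_lit 1) (nat_lit 65) (nat_lit 1) (nat_lit 390) (nat_lit 441) (nat_lit 309))) (XT.nd (nat_lit 78) (nat_lit 152) (nat_lit 0) (XT.lf (nat_lit 76) (nat_lit 762521569) (nat_lit 0) (nat_lit 3060409622) (nat_lit 304) (nat_lit 762521569) (nat_lit 63) (nat_lit 1) (nat_lit 62) (nat_lit 1) (nat_lit 66) (nat_lit 1)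 (nat_lit 391) (nat_lit 441) (nat_lit 308)) (XT.lf (nat_lit 228) (nat_lit 189307980) (nat_lit 0) (nat_lit 2181984679) (nat_lit 152) (nat_lit 2181984679) (nat_lit 63) (nat_lit 1) (nat_lit 60) (nat_lit 1) (nat_lit 62) (nat_lit 1) (nat_lit 392) (nat_lit 441) (nat_lit 307)))) (XT.nd (nat_lit 156) (nat_lit 456) (nat_lit 0) (XT.nd (nat_lit 78) (nat_lit 0) (nat_lit 0) (XT.lf (nat_lit 304) (nat_lit 3407304226) (nat_lit 0) (nat_lit 557055882) (nat_lit 228) (nat_lit 557055882) (nat_lit 60) (nat_lit 1) (nat_lit 56) (nat_lit 1) (nat_lit 59) (nat_lit 1) (nat_lit 393) (nat_lit 441) (nat_lit 306)) (XT.lf (nat_lit 76) (nat_lit 1039025105) (nat_lit 0) (nat_lit 2411662613) (nat_lit 304) (nat_lit 1039025105) (nat_lit 57) (nat_lit 1) (nat_lit 56) (nat_lit 1) (nat_lit 60) (nat_lit 1) (nat_lit 394) (nat_lit 441) (nat_lit 305))) (XT.nd (nat_lit 78) (nat_lit 304) (nat_lit 0) (XT.lf (nat_lit 228) (nat_lit 758993799) (nat_lit 0) (nat_lit 1849663193) (nat_lit 152)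 (nat_lit 1849663193) (nat_lit 57) (nat_lit 1) (nat_lit 54) (nat_lit 1) (nat_lit 56) (nat_lit 1) (nat_lit 395) (nat_lit 441) (nat_lit 304)) (XT.nd (nat_lit 78) (nat_lit 0) (nat_lit 0) (XT.lf (nat_lit 304) (nat_lit 3891626346) (nat_lit 0) (nat_lit 267838838) (nat_lit 228) (nat_lit 267838838) (nat_lit 54) (nat_lit 1) (nat_lit 50) (nat_lit 1) (nat_lit 53) (nat_lit 1) (nat_lit 396) (nat_lit 441) (nat_lit 303)) (XT.lf (nat_lit 76) (nat_lit 1287911377) (nat_lit 0) (nat_lit 1820471299) (nat_lit 304) (nat_lit 1287911377) (nat_lit 51) (nat_lit 1) (nat_lit 50) (nat_lit 1) (nat_lit 54) (nat_lit 1) (nat_lit 397) (nat_lit 441) (nat_lit 302)))))) (XT.nd (nat_lit 312) (nat_lit 608) (nat_lit 0) (XT.nd (nat_lit 156) (nat_lit 152) (nat_lit 0) (XT.nd (nat_lit 78) (nat_lit 304) (nat_lit 0) (XT.lf (nat_lit 228) (nat_lit 1273842447) (nat_lit 0) (nat_lit 1545907417) (nat_lit 152) (nat_lit 1545907417) (nat_lit 51) (nat_lit 1) (nat_lit 48) (nat_lit 1) (nat_lit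 50) (nat_lit 1) (nat_lit 398) (nat_lit 441) (nat_lit 301)) (XT.lf (nat_lit 304) (nat_lit 4324480731) (nat_lit 0) (nat_lit 5486106) (nat_lit 228) (nat_lit 5486106) (nat_lit 48) (nat_lit 1) (nat_lit 44) (nat_lit 1) (nat_lit 47) (nat_lit 1) (nat_lit 399) (nat_lit 441) (nat_lit 300))) (XT.nd (nat_lit 78) (nat_lit 152) (nat_lit 0) (XT.lf (nat_lit 76) (nat_lit 1511412197) (nat_lit 0) (nat_lit 1282292734) (nat_lit 304) (nat_lit 1511412197) (nat_lit 45) (nat_lit 1) (nat_lit 44) (nat_lit 1) (nat_lit 48) (nat_lit 1) (nat_lit 400) (nat_lit 441) (nat_lit 299)) (XT.lf (nat_lit 228) (nat_lit 1738254594) (nat_lit 0) (nat_lit 1268478062) (nat_lit 152) (nat_lit 1268478062) (nat_lit 45) (nat_lit 1) (nat_lit 42) (nat_lit 1) (nat_lit 44) (nat_lit 1) (nat_lit 401) (nat_lit 441) (nat_lit 298)))) (XT.nd (nat_lit 156) (nat_lit 380) (nat_lit 0) (XT.nd (nat_lit 78) (nat_lit 228) (nat_lit 0) (XT.lf (nat_lit 76) (nat_lit 233680409) (nat_lit 0) (nat_lit 3778304174)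 (nat_lit 228) (nat_lit 233680409) (nat_lit 43) (nat_lit 1) (nat_lit 42) (nat_lit 1) (nat_lit 45) (nat_lit 1) (nat_lit 402) (nat_lit 441) (nat_lit 297)) (XT.lf (nat_lit 76) (nat_lit 1711586894) (nat_lit 0) (nat_lit 792933073) (nat_lit 228) (nat_lit 1711586894) (nat_lit 40) (nat_lit 1) (nat_lit 39) (nat_lit 1) (nat_lit 42) (nat_lit 1) (nat_lit 403) (nat_lit 441) (nat_lit 296))) (XT.nd (nat_lit 78) (nat_lit 228) (nat_lit 0) (XT.lf (nat_lit 228) (nat_lit 2156291376) (nat_lit 0) (nat_lit 1015307622) (nat_lit 152) (nat_lit 1015307622) (nat_lit 40) (nat_lit 1) (nat_lit 37) (nat_lit 1) (nat_lit 39) (nat_lit 1) (nat_lit 404) (nat_lit 441) (nat_lit 295)) (XT.nd (nat_lit 78) (nat_lit 228) (nat_lit 0) (XT.lf (nat_lit 76) (nat_lit 449984859) (nat_lit 0) (nat_lit 3258029212) (nat_lit 228) (nat_lit 449984859) (nat_lit 38) (nat_lit 1) (nat_lit 37) (nat_lit 1) (nat_lit 40) (nat_lit 1) (nat_lit 405) (nat_lit 441) (nat_lit 294)) (XT.lf (nat_lit 76) (nat_lit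 1890335498) (nat_lit 0) (nat_lit 348520922) (nat_lit 228) (nat_lit 1890335498) (nat_lit 35) (nat_lit 1) (nat_lit 34) (nat_lit 1) (nat_lit 37) (nat_lit 1) (nat_lit 406) (nat_lit 441) (nat_lit 293))))))) (XT.nd (nat_lit 50622) (nat_lit 0) (nat_lit 24472) (XT.nd (nat_lit 50232) (nat_lit 0) (nat_lit 28272) (XT.nd (nat_lit 156) (nat_lit 380) (nat_lit 0) (XT.nd (nat_lit 78) (nat_lit 0) (nat_lit 0) (XT.lf (nat_lit 228) (nat_lit 2531700336) (nat_lit 0) (nat_lit 784487269) (nat_lit 152) (nat_lit 784487269) (nat_lit 35) (nat_lit 1) (nat_lit 32) (nat_lit 1) (nat_lit 34) (nat_lit 1) (nat_lit 407) (nat_lit 441) (nat_lit 292)) (XT.lf (nat_lit 76) (nat_lit 645226535) (nat_lit 0) (nat_lit 2781935171) (nat_lit 228) (nat_lit 645226535) (nat_lit 33) (nat_lit 1) (nat_lit 32) (nat_lit 1) (nat_lit 35) (nat_lit 1) (nat_lit 408) (nat_lit 441) (nat_lit 291))) (XT.nd (nat_lit 78) (nat_lit 228) (nat_lit 0) (XT.lf (nat_lit 228) (nat_lit 55241781) (nat_lit 0) (nat_lit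 1994527800) (nat_lit 152) (nat_lit 1994527800) (nat_lit 33) (nat_lit 1) (nat_lit 30) (nat_lit 1) (nat_lit 32) (nat_lit 1) (nat_lit 409) (nat_lit 441) (nat_lit 290)) (XT.lf (nat_lit 228) (nat_lit 2867939395) (nat_lit 0) (nat_lit 574254747) (nat_lit 152) (nat_lit 574254747) (nat_lit 30) (nat_lit 1) (nat_lit 27) (nat_lit 1) (nat_lit 29) (nat_lit 1) (nat_lit 410) (nat_lit 441) (nat_lit 289)))) (XT.nd (nat_lit 156) (nat_lit 836) (nat_lit 0) (XT.nd (nat_lit 78) (nat_lit 836) (nat_lit 0) (XT.lf (nat_lit 76) (nat_lit 3989400323) (nat_lit 0) (nat_lit 2099946477) (nat_lit 988) (nat_lit 3989400323) (nat_lit 422) (nat_lit 1) (nat_lit 421) (nat_lit 1) (nat_lit 434) (nat_lit 1) (nat_lit 290) (nat_lit 442) (nat_lit 408)) (XT.lf (nat_lit 912) (nat_lit 6824008263) (nat_lit 0) (nat_lit 1583191436) (nat_lit 836) (nat_lit 1583191436) (nat_lit 422) (nat_lit 1) (nat_lit 410) (nat_lit 1) (nat_lit 421) (nat_lit 1) (nat_lit 291) (nat_lit 442) (nat_lit 407)))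 (XT.nd (nat_lit 78) (nat_lit 836) (nat_lit 0) (XT.lf (nat_lit 76) (nat_lit 2823333380) (nat_lit 0) (nat_lit 4256214739) (nat_lit 912) (nat_lit 2823333380) (nat_lit 411) (nat_lit 1) (nat_lit 410) (nat_lit 1) (nat_lit 422) (nat_lit 1) (nat_lit 292) (nat_lit 442) (nat_lit 406)) (XT.nd (nat_lit 78) (nat_lit 0) (nat_lit 0) (XT.lf (nat_lit 912) (nat_lit 4464408972) (nat_lit 0) (nat_lit 2676064859) (nat_lit 836) (nat_lit 2676064859) (nat_lit 411) (nat_lit 1) (nat_lit 399) (nat_lit 1) (nat_lit 410) (nat_lit 1) (nat_lit 293) (nat_lit 442) (nat_lit 405)) (XT.lf (nat_lit 76) (nat_lit 1637883543) (nat_lit 0) (nat_lit 6455542072) (nat_lit 912) (nat_lit 1637883543) (nat_lit 400) (nat_lit 1) (nat_lit 399) (nat_lit 1) (nat_lit 411) (nat_lit 1) (nat_lit 294) (nat_lit 442) (nat_lit 404)))))) (XT.nd (nat_lit 312) (nat_lit 1444) (nat_lit 0) (XT.nd (nat_lit 156) (nat_lit 1596) (nat_lit 0) (XT.nd (nat_lit 78) (nat_lit 0) (nat_lit 0) (XT.lf (nat_lit 836) (nat_lit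 2067961233) (nat_lit 0) (nat_lit 3789478402) (nat_lit 760) (nat_lit 3789478402) (nat_lit 400) (nat_lit 1) (nat_lit 389) (nat_lit 1) (nat_lit 399) (nat_lit 1) (nat_lit 295) (nat_lit 442) (nat_lit 403)) (XT.lf (nat_lit 76) (nat_lit 435071370) (nat_lit 0) (nat_lit 8693770371) (nat_lit 836) (nat_lit 435071370) (nat_lit 390) (nat_lit 1) (nat_lit 389) (nat_lit 1) (nat_lit 400) (nat_lit 1) (nat_lit 296) (nat_lit 442) (nat_lit 402))) (XT.nd (nat_lit 78) (nat_lit 760) (nat_lit 0) (XT.lf (nat_lit 76) (nat_lit 4562360987) (nat_lit 0) (nat_lit 356645344) (nat_lit 836) (nat_lit 4562360987) (nat_lit 379) (nat_lit 1) (nat_lit 378) (nat_lit 1) (nat_lit 389) (nat_lit 1) (nat_lit 297) (nat_lit 442) (nat_lit 401)) (XT.lf (nat_lit 836) (nat_lit 7844105042) (nat_lit 0) (nat_lit 778033364) (nat_lit 760) (nat_lit 778033364) (nat_lit 379) (nat_lit 1) (nat_lit 368) (nat_lit 1) (nat_lit 378) (nat_lit 1) (nat_lit 298) (nat_lit 442) (nat_lit 400)))) (XT.nd (nat_lit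 156) (nat_lit 684) (nat_lit 0) (XT.nd (nat_lit 78) (nat_lit 760) (nat_lit 0) (XT.lf (nat_lit 76) (nat_lit 3268325265) (nat_lit 0) (nat_lit 2782899179) (nat_lit 836) (nat_lit 3268325265) (nat_lit 369) (nat_lit 1) (nat_lit 368) (nat_lit 1) (nat_lit 379) (nat_lit 1) (nat_lit 299) (nat_lit 442) (nat_lit 399)) (XT.lf (nat_lit 836) (nat_lit 5236523833) (nat_lit 0) (nat_lit 2001812824) (nat_lit 760) (nat_lit 2001812824) (nat_lit 369) (nat_lit 1) (nat_lit 358) (nat_lit 1) (nat_lit 368) (nat_lit 1) (nat_lit 300) (nat_lit 442) (nat_lit 398))) (XT.nd (nat_lit 78) (nat_lit 684) (nat_lit 0) (XT.lf (nat_lit 76) (nat_lit 1963605425) (nat_lit 0) (nat_lit 5234415290) (nat_lit 836) (nat_lit 1963605425) (nat_lit 359) (nat_lit 1) (nat_lit 358) (nat_lit 1) (nat_lit 369) (nat_lit 1) (nat_lit 301) (nat_lit 442) (nat_lit 397)) (XT.nd (nat_lit 78) (nat_lit 0) (nat_lit 0) (XT.lf (nat_lit 760) (nat_lit 2609133729) (nat_lit 0) (nat_lit 3237416755) (nat_lit 684)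 (nat_lit 3237416755) (nat_lit 359) (nat_lit 1) (nat_lit 349) (nat_lit 1) (nat_lit 358) (nat_lit 1) (nat_lit 302) (nat_lit 442) (nat_lit 396)) (XT.lf (nat_lit 76) (nat_lit 649811113) (nat_lit 0) (nat_lit 7707870032) (nat_lit 760) (nat_lit 649811113) (nat_lit 350) (nat_lit 1) (nat_lit 349) (nat_lit 1) (nat_lit 359) (nat_lit 1) (nat_lit 303) (nat_lit 442) (nat_lit 395))))))))
noncomputable def ec229 : XT := (XT.nd (nat_lit 1404) (nat_lit 5396) (nat_lit 0) (XT.nd (nat_lit 702) (nat_lit 2888) (nat_lit 0) (XT.nd (nat_lit 312) (nat_lit 1900) (nat_lit 0) (XT.nd (nat_lit 156) (nat_lit 684) (nat_lit 0) (XT.nd (nat_lit 78) (nat_lit 684) (nat_lit 0) (XT.lf (nat_lit 76) (nat_lit 4448526851) (nat_lit 0) (nat_lit 34464240) (nat_lit 760) (nat_lit 4448526851) (nat_lit 340) (nat_lit 1) (nat_lit 339) (nat_lit 1) (nat_lit 349) (nat_lit 1) (nat_lit 304) (nat_lit 442) (nat_lit 394)) (XT.lf (nat_lit 760) (nat_lit 7522464917) (nat_lit 0) (nat_lit 667115972)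 (nat_lit 684) (nat_lit 667115972) (nat_lit 340) (nat_lit 1) (nat_lit 330) (nat_lit 1) (nat_lit 339) (nat_lit 1) (nat_lit 305) (nat_lit 442) (nat_lit 393))) (XT.nd (nat_lit 78) (nat_lit 684) (nat_lit 0) (XT.lf (nat_lit 76) (nat_lit 3062505602) (nat_lit 0) (nat_lit 2657354840) (nat_lit 760) (nat_lit 3062505602) (nat_lit 331) (nat_lit 1) (nat_lit 330) (nat_lit 1) (nat_lit 340) (nat_lit 1) (nat_lit 306) (nat_lit 442) (nat_lit 392)) (XT.lf (nat_lit 760) (nat_lit 4737475947) (nat_lit 0) (nat_lit 1985836975) (nat_lit 684) (nat_lit 1985836975) (nat_lit 331) (nat_lit 1) (nat_lit 321) (nat_lit 1) (nat_lit 330) (nat_lit 1) (nat_lit 307) (nat_lit 442) (nat_lit 391)))) (XT.nd (nat_lit 156) (nat_lit 1292) (nat_lit 0) (XT.nd (nat_lit 78) (nat_lit 608) (nat_lit 0) (XT.lf (nat_lit 76) (nat_lit 1672886625) (nat_lit 0) (nat_lit 5290980935) (nat_lit 760) (nat_lit 1672886625) (nat_lit 322) (nat_lit 1) (nat_lit 321) (nat_lit 1) (nat_lit 331) (nat_lit 1) (nat_lit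 308) (nat_lit 442) (nat_lit 390)) (XT.lf (nat_lit 684) (nat_lit 1946549757) (nat_lit 0) (nat_lit 3309272854) (nat_lit 608) (nat_lit 3309272854) (nat_lit 322) (nat_lit 1) (nat_lit 313) (nat_lit 1) (nat_lit 321) (nat_lit 1) (nat_lit 309) (nat_lit 442) (nat_lit 389))) (XT.nd (nat_lit 78) (nat_lit 1292) (nat_lit 0) (XT.lf (nat_lit 76) (nat_lit 280935480) (nat_lit 0) (nat_lit 7932718093) (nat_lit 684) (nat_lit 280935480) (nat_lit 314) (nat_lit 1) (nat_lit 313) (nat_lit 1) (nat_lit 322) (nat_lit 1) (nat_lit 310) (nat_lit 442) (nat_lit 388)) (XT.nd (nat_lit 78) (nat_lit 608) (nat_lit 0) (XT.lf (nat_lit 76) (nat_lit 3793802581) (nat_lit 0) (nat_lit 836726550) (nat_lit 684) (nat_lit 3793802581) (nat_lit 305) (nat_lit 1) (nat_lit 304) (nat_lit 1) (nat_lit 313) (nat_lit 1) (nat_lit 311) (nat_lit 442) (nat_lit 387)) (XT.lf (nat_lit 684) (nat_lit 6145527102) (nat_lit 0) (nat_lit 1104836692) (nat_lit 608) (nat_lit 1104836692) (nat_lit 305) (nat_lit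 1) (nat_lit 296) (nat_lit 1) (nat_lit 304) (nat_lit 1) (nat_lit 312) (nat_lit 442) (nat_lit 386)))))) (XT.nd (nat_lit 312) (nat_lit 1748) (nat_lit 0) (XT.nd (nat_lit 156) (nat_lit 532) (nat_lit 0) (XT.nd (nat_lit 78) (nat_lit 608) (nat_lit 0) (XT.lf (nat_lit 76) (nat_lit 2345513114) (nat_lit 0) (nat_lit 3595600532) (nat_lit 684) (nat_lit 2345513114) (nat_lit 297) (nat_lit 1) (nat_lit 296) (nat_lit 1) (nat_lit 305) (nat_lit 1) (nat_lit 313) (nat_lit 442) (nat_lit 385)) (XT.lf (nat_lit 684) (nat_lit 3241389712) (nat_lit 0) (nat_lit 2488772037) (nat_lit 608) (nat_lit 2488772037) (nat_lit 297) (nat_lit 1) (nat_lit 288) (nat_lit 1) (nat_lit 296) (nat_lit 1) (nat_lit 314) (nat_lit 442) (nat_lit 384))) (XT.nd (nat_lit 78) (nat_lit 532) (nat_lit 0) (XT.lf (nat_lit 76) (nat_lit 899355642) (nat_lit 0) (nat_lit 6353435938) (nat_lit 684) (nat_lit 899355642) (nat_lit 289) (nat_lit 1) (nat_lit 288) (nat_lit 1) (nat_lit 297) (nat_lit 1) (nat_lit 315)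 (nat_lit 442) (nat_lit 383)) (XT.lf (nat_lit 608) (nat_lit 342521749) (nat_lit 0) (nat_lit 3871664431) (nat_lit 532) (nat_lit 3871664431) (nat_lit 289) (nat_lit 1) (nat_lit 281) (nat_lit 1) (nat_lit 288) (nat_lit 1) (nat_lit 316) (nat_lit 442) (nat_lit 382)))) (XT.nd (nat_lit 156) (nat_lit 1064) (nat_lit 0) (XT.nd (nat_lit 78) (nat_lit 0) (nat_lit 0) (XT.lf (nat_lit 684) (nat_lit 6940296542) (nat_lit 0) (nat_lit 540114783) (nat_lit 608) (nat_lit 540114783) (nat_lit 281) (nat_lit 1) (nat_lit 272) (nat_lit 1) (nat_lit 280) (nat_lit 1) (nat_lit 317) (nat_lit 442) (nat_lit 381)) (XT.lf (nat_lit 76) (nat_lit 2719898498) (nat_lit 0) (nat_lit 2515740657) (nat_lit 684) (nat_lit 2719898498) (nat_lit 273) (nat_lit 1) (nat_lit 272) (nat_lit 1) (nat_lit 281) (nat_lit 1) (nat_lit 318) (nat_lit 442) (nat_lit 380))) (XT.nd (nat_lit 78) (nat_lit 532) (nat_lit 0) (XT.lf (nat_lit 608) (nat_lit 3952168084) (nat_lit 0) (nat_lit 1969665434) (nat_lit 532)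 (nat_lit 1969665434) (nat_lit 273) (nat_lit 1) (nat_lit 265) (nat_lit 1) (nat_lit 272) (nat_lit 1) (nat_lit 319) (nat_lit 442) (nat_lit 379)) (XT.nd (nat_lit 78) (nat_lit 532) (nat_lit 0) (XT.lf (nat_lit 76) (nat_lit 1233767534) (nat_lit 0) (nat_lit 5360667643) (nat_lit 608) (nat_lit 1233767534) (nat_lit 266) (nat_lit 1) (nat_lit 265) (nat_lit 1) (nat_lit 273) (nat_lit 1) (nat_lit 320) (nat_lit 442) (nat_lit 378)) (XT.lf (nat_lit 608) (nat_lit 976744954) (nat_lit 0) (nat_lit 3394355549) (nat_lit 532) (nat_lit 3394355549) (nat_lit 266) (nat_lit 1) (nat_lit 258) (nat_lit 1) (nat_lit 265) (nat_lit 1) (nat_lit 321) (nat_lit 442) (nat_lit 377))))))) (XT.nd (nat_lit 702) (nat_lit 2736) (nat_lit 0) (XT.nd (nat_lit 312) (nat_lit 1520) (nat_lit 0) (XT.nd (nat_lit 156) (nat_lit 532) (nat_lit 0) (XT.nd (nat_lit 78) (nat_lit 0) (nat_lit 0) (XT.lf (nat_lit 608) (nat_lit 7215634499) (nat_lit 0) (nat_lit 244025184) (nat_lit 532) (nat_lit 244025184)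 (nat_lit 258) (nat_lit 1) (nat_lit 250) (nat_lit 1) (nat_lit 257) (nat_lit 1) (nat_lit 322) (nat_lit 442) (nat_lit 376)) (XT.lf (nat_lit 76) (nat_lit 2841824834) (nat_lit 0) (nat_lit 1958413896) (nat_lit 608) (nat_lit 2841824834) (nat_lit 251) (nat_lit 1) (nat_lit 250) (nat_lit 1) (nat_lit 258) (nat_lit 1) (nat_lit 323) (nat_lit 442) (nat_lit 375))) (XT.nd (nat_lit 78) (nat_lit 0) (nat_lit 0) (XT.lf (nat_lit 608) (nat_lit 4168819453) (nat_lit 0) (nat_lit 1706289217) (nat_lit 532) (nat_lit 1706289217) (nat_lit 251) (nat_lit 1) (nat_lit 243) (nat_lit 1) (nat_lit 250) (nat_lit 1) (nat_lit 324) (nat_lit 442) (nat_lit 374)) (XT.lf (nat_lit 76) (nat_lit 1328041858) (nat_lit 0) (nat_lit 4865296683) (nat_lit 608) (nat_lit 1328041858) (nat_lit 244) (nat_lit 1) (nat_lit 243) (nat_lit 1) (nat_lit 251) (nat_lit 1) (nat_lit 325) (nat_lit 442) (nat_lit 373)))) (XT.nd (nat_lit 156) (nat_lit 456) (nat_lit 0) (XT.nd (nat_lit 78) (nat_lit 608) (nat_lit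 0) (XT.lf (nat_lit 532) (nat_lit 1141000933) (nat_lit 0) (nat_lit 3160455586) (nat_lit 456) (nat_lit 3160455586) (nat_lit 244) (nat_lit 1) (nat_lit 237) (nat_lit 1) (nat_lit 243) (nat_lit 1) (nat_lit 326) (nat_lit 442) (nat_lit 372)) (XT.lf (nat_lit 608) (nat_lit 7053754681) (nat_lit 0) (nat_lit 174807654) (nat_lit 532) (nat_lit 174807654) (nat_lit 237) (nat_lit 1) (nat_lit 229) (nat_lit 1) (nat_lit 236) (nat_lit 1) (nat_lit 327) (nat_lit 442) (nat_lit 371))) (XT.nd (nat_lit 78) (nat_lit 456) (nat_lit 0) (XT.lf (nat_lit 76) (nat_lit 2751392062) (nat_lit 0) (nat_lit 1842130423) (nat_lit 608) (nat_lit 2751392062) (nat_lit 230) (nat_lit 1) (nat_lit 229) (nat_lit 1) (nat_lit 237) (nat_lit 1) (nat_lit 328) (nat_lit 442) (nat_lit 370)) (XT.nd (nat_lit 78) (nat_lit 0) (nat_lit 0) (XT.lf (nat_lit 532) (nat_lit 3970105476) (nat_lit 0) (nat_lit 1658631090) (nat_lit 456) (nat_lit 1658631090) (nat_lit 230) (nat_lit 1) (nat_lit 223) (nat_lit 1) (nat_lit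 229) (nat_lit 1) (nat_lit 329) (nat_lit 442) (nat_lit 369)) (XT.lf (nat_lit 76) (nat_lit 1220593630) (nat_lit 0) (nat_lit 4789246345) (nat_lit 532) (nat_lit 1220593630) (nat_lit 224) (nat_lit 1) (nat_lit 223) (nat_lit 1) (nat_lit 230) (nat_lit 1) (nat_lit 330) (nat_lit 442) (nat_lit 368)))))) (XT.nd (nat_lit 390) (nat_lit 1292) (nat_lit 0) (XT.nd (nat_lit 156) (nat_lit 456) (nat_lit 0) (XT.nd (nat_lit 78) (nat_lit 532) (nat_lit 0) (XT.lf (nat_lit 532) (nat_lit 910739635) (nat_lit 0) (nat_lit 3131629233) (nat_lit 456) (nat_lit 3131629233) (nat_lit 224) (nat_lit 1) (nat_lit 217) (nat_lit 1) (nat_lit 223) (nat_lit 1) (nat_lit 331) (nat_lit 442) (nat_lit 367)) (XT.lf (nat_lit 532) (nat_lit 6526584357) (nat_lit 0) (nat_lit 295905661) (nat_lit 456) (nat_lit 295905661) (nat_lit 217) (nat_lit 1) (nat_lit 210) (nat_lit 1) (nat_lit 216) (nat_lit 1) (nat_lit 332) (nat_lit 442) (nat_lit 366))) (XT.nd (nat_lit 78) (nat_lit 456) (nat_lit 0) (XT.lf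 (nat_lit 76) (nat_lit 2483677477) (nat_lit 0) (nat_lit 2095565102) (nat_lit 532) (nat_lit 2483677477) (nat_lit 211) (nat_lit 1) (nat_lit 210) (nat_lit 1) (nat_lit 217) (nat_lit 1) (nat_lit 333) (nat_lit 442) (nat_lit 365)) (XT.nd (nat_lit 78) (nat_lit 0) (nat_lit 0) (XT.lf (nat_lit 532) (nat_lit 3424912066) (nat_lit 0) (nat_lit 1791674900) (nat_lit 456) (nat_lit 1791674900) (nat_lit 211) (nat_lit 1) (nat_lit 204) (nat_lit 1) (nat_lit 210) (nat_lit 1) (nat_lit 334) (nat_lit 442) (nat_lit 364)) (XT.lf (nat_lit 76) (nat_lit 945015809) (nat_lit 0) (nat_lit 5064199052) (nat_lit 532) (nat_lit 945015809) (nat_lit 205) (nat_lit 1) (nat_lit 204) (nat_lit 1) (nat_lit 211) (nat_lit 1) (nat_lit 335) (nat_lit 442) (nat_lit 363))))) (XT.nd (nat_lit 156) (nat_lit 380) (nat_lit 0) (XT.nd (nat_lit 78) (nat_lit 532) (nat_lit 0) (XT.lf (nat_lit 456) (nat_lit 351929767) (nat_lit 0) (nat_lit 3274337933) (nat_lit 380) (nat_lit 3274337933) (nat_lit 205) (nat_lit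 1) (nat_lit 199) (nat_lit 1) (nat_lit 204) (nat_lit 1) (nat_lit 336) (nat_lit 442) (nat_lit 362)) (XT.lf (nat_lit 532) (nat_lit 5696961327) (nat_lit 0) (nat_lit 575361600) (nat_lit 456) (nat_lit 575361600) (nat_lit 199) (nat_lit 1) (nat_lit 192) (nat_lit 1) (nat_lit 198) (nat_lit 1) (nat_lit 337) (nat_lit 442) (nat_lit 361))) (XT.nd (nat_lit 78) (nat_lit 380) (nat_lit 0) (XT.lf (nat_lit 76) (nat_lit 2069320401) (nat_lit 0) (nat_lit 2656375718) (nat_lit 532) (nat_lit 2069320401) (nat_lit 193) (nat_lit 1) (nat_lit 192) (nat_lit 1) (nat_lit 199) (nat_lit 1) (nat_lit 338) (nat_lit 442) (nat_lit 360)) (XT.nd (nat_lit 78) (nat_lit 0) (nat_lit 0) (XT.lf (nat_lit 456) (nat_lit 2593399425) (nat_lit 0) (nat_lit 2074819561) (nat_lit 380) (nat_lit 2074819561) (nat_lit 193) (nat_lit 1) (nat_lit 187) (nat_lit 1) (nat_lit 192) (nat_lit 1) (nat_lit 339) (nat_lit 442) (nat_lit 359)) (XT.lf (nat_lit 76) (nat_lit 530641034) (nat_lit 0) (nat_lit 5630460923)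 (nat_lit 456) (nat_lit 530641034) (nat_lit 188) (nat_lit 1) (nat_lit 187) (nat_lit 1) (nat_lit 193) (nat_lit 1) (nat_lit 340) (nat_lit 442) (nat_lit 358))))))))
noncomputable def ec230 : XT := (XT.nd (nat_lit 1404) (nat_lit 3420) (nat_lit 0) (XT.nd (nat_lit 702) (nat_lit 2128) (nat_lit 0) (XT.nd (nat_lit 312) (nat_lit 1064) (nat_lit 0) (XT.nd (nat_lit 156) (nat_lit 380) (nat_lit 0) (XT.nd (nat_lit 78) (nat_lit 380) (nat_lit 0) (XT.lf (nat_lit 76) (nat_lit 3084547744) (nat_lit 0) (nat_lit 471569368) (nat_lit 456) (nat_lit 3084547744) (nat_lit 182) (nat_lit 1) (nat_lit 181) (nat_lit 1) (nat_lit 187) (nat_lit 1) (nat_lit 341) (nat_lit 442) (nat_lit 357)) (XT.lf (nat_lit 456) (nat_lit 4619695020) (nat_lit 0) (nat_lit 985280639) (nat_lit 380) (nat_lit 985280639) (nat_lit 182) (nat_lit 1) (nat_lit 176) (nat_lit 1) (nat_lit 181) (nat_lit 1) (nat_lit 342) (nat_lit 442) (nat_lit 356))) (XT.nd (nat_lit 78) (nat_lit 380) (nat_lit 0) (XT.lf (nat_lit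 76) (nat_lit 1535040473) (nat_lit 0) (nat_lit 3470155315) (nat_lit 456) (nat_lit 1535040473) (nat_lit 177) (nat_lit 1) (nat_lit 176) (nat_lit 1) (nat_lit 182) (nat_lit 1) (nat_lit 343) (nat_lit 442) (nat_lit 355)) (XT.lf (nat_lit 456) (nat_lit 1528021492) (nat_lit 0) (nat_lit 2481363934) (nat_lit 380) (nat_lit 2481363934) (nat_lit 177) (nat_lit 1) (nat_lit 171) (nat_lit 1) (nat_lit 176) (nat_lit 1) (nat_lit 344) (nat_lit 442) (nat_lit 354)))) (XT.nd (nat_lit 156) (nat_lit 684) (nat_lit 0) (XT.nd (nat_lit 78) (nat_lit 380) (nat_lit 0) (XT.lf (nat_lit 76) (nat_lit 3039575) (nat_lit 0) (nat_lit 6435955225) (nat_lit 456) (nat_lit 3039575) (nat_lit 172) (nat_lit 1) (nat_lit 171) (nat_lit 1) (nat_lit 177) (nat_lit 1) (nat_lit 345) (nat_lit 442) (nat_lit 353)) (XT.lf (nat_lit 76) (nat_lit 2442463826) (nat_lit 0) (nat_lit 1508318238) (nat_lit 380) (nat_lit 2442463826) (nat_lit 167) (nat_lit 1) (nat_lit 166) (nat_lit 1) (nat_lit 171) (nat_lit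 1) (nat_lit 346) (nat_lit 442) (nat_lit 352))) (XT.nd (nat_lit 78) (nat_lit 304) (nat_lit 0) (XT.lf (nat_lit 456) (nat_lit 3342506992) (nat_lit 0) (nat_lit 1501355463) (nat_lit 380) (nat_lit 1501355463) (nat_lit 167) (nat_lit 1) (nat_lit 161) (nat_lit 1) (nat_lit 166) (nat_lit 1) (nat_lit 347) (nat_lit 442) (nat_lit 351)) (XT.nd (nat_lit 78) (nat_lit 304) (nat_lit 0) (XT.lf (nat_lit 76) (nat_lit 904097033) (nat_lit 0) (nat_lit 4489503569) (nat_lit 456) (nat_lit 904097033) (nat_lit 162) (nat_lit 1) (nat_lit 161) (nat_lit 1) (nat_lit 167) (nat_lit 1) (nat_lit 348) (nat_lit 442) (nat_lit 350)) (XT.lf (nat_lit 380) (nat_lit 274429500) (nat_lit 0) (nat_lit 2988050240) (nat_lit 304) (nat_lit 2988050240) (nat_lit 162) (nat_lit 1) (nat_lit 157) (nat_lit 1) (nat_lit 161) (nat_lit 1) (nat_lit 349) (nat_lit 442) (nat_lit 349)))))) (XT.nd (nat_lit 312) (nat_lit 1368) (nat_lit 0) (XT.nd (nat_lit 156) (nat_lit 304) (nat_lit 0) (XT.nd (nat_lit 78) (nat_lit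 0) (nat_lit 0) (XT.lf (nat_lit 456) (nat_lit 4980951292) (nat_lit 0) (nat_lit 611489731) (nat_lit 380) (nat_lit 611489731) (nat_lit 157) (nat_lit 1) (nat_lit 151) (nat_lit 1) (nat_lit 156) (nat_lit 1) (nat_lit 350) (nat_lit 442) (nat_lit 348)) (XT.lf (nat_lit 76) (nat_lit 1718862512) (nat_lit 0) (nat_lit 2719838487) (nat_lit 456) (nat_lit 1718862512) (nat_lit 152) (nat_lit 1) (nat_lit 151) (nat_lit 1) (nat_lit 157) (nat_lit 1) (nat_lit 351) (nat_lit 442) (nat_lit 347))) (XT.nd (nat_lit 78) (nat_lit 0) (nat_lit 0) (XT.lf (nat_lit 380) (nat_lit 1906864419) (nat_lit 0) (nat_lit 2102445075) (nat_lit 304) (nat_lit 2102445075) (nat_lit 152) (nat_lit 1) (nat_lit 147) (nat_lit 1) (nat_lit 151) (nat_lit 1) (nat_lit 352) (nat_lit 442) (nat_lit 346)) (XT.lf (nat_lit 76) (nat_lit 196696224) (nat_lit 0) (nat_lit 5673203784) (nat_lit 380) (nat_lit 196696224) (nat_lit 148) (nat_lit 1) (nat_lit 147) (nat_lit 1) (nat_lit 152) (nat_lit 1) (nat_lit 353)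 (nat_lit 442) (nat_lit 345)))) (XT.nd (nat_lit 156) (nat_lit 684) (nat_lit 0) (XT.nd (nat_lit 78) (nat_lit 304) (nat_lit 0) (XT.lf (nat_lit 76) (nat_lit 2454254057) (nat_lit 0) (nat_lit 1112936963) (nat_lit 380) (nat_lit 2454254057) (nat_lit 143) (nat_lit 1) (nat_lit 142) (nat_lit 1) (nat_lit 147) (nat_lit 1) (nat_lit 354) (nat_lit 442) (nat_lit 344)) (XT.lf (nat_lit 380) (nat_lit 3382563640) (nat_lit 0) (nat_lit 1297185764) (nat_lit 304) (nat_lit 1297185764) (nat_lit 143) (nat_lit 1) (nat_lit 138) (nat_lit 1) (nat_lit 142) (nat_lit 1) (nat_lit 355) (nat_lit 442) (nat_lit 343))) (XT.nd (nat_lit 78) (nat_lit 684) (nat_lit 0) (XT.lf (nat_lit 76) (nat_lit 932069281) (nat_lit 0) (nat_lit 4068720206) (nat_lit 380) (nat_lit 932069281) (nat_lit 139) (nat_lit 1) (nat_lit 138) (nat_lit 1) (nat_lit 143) (nat_lit 1) (nat_lit 356) (nat_lit 442) (nat_lit 342)) (XT.nd (nat_lit 78) (nat_lit 380) (nat_lit 0) (XT.lf (nat_lit 380) (nat_lit 348718630) (nat_lit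 0) (nat_lit 2770201560) (nat_lit 304) (nat_lit 2770201560) (nat_lit 139) (nat_lit 1) (nat_lit 134) (nat_lit 1) (nat_lit 138) (nat_lit 1) (nat_lit 357) (nat_lit 442) (nat_lit 341)) (XT.lf (nat_lit 380) (nat_lit 4714098955) (nat_lit 0) (nat_lit 565900604) (nat_lit 304) (nat_lit 565900604) (nat_lit 134) (nat_lit 1) (nat_lit 129) (nat_lit 1) (nat_lit 133) (nat_lit 1) (nat_lit 358) (nat_lit 442) (nat_lit 340))))))) (XT.nd (nat_lit 702) (nat_lit 1900) (nat_lit 0) (XT.nd (nat_lit 312) (nat_lit 912) (nat_lit 0) (XT.nd (nat_lit 156) (nat_lit 304) (nat_lit 0) (XT.nd (nat_lit 78) (nat_lit 304) (nat_lit 0) (XT.lf (nat_lit 76) (nat_lit 1596727525) (nat_lit 0) (nat_lit 2609414472) (nat_lit 380) (nat_lit 1596727525) (nat_lit 130) (nat_lit 1) (nat_lit 129) (nat_lit 1) (nat_lit 134) (nat_lit 1) (nat_lit 359) (nat_lit 442) (nat_lit 339)) (XT.lf (nat_lit 380) (nat_lit 1685460491) (nat_lit 0) (nat_lit 2037442758) (nat_lit 304) (nat_lit 2037442758) (nat_lit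 130) (nat_lit 1) (nat_lit 125) (nat_lit 1) (nat_lit 129) (nat_lit 1) (nat_lit 360) (nat_lit 442) (nat_lit 338))) (XT.nd (nat_lit 78) (nat_lit 304) (nat_lit 0) (XT.lf (nat_lit 76) (nat_lit 97936231) (nat_lit 0) (nat_lit 5522564962) (nat_lit 380) (nat_lit 97936231) (nat_lit 126) (nat_lit 1) (nat_lit 125) (nat_lit 1) (nat_lit 130) (nat_lit 1) (nat_lit 361) (nat_lit 442) (nat_lit 337)) (XT.lf (nat_lit 76) (nat_lit 2196344697) (nat_lit 0) (nat_lit 1283779861) (nat_lit 304) (nat_lit 2196344697) (nat_lit 122) (nat_lit 1) (nat_lit 121) (nat_lit 1) (nat_lit 125) (nat_lit 1) (nat_lit 362) (nat_lit 442) (nat_lit 336)))) (XT.nd (nat_lit 156) (nat_lit 608) (nat_lit 0) (XT.nd (nat_lit 78) (nat_lit 0) (nat_lit 0) (XT.lf (nat_lit 380) (nat_lit 2893672005) (nat_lit 0) (nat_lit 1370718170) (nat_lit 304) (nat_lit 1370718170) (nat_lit 122) (nat_lit 1) (nat_lit 117) (nat_lit 1) (nat_lit 121) (nat_lit 1) (nat_lit 363) (nat_lit 442) (nat_lit 335)) (XT.lf (nat_lit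 76) (nat_lit 702441860) (nat_lit 0) (nat_lit 4189298961) (nat_lit 380) (nat_lit 702441860) (nat_lit 118) (nat_lit 1) (nat_lit 117) (nat_lit 1) (nat_lit 122) (nat_lit 1) (nat_lit 364) (nat_lit 442) (nat_lit 334))) (XT.nd (nat_lit 78) (nat_lit 304) (nat_lit 0) (XT.lf (nat_lit 76) (nat_lit 2736156804) (nat_lit 0) (nat_lit 81194776) (nat_lit 304) (nat_lit 2736156804) (nat_lit 114) (nat_lit 1) (nat_lit 113) (nat_lit 1) (nat_lit 117) (nat_lit 1) (nat_lit 365) (nat_lit 442) (nat_lit 333)) (XT.nd (nat_lit 78) (nat_lit 0) (nat_lit 0) (XT.lf (nat_lit 380) (nat_lit 3983665488) (nat_lit 0) (nat_lit 764798377) (nat_lit 304) (nat_lit 764798377) (nat_lit 114) (nat_lit 1) (nat_lit 109) (nat_lit 1) (nat_lit 113) (nat_lit 1) (nat_lit 366) (nat_lit 442) (nat_lit 332)) (XT.lf (nat_lit 76) (nat_lit 1248912328) (nat_lit 0) (nat_lit 2975463292) (nat_lit 380) (nat_lit 1248912328) (nat_lit 110) (nat_lit 1) (nat_lit 109) (nat_lit 1) (nat_lit 114) (nat_lit 1) (nat_lit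 367) (nat_lit 442) (nat_lit 331)))))) (XT.nd (nat_lit 390) (nat_lit 1064) (nat_lit 0) (XT.nd (nat_lit 156) (nat_lit 228) (nat_lit 0) (XT.nd (nat_lit 78) (nat_lit 380) (nat_lit 0) (XT.lf (nat_lit 304) (nat_lit 1021542543) (nat_lit 0) (nat_lit 2206085545) (nat_lit 228) (nat_lit 2206085545) (nat_lit 110) (nat_lit 1) (nat_lit 106) (nat_lit 1) (nat_lit 109) (nat_lit 1) (nat_lit 368) (nat_lit 442) (nat_lit 330)) (XT.lf (nat_lit 380) (nat_lit 4964957652) (nat_lit 0) (nat_lit 214856134) (nat_lit 304) (nat_lit 214856134) (nat_lit 106) (nat_lit 1) (nat_lit 101) (nat_lit 1) (nat_lit 105) (nat_lit 1) (nat_lit 369) (nat_lit 442) (nat_lit 329))) (XT.nd (nat_lit 78) (nat_lit 228) (nat_lit 0) (XT.lf (nat_lit 76) (nat_lit 1742002558) (nat_lit 0) (nat_lit 1871611887) (nat_lit 380) (nat_lit 1742002558) (nat_lit 102) (nat_lit 1) (nat_lit 101) (nat_lit 1) (nat_lit 106) (nat_lit 1) (nat_lit 370) (nat_lit 442) (nat_lit 328)) (XT.nd (nat_lit 78) (nat_lit 0)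 (nat_lit 0) (XT.lf (nat_lit 304) (nat_lit 2019777629) (nat_lit 0) (nat_lit 1648655382) (nat_lit 228) (nat_lit 1648655382) (nat_lit 102) (nat_lit 1) (nat_lit 98) (nat_lit 1) (nat_lit 101) (nat_lit 1) (nat_lit 371) (nat_lit 442) (nat_lit 327)) (XT.lf (nat_lit 76) (nat_lit 285442237) (nat_lit 0) (nat_lit 4708168499) (nat_lit 304) (nat_lit 285442237) (nat_lit 99) (nat_lit 1) (nat_lit 98) (nat_lit 1) (nat_lit 102) (nat_lit 1) (nat_lit 372) (nat_lit 442) (nat_lit 326))))) (XT.nd (nat_lit 156) (nat_lit 532) (nat_lit 0) (XT.nd (nat_lit 78) (nat_lit 228) (nat_lit 0) (XT.lf (nat_lit 76) (nat_lit 2186008366) (nat_lit 0) (nat_lit 869024918) (nat_lit 304) (nat_lit 2186008366) (nat_lit 95) (nat_lit 1) (nat_lit 94) (nat_lit 1) (nat_lit 98) (nat_lit 1) (nat_lit 373) (nat_lit 442) (nat_lit 325)) (XT.lf (nat_lit 304) (nat_lit 2920893916) (nat_lit 0) (nat_lit 1141311892) (nat_lit 228) (nat_lit 1141311892) (nat_lit 95) (nat_lit 1) (nat_lit 91) (nat_lit 1)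 (nat_lit 94) (nat_lit 1) (nat_lit 374) (nat_lit 442) (nat_lit 324))) (XT.nd (nat_lit 78) (nat_lit 532) (nat_lit 0) (XT.lf (nat_lit 76) (nat_lit 739440410) (nat_lit 0) (nat_lit 3687469408) (nat_lit 304) (nat_lit 739440410) (nat_lit 92) (nat_lit 1) (nat_lit 91) (nat_lit 1) (nat_lit 95) (nat_lit 1) (nat_lit 375) (nat_lit 442) (nat_lit 323)) (XT.nd (nat_lit 78) (nat_lit 304) (nat_lit 0) (XT.lf (nat_lit 304) (nat_lit 40882824) (nat_lit 0) (nat_lit 2544276513) (nat_lit 228) (nat_lit 2544276513) (nat_lit 92) (nat_lit 1) (nat_lit 88) (nat_lit 1) (nat_lit 91) (nat_lit 1) (nat_lit 376) (nat_lit 442) (nat_lit 322)) (XT.lf (nat_lit 304) (nat_lit 3732701143) (nat_lit 0) (nat_lit 680091025) (nat_lit 228) (nat_lit 680091025) (nat_lit 88) (nat_lit 1) (nat_lit 84) (nat_lit 1) (nat_lit 87) (nat_lit 1) (nat_lit 377) (nat_lit 442) (nat_lit 321))))))))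
noncomputable def ec231 : XT := (XT.nd (nat_lit 1404) (nat_lit 1748) (nat_lit 0) (XT.nd (nat_lit 702) (nat_lit 1368) (nat_lit 0) (XT.nd (nat_lit 312) (nat_lit 684) (nat_lit 0) (XT.nd (nat_lit 156) (nat_lit 304) (nat_lit 0) (XT.nd (nat_lit 78) (nat_lit 228) (nat_lit 0) (XT.lf (nat_lit 76) (nat_lit 1149536391) (nat_lit 0) (nat_lit 2757484566) (nat_lit 304) (nat_lit 1149536391) (nat_lit 85) (nat_lit 1) (nat_lit 84) (nat_lit 1) (nat_lit 88) (nat_lit 1) (nat_lit 378) (nat_lit 442) (nat_lit 320)) (XT.lf (nat_lit 304) (nat_lit 875413435) (nat_lit 0) (nat_lit 2072587313) (nat_lit 228) (nat_lit 2072587313) (nat_lit 85) (nat_lit 1) (nat_lit 81) (nat_lit 1) (nat_lit 84) (nat_lit 1) (nat_lit 379) (nat_lit 442) (nat_lit 319))) (XT.nd (nat_lit 78) (nat_lit 0) (nat_lit 0) (XT.lf (nat_lit 304) (nat_lit 4462406190) (nat_lit 0) (nat_lit 261333545) (nat_lit 228) (nat_lit 261333545) (nat_lit 81) (nat_lit 1) (nat_lit 77) (nat_lit 1) (nat_lit 80) (nat_lit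 1) (nat_lit 380) (nat_lit 442) (nat_lit 318)) (XT.lf (nat_lit 76) (nat_lit 1519256436) (nat_lit 0) (nat_lit 1911051091) (nat_lit 304) (nat_lit 1519256436) (nat_lit 78) (nat_lit 1) (nat_lit 77) (nat_lit 1) (nat_lit 81) (nat_lit 1) (nat_lit 381) (nat_lit 442) (nat_lit 317)))) (XT.nd (nat_lit 156) (nat_lit 456) (nat_lit 0) (XT.nd (nat_lit 78) (nat_lit 0) (nat_lit 0) (XT.lf (nat_lit 304) (nat_lit 1629966329) (nat_lit 0) (nat_lit 1642269028) (nat_lit 228) (nat_lit 1642269028) (nat_lit 78) (nat_lit 1) (nat_lit 74) (nat_lit 1) (nat_lit 77) (nat_lit 1) (nat_lit 382) (nat_lit 442) (nat_lit 316)) (XT.lf (nat_lit 76) (nat_lit 119121933) (nat_lit 0) (nat_lit 4641676729) (nat_lit 304) (nat_lit 119121933) (nat_lit 75) (nat_lit 1) (nat_lit 74) (nat_lit 1) (nat_lit 78) (nat_lit 1) (nat_lit 383) (nat_lit 442) (nat_lit 315))) (XT.nd (nat_lit 78) (nat_lit 228) (nat_lit 0) (XT.lf (nat_lit 76) (nat_lit 1851854678) (nat_lit 0) (nat_lit 1141556582) (nat_lit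 228) (nat_lit 1851854678) (nat_lit 72) (nat_lit 1) (nat_lit 71) (nat_lit 1) (nat_lit 74) (nat_lit 1) (nat_lit 384) (nat_lit 442) (nat_lit 314)) (XT.nd (nat_lit 78) (nat_lit 0) (nat_lit 0) (XT.lf (nat_lit 304) (nat_lit 2310954224) (nat_lit 0) (nat_lit 1250064220) (nat_lit 228) (nat_lit 1250064220) (nat_lit 72) (nat_lit 1) (nat_lit 68) (nat_lit 1) (nat_lit 71) (nat_lit 1) (nat_lit 385) (nat_lit 442) (nat_lit 313)) (XT.lf (nat_lit 76) (nat_lit 465101841) (nat_lit 0) (nat_lit 3847065882) (nat_lit 304) (nat_lit 465101841) (nat_lit 69) (nat_lit 1) (nat_lit 68) (nat_lit 1) (nat_lit 72) (nat_lit 1) (nat_lit 386) (nat_lit 442) (nat_lit 312)))))) (XT.nd (nat_lit 312) (nat_lit 760) (nat_lit 0) (XT.nd (nat_lit 156) (nat_lit 152) (nat_lit 0) (XT.nd (nat_lit 78) (nat_lit 228) (nat_lit 0) (XT.lf (nat_lit 76) (nat_lit 2150333914) (nat_lit 0) (nat_lit 442897094) (nat_lit 228) (nat_lit 2150333914) (nat_lit 66) (nat_lit 1) (nat_lit 65) (nat_lit 1) (nat_lit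 68) (nat_lit 1) (nat_lit 387) (nat_lit 442) (nat_lit 311)) (XT.lf (nat_lit 304) (nat_lit 2924295162) (nat_lit 0) (nat_lit 892965612) (nat_lit 228) (nat_lit 892965612) (nat_lit 66) (nat_lit 1) (nat_lit 62) (nat_lit 1) (nat_lit 65) (nat_lit 1) (nat_lit 388) (nat_lit 442) (nat_lit 310))) (XT.nd (nat_lit 78) (nat_lit 152) (nat_lit 0) (XT.lf (nat_lit 76) (nat_lit 777772000) (nat_lit 0) (nat_lit 3121617815) (nat_lit 304) (nat_lit 777772000) (nat_lit 63) (nat_lit 1) (nat_lit 62) (nat_lit 1) (nat_lit 66) (nat_lit 1) (nat_lit 389) (nat_lit 442) (nat_lit 309)) (XT.lf (nat_lit 228) (nat_lit 193094139) (nat_lit 0) (nat_lit 2225624373) (nat_lit 152) (nat_lit 2225624373) (nat_lit 63) (nat_lit 1) (nat_lit 60) (nat_lit 1) (nat_lit 62) (nat_lit 1) (nat_lit 390) (nat_lit 442) (nat_lit 308)))) (XT.nd (nat_lit 156) (nat_lit 456) (nat_lit 0) (XT.nd (nat_lit 78) (nat_lit 0) (nat_lit 0) (XT.lf (nat_lit 304) (nat_lit 3475450310) (nat_lit 0) (nat_lit 568196999)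 (nat_lit 228) (nat_lit 568196999) (nat_lit 60) (nat_lit 1) (nat_lit 56) (nat_lit 1) (nat_lit 59) (nat_lit 1) (nat_lit 391) (nat_lit 442) (nat_lit 307)) (XT.lf (nat_lit 76) (nat_lit 1059805607) (nat_lit 0) (nat_lit 2459895865) (nat_lit 304) (nat_lit 1059805607) (nat_lit 57) (nat_lit 1) (nat_lit 56) (nat_lit 1) (nat_lit 60) (nat_lit 1) (nat_lit 392) (nat_lit 442) (nat_lit 306))) (XT.nd (nat_lit 78) (nat_lit 304) (nat_lit 0) (XT.lf (nat_lit 228) (nat_lit 774173675) (nat_lit 0) (nat_lit 1886656457) (nat_lit 152) (nat_lit 1886656457) (nat_lit 57) (nat_lit 1) (nat_lit 54) (nat_lit 1) (nat_lit 56) (nat_lit 1) (nat_lit 393) (nat_lit 442) (nat_lit 305)) (XT.nd (nat_lit 78) (nat_lit 0) (nat_lit 0) (XT.lf (nat_lit 304) (nat_lit 3969458873) (nat_lit 0) (nat_lit 273195614) (nat_lit 228) (nat_lit 273195614) (nat_lit 54) (nat_lit 1) (nat_lit 50) (nat_lit 1) (nat_lit 53) (nat_lit 1) (nat_lit 394) (nat_lit 442) (nat_lit 304)) (XT.lf (nat_lit 76) (nat_lit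 1313669604) (nat_lit 0) (nat_lit 1856880725) (nat_lit 304) (nat_lit 1313669604) (nat_lit 51) (nat_lit 1) (nat_lit 50) (nat_lit 1) (nat_lit 54) (nat_lit 1) (nat_lit 395) (nat_lit 442) (nat_lit 303))))))) (XT.nd (nat_lit 702) (nat_lit 532) (nat_lit 0) (XT.nd (nat_lit 312) (nat_lit 608) (nat_lit 0) (XT.nd (nat_lit 156) (nat_lit 152) (nat_lit 0) (XT.nd (nat_lit 78) (nat_lit 304) (nat_lit 0) (XT.lf (nat_lit 228) (nat_lit 1299319296) (nat_lit 0) (nat_lit 1576825566) (nat_lit 152) (nat_lit 1576825566) (nat_lit 51) (nat_lit 1) (nat_lit 48) (nat_lit 1) (nat_lit 50) (nat_lit 1) (nat_lit 396) (nat_lit 442) (nat_lit 302)) (XT.lf (nat_lit 304) (nat_lit 4410970346) (nat_lit 0) (nat_lit 5595828) (nat_lit 228) (nat_lit 5595828) (nat_lit 48) (nat_lit 1) (nat_lit 44) (nat_lit 1) (nat_lit 47) (nat_lit 1) (nat_lit 397) (nat_lit 442) (nat_lit 301))) (XT.nd (nat_lit 78) (nat_lit 152) (nat_lit 0) (XT.lf (nat_lit 76) (nat_lit 1541640441) (nat_lit 0) (nat_lit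 1307938589) (nat_lit 304) (nat_lit 1541640441) (nat_lit 45) (nat_lit 1) (nat_lit 44) (nat_lit 1) (nat_lit 48) (nat_lit 1) (nat_lit 398) (nat_lit 442) (nat_lit 300)) (XT.lf (nat_lit 228) (nat_lit 1773019686) (nat_lit 0) (nat_lit 1293847623) (nat_lit 152) (nat_lit 1293847623) (nat_lit 45) (nat_lit 1) (nat_lit 42) (nat_lit 1) (nat_lit 44) (nat_lit 1) (nat_lit 399) (nat_lit 442) (nat_lit 299)))) (XT.nd (nat_lit 156) (nat_lit 380) (nat_lit 0) (XT.nd (nat_lit 78) (nat_lit 228) (nat_lit 0) (XT.lf (nat_lit 76) (nat_lit 238354017) (nat_lit 0) (nat_lit 3853870258) (nat_lit 228) (nat_lit 238354017) (nat_lit 43) (nat_lit 1) (nat_lit 42) (nat_lit 1) (nat_lit 45) (nat_lit 1) (nat_lit 400) (nat_lit 442) (nat_lit 298)) (XT.lf (nat_lit 76) (nat_lit 1745818632) (nat_lit 0) (nat_lit 808791735) (nat_lit 228) (nat_lit 1745818632) (nat_lit 40) (nat_lit 1) (nat_lit 39) (nat_lit 1) (nat_lit 42) (nat_lit 1) (nat_lit 401) (nat_lit 442) (nat_lit 297))) (XT.nd (nat_lit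 78) (nat_lit 228) (nat_lit 0) (XT.lf (nat_lit 228) (nat_lit 2199417203) (nat_lit 0) (nat_lit 1035613774) (nat_lit 152) (nat_lit 1035613774) (nat_lit 40) (nat_lit 1) (nat_lit 37) (nat_lit 1) (nat_lit 39) (nat_lit 1) (nat_lit 402) (nat_lit 442) (nat_lit 296)) (XT.nd (nat_lit 78) (nat_lit 228) (nat_lit 0) (XT.lf (nat_lit 76) (nat_lit 458984556) (nat_lit 0) (nat_lit 3323189796) (nat_lit 228) (nat_lit 458984556) (nat_lit 38) (nat_lit 1) (nat_lit 37) (nat_lit 1) (nat_lit 40) (nat_lit 1) (nat_lit 403) (nat_lit 442) (nat_lit 295)) (XT.lf (nat_lit 76) (nat_lit 1928142208) (nat_lit 0) (nat_lit 355491341) (nat_lit 228) (nat_lit 1928142208) (nat_lit 35) (nat_lit 1) (nat_lit 34) (nat_lit 1) (nat_lit 37) (nat_lit 1) (nat_lit 404) (nat_lit 442) (nat_lit 294)))))) (XT.nd (nat_lit 50622) (nat_lit 0) (nat_lit 25916) (XT.nd (nat_lit 156) (nat_lit 380) (nat_lit 0) (XT.nd (nat_lit 78) (nat_lit 0) (nat_lit 0) (XT.lf (nat_lit 228) (nat_lit 2582334343) (nat_lit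 0) (nat_lit 800177015) (nat_lit 152) (nat_lit 800177015) (nat_lit 35) (nat_lit 1) (nat_lit 32) (nat_lit 1) (nat_lit 34) (nat_lit 1) (nat_lit 405) (nat_lit 442) (nat_lit 293)) (XT.lf (nat_lit 76) (nat_lit 658131066) (nat_lit 0) (nat_lit 2837573875) (nat_lit 228) (nat_lit 658131066) (nat_lit 33) (nat_lit 1) (nat_lit 32) (nat_lit 1) (nat_lit 35) (nat_lit 1) (nat_lit 406) (nat_lit 442) (nat_lit 292))) (XT.nd (nat_lit 78) (nat_lit 228) (nat_lit 0) (XT.lf (nat_lit 228) (nat_lit 56346617) (nat_lit 0) (nat_lit 2034418356) (nat_lit 152) (nat_lit 2034418356) (nat_lit 33) (nat_lit 1) (nat_lit 30) (nat_lit 1) (nat_lit 32) (nat_lit 1) (nat_lit 407) (nat_lit 442) (nat_lit 291)) (XT.nd (nat_lit 50310) (nat_lit 0) (nat_lit 28272) (XT.lf (nat_lit 228) (nat_lit 2925298183) (nat_lit 0) (nat_lit 585739842) (nat_lit 152) (nat_lit 585739842) (nat_lit 30) (nat_lit 1) (nat_lit 27) (nat_lit 1) (nat_lit 29) (nat_lit 1) (nat_lit 408) (nat_lit 442) (nat_lit 290))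 (XT.lf (nat_lit 76) (nat_lit 1670641214) (nat_lit 0) (nat_lit 6584652914) (nat_lit 912) (nat_lit 1670641214) (nat_lit 400) (nat_lit 1) (nat_lit 399) (nat_lit 1) (nat_lit 411) (nat_lit 1) (nat_lit 292) (nat_lit 443) (nat_lit 405))))) (XT.nd (nat_lit 156) (nat_lit 1596) (nat_lit 0) (XT.nd (nat_lit 78) (nat_lit 0) (nat_lit 0) (XT.lf (nat_lit 836) (nat_lit 2109320458) (nat_lit 0) (nat_lit 3865267970) (nat_lit 760) (nat_lit 3865267970) (nat_lit 400) (nat_lit 1) (nat_lit 389) (nat_lit 1) (nat_lit 399) (nat_lit 1) (nat_lit 293) (nat_lit 443) (nat_lit 404)) (XT.lf (nat_lit 76) (nat_lit 443772797) (nat_lit 0) (nat_lit 8867645779) (nat_lit 836) (nat_lit 443772797) (nat_lit 390) (nat_lit 1) (nat_lit 389) (nat_lit 1) (nat_lit 400) (nat_lit 1) (nat_lit 294) (nat_lit 443) (nat_lit 403))) (XT.nd (nat_lit 78) (nat_lit 760) (nat_lit 0) (XT.lf (nat_lit 76) (nat_lit 4653608207) (nat_lit 0) (nat_lit 363778250) (nat_lit 836) (nat_lit 4653608207) (nat_lit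 379) (nat_lit 1) (nat_lit 378) (nat_lit 1) (nat_lit 389) (nat_lit 1) (nat_lit 295) (nat_lit 443) (nat_lit 402)) (XT.nd (nat_lit 78) (nat_lit 0) (nat_lit 0) (XT.lf (nat_lit 836) (nat_lit 8000987143) (nat_lit 0) (nat_lit 793594031) (nat_lit 760) (nat_lit 793594031) (nat_lit 379) (nat_lit 1) (nat_lit 368) (nat_lit 1) (nat_lit 378) (nat_lit 1) (nat_lit 296) (nat_lit 443) (nat_lit 401)) (XT.lf (nat_lit 76) (nat_lit 3333691770) (nat_lit 0) (nat_lit 2838557163) (nat_lit 836) (nat_lit 3333691770) (nat_lit 369) (nat_lit 1) (nat_lit 368) (nat_lit 1) (nat_lit 379) (nat_lit 1) (nat_lit 297) (nat_lit 443) (nat_lit 400))))))))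
noncomputable def ec232 : XT := (XT.nd (nat_lit 1404) (nat_lit 5168) (nat_lit 0) (XT.nd (nat_lit 702) (nat_lit 3724) (nat_lit 0) (XT.nd (nat_lit 312) (nat_lit 2128) (nat_lit 0) (XT.nd (nat_lit 156) (nat_lit 684) (nat_lit 0) (XT.nd (nat_lit 78) (nat_lit 0) (nat_lit 0) (XT.lf (nat_lit 836) (nat_lit 5341254310) (nat_lit 0) (nat_lit 2041849080) (nat_lit 760) (nat_lit 2041849080) (nat_lit 369) (nat_lit 1) (nat_lit 358) (nat_lit 1) (nat_lit 368) (nat_lit 1) (nat_lit 298) (nat_lit 443) (nat_lit 399)) (XT.lf (nat_lit 76) (nat_lit 2002877534) (nat_lit 0) (nat_lit 5339103596) (nat_lit 836) (nat_lit 2002877534) (nat_lit 359) (nat_lit 1) (nat_lit 358) (nat_lit 1) (nat_lit 369) (nat_lit 1) (nat_lit 299) (nat_lit 443) (nat_lit 398))) (XT.nd (nat_lit 78) (nat_lit 0) (nat_lit 0) (XT.lf (nat_lit 760) (nat_lit 2661316404) (nat_lit 0) (nat_lit 3302165090) (nat_lit 684) (nat_lit 3302165090) (nat_lit 359) (nat_lit 1) (nat_lit 349) (nat_lit 1) (nat_lit 358)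 (nat_lit 1) (nat_lit 300) (nat_lit 443) (nat_lit 397)) (XT.lf (nat_lit 76) (nat_lit 662807335) (nat_lit 0) (nat_lit 7862027432) (nat_lit 760) (nat_lit 662807335) (nat_lit 350) (nat_lit 1) (nat_lit 349) (nat_lit 1) (nat_lit 359) (nat_lit 1) (nat_lit 301) (nat_lit 443) (nat_lit 396)))) (XT.nd (nat_lit 156) (nat_lit 684) (nat_lit 0) (XT.nd (nat_lit 78) (nat_lit 684) (nat_lit 0) (XT.lf (nat_lit 76) (nat_lit 4537497388) (nat_lit 0) (nat_lit 35153525) (nat_lit 760) (nat_lit 4537497388) (nat_lit 340) (nat_lit 1) (nat_lit 339) (nat_lit 1) (nat_lit 349) (nat_lit 1) (nat_lit 302) (nat_lit 443) (nat_lit 395)) (XT.lf (nat_lit 760) (nat_lit 7672914216) (nat_lit 0) (nat_lit 680458292) (nat_lit 684) (nat_lit 680458292) (nat_lit 340) (nat_lit 1) (nat_lit 330) (nat_lit 1) (nat_lit 339) (nat_lit 1) (nat_lit 303) (nat_lit 443) (nat_lit 394))) (XT.nd (nat_lit 78) (nat_lit 684) (nat_lit 0) (XT.lf (nat_lit 76) (nat_lit 3123755714) (nat_lit 0) (nat_lit 2710501937)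 (nat_lit 760) (nat_lit 3123755714) (nat_lit 331) (nat_lit 1) (nat_lit 330) (nat_lit 1) (nat_lit 340) (nat_lit 1) (nat_lit 304) (nat_lit 443) (nat_lit 393)) (XT.nd (nat_lit 78) (nat_lit 0) (nat_lit 0) (XT.lf (nat_lit 760) (nat_lit 4832225466) (nat_lit 0) (nat_lit 2025553715) (nat_lit 684) (nat_lit 2025553715) (nat_lit 331) (nat_lit 1) (nat_lit 321) (nat_lit 1) (nat_lit 330) (nat_lit 1) (nat_lit 305) (nat_lit 443) (nat_lit 392)) (XT.lf (nat_lit 76) (nat_lit 1706344358) (nat_lit 0) (nat_lit 5396800554) (nat_lit 760) (nat_lit 1706344358) (nat_lit 322) (nat_lit 1) (nat_lit 321) (nat_lit 1) (nat_lit 331) (nat_lit 1) (nat_lit 306) (nat_lit 443) (nat_lit 391)))))) (XT.nd (nat_lit 312) (nat_lit 1824) (nat_lit 0) (XT.nd (nat_lit 156) (nat_lit 1292) (nat_lit 0) (XT.nd (nat_lit 78) (nat_lit 0) (nat_lit 0) (XT.lf (nat_lit 684) (nat_lit 1985480752) (nat_lit 0) (nat_lit 3375458311) (nat_lit 608) (nat_lit 3375458311) (nat_lit 322) (nat_lit 1) (nat_lit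 313) (nat_lit 1) (nat_lit 321) (nat_lit 1) (nat_lit 307) (nat_lit 443) (nat_lit 390)) (XT.lf (nat_lit 76) (nat_lit 286554190) (nat_lit 0) (nat_lit 8091372455) (nat_lit 684) (nat_lit 286554190) (nat_lit 314) (nat_lit 1) (nat_lit 313) (nat_lit 1) (nat_lit 322) (nat_lit 1) (nat_lit 308) (nat_lit 443) (nat_lit 389))) (XT.nd (nat_lit 78) (nat_lit 608) (nat_lit 0) (XT.lf (nat_lit 76) (nat_lit 3869678632) (nat_lit 0) (nat_lit 853461081) (nat_lit 684) (nat_lit 3869678632) (nat_lit 305) (nat_lit 1) (nat_lit 304) (nat_lit 1) (nat_lit 313) (nat_lit 1) (nat_lit 309) (nat_lit 443) (nat_lit 388)) (XT.lf (nat_lit 684) (nat_lit 6268437644) (nat_lit 0) (nat_lit 1126933426) (nat_lit 608) (nat_lit 1126933426) (nat_lit 305) (nat_lit 1) (nat_lit 296) (nat_lit 1) (nat_lit 304) (nat_lit 1) (nat_lit 310) (nat_lit 443) (nat_lit 387)))) (XT.nd (nat_lit 156) (nat_lit 1216) (nat_lit 0) (XT.nd (nat_lit 78) (nat_lit 608) (nat_lit 0) (XT.lf (nat_lit 76) (nat_lit 2392423376)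 (nat_lit 0) (nat_lit 3667512543) (nat_lit 684) (nat_lit 2392423376) (nat_lit 297) (nat_lit 1) (nat_lit 296) (nat_lit 1) (nat_lit 305) (nat_lit 1) (nat_lit 311) (nat_lit 443) (nat_lit 386)) (XT.lf (nat_lit 684) (nat_lit 3306217507) (nat_lit 0) (nat_lit 2538547478) (nat_lit 608) (nat_lit 2538547478) (nat_lit 297) (nat_lit 1) (nat_lit 288) (nat_lit 1) (nat_lit 296) (nat_lit 1) (nat_lit 312) (nat_lit 443) (nat_lit 385))) (XT.nd (nat_lit 78) (nat_lit 1216) (nat_lit 0) (XT.lf (nat_lit 76) (nat_lit 917342755) (nat_lit 0) (nat_lit 6480504657) (nat_lit 684) (nat_lit 917342755) (nat_lit 289) (nat_lit 1) (nat_lit 288) (nat_lit 1) (nat_lit 297) (nat_lit 1) (nat_lit 313) (nat_lit 443) (nat_lit 384)) (XT.nd (nat_lit 78) (nat_lit 684) (nat_lit 0) (XT.lf (nat_lit 608) (nat_lit 349372184) (nat_lit 0) (nat_lit 3949097720) (nat_lit 532) (nat_lit 3949097720) (nat_lit 289) (nat_lit 1) (nat_lit 281) (nat_lit 1) (nat_lit 288) (nat_lit 1) (nat_lit 314) (nat_lit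 443) (nat_lit 383)) (XT.lf (nat_lit 684) (nat_lit 7079102473) (nat_lit 0) (nat_lit 550917079) (nat_lit 608) (nat_lit 550917079) (nat_lit 281) (nat_lit 1) (nat_lit 272) (nat_lit 1) (nat_lit 280) (nat_lit 1) (nat_lit 315) (nat_lit 443) (nat_lit 382))))))) (XT.nd (nat_lit 702) (nat_lit 2508) (nat_lit 0) (XT.nd (nat_lit 312) (nat_lit 1596) (nat_lit 0) (XT.nd (nat_lit 156) (nat_lit 532) (nat_lit 0) (XT.nd (nat_lit 78) (nat_lit 532) (nat_lit 0) (XT.lf (nat_lit 76) (nat_lit 2774296468) (nat_lit 0) (nat_lit 2566055470) (nat_lit 684) (nat_lit 2774296468) (nat_lit 273) (nat_lit 1) (nat_lit 272) (nat_lit 1) (nat_lit 281) (nat_lit 1) (nat_lit 316) (nat_lit 443) (nat_lit 381)) (XT.lf (nat_lit 608) (nat_lit 4031211446) (nat_lit 0) (nat_lit 2009058743) (nat_lit 532) (nat_lit 2009058743) (nat_lit 273) (nat_lit 1) (nat_lit 265) (nat_lit 1) (nat_lit 272) (nat_lit 1) (nat_lit 317) (nat_lit 443) (nat_lit 380))) (XT.nd (nat_lit 78) (nat_lit 532) (nat_lit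 0) (XT.lf (nat_lit 76) (nat_lit 1258442885) (nat_lit 0) (nat_lit 5467880996) (nat_lit 608) (nat_lit 1258442885) (nat_lit 266) (nat_lit 1) (nat_lit 265) (nat_lit 1) (nat_lit 273) (nat_lit 1) (nat_lit 318) (nat_lit 443) (nat_lit 379)) (XT.lf (nat_lit 608) (nat_lit 996279853) (nat_lit 0) (nat_lit 3462242660) (nat_lit 532) (nat_lit 3462242660) (nat_lit 266) (nat_lit 1) (nat_lit 258) (nat_lit 1) (nat_lit 265) (nat_lit 1) (nat_lit 319) (nat_lit 443) (nat_lit 378)))) (XT.nd (nat_lit 156) (nat_lit 988) (nat_lit 0) (XT.nd (nat_lit 78) (nat_lit 0) (nat_lit 0) (XT.lf (nat_lit 608) (nat_lit 7359947189) (nat_lit 0) (nat_lit 248905688) (nat_lit 532) (nat_lit 248905688) (nat_lit 258) (nat_lit 1) (nat_lit 250) (nat_lit 1) (nat_lit 257) (nat_lit 1) (nat_lit 320) (nat_lit 443) (nat_lit 377)) (XT.lf (nat_lit 76) (nat_lit 2898661330) (nat_lit 0) (nat_lit 1997582174) (nat_lit 608) (nat_lit 2898661330) (nat_lit 251) (nat_lit 1) (nat_lit 250) (nat_lit 1) (nat_lit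 258) (nat_lit 1) (nat_lit 321) (nat_lit 443) (nat_lit 376))) (XT.nd (nat_lit 78) (nat_lit 456) (nat_lit 0) (XT.lf (nat_lit 608) (nat_lit 4252195842) (nat_lit 0) (nat_lit 1740415001) (nat_lit 532) (nat_lit 1740415001) (nat_lit 251) (nat_lit 1) (nat_lit 243) (nat_lit 1) (nat_lit 250) (nat_lit 1) (nat_lit 322) (nat_lit 443) (nat_lit 375)) (XT.nd (nat_lit 78) (nat_lit 456) (nat_lit 0) (XT.lf (nat_lit 76) (nat_lit 1354602695) (nat_lit 0) (nat_lit 4962602617) (nat_lit 608) (nat_lit 1354602695) (nat_lit 244) (nat_lit 1) (nat_lit 243) (nat_lit 1) (nat_lit 251) (nat_lit 1) (nat_lit 323) (nat_lit 443) (nat_lit 374)) (XT.lf (nat_lit 532) (nat_lit 1163820951) (nat_lit 0) (nat_lit 3223664698) (nat_lit 456) (nat_lit 3223664698) (nat_lit 244) (nat_lit 1) (nat_lit 237) (nat_lit 1) (nat_lit 243) (nat_lit 1) (nat_lit 324) (nat_lit 443) (nat_lit 373)))))) (XT.nd (nat_lit 312) (nat_lit 1444) (nat_lit 0) (XT.nd (nat_lit 156) (nat_lit 456) (nat_lit 0) (XT.nd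 (nat_lit 78) (nat_lit 0) (nat_lit 0) (XT.lf (nat_lit 608) (nat_lit 7194829775) (nat_lit 0) (nat_lit 178303807) (nat_lit 532) (nat_lit 178303807) (nat_lit 237) (nat_lit 1) (nat_lit 229) (nat_lit 1) (nat_lit 236) (nat_lit 1) (nat_lit 325) (nat_lit 443) (nat_lit 372)) (XT.lf (nat_lit 76) (nat_lit 2806419903) (nat_lit 0) (nat_lit 1878973031) (nat_lit 608) (nat_lit 2806419903) (nat_lit 230) (nat_lit 1) (nat_lit 229) (nat_lit 1) (nat_lit 237) (nat_lit 1) (nat_lit 326) (nat_lit 443) (nat_lit 371))) (XT.nd (nat_lit 78) (nat_lit 0) (nat_lit 0) (XT.lf (nat_lit 532) (nat_lit 4049507586) (nat_lit 0) (nat_lit 1691803712) (nat_lit 456) (nat_lit 1691803712) (nat_lit 230) (nat_lit 1) (nat_lit 223) (nat_lit 1) (nat_lit 229) (nat_lit 1) (nat_lit 327) (nat_lit 443) (nat_lit 370)) (XT.lf (nat_lit 76) (nat_lit 1245005503) (nat_lit 0) (nat_lit 4885031272) (nat_lit 532) (nat_lit 1245005503) (nat_lit 224) (nat_lit 1) (nat_lit 223) (nat_lit 1) (nat_lit 230) (nat_lit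 1) (nat_lit 328) (nat_lit 443) (nat_lit 369)))) (XT.nd (nat_lit 156) (nat_lit 456) (nat_lit 0) (XT.nd (nat_lit 78) (nat_lit 532) (nat_lit 0) (XT.lf (nat_lit 532) (nat_lit 928954427) (nat_lit 0) (nat_lit 3194261818) (nat_lit 456) (nat_lit 3194261818) (nat_lit 224) (nat_lit 1) (nat_lit 217) (nat_lit 1) (nat_lit 223) (nat_lit 1) (nat_lit 329) (nat_lit 443) (nat_lit 368)) (XT.lf (nat_lit 532) (nat_lit 6657116044) (nat_lit 0) (nat_lit 301823774) (nat_lit 456) (nat_lit 301823774) (nat_lit 217) (nat_lit 1) (nat_lit 210) (nat_lit 1) (nat_lit 216) (nat_lit 1) (nat_lit 330) (nat_lit 443) (nat_lit 367))) (XT.nd (nat_lit 78) (nat_lit 456) (nat_lit 0) (XT.lf (nat_lit 76) (nat_lit 2533351027) (nat_lit 0) (nat_lit 2137476404) (nat_lit 532) (nat_lit 2533351027) (nat_lit 211) (nat_lit 1) (nat_lit 210) (nat_lit 1) (nat_lit 217) (nat_lit 1) (nat_lit 331) (nat_lit 443) (nat_lit 366)) (XT.nd (nat_lit 78) (nat_lit 0) (nat_lit 0) (XT.lf (nat_lit 532) (nat_lit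 3493410307) (nat_lit 0) (nat_lit 1827508398) (nat_lit 456) (nat_lit 1827508398) (nat_lit 211) (nat_lit 1) (nat_lit 204) (nat_lit 1) (nat_lit 210) (nat_lit 1) (nat_lit 332) (nat_lit 443) (nat_lit 365)) (XT.lf (nat_lit 76) (nat_lit 963916125) (nat_lit 0) (nat_lit 5165483033) (nat_lit 532) (nat_lit 963916125) (nat_lit 205) (nat_lit 1) (nat_lit 204) (nat_lit 1) (nat_lit 211) (nat_lit 1) (nat_lit 333) (nat_lit 443) (nat_lit 364))))))))
noncomputable def ec233 : XT := (XT.nd (nat_lit 1404) (nat_lit 3724) (nat_lit 0) (XT.nd (nat_lit 702) (nat_lit 1824) (nat_lit 0) (XT.nd (nat_lit 312) (nat_lit 1216) (nat_lit 0) (XT.nd (nat_lit 156) (nat_lit 380) (nat_lit 0) (XT.nd (nat_lit 78) (nat_lit 532) (nat_lit 0) (XT.lf (nat_lit 456) (nat_lit 358968362) (nat_lit 0) (nat_lit 3339824691) (nat_lit 380) (nat_lit 3339824691) (nat_lit 205) (nat_lit 1) (nat_lit 199) (nat_lit 1) (nat_lit 204) (nat_lit 1) (nat_lit 334) (nat_lit 443) (nat_lit 363)) (XT.lf (nat_lit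 532) (nat_lit 5810900554) (nat_lit 0) (nat_lit 586868832) (nat_lit 456) (nat_lit 586868832) (nat_lit 199) (nat_lit 1) (nat_lit 192) (nat_lit 1) (nat_lit 198) (nat_lit 1) (nat_lit 335) (nat_lit 443) (nat_lit 362))) (XT.nd (nat_lit 78) (nat_lit 380) (nat_lit 0) (XT.lf (nat_lit 76) (nat_lit 2110706809) (nat_lit 0) (nat_lit 2709503233) (nat_lit 532) (nat_lit 2110706809) (nat_lit 193) (nat_lit 1) (nat_lit 192) (nat_lit 1) (nat_lit 199) (nat_lit 1) (nat_lit 336) (nat_lit 443) (nat_lit 361)) (XT.lf (nat_lit 456) (nat_lit 2645267414) (nat_lit 0) (nat_lit 2116315953) (nat_lit 380) (nat_lit 2116315953) (nat_lit 193) (nat_lit 1) (nat_lit 187) (nat_lit 1) (nat_lit 192) (nat_lit 1) (nat_lit 337) (nat_lit 443) (nat_lit 360)))) (XT.nd (nat_lit 156) (nat_lit 760) (nat_lit 0) (XT.nd (nat_lit 78) (nat_lit 456) (nat_lit 0) (XT.lf (nat_lit 76) (nat_lit 541253855) (nat_lit 0) (nat_lit 5743070141) (nat_lit 456) (nat_lit 541253855) (nat_lit 188) (nat_lit 1)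 (nat_lit 187) (nat_lit 1) (nat_lit 193) (nat_lit 1) (nat_lit 338) (nat_lit 443) (nat_lit 359)) (XT.lf (nat_lit 76) (nat_lit 3146238699) (nat_lit 0) (nat_lit 481000755) (nat_lit 456) (nat_lit 3146238699) (nat_lit 182) (nat_lit 1) (nat_lit 181) (nat_lit 1) (nat_lit 187) (nat_lit 1) (nat_lit 339) (nat_lit 443) (nat_lit 358))) (XT.nd (nat_lit 78) (nat_lit 380) (nat_lit 0) (XT.lf (nat_lit 456) (nat_lit 4712088921) (nat_lit 0) (nat_lit 1004986252) (nat_lit 380) (nat_lit 1004986252) (nat_lit 182) (nat_lit 1) (nat_lit 176) (nat_lit 1) (nat_lit 181) (nat_lit 1) (nat_lit 340) (nat_lit 443) (nat_lit 357)) (XT.nd (nat_lit 78) (nat_lit 380) (nat_lit 0) (XT.lf (nat_lit 76) (nat_lit 1565741282) (nat_lit 0) (nat_lit 3539558421) (nat_lit 456) (nat_lit 1565741282) (nat_lit 177) (nat_lit 1) (nat_lit 176) (nat_lit 1) (nat_lit 182) (nat_lit 1) (nat_lit 341) (nat_lit 443) (nat_lit 356)) (XT.lf (nat_lit 456) (nat_lit 1558581922) (nat_lit 0) (nat_lit 2530991213)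 (nat_lit 380) (nat_lit 2530991213) (nat_lit 177) (nat_lit 1) (nat_lit 171) (nat_lit 1) (nat_lit 176) (nat_lit 1) (nat_lit 342) (nat_lit 443) (nat_lit 355)))))) (XT.nd (nat_lit 312) (nat_lit 1064) (nat_lit 0) (XT.nd (nat_lit 156) (nat_lit 380) (nat_lit 0) (XT.nd (nat_lit 78) (nat_lit 380) (nat_lit 0) (XT.lf (nat_lit 76) (nat_lit 3100367) (nat_lit 0) (nat_lit 6564674329) (nat_lit 456) (nat_lit 3100367) (nat_lit 172) (nat_lit 1) (nat_lit 171) (nat_lit 1) (nat_lit 177) (nat_lit 1) (nat_lit 343) (nat_lit 443) (nat_lit 354)) (XT.lf (nat_lit 76) (nat_lit 2491313103) (nat_lit 0) (nat_lit 1538484603) (nat_lit 380) (nat_lit 2491313103) (nat_lit 167) (nat_lit 1) (nat_lit 166) (nat_lit 1) (nat_lit 171) (nat_lit 1) (nat_lit 344) (nat_lit 443) (nat_lit 353))) (XT.nd (nat_lit 78) (nat_lit 0) (nat_lit 0) (XT.lf (nat_lit 456) (nat_lit 3409357132) (nat_lit 0) (nat_lit 1531382572) (nat_lit 380) (nat_lit 1531382572) (nat_lit 167) (nat_lit 1) (nat_lit 161)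 (nat_lit 1) (nat_lit 166) (nat_lit 1) (nat_lit 345) (nat_lit 443) (nat_lit 352)) (XT.lf (nat_lit 76) (nat_lit 922178974) (nat_lit 0) (nat_lit 4579293640) (nat_lit 456) (nat_lit 922178974) (nat_lit 162) (nat_lit 1) (nat_lit 161) (nat_lit 1) (nat_lit 167) (nat_lit 1) (nat_lit 346) (nat_lit 443) (nat_lit 351)))) (XT.nd (nat_lit 156) (nat_lit 304) (nat_lit 0) (XT.nd (nat_lit 78) (nat_lit 456) (nat_lit 0) (XT.lf (nat_lit 380) (nat_lit 279918090) (nat_lit 0) (nat_lit 3047811245) (nat_lit 304) (nat_lit 3047811245) (nat_lit 162) (nat_lit 1) (nat_lit 157) (nat_lit 1) (nat_lit 161) (nat_lit 1) (nat_lit 347) (nat_lit 443) (nat_lit 350)) (XT.lf (nat_lit 456) (nat_lit 5080570318) (nat_lit 0) (nat_lit 623719526) (nat_lit 380) (nat_lit 623719526) (nat_lit 157) (nat_lit 1) (nat_lit 151) (nat_lit 1) (nat_lit 156) (nat_lit 1) (nat_lit 348) (nat_lit 443) (nat_lit 349))) (XT.nd (nat_lit 78) (nat_lit 304) (nat_lit 0) (XT.lf (nat_lit 76) (nat_lit 1753239762)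 (nat_lit 0) (nat_lit 2774235256) (nat_lit 456) (nat_lit 1753239762) (nat_lit 152) (nat_lit 1) (nat_lit 151) (nat_lit 1) (nat_lit 157) (nat_lit 1) (nat_lit 349) (nat_lit 443) (nat_lit 348)) (XT.nd (nat_lit 78) (nat_lit 0) (nat_lit 0) (XT.lf (nat_lit 380) (nat_lit 1945001708) (nat_lit 0) (nat_lit 2144493977) (nat_lit 304) (nat_lit 2144493977) (nat_lit 152) (nat_lit 1) (nat_lit 147) (nat_lit 1) (nat_lit 151) (nat_lit 1) (nat_lit 350) (nat_lit 443) (nat_lit 347)) (XT.lf (nat_lit 76) (nat_lit 200630149) (nat_lit 0) (nat_lit 5786667860) (nat_lit 380) (nat_lit 200630149) (nat_lit 148) (nat_lit 1) (nat_lit 147) (nat_lit 1) (nat_lit 152) (nat_lit 1) (nat_lit 351) (nat_lit 443) (nat_lit 346))))))) (XT.nd (nat_lit 702) (nat_lit 1748) (nat_lit 0) (XT.nd (nat_lit 312) (nat_lit 988) (nat_lit 0) (XT.nd (nat_lit 156) (nat_lit 304) (nat_lit 0) (XT.nd (nat_lit 78) (nat_lit 304) (nat_lit 0) (XT.lf (nat_lit 76) (nat_lit 2503339138) (nat_lit 0) (nat_lit 1135195702)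 (nat_lit 380) (nat_lit 2503339138) (nat_lit 143) (nat_lit 1) (nat_lit 142) (nat_lit 1) (nat_lit 147) (nat_lit 1) (nat_lit 352) (nat_lit 443) (nat_lit 345)) (XT.lf (nat_lit 380) (nat_lit 3450214913) (nat_lit 0) (nat_lit 1323129480) (nat_lit 304) (nat_lit 1323129480) (nat_lit 143) (nat_lit 1) (nat_lit 138) (nat_lit 1) (nat_lit 142) (nat_lit 1) (nat_lit 353) (nat_lit 443) (nat_lit 344))) (XT.nd (nat_lit 78) (nat_lit 304) (nat_lit 0) (XT.lf (nat_lit 76) (nat_lit 950710667) (nat_lit 0) (nat_lit 4150094610) (nat_lit 380) (nat_lit 950710667) (nat_lit 139) (nat_lit 1) (nat_lit 138) (nat_lit 1) (nat_lit 143) (nat_lit 1) (nat_lit 354) (nat_lit 443) (nat_lit 343)) (XT.lf (nat_lit 380) (nat_lit 355693003) (nat_lit 0) (nat_lit 2825605591) (nat_lit 304) (nat_lit 2825605591) (nat_lit 139) (nat_lit 1) (nat_lit 134) (nat_lit 1) (nat_lit 138) (nat_lit 1) (nat_lit 355) (nat_lit 443) (nat_lit 342)))) (XT.nd (nat_lit 156) (nat_lit 608) (nat_lit 0) (XT.nd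 (nat_lit 78) (nat_lit 0) (nat_lit 0) (XT.lf (nat_lit 380) (nat_lit 4808380934) (nat_lit 0) (nat_lit 577218616) (nat_lit 304) (nat_lit 577218616) (nat_lit 134) (nat_lit 1) (nat_lit 129) (nat_lit 1) (nat_lit 133) (nat_lit 1) (nat_lit 356) (nat_lit 443) (nat_lit 341)) (XT.lf (nat_lit 76) (nat_lit 1628662075) (nat_lit 0) (nat_lit 2661602762) (nat_lit 380) (nat_lit 1628662075) (nat_lit 130) (nat_lit 1) (nat_lit 129) (nat_lit 1) (nat_lit 134) (nat_lit 1) (nat_lit 357) (nat_lit 443) (nat_lit 340))) (XT.nd (nat_lit 78) (nat_lit 304) (nat_lit 0) (XT.lf (nat_lit 380) (nat_lit 1719169701) (nat_lit 0) (nat_lit 2078191613) (nat_lit 304) (nat_lit 2078191613) (nat_lit 130) (nat_lit 1) (nat_lit 125) (nat_lit 1) (nat_lit 129) (nat_lit 1) (nat_lit 358) (nat_lit 443) (nat_lit 339)) (XT.nd (nat_lit 78) (nat_lit 304) (nat_lit 0) (XT.lf (nat_lit 76) (nat_lit 99894956) (nat_lit 0) (nat_lit 5633016261) (nat_lit 380) (nat_lit 99894956) (nat_lit 126) (nat_lit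 1) (nat_lit 125) (nat_lit 1) (nat_lit 130) (nat_lit 1) (nat_lit 359) (nat_lit 443) (nat_lit 338)) (XT.lf (nat_lit 76) (nat_lit 2240271591) (nat_lit 0) (nat_lit 1309455458) (nat_lit 304) (nat_lit 2240271591) (nat_lit 122) (nat_lit 1) (nat_lit 121) (nat_lit 1) (nat_lit 125) (nat_lit 1) (nat_lit 360) (nat_lit 443) (nat_lit 337)))))) (XT.nd (nat_lit 390) (nat_lit 836) (nat_lit 0) (XT.nd (nat_lit 156) (nat_lit 608) (nat_lit 0) (XT.nd (nat_lit 78) (nat_lit 0) (nat_lit 0) (XT.lf (nat_lit 380) (nat_lit 2951545445) (nat_lit 0) (nat_lit 1398132534) (nat_lit 304) (nat_lit 1398132534) (nat_lit 122) (nat_lit 1) (nat_lit 117) (nat_lit 1) (nat_lit 121) (nat_lit 1) (nat_lit 361) (nat_lit 443) (nat_lit 336)) (XT.lf (nat_lit 76) (nat_lit 716490698) (nat_lit 0) (nat_lit 4273084940) (nat_lit 380) (nat_lit 716490698) (nat_lit 118) (nat_lit 1) (nat_lit 117) (nat_lit 1) (nat_lit 122) (nat_lit 1) (nat_lit 362) (nat_lit 443) (nat_lit 335))) (XT.nd (nat_lit 78)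 (nat_lit 304) (nat_lit 0) (XT.lf (nat_lit 76) (nat_lit 2790879940) (nat_lit 0) (nat_lit 82818671) (nat_lit 304) (nat_lit 2790879940) (nat_lit 114) (nat_lit 1) (nat_lit 113) (nat_lit 1) (nat_lit 117) (nat_lit 1) (nat_lit 363) (nat_lit 443) (nat_lit 334)) (XT.nd (nat_lit 78) (nat_lit 0) (nat_lit 0) (XT.lf (nat_lit 380) (nat_lit 4063338798) (nat_lit 0) (nat_lit 780094344) (nat_lit 304) (nat_lit 780094344) (nat_lit 114) (nat_lit 1) (nat_lit 109) (nat_lit 1) (nat_lit 113) (nat_lit 1) (nat_lit 364) (nat_lit 443) (nat_lit 333)) (XT.lf (nat_lit 76) (nat_lit 1273890575) (nat_lit 0) (nat_lit 3034972558) (nat_lit 380) (nat_lit 1273890575) (nat_lit 110) (nat_lit 1) (nat_lit 109) (nat_lit 1) (nat_lit 114) (nat_lit 1) (nat_lit 365) (nat_lit 443) (nat_lit 332))))) (XT.nd (nat_lit 156) (nat_lit 228) (nat_lit 0) (XT.nd (nat_lit 78) (nat_lit 380) (nat_lit 0) (XT.lf (nat_lit 304) (nat_lit 1041973394) (nat_lit 0) (nat_lit 2250207256) (nat_lit 228) (nat_lit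 2250207256) (nat_lit 110) (nat_lit 1) (nat_lit 106) (nat_lit 1) (nat_lit 109) (nat_lit 1) (nat_lit 366) (nat_lit 443) (nat_lit 331)) (XT.lf (nat_lit 380) (nat_lit 5064256805) (nat_lit 0) (nat_lit 219153256) (nat_lit 304) (nat_lit 219153256) (nat_lit 106) (nat_lit 1) (nat_lit 101) (nat_lit 1) (nat_lit 105) (nat_lit 1) (nat_lit 367) (nat_lit 443) (nat_lit 330))) (XT.nd (nat_lit 78) (nat_lit 228) (nat_lit 0) (XT.lf (nat_lit 76) (nat_lit 1776842609) (nat_lit 0) (nat_lit 1909044125) (nat_lit 380) (nat_lit 1776842609) (nat_lit 102) (nat_lit 1) (nat_lit 101) (nat_lit 1) (nat_lit 106) (nat_lit 1) (nat_lit 368) (nat_lit 443) (nat_lit 329)) (XT.nd (nat_lit 78) (nat_lit 0) (nat_lit 0) (XT.lf (nat_lit 304) (nat_lit 2060173182) (nat_lit 0) (nat_lit 1681628490) (nat_lit 228) (nat_lit 1681628490) (nat_lit 102) (nat_lit 1) (nat_lit 98) (nat_lit 1) (nat_lit 101) (nat_lit 1) (nat_lit 369) (nat_lit 443) (nat_lit 328)) (XT.lf (nat_lit 76) (nat_lit 291151082)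 (nat_lit 0) (nat_lit 4802331869) (nat_lit 304) (nat_lit 291151082) (nat_lit 99) (nat_lit 1) (nat_lit 98) (nat_lit 1) (nat_lit 102) (nat_lit 1) (nat_lit 370) (nat_lit 443) (nat_lit 327))))))))
noncomputable def ec234 : XT := (XT.nd (nat_lit 1404) (nat_lit 2280) (nat_lit 0) (XT.nd (nat_lit 702) (nat_lit 1292) (nat_lit 0) (XT.nd (nat_lit 312) (nat_lit 836) (nat_lit 0) (XT.nd (nat_lit 156) (nat_lit 228) (nat_lit 0) (XT.nd (nat_lit 78) (nat_lit 228) (nat_lit 0) (XT.lf (nat_lit 76) (nat_lit 2229728533) (nat_lit 0) (nat_lit 886405417) (nat_lit 304) (nat_lit 2229728533) (nat_lit 95) (nat_lit 1) (nat_lit 94) (nat_lit 1) (nat_lit 98) (nat_lit 1) (nat_lit 371) (nat_lit 443) (nat_lit 326)) (XT.lf (nat_lit 304) (nat_lit 2979311795) (nat_lit 0) (nat_lit 1164138130) (nat_lit 228) (nat_lit 1164138130) (nat_lit 95) (nat_lit 1) (nat_lit 91) (nat_lit 1) (nat_lit 94) (nat_lit 1) (nat_lit 372) (nat_lit 443) (nat_lit 325))) (XT.nd (nat_lit 78) (nat_lit 228)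 (nat_lit 0) (XT.lf (nat_lit 76) (nat_lit 754229218) (nat_lit 0) (nat_lit 3761218796) (nat_lit 304) (nat_lit 754229218) (nat_lit 92) (nat_lit 1) (nat_lit 91) (nat_lit 1) (nat_lit 95) (nat_lit 1) (nat_lit 373) (nat_lit 443) (nat_lit 324)) (XT.lf (nat_lit 304) (nat_lit 41700481) (nat_lit 0) (nat_lit 2595162043) (nat_lit 228) (nat_lit 2595162043) (nat_lit 92) (nat_lit 1) (nat_lit 88) (nat_lit 1) (nat_lit 91) (nat_lit 1) (nat_lit 374) (nat_lit 443) (nat_lit 323)))) (XT.nd (nat_lit 156) (nat_lit 532) (nat_lit 0) (XT.nd (nat_lit 78) (nat_lit 0) (nat_lit 0) (XT.lf (nat_lit 304) (nat_lit 3807355166) (nat_lit 0) (nat_lit 693692846) (nat_lit 228) (nat_lit 693692846) (nat_lit 88) (nat_lit 1) (nat_lit 84) (nat_lit 1) (nat_lit 87) (nat_lit 1) (nat_lit 375) (nat_lit 443) (nat_lit 322)) (XT.lf (nat_lit 76) (nat_lit 1172527118) (nat_lit 0) (nat_lit 2812634257) (nat_lit 304) (nat_lit 1172527118) (nat_lit 85) (nat_lit 1) (nat_lit 84) (nat_lit 1) (nat_lit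 88) (nat_lit 1) (nat_lit 376) (nat_lit 443) (nat_lit 321))) (XT.nd (nat_lit 78) (nat_lit 304) (nat_lit 0) (XT.lf (nat_lit 304) (nat_lit 892921703) (nat_lit 0) (nat_lit 2114039059) (nat_lit 228) (nat_lit 2114039059) (nat_lit 85) (nat_lit 1) (nat_lit 81) (nat_lit 1) (nat_lit 84) (nat_lit 1) (nat_lit 377) (nat_lit 443) (nat_lit 320)) (XT.nd (nat_lit 78) (nat_lit 0) (nat_lit 0) (XT.lf (nat_lit 304) (nat_lit 4551654314) (nat_lit 0) (nat_lit 266560216) (nat_lit 228) (nat_lit 266560216) (nat_lit 81) (nat_lit 1) (nat_lit 77) (nat_lit 1) (nat_lit 80) (nat_lit 1) (nat_lit 378) (nat_lit 443) (nat_lit 319)) (XT.lf (nat_lit 76) (nat_lit 1549641565) (nat_lit 0) (nat_lit 1949272113) (nat_lit 304) (nat_lit 1549641565) (nat_lit 78) (nat_lit 1) (nat_lit 77) (nat_lit 1) (nat_lit 81) (nat_lit 1) (nat_lit 379) (nat_lit 443) (nat_lit 318)))))) (XT.nd (nat_lit 312) (nat_lit 608) (nat_lit 0) (XT.nd (nat_lit 156) (nat_lit 456) (nat_lit 0) (XT.nd (nat_lit 78)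 (nat_lit 0) (nat_lit 0) (XT.lf (nat_lit 304) (nat_lit 1662565656) (nat_lit 0) (nat_lit 1675114409) (nat_lit 228) (nat_lit 1675114409) (nat_lit 78) (nat_lit 1) (nat_lit 74) (nat_lit 1) (nat_lit 77) (nat_lit 1) (nat_lit 380) (nat_lit 443) (nat_lit 317)) (XT.lf (nat_lit 76) (nat_lit 121504371) (nat_lit 0) (nat_lit 4734510263) (nat_lit 304) (nat_lit 121504371) (nat_lit 75) (nat_lit 1) (nat_lit 74) (nat_lit 1) (nat_lit 78) (nat_lit 1) (nat_lit 381) (nat_lit 443) (nat_lit 316))) (XT.nd (nat_lit 78) (nat_lit 228) (nat_lit 0) (XT.lf (nat_lit 76) (nat_lit 1888891772) (nat_lit 0) (nat_lit 1164387714) (nat_lit 228) (nat_lit 1888891772) (nat_lit 72) (nat_lit 1) (nat_lit 71) (nat_lit 1) (nat_lit 74) (nat_lit 1) (nat_lit 382) (nat_lit 443) (nat_lit 315)) (XT.lf (nat_lit 304) (nat_lit 2357173308) (nat_lit 0) (nat_lit 1275065504) (nat_lit 228) (nat_lit 1275065504) (nat_lit 72) (nat_lit 1) (nat_lit 68) (nat_lit 1) (nat_lit 71) (nat_lit 1) (nat_lit 383)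 (nat_lit 443) (nat_lit 314)))) (XT.nd (nat_lit 156) (nat_lit 380) (nat_lit 0) (XT.nd (nat_lit 78) (nat_lit 228) (nat_lit 0) (XT.lf (nat_lit 76) (nat_lit 474403877) (nat_lit 0) (nat_lit 3924007200) (nat_lit 304) (nat_lit 474403877) (nat_lit 69) (nat_lit 1) (nat_lit 68) (nat_lit 1) (nat_lit 72) (nat_lit 1) (nat_lit 384) (nat_lit 443) (nat_lit 313)) (XT.lf (nat_lit 76) (nat_lit 2193340592) (nat_lit 0) (nat_lit 451755036) (nat_lit 228) (nat_lit 2193340592) (nat_lit 66) (nat_lit 1) (nat_lit 65) (nat_lit 1) (nat_lit 68) (nat_lit 1) (nat_lit 385) (nat_lit 443) (nat_lit 312))) (XT.nd (nat_lit 78) (nat_lit 152) (nat_lit 0) (XT.lf (nat_lit 304) (nat_lit 2982781065) (nat_lit 0) (nat_lit 910824924) (nat_lit 228) (nat_lit 910824924) (nat_lit 66) (nat_lit 1) (nat_lit 62) (nat_lit 1) (nat_lit 65) (nat_lit 1) (nat_lit 386) (nat_lit 443) (nat_lit 311)) (XT.nd (nat_lit 78) (nat_lit 152) (nat_lit 0) (XT.lf (nat_lit 76) (nat_lit 793327440) (nat_lit 0) (nat_lit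 3184050171) (nat_lit 304) (nat_lit 793327440) (nat_lit 63) (nat_lit 1) (nat_lit 62) (nat_lit 1) (nat_lit 66) (nat_lit 1) (nat_lit 387) (nat_lit 443) (nat_lit 310)) (XT.lf (nat_lit 228) (nat_lit 196956022) (nat_lit 0) (nat_lit 2270136860) (nat_lit 152) (nat_lit 2270136860) (nat_lit 63) (nat_lit 1) (nat_lit 60) (nat_lit 1) (nat_lit 62) (nat_lit 1) (nat_lit 388) (nat_lit 443) (nat_lit 309))))))) (XT.nd (nat_lit 702) (nat_lit 912) (nat_lit 0) (XT.nd (nat_lit 312) (nat_lit 608) (nat_lit 0) (XT.nd (nat_lit 156) (nat_lit 456) (nat_lit 0) (XT.nd (nat_lit 78) (nat_lit 0) (nat_lit 0) (XT.lf (nat_lit 304) (nat_lit 3544959316) (nat_lit 0) (nat_lit 579560939) (nat_lit 228) (nat_lit 579560939) (nat_lit 60) (nat_lit 1) (nat_lit 56) (nat_lit 1) (nat_lit 59) (nat_lit 1) (nat_lit 389) (nat_lit 443) (nat_lit 308)) (XT.lf (nat_lit 76) (nat_lit 1081001719) (nat_lit 0) (nat_lit 2509093782) (nat_lit 304) (nat_lit 1081001719) (nat_lit 57) (nat_lit 1) (nat_lit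 56) (nat_lit 1) (nat_lit 60) (nat_lit 1) (nat_lit 390) (nat_lit 443) (nat_lit 307))) (XT.nd (nat_lit 78) (nat_lit 304) (nat_lit 0) (XT.lf (nat_lit 228) (nat_lit 789657148) (nat_lit 0) (nat_lit 1924389586) (nat_lit 152) (nat_lit 1924389586) (nat_lit 57) (nat_lit 1) (nat_lit 54) (nat_lit 1) (nat_lit 56) (nat_lit 1) (nat_lit 391) (nat_lit 443) (nat_lit 306)) (XT.lf (nat_lit 304) (nat_lit 4048848050) (nat_lit 0) (nat_lit 278659527) (nat_lit 228) (nat_lit 278659527) (nat_lit 54) (nat_lit 1) (nat_lit 50) (nat_lit 1) (nat_lit 53) (nat_lit 1) (nat_lit 392) (nat_lit 443) (nat_lit 305)))) (XT.nd (nat_lit 156) (nat_lit 456) (nat_lit 0) (XT.nd (nat_lit 78) (nat_lit 152) (nat_lit 0) (XT.lf (nat_lit 76) (nat_lit 1339942996) (nat_lit 0) (nat_lit 1894018339) (nat_lit 304) (nat_lit 1339942996) (nat_lit 51) (nat_lit 1) (nat_lit 50) (nat_lit 1) (nat_lit 54) (nat_lit 1) (nat_lit 393) (nat_lit 443) (nat_lit 304)) (XT.lf (nat_lit 228) (nat_lit 1325305682)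 (nat_lit 0) (nat_lit 1608362077) (nat_lit 152) (nat_lit 1608362077) (nat_lit 51) (nat_lit 1) (nat_lit 48) (nat_lit 1) (nat_lit 50) (nat_lit 1) (nat_lit 394) (nat_lit 443) (nat_lit 303))) (XT.nd (nat_lit 78) (nat_lit 152) (nat_lit 0) (XT.lf (nat_lit 304) (nat_lit 4499189752) (nat_lit 0) (nat_lit 5707744) (nat_lit 228) (nat_lit 5707744) (nat_lit 48) (nat_lit 1) (nat_lit 44) (nat_lit 1) (nat_lit 47) (nat_lit 1) (nat_lit 395) (nat_lit 443) (nat_lit 302)) (XT.nd (nat_lit 78) (nat_lit 152) (nat_lit 0) (XT.lf (nat_lit 76) (nat_lit 1572473250) (nat_lit 0) (nat_lit 1334097361) (nat_lit 304) (nat_lit 1572473250) (nat_lit 45) (nat_lit 1) (nat_lit 44) (nat_lit 1) (nat_lit 48) (nat_lit 1) (nat_lit 396) (nat_lit 443) (nat_lit 301)) (XT.lf (nat_lit 228) (nat_lit 1808480080) (nat_lit 0) (nat_lit 1319724576) (nat_lit 152) (nat_lit 1319724576) (nat_lit 45) (nat_lit 1) (nat_lit 42) (nat_lit 1) (nat_lit 44) (nat_lit 1) (nat_lit 397) (nat_lit 443) (nat_lit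 300)))))) (XT.nd (nat_lit 312) (nat_lit 532) (nat_lit 0) (XT.nd (nat_lit 156) (nat_lit 152) (nat_lit 0) (XT.nd (nat_lit 78) (nat_lit 228) (nat_lit 0) (XT.lf (nat_lit 76) (nat_lit 243121097) (nat_lit 0) (nat_lit 3930947663) (nat_lit 228) (nat_lit 243121097) (nat_lit 43) (nat_lit 1) (nat_lit 42) (nat_lit 1) (nat_lit 45) (nat_lit 1) (nat_lit 398) (nat_lit 443) (nat_lit 299)) (XT.lf (nat_lit 76) (nat_lit 1780735005) (nat_lit 0) (nat_lit 824967569) (nat_lit 228) (nat_lit 1780735005) (nat_lit 40) (nat_lit 1) (nat_lit 39) (nat_lit 1) (nat_lit 42) (nat_lit 1) (nat_lit 399) (nat_lit 443) (nat_lit 298))) (XT.nd (nat_lit 78) (nat_lit 0) (nat_lit 0) (XT.lf (nat_lit 228) (nat_lit 2243405547) (nat_lit 0) (nat_lit 1056326050) (nat_lit 152) (nat_lit 1056326050) (nat_lit 40) (nat_lit 1) (nat_lit 37) (nat_lit 1) (nat_lit 39) (nat_lit 1) (nat_lit 400) (nat_lit 443) (nat_lit 297)) (XT.lf (nat_lit 76) (nat_lit 468164248) (nat_lit 0) (nat_lit 3389653592) (nat_lit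 228) (nat_lit 468164248) (nat_lit 38) (nat_lit 1) (nat_lit 37) (nat_lit 1) (nat_lit 40) (nat_lit 1) (nat_lit 401) (nat_lit 443) (nat_lit 296)))) (XT.nd (nat_lit 156) (nat_lit 152) (nat_lit 0) (XT.nd (nat_lit 78) (nat_lit 152) (nat_lit 0) (XT.lf (nat_lit 76) (nat_lit 1966705052) (nat_lit 0) (nat_lit 362601167) (nat_lit 228) (nat_lit 1966705052) (nat_lit 35) (nat_lit 1) (nat_lit 34) (nat_lit 1) (nat_lit 37) (nat_lit 1) (nat_lit 402) (nat_lit 443) (nat_lit 295)) (XT.lf (nat_lit 228) (nat_lit 2633981030) (nat_lit 0) (nat_lit 816180555) (nat_lit 152) (nat_lit 816180555) (nat_lit 35) (nat_lit 1) (nat_lit 32) (nat_lit 1) (nat_lit 34) (nat_lit 1) (nat_lit 403) (nat_lit 443) (nat_lit 294))) (XT.nd (nat_lit 78) (nat_lit 152) (nat_lit 0) (XT.lf (nat_lit 76) (nat_lit 671293687) (nat_lit 0) (nat_lit 2894325352) (nat_lit 228) (nat_lit 671293687) (nat_lit 33) (nat_lit 1) (nat_lit 32) (nat_lit 1) (nat_lit 35) (nat_lit 1) (nat_lit 404) (nat_lit 443) (nat_lit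 293)) (XT.nd (nat_lit 50700) (nat_lit 0) (nat_lit 25688) (XT.lf (nat_lit 228) (nat_lit 57473549) (nat_lit 0) (nat_lit 2075106723) (nat_lit 152) (nat_lit 2075106723) (nat_lit 33) (nat_lit 1) (nat_lit 30) (nat_lit 1) (nat_lit 32) (nat_lit 1) (nat_lit 405) (nat_lit 443) (nat_lit 292)) (XT.lf (nat_lit 836) (nat_lit 8161006886) (nat_lit 0) (nat_lit 809465912) (nat_lit 760) (nat_lit 809465912) (nat_lit 379) (nat_lit 1) (nat_lit 368) (nat_lit 1) (nat_lit 378) (nat_lit 1) (nat_lit 294) (nat_lit 444) (nat_lit 402))))))))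
noncomputable def ec235 : XT := (XT.nd (nat_lit 1404) (nat_lit 5852) (nat_lit 0) (XT.nd (nat_lit 702) (nat_lit 3040) (nat_lit 0) (XT.nd (nat_lit 312) (nat_lit 2128) (nat_lit 0) (XT.nd (nat_lit 156) (nat_lit 684) (nat_lit 0) (XT.nd (nat_lit 78) (nat_lit 760) (nat_lit 0) (XT.lf (nat_lit 76) (nat_lit 3400365605) (nat_lit 0) (nat_lit 2895328306) (nat_lit 836) (nat_lit 3400365605) (nat_lit 369) (nat_lit 1) (nat_lit 368) (nat_lit 1) (nat_lit 379) (nat_lit 1) (nat_lit 295) (nat_lit 444) (nat_lit 401)) (XT.lf (nat_lit 836) (nat_lit 5448079396) (nat_lit 0) (nat_lit 2082686062) (nat_lit 760) (nat_lit 2082686062) (nat_lit 369) (nat_lit 1) (nat_lit 358) (nat_lit 1) (nat_lit 368) (nat_lit 1) (nat_lit 296) (nat_lit 444) (nat_lit 400))) (XT.nd (nat_lit 78) (nat_lit 684) (nat_lit 0) (XT.lf (nat_lit 76) (nat_lit 2042935084) (nat_lit 0) (nat_lit 5445885668) (nat_lit 836) (nat_lit 2042935084) (nat_lit 359) (nat_lit 1) (nat_lit 358) (nat_lit 1) (nat_lit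 369) (nat_lit 1) (nat_lit 297) (nat_lit 444) (nat_lit 399)) (XT.lf (nat_lit 760) (nat_lit 2714542732) (nat_lit 0) (nat_lit 3368208392) (nat_lit 684) (nat_lit 3368208392) (nat_lit 359) (nat_lit 1) (nat_lit 349) (nat_lit 1) (nat_lit 358) (nat_lit 1) (nat_lit 298) (nat_lit 444) (nat_lit 398)))) (XT.nd (nat_lit 156) (nat_lit 1368) (nat_lit 0) (XT.nd (nat_lit 78) (nat_lit 760) (nat_lit 0) (XT.lf (nat_lit 76) (nat_lit 676063482) (nat_lit 0) (nat_lit 8019267981) (nat_lit 760) (nat_lit 676063482) (nat_lit 350) (nat_lit 1) (nat_lit 349) (nat_lit 1) (nat_lit 359) (nat_lit 1) (nat_lit 299) (nat_lit 444) (nat_lit 397)) (XT.lf (nat_lit 76) (nat_lit 4628247336) (nat_lit 0) (nat_lit 35856595) (nat_lit 760) (nat_lit 4628247336) (nat_lit 340) (nat_lit 1) (nat_lit 339) (nat_lit 1) (nat_lit 349) (nat_lit 1) (nat_lit 300) (nat_lit 444) (nat_lit 396))) (XT.nd (nat_lit 78) (nat_lit 684) (nat_lit 0) (XT.lf (nat_lit 760) (nat_lit 7826372500) (nat_lit 0) (nat_lit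 694067457) (nat_lit 684) (nat_lit 694067457) (nat_lit 340) (nat_lit 1) (nat_lit 330) (nat_lit 1) (nat_lit 339) (nat_lit 1) (nat_lit 301) (nat_lit 444) (nat_lit 395)) (XT.nd (nat_lit 78) (nat_lit 684) (nat_lit 0) (XT.lf (nat_lit 76) (nat_lit 3186230828) (nat_lit 0) (nat_lit 2764711976) (nat_lit 760) (nat_lit 3186230828) (nat_lit 331) (nat_lit 1) (nat_lit 330) (nat_lit 1) (nat_lit 340) (nat_lit 1) (nat_lit 302) (nat_lit 444) (nat_lit 394)) (XT.lf (nat_lit 760) (nat_lit 4928869975) (nat_lit 0) (nat_lit 2066064789) (nat_lit 684) (nat_lit 2066064789) (nat_lit 331) (nat_lit 1) (nat_lit 321) (nat_lit 1) (nat_lit 330) (nat_lit 1) (nat_lit 303) (nat_lit 444) (nat_lit 393)))))) (XT.nd (nat_lit 312) (nat_lit 1748) (nat_lit 0) (XT.nd (nat_lit 156) (nat_lit 684) (nat_lit 0) (XT.nd (nat_lit 78) (nat_lit 608) (nat_lit 0) (XT.lf (nat_lit 76) (nat_lit 1740471245) (nat_lit 0) (nat_lit 5504736565) (nat_lit 760) (nat_lit 1740471245) (nat_lit 322) (nat_lit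 1) (nat_lit 321) (nat_lit 1) (nat_lit 331) (nat_lit 1) (nat_lit 304) (nat_lit 444) (nat_lit 392)) (XT.lf (nat_lit 684) (nat_lit 2025190367) (nat_lit 0) (nat_lit 3442967478) (nat_lit 608) (nat_lit 3442967478) (nat_lit 322) (nat_lit 1) (nat_lit 313) (nat_lit 1) (nat_lit 321) (nat_lit 1) (nat_lit 305) (nat_lit 444) (nat_lit 391))) (XT.nd (nat_lit 78) (nat_lit 684) (nat_lit 0) (XT.lf (nat_lit 76) (nat_lit 292285273) (nat_lit 0) (nat_lit 8253199904) (nat_lit 684) (nat_lit 292285273) (nat_lit 314) (nat_lit 1) (nat_lit 313) (nat_lit 1) (nat_lit 322) (nat_lit 1) (nat_lit 306) (nat_lit 444) (nat_lit 390)) (XT.lf (nat_lit 76) (nat_lit 3947072205) (nat_lit 0) (nat_lit 870530303) (nat_lit 684) (nat_lit 3947072205) (nat_lit 305) (nat_lit 1) (nat_lit 304) (nat_lit 1) (nat_lit 313) (nat_lit 1) (nat_lit 307) (nat_lit 444) (nat_lit 389)))) (XT.nd (nat_lit 156) (nat_lit 1140) (nat_lit 0) (XT.nd (nat_lit 78) (nat_lit 0) (nat_lit 0) (XT.lf (nat_lit 684)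 (nat_lit 6393806397) (nat_lit 0) (nat_lit 1149472095) (nat_lit 608) (nat_lit 1149472095) (nat_lit 305) (nat_lit 1) (nat_lit 296) (nat_lit 1) (nat_lit 304) (nat_lit 1) (nat_lit 308) (nat_lit 444) (nat_lit 388)) (XT.lf (nat_lit 76) (nat_lit 2440271844) (nat_lit 0) (nat_lit 3740862794) (nat_lit 684) (nat_lit 2440271844) (nat_lit 297) (nat_lit 1) (nat_lit 296) (nat_lit 1) (nat_lit 305) (nat_lit 1) (nat_lit 309) (nat_lit 444) (nat_lit 387))) (XT.nd (nat_lit 78) (nat_lit 532) (nat_lit 0) (XT.lf (nat_lit 684) (nat_lit 3372341857) (nat_lit 0) (nat_lit 2589318428) (nat_lit 608) (nat_lit 2589318428) (nat_lit 297) (nat_lit 1) (nat_lit 288) (nat_lit 1) (nat_lit 296) (nat_lit 1) (nat_lit 310) (nat_lit 444) (nat_lit 386)) (XT.nd (nat_lit 78) (nat_lit 532) (nat_lit 0) (XT.lf (nat_lit 76) (nat_lit 935689610) (nat_lit 0) (nat_lit 6610114750) (nat_lit 684) (nat_lit 935689610) (nat_lit 289) (nat_lit 1) (nat_lit 288) (nat_lit 1) (nat_lit 297) (nat_lit 1)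 (nat_lit 311) (nat_lit 444) (nat_lit 385)) (XT.lf (nat_lit 608) (nat_lit 356359628) (nat_lit 0) (nat_lit 4028079674) (nat_lit 532) (nat_lit 4028079674) (nat_lit 289) (nat_lit 1) (nat_lit 281) (nat_lit 1) (nat_lit 288) (nat_lit 1) (nat_lit 312) (nat_lit 444) (nat_lit 384))))))) (XT.nd (nat_lit 702) (nat_lit 2964) (nat_lit 0) (XT.nd (nat_lit 312) (nat_lit 1672) (nat_lit 0) (XT.nd (nat_lit 156) (nat_lit 532) (nat_lit 0) (XT.nd (nat_lit 78) (nat_lit 0) (nat_lit 0) (XT.lf (nat_lit 684) (nat_lit 7220684522) (nat_lit 0) (nat_lit 561935421) (nat_lit 608) (nat_lit 561935421) (nat_lit 281) (nat_lit 1) (nat_lit 272) (nat_lit 1) (nat_lit 280) (nat_lit 1) (nat_lit 313) (nat_lit 444) (nat_lit 383)) (XT.lf (nat_lit 76) (nat_lit 2829782397) (nat_lit 0) (nat_lit 2617376580) (nat_lit 684) (nat_lit 2829782397) (nat_lit 273) (nat_lit 1) (nat_lit 272) (nat_lit 1) (nat_lit 281) (nat_lit 1) (nat_lit 314) (nat_lit 444) (nat_lit 382))) (XT.nd (nat_lit 78) (nat_lit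 0) (nat_lit 0) (XT.lf (nat_lit 608) (nat_lit 4111835675) (nat_lit 0) (nat_lit 2049239918) (nat_lit 532) (nat_lit 2049239918) (nat_lit 273) (nat_lit 1) (nat_lit 265) (nat_lit 1) (nat_lit 272) (nat_lit 1) (nat_lit 315) (nat_lit 444) (nat_lit 381)) (XT.lf (nat_lit 76) (nat_lit 1283611742) (nat_lit 0) (nat_lit 5577238616) (nat_lit 608) (nat_lit 1283611742) (nat_lit 266) (nat_lit 1) (nat_lit 265) (nat_lit 1) (nat_lit 273) (nat_lit 1) (nat_lit 316) (nat_lit 444) (nat_lit 380)))) (XT.nd (nat_lit 156) (nat_lit 532) (nat_lit 0) (XT.nd (nat_lit 78) (nat_lit 608) (nat_lit 0) (XT.lf (nat_lit 608) (nat_lit 1016205450) (nat_lit 0) (nat_lit 3531487513) (nat_lit 532) (nat_lit 3531487513) (nat_lit 266) (nat_lit 1) (nat_lit 258) (nat_lit 1) (nat_lit 265) (nat_lit 1) (nat_lit 317) (nat_lit 444) (nat_lit 379)) (XT.lf (nat_lit 608) (nat_lit 7507146133) (nat_lit 0) (nat_lit 253883802) (nat_lit 532) (nat_lit 253883802) (nat_lit 258) (nat_lit 1) (nat_lit 250)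 (nat_lit 1) (nat_lit 257) (nat_lit 1) (nat_lit 318) (nat_lit 444) (nat_lit 378))) (XT.nd (nat_lit 78) (nat_lit 532) (nat_lit 0) (XT.lf (nat_lit 76) (nat_lit 2956634557) (nat_lit 0) (nat_lit 2037533818) (nat_lit 608) (nat_lit 2956634557) (nat_lit 251) (nat_lit 1) (nat_lit 250) (nat_lit 1) (nat_lit 258) (nat_lit 1) (nat_lit 319) (nat_lit 444) (nat_lit 377)) (XT.nd (nat_lit 78) (nat_lit 0) (nat_lit 0) (XT.lf (nat_lit 608) (nat_lit 4337239759) (nat_lit 0) (nat_lit 1775223301) (nat_lit 532) (nat_lit 1775223301) (nat_lit 251) (nat_lit 1) (nat_lit 243) (nat_lit 1) (nat_lit 250) (nat_lit 1) (nat_lit 320) (nat_lit 444) (nat_lit 376)) (XT.lf (nat_lit 76) (nat_lit 1381694749) (nat_lit 0) (nat_lit 5061854669) (nat_lit 608) (nat_lit 1381694749) (nat_lit 244) (nat_lit 1) (nat_lit 243) (nat_lit 1) (nat_lit 251) (nat_lit 1) (nat_lit 321) (nat_lit 444) (nat_lit 375)))))) (XT.nd (nat_lit 390) (nat_lit 1444) (nat_lit 0) (XT.nd (nat_lit 156) (nat_lit 456)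 (nat_lit 0) (XT.nd (nat_lit 78) (nat_lit 608) (nat_lit 0) (XT.lf (nat_lit 532) (nat_lit 1187097370) (nat_lit 0) (nat_lit 3288137992) (nat_lit 456) (nat_lit 3288137992) (nat_lit 244) (nat_lit 1) (nat_lit 237) (nat_lit 1) (nat_lit 243) (nat_lit 1) (nat_lit 322) (nat_lit 444) (nat_lit 374)) (XT.lf (nat_lit 608) (nat_lit 7338726370) (nat_lit 0) (nat_lit 181869883) (nat_lit 532) (nat_lit 181869883) (nat_lit 237) (nat_lit 1) (nat_lit 229) (nat_lit 1) (nat_lit 236) (nat_lit 1) (nat_lit 323) (nat_lit 444) (nat_lit 373))) (XT.nd (nat_lit 78) (nat_lit 456) (nat_lit 0) (XT.lf (nat_lit 76) (nat_lit 2862548301) (nat_lit 0) (nat_lit 1916552492) (nat_lit 608) (nat_lit 2862548301) (nat_lit 230) (nat_lit 1) (nat_lit 229) (nat_lit 1) (nat_lit 237) (nat_lit 1) (nat_lit 324) (nat_lit 444) (nat_lit 372)) (XT.nd (nat_lit 78) (nat_lit 0) (nat_lit 0) (XT.lf (nat_lit 532) (nat_lit 4130497737) (nat_lit 0) (nat_lit 1725639786) (nat_lit 456) (nat_lit 1725639786)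 (nat_lit 230) (nat_lit 1) (nat_lit 223) (nat_lit 1) (nat_lit 229) (nat_lit 1) (nat_lit 325) (nat_lit 444) (nat_lit 371)) (XT.lf (nat_lit 76) (nat_lit 1269905613) (nat_lit 0) (nat_lit 4982731898) (nat_lit 532) (nat_lit 1269905613) (nat_lit 224) (nat_lit 1) (nat_lit 223) (nat_lit 1) (nat_lit 230) (nat_lit 1) (nat_lit 326) (nat_lit 444) (nat_lit 370))))) (XT.nd (nat_lit 156) (nat_lit 456) (nat_lit 0) (XT.nd (nat_lit 78) (nat_lit 532) (nat_lit 0) (XT.lf (nat_lit 532) (nat_lit 947533516) (nat_lit 0) (nat_lit 3258147054) (nat_lit 456) (nat_lit 3258147054) (nat_lit 224) (nat_lit 1) (nat_lit 217) (nat_lit 1) (nat_lit 223) (nat_lit 1) (nat_lit 327) (nat_lit 444) (nat_lit 369)) (XT.lf (nat_lit 532) (nat_lit 6790258365) (nat_lit 0) (nat_lit 307860249) (nat_lit 456) (nat_lit 307860249) (nat_lit 217) (nat_lit 1) (nat_lit 210) (nat_lit 1) (nat_lit 216) (nat_lit 1) (nat_lit 328) (nat_lit 444) (nat_lit 368))) (XT.nd (nat_lit 78) (nat_lit 456) (nat_lit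 0) (XT.lf (nat_lit 76) (nat_lit 2584018047) (nat_lit 0) (nat_lit 2180225932) (nat_lit 532) (nat_lit 2584018047) (nat_lit 211) (nat_lit 1) (nat_lit 210) (nat_lit 1) (nat_lit 217) (nat_lit 1) (nat_lit 329) (nat_lit 444) (nat_lit 367)) (XT.nd (nat_lit 78) (nat_lit 0) (nat_lit 0) (XT.lf (nat_lit 532) (nat_lit 3563278513) (nat_lit 0) (nat_lit 1864058566) (nat_lit 456) (nat_lit 1864058566) (nat_lit 211) (nat_lit 1) (nat_lit 204) (nat_lit 1) (nat_lit 210) (nat_lit 1) (nat_lit 330) (nat_lit 444) (nat_lit 366)) (XT.lf (nat_lit 76) (nat_lit 983194448) (nat_lit 0) (nat_lit 5268792694) (nat_lit 532) (nat_lit 983194448) (nat_lit 205) (nat_lit 1) (nat_lit 204) (nat_lit 1) (nat_lit 211) (nat_lit 1) (nat_lit 331) (nat_lit 444) (nat_lit 365))))))))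
noncomputable def ec236 : XT := (XT.nd (nat_lit 1404) (nat_lit 3724) (nat_lit 0) (XT.nd (nat_lit 702) (nat_lit 1824) (nat_lit 0) (XT.nd (nat_lit 312) (nat_lit 1216) (nat_lit 0) (XT.nd (nat_lit 156) (nat_lit 380) (nat_lit 0) (XT.nd (nat_lit 78) (nat_lit 532) (nat_lit 0) (XT.lf (nat_lit 456) (nat_lit 366147730) (nat_lit 0) (nat_lit 3406621185) (nat_lit 380) (nat_lit 3406621185) (nat_lit 205) (nat_lit 1) (nat_lit 199) (nat_lit 1) (nat_lit 204) (nat_lit 1) (nat_lit 332) (nat_lit 444) (nat_lit 364)) (XT.lf (nat_lit 532) (nat_lit 5927118565) (nat_lit 0) (nat_lit 598606209) (nat_lit 456) (nat_lit 598606209) (nat_lit 199) (nat_lit 1) (nat_lit 192) (nat_lit 1) (nat_lit 198) (nat_lit 1) (nat_lit 333) (nat_lit 444) (nat_lit 363))) (XT.nd (nat_lit 78) (nat_lit 380) (nat_lit 0) (XT.lf (nat_lit 76) (nat_lit 2152920945) (nat_lit 0) (nat_lit 2763693297) (nat_lit 532) (nat_lit 2152920945) (nat_lit 193) (nat_lit 1) (nat_lit 192) (nat_lit 1) (nat_lit 199)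 (nat_lit 1) (nat_lit 334) (nat_lit 444) (nat_lit 362)) (XT.lf (nat_lit 456) (nat_lit 2698172762) (nat_lit 0) (nat_lit 2158642272) (nat_lit 380) (nat_lit 2158642272) (nat_lit 193) (nat_lit 1) (nat_lit 187) (nat_lit 1) (nat_lit 192) (nat_lit 1) (nat_lit 335) (nat_lit 444) (nat_lit 361)))) (XT.nd (nat_lit 156) (nat_lit 760) (nat_lit 0) (XT.nd (nat_lit 78) (nat_lit 456) (nat_lit 0) (XT.lf (nat_lit 76) (nat_lit 552078932) (nat_lit 0) (nat_lit 5857931544) (nat_lit 456) (nat_lit 552078932) (nat_lit 188) (nat_lit 1) (nat_lit 187) (nat_lit 1) (nat_lit 193) (nat_lit 1) (nat_lit 336) (nat_lit 444) (nat_lit 360)) (XT.lf (nat_lit 76) (nat_lit 3209163473) (nat_lit 0) (nat_lit 490620771) (nat_lit 456) (nat_lit 3209163473) (nat_lit 182) (nat_lit 1) (nat_lit 181) (nat_lit 1) (nat_lit 187) (nat_lit 1) (nat_lit 337) (nat_lit 444) (nat_lit 359))) (XT.nd (nat_lit 78) (nat_lit 380) (nat_lit 0) (XT.lf (nat_lit 456) (nat_lit 4806330699) (nat_lit 0) (nat_lit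 1025085977) (nat_lit 380) (nat_lit 1025085977) (nat_lit 182) (nat_lit 1) (nat_lit 176) (nat_lit 1) (nat_lit 181) (nat_lit 1) (nat_lit 338) (nat_lit 444) (nat_lit 358)) (XT.nd (nat_lit 78) (nat_lit 380) (nat_lit 0) (XT.lf (nat_lit 76) (nat_lit 1597056108) (nat_lit 0) (nat_lit 3610349590) (nat_lit 456) (nat_lit 1597056108) (nat_lit 177) (nat_lit 1) (nat_lit 176) (nat_lit 1) (nat_lit 182) (nat_lit 1) (nat_lit 339) (nat_lit 444) (nat_lit 357)) (XT.lf (nat_lit 456) (nat_lit 1589753561) (nat_lit 0) (nat_lit 2581611037) (nat_lit 380) (nat_lit 2581611037) (nat_lit 177) (nat_lit 1) (nat_lit 171) (nat_lit 1) (nat_lit 176) (nat_lit 1) (nat_lit 340) (nat_lit 444) (nat_lit 356)))))) (XT.nd (nat_lit 312) (nat_lit 1064) (nat_lit 0) (XT.nd (nat_lit 156) (nat_lit 380) (nat_lit 0) (XT.nd (nat_lit 78) (nat_lit 380) (nat_lit 0) (XT.lf (nat_lit 76) (nat_lit 3162374) (nat_lit 0) (nat_lit 6695967816) (nat_lit 456) (nat_lit 3162374) (nat_lit 172) (nat_lit 1)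 (nat_lit 171) (nat_lit 1) (nat_lit 177) (nat_lit 1) (nat_lit 341) (nat_lit 444) (nat_lit 355)) (XT.lf (nat_lit 76) (nat_lit 2541139365) (nat_lit 0) (nat_lit 1569254295) (nat_lit 380) (nat_lit 2541139365) (nat_lit 167) (nat_lit 1) (nat_lit 166) (nat_lit 1) (nat_lit 171) (nat_lit 1) (nat_lit 342) (nat_lit 444) (nat_lit 354))) (XT.nd (nat_lit 78) (nat_lit 0) (nat_lit 0) (XT.lf (nat_lit 456) (nat_lit 3477544275) (nat_lit 0) (nat_lit 1562010223) (nat_lit 380) (nat_lit 1562010223) (nat_lit 167) (nat_lit 1) (nat_lit 161) (nat_lit 1) (nat_lit 166) (nat_lit 1) (nat_lit 343) (nat_lit 444) (nat_lit 353)) (XT.lf (nat_lit 76) (nat_lit 940622553) (nat_lit 0) (nat_lit 4670879513) (nat_lit 456) (nat_lit 940622553) (nat_lit 162) (nat_lit 1) (nat_lit 161) (nat_lit 1) (nat_lit 167) (nat_lit 1) (nat_lit 344) (nat_lit 444) (nat_lit 352)))) (XT.nd (nat_lit 156) (nat_lit 304) (nat_lit 0) (XT.nd (nat_lit 78) (nat_lit 456) (nat_lit 0) (XT.lf (nat_lit 380) (nat_lit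 285516451) (nat_lit 0) (nat_lit 3108767470) (nat_lit 304) (nat_lit 3108767470) (nat_lit 162) (nat_lit 1) (nat_lit 157) (nat_lit 1) (nat_lit 161) (nat_lit 1) (nat_lit 345) (nat_lit 444) (nat_lit 351)) (XT.lf (nat_lit 456) (nat_lit 5182181724) (nat_lit 0) (nat_lit 636193917) (nat_lit 380) (nat_lit 636193917) (nat_lit 157) (nat_lit 1) (nat_lit 151) (nat_lit 1) (nat_lit 156) (nat_lit 1) (nat_lit 346) (nat_lit 444) (nat_lit 350))) (XT.nd (nat_lit 78) (nat_lit 304) (nat_lit 0) (XT.lf (nat_lit 76) (nat_lit 1788304557) (nat_lit 0) (nat_lit 2829719961) (nat_lit 456) (nat_lit 1788304557) (nat_lit 152) (nat_lit 1) (nat_lit 151) (nat_lit 1) (nat_lit 157) (nat_lit 1) (nat_lit 347) (nat_lit 444) (nat_lit 349)) (XT.nd (nat_lit 78) (nat_lit 0) (nat_lit 0) (XT.lf (nat_lit 380) (nat_lit 1983901742) (nat_lit 0) (nat_lit 2187383856) (nat_lit 304) (nat_lit 2187383856) (nat_lit 152) (nat_lit 1) (nat_lit 147) (nat_lit 1) (nat_lit 151) (nat_lit 1) (nat_lit 348)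 (nat_lit 444) (nat_lit 348)) (XT.lf (nat_lit 76) (nat_lit 204642752) (nat_lit 0) (nat_lit 5902401217) (nat_lit 380) (nat_lit 204642752) (nat_lit 148) (nat_lit 1) (nat_lit 147) (nat_lit 1) (nat_lit 152) (nat_lit 1) (nat_lit 349) (nat_lit 444) (nat_lit 347))))))) (XT.nd (nat_lit 702) (nat_lit 1748) (nat_lit 0) (XT.nd (nat_lit 312) (nat_lit 988) (nat_lit 0) (XT.nd (nat_lit 156) (nat_lit 304) (nat_lit 0) (XT.nd (nat_lit 78) (nat_lit 304) (nat_lit 0) (XT.lf (nat_lit 76) (nat_lit 2553405920) (nat_lit 0) (nat_lit 1157899616) (nat_lit 380) (nat_lit 2553405920) (nat_lit 143) (nat_lit 1) (nat_lit 142) (nat_lit 1) (nat_lit 147) (nat_lit 1) (nat_lit 350) (nat_lit 444) (nat_lit 346)) (XT.lf (nat_lit 380) (nat_lit 3519219211) (nat_lit 0) (nat_lit 1349592069) (nat_lit 304) (nat_lit 1349592069) (nat_lit 143) (nat_lit 1) (nat_lit 138) (nat_lit 1) (nat_lit 142) (nat_lit 1) (nat_lit 351) (nat_lit 444) (nat_lit 345))) (XT.nd (nat_lit 78) (nat_lit 304) (nat_lit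 0) (XT.lf (nat_lit 76) (nat_lit 969724880) (nat_lit 0) (nat_lit 4233096502) (nat_lit 380) (nat_lit 969724880) (nat_lit 139) (nat_lit 1) (nat_lit 138) (nat_lit 1) (nat_lit 143) (nat_lit 1) (nat_lit 352) (nat_lit 444) (nat_lit 344)) (XT.lf (nat_lit 380) (nat_lit 362806863) (nat_lit 0) (nat_lit 2882117703) (nat_lit 304) (nat_lit 2882117703) (nat_lit 139) (nat_lit 1) (nat_lit 134) (nat_lit 1) (nat_lit 138) (nat_lit 1) (nat_lit 353) (nat_lit 444) (nat_lit 343)))) (XT.nd (nat_lit 156) (nat_lit 608) (nat_lit 0) (XT.nd (nat_lit 78) (nat_lit 0) (nat_lit 0) (XT.lf (nat_lit 380) (nat_lit 4904548553) (nat_lit 0) (nat_lit 588762988) (nat_lit 304) (nat_lit 588762988) (nat_lit 134) (nat_lit 1) (nat_lit 129) (nat_lit 1) (nat_lit 133) (nat_lit 1) (nat_lit 354) (nat_lit 444) (nat_lit 342)) (XT.lf (nat_lit 76) (nat_lit 1661235317) (nat_lit 0) (nat_lit 2714834817) (nat_lit 380) (nat_lit 1661235317) (nat_lit 130) (nat_lit 1) (nat_lit 129) (nat_lit 1) (nat_lit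 134) (nat_lit 1) (nat_lit 355) (nat_lit 444) (nat_lit 341))) (XT.nd (nat_lit 78) (nat_lit 304) (nat_lit 0) (XT.lf (nat_lit 380) (nat_lit 1753553095) (nat_lit 0) (nat_lit 2119755445) (nat_lit 304) (nat_lit 2119755445) (nat_lit 130) (nat_lit 1) (nat_lit 125) (nat_lit 1) (nat_lit 129) (nat_lit 1) (nat_lit 356) (nat_lit 444) (nat_lit 340)) (XT.nd (nat_lit 78) (nat_lit 304) (nat_lit 0) (XT.lf (nat_lit 76) (nat_lit 101892855) (nat_lit 0) (nat_lit 5745676586) (nat_lit 380) (nat_lit 101892855) (nat_lit 126) (nat_lit 1) (nat_lit 125) (nat_lit 1) (nat_lit 130) (nat_lit 1) (nat_lit 357) (nat_lit 444) (nat_lit 339)) (XT.lf (nat_lit 76) (nat_lit 2285077023) (nat_lit 0) (nat_lit 1335644567) (nat_lit 304) (nat_lit 2285077023) (nat_lit 122) (nat_lit 1) (nat_lit 121) (nat_lit 1) (nat_lit 125) (nat_lit 1) (nat_lit 358) (nat_lit 444) (nat_lit 338)))))) (XT.nd (nat_lit 312) (nat_lit 836) (nat_lit 0) (XT.nd (nat_lit 156) (nat_lit 608) (nat_lit 0) (XT.nd (nat_lit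 78) (nat_lit 0) (nat_lit 0) (XT.lf (nat_lit 380) (nat_lit 3010576354) (nat_lit 0) (nat_lit 1426095185) (nat_lit 304) (nat_lit 1426095185) (nat_lit 122) (nat_lit 1) (nat_lit 117) (nat_lit 1) (nat_lit 121) (nat_lit 1) (nat_lit 359) (nat_lit 444) (nat_lit 337)) (XT.lf (nat_lit 76) (nat_lit 730820512) (nat_lit 0) (nat_lit 4358546639) (nat_lit 380) (nat_lit 730820512) (nat_lit 118) (nat_lit 1) (nat_lit 117) (nat_lit 1) (nat_lit 122) (nat_lit 1) (nat_lit 360) (nat_lit 444) (nat_lit 336))) (XT.nd (nat_lit 78) (nat_lit 304) (nat_lit 0) (XT.lf (nat_lit 76) (nat_lit 2846697538) (nat_lit 0) (nat_lit 84475044) (nat_lit 304) (nat_lit 2846697538) (nat_lit 114) (nat_lit 1) (nat_lit 113) (nat_lit 1) (nat_lit 117) (nat_lit 1) (nat_lit 361) (nat_lit 444) (nat_lit 335)) (XT.lf (nat_lit 380) (nat_lit 4144605574) (nat_lit 0) (nat_lit 795696231) (nat_lit 304) (nat_lit 795696231) (nat_lit 114) (nat_lit 1) (nat_lit 109) (nat_lit 1) (nat_lit 113) (nat_lit 1)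 (nat_lit 362) (nat_lit 444) (nat_lit 334)))) (XT.nd (nat_lit 156) (nat_lit 608) (nat_lit 0) (XT.nd (nat_lit 78) (nat_lit 228) (nat_lit 0) (XT.lf (nat_lit 76) (nat_lit 1299368386) (nat_lit 0) (nat_lit 3095672009) (nat_lit 380) (nat_lit 1299368386) (nat_lit 110) (nat_lit 1) (nat_lit 109) (nat_lit 1) (nat_lit 114) (nat_lit 1) (nat_lit 363) (nat_lit 444) (nat_lit 333)) (XT.lf (nat_lit 304) (nat_lit 1062812862) (nat_lit 0) (nat_lit 2295211401) (nat_lit 228) (nat_lit 2295211401) (nat_lit 110) (nat_lit 1) (nat_lit 106) (nat_lit 1) (nat_lit 109) (nat_lit 1) (nat_lit 364) (nat_lit 444) (nat_lit 332))) (XT.nd (nat_lit 78) (nat_lit 228) (nat_lit 0) (XT.lf (nat_lit 380) (nat_lit 5165541941) (nat_lit 0) (nat_lit 223536321) (nat_lit 304) (nat_lit 223536321) (nat_lit 106) (nat_lit 1) (nat_lit 101) (nat_lit 1) (nat_lit 105) (nat_lit 1) (nat_lit 365) (nat_lit 444) (nat_lit 331)) (XT.nd (nat_lit 78) (nat_lit 228) (nat_lit 0) (XT.lf (nat_lit 76) (nat_lit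 1812379461) (nat_lit 0) (nat_lit 1947225007) (nat_lit 380) (nat_lit 1812379461) (nat_lit 102) (nat_lit 1) (nat_lit 101) (nat_lit 1) (nat_lit 106) (nat_lit 1) (nat_lit 366) (nat_lit 444) (nat_lit 330)) (XT.lf (nat_lit 304) (nat_lit 2101376646) (nat_lit 0) (nat_lit 1715261060) (nat_lit 228) (nat_lit 1715261060) (nat_lit 102) (nat_lit 1) (nat_lit 98) (nat_lit 1) (nat_lit 101) (nat_lit 1) (nat_lit 367) (nat_lit 444) (nat_lit 329))))))))
noncomputable def ec237 : XT := (XT.nd (nat_lit 1404) (nat_lit 2280) (nat_lit 0) (XT.nd (nat_lit 702) (nat_lit 1140) (nat_lit 0) (XT.nd (nat_lit 312) (nat_lit 1064) (nat_lit 0) (XT.nd (nat_lit 156) (nat_lit 228) (nat_lit 0) (XT.nd (nat_lit 78) (nat_lit 304) (nat_lit 0) (XT.lf (nat_lit 76) (nat_lit 296974103) (nat_lit 0) (nat_lit 4898378506) (nat_lit 304) (nat_lit 296974103) (nat_lit 99) (nat_lit 1) (nat_lit 98) (nat_lit 1) (nat_lit 102) (nat_lit 1) (nat_lit 368) (nat_lit 444) (nat_lit 328)) (XT.lf (nat_lit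 76) (nat_lit 2274323104) (nat_lit 0) (nat_lit 904133525) (nat_lit 304) (nat_lit 2274323104) (nat_lit 95) (nat_lit 1) (nat_lit 94) (nat_lit 1) (nat_lit 98) (nat_lit 1) (nat_lit 369) (nat_lit 444) (nat_lit 327))) (XT.nd (nat_lit 78) (nat_lit 0) (nat_lit 0) (XT.lf (nat_lit 304) (nat_lit 3038898030) (nat_lit 0) (nat_lit 1187420893) (nat_lit 228) (nat_lit 1187420893) (nat_lit 95) (nat_lit 1) (nat_lit 91) (nat_lit 1) (nat_lit 94) (nat_lit 1) (nat_lit 370) (nat_lit 444) (nat_lit 326)) (XT.lf (nat_lit 76) (nat_lit 769313803) (nat_lit 0) (nat_lit 3836443172) (nat_lit 304) (nat_lit 769313803) (nat_lit 92) (nat_lit 1) (nat_lit 91) (nat_lit 1) (nat_lit 95) (nat_lit 1) (nat_lit 371) (nat_lit 444) (nat_lit 325)))) (XT.nd (nat_lit 156) (nat_lit 532) (nat_lit 0) (XT.nd (nat_lit 78) (nat_lit 304) (nat_lit 0) (XT.lf (nat_lit 304) (nat_lit 42534490) (nat_lit 0) (nat_lit 2647065284) (nat_lit 228) (nat_lit 2647065284) (nat_lit 92) (nat_lit 1) (nat_lit 88)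 (nat_lit 1) (nat_lit 91) (nat_lit 1) (nat_lit 372) (nat_lit 444) (nat_lit 324)) (XT.lf (nat_lit 304) (nat_lit 3883502269) (nat_lit 0) (nat_lit 707566703) (nat_lit 228) (nat_lit 707566703) (nat_lit 88) (nat_lit 1) (nat_lit 84) (nat_lit 1) (nat_lit 87) (nat_lit 1) (nat_lit 373) (nat_lit 444) (nat_lit 323))) (XT.nd (nat_lit 78) (nat_lit 532) (nat_lit 0) (XT.lf (nat_lit 76) (nat_lit 1195977661) (nat_lit 0) (nat_lit 2868886943) (nat_lit 304) (nat_lit 1195977661) (nat_lit 85) (nat_lit 1) (nat_lit 84) (nat_lit 1) (nat_lit 88) (nat_lit 1) (nat_lit 374) (nat_lit 444) (nat_lit 322)) (XT.nd (nat_lit 78) (nat_lit 304) (nat_lit 0) (XT.lf (nat_lit 304) (nat_lit 910780137) (nat_lit 0) (nat_lit 2156319840) (nat_lit 228) (nat_lit 2156319840) (nat_lit 85) (nat_lit 1) (nat_lit 81) (nat_lit 1) (nat_lit 84) (nat_lit 1) (nat_lit 375) (nat_lit 444) (nat_lit 321)) (XT.lf (nat_lit 304) (nat_lit 4642687400) (nat_lit 0) (nat_lit 271891420) (nat_lit 228) (nat_lit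 271891420) (nat_lit 81) (nat_lit 1) (nat_lit 77) (nat_lit 1) (nat_lit 80) (nat_lit 1) (nat_lit 376) (nat_lit 444) (nat_lit 320)))))) (XT.nd (nat_lit 312) (nat_lit 684) (nat_lit 0) (XT.nd (nat_lit 156) (nat_lit 228) (nat_lit 0) (XT.nd (nat_lit 78) (nat_lit 228) (nat_lit 0) (XT.lf (nat_lit 76) (nat_lit 1580634397) (nat_lit 0) (nat_lit 1988257556) (nat_lit 304) (nat_lit 1580634397) (nat_lit 78) (nat_lit 1) (nat_lit 77) (nat_lit 1) (nat_lit 81) (nat_lit 1) (nat_lit 377) (nat_lit 444) (nat_lit 319)) (XT.lf (nat_lit 304) (nat_lit 1695816969) (nat_lit 0) (nat_lit 1708616697) (nat_lit 228) (nat_lit 1708616697) (nat_lit 78) (nat_lit 1) (nat_lit 74) (nat_lit 1) (nat_lit 77) (nat_lit 1) (nat_lit 378) (nat_lit 444) (nat_lit 318))) (XT.nd (nat_lit 78) (nat_lit 228) (nat_lit 0) (XT.lf (nat_lit 76) (nat_lit 123934459) (nat_lit 0) (nat_lit 4829200469) (nat_lit 304) (nat_lit 123934459) (nat_lit 75) (nat_lit 1) (nat_lit 74) (nat_lit 1) (nat_lit 78) (nat_lit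 1) (nat_lit 379) (nat_lit 444) (nat_lit 317)) (XT.lf (nat_lit 76) (nat_lit 1926669607) (nat_lit 0) (nat_lit 1187675468) (nat_lit 228) (nat_lit 1926669607) (nat_lit 72) (nat_lit 1) (nat_lit 71) (nat_lit 1) (nat_lit 74) (nat_lit 1) (nat_lit 380) (nat_lit 444) (nat_lit 316)))) (XT.nd (nat_lit 156) (nat_lit 456) (nat_lit 0) (XT.nd (nat_lit 78) (nat_lit 0) (nat_lit 0) (XT.lf (nat_lit 304) (nat_lit 2404316774) (nat_lit 0) (nat_lit 1300566814) (nat_lit 228) (nat_lit 1300566814) (nat_lit 72) (nat_lit 1) (nat_lit 68) (nat_lit 1) (nat_lit 71) (nat_lit 1) (nat_lit 381) (nat_lit 444) (nat_lit 315)) (XT.lf (nat_lit 76) (nat_lit 483891955) (nat_lit 0) (nat_lit 4002487344) (nat_lit 304) (nat_lit 483891955) (nat_lit 69) (nat_lit 1) (nat_lit 68) (nat_lit 1) (nat_lit 72) (nat_lit 1) (nat_lit 382) (nat_lit 444) (nat_lit 314))) (XT.nd (nat_lit 78) (nat_lit 228) (nat_lit 0) (XT.lf (nat_lit 76) (nat_lit 2237207404) (nat_lit 0) (nat_lit 460790137) (nat_lit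 228) (nat_lit 2237207404) (nat_lit 66) (nat_lit 1) (nat_lit 65) (nat_lit 1) (nat_lit 68) (nat_lit 1) (nat_lit 383) (nat_lit 444) (nat_lit 313)) (XT.nd (nat_lit 78) (nat_lit 0) (nat_lit 0) (XT.lf (nat_lit 304) (nat_lit 3042436686) (nat_lit 0) (nat_lit 929041422) (nat_lit 228) (nat_lit 929041422) (nat_lit 66) (nat_lit 1) (nat_lit 62) (nat_lit 1) (nat_lit 65) (nat_lit 1) (nat_lit 384) (nat_lit 444) (nat_lit 312)) (XT.lf (nat_lit 76) (nat_lit 809193989) (nat_lit 0) (nat_lit 3247731174) (nat_lit 304) (nat_lit 809193989) (nat_lit 63) (nat_lit 1) (nat_lit 62) (nat_lit 1) (nat_lit 66) (nat_lit 1) (nat_lit 385) (nat_lit 444) (nat_lit 311))))))) (XT.nd (nat_lit 702) (nat_lit 912) (nat_lit 0) (XT.nd (nat_lit 312) (nat_lit 760) (nat_lit 0) (XT.nd (nat_lit 156) (nat_lit 152) (nat_lit 0) (XT.nd (nat_lit 78) (nat_lit 304) (nat_lit 0) (XT.lf (nat_lit 228) (nat_lit 200895143) (nat_lit 0) (nat_lit 2315539598) (nat_lit 152) (nat_lit 2315539598) (nat_lit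 63) (nat_lit 1) (nat_lit 60) (nat_lit 1) (nat_lit 62) (nat_lit 1) (nat_lit 386) (nat_lit 444) (nat_lit 310)) (XT.lf (nat_lit 304) (nat_lit 3615858503) (nat_lit 0) (nat_lit 591152158) (nat_lit 228) (nat_lit 591152158) (nat_lit 60) (nat_lit 1) (nat_lit 56) (nat_lit 1) (nat_lit 59) (nat_lit 1) (nat_lit 387) (nat_lit 444) (nat_lit 309))) (XT.nd (nat_lit 78) (nat_lit 152) (nat_lit 0) (XT.lf (nat_lit 76) (nat_lit 1102621754) (nat_lit 0) (nat_lit 2559275658) (nat_lit 304) (nat_lit 1102621754) (nat_lit 57) (nat_lit 1) (nat_lit 56) (nat_lit 1) (nat_lit 60) (nat_lit 1) (nat_lit 388) (nat_lit 444) (nat_lit 308)) (XT.lf (nat_lit 228) (nat_lit 805450291) (nat_lit 0) (nat_lit 1962877378) (nat_lit 152) (nat_lit 1962877378) (nat_lit 57) (nat_lit 1) (nat_lit 54) (nat_lit 1) (nat_lit 56) (nat_lit 1) (nat_lit 389) (nat_lit 444) (nat_lit 307)))) (XT.nd (nat_lit 156) (nat_lit 456) (nat_lit 0) (XT.nd (nat_lit 78) (nat_lit 0) (nat_lit 0) (XT.lf (nat_lit 304)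 (nat_lit 4129825011) (nat_lit 0) (nat_lit 284232717) (nat_lit 228) (nat_lit 284232717) (nat_lit 54) (nat_lit 1) (nat_lit 50) (nat_lit 1) (nat_lit 53) (nat_lit 1) (nat_lit 390) (nat_lit 444) (nat_lit 306)) (XT.lf (nat_lit 76) (nat_lit 1366741856) (nat_lit 0) (nat_lit 1931898706) (nat_lit 304) (nat_lit 1366741856) (nat_lit 51) (nat_lit 1) (nat_lit 50) (nat_lit 1) (nat_lit 54) (nat_lit 1) (nat_lit 391) (nat_lit 444) (nat_lit 305))) (XT.nd (nat_lit 78) (nat_lit 304) (nat_lit 0) (XT.lf (nat_lit 228) (nat_lit 1351811796) (nat_lit 0) (nat_lit 1640529319) (nat_lit 152) (nat_lit 1640529319) (nat_lit 51) (nat_lit 1) (nat_lit 48) (nat_lit 1) (nat_lit 50) (nat_lit 1) (nat_lit 392) (nat_lit 444) (nat_lit 304)) (XT.nd (nat_lit 78) (nat_lit 0) (nat_lit 0) (XT.lf (nat_lit 304) (nat_lit 4589173548) (nat_lit 0) (nat_lit 5821899) (nat_lit 228) (nat_lit 5821899) (nat_lit 48) (nat_lit 1) (nat_lit 44) (nat_lit 1) (nat_lit 47) (nat_lit 1) (nat_lit 393) (nat_lit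 444) (nat_lit 303)) (XT.lf (nat_lit 76) (nat_lit 1603922715) (nat_lit 0) (nat_lit 1360779308) (nat_lit 304) (nat_lit 1603922715) (nat_lit 45) (nat_lit 1) (nat_lit 44) (nat_lit 1) (nat_lit 48) (nat_lit 1) (nat_lit 394) (nat_lit 444) (nat_lit 302)))))) (XT.nd (nat_lit 390) (nat_lit 380) (nat_lit 0) (XT.nd (nat_lit 156) (nat_lit 380) (nat_lit 0) (XT.nd (nat_lit 78) (nat_lit 0) (nat_lit 0) (XT.lf (nat_lit 228) (nat_lit 1844649681) (nat_lit 0) (nat_lit 1346119067) (nat_lit 152) (nat_lit 1346119067) (nat_lit 45) (nat_lit 1) (nat_lit 42) (nat_lit 1) (nat_lit 44) (nat_lit 1) (nat_lit 395) (nat_lit 444) (nat_lit 301)) (XT.lf (nat_lit 76) (nat_lit 247983519) (nat_lit 0) (nat_lit 4009566616) (nat_lit 228) (nat_lit 247983519) (nat_lit 43) (nat_lit 1) (nat_lit 42) (nat_lit 1) (nat_lit 45) (nat_lit 1) (nat_lit 396) (nat_lit 444) (nat_lit 300))) (XT.nd (nat_lit 78) (nat_lit 152) (nat_lit 0) (XT.lf (nat_lit 76) (nat_lit 1816349705) (nat_lit 0) (nat_lit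 841466921) (nat_lit 228) (nat_lit 1816349705) (nat_lit 40) (nat_lit 1) (nat_lit 39) (nat_lit 1) (nat_lit 42) (nat_lit 1) (nat_lit 397) (nat_lit 444) (nat_lit 299)) (XT.nd (nat_lit 78) (nat_lit 0) (nat_lit 0) (XT.lf (nat_lit 228) (nat_lit 2288273658) (nat_lit 0) (nat_lit 1077452571) (nat_lit 152) (nat_lit 1077452571) (nat_lit 40) (nat_lit 1) (nat_lit 37) (nat_lit 1) (nat_lit 39) (nat_lit 1) (nat_lit 398) (nat_lit 444) (nat_lit 298)) (XT.lf (nat_lit 76) (nat_lit 477527532) (nat_lit 0) (nat_lit 3457446664) (nat_lit 228) (nat_lit 477527532) (nat_lit 38) (nat_lit 1) (nat_lit 37) (nat_lit 1) (nat_lit 40) (nat_lit 1) (nat_lit 399) (nat_lit 444) (nat_lit 297))))) (XT.nd (nat_lit 156) (nat_lit 0) (nat_lit 0) (XT.nd (nat_lit 78) (nat_lit 152) (nat_lit 0) (XT.lf (nat_lit 76) (nat_lit 2006039153) (nat_lit 0) (nat_lit 369853191) (nat_lit 228) (nat_lit 2006039153) (nat_lit 35) (nat_lit 1) (nat_lit 34) (nat_lit 1) (nat_lit 37) (nat_lit 1) (nat_lit 400)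 (nat_lit 444) (nat_lit 296)) (XT.lf (nat_lit 228) (nat_lit 2686660651) (nat_lit 0) (nat_lit 832504166) (nat_lit 152) (nat_lit 832504166) (nat_lit 35) (nat_lit 1) (nat_lit 32) (nat_lit 1) (nat_lit 34) (nat_lit 1) (nat_lit 401) (nat_lit 444) (nat_lit 295))) (XT.nd (nat_lit 51090) (nat_lit 0) (nat_lit 24092) (XT.lf (nat_lit 76) (nat_lit 684719561) (nat_lit 0) (nat_lit 2952211859) (nat_lit 228) (nat_lit 684719561) (nat_lit 33) (nat_lit 1) (nat_lit 32) (nat_lit 1) (nat_lit 35) (nat_lit 1) (nat_lit 402) (nat_lit 444) (nat_lit 294)) (XT.nd (nat_lit 78) (nat_lit 0) (nat_lit 0) (XT.lf (nat_lit 760) (nat_lit 2768833587) (nat_lit 0) (nat_lit 3435572560) (nat_lit 684) (nat_lit 3435572560) (nat_lit 359) (nat_lit 1) (nat_lit 349) (nat_lit 1) (nat_lit 358) (nat_lit 1) (nat_lit 296) (nat_lit 445) (nat_lit 399)) (XT.lf (nat_lit 76) (nat_lit 689584751) (nat_lit 0) (nat_lit 8179653340) (nat_lit 760) (nat_lit 689584751) (nat_lit 350) (nat_lit 1) (nat_lit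 349) (nat_lit 1) (nat_lit 359) (nat_lit 1) (nat_lit 297) (nat_lit 445) (nat_lit 398))))))))
noncomputable def ec238 : XT := (XT.nd (nat_lit 1404) (nat_lit 5396) (nat_lit 0) (XT.nd (nat_lit 702) (nat_lit 2888) (nat_lit 0) (XT.nd (nat_lit 312) (nat_lit 1900) (nat_lit 0) (XT.nd (nat_lit 156) (nat_lit 684) (nat_lit 0) (XT.nd (nat_lit 78) (nat_lit 684) (nat_lit 0) (XT.lf (nat_lit 76) (nat_lit 4720812283) (nat_lit 0) (nat_lit 36573727) (nat_lit 760) (nat_lit 4720812283) (nat_lit 340) (nat_lit 1) (nat_lit 339) (nat_lit 1) (nat_lit 349) (nat_lit 1) (nat_lit 298) (nat_lit 445) (nat_lit 397)) (XT.lf (nat_lit 760) (nat_lit 7982899950) (nat_lit 0) (nat_lit 707948807) (nat_lit 684) (nat_lit 707948807) (nat_lit 340) (nat_lit 1) (nat_lit 330) (nat_lit 1) (nat_lit 339) (nat_lit 1) (nat_lit 299) (nat_lit 445) (nat_lit 396))) (XT.nd (nat_lit 78) (nat_lit 684) (nat_lit 0) (XT.lf (nat_lit 76) (nat_lit 3249955445) (nat_lit 0) (nat_lit 2820006215) (nat_lit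 760) (nat_lit 3249955445) (nat_lit 331) (nat_lit 1) (nat_lit 330) (nat_lit 1) (nat_lit 340) (nat_lit 1) (nat_lit 300) (nat_lit 445) (nat_lit 395)) (XT.lf (nat_lit 760) (nat_lit 5027447375) (nat_lit 0) (nat_lit 2107386085) (nat_lit 684) (nat_lit 2107386085) (nat_lit 331) (nat_lit 1) (nat_lit 321) (nat_lit 1) (nat_lit 330) (nat_lit 1) (nat_lit 301) (nat_lit 445) (nat_lit 394)))) (XT.nd (nat_lit 156) (nat_lit 1292) (nat_lit 0) (XT.nd (nat_lit 78) (nat_lit 608) (nat_lit 0) (XT.lf (nat_lit 76) (nat_lit 1775280670) (nat_lit 0) (nat_lit 5614831296) (nat_lit 760) (nat_lit 1775280670) (nat_lit 322) (nat_lit 1) (nat_lit 321) (nat_lit 1) (nat_lit 331) (nat_lit 1) (nat_lit 302) (nat_lit 445) (nat_lit 393)) (XT.lf (nat_lit 684) (nat_lit 2065694175) (nat_lit 0) (nat_lit 3511826827) (nat_lit 608) (nat_lit 3511826827) (nat_lit 322) (nat_lit 1) (nat_lit 313) (nat_lit 1) (nat_lit 321) (nat_lit 1) (nat_lit 303) (nat_lit 445) (nat_lit 392))) (XT.nd (nat_lit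 78) (nat_lit 1292) (nat_lit 0) (XT.lf (nat_lit 76) (nat_lit 298130979) (nat_lit 0) (nat_lit 8418263902) (nat_lit 684) (nat_lit 298130979) (nat_lit 314) (nat_lit 1) (nat_lit 313) (nat_lit 1) (nat_lit 322) (nat_lit 1) (nat_lit 304) (nat_lit 445) (nat_lit 391)) (XT.nd (nat_lit 78) (nat_lit 608) (nat_lit 0) (XT.lf (nat_lit 76) (nat_lit 4026013649) (nat_lit 0) (nat_lit 887940909) (nat_lit 684) (nat_lit 4026013649) (nat_lit 305) (nat_lit 1) (nat_lit 304) (nat_lit 1) (nat_lit 313) (nat_lit 1) (nat_lit 305) (nat_lit 445) (nat_lit 390)) (XT.lf (nat_lit 684) (nat_lit 6521682525) (nat_lit 0) (nat_lit 1172461537) (nat_lit 608) (nat_lit 1172461537) (nat_lit 305) (nat_lit 1) (nat_lit 296) (nat_lit 1) (nat_lit 304) (nat_lit 1) (nat_lit 306) (nat_lit 445) (nat_lit 389)))))) (XT.nd (nat_lit 312) (nat_lit 1748) (nat_lit 0) (XT.nd (nat_lit 156) (nat_lit 532) (nat_lit 0) (XT.nd (nat_lit 78) (nat_lit 608) (nat_lit 0) (XT.lf (nat_lit 76) (nat_lit 2489077280)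 (nat_lit 0) (nat_lit 3815680050) (nat_lit 684) (nat_lit 2489077280) (nat_lit 297) (nat_lit 1) (nat_lit 296) (nat_lit 1) (nat_lit 305) (nat_lit 1) (nat_lit 307) (nat_lit 445) (nat_lit 388)) (XT.lf (nat_lit 684) (nat_lit 3439788694) (nat_lit 0) (nat_lit 2641104796) (nat_lit 608) (nat_lit 2641104796) (nat_lit 297) (nat_lit 1) (nat_lit 288) (nat_lit 1) (nat_lit 296) (nat_lit 1) (nat_lit 308) (nat_lit 445) (nat_lit 387))) (XT.nd (nat_lit 78) (nat_lit 532) (nat_lit 0) (XT.lf (nat_lit 76) (nat_lit 954403402) (nat_lit 0) (nat_lit 6742317045) (nat_lit 684) (nat_lit 954403402) (nat_lit 289) (nat_lit 1) (nat_lit 288) (nat_lit 1) (nat_lit 297) (nat_lit 1) (nat_lit 309) (nat_lit 445) (nat_lit 386)) (XT.lf (nat_lit 608) (nat_lit 363486821) (nat_lit 0) (nat_lit 4108641268) (nat_lit 532) (nat_lit 4108641268) (nat_lit 289) (nat_lit 1) (nat_lit 281) (nat_lit 1) (nat_lit 288) (nat_lit 1) (nat_lit 310) (nat_lit 445) (nat_lit 385)))) (XT.nd (nat_lit 156)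 (nat_lit 1064) (nat_lit 0) (XT.nd (nat_lit 78) (nat_lit 0) (nat_lit 0) (XT.lf (nat_lit 684) (nat_lit 7365098213) (nat_lit 0) (nat_lit 573174129) (nat_lit 608) (nat_lit 573174129) (nat_lit 281) (nat_lit 1) (nat_lit 272) (nat_lit 1) (nat_lit 280) (nat_lit 1) (nat_lit 311) (nat_lit 445) (nat_lit 384)) (XT.lf (nat_lit 76) (nat_lit 2886378045) (nat_lit 0) (nat_lit 2669724111) (nat_lit 684) (nat_lit 2886378045) (nat_lit 273) (nat_lit 1) (nat_lit 272) (nat_lit 1) (nat_lit 281) (nat_lit 1) (nat_lit 312) (nat_lit 445) (nat_lit 383))) (XT.nd (nat_lit 78) (nat_lit 532) (nat_lit 0) (XT.lf (nat_lit 608) (nat_lit 4194072389) (nat_lit 0) (nat_lit 2090224716) (nat_lit 532) (nat_lit 2090224716) (nat_lit 273) (nat_lit 1) (nat_lit 265) (nat_lit 1) (nat_lit 272) (nat_lit 1) (nat_lit 313) (nat_lit 445) (nat_lit 382)) (XT.nd (nat_lit 78) (nat_lit 532) (nat_lit 0) (XT.lf (nat_lit 76) (nat_lit 1309283977) (nat_lit 0) (nat_lit 5688783388) (nat_lit 608) (nat_lit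 1309283977) (nat_lit 266) (nat_lit 1) (nat_lit 265) (nat_lit 1) (nat_lit 273) (nat_lit 1) (nat_lit 314) (nat_lit 445) (nat_lit 381)) (XT.lf (nat_lit 608) (nat_lit 1036529559) (nat_lit 0) (nat_lit 3602117263) (nat_lit 532) (nat_lit 3602117263) (nat_lit 266) (nat_lit 1) (nat_lit 258) (nat_lit 1) (nat_lit 265) (nat_lit 1) (nat_lit 315) (nat_lit 445) (nat_lit 380))))))) (XT.nd (nat_lit 702) (nat_lit 2736) (nat_lit 0) (XT.nd (nat_lit 312) (nat_lit 1520) (nat_lit 0) (XT.nd (nat_lit 156) (nat_lit 532) (nat_lit 0) (XT.nd (nat_lit 78) (nat_lit 0) (nat_lit 0) (XT.lf (nat_lit 608) (nat_lit 7657289055) (nat_lit 0) (nat_lit 258961478) (nat_lit 532) (nat_lit 258961478) (nat_lit 258) (nat_lit 1) (nat_lit 250) (nat_lit 1) (nat_lit 257) (nat_lit 1) (nat_lit 316) (nat_lit 445) (nat_lit 379)) (XT.lf (nat_lit 76) (nat_lit 3015767248) (nat_lit 0) (nat_lit 2078284494) (nat_lit 608) (nat_lit 3015767248) (nat_lit 251) (nat_lit 1) (nat_lit 250) (nat_lit 1) (nat_lit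 258) (nat_lit 1) (nat_lit 317) (nat_lit 445) (nat_lit 378))) (XT.nd (nat_lit 78) (nat_lit 0) (nat_lit 0) (XT.lf (nat_lit 608) (nat_lit 4423984554) (nat_lit 0) (nat_lit 1810727767) (nat_lit 532) (nat_lit 1810727767) (nat_lit 251) (nat_lit 1) (nat_lit 243) (nat_lit 1) (nat_lit 250) (nat_lit 1) (nat_lit 318) (nat_lit 445) (nat_lit 377)) (XT.lf (nat_lit 76) (nat_lit 1409328644) (nat_lit 0) (nat_lit 5163091762) (nat_lit 608) (nat_lit 1409328644) (nat_lit 244) (nat_lit 1) (nat_lit 243) (nat_lit 1) (nat_lit 251) (nat_lit 1) (nat_lit 319) (nat_lit 445) (nat_lit 376)))) (XT.nd (nat_lit 156) (nat_lit 456) (nat_lit 0) (XT.nd (nat_lit 78) (nat_lit 608) (nat_lit 0) (XT.lf (nat_lit 532) (nat_lit 1210839318) (nat_lit 0) (nat_lit 3353900752) (nat_lit 456) (nat_lit 3353900752) (nat_lit 244) (nat_lit 1) (nat_lit 237) (nat_lit 1) (nat_lit 243) (nat_lit 1) (nat_lit 320) (nat_lit 445) (nat_lit 375)) (XT.lf (nat_lit 608) (nat_lit 7485500898) (nat_lit 0) (nat_lit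 185507281) (nat_lit 532) (nat_lit 185507281) (nat_lit 237) (nat_lit 1) (nat_lit 229) (nat_lit 1) (nat_lit 236) (nat_lit 1) (nat_lit 321) (nat_lit 445) (nat_lit 374))) (XT.nd (nat_lit 78) (nat_lit 456) (nat_lit 0) (XT.lf (nat_lit 76) (nat_lit 2919799267) (nat_lit 0) (nat_lit 1954883542) (nat_lit 608) (nat_lit 2919799267) (nat_lit 230) (nat_lit 1) (nat_lit 229) (nat_lit 1) (nat_lit 237) (nat_lit 1) (nat_lit 322) (nat_lit 445) (nat_lit 373)) (XT.nd (nat_lit 78) (nat_lit 0) (nat_lit 0) (XT.lf (nat_lit 532) (nat_lit 4213107692) (nat_lit 0) (nat_lit 1760152582) (nat_lit 456) (nat_lit 1760152582) (nat_lit 230) (nat_lit 1) (nat_lit 223) (nat_lit 1) (nat_lit 229) (nat_lit 1) (nat_lit 323) (nat_lit 445) (nat_lit 372)) (XT.lf (nat_lit 76) (nat_lit 1295303725) (nat_lit 0) (nat_lit 5082386535) (nat_lit 532) (nat_lit 1295303725) (nat_lit 224) (nat_lit 1) (nat_lit 223) (nat_lit 1) (nat_lit 230) (nat_lit 1) (nat_lit 324) (nat_lit 445) (nat_lit 371))))))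 (XT.nd (nat_lit 390) (nat_lit 1292) (nat_lit 0) (XT.nd (nat_lit 156) (nat_lit 456) (nat_lit 0) (XT.nd (nat_lit 78) (nat_lit 532) (nat_lit 0) (XT.lf (nat_lit 532) (nat_lit 966484186) (nat_lit 0) (nat_lit 3323309995) (nat_lit 456) (nat_lit 3323309995) (nat_lit 224) (nat_lit 1) (nat_lit 217) (nat_lit 1) (nat_lit 223) (nat_lit 1) (nat_lit 325) (nat_lit 445) (nat_lit 370)) (XT.lf (nat_lit 532) (nat_lit 6926063532) (nat_lit 0) (nat_lit 314017454) (nat_lit 456) (nat_lit 314017454) (nat_lit 217) (nat_lit 1) (nat_lit 210) (nat_lit 1) (nat_lit 216) (nat_lit 1) (nat_lit 326) (nat_lit 445) (nat_lit 369))) (XT.nd (nat_lit 78) (nat_lit 456) (nat_lit 0) (XT.lf (nat_lit 76) (nat_lit 2635698408) (nat_lit 0) (nat_lit 2223830451) (nat_lit 532) (nat_lit 2635698408) (nat_lit 211) (nat_lit 1) (nat_lit 210) (nat_lit 1) (nat_lit 217) (nat_lit 1) (nat_lit 327) (nat_lit 445) (nat_lit 368)) (XT.nd (nat_lit 78) (nat_lit 0) (nat_lit 0) (XT.lf (nat_lit 532) (nat_lit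 3634544084) (nat_lit 0) (nat_lit 1901339738) (nat_lit 456) (nat_lit 1901339738) (nat_lit 211) (nat_lit 1) (nat_lit 204) (nat_lit 1) (nat_lit 210) (nat_lit 1) (nat_lit 328) (nat_lit 445) (nat_lit 367)) (XT.lf (nat_lit 76) (nat_lit 1002858337) (nat_lit 0) (nat_lit 5374168548) (nat_lit 532) (nat_lit 1002858337) (nat_lit 205) (nat_lit 1) (nat_lit 204) (nat_lit 1) (nat_lit 211) (nat_lit 1) (nat_lit 329) (nat_lit 445) (nat_lit 366))))) (XT.nd (nat_lit 156) (nat_lit 380) (nat_lit 0) (XT.nd (nat_lit 78) (nat_lit 532) (nat_lit 0) (XT.lf (nat_lit 456) (nat_lit 373470684) (nat_lit 0) (nat_lit 3474753609) (nat_lit 380) (nat_lit 3474753609) (nat_lit 205) (nat_lit 1) (nat_lit 199) (nat_lit 1) (nat_lit 204) (nat_lit 1) (nat_lit 330) (nat_lit 445) (nat_lit 365)) (XT.lf (nat_lit 532) (nat_lit 6045660936) (nat_lit 0) (nat_lit 610578333) (nat_lit 456) (nat_lit 610578333) (nat_lit 199) (nat_lit 1) (nat_lit 192) (nat_lit 1) (nat_lit 198) (nat_lit 1) (nat_lit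 331) (nat_lit 445) (nat_lit 364))) (XT.nd (nat_lit 78) (nat_lit 380) (nat_lit 0) (XT.lf (nat_lit 76) (nat_lit 2195979364) (nat_lit 0) (nat_lit 2818967163) (nat_lit 532) (nat_lit 2195979364) (nat_lit 193) (nat_lit 1) (nat_lit 192) (nat_lit 1) (nat_lit 199) (nat_lit 1) (nat_lit 332) (nat_lit 445) (nat_lit 363)) (XT.nd (nat_lit 78) (nat_lit 0) (nat_lit 0) (XT.lf (nat_lit 456) (nat_lit 2752136217) (nat_lit 0) (nat_lit 2201815117) (nat_lit 380) (nat_lit 2201815117) (nat_lit 193) (nat_lit 1) (nat_lit 187) (nat_lit 1) (nat_lit 192) (nat_lit 1) (nat_lit 333) (nat_lit 445) (nat_lit 362)) (XT.lf (nat_lit 76) (nat_lit 563120510) (nat_lit 0) (nat_lit 5975090175) (nat_lit 456) (nat_lit 563120510) (nat_lit 188) (nat_lit 1) (nat_lit 187) (nat_lit 1) (nat_lit 193) (nat_lit 1) (nat_lit 334) (nat_lit 445) (nat_lit 361))))))))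
noncomputable def ec239 : XT := (XT.nd (nat_lit 1404) (nat_lit 3420) (nat_lit 0) (XT.nd (nat_lit 702) (nat_lit 2128) (nat_lit 0) (XT.nd (nat_lit 312) (nat_lit 1064) (nat_lit 0) (XT.nd (nat_lit 156) (nat_lit 380) (nat_lit 0) (XT.nd (nat_lit 78) (nat_lit 380) (nat_lit 0) (XT.lf (nat_lit 76) (nat_lit 3273346743) (nat_lit 0) (nat_lit 500433186) (nat_lit 456) (nat_lit 3273346743) (nat_lit 182) (nat_lit 1) (nat_lit 181) (nat_lit 1) (nat_lit 187) (nat_lit 1) (nat_lit 335) (nat_lit 445) (nat_lit 360)) (XT.lf (nat_lit 456) (nat_lit 4902457313) (nat_lit 0) (nat_lit 1045587696) (nat_lit 380) (nat_lit 1045587696) (nat_lit 182) (nat_lit 1) (nat_lit 176) (nat_lit 1) (nat_lit 181) (nat_lit 1) (nat_lit 336) (nat_lit 445) (nat_lit 359))) (XT.nd (nat_lit 78) (nat_lit 380) (nat_lit 0) (XT.lf (nat_lit 76) (nat_lit 1628997230) (nat_lit 0) (nat_lit 3682556581) (nat_lit 456) (nat_lit 1628997230) (nat_lit 177) (nat_lit 1) (nat_lit 176) (nat_lit 1) (nat_lit 182)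 (nat_lit 1) (nat_lit 337) (nat_lit 445) (nat_lit 358)) (XT.lf (nat_lit 456) (nat_lit 1621548632) (nat_lit 0) (nat_lit 2633243258) (nat_lit 380) (nat_lit 2633243258) (nat_lit 177) (nat_lit 1) (nat_lit 171) (nat_lit 1) (nat_lit 176) (nat_lit 1) (nat_lit 338) (nat_lit 445) (nat_lit 357)))) (XT.nd (nat_lit 156) (nat_lit 684) (nat_lit 0) (XT.nd (nat_lit 78) (nat_lit 380) (nat_lit 0) (XT.lf (nat_lit 76) (nat_lit 3225622) (nat_lit 0) (nat_lit 6829887172) (nat_lit 456) (nat_lit 3225622) (nat_lit 172) (nat_lit 1) (nat_lit 171) (nat_lit 1) (nat_lit 177) (nat_lit 1) (nat_lit 339) (nat_lit 445) (nat_lit 356)) (XT.lf (nat_lit 76) (nat_lit 2591962152) (nat_lit 0) (nat_lit 1600639381) (nat_lit 380) (nat_lit 2591962152) (nat_lit 167) (nat_lit 1) (nat_lit 166) (nat_lit 1) (nat_lit 171) (nat_lit 1) (nat_lit 340) (nat_lit 445) (nat_lit 355))) (XT.nd (nat_lit 78) (nat_lit 304) (nat_lit 0) (XT.lf (nat_lit 456) (nat_lit 3547095160) (nat_lit 0) (nat_lit 1593250428)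 (nat_lit 380) (nat_lit 1593250428) (nat_lit 167) (nat_lit 1) (nat_lit 161) (nat_lit 1) (nat_lit 166) (nat_lit 1) (nat_lit 341) (nat_lit 445) (nat_lit 354)) (XT.nd (nat_lit 78) (nat_lit 304) (nat_lit 0) (XT.lf (nat_lit 76) (nat_lit 959435004) (nat_lit 0) (nat_lit 4764297103) (nat_lit 456) (nat_lit 959435004) (nat_lit 162) (nat_lit 1) (nat_lit 161) (nat_lit 1) (nat_lit 167) (nat_lit 1) (nat_lit 342) (nat_lit 445) (nat_lit 353)) (XT.lf (nat_lit 380) (nat_lit 291226780) (nat_lit 0) (nat_lit 3170942820) (nat_lit 304) (nat_lit 3170942820) (nat_lit 162) (nat_lit 1) (nat_lit 157) (nat_lit 1) (nat_lit 161) (nat_lit 1) (nat_lit 343) (nat_lit 445) (nat_lit 352)))))) (XT.nd (nat_lit 312) (nat_lit 1368) (nat_lit 0) (XT.nd (nat_lit 156) (nat_lit 304) (nat_lit 0) (XT.nd (nat_lit 78) (nat_lit 0) (nat_lit 0) (XT.lf (nat_lit 456) (nat_lit 5285825359) (nat_lit 0) (nat_lit 648917795) (nat_lit 380) (nat_lit 648917795) (nat_lit 157) (nat_lit 1) (nat_lit 151)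 (nat_lit 1) (nat_lit 156) (nat_lit 1) (nat_lit 344) (nat_lit 445) (nat_lit 351)) (XT.lf (nat_lit 76) (nat_lit 1824070648) (nat_lit 0) (nat_lit 2886314361) (nat_lit 456) (nat_lit 1824070648) (nat_lit 152) (nat_lit 1) (nat_lit 151) (nat_lit 1) (nat_lit 157) (nat_lit 1) (nat_lit 345) (nat_lit 445) (nat_lit 350))) (XT.nd (nat_lit 78) (nat_lit 0) (nat_lit 0) (XT.lf (nat_lit 380) (nat_lit 2023579777) (nat_lit 0) (nat_lit 2231131533) (nat_lit 304) (nat_lit 2231131533) (nat_lit 152) (nat_lit 1) (nat_lit 147) (nat_lit 1) (nat_lit 151) (nat_lit 1) (nat_lit 346) (nat_lit 445) (nat_lit 349)) (XT.lf (nat_lit 76) (nat_lit 208735607) (nat_lit 0) (nat_lit 6020449241) (nat_lit 380) (nat_lit 208735607) (nat_lit 148) (nat_lit 1) (nat_lit 147) (nat_lit 1) (nat_lit 152) (nat_lit 1) (nat_lit 347) (nat_lit 445) (nat_lit 348)))) (XT.nd (nat_lit 156) (nat_lit 684) (nat_lit 0) (XT.nd (nat_lit 78) (nat_lit 304) (nat_lit 0) (XT.lf (nat_lit 76) (nat_lit 2604474039)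 (nat_lit 0) (nat_lit 1181057608) (nat_lit 380) (nat_lit 2604474039) (nat_lit 143) (nat_lit 1) (nat_lit 142) (nat_lit 1) (nat_lit 147) (nat_lit 1) (nat_lit 348) (nat_lit 445) (nat_lit 347)) (XT.lf (nat_lit 380) (nat_lit 3589603595) (nat_lit 0) (nat_lit 1376583911) (nat_lit 304) (nat_lit 1376583911) (nat_lit 143) (nat_lit 1) (nat_lit 138) (nat_lit 1) (nat_lit 142) (nat_lit 1) (nat_lit 349) (nat_lit 445) (nat_lit 346))) (XT.nd (nat_lit 78) (nat_lit 684) (nat_lit 0) (XT.lf (nat_lit 76) (nat_lit 989119378) (nat_lit 0) (nat_lit 4317758432) (nat_lit 380) (nat_lit 989119378) (nat_lit 139) (nat_lit 1) (nat_lit 138) (nat_lit 1) (nat_lit 143) (nat_lit 1) (nat_lit 350) (nat_lit 445) (nat_lit 345)) (XT.nd (nat_lit 78) (nat_lit 380) (nat_lit 0) (XT.lf (nat_lit 380) (nat_lit 370063000) (nat_lit 0) (nat_lit 2939760057) (nat_lit 304) (nat_lit 2939760057) (nat_lit 139) (nat_lit 1) (nat_lit 134) (nat_lit 1) (nat_lit 138) (nat_lit 1) (nat_lit 351) (nat_lit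 445) (nat_lit 344)) (XT.lf (nat_lit 380) (nat_lit 5002639524) (nat_lit 0) (nat_lit 600538248) (nat_lit 304) (nat_lit 600538248) (nat_lit 134) (nat_lit 1) (nat_lit 129) (nat_lit 1) (nat_lit 133) (nat_lit 1) (nat_lit 352) (nat_lit 445) (nat_lit 343))))))) (XT.nd (nat_lit 702) (nat_lit 1900) (nat_lit 0) (XT.nd (nat_lit 312) (nat_lit 912) (nat_lit 0) (XT.nd (nat_lit 156) (nat_lit 304) (nat_lit 0) (XT.nd (nat_lit 78) (nat_lit 304) (nat_lit 0) (XT.lf (nat_lit 76) (nat_lit 1694460023) (nat_lit 0) (nat_lit 2769131513) (nat_lit 380) (nat_lit 1694460023) (nat_lit 130) (nat_lit 1) (nat_lit 129) (nat_lit 1) (nat_lit 134) (nat_lit 1) (nat_lit 353) (nat_lit 445) (nat_lit 342)) (XT.lf (nat_lit 380) (nat_lit 1788624157) (nat_lit 0) (nat_lit 2162150554) (nat_lit 304) (nat_lit 2162150554) (nat_lit 130) (nat_lit 1) (nat_lit 125) (nat_lit 1) (nat_lit 129) (nat_lit 1) (nat_lit 354) (nat_lit 445) (nat_lit 341))) (XT.nd (nat_lit 78) (nat_lit 304) (nat_lit 0)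 (XT.lf (nat_lit 76) (nat_lit 103930712) (nat_lit 0) (nat_lit 5860590118) (nat_lit 380) (nat_lit 103930712) (nat_lit 126) (nat_lit 1) (nat_lit 125) (nat_lit 1) (nat_lit 130) (nat_lit 1) (nat_lit 355) (nat_lit 445) (nat_lit 340)) (XT.lf (nat_lit 76) (nat_lit 2330778564) (nat_lit 0) (nat_lit 1362357458) (nat_lit 304) (nat_lit 2330778564) (nat_lit 122) (nat_lit 1) (nat_lit 121) (nat_lit 1) (nat_lit 125) (nat_lit 1) (nat_lit 356) (nat_lit 445) (nat_lit 339)))) (XT.nd (nat_lit 156) (nat_lit 608) (nat_lit 0) (XT.nd (nat_lit 78) (nat_lit 0) (nat_lit 0) (XT.lf (nat_lit 380) (nat_lit 3070787881) (nat_lit 0) (nat_lit 1454617088) (nat_lit 304) (nat_lit 1454617088) (nat_lit 122) (nat_lit 1) (nat_lit 117) (nat_lit 1) (nat_lit 121) (nat_lit 1) (nat_lit 357) (nat_lit 445) (nat_lit 338)) (XT.lf (nat_lit 76) (nat_lit 745436922) (nat_lit 0) (nat_lit 4445717572) (nat_lit 380) (nat_lit 745436922) (nat_lit 118) (nat_lit 1) (nat_lit 117) (nat_lit 1) (nat_lit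 122) (nat_lit 1) (nat_lit 358) (nat_lit 445) (nat_lit 337))) (XT.nd (nat_lit 78) (nat_lit 304) (nat_lit 0) (XT.lf (nat_lit 76) (nat_lit 2903631489) (nat_lit 0) (nat_lit 86164545) (nat_lit 304) (nat_lit 2903631489) (nat_lit 114) (nat_lit 1) (nat_lit 113) (nat_lit 1) (nat_lit 117) (nat_lit 1) (nat_lit 359) (nat_lit 445) (nat_lit 336)) (XT.nd (nat_lit 78) (nat_lit 0) (nat_lit 0) (XT.lf (nat_lit 380) (nat_lit 4227497685) (nat_lit 0) (nat_lit 811610156) (nat_lit 304) (nat_lit 811610156) (nat_lit 114) (nat_lit 1) (nat_lit 109) (nat_lit 1) (nat_lit 113) (nat_lit 1) (nat_lit 360) (nat_lit 445) (nat_lit 335)) (XT.lf (nat_lit 76) (nat_lit 1325355754) (nat_lit 0) (nat_lit 3157585449) (nat_lit 380) (nat_lit 1325355754) (nat_lit 110) (nat_lit 1) (nat_lit 109) (nat_lit 1) (nat_lit 114) (nat_lit 1) (nat_lit 361) (nat_lit 445) (nat_lit 334)))))) (XT.nd (nat_lit 390) (nat_lit 1064) (nat_lit 0) (XT.nd (nat_lit 156) (nat_lit 228) (nat_lit 0) (XT.nd (nat_lit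 78) (nat_lit 380) (nat_lit 0) (XT.lf (nat_lit 304) (nat_lit 1084069119) (nat_lit 0) (nat_lit 2341115629) (nat_lit 228) (nat_lit 2341115629) (nat_lit 110) (nat_lit 1) (nat_lit 106) (nat_lit 1) (nat_lit 109) (nat_lit 1) (nat_lit 362) (nat_lit 445) (nat_lit 333)) (XT.lf (nat_lit 380) (nat_lit 5268852780) (nat_lit 0) (nat_lit 228007048) (nat_lit 304) (nat_lit 228007048) (nat_lit 106) (nat_lit 1) (nat_lit 101) (nat_lit 1) (nat_lit 105) (nat_lit 1) (nat_lit 363) (nat_lit 445) (nat_lit 332))) (XT.nd (nat_lit 78) (nat_lit 228) (nat_lit 0) (XT.lf (nat_lit 76) (nat_lit 1848627050) (nat_lit 0) (nat_lit 1986169507) (nat_lit 380) (nat_lit 1848627050) (nat_lit 102) (nat_lit 1) (nat_lit 101) (nat_lit 1) (nat_lit 106) (nat_lit 1) (nat_lit 364) (nat_lit 445) (nat_lit 331)) (XT.nd (nat_lit 78) (nat_lit 0) (nat_lit 0) (XT.lf (nat_lit 304) (nat_lit 2143404178) (nat_lit 0) (nat_lit 1749566281) (nat_lit 228) (nat_lit 1749566281) (nat_lit 102) (nat_lit 1) (nat_lit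 98) (nat_lit 1) (nat_lit 101) (nat_lit 1) (nat_lit 365) (nat_lit 445) (nat_lit 330)) (XT.lf (nat_lit 76) (nat_lit 302913585) (nat_lit 0) (nat_lit 4996346076) (nat_lit 304) (nat_lit 302913585) (nat_lit 99) (nat_lit 1) (nat_lit 98) (nat_lit 1) (nat_lit 102) (nat_lit 1) (nat_lit 366) (nat_lit 445) (nat_lit 329))))) (XT.nd (nat_lit 156) (nat_lit 532) (nat_lit 0) (XT.nd (nat_lit 78) (nat_lit 228) (nat_lit 0) (XT.lf (nat_lit 76) (nat_lit 2319809566) (nat_lit 0) (nat_lit 922216196) (nat_lit 304) (nat_lit 2319809566) (nat_lit 95) (nat_lit 1) (nat_lit 94) (nat_lit 1) (nat_lit 98) (nat_lit 1) (nat_lit 367) (nat_lit 445) (nat_lit 328)) (XT.lf (nat_lit 304) (nat_lit 3099675991) (nat_lit 0) (nat_lit 1211169311) (nat_lit 228) (nat_lit 1211169311) (nat_lit 95) (nat_lit 1) (nat_lit 91) (nat_lit 1) (nat_lit 94) (nat_lit 1) (nat_lit 368) (nat_lit 445) (nat_lit 327))) (XT.nd (nat_lit 78) (nat_lit 532) (nat_lit 0) (XT.lf (nat_lit 76) (nat_lit 784700079)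 (nat_lit 0) (nat_lit 3913172036) (nat_lit 304) (nat_lit 784700079) (nat_lit 92) (nat_lit 1) (nat_lit 91) (nat_lit 1) (nat_lit 95) (nat_lit 1) (nat_lit 369) (nat_lit 445) (nat_lit 326)) (XT.nd (nat_lit 78) (nat_lit 304) (nat_lit 0) (XT.lf (nat_lit 304) (nat_lit 43385180) (nat_lit 0) (nat_lit 2700006590) (nat_lit 228) (nat_lit 2700006590) (nat_lit 92) (nat_lit 1) (nat_lit 88) (nat_lit 1) (nat_lit 91) (nat_lit 1) (nat_lit 370) (nat_lit 445) (nat_lit 325)) (XT.lf (nat_lit 304) (nat_lit 3961172315) (nat_lit 0) (nat_lit 721718037) (nat_lit 228) (nat_lit 721718037) (nat_lit 88) (nat_lit 1) (nat_lit 84) (nat_lit 1) (nat_lit 87) (nat_lit 1) (nat_lit 371) (nat_lit 445) (nat_lit 324))))))))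
noncomputable def ec240 : XT := (XT.nd (nat_lit 1404) (nat_lit 1368) (nat_lit 0) (XT.nd (nat_lit 702) (nat_lit 1368) (nat_lit 0) (XT.nd (nat_lit 312) (nat_lit 684) (nat_lit 0) (XT.nd (nat_lit 156) (nat_lit 304) (nat_lit 0) (XT.nd (nat_lit 78) (nat_lit 228) (nat_lit 0) (XT.lf (nat_lit 76) (nat_lit 1219897214) (nat_lit 0) (nat_lit 2926264681) (nat_lit 304) (nat_lit 1219897214) (nat_lit 85) (nat_lit 1) (nat_lit 84) (nat_lit 1) (nat_lit 88) (nat_lit 1) (nat_lit 372) (nat_lit 445) (nat_lit 323)) (XT.lf (nat_lit 304) (nat_lit 928995740) (nat_lit 0) (nat_lit 2199446237) (nat_lit 228) (nat_lit 2199446237) (nat_lit 85) (nat_lit 1) (nat_lit 81) (nat_lit 1) (nat_lit 84) (nat_lit 1) (nat_lit 373) (nat_lit 445) (nat_lit 322))) (XT.nd (nat_lit 78) (nat_lit 0) (nat_lit 0) (XT.lf (nat_lit 304) (nat_lit 4735541148) (nat_lit 0) (nat_lit 277329249) (nat_lit 228) (nat_lit 277329249) (nat_lit 81) (nat_lit 1) (nat_lit 77) (nat_lit 1) (nat_lit 80) (nat_lit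 1) (nat_lit 374) (nat_lit 445) (nat_lit 321)) (XT.lf (nat_lit 76) (nat_lit 1612247084) (nat_lit 0) (nat_lit 2028022707) (nat_lit 304) (nat_lit 1612247084) (nat_lit 78) (nat_lit 1) (nat_lit 77) (nat_lit 1) (nat_lit 81) (nat_lit 1) (nat_lit 375) (nat_lit 445) (nat_lit 320)))) (XT.nd (nat_lit 156) (nat_lit 456) (nat_lit 0) (XT.nd (nat_lit 78) (nat_lit 0) (nat_lit 0) (XT.lf (nat_lit 304) (nat_lit 1729733308) (nat_lit 0) (nat_lit 1742789031) (nat_lit 228) (nat_lit 1742789031) (nat_lit 78) (nat_lit 1) (nat_lit 74) (nat_lit 1) (nat_lit 77) (nat_lit 1) (nat_lit 376) (nat_lit 445) (nat_lit 319)) (XT.lf (nat_lit 76) (nat_lit 126413148) (nat_lit 0) (nat_lit 4925784478) (nat_lit 304) (nat_lit 126413148) (nat_lit 75) (nat_lit 1) (nat_lit 74) (nat_lit 1) (nat_lit 78) (nat_lit 1) (nat_lit 377) (nat_lit 445) (nat_lit 318))) (XT.nd (nat_lit 78) (nat_lit 228) (nat_lit 0) (XT.lf (nat_lit 76) (nat_lit 1965203000) (nat_lit 0) (nat_lit 1211428977) (nat_lit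 228) (nat_lit 1965203000) (nat_lit 72) (nat_lit 1) (nat_lit 71) (nat_lit 1) (nat_lit 74) (nat_lit 1) (nat_lit 378) (nat_lit 445) (nat_lit 317)) (XT.nd (nat_lit 78) (nat_lit 0) (nat_lit 0) (XT.lf (nat_lit 304) (nat_lit 2452403110) (nat_lit 0) (nat_lit 1326578151) (nat_lit 228) (nat_lit 1326578151) (nat_lit 72) (nat_lit 1) (nat_lit 68) (nat_lit 1) (nat_lit 71) (nat_lit 1) (nat_lit 379) (nat_lit 445) (nat_lit 316)) (XT.lf (nat_lit 76) (nat_lit 493569794) (nat_lit 0) (nat_lit 4082537091) (nat_lit 304) (nat_lit 493569794) (nat_lit 69) (nat_lit 1) (nat_lit 68) (nat_lit 1) (nat_lit 72) (nat_lit 1) (nat_lit 380) (nat_lit 445) (nat_lit 315)))))) (XT.nd (nat_lit 312) (nat_lit 760) (nat_lit 0) (XT.nd (nat_lit 156) (nat_lit 152) (nat_lit 0) (XT.nd (nat_lit 78) (nat_lit 228) (nat_lit 0) (XT.lf (nat_lit 76) (nat_lit 2281951552) (nat_lit 0) (nat_lit 470005939) (nat_lit 228) (nat_lit 2281951552) (nat_lit 66) (nat_lit 1) (nat_lit 65) (nat_lit 1) (nat_lit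 68) (nat_lit 1) (nat_lit 381) (nat_lit 445) (nat_lit 314)) (XT.lf (nat_lit 304) (nat_lit 3103285420) (nat_lit 0) (nat_lit 947622251) (nat_lit 228) (nat_lit 947622251) (nat_lit 66) (nat_lit 1) (nat_lit 62) (nat_lit 1) (nat_lit 65) (nat_lit 1) (nat_lit 382) (nat_lit 445) (nat_lit 313))) (XT.nd (nat_lit 78) (nat_lit 152) (nat_lit 0) (XT.lf (nat_lit 76) (nat_lit 825377869) (nat_lit 0) (nat_lit 3312685798) (nat_lit 304) (nat_lit 825377869) (nat_lit 63) (nat_lit 1) (nat_lit 62) (nat_lit 1) (nat_lit 66) (nat_lit 1) (nat_lit 383) (nat_lit 445) (nat_lit 312)) (XT.lf (nat_lit 228) (nat_lit 204913045) (nat_lit 0) (nat_lit 2361850389) (nat_lit 152) (nat_lit 2361850389) (nat_lit 63) (nat_lit 1) (nat_lit 60) (nat_lit 1) (nat_lit 62) (nat_lit 1) (nat_lit 384) (nat_lit 445) (nat_lit 311)))) (XT.nd (nat_lit 156) (nat_lit 456) (nat_lit 0) (XT.nd (nat_lit 78) (nat_lit 0) (nat_lit 0) (XT.lf (nat_lit 304) (nat_lit 3688175673) (nat_lit 0) (nat_lit 602975201)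 (nat_lit 228) (nat_lit 602975201) (nat_lit 60) (nat_lit 1) (nat_lit 56) (nat_lit 1) (nat_lit 59) (nat_lit 1) (nat_lit 385) (nat_lit 445) (nat_lit 310)) (XT.lf (nat_lit 76) (nat_lit 1124674189) (nat_lit 0) (nat_lit 2610461171) (nat_lit 304) (nat_lit 1124674189) (nat_lit 57) (nat_lit 1) (nat_lit 56) (nat_lit 1) (nat_lit 60) (nat_lit 1) (nat_lit 386) (nat_lit 445) (nat_lit 309))) (XT.nd (nat_lit 78) (nat_lit 304) (nat_lit 0) (XT.lf (nat_lit 228) (nat_lit 821559297) (nat_lit 0) (nat_lit 2002134925) (nat_lit 152) (nat_lit 2002134925) (nat_lit 57) (nat_lit 1) (nat_lit 54) (nat_lit 1) (nat_lit 56) (nat_lit 1) (nat_lit 387) (nat_lit 445) (nat_lit 308)) (XT.nd (nat_lit 78) (nat_lit 0) (nat_lit 0) (XT.lf (nat_lit 304) (nat_lit 4212421512) (nat_lit 0) (nat_lit 289917372) (nat_lit 228) (nat_lit 289917372) (nat_lit 54) (nat_lit 1) (nat_lit 50) (nat_lit 1) (nat_lit 53) (nat_lit 1) (nat_lit 388) (nat_lit 445) (nat_lit 307)) (XT.lf (nat_lit 76) (nat_lit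 1394076693) (nat_lit 0) (nat_lit 1970536680) (nat_lit 304) (nat_lit 1394076693) (nat_lit 51) (nat_lit 1) (nat_lit 50) (nat_lit 1) (nat_lit 54) (nat_lit 1) (nat_lit 389) (nat_lit 445) (nat_lit 306))))))) (XT.nd (nat_lit 702) (nat_lit 152) (nat_lit 0) (XT.nd (nat_lit 312) (nat_lit 608) (nat_lit 0) (XT.nd (nat_lit 156) (nat_lit 152) (nat_lit 0) (XT.nd (nat_lit 78) (nat_lit 304) (nat_lit 0) (XT.lf (nat_lit 228) (nat_lit 1378848031) (nat_lit 0) (nat_lit 1673339905) (nat_lit 152) (nat_lit 1673339905) (nat_lit 51) (nat_lit 1) (nat_lit 48) (nat_lit 1) (nat_lit 50) (nat_lit 1) (nat_lit 390) (nat_lit 445) (nat_lit 305)) (XT.lf (nat_lit 304) (nat_lit 4680957019) (nat_lit 0) (nat_lit 5938337) (nat_lit 228) (nat_lit 5938337) (nat_lit 48) (nat_lit 1) (nat_lit 44) (nat_lit 1) (nat_lit 47) (nat_lit 1) (nat_lit 391) (nat_lit 445) (nat_lit 304))) (XT.nd (nat_lit 78) (nat_lit 152) (nat_lit 0) (XT.lf (nat_lit 76) (nat_lit 1636001169) (nat_lit 0) (nat_lit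 1387994894) (nat_lit 304) (nat_lit 1636001169) (nat_lit 45) (nat_lit 1) (nat_lit 44) (nat_lit 1) (nat_lit 48) (nat_lit 1) (nat_lit 392) (nat_lit 445) (nat_lit 303)) (XT.lf (nat_lit 228) (nat_lit 1881542675) (nat_lit 0) (nat_lit 1373041449) (nat_lit 152) (nat_lit 1373041449) (nat_lit 45) (nat_lit 1) (nat_lit 42) (nat_lit 1) (nat_lit 44) (nat_lit 1) (nat_lit 393) (nat_lit 445) (nat_lit 302)))) (XT.nd (nat_lit 156) (nat_lit 380) (nat_lit 0) (XT.nd (nat_lit 78) (nat_lit 228) (nat_lit 0) (XT.lf (nat_lit 76) (nat_lit 252943189) (nat_lit 0) (nat_lit 4089757949) (nat_lit 228) (nat_lit 252943189) (nat_lit 43) (nat_lit 1) (nat_lit 42) (nat_lit 1) (nat_lit 45) (nat_lit 1) (nat_lit 394) (nat_lit 445) (nat_lit 301)) (XT.lf (nat_lit 76) (nat_lit 1852676699) (nat_lit 0) (nat_lit 858296259) (nat_lit 228) (nat_lit 1852676699) (nat_lit 40) (nat_lit 1) (nat_lit 39) (nat_lit 1) (nat_lit 42) (nat_lit 1) (nat_lit 395) (nat_lit 445) (nat_lit 300))) (XT.nd (nat_lit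 78) (nat_lit 228) (nat_lit 0) (XT.lf (nat_lit 228) (nat_lit 2334039132) (nat_lit 0) (nat_lit 1099001622) (nat_lit 152) (nat_lit 1099001622) (nat_lit 40) (nat_lit 1) (nat_lit 37) (nat_lit 1) (nat_lit 39) (nat_lit 1) (nat_lit 396) (nat_lit 445) (nat_lit 299)) (XT.nd (nat_lit 78) (nat_lit 228) (nat_lit 0) (XT.lf (nat_lit 76) (nat_lit 487078083) (nat_lit 0) (nat_lit 3526595597) (nat_lit 228) (nat_lit 487078083) (nat_lit 38) (nat_lit 1) (nat_lit 37) (nat_lit 1) (nat_lit 40) (nat_lit 1) (nat_lit 397) (nat_lit 445) (nat_lit 298)) (XT.lf (nat_lit 76) (nat_lit 2046159936) (nat_lit 0) (nat_lit 377250255) (nat_lit 228) (nat_lit 2046159936) (nat_lit 35) (nat_lit 1) (nat_lit 34) (nat_lit 1) (nat_lit 37) (nat_lit 1) (nat_lit 398) (nat_lit 445) (nat_lit 297)))))) (XT.nd (nat_lit 51714) (nat_lit 0) (nat_lit 20064) (XT.nd (nat_lit 51558) (nat_lit 0) (nat_lit 21964) (XT.nd (nat_lit 51480) (nat_lit 0) (nat_lit 22648) (XT.lf (nat_lit 228) (nat_lit 2740393864)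 (nat_lit 0) (nat_lit 849154250) (nat_lit 152) (nat_lit 849154250) (nat_lit 35) (nat_lit 1) (nat_lit 32) (nat_lit 1) (nat_lit 34) (nat_lit 1) (nat_lit 399) (nat_lit 445) (nat_lit 296)) (XT.lf (nat_lit 76) (nat_lit 3314954554) (nat_lit 0) (nat_lit 2876406340) (nat_lit 760) (nat_lit 3314954554) (nat_lit 331) (nat_lit 1) (nat_lit 330) (nat_lit 1) (nat_lit 340) (nat_lit 1) (nat_lit 298) (nat_lit 446) (nat_lit 396))) (XT.nd (nat_lit 78) (nat_lit 0) (nat_lit 0) (XT.lf (nat_lit 760) (nat_lit 5127996322) (nat_lit 0) (nat_lit 2149533807) (nat_lit 684) (nat_lit 2149533807) (nat_lit 331) (nat_lit 1) (nat_lit 321) (nat_lit 1) (nat_lit 330) (nat_lit 1) (nat_lit 299) (nat_lit 446) (nat_lit 395)) (XT.lf (nat_lit 76) (nat_lit 1810786283) (nat_lit 0) (nat_lit 5727127922) (nat_lit 760) (nat_lit 1810786283) (nat_lit 322) (nat_lit 1) (nat_lit 321) (nat_lit 1) (nat_lit 331) (nat_lit 1) (nat_lit 300) (nat_lit 446) (nat_lit 394)))) (XT.nd (nat_lit 156) (nat_lit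 1292) (nat_lit 0) (XT.nd (nat_lit 78) (nat_lit 0) (nat_lit 0) (XT.lf (nat_lit 684) (nat_lit 2107008058) (nat_lit 0) (nat_lit 3582063364) (nat_lit 608) (nat_lit 3582063364) (nat_lit 322) (nat_lit 1) (nat_lit 313) (nat_lit 1) (nat_lit 321) (nat_lit 1) (nat_lit 301) (nat_lit 446) (nat_lit 393)) (XT.lf (nat_lit 76) (nat_lit 304093598) (nat_lit 0) (nat_lit 8586629180) (nat_lit 684) (nat_lit 304093598) (nat_lit 314) (nat_lit 1) (nat_lit 313) (nat_lit 1) (nat_lit 322) (nat_lit 1) (nat_lit 302) (nat_lit 446) (nat_lit 392))) (XT.nd (nat_lit 78) (nat_lit 608) (nat_lit 0) (XT.lf (nat_lit 76) (nat_lit 4106533922) (nat_lit 0) (nat_lit 905699727) (nat_lit 684) (nat_lit 4106533922) (nat_lit 305) (nat_lit 1) (nat_lit 304) (nat_lit 1) (nat_lit 313) (nat_lit 1) (nat_lit 303) (nat_lit 446) (nat_lit 391)) (XT.nd (nat_lit 78) (nat_lit 0) (nat_lit 0) (XT.lf (nat_lit 684) (nat_lit 6652116175) (nat_lit 0) (nat_lit 1195910767) (nat_lit 608) (nat_lit 1195910767)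 (nat_lit 305) (nat_lit 1) (nat_lit 296) (nat_lit 1) (nat_lit 304) (nat_lit 1) (nat_lit 304) (nat_lit 446) (nat_lit 390)) (XT.lf (nat_lit 76) (nat_lit 2538858826) (nat_lit 0) (nat_lit 3891993651) (nat_lit 684) (nat_lit 2538858826) (nat_lit 297) (nat_lit 1) (nat_lit 296) (nat_lit 1) (nat_lit 305) (nat_lit 1) (nat_lit 305) (nat_lit 446) (nat_lit 389))))))))
noncomputable def ec241 : XT := (XT.nd (nat_lit 1404) (nat_lit 5016) (nat_lit 0) (XT.nd (nat_lit 702) (nat_lit 2508) (nat_lit 0) (XT.nd (nat_lit 312) (nat_lit 1672) (nat_lit 0) (XT.nd (nat_lit 156) (nat_lit 1216) (nat_lit 0) (XT.nd (nat_lit 78) (nat_lit 0) (nat_lit 0) (XT.lf (nat_lit 684) (nat_lit 3508584468) (nat_lit 0) (nat_lit 2693926892) (nat_lit 608) (nat_lit 2693926892) (nat_lit 297) (nat_lit 1) (nat_lit 288) (nat_lit 1) (nat_lit 296) (nat_lit 1) (nat_lit 306) (nat_lit 446) (nat_lit 388)) (XT.lf (nat_lit 76) (nat_lit 973491470) (nat_lit 0) (nat_lit 6877163386) (nat_lit 684) (nat_lit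 973491470) (nat_lit 289) (nat_lit 1) (nat_lit 288) (nat_lit 1) (nat_lit 297) (nat_lit 1) (nat_lit 307) (nat_lit 446) (nat_lit 387))) (XT.nd (nat_lit 78) (nat_lit 684) (nat_lit 0) (XT.lf (nat_lit 608) (nat_lit 370756557) (nat_lit 0) (nat_lit 4190814093) (nat_lit 532) (nat_lit 4190814093) (nat_lit 289) (nat_lit 1) (nat_lit 281) (nat_lit 1) (nat_lit 288) (nat_lit 1) (nat_lit 308) (nat_lit 446) (nat_lit 386)) (XT.lf (nat_lit 684) (nat_lit 7512400177) (nat_lit 0) (nat_lit 584637612) (nat_lit 608) (nat_lit 584637612) (nat_lit 281) (nat_lit 1) (nat_lit 272) (nat_lit 1) (nat_lit 280) (nat_lit 1) (nat_lit 309) (nat_lit 446) (nat_lit 385)))) (XT.nd (nat_lit 156) (nat_lit 1140) (nat_lit 0) (XT.nd (nat_lit 78) (nat_lit 532) (nat_lit 0) (XT.lf (nat_lit 76) (nat_lit 2944105606) (nat_lit 0) (nat_lit 2723118594) (nat_lit 684) (nat_lit 2944105606) (nat_lit 273) (nat_lit 1) (nat_lit 272) (nat_lit 1) (nat_lit 281) (nat_lit 1) (nat_lit 310) (nat_lit 446)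 (nat_lit 384)) (XT.lf (nat_lit 608) (nat_lit 4277953836) (nat_lit 0) (nat_lit 2132029210) (nat_lit 532) (nat_lit 2132029210) (nat_lit 273) (nat_lit 1) (nat_lit 265) (nat_lit 1) (nat_lit 272) (nat_lit 1) (nat_lit 311) (nat_lit 446) (nat_lit 383))) (XT.nd (nat_lit 78) (nat_lit 1140) (nat_lit 0) (XT.lf (nat_lit 76) (nat_lit 1335469657) (nat_lit 0) (nat_lit 5802559056) (nat_lit 608) (nat_lit 1335469657) (nat_lit 266) (nat_lit 1) (nat_lit 265) (nat_lit 1) (nat_lit 273) (nat_lit 1) (nat_lit 312) (nat_lit 446) (nat_lit 382)) (XT.nd (nat_lit 78) (nat_lit 608) (nat_lit 0) (XT.lf (nat_lit 608) (nat_lit 1057260150) (nat_lit 0) (nat_lit 3674159609) (nat_lit 532) (nat_lit 3674159609) (nat_lit 266) (nat_lit 1) (nat_lit 258) (nat_lit 1) (nat_lit 265) (nat_lit 1) (nat_lit 313) (nat_lit 446) (nat_lit 381)) (XT.lf (nat_lit 608) (nat_lit 7810434837) (nat_lit 0) (nat_lit 264140708) (nat_lit 532) (nat_lit 264140708) (nat_lit 258) (nat_lit 1) (nat_lit 250)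 (nat_lit 1) (nat_lit 257) (nat_lit 1) (nat_lit 314) (nat_lit 446) (nat_lit 380)))))) (XT.nd (nat_lit 312) (nat_lit 1520) (nat_lit 0) (XT.nd (nat_lit 156) (nat_lit 456) (nat_lit 0) (XT.nd (nat_lit 78) (nat_lit 532) (nat_lit 0) (XT.lf (nat_lit 76) (nat_lit 3076082593) (nat_lit 0) (nat_lit 2119850184) (nat_lit 608) (nat_lit 3076082593) (nat_lit 251) (nat_lit 1) (nat_lit 250) (nat_lit 1) (nat_lit 258) (nat_lit 1) (nat_lit 315) (nat_lit 446) (nat_lit 379)) (XT.lf (nat_lit 608) (nat_lit 4512464245) (nat_lit 0) (nat_lit 1846942323) (nat_lit 532) (nat_lit 1846942323) (nat_lit 251) (nat_lit 1) (nat_lit 243) (nat_lit 1) (nat_lit 250) (nat_lit 1) (nat_lit 316) (nat_lit 446) (nat_lit 378))) (XT.nd (nat_lit 78) (nat_lit 456) (nat_lit 0) (XT.lf (nat_lit 76) (nat_lit 1437515217) (nat_lit 0) (nat_lit 5266353598) (nat_lit 608) (nat_lit 1437515217) (nat_lit 244) (nat_lit 1) (nat_lit 243) (nat_lit 1) (nat_lit 251) (nat_lit 1) (nat_lit 317) (nat_lit 446)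 (nat_lit 377)) (XT.lf (nat_lit 532) (nat_lit 1235056104) (nat_lit 0) (nat_lit 3420978767) (nat_lit 456) (nat_lit 3420978767) (nat_lit 244) (nat_lit 1) (nat_lit 237) (nat_lit 1) (nat_lit 243) (nat_lit 1) (nat_lit 318) (nat_lit 446) (nat_lit 376)))) (XT.nd (nat_lit 156) (nat_lit 912) (nat_lit 0) (XT.nd (nat_lit 78) (nat_lit 0) (nat_lit 0) (XT.lf (nat_lit 608) (nat_lit 7635210916) (nat_lit 0) (nat_lit 189217426) (nat_lit 532) (nat_lit 189217426) (nat_lit 237) (nat_lit 1) (nat_lit 229) (nat_lit 1) (nat_lit 236) (nat_lit 1) (nat_lit 319) (nat_lit 446) (nat_lit 375)) (XT.lf (nat_lit 76) (nat_lit 2978195253) (nat_lit 0) (nat_lit 1993981212) (nat_lit 608) (nat_lit 2978195253) (nat_lit 230) (nat_lit 1) (nat_lit 229) (nat_lit 1) (nat_lit 237) (nat_lit 1) (nat_lit 320) (nat_lit 446) (nat_lit 374))) (XT.nd (nat_lit 78) (nat_lit 456) (nat_lit 0) (XT.lf (nat_lit 532) (nat_lit 4297369846) (nat_lit 0) (nat_lit 1795355634) (nat_lit 456) (nat_lit 1795355634)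 (nat_lit 230) (nat_lit 1) (nat_lit 223) (nat_lit 1) (nat_lit 229) (nat_lit 1) (nat_lit 321) (nat_lit 446) (nat_lit 373)) (XT.nd (nat_lit 78) (nat_lit 456) (nat_lit 0) (XT.lf (nat_lit 76) (nat_lit 1321209800) (nat_lit 0) (nat_lit 5184034266) (nat_lit 532) (nat_lit 1321209800) (nat_lit 224) (nat_lit 1) (nat_lit 223) (nat_lit 1) (nat_lit 230) (nat_lit 1) (nat_lit 322) (nat_lit 446) (nat_lit 372)) (XT.lf (nat_lit 532) (nat_lit 985813870) (nat_lit 0) (nat_lit 3389776195) (nat_lit 456) (nat_lit 3389776195) (nat_lit 224) (nat_lit 1) (nat_lit 217) (nat_lit 1) (nat_lit 223) (nat_lit 1) (nat_lit 323) (nat_lit 446) (nat_lit 371))))))) (XT.nd (nat_lit 702) (nat_lit 2736) (nat_lit 0) (XT.nd (nat_lit 312) (nat_lit 1292) (nat_lit 0) (XT.nd (nat_lit 156) (nat_lit 456) (nat_lit 0) (XT.nd (nat_lit 78) (nat_lit 0) (nat_lit 0) (XT.lf (nat_lit 532) (nat_lit 7064584803) (nat_lit 0) (nat_lit 320297803) (nat_lit 456) (nat_lit 320297803) (nat_lit 217) (nat_lit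 1) (nat_lit 210) (nat_lit 1) (nat_lit 216) (nat_lit 1) (nat_lit 324) (nat_lit 446) (nat_lit 370)) (XT.lf (nat_lit 76) (nat_lit 2688412376) (nat_lit 0) (nat_lit 2268307060) (nat_lit 532) (nat_lit 2688412376) (nat_lit 211) (nat_lit 1) (nat_lit 210) (nat_lit 1) (nat_lit 217) (nat_lit 1) (nat_lit 325) (nat_lit 446) (nat_lit 369))) (XT.nd (nat_lit 78) (nat_lit 0) (nat_lit 0) (XT.lf (nat_lit 532) (nat_lit 3707234965) (nat_lit 0) (nat_lit 1939366532) (nat_lit 456) (nat_lit 1939366532) (nat_lit 211) (nat_lit 1) (nat_lit 204) (nat_lit 1) (nat_lit 210) (nat_lit 1) (nat_lit 326) (nat_lit 446) (nat_lit 368)) (XT.lf (nat_lit 76) (nat_lit 1022915503) (nat_lit 0) (nat_lit 5481651919) (nat_lit 532) (nat_lit 1022915503) (nat_lit 205) (nat_lit 1) (nat_lit 204) (nat_lit 1) (nat_lit 211) (nat_lit 1) (nat_lit 327) (nat_lit 446) (nat_lit 367)))) (XT.nd (nat_lit 156) (nat_lit 380) (nat_lit 0) (XT.nd (nat_lit 78) (nat_lit 532) (nat_lit 0) (XT.lf (nat_lit 456)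 (nat_lit 380940098) (nat_lit 0) (nat_lit 3544248681) (nat_lit 380) (nat_lit 3544248681) (nat_lit 205) (nat_lit 1) (nat_lit 199) (nat_lit 1) (nat_lit 204) (nat_lit 1) (nat_lit 328) (nat_lit 446) (nat_lit 366)) (XT.lf (nat_lit 532) (nat_lit 6166574155) (nat_lit 0) (nat_lit 622789900) (nat_lit 456) (nat_lit 622789900) (nat_lit 199) (nat_lit 1) (nat_lit 192) (nat_lit 1) (nat_lit 198) (nat_lit 1) (nat_lit 329) (nat_lit 446) (nat_lit 365))) (XT.nd (nat_lit 78) (nat_lit 380) (nat_lit 0) (XT.lf (nat_lit 76) (nat_lit 2239898951) (nat_lit 0) (nat_lit 2875346506) (nat_lit 532) (nat_lit 2239898951) (nat_lit 193) (nat_lit 1) (nat_lit 192) (nat_lit 1) (nat_lit 199) (nat_lit 1) (nat_lit 330) (nat_lit 446) (nat_lit 364)) (XT.nd (nat_lit 78) (nat_lit 0) (nat_lit 0) (XT.lf (nat_lit 456) (nat_lit 2807178942) (nat_lit 0) (nat_lit 2245851419) (nat_lit 380) (nat_lit 2245851419) (nat_lit 193) (nat_lit 1) (nat_lit 187) (nat_lit 1) (nat_lit 192) (nat_lit 1) (nat_lit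 331) (nat_lit 446) (nat_lit 363)) (XT.lf (nat_lit 76) (nat_lit 574382921) (nat_lit 0) (nat_lit 6094591979) (nat_lit 456) (nat_lit 574382921) (nat_lit 188) (nat_lit 1) (nat_lit 187) (nat_lit 1) (nat_lit 193) (nat_lit 1) (nat_lit 332) (nat_lit 446) (nat_lit 362)))))) (XT.nd (nat_lit 390) (nat_lit 1520) (nat_lit 0) (XT.nd (nat_lit 156) (nat_lit 380) (nat_lit 0) (XT.nd (nat_lit 78) (nat_lit 380) (nat_lit 0) (XT.lf (nat_lit 76) (nat_lit 3338813677) (nat_lit 0) (nat_lit 510441850) (nat_lit 456) (nat_lit 3338813677) (nat_lit 182) (nat_lit 1) (nat_lit 181) (nat_lit 1) (nat_lit 187) (nat_lit 1) (nat_lit 333) (nat_lit 446) (nat_lit 361)) (XT.lf (nat_lit 456) (nat_lit 5000506459) (nat_lit 0) (nat_lit 1066499450) (nat_lit 380) (nat_lit 1066499450) (nat_lit 182) (nat_lit 1) (nat_lit 176) (nat_lit 1) (nat_lit 181) (nat_lit 1) (nat_lit 334) (nat_lit 446) (nat_lit 360))) (XT.nd (nat_lit 78) (nat_lit 380) (nat_lit 0) (XT.lf (nat_lit 76) (nat_lit 1661577175)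 (nat_lit 0) (nat_lit 3756207713) (nat_lit 456) (nat_lit 1661577175) (nat_lit 177) (nat_lit 1) (nat_lit 176) (nat_lit 1) (nat_lit 182) (nat_lit 1) (nat_lit 335) (nat_lit 446) (nat_lit 359)) (XT.nd (nat_lit 78) (nat_lit 0) (nat_lit 0) (XT.lf (nat_lit 456) (nat_lit 1653979605) (nat_lit 0) (nat_lit 2685908123) (nat_lit 380) (nat_lit 2685908123) (nat_lit 177) (nat_lit 1) (nat_lit 171) (nat_lit 1) (nat_lit 176) (nat_lit 1) (nat_lit 336) (nat_lit 446) (nat_lit 358)) (XT.lf (nat_lit 76) (nat_lit 3290134) (nat_lit 0) (nat_lit 6966484915) (nat_lit 456) (nat_lit 3290134) (nat_lit 172) (nat_lit 1) (nat_lit 171) (nat_lit 1) (nat_lit 177) (nat_lit 1) (nat_lit 337) (nat_lit 446) (nat_lit 357))))) (XT.nd (nat_lit 156) (nat_lit 760) (nat_lit 0) (XT.nd (nat_lit 78) (nat_lit 380) (nat_lit 0) (XT.lf (nat_lit 76) (nat_lit 2643801395) (nat_lit 0) (nat_lit 1632652168) (nat_lit 380) (nat_lit 2643801395) (nat_lit 167) (nat_lit 1) (nat_lit 166) (nat_lit 1) (nat_lit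 171) (nat_lit 1) (nat_lit 338) (nat_lit 446) (nat_lit 356)) (XT.lf (nat_lit 456) (nat_lit 3618037064) (nat_lit 0) (nat_lit 1625115436) (nat_lit 380) (nat_lit 1625115436) (nat_lit 167) (nat_lit 1) (nat_lit 161) (nat_lit 1) (nat_lit 166) (nat_lit 1) (nat_lit 339) (nat_lit 446) (nat_lit 355))) (XT.nd (nat_lit 78) (nat_lit 760) (nat_lit 0) (XT.lf (nat_lit 76) (nat_lit 978623704) (nat_lit 0) (nat_lit 4859583045) (nat_lit 456) (nat_lit 978623704) (nat_lit 162) (nat_lit 1) (nat_lit 161) (nat_lit 1) (nat_lit 167) (nat_lit 1) (nat_lit 340) (nat_lit 446) (nat_lit 354)) (XT.nd (nat_lit 78) (nat_lit 456) (nat_lit 0) (XT.lf (nat_lit 380) (nat_lit 297051316) (nat_lit 0) (nat_lit 3234361676) (nat_lit 304) (nat_lit 3234361676) (nat_lit 162) (nat_lit 1) (nat_lit 157) (nat_lit 1) (nat_lit 161) (nat_lit 1) (nat_lit 341) (nat_lit 446) (nat_lit 353)) (XT.lf (nat_lit 456) (nat_lit 5391541866) (nat_lit 0) (nat_lit 661896151) (nat_lit 380) (nat_lit 661896151)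 (nat_lit 157) (nat_lit 1) (nat_lit 151) (nat_lit 1) (nat_lit 156) (nat_lit 1) (nat_lit 342) (nat_lit 446) (nat_lit 352))))))))
noncomputable def ec242 : XT := (XT.nd (nat_lit 1404) (nat_lit 2888) (nat_lit 0) (XT.nd (nat_lit 702) (nat_lit 1748) (nat_lit 0) (XT.nd (nat_lit 312) (nat_lit 988) (nat_lit 0) (XT.nd (nat_lit 156) (nat_lit 380) (nat_lit 0) (XT.nd (nat_lit 78) (nat_lit 304) (nat_lit 0) (XT.lf (nat_lit 76) (nat_lit 1860552061) (nat_lit 0) (nat_lit 2944040648) (nat_lit 456) (nat_lit 1860552061) (nat_lit 152) (nat_lit 1) (nat_lit 151) (nat_lit 1) (nat_lit 157) (nat_lit 1) (nat_lit 343) (nat_lit 446) (nat_lit 351)) (XT.lf (nat_lit 380) (nat_lit 2064051372) (nat_lit 0) (nat_lit 2275754164) (nat_lit 304) (nat_lit 2275754164) (nat_lit 152) (nat_lit 1) (nat_lit 147) (nat_lit 1) (nat_lit 151) (nat_lit 1) (nat_lit 344) (nat_lit 446) (nat_lit 350))) (XT.nd (nat_lit 78) (nat_lit 380) (nat_lit 0) (XT.lf (nat_lit 76) (nat_lit 212910319) (nat_lit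 0) (nat_lit 6140858226) (nat_lit 380) (nat_lit 212910319) (nat_lit 148) (nat_lit 1) (nat_lit 147) (nat_lit 1) (nat_lit 152) (nat_lit 1) (nat_lit 345) (nat_lit 446) (nat_lit 349)) (XT.lf (nat_lit 76) (nat_lit 2656563520) (nat_lit 0) (nat_lit 1204678760) (nat_lit 380) (nat_lit 2656563520) (nat_lit 143) (nat_lit 1) (nat_lit 142) (nat_lit 1) (nat_lit 147) (nat_lit 1) (nat_lit 346) (nat_lit 446) (nat_lit 348)))) (XT.nd (nat_lit 156) (nat_lit 684) (nat_lit 0) (XT.nd (nat_lit 78) (nat_lit 0) (nat_lit 0) (XT.lf (nat_lit 380) (nat_lit 3661395667) (nat_lit 0) (nat_lit 1404115589) (nat_lit 304) (nat_lit 1404115589) (nat_lit 143) (nat_lit 1) (nat_lit 138) (nat_lit 1) (nat_lit 142) (nat_lit 1) (nat_lit 347) (nat_lit 446) (nat_lit 347)) (XT.lf (nat_lit 76) (nat_lit 1008901765) (nat_lit 0) (nat_lit 4404113601) (nat_lit 380) (nat_lit 1008901765) (nat_lit 139) (nat_lit 1) (nat_lit 138) (nat_lit 1) (nat_lit 143) (nat_lit 1) (nat_lit 348) (nat_lit 446)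 (nat_lit 346))) (XT.nd (nat_lit 78) (nat_lit 380) (nat_lit 0) (XT.lf (nat_lit 380) (nat_lit 377464260) (nat_lit 0) (nat_lit 2998555258) (nat_lit 304) (nat_lit 2998555258) (nat_lit 139) (nat_lit 1) (nat_lit 134) (nat_lit 1) (nat_lit 138) (nat_lit 1) (nat_lit 349) (nat_lit 446) (nat_lit 345)) (XT.nd (nat_lit 78) (nat_lit 0) (nat_lit 0) (XT.lf (nat_lit 380) (nat_lit 5102692315) (nat_lit 0) (nat_lit 612549013) (nat_lit 304) (nat_lit 612549013) (nat_lit 134) (nat_lit 1) (nat_lit 129) (nat_lit 1) (nat_lit 133) (nat_lit 1) (nat_lit 350) (nat_lit 446) (nat_lit 344)) (XT.lf (nat_lit 76) (nat_lit 1728349224) (nat_lit 0) (nat_lit 2824514144) (nat_lit 380) (nat_lit 1728349224) (nat_lit 130) (nat_lit 1) (nat_lit 129) (nat_lit 1) (nat_lit 134) (nat_lit 1) (nat_lit 351) (nat_lit 446) (nat_lit 343)))))) (XT.nd (nat_lit 312) (nat_lit 836) (nat_lit 0) (XT.nd (nat_lit 156) (nat_lit 608) (nat_lit 0) (XT.nd (nat_lit 78) (nat_lit 0) (nat_lit 0) (XT.lf (nat_lit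 380) (nat_lit 1824396640) (nat_lit 0) (nat_lit 2205393565) (nat_lit 304) (nat_lit 2205393565) (nat_lit 130) (nat_lit 1) (nat_lit 125) (nat_lit 1) (nat_lit 129) (nat_lit 1) (nat_lit 352) (nat_lit 446) (nat_lit 342)) (XT.lf (nat_lit 76) (nat_lit 106009327) (nat_lit 0) (nat_lit 5977801920) (nat_lit 380) (nat_lit 106009327) (nat_lit 126) (nat_lit 1) (nat_lit 125) (nat_lit 1) (nat_lit 130) (nat_lit 1) (nat_lit 353) (nat_lit 446) (nat_lit 341))) (XT.nd (nat_lit 78) (nat_lit 304) (nat_lit 0) (XT.lf (nat_lit 76) (nat_lit 2377394135) (nat_lit 0) (nat_lit 1389604607) (nat_lit 304) (nat_lit 2377394135) (nat_lit 122) (nat_lit 1) (nat_lit 121) (nat_lit 1) (nat_lit 125) (nat_lit 1) (nat_lit 354) (nat_lit 446) (nat_lit 340)) (XT.lf (nat_lit 380) (nat_lit 3132203638) (nat_lit 0) (nat_lit 1483709430) (nat_lit 304) (nat_lit 1483709430) (nat_lit 122) (nat_lit 1) (nat_lit 117) (nat_lit 1) (nat_lit 121) (nat_lit 1) (nat_lit 355) (nat_lit 446) (nat_lit 339))))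 (XT.nd (nat_lit 156) (nat_lit 532) (nat_lit 0) (XT.nd (nat_lit 78) (nat_lit 304) (nat_lit 0) (XT.lf (nat_lit 76) (nat_lit 760345660) (nat_lit 0) (nat_lit 4534631923) (nat_lit 380) (nat_lit 760345660) (nat_lit 118) (nat_lit 1) (nat_lit 117) (nat_lit 1) (nat_lit 122) (nat_lit 1) (nat_lit 356) (nat_lit 446) (nat_lit 338)) (XT.lf (nat_lit 76) (nat_lit 2961704119) (nat_lit 0) (nat_lit 87887836) (nat_lit 304) (nat_lit 2961704119) (nat_lit 114) (nat_lit 1) (nat_lit 113) (nat_lit 1) (nat_lit 117) (nat_lit 1) (nat_lit 357) (nat_lit 446) (nat_lit 337))) (XT.nd (nat_lit 78) (nat_lit 228) (nat_lit 0) (XT.lf (nat_lit 380) (nat_lit 4312047639) (nat_lit 0) (nat_lit 827842359) (nat_lit 304) (nat_lit 827842359) (nat_lit 114) (nat_lit 1) (nat_lit 109) (nat_lit 1) (nat_lit 113) (nat_lit 1) (nat_lit 358) (nat_lit 446) (nat_lit 336)) (XT.nd (nat_lit 78) (nat_lit 228) (nat_lit 0) (XT.lf (nat_lit 76) (nat_lit 1351862869) (nat_lit 0) (nat_lit 3220737158) (nat_lit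 380) (nat_lit 1351862869) (nat_lit 110) (nat_lit 1) (nat_lit 109) (nat_lit 1) (nat_lit 114) (nat_lit 1) (nat_lit 359) (nat_lit 446) (nat_lit 335)) (XT.lf (nat_lit 304) (nat_lit 1105750501) (nat_lit 0) (nat_lit 2387937942) (nat_lit 228) (nat_lit 2387937942) (nat_lit 110) (nat_lit 1) (nat_lit 106) (nat_lit 1) (nat_lit 109) (nat_lit 1) (nat_lit 360) (nat_lit 446) (nat_lit 334))))))) (XT.nd (nat_lit 702) (nat_lit 1216) (nat_lit 0) (XT.nd (nat_lit 312) (nat_lit 1064) (nat_lit 0) (XT.nd (nat_lit 156) (nat_lit 228) (nat_lit 0) (XT.nd (nat_lit 78) (nat_lit 0) (nat_lit 0) (XT.lf (nat_lit 380) (nat_lit 5374229835) (nat_lit 0) (nat_lit 232567189) (nat_lit 304) (nat_lit 232567189) (nat_lit 106) (nat_lit 1) (nat_lit 101) (nat_lit 1) (nat_lit 105) (nat_lit 1) (nat_lit 361) (nat_lit 446) (nat_lit 333)) (XT.lf (nat_lit 76) (nat_lit 1885599591) (nat_lit 0) (nat_lit 2025892897) (nat_lit 380) (nat_lit 1885599591) (nat_lit 102) (nat_lit 1) (nat_lit 101)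 (nat_lit 1) (nat_lit 106) (nat_lit 1) (nat_lit 362) (nat_lit 446) (nat_lit 332))) (XT.nd (nat_lit 78) (nat_lit 0) (nat_lit 0) (XT.lf (nat_lit 304) (nat_lit 2186272262) (nat_lit 0) (nat_lit 1784557606) (nat_lit 228) (nat_lit 1784557606) (nat_lit 102) (nat_lit 1) (nat_lit 98) (nat_lit 1) (nat_lit 101) (nat_lit 1) (nat_lit 363) (nat_lit 446) (nat_lit 331)) (XT.lf (nat_lit 76) (nat_lit 308971857) (nat_lit 0) (nat_lit 5096272998) (nat_lit 304) (nat_lit 308971857) (nat_lit 99) (nat_lit 1) (nat_lit 98) (nat_lit 1) (nat_lit 102) (nat_lit 1) (nat_lit 364) (nat_lit 446) (nat_lit 330)))) (XT.nd (nat_lit 156) (nat_lit 532) (nat_lit 0) (XT.nd (nat_lit 78) (nat_lit 228) (nat_lit 0) (XT.lf (nat_lit 76) (nat_lit 2366205757) (nat_lit 0) (nat_lit 940660520) (nat_lit 304) (nat_lit 2366205757) (nat_lit 95) (nat_lit 1) (nat_lit 94) (nat_lit 1) (nat_lit 98) (nat_lit 1) (nat_lit 365) (nat_lit 446) (nat_lit 329)) (XT.lf (nat_lit 304) (nat_lit 3161669511) (nat_lit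 0) (nat_lit 1235392697) (nat_lit 228) (nat_lit 1235392697) (nat_lit 95) (nat_lit 1) (nat_lit 91) (nat_lit 1) (nat_lit 94) (nat_lit 1) (nat_lit 366) (nat_lit 446) (nat_lit 328))) (XT.nd (nat_lit 78) (nat_lit 532) (nat_lit 0) (XT.lf (nat_lit 76) (nat_lit 800394080) (nat_lit 0) (nat_lit 3991435477) (nat_lit 304) (nat_lit 800394080) (nat_lit 92) (nat_lit 1) (nat_lit 91) (nat_lit 1) (nat_lit 95) (nat_lit 1) (nat_lit 367) (nat_lit 446) (nat_lit 327)) (XT.nd (nat_lit 78) (nat_lit 304) (nat_lit 0) (XT.lf (nat_lit 304) (nat_lit 44252884) (nat_lit 0) (nat_lit 2754006721) (nat_lit 228) (nat_lit 2754006721) (nat_lit 92) (nat_lit 1) (nat_lit 88) (nat_lit 1) (nat_lit 91) (nat_lit 1) (nat_lit 368) (nat_lit 446) (nat_lit 326)) (XT.lf (nat_lit 304) (nat_lit 4040395761) (nat_lit 0) (nat_lit 736152397) (nat_lit 228) (nat_lit 736152397) (nat_lit 88) (nat_lit 1) (nat_lit 84) (nat_lit 1) (nat_lit 87) (nat_lit 1) (nat_lit 369) (nat_lit 446) (nat_lit 325))))))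 (XT.nd (nat_lit 312) (nat_lit 684) (nat_lit 0) (XT.nd (nat_lit 156) (nat_lit 304) (nat_lit 0) (XT.nd (nat_lit 78) (nat_lit 228) (nat_lit 0) (XT.lf (nat_lit 76) (nat_lit 1244295158) (nat_lit 0) (nat_lit 2984789975) (nat_lit 304) (nat_lit 1244295158) (nat_lit 85) (nat_lit 1) (nat_lit 84) (nat_lit 1) (nat_lit 88) (nat_lit 1) (nat_lit 370) (nat_lit 446) (nat_lit 324)) (XT.lf (nat_lit 304) (nat_lit 947575655) (nat_lit 0) (nat_lit 2243435162) (nat_lit 228) (nat_lit 2243435162) (nat_lit 85) (nat_lit 1) (nat_lit 81) (nat_lit 1) (nat_lit 84) (nat_lit 1) (nat_lit 371) (nat_lit 446) (nat_lit 323))) (XT.nd (nat_lit 78) (nat_lit 0) (nat_lit 0) (XT.lf (nat_lit 304) (nat_lit 4830251971) (nat_lit 0) (nat_lit 282875834) (nat_lit 228) (nat_lit 282875834) (nat_lit 81) (nat_lit 1) (nat_lit 77) (nat_lit 1) (nat_lit 80) (nat_lit 1) (nat_lit 372) (nat_lit 446) (nat_lit 322)) (XT.lf (nat_lit 76) (nat_lit 1644492026) (nat_lit 0) (nat_lit 2068583161) (nat_lit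 304) (nat_lit 1644492026) (nat_lit 78) (nat_lit 1) (nat_lit 77) (nat_lit 1) (nat_lit 81) (nat_lit 1) (nat_lit 373) (nat_lit 446) (nat_lit 321)))) (XT.nd (nat_lit 156) (nat_lit 456) (nat_lit 0) (XT.nd (nat_lit 78) (nat_lit 0) (nat_lit 0) (XT.lf (nat_lit 304) (nat_lit 1764327974) (nat_lit 0) (nat_lit 1777644812) (nat_lit 228) (nat_lit 1777644812) (nat_lit 78) (nat_lit 1) (nat_lit 74) (nat_lit 1) (nat_lit 77) (nat_lit 1) (nat_lit 374) (nat_lit 446) (nat_lit 320)) (XT.lf (nat_lit 76) (nat_lit 128941411) (nat_lit 0) (nat_lit 5024300168) (nat_lit 304) (nat_lit 128941411) (nat_lit 75) (nat_lit 1) (nat_lit 74) (nat_lit 1) (nat_lit 78) (nat_lit 1) (nat_lit 375) (nat_lit 446) (nat_lit 319))) (XT.nd (nat_lit 78) (nat_lit 228) (nat_lit 0) (XT.lf (nat_lit 76) (nat_lit 2004507060) (nat_lit 0) (nat_lit 1235657557) (nat_lit 228) (nat_lit 2004507060) (nat_lit 72) (nat_lit 1) (nat_lit 71) (nat_lit 1) (nat_lit 74) (nat_lit 1) (nat_lit 376) (nat_lit 446)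 (nat_lit 318)) (XT.nd (nat_lit 78) (nat_lit 0) (nat_lit 0) (XT.lf (nat_lit 304) (nat_lit 2501451172) (nat_lit 0) (nat_lit 1353109714) (nat_lit 228) (nat_lit 1353109714) (nat_lit 72) (nat_lit 1) (nat_lit 68) (nat_lit 1) (nat_lit 71) (nat_lit 1) (nat_lit 377) (nat_lit 446) (nat_lit 317)) (XT.lf (nat_lit 76) (nat_lit 503441190) (nat_lit 0) (nat_lit 4164187833) (nat_lit 304) (nat_lit 503441190) (nat_lit 69) (nat_lit 1) (nat_lit 68) (nat_lit 1) (nat_lit 72) (nat_lit 1) (nat_lit 378) (nat_lit 446) (nat_lit 316))))))))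
noncomputable def ec243 : XT := (XT.nd (nat_lit 53196) (nat_lit 0) (nat_lit 14820) (XT.nd (nat_lit 702) (nat_lit 1216) (nat_lit 0) (XT.nd (nat_lit 312) (nat_lit 760) (nat_lit 0) (XT.nd (nat_lit 156) (nat_lit 152) (nat_lit 0) (XT.nd (nat_lit 78) (nat_lit 228) (nat_lit 0) (XT.lf (nat_lit 76) (nat_lit 2327590583) (nat_lit 0) (nat_lit 479406058) (nat_lit 228) (nat_lit 2327590583) (nat_lit 66) (nat_lit 1) (nat_lit 65) (nat_lit 1) (nat_lit 68) (nat_lit 1) (nat_lit 379) (nat_lit 446) (nat_lit 315)) (XT.lf (nat_lit 304) (nat_lit 3165351129) (nat_lit 0) (nat_lit 966574696) (nat_lit 228) (nat_lit 966574696) (nat_lit 66) (nat_lit 1) (nat_lit 62) (nat_lit 1) (nat_lit 65) (nat_lit 1) (nat_lit 380) (nat_lit 446) (nat_lit 314))) (XT.nd (nat_lit 78) (nat_lit 152) (nat_lit 0) (XT.lf (nat_lit 76) (nat_lit 841885426) (nat_lit 0) (nat_lit 3378939514) (nat_lit 304) (nat_lit 841885426) (nat_lit 63) (nat_lit 1) (nat_lit 62) (nat_lit 1) (nat_lit 66) (nat_lit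 1) (nat_lit 381) (nat_lit 446) (nat_lit 313)) (XT.lf (nat_lit 228) (nat_lit 209011306) (nat_lit 0) (nat_lit 2409087397) (nat_lit 152) (nat_lit 2409087397) (nat_lit 63) (nat_lit 1) (nat_lit 60) (nat_lit 1) (nat_lit 62) (nat_lit 1) (nat_lit 382) (nat_lit 446) (nat_lit 312)))) (XT.nd (nat_lit 156) (nat_lit 456) (nat_lit 0) (XT.nd (nat_lit 78) (nat_lit 0) (nat_lit 0) (XT.lf (nat_lit 304) (nat_lit 3761939186) (nat_lit 0) (nat_lit 615034705) (nat_lit 228) (nat_lit 615034705) (nat_lit 60) (nat_lit 1) (nat_lit 56) (nat_lit 1) (nat_lit 59) (nat_lit 1) (nat_lit 383) (nat_lit 446) (nat_lit 311)) (XT.lf (nat_lit 76) (nat_lit 1147167673) (nat_lit 0) (nat_lit 2662670394) (nat_lit 304) (nat_lit 1147167673) (nat_lit 57) (nat_lit 1) (nat_lit 56) (nat_lit 1) (nat_lit 60) (nat_lit 1) (nat_lit 384) (nat_lit 446) (nat_lit 310))) (XT.nd (nat_lit 78) (nat_lit 304) (nat_lit 0) (XT.lf (nat_lit 228) (nat_lit 837990483) (nat_lit 0) (nat_lit 2042177624) (nat_lit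 152) (nat_lit 2042177624) (nat_lit 57) (nat_lit 1) (nat_lit 54) (nat_lit 1) (nat_lit 56) (nat_lit 1) (nat_lit 385) (nat_lit 446) (nat_lit 309)) (XT.nd (nat_lit 78) (nat_lit 0) (nat_lit 0) (XT.lf (nat_lit 304) (nat_lit 4296669942) (nat_lit 0) (nat_lit 295715719) (nat_lit 228) (nat_lit 295715719) (nat_lit 54) (nat_lit 1) (nat_lit 50) (nat_lit 1) (nat_lit 53) (nat_lit 1) (nat_lit 386) (nat_lit 446) (nat_lit 308)) (XT.lf (nat_lit 76) (nat_lit 1421958227) (nat_lit 0) (nat_lit 2009947414) (nat_lit 304) (nat_lit 1421958227) (nat_lit 51) (nat_lit 1) (nat_lit 50) (nat_lit 1) (nat_lit 54) (nat_lit 1) (nat_lit 387) (nat_lit 446) (nat_lit 307)))))) (XT.nd (nat_lit 312) (nat_lit 608) (nat_lit 0) (XT.nd (nat_lit 156) (nat_lit 152) (nat_lit 0) (XT.nd (nat_lit 78) (nat_lit 304) (nat_lit 0) (XT.lf (nat_lit 228) (nat_lit 1406424992) (nat_lit 0) (nat_lit 1706806703) (nat_lit 152) (nat_lit 1706806703) (nat_lit 51) (nat_lit 1) (nat_lit 48) (nat_lit 1) (nat_lit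 50) (nat_lit 1) (nat_lit 388) (nat_lit 446) (nat_lit 306)) (XT.lf (nat_lit 304) (nat_lit 4774576159) (nat_lit 0) (nat_lit 6057104) (nat_lit 228) (nat_lit 6057104) (nat_lit 48) (nat_lit 1) (nat_lit 44) (nat_lit 1) (nat_lit 47) (nat_lit 1) (nat_lit 389) (nat_lit 446) (nat_lit 305))) (XT.nd (nat_lit 78) (nat_lit 152) (nat_lit 0) (XT.lf (nat_lit 76) (nat_lit 1668721192) (nat_lit 0) (nat_lit 1415754792) (nat_lit 304) (nat_lit 1668721192) (nat_lit 45) (nat_lit 1) (nat_lit 44) (nat_lit 1) (nat_lit 48) (nat_lit 1) (nat_lit 390) (nat_lit 446) (nat_lit 304)) (XT.lf (nat_lit 228) (nat_lit 1919173529) (nat_lit 0) (nat_lit 1400502278) (nat_lit 152) (nat_lit 1400502278) (nat_lit 45) (nat_lit 1) (nat_lit 42) (nat_lit 1) (nat_lit 44) (nat_lit 1) (nat_lit 391) (nat_lit 446) (nat_lit 303)))) (XT.nd (nat_lit 156) (nat_lit 380) (nat_lit 0) (XT.nd (nat_lit 78) (nat_lit 228) (nat_lit 0) (XT.lf (nat_lit 76) (nat_lit 258002053) (nat_lit 0) (nat_lit 4171553108)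 (nat_lit 228) (nat_lit 258002053) (nat_lit 43) (nat_lit 1) (nat_lit 42) (nat_lit 1) (nat_lit 45) (nat_lit 1) (nat_lit 392) (nat_lit 446) (nat_lit 302)) (XT.lf (nat_lit 76) (nat_lit 1889730233) (nat_lit 0) (nat_lit 875462184) (nat_lit 228) (nat_lit 1889730233) (nat_lit 40) (nat_lit 1) (nat_lit 39) (nat_lit 1) (nat_lit 42) (nat_lit 1) (nat_lit 393) (nat_lit 446) (nat_lit 301))) (XT.nd (nat_lit 78) (nat_lit 228) (nat_lit 0) (XT.lf (nat_lit 228) (nat_lit 2380719914) (nat_lit 0) (nat_lit 1120981655) (nat_lit 152) (nat_lit 1120981655) (nat_lit 40) (nat_lit 1) (nat_lit 37) (nat_lit 1) (nat_lit 39) (nat_lit 1) (nat_lit 394) (nat_lit 446) (nat_lit 300)) (XT.nd (nat_lit 78) (nat_lit 228) (nat_lit 0) (XT.lf (nat_lit 76) (nat_lit 496819645) (nat_lit 0) (nat_lit 3597127509) (nat_lit 228) (nat_lit 496819645) (nat_lit 38) (nat_lit 1) (nat_lit 37) (nat_lit 1) (nat_lit 40) (nat_lit 1) (nat_lit 395) (nat_lit 446) (nat_lit 299)) (XT.lf (nat_lit 76) (nat_lit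 2087083134) (nat_lit 0) (nat_lit 384795260) (nat_lit 228) (nat_lit 2087083134) (nat_lit 35) (nat_lit 1) (nat_lit 34) (nat_lit 1) (nat_lit 37) (nat_lit 1) (nat_lit 396) (nat_lit 446) (nat_lit 298))))))) (XT.nd (nat_lit 702) (nat_lit 3268) (nat_lit 0) (XT.nd (nat_lit 312) (nat_lit 1824) (nat_lit 0) (XT.nd (nat_lit 156) (nat_lit 608) (nat_lit 0) (XT.nd (nat_lit 78) (nat_lit 684) (nat_lit 0) (XT.lf (nat_lit 76) (nat_lit 310175470) (nat_lit 0) (nat_lit 8758361764) (nat_lit 684) (nat_lit 310175470) (nat_lit 314) (nat_lit 1) (nat_lit 313) (nat_lit 1) (nat_lit 322) (nat_lit 1) (nat_lit 300) (nat_lit 447) (nat_lit 393)) (XT.lf (nat_lit 76) (nat_lit 4188664600) (nat_lit 0) (nat_lit 923813721) (nat_lit 684) (nat_lit 4188664600) (nat_lit 305) (nat_lit 1) (nat_lit 304) (nat_lit 1) (nat_lit 313) (nat_lit 1) (nat_lit 301) (nat_lit 447) (nat_lit 392))) (XT.nd (nat_lit 78) (nat_lit 0) (nat_lit 0) (XT.lf (nat_lit 684) (nat_lit 6785158499) (nat_lit 0) (nat_lit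 1219828983) (nat_lit 608) (nat_lit 1219828983) (nat_lit 305) (nat_lit 1) (nat_lit 296) (nat_lit 1) (nat_lit 304) (nat_lit 1) (nat_lit 302) (nat_lit 447) (nat_lit 391)) (XT.lf (nat_lit 76) (nat_lit 2589636003) (nat_lit 0) (nat_lit 3969833524) (nat_lit 684) (nat_lit 2589636003) (nat_lit 297) (nat_lit 1) (nat_lit 296) (nat_lit 1) (nat_lit 305) (nat_lit 1) (nat_lit 303) (nat_lit 447) (nat_lit 390)))) (XT.nd (nat_lit 156) (nat_lit 1216) (nat_lit 0) (XT.nd (nat_lit 78) (nat_lit 0) (nat_lit 0) (XT.lf (nat_lit 684) (nat_lit 3578756157) (nat_lit 0) (nat_lit 2747805430) (nat_lit 608) (nat_lit 2747805430) (nat_lit 297) (nat_lit 1) (nat_lit 288) (nat_lit 1) (nat_lit 296) (nat_lit 1) (nat_lit 304) (nat_lit 447) (nat_lit 389)) (XT.lf (nat_lit 76) (nat_lit 992961300) (nat_lit 0) (nat_lit 7014706654) (nat_lit 684) (nat_lit 992961300) (nat_lit 289) (nat_lit 1) (nat_lit 288) (nat_lit 1) (nat_lit 297) (nat_lit 1) (nat_lit 305) (nat_lit 447) (nat_lit 388)))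 (XT.nd (nat_lit 78) (nat_lit 684) (nat_lit 0) (XT.lf (nat_lit 608) (nat_lit 378171688) (nat_lit 0) (nat_lit 4274630375) (nat_lit 532) (nat_lit 4274630375) (nat_lit 289) (nat_lit 1) (nat_lit 281) (nat_lit 1) (nat_lit 288) (nat_lit 1) (nat_lit 306) (nat_lit 447) (nat_lit 387)) (XT.nd (nat_lit 78) (nat_lit 0) (nat_lit 0) (XT.lf (nat_lit 684) (nat_lit 7662648181) (nat_lit 0) (nat_lit 596330364) (nat_lit 608) (nat_lit 596330364) (nat_lit 281) (nat_lit 1) (nat_lit 272) (nat_lit 1) (nat_lit 280) (nat_lit 1) (nat_lit 307) (nat_lit 447) (nat_lit 386)) (XT.lf (nat_lit 76) (nat_lit 3002987718) (nat_lit 0) (nat_lit 2777580966) (nat_lit 684) (nat_lit 3002987718) (nat_lit 273) (nat_lit 1) (nat_lit 272) (nat_lit 1) (nat_lit 281) (nat_lit 1) (nat_lit 308) (nat_lit 447) (nat_lit 385)))))) (XT.nd (nat_lit 390) (nat_lit 1596) (nat_lit 0) (XT.nd (nat_lit 156) (nat_lit 1140) (nat_lit 0) (XT.nd (nat_lit 78) (nat_lit 0) (nat_lit 0) (XT.lf (nat_lit 608) (nat_lit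 4363512913) (nat_lit 0) (nat_lit 2174669794) (nat_lit 532) (nat_lit 2174669794) (nat_lit 273) (nat_lit 1) (nat_lit 265) (nat_lit 1) (nat_lit 272) (nat_lit 1) (nat_lit 309) (nat_lit 447) (nat_lit 384)) (XT.lf (nat_lit 76) (nat_lit 1362179050) (nat_lit 0) (nat_lit 5918610237) (nat_lit 608) (nat_lit 1362179050) (nat_lit 266) (nat_lit 1) (nat_lit 265) (nat_lit 1) (nat_lit 273) (nat_lit 1) (nat_lit 310) (nat_lit 447) (nat_lit 383))) (XT.nd (nat_lit 78) (nat_lit 608) (nat_lit 0) (XT.lf (nat_lit 608) (nat_lit 1078405353) (nat_lit 0) (nat_lit 3747642801) (nat_lit 532) (nat_lit 3747642801) (nat_lit 266) (nat_lit 1) (nat_lit 258) (nat_lit 1) (nat_lit 265) (nat_lit 1) (nat_lit 311) (nat_lit 447) (nat_lit 382)) (XT.nd (nat_lit 78) (nat_lit 0) (nat_lit 0) (XT.lf (nat_lit 608) (nat_lit 7966643533) (nat_lit 0) (nat_lit 269423522) (nat_lit 532) (nat_lit 269423522) (nat_lit 258) (nat_lit 1) (nat_lit 250) (nat_lit 1) (nat_lit 257) (nat_lit 1) (nat_lit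 312) (nat_lit 447) (nat_lit 381)) (XT.lf (nat_lit 76) (nat_lit 3137604245) (nat_lit 0) (nat_lit 2162247188) (nat_lit 608) (nat_lit 3137604245) (nat_lit 251) (nat_lit 1) (nat_lit 250) (nat_lit 1) (nat_lit 258) (nat_lit 1) (nat_lit 313) (nat_lit 447) (nat_lit 380))))) (XT.nd (nat_lit 156) (nat_lit 1064) (nat_lit 0) (XT.nd (nat_lit 78) (nat_lit 0) (nat_lit 0) (XT.lf (nat_lit 608) (nat_lit 4602713530) (nat_lit 0) (nat_lit 1883881169) (nat_lit 532) (nat_lit 1883881169) (nat_lit 251) (nat_lit 1) (nat_lit 243) (nat_lit 1) (nat_lit 250) (nat_lit 1) (nat_lit 314) (nat_lit 447) (nat_lit 379)) (XT.lf (nat_lit 76) (nat_lit 1466265521) (nat_lit 0) (nat_lit 5371680670) (nat_lit 608) (nat_lit 1466265521) (nat_lit 244) (nat_lit 1) (nat_lit 243) (nat_lit 1) (nat_lit 251) (nat_lit 1) (nat_lit 315) (nat_lit 447) (nat_lit 378))) (XT.nd (nat_lit 78) (nat_lit 608) (nat_lit 0) (XT.lf (nat_lit 532) (nat_lit 1259757226) (nat_lit 0) (nat_lit 3489398342) (nat_lit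 456) (nat_lit 3489398342) (nat_lit 244) (nat_lit 1) (nat_lit 237) (nat_lit 1) (nat_lit 243) (nat_lit 1) (nat_lit 316) (nat_lit 447) (nat_lit 377)) (XT.nd (nat_lit 78) (nat_lit 0) (nat_lit 0) (XT.lf (nat_lit 608) (nat_lit 7787915134) (nat_lit 0) (nat_lit 193001775) (nat_lit 532) (nat_lit 193001775) (nat_lit 237) (nat_lit 1) (nat_lit 229) (nat_lit 1) (nat_lit 236) (nat_lit 1) (nat_lit 317) (nat_lit 447) (nat_lit 376)) (XT.lf (nat_lit 76) (nat_lit 3037759158) (nat_lit 0) (nat_lit 2033860837) (nat_lit 608) (nat_lit 3037759158) (nat_lit 230) (nat_lit 1) (nat_lit 229) (nat_lit 1) (nat_lit 237) (nat_lit 1) (nat_lit 318) (nat_lit 447) (nat_lit 375))))))))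
noncomputable def ec244 : XT := (XT.nd (nat_lit 1404) (nat_lit 3724) (nat_lit 0) (XT.nd (nat_lit 702) (nat_lit 1976) (nat_lit 0) (XT.nd (nat_lit 312) (nat_lit 1368) (nat_lit 0) (XT.nd (nat_lit 156) (nat_lit 988) (nat_lit 0) (XT.nd (nat_lit 78) (nat_lit 0) (nat_lit 0) (XT.lf (nat_lit 532) (nat_lit 4383317243) (nat_lit 0) (nat_lit 1831262746) (nat_lit 456) (nat_lit 1831262746) (nat_lit 230) (nat_lit 1) (nat_lit 223) (nat_lit 1) (nat_lit 229) (nat_lit 1) (nat_lit 319) (nat_lit 447) (nat_lit 374)) (XT.lf (nat_lit 76) (nat_lit 1347633996) (nat_lit 0) (nat_lit 5287714952) (nat_lit 532) (nat_lit 1347633996) (nat_lit 224) (nat_lit 1) (nat_lit 223) (nat_lit 1) (nat_lit 230) (nat_lit 1) (nat_lit 320) (nat_lit 447) (nat_lit 373))) (XT.nd (nat_lit 78) (nat_lit 532) (nat_lit 0) (XT.lf (nat_lit 532) (nat_lit 1005530147) (nat_lit 0) (nat_lit 3457571719) (nat_lit 456) (nat_lit 3457571719) (nat_lit 224) (nat_lit 1) (nat_lit 217) (nat_lit 1) (nat_lit 223)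 (nat_lit 1) (nat_lit 321) (nat_lit 447) (nat_lit 372)) (XT.lf (nat_lit 532) (nat_lit 7205876499) (nat_lit 0) (nat_lit 326703759) (nat_lit 456) (nat_lit 326703759) (nat_lit 217) (nat_lit 1) (nat_lit 210) (nat_lit 1) (nat_lit 216) (nat_lit 1) (nat_lit 322) (nat_lit 447) (nat_lit 371)))) (XT.nd (nat_lit 156) (nat_lit 912) (nat_lit 0) (XT.nd (nat_lit 78) (nat_lit 456) (nat_lit 0) (XT.lf (nat_lit 76) (nat_lit 2742180624) (nat_lit 0) (nat_lit 2313673201) (nat_lit 532) (nat_lit 2742180624) (nat_lit 211) (nat_lit 1) (nat_lit 210) (nat_lit 1) (nat_lit 217) (nat_lit 1) (nat_lit 323) (nat_lit 447) (nat_lit 370)) (XT.lf (nat_lit 532) (nat_lit 3781379665) (nat_lit 0) (nat_lit 1978153863) (nat_lit 456) (nat_lit 1978153863) (nat_lit 211) (nat_lit 1) (nat_lit 204) (nat_lit 1) (nat_lit 210) (nat_lit 1) (nat_lit 324) (nat_lit 447) (nat_lit 369))) (XT.nd (nat_lit 78) (nat_lit 912) (nat_lit 0) (XT.lf (nat_lit 76) (nat_lit 1043373813) (nat_lit 0) (nat_lit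 5591284957) (nat_lit 532) (nat_lit 1043373813) (nat_lit 205) (nat_lit 1) (nat_lit 204) (nat_lit 1) (nat_lit 211) (nat_lit 1) (nat_lit 325) (nat_lit 447) (nat_lit 368)) (XT.nd (nat_lit 78) (nat_lit 532) (nat_lit 0) (XT.lf (nat_lit 456) (nat_lit 388558900) (nat_lit 0) (nat_lit 3615133655) (nat_lit 380) (nat_lit 3615133655) (nat_lit 205) (nat_lit 1) (nat_lit 199) (nat_lit 1) (nat_lit 204) (nat_lit 1) (nat_lit 326) (nat_lit 447) (nat_lit 367)) (XT.lf (nat_lit 532) (nat_lit 6289905638) (nat_lit 0) (nat_lit 635245698) (nat_lit 456) (nat_lit 635245698) (nat_lit 199) (nat_lit 1) (nat_lit 192) (nat_lit 1) (nat_lit 198) (nat_lit 1) (nat_lit 327) (nat_lit 447) (nat_lit 366)))))) (XT.nd (nat_lit 312) (nat_lit 1140) (nat_lit 0) (XT.nd (nat_lit 156) (nat_lit 456) (nat_lit 0) (XT.nd (nat_lit 78) (nat_lit 380) (nat_lit 0) (XT.lf (nat_lit 76) (nat_lit 2284696930) (nat_lit 0) (nat_lit 2932853437) (nat_lit 532) (nat_lit 2284696930) (nat_lit 193) (nat_lit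 1) (nat_lit 192) (nat_lit 1) (nat_lit 199) (nat_lit 1) (nat_lit 328) (nat_lit 447) (nat_lit 365)) (XT.lf (nat_lit 456) (nat_lit 2863322521) (nat_lit 0) (nat_lit 2290768448) (nat_lit 380) (nat_lit 2290768448) (nat_lit 193) (nat_lit 1) (nat_lit 187) (nat_lit 1) (nat_lit 192) (nat_lit 1) (nat_lit 329) (nat_lit 447) (nat_lit 364))) (XT.nd (nat_lit 78) (nat_lit 456) (nat_lit 0) (XT.lf (nat_lit 76) (nat_lit 585870579) (nat_lit 0) (nat_lit 6216483818) (nat_lit 456) (nat_lit 585870579) (nat_lit 188) (nat_lit 1) (nat_lit 187) (nat_lit 1) (nat_lit 193) (nat_lit 1) (nat_lit 330) (nat_lit 447) (nat_lit 363)) (XT.lf (nat_lit 76) (nat_lit 3405589951) (nat_lit 0) (nat_lit 520650687) (nat_lit 456) (nat_lit 3405589951) (nat_lit 182) (nat_lit 1) (nat_lit 181) (nat_lit 1) (nat_lit 187) (nat_lit 1) (nat_lit 331) (nat_lit 447) (nat_lit 362)))) (XT.nd (nat_lit 156) (nat_lit 760) (nat_lit 0) (XT.nd (nat_lit 78) (nat_lit 0) (nat_lit 0) (XT.lf (nat_lit 456) (nat_lit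 5100516589) (nat_lit 0) (nat_lit 1087829439) (nat_lit 380) (nat_lit 1087829439) (nat_lit 182) (nat_lit 1) (nat_lit 176) (nat_lit 1) (nat_lit 181) (nat_lit 1) (nat_lit 332) (nat_lit 447) (nat_lit 361)) (XT.lf (nat_lit 76) (nat_lit 1694808718) (nat_lit 0) (nat_lit 3831331867) (nat_lit 456) (nat_lit 1694808718) (nat_lit 177) (nat_lit 1) (nat_lit 176) (nat_lit 1) (nat_lit 182) (nat_lit 1) (nat_lit 333) (nat_lit 447) (nat_lit 360))) (XT.nd (nat_lit 78) (nat_lit 380) (nat_lit 0) (XT.lf (nat_lit 456) (nat_lit 1687059197) (nat_lit 0) (nat_lit 2739626286) (nat_lit 380) (nat_lit 2739626286) (nat_lit 177) (nat_lit 1) (nat_lit 171) (nat_lit 1) (nat_lit 176) (nat_lit 1) (nat_lit 334) (nat_lit 447) (nat_lit 359)) (XT.nd (nat_lit 78) (nat_lit 380) (nat_lit 0) (XT.lf (nat_lit 76) (nat_lit 3355937) (nat_lit 0) (nat_lit 7105814614) (nat_lit 456) (nat_lit 3355937) (nat_lit 172) (nat_lit 1) (nat_lit 171) (nat_lit 1) (nat_lit 177) (nat_lit 1) (nat_lit 335)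 (nat_lit 447) (nat_lit 358)) (XT.lf (nat_lit 76) (nat_lit 2696677423) (nat_lit 0) (nat_lit 1665305211) (nat_lit 380) (nat_lit 2696677423) (nat_lit 167) (nat_lit 1) (nat_lit 166) (nat_lit 1) (nat_lit 171) (nat_lit 1) (nat_lit 336) (nat_lit 447) (nat_lit 357))))))) (XT.nd (nat_lit 702) (nat_lit 1596) (nat_lit 0) (XT.nd (nat_lit 312) (nat_lit 988) (nat_lit 0) (XT.nd (nat_lit 156) (nat_lit 760) (nat_lit 0) (XT.nd (nat_lit 78) (nat_lit 0) (nat_lit 0) (XT.lf (nat_lit 456) (nat_lit 3690397805) (nat_lit 0) (nat_lit 1657617745) (nat_lit 380) (nat_lit 1657617745) (nat_lit 167) (nat_lit 1) (nat_lit 161) (nat_lit 1) (nat_lit 166) (nat_lit 1) (nat_lit 337) (nat_lit 447) (nat_lit 356)) (XT.lf (nat_lit 76) (nat_lit 998196178) (nat_lit 0) (nat_lit 4956774706) (nat_lit 456) (nat_lit 998196178) (nat_lit 162) (nat_lit 1) (nat_lit 161) (nat_lit 1) (nat_lit 167) (nat_lit 1) (nat_lit 338) (nat_lit 447) (nat_lit 355))) (XT.nd (nat_lit 78) (nat_lit 456) (nat_lit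 0) (XT.lf (nat_lit 380) (nat_lit 302992342) (nat_lit 0) (nat_lit 3299048909) (nat_lit 304) (nat_lit 3299048909) (nat_lit 162) (nat_lit 1) (nat_lit 157) (nat_lit 1) (nat_lit 161) (nat_lit 1) (nat_lit 339) (nat_lit 447) (nat_lit 354)) (XT.lf (nat_lit 456) (nat_lit 5499372703) (nat_lit 0) (nat_lit 675134074) (nat_lit 380) (nat_lit 675134074) (nat_lit 157) (nat_lit 1) (nat_lit 151) (nat_lit 1) (nat_lit 156) (nat_lit 1) (nat_lit 340) (nat_lit 447) (nat_lit 353)))) (XT.nd (nat_lit 156) (nat_lit 684) (nat_lit 0) (XT.nd (nat_lit 78) (nat_lit 304) (nat_lit 0) (XT.lf (nat_lit 76) (nat_lit 1897763102) (nat_lit 0) (nat_lit 3002921461) (nat_lit 456) (nat_lit 1897763102) (nat_lit 152) (nat_lit 1) (nat_lit 151) (nat_lit 1) (nat_lit 157) (nat_lit 1) (nat_lit 341) (nat_lit 447) (nat_lit 352)) (XT.lf (nat_lit 380) (nat_lit 2105332400) (nat_lit 0) (nat_lit 2321269247) (nat_lit 304) (nat_lit 2321269247) (nat_lit 152) (nat_lit 1) (nat_lit 147) (nat_lit 1)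 (nat_lit 151) (nat_lit 1) (nat_lit 342) (nat_lit 447) (nat_lit 351))) (XT.nd (nat_lit 78) (nat_lit 684) (nat_lit 0) (XT.lf (nat_lit 76) (nat_lit 217168525) (nat_lit 0) (nat_lit 6263675391) (nat_lit 380) (nat_lit 217168525) (nat_lit 148) (nat_lit 1) (nat_lit 147) (nat_lit 1) (nat_lit 152) (nat_lit 1) (nat_lit 343) (nat_lit 447) (nat_lit 350)) (XT.nd (nat_lit 78) (nat_lit 304) (nat_lit 0) (XT.lf (nat_lit 76) (nat_lit 2709694790) (nat_lit 0) (nat_lit 1228772336) (nat_lit 380) (nat_lit 2709694790) (nat_lit 143) (nat_lit 1) (nat_lit 142) (nat_lit 1) (nat_lit 147) (nat_lit 1) (nat_lit 344) (nat_lit 447) (nat_lit 349)) (XT.lf (nat_lit 380) (nat_lit 3734623581) (nat_lit 0) (nat_lit 1432197901) (nat_lit 304) (nat_lit 1432197901) (nat_lit 143) (nat_lit 1) (nat_lit 138) (nat_lit 1) (nat_lit 142) (nat_lit 1) (nat_lit 345) (nat_lit 447) (nat_lit 348)))))) (XT.nd (nat_lit 312) (nat_lit 912) (nat_lit 0) (XT.nd (nat_lit 156) (nat_lit 380) (nat_lit 0)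 (XT.nd (nat_lit 78) (nat_lit 304) (nat_lit 0) (XT.lf (nat_lit 76) (nat_lit 1029079801) (nat_lit 0) (nat_lit 4492195873) (nat_lit 380) (nat_lit 1029079801) (nat_lit 139) (nat_lit 1) (nat_lit 138) (nat_lit 1) (nat_lit 143) (nat_lit 1) (nat_lit 346) (nat_lit 447) (nat_lit 347)) (XT.lf (nat_lit 380) (nat_lit 385013545) (nat_lit 0) (nat_lit 3058526363) (nat_lit 304) (nat_lit 3058526363) (nat_lit 139) (nat_lit 1) (nat_lit 134) (nat_lit 1) (nat_lit 138) (nat_lit 1) (nat_lit 347) (nat_lit 447) (nat_lit 346))) (XT.nd (nat_lit 78) (nat_lit 0) (nat_lit 0) (XT.lf (nat_lit 380) (nat_lit 5204746161) (nat_lit 0) (nat_lit 624799993) (nat_lit 304) (nat_lit 624799993) (nat_lit 134) (nat_lit 1) (nat_lit 129) (nat_lit 1) (nat_lit 133) (nat_lit 1) (nat_lit 348) (nat_lit 447) (nat_lit 345)) (XT.lf (nat_lit 76) (nat_lit 1762916208) (nat_lit 0) (nat_lit 2881004426) (nat_lit 380) (nat_lit 1762916208) (nat_lit 130) (nat_lit 1) (nat_lit 129) (nat_lit 1) (nat_lit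 134) (nat_lit 1) (nat_lit 349) (nat_lit 447) (nat_lit 344)))) (XT.nd (nat_lit 156) (nat_lit 608) (nat_lit 0) (XT.nd (nat_lit 78) (nat_lit 0) (nat_lit 0) (XT.lf (nat_lit 380) (nat_lit 1860884573) (nat_lit 0) (nat_lit 2249501437) (nat_lit 304) (nat_lit 2249501437) (nat_lit 130) (nat_lit 1) (nat_lit 125) (nat_lit 1) (nat_lit 129) (nat_lit 1) (nat_lit 350) (nat_lit 447) (nat_lit 343)) (XT.lf (nat_lit 76) (nat_lit 108129513) (nat_lit 0) (nat_lit 6097357959) (nat_lit 380) (nat_lit 108129513) (nat_lit 126) (nat_lit 1) (nat_lit 125) (nat_lit 1) (nat_lit 130) (nat_lit 1) (nat_lit 351) (nat_lit 447) (nat_lit 342))) (XT.nd (nat_lit 78) (nat_lit 304) (nat_lit 0) (XT.lf (nat_lit 76) (nat_lit 2424942018) (nat_lit 0) (nat_lit 1417396700) (nat_lit 304) (nat_lit 2424942018) (nat_lit 122) (nat_lit 1) (nat_lit 121) (nat_lit 1) (nat_lit 125) (nat_lit 1) (nat_lit 352) (nat_lit 447) (nat_lit 341)) (XT.nd (nat_lit 78) (nat_lit 0) (nat_lit 0) (XT.lf (nat_lit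 380) (nat_lit 3194847711) (nat_lit 0) (nat_lit 1513383619) (nat_lit 304) (nat_lit 1513383619) (nat_lit 122) (nat_lit 1) (nat_lit 117) (nat_lit 1) (nat_lit 121) (nat_lit 1) (nat_lit 353) (nat_lit 447) (nat_lit 340)) (XT.lf (nat_lit 76) (nat_lit 775552573) (nat_lit 0) (nat_lit 4625324561) (nat_lit 380) (nat_lit 775552573) (nat_lit 118) (nat_lit 1) (nat_lit 117) (nat_lit 1) (nat_lit 122) (nat_lit 1) (nat_lit 354) (nat_lit 447) (nat_lit 339))))))))
noncomputable def ec245 : XT := (XT.nd (nat_lit 1404) (nat_lit 2660) (nat_lit 0) (XT.nd (nat_lit 702) (nat_lit 1520) (nat_lit 0) (XT.nd (nat_lit 312) (nat_lit 912) (nat_lit 0) (XT.nd (nat_lit 156) (nat_lit 228) (nat_lit 0) (XT.nd (nat_lit 78) (nat_lit 304) (nat_lit 0) (XT.lf (nat_lit 76) (nat_lit 3020938201) (nat_lit 0) (nat_lit 89645593) (nat_lit 304) (nat_lit 3020938201) (nat_lit 114) (nat_lit 1) (nat_lit 113) (nat_lit 1) (nat_lit 117) (nat_lit 1) (nat_lit 355) (nat_lit 447) (nat_lit 338)) (XT.lf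 (nat_lit 380) (nat_lit 4398288592) (nat_lit 0) (nat_lit 844399206) (nat_lit 304) (nat_lit 844399206) (nat_lit 114) (nat_lit 1) (nat_lit 109) (nat_lit 1) (nat_lit 113) (nat_lit 1) (nat_lit 356) (nat_lit 447) (nat_lit 337))) (XT.nd (nat_lit 78) (nat_lit 228) (nat_lit 0) (XT.lf (nat_lit 76) (nat_lit 1378900126) (nat_lit 0) (nat_lit 3285151901) (nat_lit 380) (nat_lit 1378900126) (nat_lit 110) (nat_lit 1) (nat_lit 109) (nat_lit 1) (nat_lit 114) (nat_lit 1) (nat_lit 357) (nat_lit 447) (nat_lit 336)) (XT.lf (nat_lit 304) (nat_lit 1127865511) (nat_lit 0) (nat_lit 2435696701) (nat_lit 228) (nat_lit 2435696701) (nat_lit 110) (nat_lit 1) (nat_lit 106) (nat_lit 1) (nat_lit 109) (nat_lit 1) (nat_lit 358) (nat_lit 447) (nat_lit 335)))) (XT.nd (nat_lit 156) (nat_lit 532) (nat_lit 0) (XT.nd (nat_lit 78) (nat_lit 0) (nat_lit 0) (XT.lf (nat_lit 380) (nat_lit 5481714432) (nat_lit 0) (nat_lit 237218533) (nat_lit 304) (nat_lit 237218533) (nat_lit 106) (nat_lit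 1) (nat_lit 101) (nat_lit 1) (nat_lit 105) (nat_lit 1) (nat_lit 359) (nat_lit 447) (nat_lit 334)) (XT.lf (nat_lit 76) (nat_lit 1923311583) (nat_lit 0) (nat_lit 2066410755) (nat_lit 380) (nat_lit 1923311583) (nat_lit 102) (nat_lit 1) (nat_lit 101) (nat_lit 1) (nat_lit 106) (nat_lit 1) (nat_lit 360) (nat_lit 447) (nat_lit 333))) (XT.nd (nat_lit 78) (nat_lit 304) (nat_lit 0) (XT.lf (nat_lit 304) (nat_lit 2229997707) (nat_lit 0) (nat_lit 1820248759) (nat_lit 228) (nat_lit 1820248759) (nat_lit 102) (nat_lit 1) (nat_lit 98) (nat_lit 1) (nat_lit 101) (nat_lit 1) (nat_lit 361) (nat_lit 447) (nat_lit 332)) (XT.nd (nat_lit 78) (nat_lit 304) (nat_lit 0) (XT.lf (nat_lit 76) (nat_lit 315151294) (nat_lit 0) (nat_lit 5198198458) (nat_lit 304) (nat_lit 315151294) (nat_lit 99) (nat_lit 1) (nat_lit 98) (nat_lit 1) (nat_lit 102) (nat_lit 1) (nat_lit 362) (nat_lit 447) (nat_lit 331)) (XT.lf (nat_lit 76) (nat_lit 2413529872) (nat_lit 0) (nat_lit 959473730)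 (nat_lit 304) (nat_lit 2413529872) (nat_lit 95) (nat_lit 1) (nat_lit 94) (nat_lit 1) (nat_lit 98) (nat_lit 1) (nat_lit 363) (nat_lit 447) (nat_lit 330)))))) (XT.nd (nat_lit 312) (nat_lit 760) (nat_lit 0) (XT.nd (nat_lit 156) (nat_lit 532) (nat_lit 0) (XT.nd (nat_lit 78) (nat_lit 0) (nat_lit 0) (XT.lf (nat_lit 304) (nat_lit 3224902901) (nat_lit 0) (nat_lit 1260100551) (nat_lit 228) (nat_lit 1260100551) (nat_lit 95) (nat_lit 1) (nat_lit 91) (nat_lit 1) (nat_lit 94) (nat_lit 1) (nat_lit 364) (nat_lit 447) (nat_lit 329)) (XT.lf (nat_lit 76) (nat_lit 816401962) (nat_lit 0) (nat_lit 4071264186) (nat_lit 304) (nat_lit 816401962) (nat_lit 92) (nat_lit 1) (nat_lit 91) (nat_lit 1) (nat_lit 95) (nat_lit 1) (nat_lit 365) (nat_lit 447) (nat_lit 328))) (XT.nd (nat_lit 78) (nat_lit 304) (nat_lit 0) (XT.lf (nat_lit 304) (nat_lit 45137942) (nat_lit 0) (nat_lit 2809086856) (nat_lit 228) (nat_lit 2809086856) (nat_lit 92) (nat_lit 1) (nat_lit 88) (nat_lit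 1) (nat_lit 91) (nat_lit 1) (nat_lit 366) (nat_lit 447) (nat_lit 327)) (XT.lf (nat_lit 304) (nat_lit 4121203676) (nat_lit 0) (nat_lit 750875445) (nat_lit 228) (nat_lit 750875445) (nat_lit 88) (nat_lit 1) (nat_lit 84) (nat_lit 1) (nat_lit 87) (nat_lit 1) (nat_lit 367) (nat_lit 447) (nat_lit 326)))) (XT.nd (nat_lit 156) (nat_lit 532) (nat_lit 0) (XT.nd (nat_lit 78) (nat_lit 228) (nat_lit 0) (XT.lf (nat_lit 76) (nat_lit 1269181061) (nat_lit 0) (nat_lit 3044485775) (nat_lit 304) (nat_lit 1269181061) (nat_lit 85) (nat_lit 1) (nat_lit 84) (nat_lit 1) (nat_lit 88) (nat_lit 1) (nat_lit 368) (nat_lit 447) (nat_lit 325)) (XT.lf (nat_lit 304) (nat_lit 966527168) (nat_lit 0) (nat_lit 2288303865) (nat_lit 228) (nat_lit 2288303865) (nat_lit 85) (nat_lit 1) (nat_lit 81) (nat_lit 1) (nat_lit 84) (nat_lit 1) (nat_lit 369) (nat_lit 447) (nat_lit 324))) (XT.nd (nat_lit 78) (nat_lit 228) (nat_lit 0) (XT.lf (nat_lit 304) (nat_lit 4926857011) (nat_lit 0) (nat_lit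 288533350) (nat_lit 228) (nat_lit 288533350) (nat_lit 81) (nat_lit 1) (nat_lit 77) (nat_lit 1) (nat_lit 80) (nat_lit 1) (nat_lit 370) (nat_lit 447) (nat_lit 323)) (XT.nd (nat_lit 78) (nat_lit 228) (nat_lit 0) (XT.lf (nat_lit 76) (nat_lit 1677381867) (nat_lit 0) (nat_lit 2109954824) (nat_lit 304) (nat_lit 1677381867) (nat_lit 78) (nat_lit 1) (nat_lit 77) (nat_lit 1) (nat_lit 81) (nat_lit 1) (nat_lit 371) (nat_lit 447) (nat_lit 322)) (XT.lf (nat_lit 304) (nat_lit 1799614534) (nat_lit 0) (nat_lit 1813197708) (nat_lit 228) (nat_lit 1813197708) (nat_lit 78) (nat_lit 1) (nat_lit 74) (nat_lit 1) (nat_lit 77) (nat_lit 1) (nat_lit 372) (nat_lit 447) (nat_lit 321))))))) (XT.nd (nat_lit 702) (nat_lit 1292) (nat_lit 0) (XT.nd (nat_lit 312) (nat_lit 912) (nat_lit 0) (XT.nd (nat_lit 156) (nat_lit 228) (nat_lit 0) (XT.nd (nat_lit 78) (nat_lit 228) (nat_lit 0) (XT.lf (nat_lit 76) (nat_lit 131520239) (nat_lit 0) (nat_lit 5124786171) (nat_lit 304) (nat_lit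 131520239) (nat_lit 75) (nat_lit 1) (nat_lit 74) (nat_lit 1) (nat_lit 78) (nat_lit 1) (nat_lit 373) (nat_lit 447) (nat_lit 320)) (XT.lf (nat_lit 76) (nat_lit 2044597201) (nat_lit 0) (nat_lit 1260370708) (nat_lit 228) (nat_lit 2044597201) (nat_lit 72) (nat_lit 1) (nat_lit 71) (nat_lit 1) (nat_lit 74) (nat_lit 1) (nat_lit 374) (nat_lit 447) (nat_lit 319))) (XT.nd (nat_lit 78) (nat_lit 0) (nat_lit 0) (XT.lf (nat_lit 304) (nat_lit 2551480196) (nat_lit 0) (nat_lit 1380171908) (nat_lit 228) (nat_lit 1380171908) (nat_lit 72) (nat_lit 1) (nat_lit 68) (nat_lit 1) (nat_lit 71) (nat_lit 1) (nat_lit 375) (nat_lit 447) (nat_lit 318)) (XT.lf (nat_lit 76) (nat_lit 513510014) (nat_lit 0) (nat_lit 4247471589) (nat_lit 304) (nat_lit 513510014) (nat_lit 69) (nat_lit 1) (nat_lit 68) (nat_lit 1) (nat_lit 72) (nat_lit 1) (nat_lit 376) (nat_lit 447) (nat_lit 317)))) (XT.nd (nat_lit 156) (nat_lit 456) (nat_lit 0) (XT.nd (nat_lit 78) (nat_lit 228) (nat_lit 0)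 (XT.lf (nat_lit 76) (nat_lit 2374142395) (nat_lit 0) (nat_lit 488994179) (nat_lit 228) (nat_lit 2374142395) (nat_lit 66) (nat_lit 1) (nat_lit 65) (nat_lit 1) (nat_lit 68) (nat_lit 1) (nat_lit 377) (nat_lit 447) (nat_lit 316)) (XT.lf (nat_lit 304) (nat_lit 3228658151) (nat_lit 0) (nat_lit 985906190) (nat_lit 228) (nat_lit 985906190) (nat_lit 66) (nat_lit 1) (nat_lit 62) (nat_lit 1) (nat_lit 65) (nat_lit 1) (nat_lit 378) (nat_lit 447) (nat_lit 315))) (XT.nd (nat_lit 78) (nat_lit 456) (nat_lit 0) (XT.lf (nat_lit 76) (nat_lit 858723135) (nat_lit 0) (nat_lit 3446518304) (nat_lit 304) (nat_lit 858723135) (nat_lit 63) (nat_lit 1) (nat_lit 62) (nat_lit 1) (nat_lit 66) (nat_lit 1) (nat_lit 379) (nat_lit 447) (nat_lit 314)) (XT.nd (nat_lit 78) (nat_lit 304) (nat_lit 0) (XT.lf (nat_lit 228) (nat_lit 213191532) (nat_lit 0) (nat_lit 2457269145) (nat_lit 152) (nat_lit 2457269145) (nat_lit 63) (nat_lit 1) (nat_lit 60) (nat_lit 1) (nat_lit 62) (nat_lit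 1) (nat_lit 380) (nat_lit 447) (nat_lit 313)) (XT.lf (nat_lit 304) (nat_lit 3837177970) (nat_lit 0) (nat_lit 627335400) (nat_lit 228) (nat_lit 627335400) (nat_lit 60) (nat_lit 1) (nat_lit 56) (nat_lit 1) (nat_lit 59) (nat_lit 1) (nat_lit 381) (nat_lit 447) (nat_lit 312)))))) (XT.nd (nat_lit 390) (nat_lit 684) (nat_lit 0) (XT.nd (nat_lit 156) (nat_lit 456) (nat_lit 0) (XT.nd (nat_lit 78) (nat_lit 152) (nat_lit 0) (XT.lf (nat_lit 76) (nat_lit 1170111026) (nat_lit 0) (nat_lit 2715923802) (nat_lit 304) (nat_lit 1170111026) (nat_lit 57) (nat_lit 1) (nat_lit 56) (nat_lit 1) (nat_lit 60) (nat_lit 1) (nat_lit 382) (nat_lit 447) (nat_lit 311)) (XT.lf (nat_lit 228) (nat_lit 854750293) (nat_lit 0) (nat_lit 2083021176) (nat_lit 152) (nat_lit 2083021176) (nat_lit 57) (nat_lit 1) (nat_lit 54) (nat_lit 1) (nat_lit 56) (nat_lit 1) (nat_lit 383) (nat_lit 447) (nat_lit 310))) (XT.nd (nat_lit 78) (nat_lit 152) (nat_lit 0) (XT.lf (nat_lit 304) (nat_lit 4382603341)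 (nat_lit 0) (nat_lit 301630033) (nat_lit 228) (nat_lit 301630033) (nat_lit 54) (nat_lit 1) (nat_lit 50) (nat_lit 1) (nat_lit 53) (nat_lit 1) (nat_lit 384) (nat_lit 447) (nat_lit 309)) (XT.nd (nat_lit 78) (nat_lit 152) (nat_lit 0) (XT.lf (nat_lit 76) (nat_lit 1450397392) (nat_lit 0) (nat_lit 2050146362) (nat_lit 304) (nat_lit 1450397392) (nat_lit 51) (nat_lit 1) (nat_lit 50) (nat_lit 1) (nat_lit 54) (nat_lit 1) (nat_lit 385) (nat_lit 447) (nat_lit 308)) (XT.lf (nat_lit 228) (nat_lit 1434553492) (nat_lit 0) (nat_lit 1740942837) (nat_lit 152) (nat_lit 1740942837) (nat_lit 51) (nat_lit 1) (nat_lit 48) (nat_lit 1) (nat_lit 50) (nat_lit 1) (nat_lit 386) (nat_lit 447) (nat_lit 307))))) (XT.nd (nat_lit 156) (nat_lit 380) (nat_lit 0) (XT.nd (nat_lit 78) (nat_lit 0) (nat_lit 0) (XT.lf (nat_lit 304) (nat_lit 4870067682) (nat_lit 0) (nat_lit 6178246) (nat_lit 228) (nat_lit 6178246) (nat_lit 48) (nat_lit 1) (nat_lit 44) (nat_lit 1) (nat_lit 47) (nat_lit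 1) (nat_lit 387) (nat_lit 447) (nat_lit 306)) (XT.lf (nat_lit 76) (nat_lit 1702095616) (nat_lit 0) (nat_lit 1444069888) (nat_lit 304) (nat_lit 1702095616) (nat_lit 45) (nat_lit 1) (nat_lit 44) (nat_lit 1) (nat_lit 48) (nat_lit 1) (nat_lit 388) (nat_lit 447) (nat_lit 305))) (XT.nd (nat_lit 78) (nat_lit 228) (nat_lit 0) (XT.lf (nat_lit 228) (nat_lit 1957556999) (nat_lit 0) (nat_lit 1428512323) (nat_lit 152) (nat_lit 1428512323) (nat_lit 45) (nat_lit 1) (nat_lit 42) (nat_lit 1) (nat_lit 44) (nat_lit 1) (nat_lit 389) (nat_lit 447) (nat_lit 304)) (XT.nd (nat_lit 78) (nat_lit 228) (nat_lit 0) (XT.lf (nat_lit 76) (nat_lit 263162094) (nat_lit 0) (nat_lit 4254984170) (nat_lit 228) (nat_lit 263162094) (nat_lit 43) (nat_lit 1) (nat_lit 42) (nat_lit 1) (nat_lit 45) (nat_lit 1) (nat_lit 390) (nat_lit 447) (nat_lit 303)) (XT.lf (nat_lit 76) (nat_lit 1927524838) (nat_lit 0) (nat_lit 892971428) (nat_lit 228) (nat_lit 1927524838) (nat_lit 40) (nat_lit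 1) (nat_lit 39) (nat_lit 1) (nat_lit 42) (nat_lit 1) (nat_lit 391) (nat_lit 447) (nat_lit 302))))))))
noncomputable def ec246 : XT := (XT.nd (nat_lit 53664) (nat_lit 0) (nat_lit 9120) (XT.nd (nat_lit 52962) (nat_lit 0) (nat_lit 14136) (XT.nd (nat_lit 52572) (nat_lit 0) (nat_lit 16796) (XT.nd (nat_lit 52416) (nat_lit 0) (nat_lit 18544) (XT.nd (nat_lit 78) (nat_lit 0) (nat_lit 0) (XT.lf (nat_lit 228) (nat_lit 2428334313) (nat_lit 0) (nat_lit 1143401288) (nat_lit 152) (nat_lit 1143401288) (nat_lit 40) (nat_lit 1) (nat_lit 37) (nat_lit 1) (nat_lit 39) (nat_lit 1) (nat_lit 392) (nat_lit 447) (nat_lit 301)) (XT.lf (nat_lit 76) (nat_lit 506756038) (nat_lit 0) (nat_lit 3669070059) (nat_lit 228) (nat_lit 506756038) (nat_lit 38) (nat_lit 1) (nat_lit 37) (nat_lit 1) (nat_lit 40) (nat_lit 1) (nat_lit 393) (nat_lit 447) (nat_lit 300))) (XT.nd (nat_lit 78) (nat_lit 532) (nat_lit 0) (XT.lf (nat_lit 76) (nat_lit 1012820526) (nat_lit 0) (nat_lit 7155000787)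 (nat_lit 684) (nat_lit 1012820526) (nat_lit 289) (nat_lit 1) (nat_lit 288) (nat_lit 1) (nat_lit 297) (nat_lit 1) (nat_lit 303) (nat_lit 448) (nat_lit 389)) (XT.lf (nat_lit 608) (nat_lit 385735122) (nat_lit 0) (nat_lit 4360122982) (nat_lit 532) (nat_lit 4360122982) (nat_lit 289) (nat_lit 1) (nat_lit 281) (nat_lit 1) (nat_lit 288) (nat_lit 1) (nat_lit 304) (nat_lit 448) (nat_lit 388)))) (XT.nd (nat_lit 156) (nat_lit 1064) (nat_lit 0) (XT.nd (nat_lit 78) (nat_lit 0) (nat_lit 0) (XT.lf (nat_lit 684) (nat_lit 7815901144) (nat_lit 0) (nat_lit 608256971) (nat_lit 608) (nat_lit 608256971) (nat_lit 281) (nat_lit 1) (nat_lit 272) (nat_lit 1) (nat_lit 280) (nat_lit 1) (nat_lit 305) (nat_lit 448) (nat_lit 387)) (XT.lf (nat_lit 76) (nat_lit 3063047473) (nat_lit 0) (nat_lit 2833132585) (nat_lit 684) (nat_lit 3063047473) (nat_lit 273) (nat_lit 1) (nat_lit 272) (nat_lit 1) (nat_lit 281) (nat_lit 1) (nat_lit 306) (nat_lit 448) (nat_lit 386))) (XT.nd (nat_lit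 78) (nat_lit 532) (nat_lit 0) (XT.lf (nat_lit 608) (nat_lit 4450783171) (nat_lit 0) (nat_lit 2218163190) (nat_lit 532) (nat_lit 2218163190) (nat_lit 273) (nat_lit 1) (nat_lit 265) (nat_lit 1) (nat_lit 272) (nat_lit 1) (nat_lit 307) (nat_lit 448) (nat_lit 385)) (XT.nd (nat_lit 78) (nat_lit 532) (nat_lit 0) (XT.lf (nat_lit 76) (nat_lit 1389422631) (nat_lit 0) (nat_lit 6036982442) (nat_lit 608) (nat_lit 1389422631) (nat_lit 266) (nat_lit 1) (nat_lit 265) (nat_lit 1) (nat_lit 273) (nat_lit 1) (nat_lit 308) (nat_lit 448) (nat_lit 384)) (XT.lf (nat_lit 608) (nat_lit 1099973460) (nat_lit 0) (nat_lit 3822595657) (nat_lit 532) (nat_lit 3822595657) (nat_lit 266) (nat_lit 1) (nat_lit 258) (nat_lit 1) (nat_lit 265) (nat_lit 1) (nat_lit 309) (nat_lit 448) (nat_lit 383)))))) (XT.nd (nat_lit 312) (nat_lit 1520) (nat_lit 0) (XT.nd (nat_lit 156) (nat_lit 532) (nat_lit 0) (XT.nd (nat_lit 78) (nat_lit 0) (nat_lit 0) (XT.lf (nat_lit 608) (nat_lit 8125976404)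 (nat_lit 0) (nat_lit 274811992) (nat_lit 532) (nat_lit 274811992) (nat_lit 258) (nat_lit 1) (nat_lit 250) (nat_lit 1) (nat_lit 257) (nat_lit 1) (nat_lit 310) (nat_lit 448) (nat_lit 382)) (XT.lf (nat_lit 76) (nat_lit 3200356330) (nat_lit 0) (nat_lit 2205492131) (nat_lit 608) (nat_lit 3200356330) (nat_lit 251) (nat_lit 1) (nat_lit 250) (nat_lit 1) (nat_lit 258) (nat_lit 1) (nat_lit 311) (nat_lit 448) (nat_lit 381))) (XT.nd (nat_lit 78) (nat_lit 0) (nat_lit 0) (XT.lf (nat_lit 608) (nat_lit 4694767801) (nat_lit 0) (nat_lit 1921558792) (nat_lit 532) (nat_lit 1921558792) (nat_lit 251) (nat_lit 1) (nat_lit 243) (nat_lit 1) (nat_lit 250) (nat_lit 1) (nat_lit 312) (nat_lit 448) (nat_lit 380)) (XT.lf (nat_lit 76) (nat_lit 1495590831) (nat_lit 0) (nat_lit 5479114283) (nat_lit 608) (nat_lit 1495590831) (nat_lit 244) (nat_lit 1) (nat_lit 243) (nat_lit 1) (nat_lit 251) (nat_lit 1) (nat_lit 313) (nat_lit 448) (nat_lit 379)))) (XT.nd (nat_lit 156) (nat_lit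 456) (nat_lit 0) (XT.nd (nat_lit 78) (nat_lit 608) (nat_lit 0) (XT.lf (nat_lit 532) (nat_lit 1284952371) (nat_lit 0) (nat_lit 3559186309) (nat_lit 456) (nat_lit 3559186309) (nat_lit 244) (nat_lit 1) (nat_lit 237) (nat_lit 1) (nat_lit 243) (nat_lit 1) (nat_lit 314) (nat_lit 448) (nat_lit 378)) (XT.lf (nat_lit 608) (nat_lit 7943673437) (nat_lit 0) (nat_lit 196861810) (nat_lit 532) (nat_lit 196861810) (nat_lit 237) (nat_lit 1) (nat_lit 229) (nat_lit 1) (nat_lit 236) (nat_lit 1) (nat_lit 315) (nat_lit 448) (nat_lit 377))) (XT.nd (nat_lit 78) (nat_lit 456) (nat_lit 0) (XT.lf (nat_lit 76) (nat_lit 3098514341) (nat_lit 0) (nat_lit 2074538053) (nat_lit 608) (nat_lit 3098514341) (nat_lit 230) (nat_lit 1) (nat_lit 229) (nat_lit 1) (nat_lit 237) (nat_lit 1) (nat_lit 316) (nat_lit 448) (nat_lit 376)) (XT.nd (nat_lit 78) (nat_lit 0) (nat_lit 0) (XT.lf (nat_lit 532) (nat_lit 4470983588) (nat_lit 0) (nat_lit 1867888001) (nat_lit 456) (nat_lit 1867888001)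 (nat_lit 230) (nat_lit 1) (nat_lit 223) (nat_lit 1) (nat_lit 229) (nat_lit 1) (nat_lit 317) (nat_lit 448) (nat_lit 375)) (XT.lf (nat_lit 76) (nat_lit 1374586676) (nat_lit 0) (nat_lit 5393469251) (nat_lit 532) (nat_lit 1374586676) (nat_lit 224) (nat_lit 1) (nat_lit 223) (nat_lit 1) (nat_lit 230) (nat_lit 1) (nat_lit 318) (nat_lit 448) (nat_lit 374))))))) (XT.nd (nat_lit 702) (nat_lit 2280) (nat_lit 0) (XT.nd (nat_lit 312) (nat_lit 1292) (nat_lit 0) (XT.nd (nat_lit 156) (nat_lit 456) (nat_lit 0) (XT.nd (nat_lit 78) (nat_lit 532) (nat_lit 0) (XT.lf (nat_lit 532) (nat_lit 1025640750) (nat_lit 0) (nat_lit 3526723153) (nat_lit 456) (nat_lit 3526723153) (nat_lit 224) (nat_lit 1) (nat_lit 217) (nat_lit 1) (nat_lit 223) (nat_lit 1) (nat_lit 319) (nat_lit 448) (nat_lit 373)) (XT.lf (nat_lit 532) (nat_lit 7349994029) (nat_lit 0) (nat_lit 333237835) (nat_lit 456) (nat_lit 333237835) (nat_lit 217) (nat_lit 1) (nat_lit 210) (nat_lit 1) (nat_lit 216)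 (nat_lit 1) (nat_lit 320) (nat_lit 448) (nat_lit 372))) (XT.nd (nat_lit 78) (nat_lit 456) (nat_lit 0) (XT.lf (nat_lit 76) (nat_lit 2797024236) (nat_lit 0) (nat_lit 2359946665) (nat_lit 532) (nat_lit 2797024236) (nat_lit 211) (nat_lit 1) (nat_lit 210) (nat_lit 1) (nat_lit 217) (nat_lit 1) (nat_lit 321) (nat_lit 448) (nat_lit 371)) (XT.lf (nat_lit 532) (nat_lit 3857007258) (nat_lit 0) (nat_lit 2017716940) (nat_lit 456) (nat_lit 2017716940) (nat_lit 211) (nat_lit 1) (nat_lit 204) (nat_lit 1) (nat_lit 210) (nat_lit 1) (nat_lit 322) (nat_lit 448) (nat_lit 370)))) (XT.nd (nat_lit 156) (nat_lit 912) (nat_lit 0) (XT.nd (nat_lit 78) (nat_lit 380) (nat_lit 0) (XT.lf (nat_lit 76) (nat_lit 1064241290) (nat_lit 0) (nat_lit 5703110656) (nat_lit 532) (nat_lit 1064241290) (nat_lit 205) (nat_lit 1) (nat_lit 204) (nat_lit 1) (nat_lit 211) (nat_lit 1) (nat_lit 323) (nat_lit 448) (nat_lit 369)) (XT.lf (nat_lit 456) (nat_lit 396330078) (nat_lit 0) (nat_lit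 3687436328) (nat_lit 380) (nat_lit 3687436328) (nat_lit 205) (nat_lit 1) (nat_lit 199) (nat_lit 1) (nat_lit 204) (nat_lit 1) (nat_lit 324) (nat_lit 448) (nat_lit 368))) (XT.nd (nat_lit 78) (nat_lit 380) (nat_lit 0) (XT.lf (nat_lit 532) (nat_lit 6415703751) (nat_lit 0) (nat_lit 647950612) (nat_lit 456) (nat_lit 647950612) (nat_lit 199) (nat_lit 1) (nat_lit 192) (nat_lit 1) (nat_lit 198) (nat_lit 1) (nat_lit 325) (nat_lit 448) (nat_lit 367)) (XT.nd (nat_lit 78) (nat_lit 380) (nat_lit 0) (XT.lf (nat_lit 76) (nat_lit 2330390869) (nat_lit 0) (nat_lit 2991510505) (nat_lit 532) (nat_lit 2330390869) (nat_lit 193) (nat_lit 1) (nat_lit 192) (nat_lit 1) (nat_lit 199) (nat_lit 1) (nat_lit 326) (nat_lit 448) (nat_lit 366)) (XT.lf (nat_lit 456) (nat_lit 2920588971) (nat_lit 0) (nat_lit 2336583817) (nat_lit 380) (nat_lit 2336583817) (nat_lit 193) (nat_lit 1) (nat_lit 187) (nat_lit 1) (nat_lit 192) (nat_lit 1) (nat_lit 327) (nat_lit 448) (nat_lit 365))))))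 (XT.nd (nat_lit 390) (nat_lit 1064) (nat_lit 0) (XT.nd (nat_lit 156) (nat_lit 760) (nat_lit 0) (XT.nd (nat_lit 78) (nat_lit 456) (nat_lit 0) (XT.lf (nat_lit 76) (nat_lit 597587991) (nat_lit 0) (nat_lit 6340813495) (nat_lit 456) (nat_lit 597587991) (nat_lit 188) (nat_lit 1) (nat_lit 187) (nat_lit 1) (nat_lit 193) (nat_lit 1) (nat_lit 328) (nat_lit 448) (nat_lit 364)) (XT.lf (nat_lit 76) (nat_lit 3473701750) (nat_lit 0) (nat_lit 531063700) (nat_lit 456) (nat_lit 3473701750) (nat_lit 182) (nat_lit 1) (nat_lit 181) (nat_lit 1) (nat_lit 187) (nat_lit 1) (nat_lit 329) (nat_lit 448) (nat_lit 363))) (XT.nd (nat_lit 78) (nat_lit 380) (nat_lit 0) (XT.lf (nat_lit 456) (nat_lit 5202526920) (nat_lit 0) (nat_lit 1109586028) (nat_lit 380) (nat_lit 1109586028) (nat_lit 182) (nat_lit 1) (nat_lit 176) (nat_lit 1) (nat_lit 181) (nat_lit 1) (nat_lit 330) (nat_lit 448) (nat_lit 362)) (XT.nd (nat_lit 78) (nat_lit 380) (nat_lit 0) (XT.lf (nat_lit 76) (nat_lit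 1728704893) (nat_lit 0) (nat_lit 3907958505) (nat_lit 456) (nat_lit 1728704893) (nat_lit 177) (nat_lit 1) (nat_lit 176) (nat_lit 1) (nat_lit 182) (nat_lit 1) (nat_lit 331) (nat_lit 448) (nat_lit 361)) (XT.lf (nat_lit 456) (nat_lit 1720800381) (nat_lit 0) (nat_lit 2794418812) (nat_lit 380) (nat_lit 2794418812) (nat_lit 177) (nat_lit 1) (nat_lit 171) (nat_lit 1) (nat_lit 176) (nat_lit 1) (nat_lit 332) (nat_lit 448) (nat_lit 360))))) (XT.nd (nat_lit 156) (nat_lit 684) (nat_lit 0) (XT.nd (nat_lit 78) (nat_lit 380) (nat_lit 0) (XT.lf (nat_lit 76) (nat_lit 3423056) (nat_lit 0) (nat_lit 7247930906) (nat_lit 456) (nat_lit 3423056) (nat_lit 172) (nat_lit 1) (nat_lit 171) (nat_lit 1) (nat_lit 177) (nat_lit 1) (nat_lit 333) (nat_lit 448) (nat_lit 359)) (XT.lf (nat_lit 76) (nat_lit 2750610972) (nat_lit 0) (nat_lit 1698611316) (nat_lit 380) (nat_lit 2750610972) (nat_lit 167) (nat_lit 1) (nat_lit 166) (nat_lit 1) (nat_lit 171) (nat_lit 1) (nat_lit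 334) (nat_lit 448) (nat_lit 358))) (XT.nd (nat_lit 78) (nat_lit 304) (nat_lit 0) (XT.lf (nat_lit 456) (nat_lit 3764205761) (nat_lit 0) (nat_lit 1690770100) (nat_lit 380) (nat_lit 1690770100) (nat_lit 167) (nat_lit 1) (nat_lit 161) (nat_lit 1) (nat_lit 166) (nat_lit 1) (nat_lit 335) (nat_lit 448) (nat_lit 357)) (XT.nd (nat_lit 78) (nat_lit 304) (nat_lit 0) (XT.lf (nat_lit 76) (nat_lit 1018160102) (nat_lit 0) (nat_lit 5055910200) (nat_lit 456) (nat_lit 1018160102) (nat_lit 162) (nat_lit 1) (nat_lit 161) (nat_lit 1) (nat_lit 167) (nat_lit 1) (nat_lit 336) (nat_lit 448) (nat_lit 356)) (XT.lf (nat_lit 380) (nat_lit 309052189) (nat_lit 0) (nat_lit 3365029888) (nat_lit 304) (nat_lit 3365029888) (nat_lit 162) (nat_lit 1) (nat_lit 157) (nat_lit 1) (nat_lit 161) (nat_lit 1) (nat_lit 337) (nat_lit 448) (nat_lit 355))))))))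
noncomputable def ec247 : XT := (XT.nd (nat_lit 1404) (nat_lit 3116) (nat_lit 0) (XT.nd (nat_lit 702) (nat_lit 1520) (nat_lit 0) (XT.nd (nat_lit 312) (nat_lit 1368) (nat_lit 0) (XT.nd (nat_lit 156) (nat_lit 304) (nat_lit 0) (XT.nd (nat_lit 78) (nat_lit 0) (nat_lit 0) (XT.lf (nat_lit 456) (nat_lit 5609360157) (nat_lit 0) (nat_lit 688636755) (nat_lit 380) (nat_lit 688636755) (nat_lit 157) (nat_lit 1) (nat_lit 151) (nat_lit 1) (nat_lit 156) (nat_lit 1) (nat_lit 338) (nat_lit 448) (nat_lit 354)) (XT.lf (nat_lit 76) (nat_lit 1935718364) (nat_lit 0) (nat_lit 3062979890) (nat_lit 456) (nat_lit 1935718364) (nat_lit 152) (nat_lit 1) (nat_lit 151) (nat_lit 1) (nat_lit 157) (nat_lit 1) (nat_lit 339) (nat_lit 448) (nat_lit 353))) (XT.nd (nat_lit 78) (nat_lit 0) (nat_lit 0) (XT.lf (nat_lit 380) (nat_lit 2147439048) (nat_lit 0) (nat_lit 2367694632) (nat_lit 304) (nat_lit 2367694632) (nat_lit 152) (nat_lit 1) (nat_lit 147) (nat_lit 1) (nat_lit 151)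 (nat_lit 1) (nat_lit 340) (nat_lit 448) (nat_lit 352)) (XT.lf (nat_lit 76) (nat_lit 221511896) (nat_lit 0) (nat_lit 6388948898) (nat_lit 380) (nat_lit 221511896) (nat_lit 148) (nat_lit 1) (nat_lit 147) (nat_lit 1) (nat_lit 152) (nat_lit 1) (nat_lit 341) (nat_lit 448) (nat_lit 351)))) (XT.nd (nat_lit 156) (nat_lit 684) (nat_lit 0) (XT.nd (nat_lit 78) (nat_lit 304) (nat_lit 0) (XT.lf (nat_lit 76) (nat_lit 2763888686) (nat_lit 0) (nat_lit 1253347782) (nat_lit 380) (nat_lit 2763888686) (nat_lit 143) (nat_lit 1) (nat_lit 142) (nat_lit 1) (nat_lit 147) (nat_lit 1) (nat_lit 342) (nat_lit 448) (nat_lit 350)) (XT.lf (nat_lit 380) (nat_lit 3809316052) (nat_lit 0) (nat_lit 1460841859) (nat_lit 304) (nat_lit 1460841859) (nat_lit 143) (nat_lit 1) (nat_lit 138) (nat_lit 1) (nat_lit 142) (nat_lit 1) (nat_lit 343) (nat_lit 448) (nat_lit 349))) (XT.nd (nat_lit 78) (nat_lit 684) (nat_lit 0) (XT.lf (nat_lit 76) (nat_lit 1049661397) (nat_lit 0) (nat_lit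 4582039790) (nat_lit 380) (nat_lit 1049661397) (nat_lit 139) (nat_lit 1) (nat_lit 138) (nat_lit 1) (nat_lit 143) (nat_lit 1) (nat_lit 344) (nat_lit 448) (nat_lit 348)) (XT.nd (nat_lit 78) (nat_lit 380) (nat_lit 0) (XT.lf (nat_lit 380) (nat_lit 392713816) (nat_lit 0) (nat_lit 3119696890) (nat_lit 304) (nat_lit 3119696890) (nat_lit 139) (nat_lit 1) (nat_lit 134) (nat_lit 1) (nat_lit 138) (nat_lit 1) (nat_lit 345) (nat_lit 448) (nat_lit 347)) (XT.lf (nat_lit 380) (nat_lit 5308841084) (nat_lit 0) (nat_lit 637295993) (nat_lit 304) (nat_lit 637295993) (nat_lit 134) (nat_lit 1) (nat_lit 129) (nat_lit 1) (nat_lit 133) (nat_lit 1) (nat_lit 346) (nat_lit 448) (nat_lit 346)))))) (XT.nd (nat_lit 312) (nat_lit 912) (nat_lit 0) (XT.nd (nat_lit 156) (nat_lit 304) (nat_lit 0) (XT.nd (nat_lit 78) (nat_lit 304) (nat_lit 0) (XT.lf (nat_lit 76) (nat_lit 1798174532) (nat_lit 0) (nat_lit 2938624515) (nat_lit 380) (nat_lit 1798174532) (nat_lit 130) (nat_lit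 1) (nat_lit 129) (nat_lit 1) (nat_lit 134) (nat_lit 1) (nat_lit 347) (nat_lit 448) (nat_lit 345)) (XT.lf (nat_lit 380) (nat_lit 1898102265) (nat_lit 0) (nat_lit 2294491465) (nat_lit 304) (nat_lit 2294491465) (nat_lit 130) (nat_lit 1) (nat_lit 125) (nat_lit 1) (nat_lit 129) (nat_lit 1) (nat_lit 348) (nat_lit 448) (nat_lit 344))) (XT.nd (nat_lit 78) (nat_lit 304) (nat_lit 0) (XT.lf (nat_lit 76) (nat_lit 110292103) (nat_lit 0) (nat_lit 6219305118) (nat_lit 380) (nat_lit 110292103) (nat_lit 126) (nat_lit 1) (nat_lit 125) (nat_lit 1) (nat_lit 130) (nat_lit 1) (nat_lit 349) (nat_lit 448) (nat_lit 343)) (XT.lf (nat_lit 76) (nat_lit 2473440858) (nat_lit 0) (nat_lit 1445744634) (nat_lit 304) (nat_lit 2473440858) (nat_lit 122) (nat_lit 1) (nat_lit 121) (nat_lit 1) (nat_lit 125) (nat_lit 1) (nat_lit 350) (nat_lit 448) (nat_lit 342)))) (XT.nd (nat_lit 156) (nat_lit 608) (nat_lit 0) (XT.nd (nat_lit 78) (nat_lit 0) (nat_lit 0) (XT.lf (nat_lit 380)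 (nat_lit 3258744665) (nat_lit 0) (nat_lit 1543651291) (nat_lit 304) (nat_lit 1543651291) (nat_lit 122) (nat_lit 1) (nat_lit 117) (nat_lit 1) (nat_lit 121) (nat_lit 1) (nat_lit 351) (nat_lit 448) (nat_lit 341)) (XT.lf (nat_lit 76) (nat_lit 791063625) (nat_lit 0) (nat_lit 4717831053) (nat_lit 380) (nat_lit 791063625) (nat_lit 118) (nat_lit 1) (nat_lit 117) (nat_lit 1) (nat_lit 122) (nat_lit 1) (nat_lit 352) (nat_lit 448) (nat_lit 340))) (XT.nd (nat_lit 78) (nat_lit 304) (nat_lit 0) (XT.lf (nat_lit 76) (nat_lit 3081356965) (nat_lit 0) (nat_lit 91438505) (nat_lit 304) (nat_lit 3081356965) (nat_lit 114) (nat_lit 1) (nat_lit 113) (nat_lit 1) (nat_lit 117) (nat_lit 1) (nat_lit 353) (nat_lit 448) (nat_lit 339)) (XT.nd (nat_lit 78) (nat_lit 0) (nat_lit 0) (XT.lf (nat_lit 380) (nat_lit 4486254364) (nat_lit 0) (nat_lit 861287190) (nat_lit 304) (nat_lit 861287190) (nat_lit 114) (nat_lit 1) (nat_lit 109) (nat_lit 1) (nat_lit 113) (nat_lit 1) (nat_lit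 354) (nat_lit 448) (nat_lit 338)) (XT.lf (nat_lit 76) (nat_lit 1406478129) (nat_lit 0) (nat_lit 3350854939) (nat_lit 380) (nat_lit 1406478129) (nat_lit 110) (nat_lit 1) (nat_lit 109) (nat_lit 1) (nat_lit 114) (nat_lit 1) (nat_lit 355) (nat_lit 448) (nat_lit 337))))))) (XT.nd (nat_lit 702) (nat_lit 1520) (nat_lit 0) (XT.nd (nat_lit 312) (nat_lit 760) (nat_lit 0) (XT.nd (nat_lit 156) (nat_lit 228) (nat_lit 0) (XT.nd (nat_lit 78) (nat_lit 380) (nat_lit 0) (XT.lf (nat_lit 304) (nat_lit 1150422821) (nat_lit 0) (nat_lit 2484410635) (nat_lit 228) (nat_lit 2484410635) (nat_lit 110) (nat_lit 1) (nat_lit 106) (nat_lit 1) (nat_lit 109) (nat_lit 1) (nat_lit 356) (nat_lit 448) (nat_lit 336)) (XT.lf (nat_lit 380) (nat_lit 5591348721) (nat_lit 0) (nat_lit 241962903) (nat_lit 304) (nat_lit 241962903) (nat_lit 106) (nat_lit 1) (nat_lit 101) (nat_lit 1) (nat_lit 105) (nat_lit 1) (nat_lit 357) (nat_lit 448) (nat_lit 335))) (XT.nd (nat_lit 78) (nat_lit 228)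 (nat_lit 0) (XT.lf (nat_lit 76) (nat_lit 1961777815) (nat_lit 0) (nat_lit 2107738971) (nat_lit 380) (nat_lit 1961777815) (nat_lit 102) (nat_lit 1) (nat_lit 101) (nat_lit 1) (nat_lit 106) (nat_lit 1) (nat_lit 358) (nat_lit 448) (nat_lit 334)) (XT.lf (nat_lit 304) (nat_lit 2274597661) (nat_lit 0) (nat_lit 1856653734) (nat_lit 228) (nat_lit 1856653734) (nat_lit 102) (nat_lit 1) (nat_lit 98) (nat_lit 1) (nat_lit 101) (nat_lit 1) (nat_lit 359) (nat_lit 448) (nat_lit 333)))) (XT.nd (nat_lit 156) (nat_lit 456) (nat_lit 0) (XT.nd (nat_lit 78) (nat_lit 304) (nat_lit 0) (XT.lf (nat_lit 76) (nat_lit 321454320) (nat_lit 0) (nat_lit 5302162427) (nat_lit 304) (nat_lit 321454320) (nat_lit 99) (nat_lit 1) (nat_lit 98) (nat_lit 1) (nat_lit 102) (nat_lit 1) (nat_lit 360) (nat_lit 448) (nat_lit 332)) (XT.lf (nat_lit 76) (nat_lit 2461800470) (nat_lit 0) (nat_lit 978663205) (nat_lit 304) (nat_lit 2461800470) (nat_lit 95) (nat_lit 1) (nat_lit 94) (nat_lit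 1) (nat_lit 98) (nat_lit 1) (nat_lit 361) (nat_lit 448) (nat_lit 331))) (XT.nd (nat_lit 78) (nat_lit 228) (nat_lit 0) (XT.lf (nat_lit 304) (nat_lit 3289400959) (nat_lit 0) (nat_lit 1285302562) (nat_lit 228) (nat_lit 1285302562) (nat_lit 95) (nat_lit 1) (nat_lit 91) (nat_lit 1) (nat_lit 94) (nat_lit 1) (nat_lit 362) (nat_lit 448) (nat_lit 330)) (XT.nd (nat_lit 78) (nat_lit 228) (nat_lit 0) (XT.lf (nat_lit 76) (nat_lit 832730001) (nat_lit 0) (nat_lit 4152689470) (nat_lit 304) (nat_lit 832730001) (nat_lit 92) (nat_lit 1) (nat_lit 91) (nat_lit 1) (nat_lit 95) (nat_lit 1) (nat_lit 363) (nat_lit 448) (nat_lit 329)) (XT.lf (nat_lit 304) (nat_lit 46040700) (nat_lit 0) (nat_lit 2865268593) (nat_lit 228) (nat_lit 2865268593) (nat_lit 92) (nat_lit 1) (nat_lit 88) (nat_lit 1) (nat_lit 91) (nat_lit 1) (nat_lit 364) (nat_lit 448) (nat_lit 328)))))) (XT.nd (nat_lit 390) (nat_lit 684) (nat_lit 0) (XT.nd (nat_lit 156) (nat_lit 532) (nat_lit 0) (XT.nd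 (nat_lit 78) (nat_lit 0) (nat_lit 0) (XT.lf (nat_lit 304) (nat_lit 4203627750) (nat_lit 0) (nat_lit 765892954) (nat_lit 228) (nat_lit 765892954) (nat_lit 88) (nat_lit 1) (nat_lit 84) (nat_lit 1) (nat_lit 87) (nat_lit 1) (nat_lit 365) (nat_lit 448) (nat_lit 327)) (XT.lf (nat_lit 76) (nat_lit 1294564683) (nat_lit 0) (nat_lit 3105375490) (nat_lit 304) (nat_lit 1294564683) (nat_lit 85) (nat_lit 1) (nat_lit 84) (nat_lit 1) (nat_lit 88) (nat_lit 1) (nat_lit 366) (nat_lit 448) (nat_lit 326))) (XT.nd (nat_lit 78) (nat_lit 304) (nat_lit 0) (XT.lf (nat_lit 304) (nat_lit 985857711) (nat_lit 0) (nat_lit 2334069942) (nat_lit 228) (nat_lit 2334069942) (nat_lit 85) (nat_lit 1) (nat_lit 81) (nat_lit 1) (nat_lit 84) (nat_lit 1) (nat_lit 367) (nat_lit 448) (nat_lit 325)) (XT.nd (nat_lit 78) (nat_lit 0) (nat_lit 0) (XT.lf (nat_lit 304) (nat_lit 5025394151) (nat_lit 0) (nat_lit 294304018) (nat_lit 228) (nat_lit 294304018) (nat_lit 81) (nat_lit 1) (nat_lit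 77) (nat_lit 1) (nat_lit 80) (nat_lit 1) (nat_lit 368) (nat_lit 448) (nat_lit 324)) (XT.lf (nat_lit 76) (nat_lit 1710929504) (nat_lit 0) (nat_lit 2152153921) (nat_lit 304) (nat_lit 1710929504) (nat_lit 78) (nat_lit 1) (nat_lit 77) (nat_lit 1) (nat_lit 81) (nat_lit 1) (nat_lit 369) (nat_lit 448) (nat_lit 323))))) (XT.nd (nat_lit 156) (nat_lit 456) (nat_lit 0) (XT.nd (nat_lit 78) (nat_lit 0) (nat_lit 0) (XT.lf (nat_lit 304) (nat_lit 1835606825) (nat_lit 0) (nat_lit 1849461662) (nat_lit 228) (nat_lit 1849461662) (nat_lit 78) (nat_lit 1) (nat_lit 74) (nat_lit 1) (nat_lit 77) (nat_lit 1) (nat_lit 370) (nat_lit 448) (nat_lit 322)) (XT.lf (nat_lit 76) (nat_lit 134150644) (nat_lit 0) (nat_lit 5227281894) (nat_lit 304) (nat_lit 134150644) (nat_lit 75) (nat_lit 1) (nat_lit 74) (nat_lit 1) (nat_lit 78) (nat_lit 1) (nat_lit 371) (nat_lit 448) (nat_lit 321))) (XT.nd (nat_lit 78) (nat_lit 228) (nat_lit 0) (XT.lf (nat_lit 76) (nat_lit 2085489145) (nat_lit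 0) (nat_lit 1285578122) (nat_lit 228) (nat_lit 2085489145) (nat_lit 72) (nat_lit 1) (nat_lit 71) (nat_lit 1) (nat_lit 74) (nat_lit 1) (nat_lit 372) (nat_lit 448) (nat_lit 320)) (XT.nd (nat_lit 78) (nat_lit 0) (nat_lit 0) (XT.lf (nat_lit 304) (nat_lit 2602509799) (nat_lit 0) (nat_lit 1407775346) (nat_lit 228) (nat_lit 1407775346) (nat_lit 72) (nat_lit 1) (nat_lit 68) (nat_lit 1) (nat_lit 71) (nat_lit 1) (nat_lit 373) (nat_lit 448) (nat_lit 319)) (XT.lf (nat_lit 76) (nat_lit 523780214) (nat_lit 0) (nat_lit 4332421021) (nat_lit 304) (nat_lit 523780214) (nat_lit 69) (nat_lit 1) (nat_lit 68) (nat_lit 1) (nat_lit 72) (nat_lit 1) (nat_lit 374) (nat_lit 448) (nat_lit 318))))))))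
noncomputable def ec248 : XT := (XT.nd (nat_lit 54210) (nat_lit 0) (nat_lit 11248) (XT.nd (nat_lit 702) (nat_lit 836) (nat_lit 0) (XT.nd (nat_lit 312) (nat_lit 760) (nat_lit 0) (XT.nd (nat_lit 156) (nat_lit 152) (nat_lit 0) (XT.nd (nat_lit 78) (nat_lit 228) (nat_lit 0) (XT.lf (nat_lit 76) (nat_lit 2421625243) (nat_lit 0) (nat_lit 498774063) (nat_lit 228) (nat_lit 2421625243) (nat_lit 66) (nat_lit 1) (nat_lit 65) (nat_lit 1) (nat_lit 68) (nat_lit 1) (nat_lit 375) (nat_lit 448) (nat_lit 317)) (XT.lf (nat_lit 304) (nat_lit 3293231314) (nat_lit 0) (nat_lit 1005624313) (nat_lit 228) (nat_lit 1005624313) (nat_lit 66) (nat_lit 1) (nat_lit 62) (nat_lit 1) (nat_lit 65) (nat_lit 1) (nat_lit 376) (nat_lit 448) (nat_lit 316))) (XT.nd (nat_lit 78) (nat_lit 152) (nat_lit 0) (XT.lf (nat_lit 76) (nat_lit 875897598) (nat_lit 0) (nat_lit 3515448670) (nat_lit 304) (nat_lit 875897598) (nat_lit 63) (nat_lit 1) (nat_lit 62) (nat_lit 1) (nat_lit 66) (nat_lit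 1) (nat_lit 377) (nat_lit 448) (nat_lit 315)) (XT.lf (nat_lit 228) (nat_lit 217455363) (nat_lit 0) (nat_lit 2506414528) (nat_lit 152) (nat_lit 2506414528) (nat_lit 63) (nat_lit 1) (nat_lit 60) (nat_lit 1) (nat_lit 62) (nat_lit 1) (nat_lit 378) (nat_lit 448) (nat_lit 314)))) (XT.nd (nat_lit 156) (nat_lit 456) (nat_lit 0) (XT.nd (nat_lit 78) (nat_lit 0) (nat_lit 0) (XT.lf (nat_lit 304) (nat_lit 3913921529) (nat_lit 0) (nat_lit 639882108) (nat_lit 228) (nat_lit 639882108) (nat_lit 60) (nat_lit 1) (nat_lit 56) (nat_lit 1) (nat_lit 59) (nat_lit 1) (nat_lit 379) (nat_lit 448) (nat_lit 313)) (XT.lf (nat_lit 76) (nat_lit 1193513247) (nat_lit 0) (nat_lit 2770242278) (nat_lit 304) (nat_lit 1193513247) (nat_lit 57) (nat_lit 1) (nat_lit 56) (nat_lit 1) (nat_lit 60) (nat_lit 1) (nat_lit 380) (nat_lit 448) (nat_lit 312))) (XT.nd (nat_lit 78) (nat_lit 304) (nat_lit 0) (XT.lf (nat_lit 228) (nat_lit 871845299) (nat_lit 0) (nat_lit 2124681600) (nat_lit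 152) (nat_lit 2124681600) (nat_lit 57) (nat_lit 1) (nat_lit 54) (nat_lit 1) (nat_lit 56) (nat_lit 1) (nat_lit 381) (nat_lit 448) (nat_lit 311)) (XT.nd (nat_lit 78) (nat_lit 0) (nat_lit 0) (XT.lf (nat_lit 304) (nat_lit 4470255408) (nat_lit 0) (nat_lit 307662634) (nat_lit 228) (nat_lit 307662634) (nat_lit 54) (nat_lit 1) (nat_lit 50) (nat_lit 1) (nat_lit 53) (nat_lit 1) (nat_lit 382) (nat_lit 448) (nat_lit 310)) (XT.lf (nat_lit 76) (nat_lit 1479405340) (nat_lit 0) (nat_lit 2091149289) (nat_lit 304) (nat_lit 1479405340) (nat_lit 51) (nat_lit 1) (nat_lit 50) (nat_lit 1) (nat_lit 54) (nat_lit 1) (nat_lit 383) (nat_lit 448) (nat_lit 309)))))) (XT.nd (nat_lit 312) (nat_lit 228) (nat_lit 0) (XT.nd (nat_lit 156) (nat_lit 152) (nat_lit 0) (XT.nd (nat_lit 78) (nat_lit 304) (nat_lit 0) (XT.lf (nat_lit 228) (nat_lit 1463244562) (nat_lit 0) (nat_lit 1775761694) (nat_lit 152) (nat_lit 1775761694) (nat_lit 51) (nat_lit 1) (nat_lit 48) (nat_lit 1) (nat_lit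 50) (nat_lit 1) (nat_lit 384) (nat_lit 448) (nat_lit 308)) (XT.lf (nat_lit 304) (nat_lit 4967469036) (nat_lit 0) (nat_lit 6301811) (nat_lit 228) (nat_lit 6301811) (nat_lit 48) (nat_lit 1) (nat_lit 44) (nat_lit 1) (nat_lit 47) (nat_lit 1) (nat_lit 385) (nat_lit 448) (nat_lit 307))) (XT.nd (nat_lit 78) (nat_lit 152) (nat_lit 0) (XT.lf (nat_lit 76) (nat_lit 1736137528) (nat_lit 0) (nat_lit 1472951286) (nat_lit 304) (nat_lit 1736137528) (nat_lit 45) (nat_lit 1) (nat_lit 44) (nat_lit 1) (nat_lit 48) (nat_lit 1) (nat_lit 386) (nat_lit 448) (nat_lit 306)) (XT.lf (nat_lit 228) (nat_lit 1996708139) (nat_lit 0) (nat_lit 1457082570) (nat_lit 152) (nat_lit 1457082570) (nat_lit 45) (nat_lit 1) (nat_lit 42) (nat_lit 1) (nat_lit 44) (nat_lit 1) (nat_lit 387) (nat_lit 448) (nat_lit 305)))) (XT.nd (nat_lit 52962) (nat_lit 0) (nat_lit 16036) (XT.nd (nat_lit 78) (nat_lit 228) (nat_lit 0) (XT.lf (nat_lit 76) (nat_lit 268425336) (nat_lit 0) (nat_lit 4340083853)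 (nat_lit 228) (nat_lit 268425336) (nat_lit 43) (nat_lit 1) (nat_lit 42) (nat_lit 1) (nat_lit 45) (nat_lit 1) (nat_lit 388) (nat_lit 448) (nat_lit 304)) (XT.lf (nat_lit 76) (nat_lit 1966075335) (nat_lit 0) (nat_lit 910830857) (nat_lit 228) (nat_lit 1966075335) (nat_lit 40) (nat_lit 1) (nat_lit 39) (nat_lit 1) (nat_lit 42) (nat_lit 1) (nat_lit 389) (nat_lit 448) (nat_lit 303))) (XT.nd (nat_lit 78) (nat_lit 1140) (nat_lit 0) (XT.lf (nat_lit 76) (nat_lit 1417211084) (nat_lit 0) (nat_lit 6157722090) (nat_lit 608) (nat_lit 1417211084) (nat_lit 266) (nat_lit 1) (nat_lit 265) (nat_lit 1) (nat_lit 273) (nat_lit 1) (nat_lit 306) (nat_lit 449) (nat_lit 385)) (XT.nd (nat_lit 78) (nat_lit 608) (nat_lit 0) (XT.lf (nat_lit 608) (nat_lit 1121972929) (nat_lit 0) (nat_lit 3899047570) (nat_lit 532) (nat_lit 3899047570) (nat_lit 266) (nat_lit 1) (nat_lit 258) (nat_lit 1) (nat_lit 265) (nat_lit 1) (nat_lit 307) (nat_lit 449) (nat_lit 384)) (XT.lf (nat_lit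 608) (nat_lit 8288495932) (nat_lit 0) (nat_lit 280308232) (nat_lit 532) (nat_lit 280308232) (nat_lit 258) (nat_lit 1) (nat_lit 250) (nat_lit 1) (nat_lit 257) (nat_lit 1) (nat_lit 308) (nat_lit 449) (nat_lit 383))))))) (XT.nd (nat_lit 702) (nat_lit 2280) (nat_lit 0) (XT.nd (nat_lit 312) (nat_lit 1520) (nat_lit 0) (XT.nd (nat_lit 156) (nat_lit 456) (nat_lit 0) (XT.nd (nat_lit 78) (nat_lit 532) (nat_lit 0) (XT.lf (nat_lit 76) (nat_lit 3264363457) (nat_lit 0) (nat_lit 2249601974) (nat_lit 608) (nat_lit 3264363457) (nat_lit 251) (nat_lit 1) (nat_lit 250) (nat_lit 1) (nat_lit 258) (nat_lit 1) (nat_lit 309) (nat_lit 449) (nat_lit 382)) (XT.lf (nat_lit 608) (nat_lit 4788663157) (nat_lit 0) (nat_lit 1959989968) (nat_lit 532) (nat_lit 1959989968) (nat_lit 251) (nat_lit 1) (nat_lit 243) (nat_lit 1) (nat_lit 250) (nat_lit 1) (nat_lit 310) (nat_lit 449) (nat_lit 381))) (XT.nd (nat_lit 78) (nat_lit 456) (nat_lit 0) (XT.lf (nat_lit 76) (nat_lit 1525502648)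 (nat_lit 0) (nat_lit 5588696569) (nat_lit 608) (nat_lit 1525502648) (nat_lit 244) (nat_lit 1) (nat_lit 243) (nat_lit 1) (nat_lit 251) (nat_lit 1) (nat_lit 311) (nat_lit 449) (nat_lit 380)) (XT.lf (nat_lit 532) (nat_lit 1310651418) (nat_lit 0) (nat_lit 3630370035) (nat_lit 456) (nat_lit 3630370035) (nat_lit 244) (nat_lit 1) (nat_lit 237) (nat_lit 1) (nat_lit 243) (nat_lit 1) (nat_lit 312) (nat_lit 449) (nat_lit 379)))) (XT.nd (nat_lit 156) (nat_lit 912) (nat_lit 0) (XT.nd (nat_lit 78) (nat_lit 0) (nat_lit 0) (XT.lf (nat_lit 608) (nat_lit 8102546905) (nat_lit 0) (nat_lit 200799047) (nat_lit 532) (nat_lit 200799047) (nat_lit 237) (nat_lit 1) (nat_lit 229) (nat_lit 1) (nat_lit 236) (nat_lit 1) (nat_lit 313) (nat_lit 449) (nat_lit 378)) (XT.lf (nat_lit 76) (nat_lit 3160484628) (nat_lit 0) (nat_lit 2116028814) (nat_lit 608) (nat_lit 3160484628) (nat_lit 230) (nat_lit 1) (nat_lit 229) (nat_lit 1) (nat_lit 237) (nat_lit 1) (nat_lit 314) (nat_lit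 449) (nat_lit 377))) (XT.nd (nat_lit 78) (nat_lit 456) (nat_lit 0) (XT.lf (nat_lit 532) (nat_lit 4560403259) (nat_lit 0) (nat_lit 1905245761) (nat_lit 456) (nat_lit 1905245761) (nat_lit 230) (nat_lit 1) (nat_lit 223) (nat_lit 1) (nat_lit 229) (nat_lit 1) (nat_lit 315) (nat_lit 449) (nat_lit 376)) (XT.nd (nat_lit 78) (nat_lit 456) (nat_lit 0) (XT.lf (nat_lit 76) (nat_lit 1402078409) (nat_lit 0) (nat_lit 5501338636) (nat_lit 532) (nat_lit 1402078409) (nat_lit 224) (nat_lit 1) (nat_lit 223) (nat_lit 1) (nat_lit 230) (nat_lit 1) (nat_lit 316) (nat_lit 449) (nat_lit 375)) (XT.lf (nat_lit 532) (nat_lit 1046153565) (nat_lit 0) (nat_lit 3597257617) (nat_lit 456) (nat_lit 3597257617) (nat_lit 224) (nat_lit 1) (nat_lit 217) (nat_lit 1) (nat_lit 223) (nat_lit 1) (nat_lit 317) (nat_lit 449) (nat_lit 374)))))) (XT.nd (nat_lit 312) (nat_lit 1292) (nat_lit 0) (XT.nd (nat_lit 156) (nat_lit 456) (nat_lit 0) (XT.nd (nat_lit 78) (nat_lit 0) (nat_lit 0)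 (XT.lf (nat_lit 532) (nat_lit 7496993909) (nat_lit 0) (nat_lit 339902591) (nat_lit 456) (nat_lit 339902591) (nat_lit 217) (nat_lit 1) (nat_lit 210) (nat_lit 1) (nat_lit 216) (nat_lit 1) (nat_lit 318) (nat_lit 449) (nat_lit 373)) (XT.lf (nat_lit 76) (nat_lit 2852964721) (nat_lit 0) (nat_lit 2407145599) (nat_lit 532) (nat_lit 2852964721) (nat_lit 211) (nat_lit 1) (nat_lit 210) (nat_lit 1) (nat_lit 217) (nat_lit 1) (nat_lit 319) (nat_lit 449) (nat_lit 372))) (XT.nd (nat_lit 78) (nat_lit 0) (nat_lit 0) (XT.lf (nat_lit 532) (nat_lit 3934147403) (nat_lit 0) (nat_lit 2058071279) (nat_lit 456) (nat_lit 2058071279) (nat_lit 211) (nat_lit 1) (nat_lit 204) (nat_lit 1) (nat_lit 210) (nat_lit 1) (nat_lit 320) (nat_lit 449) (nat_lit 371)) (XT.lf (nat_lit 76) (nat_lit 1085526116) (nat_lit 0) (nat_lit 5817172869) (nat_lit 532) (nat_lit 1085526116) (nat_lit 205) (nat_lit 1) (nat_lit 204) (nat_lit 1) (nat_lit 211) (nat_lit 1) (nat_lit 321) (nat_lit 449)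 (nat_lit 370)))) (XT.nd (nat_lit 156) (nat_lit 380) (nat_lit 0) (XT.nd (nat_lit 78) (nat_lit 532) (nat_lit 0) (XT.lf (nat_lit 456) (nat_lit 404256679) (nat_lit 0) (nat_lit 3761185054) (nat_lit 380) (nat_lit 3761185054) (nat_lit 205) (nat_lit 1) (nat_lit 199) (nat_lit 1) (nat_lit 204) (nat_lit 1) (nat_lit 322) (nat_lit 449) (nat_lit 369)) (XT.lf (nat_lit 532) (nat_lit 6544017826) (nat_lit 0) (nat_lit 660909624) (nat_lit 456) (nat_lit 660909624) (nat_lit 199) (nat_lit 1) (nat_lit 192) (nat_lit 1) (nat_lit 198) (nat_lit 1) (nat_lit 323) (nat_lit 449) (nat_lit 368))) (XT.nd (nat_lit 78) (nat_lit 380) (nat_lit 0) (XT.lf (nat_lit 76) (nat_lit 2376998686) (nat_lit 0) (nat_lit 3051340715) (nat_lit 532) (nat_lit 2376998686) (nat_lit 193) (nat_lit 1) (nat_lit 192) (nat_lit 1) (nat_lit 199) (nat_lit 1) (nat_lit 324) (nat_lit 449) (nat_lit 367)) (XT.nd (nat_lit 78) (nat_lit 0) (nat_lit 0) (XT.lf (nat_lit 456) (nat_lit 2979000750) (nat_lit 0) (nat_lit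 2383315493) (nat_lit 380) (nat_lit 2383315493) (nat_lit 193) (nat_lit 1) (nat_lit 187) (nat_lit 1) (nat_lit 192) (nat_lit 1) (nat_lit 325) (nat_lit 449) (nat_lit 366)) (XT.lf (nat_lit 76) (nat_lit 609539750) (nat_lit 0) (nat_lit 6467629764) (nat_lit 456) (nat_lit 609539750) (nat_lit 188) (nat_lit 1) (nat_lit 187) (nat_lit 1) (nat_lit 193) (nat_lit 1) (nat_lit 326) (nat_lit 449) (nat_lit 365))))))))
noncomputable def ec249 : XT := (XT.nd (nat_lit 1404) (nat_lit 3420) (nat_lit 0) (XT.nd (nat_lit 702) (nat_lit 2128) (nat_lit 0) (XT.nd (nat_lit 312) (nat_lit 1064) (nat_lit 0) (XT.nd (nat_lit 156) (nat_lit 380) (nat_lit 0) (XT.nd (nat_lit 78) (nat_lit 380) (nat_lit 0) (XT.lf (nat_lit 76) (nat_lit 3543175785) (nat_lit 0) (nat_lit 541684974) (nat_lit 456) (nat_lit 3543175785) (nat_lit 182) (nat_lit 1) (nat_lit 181) (nat_lit 1) (nat_lit 187) (nat_lit 1) (nat_lit 327) (nat_lit 449) (nat_lit 364)) (XT.lf (nat_lit 456) (nat_lit 5306577459) (nat_lit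 0) (nat_lit 1131777749) (nat_lit 380) (nat_lit 1131777749) (nat_lit 182) (nat_lit 1) (nat_lit 176) (nat_lit 1) (nat_lit 181) (nat_lit 1) (nat_lit 328) (nat_lit 449) (nat_lit 363))) (XT.nd (nat_lit 78) (nat_lit 380) (nat_lit 0) (XT.lf (nat_lit 76) (nat_lit 1763278990) (nat_lit 0) (nat_lit 3986117675) (nat_lit 456) (nat_lit 1763278990) (nat_lit 177) (nat_lit 1) (nat_lit 176) (nat_lit 1) (nat_lit 182) (nat_lit 1) (nat_lit 329) (nat_lit 449) (nat_lit 362)) (XT.lf (nat_lit 456) (nat_lit 1755216388) (nat_lit 0) (nat_lit 2850307188) (nat_lit 380) (nat_lit 2850307188) (nat_lit 177) (nat_lit 1) (nat_lit 171) (nat_lit 1) (nat_lit 176) (nat_lit 1) (nat_lit 330) (nat_lit 449) (nat_lit 361)))) (XT.nd (nat_lit 156) (nat_lit 684) (nat_lit 0) (XT.nd (nat_lit 78) (nat_lit 380) (nat_lit 0) (XT.lf (nat_lit 76) (nat_lit 3491517) (nat_lit 0) (nat_lit 7392889524) (nat_lit 456) (nat_lit 3491517) (nat_lit 172) (nat_lit 1) (nat_lit 171) (nat_lit 1) (nat_lit 177)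 (nat_lit 1) (nat_lit 331) (nat_lit 449) (nat_lit 360)) (XT.lf (nat_lit 76) (nat_lit 2805623191) (nat_lit 0) (nat_lit 1732583542) (nat_lit 380) (nat_lit 2805623191) (nat_lit 167) (nat_lit 1) (nat_lit 166) (nat_lit 1) (nat_lit 171) (nat_lit 1) (nat_lit 332) (nat_lit 449) (nat_lit 359))) (XT.nd (nat_lit 78) (nat_lit 304) (nat_lit 0) (XT.lf (nat_lit 456) (nat_lit 3839489876) (nat_lit 0) (nat_lit 1724585502) (nat_lit 380) (nat_lit 1724585502) (nat_lit 167) (nat_lit 1) (nat_lit 161) (nat_lit 1) (nat_lit 166) (nat_lit 1) (nat_lit 333) (nat_lit 449) (nat_lit 358)) (XT.nd (nat_lit 78) (nat_lit 304) (nat_lit 0) (XT.lf (nat_lit 76) (nat_lit 1038523304) (nat_lit 0) (nat_lit 5157028404) (nat_lit 456) (nat_lit 1038523304) (nat_lit 162) (nat_lit 1) (nat_lit 161) (nat_lit 1) (nat_lit 167) (nat_lit 1) (nat_lit 334) (nat_lit 449) (nat_lit 357)) (XT.lf (nat_lit 380) (nat_lit 315233233) (nat_lit 0) (nat_lit 3432330485) (nat_lit 304) (nat_lit 3432330485)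 (nat_lit 162) (nat_lit 1) (nat_lit 157) (nat_lit 1) (nat_lit 161) (nat_lit 1) (nat_lit 335) (nat_lit 449) (nat_lit 356)))))) (XT.nd (nat_lit 312) (nat_lit 1368) (nat_lit 0) (XT.nd (nat_lit 156) (nat_lit 304) (nat_lit 0) (XT.nd (nat_lit 78) (nat_lit 0) (nat_lit 0) (XT.lf (nat_lit 456) (nat_lit 5721547360) (nat_lit 0) (nat_lit 702409490) (nat_lit 380) (nat_lit 702409490) (nat_lit 157) (nat_lit 1) (nat_lit 151) (nat_lit 1) (nat_lit 156) (nat_lit 1) (nat_lit 336) (nat_lit 449) (nat_lit 355)) (XT.lf (nat_lit 76) (nat_lit 1974432732) (nat_lit 0) (nat_lit 3124239488) (nat_lit 456) (nat_lit 1974432732) (nat_lit 152) (nat_lit 1) (nat_lit 151) (nat_lit 1) (nat_lit 157) (nat_lit 1) (nat_lit 337) (nat_lit 449) (nat_lit 354))) (XT.nd (nat_lit 78) (nat_lit 0) (nat_lit 0) (XT.lf (nat_lit 380) (nat_lit 2190387829) (nat_lit 0) (nat_lit 2415048525) (nat_lit 304) (nat_lit 2415048525) (nat_lit 152) (nat_lit 1) (nat_lit 147) (nat_lit 1) (nat_lit 151) (nat_lit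 1) (nat_lit 338) (nat_lit 449) (nat_lit 353)) (XT.lf (nat_lit 76) (nat_lit 225942134) (nat_lit 0) (nat_lit 6516727876) (nat_lit 380) (nat_lit 225942134) (nat_lit 148) (nat_lit 1) (nat_lit 147) (nat_lit 1) (nat_lit 152) (nat_lit 1) (nat_lit 339) (nat_lit 449) (nat_lit 352)))) (XT.nd (nat_lit 156) (nat_lit 684) (nat_lit 0) (XT.nd (nat_lit 78) (nat_lit 304) (nat_lit 0) (XT.lf (nat_lit 76) (nat_lit 2819166460) (nat_lit 0) (nat_lit 1278414738) (nat_lit 380) (nat_lit 2819166460) (nat_lit 143) (nat_lit 1) (nat_lit 142) (nat_lit 1) (nat_lit 147) (nat_lit 1) (nat_lit 340) (nat_lit 449) (nat_lit 351)) (XT.lf (nat_lit 380) (nat_lit 3885502373) (nat_lit 0) (nat_lit 1490058696) (nat_lit 304) (nat_lit 1490058696) (nat_lit 143) (nat_lit 1) (nat_lit 138) (nat_lit 1) (nat_lit 142) (nat_lit 1) (nat_lit 341) (nat_lit 449) (nat_lit 350))) (XT.nd (nat_lit 78) (nat_lit 684) (nat_lit 0) (XT.lf (nat_lit 76) (nat_lit 1070654625) (nat_lit 0) (nat_lit 4673680586)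 (nat_lit 380) (nat_lit 1070654625) (nat_lit 139) (nat_lit 1) (nat_lit 138) (nat_lit 1) (nat_lit 143) (nat_lit 1) (nat_lit 342) (nat_lit 449) (nat_lit 349)) (XT.nd (nat_lit 78) (nat_lit 380) (nat_lit 0) (XT.lf (nat_lit 380) (nat_lit 400568093) (nat_lit 0) (nat_lit 3182090828) (nat_lit 304) (nat_lit 3182090828) (nat_lit 139) (nat_lit 1) (nat_lit 134) (nat_lit 1) (nat_lit 138) (nat_lit 1) (nat_lit 343) (nat_lit 449) (nat_lit 348)) (XT.lf (nat_lit 380) (nat_lit 5415017906) (nat_lit 0) (nat_lit 650041913) (nat_lit 304) (nat_lit 650041913) (nat_lit 134) (nat_lit 1) (nat_lit 129) (nat_lit 1) (nat_lit 133) (nat_lit 1) (nat_lit 344) (nat_lit 449) (nat_lit 347))))))) (XT.nd (nat_lit 702) (nat_lit 1900) (nat_lit 0) (XT.nd (nat_lit 312) (nat_lit 912) (nat_lit 0) (XT.nd (nat_lit 156) (nat_lit 304) (nat_lit 0) (XT.nd (nat_lit 78) (nat_lit 304) (nat_lit 0) (XT.lf (nat_lit 76) (nat_lit 1834138023) (nat_lit 0) (nat_lit 2997397005) (nat_lit 380) (nat_lit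 1834138023) (nat_lit 130) (nat_lit 1) (nat_lit 129) (nat_lit 1) (nat_lit 134) (nat_lit 1) (nat_lit 345) (nat_lit 449) (nat_lit 346)) (XT.lf (nat_lit 380) (nat_lit 1936064310) (nat_lit 0) (nat_lit 2340381295) (nat_lit 304) (nat_lit 2340381295) (nat_lit 130) (nat_lit 1) (nat_lit 125) (nat_lit 1) (nat_lit 129) (nat_lit 1) (nat_lit 346) (nat_lit 449) (nat_lit 345))) (XT.nd (nat_lit 78) (nat_lit 304) (nat_lit 0) (XT.lf (nat_lit 76) (nat_lit 112497946) (nat_lit 0) (nat_lit 6343691220) (nat_lit 380) (nat_lit 112497946) (nat_lit 126) (nat_lit 1) (nat_lit 125) (nat_lit 1) (nat_lit 130) (nat_lit 1) (nat_lit 347) (nat_lit 449) (nat_lit 344)) (XT.lf (nat_lit 76) (nat_lit 2522909675) (nat_lit 0) (nat_lit 1474659526) (nat_lit 304) (nat_lit 2522909675) (nat_lit 122) (nat_lit 1) (nat_lit 121) (nat_lit 1) (nat_lit 125) (nat_lit 1) (nat_lit 348) (nat_lit 449) (nat_lit 343)))) (XT.nd (nat_lit 156) (nat_lit 608) (nat_lit 0) (XT.nd (nat_lit 78) (nat_lit 0)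 (nat_lit 0) (XT.lf (nat_lit 380) (nat_lit 3323919559) (nat_lit 0) (nat_lit 1574524317) (nat_lit 304) (nat_lit 1574524317) (nat_lit 122) (nat_lit 1) (nat_lit 117) (nat_lit 1) (nat_lit 121) (nat_lit 1) (nat_lit 349) (nat_lit 449) (nat_lit 342)) (XT.lf (nat_lit 76) (nat_lit 806884897) (nat_lit 0) (nat_lit 4812187674) (nat_lit 380) (nat_lit 806884897) (nat_lit 118) (nat_lit 1) (nat_lit 117) (nat_lit 1) (nat_lit 122) (nat_lit 1) (nat_lit 350) (nat_lit 449) (nat_lit 341))) (XT.nd (nat_lit 78) (nat_lit 304) (nat_lit 0) (XT.lf (nat_lit 76) (nat_lit 3142984105) (nat_lit 0) (nat_lit 93267275) (nat_lit 304) (nat_lit 3142984105) (nat_lit 114) (nat_lit 1) (nat_lit 113) (nat_lit 1) (nat_lit 117) (nat_lit 1) (nat_lit 351) (nat_lit 449) (nat_lit 340)) (XT.nd (nat_lit 78) (nat_lit 0) (nat_lit 0) (XT.lf (nat_lit 380) (nat_lit 4575979451) (nat_lit 0) (nat_lit 878512934) (nat_lit 304) (nat_lit 878512934) (nat_lit 114) (nat_lit 1) (nat_lit 109) (nat_lit 1)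 (nat_lit 113) (nat_lit 1) (nat_lit 352) (nat_lit 449) (nat_lit 339)) (XT.lf (nat_lit 76) (nat_lit 1434607692) (nat_lit 0) (nat_lit 3417872038) (nat_lit 380) (nat_lit 1434607692) (nat_lit 110) (nat_lit 1) (nat_lit 109) (nat_lit 1) (nat_lit 114) (nat_lit 1) (nat_lit 353) (nat_lit 449) (nat_lit 338)))))) (XT.nd (nat_lit 390) (nat_lit 1064) (nat_lit 0) (XT.nd (nat_lit 156) (nat_lit 228) (nat_lit 0) (XT.nd (nat_lit 78) (nat_lit 380) (nat_lit 0) (XT.lf (nat_lit 304) (nat_lit 1173431278) (nat_lit 0) (nat_lit 2534098847) (nat_lit 228) (nat_lit 2534098847) (nat_lit 110) (nat_lit 1) (nat_lit 106) (nat_lit 1) (nat_lit 109) (nat_lit 1) (nat_lit 354) (nat_lit 449) (nat_lit 337)) (XT.lf (nat_lit 380) (nat_lit 5703175695) (nat_lit 0) (nat_lit 246802161) (nat_lit 304) (nat_lit 246802161) (nat_lit 106) (nat_lit 1) (nat_lit 101) (nat_lit 1) (nat_lit 105) (nat_lit 1) (nat_lit 355) (nat_lit 449) (nat_lit 336))) (XT.nd (nat_lit 78) (nat_lit 228) (nat_lit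 0) (XT.lf (nat_lit 76) (nat_lit 2001013371) (nat_lit 0) (nat_lit 2149893750) (nat_lit 380) (nat_lit 2001013371) (nat_lit 102) (nat_lit 1) (nat_lit 101) (nat_lit 1) (nat_lit 106) (nat_lit 1) (nat_lit 356) (nat_lit 449) (nat_lit 335)) (XT.nd (nat_lit 78) (nat_lit 0) (nat_lit 0) (XT.lf (nat_lit 304) (nat_lit 2320089615) (nat_lit 0) (nat_lit 1893786808) (nat_lit 228) (nat_lit 1893786808) (nat_lit 102) (nat_lit 1) (nat_lit 98) (nat_lit 1) (nat_lit 101) (nat_lit 1) (nat_lit 357) (nat_lit 449) (nat_lit 334)) (XT.lf (nat_lit 76) (nat_lit 327883407) (nat_lit 0) (nat_lit 5408205675) (nat_lit 304) (nat_lit 327883407) (nat_lit 99) (nat_lit 1) (nat_lit 98) (nat_lit 1) (nat_lit 102) (nat_lit 1) (nat_lit 358) (nat_lit 449) (nat_lit 333))))) (XT.nd (nat_lit 156) (nat_lit 532) (nat_lit 0) (XT.nd (nat_lit 78) (nat_lit 228) (nat_lit 0) (XT.lf (nat_lit 76) (nat_lit 2511036479) (nat_lit 0) (nat_lit 998236469) (nat_lit 304) (nat_lit 2511036479) (nat_lit 95)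 (nat_lit 1) (nat_lit 94) (nat_lit 1) (nat_lit 98) (nat_lit 1) (nat_lit 359) (nat_lit 449) (nat_lit 332)) (XT.lf (nat_lit 304) (nat_lit 3355188978) (nat_lit 0) (nat_lit 1311008613) (nat_lit 228) (nat_lit 1311008613) (nat_lit 95) (nat_lit 1) (nat_lit 91) (nat_lit 1) (nat_lit 94) (nat_lit 1) (nat_lit 360) (nat_lit 449) (nat_lit 331))) (XT.nd (nat_lit 78) (nat_lit 532) (nat_lit 0) (XT.lf (nat_lit 76) (nat_lit 849384601) (nat_lit 0) (nat_lit 4235743259) (nat_lit 304) (nat_lit 849384601) (nat_lit 92) (nat_lit 1) (nat_lit 91) (nat_lit 1) (nat_lit 95) (nat_lit 1) (nat_lit 361) (nat_lit 449) (nat_lit 330)) (XT.nd (nat_lit 78) (nat_lit 304) (nat_lit 0) (XT.lf (nat_lit 304) (nat_lit 46961514) (nat_lit 0) (nat_lit 2922573965) (nat_lit 228) (nat_lit 2922573965) (nat_lit 92) (nat_lit 1) (nat_lit 88) (nat_lit 1) (nat_lit 91) (nat_lit 1) (nat_lit 362) (nat_lit 449) (nat_lit 329)) (XT.lf (nat_lit 304) (nat_lit 4287700305) (nat_lit 0) (nat_lit 781210813)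 (nat_lit 228) (nat_lit 781210813) (nat_lit 88) (nat_lit 1) (nat_lit 84) (nat_lit 1) (nat_lit 87) (nat_lit 1) (nat_lit 363) (nat_lit 449) (nat_lit 328))))))))
noncomputable def ec250 : XT := (XT.nd (nat_lit 1404) (nat_lit 608) (nat_lit 0) (XT.nd (nat_lit 702) (nat_lit 1368) (nat_lit 0) (XT.nd (nat_lit 312) (nat_lit 684) (nat_lit 0) (XT.nd (nat_lit 156) (nat_lit 304) (nat_lit 0) (XT.nd (nat_lit 78) (nat_lit 228) (nat_lit 0) (XT.lf (nat_lit 76) (nat_lit 1320455976) (nat_lit 0) (nat_lit 3167483000) (nat_lit 304) (nat_lit 1320455976) (nat_lit 85) (nat_lit 1) (nat_lit 84) (nat_lit 1) (nat_lit 88) (nat_lit 1) (nat_lit 364) (nat_lit 449) (nat_lit 327)) (XT.lf (nat_lit 304) (nat_lit 1005574866) (nat_lit 0) (nat_lit 2380751341) (nat_lit 228) (nat_lit 2380751341) (nat_lit 85) (nat_lit 1) (nat_lit 81) (nat_lit 1) (nat_lit 84) (nat_lit 1) (nat_lit 365) (nat_lit 449) (nat_lit 326))) (XT.nd (nat_lit 78) (nat_lit 0) (nat_lit 0) (XT.lf (nat_lit 304) (nat_lit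 5125902034) (nat_lit 0) (nat_lit 300190098) (nat_lit 228) (nat_lit 300190098) (nat_lit 81) (nat_lit 1) (nat_lit 77) (nat_lit 1) (nat_lit 80) (nat_lit 1) (nat_lit 366) (nat_lit 449) (nat_lit 325)) (XT.lf (nat_lit 76) (nat_lit 1745148094) (nat_lit 0) (nat_lit 2195196999) (nat_lit 304) (nat_lit 1745148094) (nat_lit 78) (nat_lit 1) (nat_lit 77) (nat_lit 1) (nat_lit 81) (nat_lit 1) (nat_lit 367) (nat_lit 449) (nat_lit 324)))) (XT.nd (nat_lit 156) (nat_lit 456) (nat_lit 0) (XT.nd (nat_lit 78) (nat_lit 0) (nat_lit 0) (XT.lf (nat_lit 304) (nat_lit 1872318961) (nat_lit 0) (nat_lit 1886450895) (nat_lit 228) (nat_lit 1886450895) (nat_lit 78) (nat_lit 1) (nat_lit 74) (nat_lit 1) (nat_lit 77) (nat_lit 1) (nat_lit 368) (nat_lit 449) (nat_lit 323)) (XT.lf (nat_lit 76) (nat_lit 136833657) (nat_lit 0) (nat_lit 5331827532) (nat_lit 304) (nat_lit 136833657) (nat_lit 75) (nat_lit 1) (nat_lit 74) (nat_lit 1) (nat_lit 78) (nat_lit 1) (nat_lit 369) (nat_lit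 449) (nat_lit 322))) (XT.nd (nat_lit 78) (nat_lit 228) (nat_lit 0) (XT.lf (nat_lit 76) (nat_lit 2127198928) (nat_lit 0) (nat_lit 1311289685) (nat_lit 228) (nat_lit 2127198928) (nat_lit 72) (nat_lit 1) (nat_lit 71) (nat_lit 1) (nat_lit 74) (nat_lit 1) (nat_lit 370) (nat_lit 449) (nat_lit 321)) (XT.nd (nat_lit 78) (nat_lit 0) (nat_lit 0) (XT.lf (nat_lit 304) (nat_lit 2654559995) (nat_lit 0) (nat_lit 1435930853) (nat_lit 228) (nat_lit 1435930853) (nat_lit 72) (nat_lit 1) (nat_lit 68) (nat_lit 1) (nat_lit 71) (nat_lit 1) (nat_lit 371) (nat_lit 449) (nat_lit 320)) (XT.lf (nat_lit 76) (nat_lit 534255818) (nat_lit 0) (nat_lit 4419069442) (nat_lit 304) (nat_lit 534255818) (nat_lit 69) (nat_lit 1) (nat_lit 68) (nat_lit 1) (nat_lit 72) (nat_lit 1) (nat_lit 372) (nat_lit 449) (nat_lit 319)))))) (XT.nd (nat_lit 312) (nat_lit 760) (nat_lit 0) (XT.nd (nat_lit 156) (nat_lit 152) (nat_lit 0) (XT.nd (nat_lit 78) (nat_lit 228) (nat_lit 0) (XT.lf (nat_lit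 76) (nat_lit 2470057748) (nat_lit 0) (nat_lit 508749544) (nat_lit 228) (nat_lit 2470057748) (nat_lit 66) (nat_lit 1) (nat_lit 65) (nat_lit 1) (nat_lit 68) (nat_lit 1) (nat_lit 373) (nat_lit 449) (nat_lit 318)) (XT.lf (nat_lit 304) (nat_lit 3359095940) (nat_lit 0) (nat_lit 1025736800) (nat_lit 228) (nat_lit 1025736800) (nat_lit 66) (nat_lit 1) (nat_lit 62) (nat_lit 1) (nat_lit 65) (nat_lit 1) (nat_lit 374) (nat_lit 449) (nat_lit 317))) (XT.nd (nat_lit 78) (nat_lit 152) (nat_lit 0) (XT.lf (nat_lit 76) (nat_lit 893415550) (nat_lit 0) (nat_lit 3585757644) (nat_lit 304) (nat_lit 893415550) (nat_lit 63) (nat_lit 1) (nat_lit 62) (nat_lit 1) (nat_lit 66) (nat_lit 1) (nat_lit 375) (nat_lit 449) (nat_lit 316)) (XT.lf (nat_lit 228) (nat_lit 221804470) (nat_lit 0) (nat_lit 2556542819) (nat_lit 152) (nat_lit 2556542819) (nat_lit 63) (nat_lit 1) (nat_lit 60) (nat_lit 1) (nat_lit 62) (nat_lit 1) (nat_lit 376) (nat_lit 449) (nat_lit 315)))) (XT.nd (nat_lit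 156) (nat_lit 456) (nat_lit 0) (XT.nd (nat_lit 78) (nat_lit 0) (nat_lit 0) (XT.lf (nat_lit 304) (nat_lit 3992199960) (nat_lit 0) (nat_lit 652679750) (nat_lit 228) (nat_lit 652679750) (nat_lit 60) (nat_lit 1) (nat_lit 56) (nat_lit 1) (nat_lit 59) (nat_lit 1) (nat_lit 377) (nat_lit 449) (nat_lit 314)) (XT.lf (nat_lit 76) (nat_lit 1217383512) (nat_lit 0) (nat_lit 2825647124) (nat_lit 304) (nat_lit 1217383512) (nat_lit 57) (nat_lit 1) (nat_lit 56) (nat_lit 1) (nat_lit 60) (nat_lit 1) (nat_lit 378) (nat_lit 449) (nat_lit 313))) (XT.nd (nat_lit 78) (nat_lit 304) (nat_lit 0) (XT.lf (nat_lit 228) (nat_lit 889282205) (nat_lit 0) (nat_lit 2167175232) (nat_lit 152) (nat_lit 2167175232) (nat_lit 57) (nat_lit 1) (nat_lit 54) (nat_lit 1) (nat_lit 56) (nat_lit 1) (nat_lit 379) (nat_lit 449) (nat_lit 312)) (XT.nd (nat_lit 78) (nat_lit 0) (nat_lit 0) (XT.lf (nat_lit 304) (nat_lit 4559660516) (nat_lit 0) (nat_lit 313815887) (nat_lit 228) (nat_lit 313815887)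 (nat_lit 54) (nat_lit 1) (nat_lit 50) (nat_lit 1) (nat_lit 53) (nat_lit 1) (nat_lit 380) (nat_lit 449) (nat_lit 311)) (XT.lf (nat_lit 76) (nat_lit 1508993446) (nat_lit 0) (nat_lit 2132972275) (nat_lit 304) (nat_lit 1508993446) (nat_lit 51) (nat_lit 1) (nat_lit 50) (nat_lit 1) (nat_lit 54) (nat_lit 1) (nat_lit 381) (nat_lit 449) (nat_lit 310))))))) (XT.nd (nat_lit 54132) (nat_lit 0) (nat_lit 11020) (XT.nd (nat_lit 53742) (nat_lit 0) (nat_lit 13756) (XT.nd (nat_lit 156) (nat_lit 152) (nat_lit 0) (XT.nd (nat_lit 78) (nat_lit 304) (nat_lit 0) (XT.lf (nat_lit 228) (nat_lit 1492509453) (nat_lit 0) (nat_lit 1811276928) (nat_lit 152) (nat_lit 1811276928) (nat_lit 51) (nat_lit 1) (nat_lit 48) (nat_lit 1) (nat_lit 50) (nat_lit 1) (nat_lit 382) (nat_lit 449) (nat_lit 309)) (XT.lf (nat_lit 304) (nat_lit 5066818416) (nat_lit 0) (nat_lit 6427847) (nat_lit 228) (nat_lit 6427847) (nat_lit 48) (nat_lit 1) (nat_lit 44) (nat_lit 1) (nat_lit 47) (nat_lit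 1) (nat_lit 383) (nat_lit 449) (nat_lit 308))) (XT.nd (nat_lit 78) (nat_lit 152) (nat_lit 0) (XT.lf (nat_lit 76) (nat_lit 1770860279) (nat_lit 0) (nat_lit 1502410311) (nat_lit 304) (nat_lit 1770860279) (nat_lit 45) (nat_lit 1) (nat_lit 44) (nat_lit 1) (nat_lit 48) (nat_lit 1) (nat_lit 384) (nat_lit 449) (nat_lit 307)) (XT.lf (nat_lit 228) (nat_lit 2036642302) (nat_lit 0) (nat_lit 1486224221) (nat_lit 152) (nat_lit 1486224221) (nat_lit 45) (nat_lit 1) (nat_lit 42) (nat_lit 1) (nat_lit 44) (nat_lit 1) (nat_lit 385) (nat_lit 449) (nat_lit 306)))) (XT.nd (nat_lit 156) (nat_lit 456) (nat_lit 0) (XT.nd (nat_lit 78) (nat_lit 608) (nat_lit 0) (XT.lf (nat_lit 532) (nat_lit 1336864447) (nat_lit 0) (nat_lit 3702977436) (nat_lit 456) (nat_lit 3702977436) (nat_lit 244) (nat_lit 1) (nat_lit 237) (nat_lit 1) (nat_lit 243) (nat_lit 1) (nat_lit 310) (nat_lit 450) (nat_lit 380)) (XT.lf (nat_lit 608) (nat_lit 8264597844) (nat_lit 0) (nat_lit 204815028)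 (nat_lit 532) (nat_lit 204815028) (nat_lit 237) (nat_lit 1) (nat_lit 229) (nat_lit 1) (nat_lit 236) (nat_lit 1) (nat_lit 311) (nat_lit 450) (nat_lit 379))) (XT.nd (nat_lit 78) (nat_lit 456) (nat_lit 0) (XT.lf (nat_lit 76) (nat_lit 3223694320) (nat_lit 0) (nat_lit 2158349391) (nat_lit 608) (nat_lit 3223694320) (nat_lit 230) (nat_lit 1) (nat_lit 229) (nat_lit 1) (nat_lit 237) (nat_lit 1) (nat_lit 312) (nat_lit 450) (nat_lit 378)) (XT.nd (nat_lit 78) (nat_lit 0) (nat_lit 0) (XT.lf (nat_lit 532) (nat_lit 4651611325) (nat_lit 0) (nat_lit 1943350677) (nat_lit 456) (nat_lit 1943350677) (nat_lit 230) (nat_lit 1) (nat_lit 223) (nat_lit 1) (nat_lit 229) (nat_lit 1) (nat_lit 313) (nat_lit 450) (nat_lit 377)) (XT.lf (nat_lit 76) (nat_lit 1430119977) (nat_lit 0) (nat_lit 5611365408) (nat_lit 532) (nat_lit 1430119977) (nat_lit 224) (nat_lit 1) (nat_lit 223) (nat_lit 1) (nat_lit 230) (nat_lit 1) (nat_lit 314) (nat_lit 450) (nat_lit 376)))))) (XT.nd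 (nat_lit 312) (nat_lit 1292) (nat_lit 0) (XT.nd (nat_lit 156) (nat_lit 456) (nat_lit 0) (XT.nd (nat_lit 78) (nat_lit 532) (nat_lit 0) (XT.lf (nat_lit 532) (nat_lit 1067076637) (nat_lit 0) (nat_lit 3669202769) (nat_lit 456) (nat_lit 3669202769) (nat_lit 224) (nat_lit 1) (nat_lit 217) (nat_lit 1) (nat_lit 223) (nat_lit 1) (nat_lit 315) (nat_lit 450) (nat_lit 375)) (XT.lf (nat_lit 532) (nat_lit 7646933788) (nat_lit 0) (nat_lit 346700643) (nat_lit 456) (nat_lit 346700643) (nat_lit 217) (nat_lit 1) (nat_lit 210) (nat_lit 1) (nat_lit 216) (nat_lit 1) (nat_lit 316) (nat_lit 450) (nat_lit 374))) (XT.nd (nat_lit 78) (nat_lit 456) (nat_lit 0) (XT.lf (nat_lit 76) (nat_lit 2910024016) (nat_lit 0) (nat_lit 2455288511) (nat_lit 532) (nat_lit 2910024016) (nat_lit 211) (nat_lit 1) (nat_lit 210) (nat_lit 1) (nat_lit 217) (nat_lit 1) (nat_lit 317) (nat_lit 450) (nat_lit 373)) (XT.lf (nat_lit 532) (nat_lit 4012830351) (nat_lit 0) (nat_lit 2099232705) (nat_lit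 456) (nat_lit 2099232705) (nat_lit 211) (nat_lit 1) (nat_lit 204) (nat_lit 1) (nat_lit 210) (nat_lit 1) (nat_lit 318) (nat_lit 450) (nat_lit 372)))) (XT.nd (nat_lit 156) (nat_lit 912) (nat_lit 0) (XT.nd (nat_lit 78) (nat_lit 380) (nat_lit 0) (XT.lf (nat_lit 76) (nat_lit 1107236638) (nat_lit 0) (nat_lit 5933516327) (nat_lit 532) (nat_lit 1107236638) (nat_lit 205) (nat_lit 1) (nat_lit 204) (nat_lit 1) (nat_lit 211) (nat_lit 1) (nat_lit 319) (nat_lit 450) (nat_lit 371)) (XT.lf (nat_lit 456) (nat_lit 412341813) (nat_lit 0) (nat_lit 3836408755) (nat_lit 380) (nat_lit 3836408755) (nat_lit 205) (nat_lit 1) (nat_lit 199) (nat_lit 1) (nat_lit 204) (nat_lit 1) (nat_lit 320) (nat_lit 450) (nat_lit 370))) (XT.nd (nat_lit 78) (nat_lit 380) (nat_lit 0) (XT.lf (nat_lit 532) (nat_lit 6674898182) (nat_lit 0) (nat_lit 674127817) (nat_lit 456) (nat_lit 674127817) (nat_lit 199) (nat_lit 1) (nat_lit 192) (nat_lit 1) (nat_lit 198) (nat_lit 1) (nat_lit 321)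 (nat_lit 450) (nat_lit 369)) (XT.nd (nat_lit 78) (nat_lit 380) (nat_lit 0) (XT.lf (nat_lit 76) (nat_lit 2424538660) (nat_lit 0) (nat_lit 3112367530) (nat_lit 532) (nat_lit 2424538660) (nat_lit 193) (nat_lit 1) (nat_lit 192) (nat_lit 1) (nat_lit 199) (nat_lit 1) (nat_lit 322) (nat_lit 450) (nat_lit 368)) (XT.lf (nat_lit 456) (nat_lit 3038580765) (nat_lit 0) (nat_lit 2430981803) (nat_lit 380) (nat_lit 2430981803) (nat_lit 193) (nat_lit 1) (nat_lit 187) (nat_lit 1) (nat_lit 192) (nat_lit 1) (nat_lit 323) (nat_lit 450) (nat_lit 367))))))))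
noncomputable def ec251 : XT := (XT.nd (nat_lit 1404) (nat_lit 3496) (nat_lit 0) (XT.nd (nat_lit 702) (nat_lit 2052) (nat_lit 0) (XT.nd (nat_lit 312) (nat_lit 1140) (nat_lit 0) (XT.nd (nat_lit 156) (nat_lit 380) (nat_lit 0) (XT.nd (nat_lit 78) (nat_lit 456) (nat_lit 0) (XT.lf (nat_lit 76) (nat_lit 621730545) (nat_lit 0) (nat_lit 6596982360) (nat_lit 456) (nat_lit 621730545) (nat_lit 188) (nat_lit 1) (nat_lit 187) (nat_lit 1) (nat_lit 193) (nat_lit 1) (nat_lit 324) (nat_lit 450) (nat_lit 366)) (XT.lf (nat_lit 76) (nat_lit 3614039301) (nat_lit 0) (nat_lit 552518674) (nat_lit 456) (nat_lit 3614039301) (nat_lit 182) (nat_lit 1) (nat_lit 181) (nat_lit 1) (nat_lit 187) (nat_lit 1) (nat_lit 325) (nat_lit 450) (nat_lit 365))) (XT.nd (nat_lit 78) (nat_lit 0) (nat_lit 0) (XT.lf (nat_lit 456) (nat_lit 5412709008) (nat_lit 0) (nat_lit 1154413304) (nat_lit 380) (nat_lit 1154413304) (nat_lit 182) (nat_lit 1) (nat_lit 176) (nat_lit 1) (nat_lit 181)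 (nat_lit 1) (nat_lit 326) (nat_lit 450) (nat_lit 364)) (XT.lf (nat_lit 76) (nat_lit 1798544570) (nat_lit 0) (nat_lit 4065840028) (nat_lit 456) (nat_lit 1798544570) (nat_lit 177) (nat_lit 1) (nat_lit 176) (nat_lit 1) (nat_lit 182) (nat_lit 1) (nat_lit 327) (nat_lit 450) (nat_lit 363)))) (XT.nd (nat_lit 156) (nat_lit 760) (nat_lit 0) (XT.nd (nat_lit 78) (nat_lit 0) (nat_lit 0) (XT.lf (nat_lit 456) (nat_lit 1790320716) (nat_lit 0) (nat_lit 2907313332) (nat_lit 380) (nat_lit 2907313332) (nat_lit 177) (nat_lit 1) (nat_lit 171) (nat_lit 1) (nat_lit 176) (nat_lit 1) (nat_lit 328) (nat_lit 450) (nat_lit 362)) (XT.lf (nat_lit 76) (nat_lit 3561347) (nat_lit 0) (nat_lit 7540747315) (nat_lit 456) (nat_lit 3561347) (nat_lit 172) (nat_lit 1) (nat_lit 171) (nat_lit 1) (nat_lit 177) (nat_lit 1) (nat_lit 329) (nat_lit 450) (nat_lit 361))) (XT.nd (nat_lit 78) (nat_lit 380) (nat_lit 0) (XT.lf (nat_lit 76) (nat_lit 2861735655) (nat_lit 0) (nat_lit 1767235213)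 (nat_lit 380) (nat_lit 2861735655) (nat_lit 167) (nat_lit 1) (nat_lit 166) (nat_lit 1) (nat_lit 171) (nat_lit 1) (nat_lit 330) (nat_lit 450) (nat_lit 360)) (XT.nd (nat_lit 78) (nat_lit 0) (nat_lit 0) (XT.lf (nat_lit 456) (nat_lit 3916279674) (nat_lit 0) (nat_lit 1759077212) (nat_lit 380) (nat_lit 1759077212) (nat_lit 167) (nat_lit 1) (nat_lit 161) (nat_lit 1) (nat_lit 166) (nat_lit 1) (nat_lit 331) (nat_lit 450) (nat_lit 359)) (XT.lf (nat_lit 76) (nat_lit 1059293770) (nat_lit 0) (nat_lit 5260168972) (nat_lit 456) (nat_lit 1059293770) (nat_lit 162) (nat_lit 1) (nat_lit 161) (nat_lit 1) (nat_lit 167) (nat_lit 1) (nat_lit 332) (nat_lit 450) (nat_lit 358)))))) (XT.nd (nat_lit 312) (nat_lit 988) (nat_lit 0) (XT.nd (nat_lit 156) (nat_lit 304) (nat_lit 0) (XT.nd (nat_lit 78) (nat_lit 456) (nat_lit 0) (XT.lf (nat_lit 380) (nat_lit 321537898) (nat_lit 0) (nat_lit 3500977095) (nat_lit 304) (nat_lit 3500977095) (nat_lit 162) (nat_lit 1) (nat_lit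 157) (nat_lit 1) (nat_lit 161) (nat_lit 1) (nat_lit 333) (nat_lit 450) (nat_lit 357)) (XT.lf (nat_lit 456) (nat_lit 5835978308) (nat_lit 0) (nat_lit 716457680) (nat_lit 380) (nat_lit 716457680) (nat_lit 157) (nat_lit 1) (nat_lit 151) (nat_lit 1) (nat_lit 156) (nat_lit 1) (nat_lit 334) (nat_lit 450) (nat_lit 356))) (XT.nd (nat_lit 78) (nat_lit 304) (nat_lit 0) (XT.lf (nat_lit 76) (nat_lit 2013921386) (nat_lit 0) (nat_lit 3186724278) (nat_lit 456) (nat_lit 2013921386) (nat_lit 152) (nat_lit 1) (nat_lit 151) (nat_lit 1) (nat_lit 157) (nat_lit 1) (nat_lit 335) (nat_lit 450) (nat_lit 355)) (XT.lf (nat_lit 380) (nat_lit 2234195585) (nat_lit 0) (nat_lit 2463349496) (nat_lit 304) (nat_lit 2463349496) (nat_lit 152) (nat_lit 1) (nat_lit 147) (nat_lit 1) (nat_lit 151) (nat_lit 1) (nat_lit 336) (nat_lit 450) (nat_lit 354)))) (XT.nd (nat_lit 156) (nat_lit 608) (nat_lit 0) (XT.nd (nat_lit 78) (nat_lit 380) (nat_lit 0) (XT.lf (nat_lit 76) (nat_lit 230460976)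 (nat_lit 0) (nat_lit 6647062434) (nat_lit 380) (nat_lit 230460976) (nat_lit 148) (nat_lit 1) (nat_lit 147) (nat_lit 1) (nat_lit 152) (nat_lit 1) (nat_lit 337) (nat_lit 450) (nat_lit 353)) (XT.lf (nat_lit 76) (nat_lit 2875549789) (nat_lit 0) (nat_lit 1303983033) (nat_lit 380) (nat_lit 2875549789) (nat_lit 143) (nat_lit 1) (nat_lit 142) (nat_lit 1) (nat_lit 147) (nat_lit 1) (nat_lit 338) (nat_lit 450) (nat_lit 352))) (XT.nd (nat_lit 78) (nat_lit 304) (nat_lit 0) (XT.lf (nat_lit 380) (nat_lit 3963212421) (nat_lit 0) (nat_lit 1519859870) (nat_lit 304) (nat_lit 1519859870) (nat_lit 143) (nat_lit 1) (nat_lit 138) (nat_lit 1) (nat_lit 142) (nat_lit 1) (nat_lit 339) (nat_lit 450) (nat_lit 351)) (XT.nd (nat_lit 78) (nat_lit 304) (nat_lit 0) (XT.lf (nat_lit 76) (nat_lit 1092067717) (nat_lit 0) (nat_lit 4767154198) (nat_lit 380) (nat_lit 1092067717) (nat_lit 139) (nat_lit 1) (nat_lit 138) (nat_lit 1) (nat_lit 143) (nat_lit 1) (nat_lit 340) (nat_lit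 450) (nat_lit 350)) (XT.lf (nat_lit 380) (nat_lit 408579455) (nat_lit 0) (nat_lit 3245732645) (nat_lit 304) (nat_lit 3245732645) (nat_lit 139) (nat_lit 1) (nat_lit 134) (nat_lit 1) (nat_lit 138) (nat_lit 1) (nat_lit 341) (nat_lit 450) (nat_lit 349))))))) (XT.nd (nat_lit 702) (nat_lit 1596) (nat_lit 0) (XT.nd (nat_lit 312) (nat_lit 1216) (nat_lit 0) (XT.nd (nat_lit 156) (nat_lit 304) (nat_lit 0) (XT.nd (nat_lit 78) (nat_lit 0) (nat_lit 0) (XT.lf (nat_lit 380) (nat_lit 5523318264) (nat_lit 0) (nat_lit 663042751) (nat_lit 304) (nat_lit 663042751) (nat_lit 134) (nat_lit 1) (nat_lit 129) (nat_lit 1) (nat_lit 133) (nat_lit 1) (nat_lit 342) (nat_lit 450) (nat_lit 348)) (XT.lf (nat_lit 76) (nat_lit 1870820783) (nat_lit 0) (nat_lit 3057344945) (nat_lit 380) (nat_lit 1870820783) (nat_lit 130) (nat_lit 1) (nat_lit 129) (nat_lit 1) (nat_lit 134) (nat_lit 1) (nat_lit 343) (nat_lit 450) (nat_lit 347))) (XT.nd (nat_lit 78) (nat_lit 0) (nat_lit 0) (XT.lf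 (nat_lit 380) (nat_lit 1974785596) (nat_lit 0) (nat_lit 2387188921) (nat_lit 304) (nat_lit 2387188921) (nat_lit 130) (nat_lit 1) (nat_lit 125) (nat_lit 1) (nat_lit 129) (nat_lit 1) (nat_lit 344) (nat_lit 450) (nat_lit 346)) (XT.lf (nat_lit 76) (nat_lit 114747904) (nat_lit 0) (nat_lit 6470565045) (nat_lit 380) (nat_lit 114747904) (nat_lit 126) (nat_lit 1) (nat_lit 125) (nat_lit 1) (nat_lit 130) (nat_lit 1) (nat_lit 345) (nat_lit 450) (nat_lit 345)))) (XT.nd (nat_lit 156) (nat_lit 608) (nat_lit 0) (XT.nd (nat_lit 78) (nat_lit 304) (nat_lit 0) (XT.lf (nat_lit 76) (nat_lit 2573367869) (nat_lit 0) (nat_lit 1504152717) (nat_lit 304) (nat_lit 2573367869) (nat_lit 122) (nat_lit 1) (nat_lit 121) (nat_lit 1) (nat_lit 125) (nat_lit 1) (nat_lit 346) (nat_lit 450) (nat_lit 344)) (XT.lf (nat_lit 380) (nat_lit 3390397950) (nat_lit 0) (nat_lit 1606014803) (nat_lit 304) (nat_lit 1606014803) (nat_lit 122) (nat_lit 1) (nat_lit 117) (nat_lit 1) (nat_lit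 121) (nat_lit 1) (nat_lit 347) (nat_lit 450) (nat_lit 343))) (XT.nd (nat_lit 78) (nat_lit 608) (nat_lit 0) (XT.lf (nat_lit 76) (nat_lit 823022595) (nat_lit 0) (nat_lit 4908431427) (nat_lit 380) (nat_lit 823022595) (nat_lit 118) (nat_lit 1) (nat_lit 117) (nat_lit 1) (nat_lit 122) (nat_lit 1) (nat_lit 348) (nat_lit 450) (nat_lit 342)) (XT.nd (nat_lit 78) (nat_lit 304) (nat_lit 0) (XT.lf (nat_lit 76) (nat_lit 3205843787) (nat_lit 0) (nat_lit 95132621) (nat_lit 304) (nat_lit 3205843787) (nat_lit 114) (nat_lit 1) (nat_lit 113) (nat_lit 1) (nat_lit 117) (nat_lit 1) (nat_lit 349) (nat_lit 450) (nat_lit 341)) (XT.lf (nat_lit 380) (nat_lit 4667499040) (nat_lit 0) (nat_lit 896083193) (nat_lit 304) (nat_lit 896083193) (nat_lit 114) (nat_lit 1) (nat_lit 109) (nat_lit 1) (nat_lit 113) (nat_lit 1) (nat_lit 350) (nat_lit 450) (nat_lit 340)))))) (XT.nd (nat_lit 390) (nat_lit 760) (nat_lit 0) (XT.nd (nat_lit 156) (nat_lit 608) (nat_lit 0) (XT.nd (nat_lit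 78) (nat_lit 228) (nat_lit 0) (XT.lf (nat_lit 76) (nat_lit 1463299845) (nat_lit 0) (nat_lit 3486229479) (nat_lit 380) (nat_lit 1463299845) (nat_lit 110) (nat_lit 1) (nat_lit 109) (nat_lit 1) (nat_lit 114) (nat_lit 1) (nat_lit 351) (nat_lit 450) (nat_lit 339)) (XT.lf (nat_lit 304) (nat_lit 1196899903) (nat_lit 0) (nat_lit 2584780824) (nat_lit 228) (nat_lit 2584780824) (nat_lit 110) (nat_lit 1) (nat_lit 106) (nat_lit 1) (nat_lit 109) (nat_lit 1) (nat_lit 352) (nat_lit 450) (nat_lit 338))) (XT.nd (nat_lit 78) (nat_lit 228) (nat_lit 0) (XT.lf (nat_lit 380) (nat_lit 5817239209) (nat_lit 0) (nat_lit 251738205) (nat_lit 304) (nat_lit 251738205) (nat_lit 106) (nat_lit 1) (nat_lit 101) (nat_lit 1) (nat_lit 105) (nat_lit 1) (nat_lit 353) (nat_lit 450) (nat_lit 337)) (XT.nd (nat_lit 78) (nat_lit 228) (nat_lit 0) (XT.lf (nat_lit 76) (nat_lit 2041033639) (nat_lit 0) (nat_lit 2192891625) (nat_lit 380) (nat_lit 2041033639) (nat_lit 102) (nat_lit 1)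 (nat_lit 101) (nat_lit 1) (nat_lit 106) (nat_lit 1) (nat_lit 354) (nat_lit 450) (nat_lit 336)) (XT.lf (nat_lit 304) (nat_lit 2366491407) (nat_lit 0) (nat_lit 1931662545) (nat_lit 228) (nat_lit 1931662545) (nat_lit 102) (nat_lit 1) (nat_lit 98) (nat_lit 1) (nat_lit 101) (nat_lit 1) (nat_lit 355) (nat_lit 450) (nat_lit 335))))) (XT.nd (nat_lit 156) (nat_lit 456) (nat_lit 0) (XT.nd (nat_lit 78) (nat_lit 304) (nat_lit 0) (XT.lf (nat_lit 76) (nat_lit 334441075) (nat_lit 0) (nat_lit 5516369789) (nat_lit 304) (nat_lit 334441075) (nat_lit 99) (nat_lit 1) (nat_lit 98) (nat_lit 1) (nat_lit 102) (nat_lit 1) (nat_lit 356) (nat_lit 450) (nat_lit 334)) (XT.lf (nat_lit 76) (nat_lit 2561257209) (nat_lit 0) (nat_lit 1018201198) (nat_lit 304) (nat_lit 2561257209) (nat_lit 95) (nat_lit 1) (nat_lit 94) (nat_lit 1) (nat_lit 98) (nat_lit 1) (nat_lit 357) (nat_lit 450) (nat_lit 333))) (XT.nd (nat_lit 78) (nat_lit 228) (nat_lit 0) (XT.lf (nat_lit 304) (nat_lit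 3422292758) (nat_lit 0) (nat_lit 1337228786) (nat_lit 228) (nat_lit 1337228786) (nat_lit 95) (nat_lit 1) (nat_lit 91) (nat_lit 1) (nat_lit 94) (nat_lit 1) (nat_lit 358) (nat_lit 450) (nat_lit 332)) (XT.nd (nat_lit 78) (nat_lit 228) (nat_lit 0) (XT.lf (nat_lit 76) (nat_lit 866372293) (nat_lit 0) (nat_lit 4320458124) (nat_lit 304) (nat_lit 866372293) (nat_lit 92) (nat_lit 1) (nat_lit 91) (nat_lit 1) (nat_lit 95) (nat_lit 1) (nat_lit 359) (nat_lit 450) (nat_lit 331)) (XT.lf (nat_lit 304) (nat_lit 47900745) (nat_lit 0) (nat_lit 2981025444) (nat_lit 228) (nat_lit 2981025444) (nat_lit 92) (nat_lit 1) (nat_lit 88) (nat_lit 1) (nat_lit 91) (nat_lit 1) (nat_lit 360) (nat_lit 450) (nat_lit 330))))))))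
noncomputable def ec252 : XT := (XT.nd (nat_lit 1404) (nat_lit 152) (nat_lit 0) (XT.nd (nat_lit 702) (nat_lit 1368) (nat_lit 0) (XT.nd (nat_lit 312) (nat_lit 684) (nat_lit 0) (XT.nd (nat_lit 156) (nat_lit 532) (nat_lit 0) (XT.nd (nat_lit 78) (nat_lit 0) (nat_lit 0) (XT.lf (nat_lit 304) (nat_lit 4373454311) (nat_lit 0) (nat_lit 796835030) (nat_lit 228) (nat_lit 796835030) (nat_lit 88) (nat_lit 1) (nat_lit 84) (nat_lit 1) (nat_lit 87) (nat_lit 1) (nat_lit 361) (nat_lit 450) (nat_lit 329)) (XT.lf (nat_lit 76) (nat_lit 1346865096) (nat_lit 0) (nat_lit 3230832660) (nat_lit 304) (nat_lit 1346865096) (nat_lit 85) (nat_lit 1) (nat_lit 84) (nat_lit 1) (nat_lit 88) (nat_lit 1) (nat_lit 362) (nat_lit 450) (nat_lit 328))) (XT.nd (nat_lit 78) (nat_lit 304) (nat_lit 0) (XT.lf (nat_lit 304) (nat_lit 1025686363) (nat_lit 0) (nat_lit 2428366368) (nat_lit 228) (nat_lit 2428366368) (nat_lit 85) (nat_lit 1) (nat_lit 81) (nat_lit 1) (nat_lit 84) (nat_lit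 1) (nat_lit 363) (nat_lit 450) (nat_lit 327)) (XT.lf (nat_lit 304) (nat_lit 5228420074) (nat_lit 0) (nat_lit 306193900) (nat_lit 228) (nat_lit 306193900) (nat_lit 81) (nat_lit 1) (nat_lit 77) (nat_lit 1) (nat_lit 80) (nat_lit 1) (nat_lit 364) (nat_lit 450) (nat_lit 326)))) (XT.nd (nat_lit 156) (nat_lit 456) (nat_lit 0) (XT.nd (nat_lit 78) (nat_lit 228) (nat_lit 0) (XT.lf (nat_lit 76) (nat_lit 1780051056) (nat_lit 0) (nat_lit 2239100939) (nat_lit 304) (nat_lit 1780051056) (nat_lit 78) (nat_lit 1) (nat_lit 77) (nat_lit 1) (nat_lit 81) (nat_lit 1) (nat_lit 365) (nat_lit 450) (nat_lit 325)) (XT.lf (nat_lit 304) (nat_lit 1909765340) (nat_lit 0) (nat_lit 1924179913) (nat_lit 228) (nat_lit 1924179913) (nat_lit 78) (nat_lit 1) (nat_lit 74) (nat_lit 1) (nat_lit 77) (nat_lit 1) (nat_lit 366) (nat_lit 450) (nat_lit 324))) (XT.nd (nat_lit 78) (nat_lit 456) (nat_lit 0) (XT.lf (nat_lit 76) (nat_lit 139570330) (nat_lit 0) (nat_lit 5438464083) (nat_lit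 304) (nat_lit 139570330) (nat_lit 75) (nat_lit 1) (nat_lit 74) (nat_lit 1) (nat_lit 78) (nat_lit 1) (nat_lit 367) (nat_lit 450) (nat_lit 323)) (XT.nd (nat_lit 78) (nat_lit 228) (nat_lit 0) (XT.lf (nat_lit 76) (nat_lit 2169742906) (nat_lit 0) (nat_lit 1337515478) (nat_lit 228) (nat_lit 2169742906) (nat_lit 72) (nat_lit 1) (nat_lit 71) (nat_lit 1) (nat_lit 74) (nat_lit 1) (nat_lit 368) (nat_lit 450) (nat_lit 322)) (XT.lf (nat_lit 304) (nat_lit 2707651195) (nat_lit 0) (nat_lit 1464649470) (nat_lit 228) (nat_lit 1464649470) (nat_lit 72) (nat_lit 1) (nat_lit 68) (nat_lit 1) (nat_lit 71) (nat_lit 1) (nat_lit 369) (nat_lit 450) (nat_lit 321)))))) (XT.nd (nat_lit 312) (nat_lit 912) (nat_lit 0) (XT.nd (nat_lit 156) (nat_lit 228) (nat_lit 0) (XT.nd (nat_lit 78) (nat_lit 228) (nat_lit 0) (XT.lf (nat_lit 76) (nat_lit 544940935) (nat_lit 0) (nat_lit 4507450831) (nat_lit 304) (nat_lit 544940935) (nat_lit 69) (nat_lit 1) (nat_lit 68) (nat_lit 1) (nat_lit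 72) (nat_lit 1) (nat_lit 370) (nat_lit 450) (nat_lit 320)) (XT.lf (nat_lit 76) (nat_lit 2519458903) (nat_lit 0) (nat_lit 518924535) (nat_lit 228) (nat_lit 2519458903) (nat_lit 66) (nat_lit 1) (nat_lit 65) (nat_lit 1) (nat_lit 68) (nat_lit 1) (nat_lit 371) (nat_lit 450) (nat_lit 319))) (XT.nd (nat_lit 78) (nat_lit 0) (nat_lit 0) (XT.lf (nat_lit 304) (nat_lit 3426277859) (nat_lit 0) (nat_lit 1046251536) (nat_lit 228) (nat_lit 1046251536) (nat_lit 66) (nat_lit 1) (nat_lit 62) (nat_lit 1) (nat_lit 65) (nat_lit 1) (nat_lit 372) (nat_lit 450) (nat_lit 318)) (XT.lf (nat_lit 76) (nat_lit 911283861) (nat_lit 0) (nat_lit 3657472796) (nat_lit 304) (nat_lit 911283861) (nat_lit 63) (nat_lit 1) (nat_lit 62) (nat_lit 1) (nat_lit 66) (nat_lit 1) (nat_lit 373) (nat_lit 450) (nat_lit 317)))) (XT.nd (nat_lit 156) (nat_lit 456) (nat_lit 0) (XT.nd (nat_lit 78) (nat_lit 304) (nat_lit 0) (XT.lf (nat_lit 228) (nat_lit 226240560) (nat_lit 0) (nat_lit 2607673675)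 (nat_lit 152) (nat_lit 2607673675) (nat_lit 63) (nat_lit 1) (nat_lit 60) (nat_lit 1) (nat_lit 62) (nat_lit 1) (nat_lit 374) (nat_lit 450) (nat_lit 316)) (XT.lf (nat_lit 304) (nat_lit 4072043959) (nat_lit 0) (nat_lit 665733345) (nat_lit 228) (nat_lit 665733345) (nat_lit 60) (nat_lit 1) (nat_lit 56) (nat_lit 1) (nat_lit 59) (nat_lit 1) (nat_lit 375) (nat_lit 450) (nat_lit 315))) (XT.nd (nat_lit 78) (nat_lit 456) (nat_lit 0) (XT.lf (nat_lit 76) (nat_lit 1241731182) (nat_lit 0) (nat_lit 2882160066) (nat_lit 304) (nat_lit 1241731182) (nat_lit 57) (nat_lit 1) (nat_lit 56) (nat_lit 1) (nat_lit 60) (nat_lit 1) (nat_lit 376) (nat_lit 450) (nat_lit 314)) (XT.nd (nat_lit 78) (nat_lit 304) (nat_lit 0) (XT.lf (nat_lit 228) (nat_lit 907067849) (nat_lit 0) (nat_lit 2210518737) (nat_lit 152) (nat_lit 2210518737) (nat_lit 57) (nat_lit 1) (nat_lit 54) (nat_lit 1) (nat_lit 56) (nat_lit 1) (nat_lit 377) (nat_lit 450) (nat_lit 313)) (XT.lf (nat_lit 304) (nat_lit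 4650853726) (nat_lit 0) (nat_lit 320092205) (nat_lit 228) (nat_lit 320092205) (nat_lit 54) (nat_lit 1) (nat_lit 50) (nat_lit 1) (nat_lit 53) (nat_lit 1) (nat_lit 378) (nat_lit 450) (nat_lit 312))))))) (XT.nd (nat_lit 54912) (nat_lit 0) (nat_lit 8588) (XT.nd (nat_lit 54522) (nat_lit 0) (nat_lit 10564) (XT.nd (nat_lit 54366) (nat_lit 0) (nat_lit 11856) (XT.nd (nat_lit 78) (nat_lit 152) (nat_lit 0) (XT.lf (nat_lit 76) (nat_lit 1539173315) (nat_lit 0) (nat_lit 2175631720) (nat_lit 304) (nat_lit 1539173315) (nat_lit 51) (nat_lit 1) (nat_lit 50) (nat_lit 1) (nat_lit 54) (nat_lit 1) (nat_lit 379) (nat_lit 450) (nat_lit 311)) (XT.lf (nat_lit 228) (nat_lit 1522359642) (nat_lit 0) (nat_lit 1847502467) (nat_lit 152) (nat_lit 1847502467) (nat_lit 51) (nat_lit 1) (nat_lit 48) (nat_lit 1) (nat_lit 50) (nat_lit 1) (nat_lit 380) (nat_lit 450) (nat_lit 310))) (XT.nd (nat_lit 78) (nat_lit 456) (nat_lit 0) (XT.lf (nat_lit 76) (nat_lit 2968224496) (nat_lit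 0) (nat_lit 2504394281) (nat_lit 532) (nat_lit 2968224496) (nat_lit 211) (nat_lit 1) (nat_lit 210) (nat_lit 1) (nat_lit 217) (nat_lit 1) (nat_lit 315) (nat_lit 451) (nat_lit 374)) (XT.lf (nat_lit 532) (nat_lit 4093086958) (nat_lit 0) (nat_lit 2141217359) (nat_lit 456) (nat_lit 2141217359) (nat_lit 211) (nat_lit 1) (nat_lit 204) (nat_lit 1) (nat_lit 210) (nat_lit 1) (nat_lit 316) (nat_lit 451) (nat_lit 373)))) (XT.nd (nat_lit 156) (nat_lit 912) (nat_lit 0) (XT.nd (nat_lit 78) (nat_lit 380) (nat_lit 0) (XT.lf (nat_lit 76) (nat_lit 1129381371) (nat_lit 0) (nat_lit 6052186653) (nat_lit 532) (nat_lit 1129381371) (nat_lit 205) (nat_lit 1) (nat_lit 204) (nat_lit 1) (nat_lit 211) (nat_lit 1) (nat_lit 317) (nat_lit 451) (nat_lit 372)) (XT.lf (nat_lit 456) (nat_lit 420588649) (nat_lit 0) (nat_lit 3913136931) (nat_lit 380) (nat_lit 3913136931) (nat_lit 205) (nat_lit 1) (nat_lit 199) (nat_lit 1) (nat_lit 204) (nat_lit 1) (nat_lit 318) (nat_lit 451)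 (nat_lit 371))) (XT.nd (nat_lit 78) (nat_lit 380) (nat_lit 0) (XT.lf (nat_lit 532) (nat_lit 6808396146) (nat_lit 0) (nat_lit 687610373) (nat_lit 456) (nat_lit 687610373) (nat_lit 199) (nat_lit 1) (nat_lit 192) (nat_lit 1) (nat_lit 198) (nat_lit 1) (nat_lit 319) (nat_lit 451) (nat_lit 370)) (XT.nd (nat_lit 78) (nat_lit 380) (nat_lit 0) (XT.lf (nat_lit 76) (nat_lit 2473029433) (nat_lit 0) (nat_lit 3174614880) (nat_lit 532) (nat_lit 2473029433) (nat_lit 193) (nat_lit 1) (nat_lit 192) (nat_lit 1) (nat_lit 199) (nat_lit 1) (nat_lit 320) (nat_lit 451) (nat_lit 369)) (XT.lf (nat_lit 456) (nat_lit 3099352381) (nat_lit 0) (nat_lit 2479601439) (nat_lit 380) (nat_lit 2479601439) (nat_lit 193) (nat_lit 1) (nat_lit 187) (nat_lit 1) (nat_lit 192) (nat_lit 1) (nat_lit 321) (nat_lit 451) (nat_lit 368)))))) (XT.nd (nat_lit 312) (nat_lit 1140) (nat_lit 0) (XT.nd (nat_lit 156) (nat_lit 380) (nat_lit 0) (XT.nd (nat_lit 78) (nat_lit 456) (nat_lit 0) (XT.lf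 (nat_lit 76) (nat_lit 634165156) (nat_lit 0) (nat_lit 6728922007) (nat_lit 456) (nat_lit 634165156) (nat_lit 188) (nat_lit 1) (nat_lit 187) (nat_lit 1) (nat_lit 193) (nat_lit 1) (nat_lit 322) (nat_lit 451) (nat_lit 367)) (XT.lf (nat_lit 76) (nat_lit 3686320087) (nat_lit 0) (nat_lit 563569047) (nat_lit 456) (nat_lit 3686320087) (nat_lit 182) (nat_lit 1) (nat_lit 181) (nat_lit 1) (nat_lit 187) (nat_lit 1) (nat_lit 323) (nat_lit 451) (nat_lit 366))) (XT.nd (nat_lit 78) (nat_lit 0) (nat_lit 0) (XT.lf (nat_lit 456) (nat_lit 5520963188) (nat_lit 0) (nat_lit 1177501570) (nat_lit 380) (nat_lit 1177501570) (nat_lit 182) (nat_lit 1) (nat_lit 176) (nat_lit 1) (nat_lit 181) (nat_lit 1) (nat_lit 324) (nat_lit 451) (nat_lit 365)) (XT.lf (nat_lit 76) (nat_lit 1834515462) (nat_lit 0) (nat_lit 4147156829) (nat_lit 456) (nat_lit 1834515462) (nat_lit 177) (nat_lit 1) (nat_lit 176) (nat_lit 1) (nat_lit 182) (nat_lit 1) (nat_lit 325) (nat_lit 451) (nat_lit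 364)))) (XT.nd (nat_lit 156) (nat_lit 760) (nat_lit 0) (XT.nd (nat_lit 78) (nat_lit 0) (nat_lit 0) (XT.lf (nat_lit 456) (nat_lit 1826127130) (nat_lit 0) (nat_lit 2965459598) (nat_lit 380) (nat_lit 2965459598) (nat_lit 177) (nat_lit 1) (nat_lit 171) (nat_lit 1) (nat_lit 176) (nat_lit 1) (nat_lit 326) (nat_lit 451) (nat_lit 363)) (XT.lf (nat_lit 76) (nat_lit 3632574) (nat_lit 0) (nat_lit 7691562261) (nat_lit 456) (nat_lit 3632574) (nat_lit 172) (nat_lit 1) (nat_lit 171) (nat_lit 1) (nat_lit 177) (nat_lit 1) (nat_lit 327) (nat_lit 451) (nat_lit 362))) (XT.nd (nat_lit 78) (nat_lit 380) (nat_lit 0) (XT.lf (nat_lit 76) (nat_lit 2918970368) (nat_lit 0) (nat_lit 1802579917) (nat_lit 380) (nat_lit 2918970368) (nat_lit 167) (nat_lit 1) (nat_lit 166) (nat_lit 1) (nat_lit 171) (nat_lit 1) (nat_lit 328) (nat_lit 451) (nat_lit 361)) (XT.nd (nat_lit 78) (nat_lit 0) (nat_lit 0) (XT.lf (nat_lit 456) (nat_lit 3994605267) (nat_lit 0) (nat_lit 1794258756)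 (nat_lit 380) (nat_lit 1794258756) (nat_lit 167) (nat_lit 1) (nat_lit 161) (nat_lit 1) (nat_lit 166) (nat_lit 1) (nat_lit 329) (nat_lit 451) (nat_lit 360)) (XT.lf (nat_lit 76) (nat_lit 1080479645) (nat_lit 0) (nat_lit 5365372352) (nat_lit 456) (nat_lit 1080479645) (nat_lit 162) (nat_lit 1) (nat_lit 161) (nat_lit 1) (nat_lit 167) (nat_lit 1) (nat_lit 330) (nat_lit 451) (nat_lit 359))))))))
noncomputable def ec253 : XT := (XT.nd (nat_lit 1404) (nat_lit 3116) (nat_lit 0) (XT.nd (nat_lit 702) (nat_lit 1900) (nat_lit 0) (XT.nd (nat_lit 312) (nat_lit 988) (nat_lit 0) (XT.nd (nat_lit 156) (nat_lit 304) (nat_lit 0) (XT.nd (nat_lit 78) (nat_lit 456) (nat_lit 0) (XT.lf (nat_lit 380) (nat_lit 327968656) (nat_lit 0) (nat_lit 3570996637) (nat_lit 304) (nat_lit 3570996637) (nat_lit 162) (nat_lit 1) (nat_lit 157) (nat_lit 1) (nat_lit 161) (nat_lit 1) (nat_lit 331) (nat_lit 451) (nat_lit 358)) (XT.lf (nat_lit 456) (nat_lit 5952697874) (nat_lit 0) (nat_lit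 730786834) (nat_lit 380) (nat_lit 730786834) (nat_lit 157) (nat_lit 1) (nat_lit 151) (nat_lit 1) (nat_lit 156) (nat_lit 1) (nat_lit 332) (nat_lit 451) (nat_lit 357))) (XT.nd (nat_lit 78) (nat_lit 304) (nat_lit 0) (XT.lf (nat_lit 76) (nat_lit 2054199814) (nat_lit 0) (nat_lit 3250458763) (nat_lit 456) (nat_lit 2054199814) (nat_lit 152) (nat_lit 1) (nat_lit 151) (nat_lit 1) (nat_lit 157) (nat_lit 1) (nat_lit 333) (nat_lit 451) (nat_lit 356)) (XT.lf (nat_lit 380) (nat_lit 2278879497) (nat_lit 0) (nat_lit 2512616485) (nat_lit 304) (nat_lit 2512616485) (nat_lit 152) (nat_lit 1) (nat_lit 147) (nat_lit 1) (nat_lit 151) (nat_lit 1) (nat_lit 334) (nat_lit 451) (nat_lit 355)))) (XT.nd (nat_lit 156) (nat_lit 608) (nat_lit 0) (XT.nd (nat_lit 78) (nat_lit 380) (nat_lit 0) (XT.lf (nat_lit 76) (nat_lit 235070196) (nat_lit 0) (nat_lit 6780003683) (nat_lit 380) (nat_lit 235070196) (nat_lit 148) (nat_lit 1) (nat_lit 147) (nat_lit 1) (nat_lit 152) (nat_lit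 1) (nat_lit 335) (nat_lit 451) (nat_lit 354)) (XT.lf (nat_lit 76) (nat_lit 2933060785) (nat_lit 0) (nat_lit 1330062693) (nat_lit 380) (nat_lit 2933060785) (nat_lit 143) (nat_lit 1) (nat_lit 142) (nat_lit 1) (nat_lit 147) (nat_lit 1) (nat_lit 336) (nat_lit 451) (nat_lit 353))) (XT.nd (nat_lit 78) (nat_lit 304) (nat_lit 0) (XT.lf (nat_lit 380) (nat_lit 4042476669) (nat_lit 0) (nat_lit 1550257067) (nat_lit 304) (nat_lit 1550257067) (nat_lit 143) (nat_lit 1) (nat_lit 138) (nat_lit 1) (nat_lit 142) (nat_lit 1) (nat_lit 337) (nat_lit 451) (nat_lit 352)) (XT.nd (nat_lit 78) (nat_lit 304) (nat_lit 0) (XT.lf (nat_lit 76) (nat_lit 1113909071) (nat_lit 0) (nat_lit 4862497282) (nat_lit 380) (nat_lit 1113909071) (nat_lit 139) (nat_lit 1) (nat_lit 138) (nat_lit 1) (nat_lit 143) (nat_lit 1) (nat_lit 338) (nat_lit 451) (nat_lit 351)) (XT.lf (nat_lit 380) (nat_lit 416751044) (nat_lit 0) (nat_lit 3310647298) (nat_lit 304) (nat_lit 3310647298) (nat_lit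 139) (nat_lit 1) (nat_lit 134) (nat_lit 1) (nat_lit 138) (nat_lit 1) (nat_lit 339) (nat_lit 451) (nat_lit 350)))))) (XT.nd (nat_lit 312) (nat_lit 1216) (nat_lit 0) (XT.nd (nat_lit 156) (nat_lit 304) (nat_lit 0) (XT.nd (nat_lit 78) (nat_lit 0) (nat_lit 0) (XT.lf (nat_lit 380) (nat_lit 5633784629) (nat_lit 0) (nat_lit 676303606) (nat_lit 304) (nat_lit 676303606) (nat_lit 134) (nat_lit 1) (nat_lit 129) (nat_lit 1) (nat_lit 133) (nat_lit 1) (nat_lit 340) (nat_lit 451) (nat_lit 349)) (XT.lf (nat_lit 76) (nat_lit 1908237199) (nat_lit 0) (nat_lit 3118491844) (nat_lit 380) (nat_lit 1908237199) (nat_lit 130) (nat_lit 1) (nat_lit 129) (nat_lit 1) (nat_lit 134) (nat_lit 1) (nat_lit 341) (nat_lit 451) (nat_lit 348))) (XT.nd (nat_lit 78) (nat_lit 0) (nat_lit 0) (XT.lf (nat_lit 380) (nat_lit 2014281308) (nat_lit 0) (nat_lit 2434932699) (nat_lit 304) (nat_lit 2434932699) (nat_lit 130) (nat_lit 1) (nat_lit 125) (nat_lit 1) (nat_lit 129) (nat_lit 1) (nat_lit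 342) (nat_lit 451) (nat_lit 347)) (XT.lf (nat_lit 76) (nat_lit 117042863) (nat_lit 0) (nat_lit 6599976345) (nat_lit 380) (nat_lit 117042863) (nat_lit 126) (nat_lit 1) (nat_lit 125) (nat_lit 1) (nat_lit 130) (nat_lit 1) (nat_lit 343) (nat_lit 451) (nat_lit 346)))) (XT.nd (nat_lit 156) (nat_lit 608) (nat_lit 0) (XT.nd (nat_lit 78) (nat_lit 304) (nat_lit 0) (XT.lf (nat_lit 76) (nat_lit 2624835226) (nat_lit 0) (nat_lit 1534235771) (nat_lit 304) (nat_lit 2624835226) (nat_lit 122) (nat_lit 1) (nat_lit 121) (nat_lit 1) (nat_lit 125) (nat_lit 1) (nat_lit 344) (nat_lit 451) (nat_lit 345)) (XT.lf (nat_lit 380) (nat_lit 3458205909) (nat_lit 0) (nat_lit 1638135099) (nat_lit 304) (nat_lit 1638135099) (nat_lit 122) (nat_lit 1) (nat_lit 117) (nat_lit 1) (nat_lit 121) (nat_lit 1) (nat_lit 345) (nat_lit 451) (nat_lit 344))) (XT.nd (nat_lit 78) (nat_lit 608) (nat_lit 0) (XT.lf (nat_lit 76) (nat_lit 839483047) (nat_lit 0) (nat_lit 5006600056) (nat_lit 380)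 (nat_lit 839483047) (nat_lit 118) (nat_lit 1) (nat_lit 117) (nat_lit 1) (nat_lit 122) (nat_lit 1) (nat_lit 346) (nat_lit 451) (nat_lit 343)) (XT.nd (nat_lit 78) (nat_lit 304) (nat_lit 0) (XT.lf (nat_lit 76) (nat_lit 3269960663) (nat_lit 0) (nat_lit 97035273) (nat_lit 304) (nat_lit 3269960663) (nat_lit 114) (nat_lit 1) (nat_lit 113) (nat_lit 1) (nat_lit 117) (nat_lit 1) (nat_lit 347) (nat_lit 451) (nat_lit 342)) (XT.lf (nat_lit 380) (nat_lit 4760849021) (nat_lit 0) (nat_lit 914004857) (nat_lit 304) (nat_lit 914004857) (nat_lit 114) (nat_lit 1) (nat_lit 109) (nat_lit 1) (nat_lit 113) (nat_lit 1) (nat_lit 348) (nat_lit 451) (nat_lit 341))))))) (XT.nd (nat_lit 702) (nat_lit 1748) (nat_lit 0) (XT.nd (nat_lit 312) (nat_lit 760) (nat_lit 0) (XT.nd (nat_lit 156) (nat_lit 380) (nat_lit 0) (XT.nd (nat_lit 78) (nat_lit 228) (nat_lit 0) (XT.lf (nat_lit 76) (nat_lit 1492565842) (nat_lit 0) (nat_lit 3555954069) (nat_lit 380) (nat_lit 1492565842) (nat_lit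 110) (nat_lit 1) (nat_lit 109) (nat_lit 1) (nat_lit 114) (nat_lit 1) (nat_lit 349) (nat_lit 451) (nat_lit 340)) (XT.lf (nat_lit 304) (nat_lit 1220837902) (nat_lit 0) (nat_lit 2636476441) (nat_lit 228) (nat_lit 2636476441) (nat_lit 110) (nat_lit 1) (nat_lit 106) (nat_lit 1) (nat_lit 109) (nat_lit 1) (nat_lit 350) (nat_lit 451) (nat_lit 339))) (XT.nd (nat_lit 78) (nat_lit 0) (nat_lit 0) (XT.lf (nat_lit 380) (nat_lit 5933583993) (nat_lit 0) (nat_lit 256772969) (nat_lit 304) (nat_lit 256772969) (nat_lit 106) (nat_lit 1) (nat_lit 101) (nat_lit 1) (nat_lit 105) (nat_lit 1) (nat_lit 351) (nat_lit 451) (nat_lit 338)) (XT.lf (nat_lit 76) (nat_lit 2081854311) (nat_lit 0) (nat_lit 2236749457) (nat_lit 380) (nat_lit 2081854311) (nat_lit 102) (nat_lit 1) (nat_lit 101) (nat_lit 1) (nat_lit 106) (nat_lit 1) (nat_lit 352) (nat_lit 451) (nat_lit 337)))) (XT.nd (nat_lit 156) (nat_lit 532) (nat_lit 0) (XT.nd (nat_lit 78) (nat_lit 0) (nat_lit 0) (XT.lf (nat_lit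 304) (nat_lit 2413821235) (nat_lit 0) (nat_lit 1970295795) (nat_lit 228) (nat_lit 1970295795) (nat_lit 102) (nat_lit 1) (nat_lit 98) (nat_lit 1) (nat_lit 101) (nat_lit 1) (nat_lit 353) (nat_lit 451) (nat_lit 336)) (XT.lf (nat_lit 76) (nat_lit 341129896) (nat_lit 0) (nat_lit 5626697185) (nat_lit 304) (nat_lit 341129896) (nat_lit 99) (nat_lit 1) (nat_lit 98) (nat_lit 1) (nat_lit 102) (nat_lit 1) (nat_lit 354) (nat_lit 451) (nat_lit 335))) (XT.nd (nat_lit 78) (nat_lit 228) (nat_lit 0) (XT.lf (nat_lit 76) (nat_lit 2612482353) (nat_lit 0) (nat_lit 1038565222) (nat_lit 304) (nat_lit 2612482353) (nat_lit 95) (nat_lit 1) (nat_lit 94) (nat_lit 1) (nat_lit 98) (nat_lit 1) (nat_lit 355) (nat_lit 451) (nat_lit 334)) (XT.nd (nat_lit 78) (nat_lit 0) (nat_lit 0) (XT.lf (nat_lit 304) (nat_lit 3490738613) (nat_lit 0) (nat_lit 1363973361) (nat_lit 228) (nat_lit 1363973361) (nat_lit 95) (nat_lit 1) (nat_lit 91) (nat_lit 1) (nat_lit 94) (nat_lit 1) (nat_lit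 356) (nat_lit 451) (nat_lit 333)) (XT.lf (nat_lit 76) (nat_lit 883699739) (nat_lit 0) (nat_lit 4406867287) (nat_lit 304) (nat_lit 883699739) (nat_lit 92) (nat_lit 1) (nat_lit 91) (nat_lit 1) (nat_lit 95) (nat_lit 1) (nat_lit 357) (nat_lit 451) (nat_lit 332)))))) (XT.nd (nat_lit 390) (nat_lit 684) (nat_lit 0) (XT.nd (nat_lit 156) (nat_lit 532) (nat_lit 0) (XT.nd (nat_lit 78) (nat_lit 304) (nat_lit 0) (XT.lf (nat_lit 304) (nat_lit 48858760) (nat_lit 0) (nat_lit 3040645953) (nat_lit 228) (nat_lit 3040645953) (nat_lit 92) (nat_lit 1) (nat_lit 88) (nat_lit 1) (nat_lit 91) (nat_lit 1) (nat_lit 358) (nat_lit 451) (nat_lit 331)) (XT.lf (nat_lit 304) (nat_lit 4460923397) (nat_lit 0) (nat_lit 812771730) (nat_lit 228) (nat_lit 812771730) (nat_lit 88) (nat_lit 1) (nat_lit 84) (nat_lit 1) (nat_lit 87) (nat_lit 1) (nat_lit 359) (nat_lit 451) (nat_lit 330))) (XT.nd (nat_lit 78) (nat_lit 532) (nat_lit 0) (XT.lf (nat_lit 76) (nat_lit 1373802398) (nat_lit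 0) (nat_lit 3295449313) (nat_lit 304) (nat_lit 1373802398) (nat_lit 85) (nat_lit 1) (nat_lit 84) (nat_lit 1) (nat_lit 88) (nat_lit 1) (nat_lit 360) (nat_lit 451) (nat_lit 329)) (XT.nd (nat_lit 78) (nat_lit 304) (nat_lit 0) (XT.lf (nat_lit 304) (nat_lit 1046200090) (nat_lit 0) (nat_lit 2476933695) (nat_lit 228) (nat_lit 2476933695) (nat_lit 85) (nat_lit 1) (nat_lit 81) (nat_lit 1) (nat_lit 84) (nat_lit 1) (nat_lit 361) (nat_lit 451) (nat_lit 328)) (XT.lf (nat_lit 304) (nat_lit 5332988476) (nat_lit 0) (nat_lit 312317778) (nat_lit 228) (nat_lit 312317778) (nat_lit 81) (nat_lit 1) (nat_lit 77) (nat_lit 1) (nat_lit 80) (nat_lit 1) (nat_lit 362) (nat_lit 451) (nat_lit 327))))) (XT.nd (nat_lit 156) (nat_lit 456) (nat_lit 0) (XT.nd (nat_lit 78) (nat_lit 228) (nat_lit 0) (XT.lf (nat_lit 76) (nat_lit 1815652077) (nat_lit 0) (nat_lit 2283882958) (nat_lit 304) (nat_lit 1815652077) (nat_lit 78) (nat_lit 1) (nat_lit 77) (nat_lit 1) (nat_lit 81) (nat_lit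 1) (nat_lit 363) (nat_lit 451) (nat_lit 326)) (XT.lf (nat_lit 304) (nat_lit 1947960647) (nat_lit 0) (nat_lit 1962663512) (nat_lit 228) (nat_lit 1962663512) (nat_lit 78) (nat_lit 1) (nat_lit 74) (nat_lit 1) (nat_lit 77) (nat_lit 1) (nat_lit 364) (nat_lit 451) (nat_lit 325))) (XT.nd (nat_lit 78) (nat_lit 456) (nat_lit 0) (XT.lf (nat_lit 76) (nat_lit 142361736) (nat_lit 0) (nat_lit 5547233365) (nat_lit 304) (nat_lit 142361736) (nat_lit 75) (nat_lit 1) (nat_lit 74) (nat_lit 1) (nat_lit 78) (nat_lit 1) (nat_lit 365) (nat_lit 451) (nat_lit 324)) (XT.nd (nat_lit 78) (nat_lit 228) (nat_lit 0) (XT.lf (nat_lit 76) (nat_lit 2213137764) (nat_lit 0) (nat_lit 1364265788) (nat_lit 228) (nat_lit 2213137764) (nat_lit 72) (nat_lit 1) (nat_lit 71) (nat_lit 1) (nat_lit 74) (nat_lit 1) (nat_lit 366) (nat_lit 451) (nat_lit 323)) (XT.lf (nat_lit 304) (nat_lit 2761804219) (nat_lit 0) (nat_lit 1493942460) (nat_lit 228) (nat_lit 1493942460) (nat_lit 72) (nat_lit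 1) (nat_lit 68) (nat_lit 1) (nat_lit 71) (nat_lit 1) (nat_lit 367) (nat_lit 451) (nat_lit 322))))))))
noncomputable def ec254 : XT := (XT.nd (nat_lit 56628) (nat_lit 0) (nat_lit 3192) (XT.nd (nat_lit 55926) (nat_lit 0) (nat_lit 6916) (XT.nd (nat_lit 312) (nat_lit 456) (nat_lit 0) (XT.nd (nat_lit 156) (nat_lit 228) (nat_lit 0) (XT.nd (nat_lit 78) (nat_lit 228) (nat_lit 0) (XT.lf (nat_lit 76) (nat_lit 555839753) (nat_lit 0) (nat_lit 4597599847) (nat_lit 304) (nat_lit 555839753) (nat_lit 69) (nat_lit 1) (nat_lit 68) (nat_lit 1) (nat_lit 72) (nat_lit 1) (nat_lit 368) (nat_lit 451) (nat_lit 321)) (XT.lf (nat_lit 76) (nat_lit 2569848081) (nat_lit 0) (nat_lit 529303026) (nat_lit 228) (nat_lit 2569848081) (nat_lit 66) (nat_lit 1) (nat_lit 65) (nat_lit 1) (nat_lit 68) (nat_lit 1) (nat_lit 369) (nat_lit 451) (nat_lit 320))) (XT.nd (nat_lit 78) (nat_lit 0) (nat_lit 0) (XT.lf (nat_lit 304) (nat_lit 3494803416) (nat_lit 0) (nat_lit 1067176566) (nat_lit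 228) (nat_lit 1067176566) (nat_lit 66) (nat_lit 1) (nat_lit 62) (nat_lit 1) (nat_lit 65) (nat_lit 1) (nat_lit 370) (nat_lit 451) (nat_lit 319)) (XT.lf (nat_lit 76) (nat_lit 929509538) (nat_lit 0) (nat_lit 3730622252) (nat_lit 304) (nat_lit 929509538) (nat_lit 63) (nat_lit 1) (nat_lit 62) (nat_lit 1) (nat_lit 66) (nat_lit 1) (nat_lit 371) (nat_lit 451) (nat_lit 318)))) (XT.nd (nat_lit 156) (nat_lit 0) (nat_lit 0) (XT.nd (nat_lit 78) (nat_lit 304) (nat_lit 0) (XT.lf (nat_lit 228) (nat_lit 230765371) (nat_lit 0) (nat_lit 2659827149) (nat_lit 152) (nat_lit 2659827149) (nat_lit 63) (nat_lit 1) (nat_lit 60) (nat_lit 1) (nat_lit 62) (nat_lit 1) (nat_lit 372) (nat_lit 451) (nat_lit 317)) (XT.lf (nat_lit 304) (nat_lit 4153484838) (nat_lit 0) (nat_lit 679048012) (nat_lit 228) (nat_lit 679048012) (nat_lit 60) (nat_lit 1) (nat_lit 56) (nat_lit 1) (nat_lit 59) (nat_lit 1) (nat_lit 373) (nat_lit 451) (nat_lit 316))) (XT.nd (nat_lit 55302) (nat_lit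 0) (nat_lit 9120) (XT.lf (nat_lit 76) (nat_lit 1266565806) (nat_lit 0) (nat_lit 2939803268) (nat_lit 304) (nat_lit 1266565806) (nat_lit 57) (nat_lit 1) (nat_lit 56) (nat_lit 1) (nat_lit 60) (nat_lit 1) (nat_lit 374) (nat_lit 451) (nat_lit 315)) (XT.nd (nat_lit 78) (nat_lit 0) (nat_lit 0) (XT.lf (nat_lit 456) (nat_lit 5631382452) (nat_lit 0) (nat_lit 1201051601) (nat_lit 380) (nat_lit 1201051601) (nat_lit 182) (nat_lit 1) (nat_lit 176) (nat_lit 1) (nat_lit 181) (nat_lit 1) (nat_lit 322) (nat_lit 452) (nat_lit 366)) (XT.lf (nat_lit 76) (nat_lit 1871205771) (nat_lit 0) (nat_lit 4230099966) (nat_lit 456) (nat_lit 1871205771) (nat_lit 177) (nat_lit 1) (nat_lit 176) (nat_lit 1) (nat_lit 182) (nat_lit 1) (nat_lit 323) (nat_lit 452) (nat_lit 365)))))) (XT.nd (nat_lit 312) (nat_lit 1064) (nat_lit 0) (XT.nd (nat_lit 156) (nat_lit 760) (nat_lit 0) (XT.nd (nat_lit 78) (nat_lit 0) (nat_lit 0) (XT.lf (nat_lit 456) (nat_lit 1862649673) (nat_lit 0) (nat_lit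 3024768790) (nat_lit 380) (nat_lit 3024768790) (nat_lit 177) (nat_lit 1) (nat_lit 171) (nat_lit 1) (nat_lit 176) (nat_lit 1) (nat_lit 324) (nat_lit 452) (nat_lit 364)) (XT.lf (nat_lit 76) (nat_lit 3705225) (nat_lit 0) (nat_lit 7845393506) (nat_lit 456) (nat_lit 3705225) (nat_lit 172) (nat_lit 1) (nat_lit 171) (nat_lit 1) (nat_lit 177) (nat_lit 1) (nat_lit 325) (nat_lit 452) (nat_lit 363))) (XT.nd (nat_lit 78) (nat_lit 380) (nat_lit 0) (XT.lf (nat_lit 76) (nat_lit 2977349775) (nat_lit 0) (nat_lit 1838631516) (nat_lit 380) (nat_lit 2977349775) (nat_lit 167) (nat_lit 1) (nat_lit 166) (nat_lit 1) (nat_lit 171) (nat_lit 1) (nat_lit 326) (nat_lit 452) (nat_lit 362)) (XT.lf (nat_lit 456) (nat_lit 4074497372) (nat_lit 0) (nat_lit 1830143931) (nat_lit 380) (nat_lit 1830143931) (nat_lit 167) (nat_lit 1) (nat_lit 161) (nat_lit 1) (nat_lit 166) (nat_lit 1) (nat_lit 327) (nat_lit 452) (nat_lit 361)))) (XT.nd (nat_lit 156) (nat_lit 760) (nat_lit 0)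 (XT.nd (nat_lit 78) (nat_lit 304) (nat_lit 0) (XT.lf (nat_lit 76) (nat_lit 1102089238) (nat_lit 0) (nat_lit 5472679799) (nat_lit 456) (nat_lit 1102089238) (nat_lit 162) (nat_lit 1) (nat_lit 161) (nat_lit 1) (nat_lit 167) (nat_lit 1) (nat_lit 328) (nat_lit 452) (nat_lit 360)) (XT.lf (nat_lit 380) (nat_lit 334528029) (nat_lit 0) (nat_lit 3642416570) (nat_lit 304) (nat_lit 3642416570) (nat_lit 162) (nat_lit 1) (nat_lit 157) (nat_lit 1) (nat_lit 161) (nat_lit 1) (nat_lit 329) (nat_lit 452) (nat_lit 359))) (XT.nd (nat_lit 78) (nat_lit 304) (nat_lit 0) (XT.lf (nat_lit 456) (nat_lit 6071751831) (nat_lit 0) (nat_lit 745402571) (nat_lit 380) (nat_lit 745402571) (nat_lit 157) (nat_lit 1) (nat_lit 151) (nat_lit 1) (nat_lit 156) (nat_lit 1) (nat_lit 330) (nat_lit 452) (nat_lit 358)) (XT.nd (nat_lit 78) (nat_lit 304) (nat_lit 0) (XT.lf (nat_lit 76) (nat_lit 2095283810) (nat_lit 0) (nat_lit 3315467939) (nat_lit 456) (nat_lit 2095283810) (nat_lit 152)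 (nat_lit 1) (nat_lit 151) (nat_lit 1) (nat_lit 157) (nat_lit 1) (nat_lit 331) (nat_lit 452) (nat_lit 357)) (XT.lf (nat_lit 380) (nat_lit 2324457087) (nat_lit 0) (nat_lit 2562868815) (nat_lit 304) (nat_lit 2562868815) (nat_lit 152) (nat_lit 1) (nat_lit 147) (nat_lit 1) (nat_lit 151) (nat_lit 1) (nat_lit 332) (nat_lit 452) (nat_lit 356))))))) (XT.nd (nat_lit 702) (nat_lit 2052) (nat_lit 0) (XT.nd (nat_lit 312) (nat_lit 988) (nat_lit 0) (XT.nd (nat_lit 156) (nat_lit 304) (nat_lit 0) (XT.nd (nat_lit 78) (nat_lit 380) (nat_lit 0) (XT.lf (nat_lit 76) (nat_lit 239771600) (nat_lit 0) (nat_lit 6915603756) (nat_lit 380) (nat_lit 239771600) (nat_lit 148) (nat_lit 1) (nat_lit 147) (nat_lit 1) (nat_lit 152) (nat_lit 1) (nat_lit 333) (nat_lit 452) (nat_lit 355)) (XT.lf (nat_lit 76) (nat_lit 2991722000) (nat_lit 0) (nat_lit 1356663947) (nat_lit 380) (nat_lit 2991722000) (nat_lit 143) (nat_lit 1) (nat_lit 142) (nat_lit 1) (nat_lit 147) (nat_lit 1) (nat_lit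 334) (nat_lit 452) (nat_lit 354))) (XT.nd (nat_lit 78) (nat_lit 0) (nat_lit 0) (XT.lf (nat_lit 380) (nat_lit 4123326203) (nat_lit 0) (nat_lit 1581262208) (nat_lit 304) (nat_lit 1581262208) (nat_lit 143) (nat_lit 1) (nat_lit 138) (nat_lit 1) (nat_lit 142) (nat_lit 1) (nat_lit 335) (nat_lit 452) (nat_lit 353)) (XT.lf (nat_lit 76) (nat_lit 1136187253) (nat_lit 0) (nat_lit 4959747227) (nat_lit 380) (nat_lit 1136187253) (nat_lit 139) (nat_lit 1) (nat_lit 138) (nat_lit 1) (nat_lit 143) (nat_lit 1) (nat_lit 336) (nat_lit 452) (nat_lit 352)))) (XT.nd (nat_lit 156) (nat_lit 304) (nat_lit 0) (XT.nd (nat_lit 78) (nat_lit 380) (nat_lit 0) (XT.lf (nat_lit 380) (nat_lit 425086065) (nat_lit 0) (nat_lit 3376860244) (nat_lit 304) (nat_lit 3376860244) (nat_lit 139) (nat_lit 1) (nat_lit 134) (nat_lit 1) (nat_lit 138) (nat_lit 1) (nat_lit 337) (nat_lit 452) (nat_lit 351)) (XT.lf (nat_lit 380) (nat_lit 5746460322) (nat_lit 0) (nat_lit 689829678) (nat_lit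 304) (nat_lit 689829678) (nat_lit 134) (nat_lit 1) (nat_lit 129) (nat_lit 1) (nat_lit 133) (nat_lit 1) (nat_lit 338) (nat_lit 452) (nat_lit 350))) (XT.nd (nat_lit 78) (nat_lit 304) (nat_lit 0) (XT.lf (nat_lit 76) (nat_lit 1946401943) (nat_lit 0) (nat_lit 3180861681) (nat_lit 380) (nat_lit 1946401943) (nat_lit 130) (nat_lit 1) (nat_lit 129) (nat_lit 1) (nat_lit 134) (nat_lit 1) (nat_lit 339) (nat_lit 452) (nat_lit 349)) (XT.nd (nat_lit 78) (nat_lit 0) (nat_lit 0) (XT.lf (nat_lit 380) (nat_lit 2054566934) (nat_lit 0) (nat_lit 2483631353) (nat_lit 304) (nat_lit 2483631353) (nat_lit 130) (nat_lit 1) (nat_lit 125) (nat_lit 1) (nat_lit 129) (nat_lit 1) (nat_lit 340) (nat_lit 452) (nat_lit 348)) (XT.lf (nat_lit 76) (nat_lit 119383720) (nat_lit 0) (nat_lit 6731975872) (nat_lit 380) (nat_lit 119383720) (nat_lit 126) (nat_lit 1) (nat_lit 125) (nat_lit 1) (nat_lit 130) (nat_lit 1) (nat_lit 341) (nat_lit 452) (nat_lit 347)))))) (XT.nd (nat_lit 390)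 (nat_lit 836) (nat_lit 0) (XT.nd (nat_lit 156) (nat_lit 608) (nat_lit 0) (XT.nd (nat_lit 78) (nat_lit 304) (nat_lit 0) (XT.lf (nat_lit 76) (nat_lit 2677331931) (nat_lit 0) (nat_lit 1564920487) (nat_lit 304) (nat_lit 2677331931) (nat_lit 122) (nat_lit 1) (nat_lit 121) (nat_lit 1) (nat_lit 125) (nat_lit 1) (nat_lit 342) (nat_lit 452) (nat_lit 346)) (XT.lf (nat_lit 380) (nat_lit 3527370027) (nat_lit 0) (nat_lit 1670897801) (nat_lit 304) (nat_lit 1670897801) (nat_lit 122) (nat_lit 1) (nat_lit 117) (nat_lit 1) (nat_lit 121) (nat_lit 1) (nat_lit 343) (nat_lit 452) (nat_lit 345))) (XT.nd (nat_lit 78) (nat_lit 608) (nat_lit 0) (XT.lf (nat_lit 76) (nat_lit 856272708) (nat_lit 0) (nat_lit 5106732057) (nat_lit 380) (nat_lit 856272708) (nat_lit 118) (nat_lit 1) (nat_lit 117) (nat_lit 1) (nat_lit 122) (nat_lit 1) (nat_lit 344) (nat_lit 452) (nat_lit 344)) (XT.nd (nat_lit 78) (nat_lit 304) (nat_lit 0) (XT.lf (nat_lit 76) (nat_lit 3335359876) (nat_lit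 0) (nat_lit 98975978) (nat_lit 304) (nat_lit 3335359876) (nat_lit 114) (nat_lit 1) (nat_lit 113) (nat_lit 1) (nat_lit 117) (nat_lit 1) (nat_lit 345) (nat_lit 452) (nat_lit 343)) (XT.lf (nat_lit 380) (nat_lit 4856066001) (nat_lit 0) (nat_lit 932284954) (nat_lit 304) (nat_lit 932284954) (nat_lit 114) (nat_lit 1) (nat_lit 109) (nat_lit 1) (nat_lit 113) (nat_lit 1) (nat_lit 346) (nat_lit 452) (nat_lit 342))))) (XT.nd (nat_lit 156) (nat_lit 608) (nat_lit 0) (XT.nd (nat_lit 78) (nat_lit 228) (nat_lit 0) (XT.lf (nat_lit 76) (nat_lit 1522417159) (nat_lit 0) (nat_lit 3627073150) (nat_lit 380) (nat_lit 1522417159) (nat_lit 110) (nat_lit 1) (nat_lit 109) (nat_lit 1) (nat_lit 114) (nat_lit 1) (nat_lit 347) (nat_lit 452) (nat_lit 341)) (XT.lf (nat_lit 304) (nat_lit 1245254660) (nat_lit 0) (nat_lit 2689205970) (nat_lit 228) (nat_lit 2689205970) (nat_lit 110) (nat_lit 1) (nat_lit 106) (nat_lit 1) (nat_lit 109) (nat_lit 1) (nat_lit 348) (nat_lit 452)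 (nat_lit 340))) (XT.nd (nat_lit 78) (nat_lit 228) (nat_lit 0) (XT.lf (nat_lit 380) (nat_lit 6052255673) (nat_lit 0) (nat_lit 261908428) (nat_lit 304) (nat_lit 261908428) (nat_lit 106) (nat_lit 1) (nat_lit 101) (nat_lit 1) (nat_lit 105) (nat_lit 1) (nat_lit 349) (nat_lit 452) (nat_lit 339)) (XT.nd (nat_lit 78) (nat_lit 228) (nat_lit 0) (XT.lf (nat_lit 76) (nat_lit 2123491398) (nat_lit 0) (nat_lit 2281484447) (nat_lit 380) (nat_lit 2123491398) (nat_lit 102) (nat_lit 1) (nat_lit 101) (nat_lit 1) (nat_lit 106) (nat_lit 1) (nat_lit 350) (nat_lit 452) (nat_lit 338)) (XT.lf (nat_lit 304) (nat_lit 2462097660) (nat_lit 0) (nat_lit 2009701711) (nat_lit 228) (nat_lit 2009701711) (nat_lit 102) (nat_lit 1) (nat_lit 98) (nat_lit 1) (nat_lit 101) (nat_lit 1) (nat_lit 351) (nat_lit 452) (nat_lit 337))))))))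
noncomputable def ec255 : XT := (XT.nd (nat_lit 58110) (nat_lit 0) (nat_lit 1520) (XT.nd (nat_lit 702) (nat_lit 684) (nat_lit 0) (XT.nd (nat_lit 312) (nat_lit 1064) (nat_lit 0) (XT.nd (nat_lit 156) (nat_lit 228) (nat_lit 0) (XT.nd (nat_lit 78) (nat_lit 304) (nat_lit 0) (XT.lf (nat_lit 76) (nat_lit 347952494) (nat_lit 0) (nat_lit 5739231128) (nat_lit 304) (nat_lit 347952494) (nat_lit 99) (nat_lit 1) (nat_lit 98) (nat_lit 1) (nat_lit 102) (nat_lit 1) (nat_lit 352) (nat_lit 452) (nat_lit 336)) (XT.lf (nat_lit 76) (nat_lit 2664732000) (nat_lit 0) (nat_lit 1059336527) (nat_lit 304) (nat_lit 2664732000) (nat_lit 95) (nat_lit 1) (nat_lit 94) (nat_lit 1) (nat_lit 98) (nat_lit 1) (nat_lit 353) (nat_lit 452) (nat_lit 335))) (XT.nd (nat_lit 78) (nat_lit 0) (nat_lit 0) (XT.lf (nat_lit 304) (nat_lit 3560553385) (nat_lit 0) (nat_lit 1391252829) (nat_lit 228) (nat_lit 1391252829) (nat_lit 95) (nat_lit 1) (nat_lit 91) (nat_lit 1) (nat_lit 94) (nat_lit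 1) (nat_lit 354) (nat_lit 452) (nat_lit 334)) (XT.lf (nat_lit 76) (nat_lit 901373734) (nat_lit 0) (nat_lit 4495004633) (nat_lit 304) (nat_lit 901373734) (nat_lit 92) (nat_lit 1) (nat_lit 91) (nat_lit 1) (nat_lit 95) (nat_lit 1) (nat_lit 355) (nat_lit 452) (nat_lit 333)))) (XT.nd (nat_lit 156) (nat_lit 532) (nat_lit 0) (XT.nd (nat_lit 78) (nat_lit 304) (nat_lit 0) (XT.lf (nat_lit 304) (nat_lit 49835935) (nat_lit 0) (nat_lit 3101458872) (nat_lit 228) (nat_lit 3101458872) (nat_lit 92) (nat_lit 1) (nat_lit 88) (nat_lit 1) (nat_lit 91) (nat_lit 1) (nat_lit 356) (nat_lit 452) (nat_lit 332)) (XT.lf (nat_lit 304) (nat_lit 4550141865) (nat_lit 0) (nat_lit 829027165) (nat_lit 228) (nat_lit 829027165) (nat_lit 88) (nat_lit 1) (nat_lit 84) (nat_lit 1) (nat_lit 87) (nat_lit 1) (nat_lit 357) (nat_lit 452) (nat_lit 331))) (XT.nd (nat_lit 78) (nat_lit 532) (nat_lit 0) (XT.lf (nat_lit 76) (nat_lit 1401278446) (nat_lit 0) (nat_lit 3361358299) (nat_lit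 304) (nat_lit 1401278446) (nat_lit 85) (nat_lit 1) (nat_lit 84) (nat_lit 1) (nat_lit 88) (nat_lit 1) (nat_lit 358) (nat_lit 452) (nat_lit 330)) (XT.nd (nat_lit 78) (nat_lit 304) (nat_lit 0) (XT.lf (nat_lit 304) (nat_lit 1067124092) (nat_lit 0) (nat_lit 2526472369) (nat_lit 228) (nat_lit 2526472369) (nat_lit 85) (nat_lit 1) (nat_lit 81) (nat_lit 1) (nat_lit 84) (nat_lit 1) (nat_lit 359) (nat_lit 452) (nat_lit 329)) (XT.lf (nat_lit 304) (nat_lit 5439648245) (nat_lit 0) (nat_lit 318564133) (nat_lit 228) (nat_lit 318564133) (nat_lit 81) (nat_lit 1) (nat_lit 77) (nat_lit 1) (nat_lit 80) (nat_lit 1) (nat_lit 360) (nat_lit 452) (nat_lit 328)))))) (XT.nd (nat_lit 312) (nat_lit 228) (nat_lit 0) (XT.nd (nat_lit 156) (nat_lit 228) (nat_lit 0) (XT.nd (nat_lit 78) (nat_lit 228) (nat_lit 0) (XT.lf (nat_lit 76) (nat_lit 1851965119) (nat_lit 0) (nat_lit 2329560617) (nat_lit 304) (nat_lit 1851965119) (nat_lit 78) (nat_lit 1) (nat_lit 77) (nat_lit 1) (nat_lit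 81) (nat_lit 1) (nat_lit 361) (nat_lit 452) (nat_lit 327)) (XT.lf (nat_lit 304) (nat_lit 1986919860) (nat_lit 0) (nat_lit 2001916782) (nat_lit 228) (nat_lit 2001916782) (nat_lit 78) (nat_lit 1) (nat_lit 74) (nat_lit 1) (nat_lit 77) (nat_lit 1) (nat_lit 362) (nat_lit 452) (nat_lit 326))) (XT.nd (nat_lit 78) (nat_lit 228) (nat_lit 0) (XT.lf (nat_lit 76) (nat_lit 145208971) (nat_lit 0) (nat_lit 5658178032) (nat_lit 304) (nat_lit 145208971) (nat_lit 75) (nat_lit 1) (nat_lit 74) (nat_lit 1) (nat_lit 78) (nat_lit 1) (nat_lit 363) (nat_lit 452) (nat_lit 325)) (XT.lf (nat_lit 76) (nat_lit 2257400520) (nat_lit 0) (nat_lit 1391551104) (nat_lit 228) (nat_lit 2257400520) (nat_lit 72) (nat_lit 1) (nat_lit 71) (nat_lit 1) (nat_lit 74) (nat_lit 1) (nat_lit 364) (nat_lit 452) (nat_lit 324)))) (XT.nd (nat_lit 56862) (nat_lit 0) (nat_lit 5016) (XT.nd (nat_lit 78) (nat_lit 0) (nat_lit 0) (XT.lf (nat_lit 304) (nat_lit 2817040304) (nat_lit 0) (nat_lit 1523821309)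 (nat_lit 228) (nat_lit 1523821309) (nat_lit 72) (nat_lit 1) (nat_lit 68) (nat_lit 1) (nat_lit 71) (nat_lit 1) (nat_lit 365) (nat_lit 452) (nat_lit 323)) (XT.lf (nat_lit 76) (nat_lit 566956549) (nat_lit 0) (nat_lit 4689551844) (nat_lit 304) (nat_lit 566956549) (nat_lit 69) (nat_lit 1) (nat_lit 68) (nat_lit 1) (nat_lit 72) (nat_lit 1) (nat_lit 366) (nat_lit 452) (nat_lit 322))) (XT.nd (nat_lit 78) (nat_lit 304) (nat_lit 0) (XT.lf (nat_lit 380) (nat_lit 4205792727) (nat_lit 0) (nat_lit 1612887453) (nat_lit 304) (nat_lit 1612887453) (nat_lit 143) (nat_lit 1) (nat_lit 138) (nat_lit 1) (nat_lit 142) (nat_lit 1) (nat_lit 333) (nat_lit 453) (nat_lit 354)) (XT.nd (nat_lit 78) (nat_lit 304) (nat_lit 0) (XT.lf (nat_lit 76) (nat_lit 1158910998) (nat_lit 0) (nat_lit 5058942172) (nat_lit 380) (nat_lit 1158910998) (nat_lit 139) (nat_lit 1) (nat_lit 138) (nat_lit 1) (nat_lit 143) (nat_lit 1) (nat_lit 334) (nat_lit 453) (nat_lit 353)) (XT.lf (nat_lit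 380) (nat_lit 433587786) (nat_lit 0) (nat_lit 3444397449) (nat_lit 304) (nat_lit 3444397449) (nat_lit 139) (nat_lit 1) (nat_lit 134) (nat_lit 1) (nat_lit 138) (nat_lit 1) (nat_lit 335) (nat_lit 453) (nat_lit 352))))))) (XT.nd (nat_lit 702) (nat_lit 1596) (nat_lit 0) (XT.nd (nat_lit 312) (nat_lit 1216) (nat_lit 0) (XT.nd (nat_lit 156) (nat_lit 304) (nat_lit 0) (XT.nd (nat_lit 78) (nat_lit 0) (nat_lit 0) (XT.lf (nat_lit 380) (nat_lit 5861389528) (nat_lit 0) (nat_lit 703626272) (nat_lit 304) (nat_lit 703626272) (nat_lit 134) (nat_lit 1) (nat_lit 129) (nat_lit 1) (nat_lit 133) (nat_lit 1) (nat_lit 336) (nat_lit 453) (nat_lit 351)) (XT.lf (nat_lit 76) (nat_lit 1985329982) (nat_lit 0) (nat_lit 3244478915) (nat_lit 380) (nat_lit 1985329982) (nat_lit 130) (nat_lit 1) (nat_lit 129) (nat_lit 1) (nat_lit 134) (nat_lit 1) (nat_lit 337) (nat_lit 453) (nat_lit 350))) (XT.nd (nat_lit 78) (nat_lit 0) (nat_lit 0) (XT.lf (nat_lit 380) (nat_lit 2095658273)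 (nat_lit 0) (nat_lit 2533303980) (nat_lit 304) (nat_lit 2533303980) (nat_lit 130) (nat_lit 1) (nat_lit 125) (nat_lit 1) (nat_lit 129) (nat_lit 1) (nat_lit 338) (nat_lit 453) (nat_lit 349)) (XT.lf (nat_lit 76) (nat_lit 121771394) (nat_lit 0) (nat_lit 6866615390) (nat_lit 380) (nat_lit 121771394) (nat_lit 126) (nat_lit 1) (nat_lit 125) (nat_lit 1) (nat_lit 130) (nat_lit 1) (nat_lit 339) (nat_lit 453) (nat_lit 348)))) (XT.nd (nat_lit 156) (nat_lit 608) (nat_lit 0) (XT.nd (nat_lit 78) (nat_lit 304) (nat_lit 0) (XT.lf (nat_lit 76) (nat_lit 2730878569) (nat_lit 0) (nat_lit 1596218896) (nat_lit 304) (nat_lit 2730878569) (nat_lit 122) (nat_lit 1) (nat_lit 121) (nat_lit 1) (nat_lit 125) (nat_lit 1) (nat_lit 340) (nat_lit 453) (nat_lit 347)) (XT.lf (nat_lit 380) (nat_lit 3597917428) (nat_lit 0) (nat_lit 1704315757) (nat_lit 304) (nat_lit 1704315757) (nat_lit 122) (nat_lit 1) (nat_lit 117) (nat_lit 1) (nat_lit 121) (nat_lit 1) (nat_lit 341) (nat_lit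 453) (nat_lit 346))) (XT.nd (nat_lit 78) (nat_lit 608) (nat_lit 0) (XT.lf (nat_lit 76) (nat_lit 873398162) (nat_lit 0) (nat_lit 5208866698) (nat_lit 380) (nat_lit 873398162) (nat_lit 118) (nat_lit 1) (nat_lit 117) (nat_lit 1) (nat_lit 122) (nat_lit 1) (nat_lit 342) (nat_lit 453) (nat_lit 345)) (XT.nd (nat_lit 78) (nat_lit 304) (nat_lit 0) (XT.lf (nat_lit 76) (nat_lit 3402067073) (nat_lit 0) (nat_lit 100955498) (nat_lit 304) (nat_lit 3402067073) (nat_lit 114) (nat_lit 1) (nat_lit 113) (nat_lit 1) (nat_lit 117) (nat_lit 1) (nat_lit 343) (nat_lit 453) (nat_lit 344)) (XT.lf (nat_lit 380) (nat_lit 4953187321) (nat_lit 0) (nat_lit 950930653) (nat_lit 304) (nat_lit 950930653) (nat_lit 114) (nat_lit 1) (nat_lit 109) (nat_lit 1) (nat_lit 113) (nat_lit 1) (nat_lit 344) (nat_lit 453) (nat_lit 343)))))) (XT.nd (nat_lit 390) (nat_lit 760) (nat_lit 0) (XT.nd (nat_lit 156) (nat_lit 608) (nat_lit 0) (XT.nd (nat_lit 78) (nat_lit 228) (nat_lit 0) (XT.lf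 (nat_lit 76) (nat_lit 1552865502) (nat_lit 0) (nat_lit 3699614613) (nat_lit 380) (nat_lit 1552865502) (nat_lit 110) (nat_lit 1) (nat_lit 109) (nat_lit 1) (nat_lit 114) (nat_lit 1) (nat_lit 345) (nat_lit 453) (nat_lit 342)) (XT.lf (nat_lit 304) (nat_lit 1270159753) (nat_lit 0) (nat_lit 2742990089) (nat_lit 228) (nat_lit 2742990089) (nat_lit 110) (nat_lit 1) (nat_lit 106) (nat_lit 1) (nat_lit 109) (nat_lit 1) (nat_lit 346) (nat_lit 453) (nat_lit 341))) (XT.nd (nat_lit 78) (nat_lit 228) (nat_lit 0) (XT.lf (nat_lit 380) (nat_lit 6173300787) (nat_lit 0) (nat_lit 267146597) (nat_lit 304) (nat_lit 267146597) (nat_lit 106) (nat_lit 1) (nat_lit 101) (nat_lit 1) (nat_lit 105) (nat_lit 1) (nat_lit 347) (nat_lit 453) (nat_lit 340)) (XT.nd (nat_lit 78) (nat_lit 228) (nat_lit 0) (XT.lf (nat_lit 76) (nat_lit 2165961226) (nat_lit 0) (nat_lit 2327114136) (nat_lit 380) (nat_lit 2165961226) (nat_lit 102) (nat_lit 1) (nat_lit 101) (nat_lit 1) (nat_lit 106)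 (nat_lit 1) (nat_lit 348) (nat_lit 453) (nat_lit 339)) (XT.lf (nat_lit 304) (nat_lit 2511339613) (nat_lit 0) (nat_lit 2049895746) (nat_lit 228) (nat_lit 2049895746) (nat_lit 102) (nat_lit 1) (nat_lit 98) (nat_lit 1) (nat_lit 101) (nat_lit 1) (nat_lit 349) (nat_lit 453) (nat_lit 338))))) (XT.nd (nat_lit 156) (nat_lit 456) (nat_lit 0) (XT.nd (nat_lit 78) (nat_lit 304) (nat_lit 0) (XT.lf (nat_lit 76) (nat_lit 354911544) (nat_lit 0) (nat_lit 5854015751) (nat_lit 304) (nat_lit 354911544) (nat_lit 99) (nat_lit 1) (nat_lit 98) (nat_lit 1) (nat_lit 102) (nat_lit 1) (nat_lit 350) (nat_lit 453) (nat_lit 337)) (XT.lf (nat_lit 76) (nat_lit 2718026640) (nat_lit 0) (nat_lit 1080523257) (nat_lit 304) (nat_lit 2718026640) (nat_lit 95) (nat_lit 1) (nat_lit 94) (nat_lit 1) (nat_lit 98) (nat_lit 1) (nat_lit 351) (nat_lit 453) (nat_lit 336))) (XT.nd (nat_lit 78) (nat_lit 228) (nat_lit 0) (XT.lf (nat_lit 304) (nat_lit 3631764453) (nat_lit 0) (nat_lit 1419077885)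 (nat_lit 228) (nat_lit 1419077885) (nat_lit 95) (nat_lit 1) (nat_lit 91) (nat_lit 1) (nat_lit 94) (nat_lit 1) (nat_lit 352) (nat_lit 453) (nat_lit 335)) (XT.nd (nat_lit 78) (nat_lit 228) (nat_lit 0) (XT.lf (nat_lit 76) (nat_lit 919401209) (nat_lit 0) (nat_lit 4584904725) (nat_lit 304) (nat_lit 919401209) (nat_lit 92) (nat_lit 1) (nat_lit 91) (nat_lit 1) (nat_lit 95) (nat_lit 1) (nat_lit 353) (nat_lit 453) (nat_lit 334)) (XT.lf (nat_lit 304) (nat_lit 50832654) (nat_lit 0) (nat_lit 3163488049) (nat_lit 228) (nat_lit 3163488049) (nat_lit 92) (nat_lit 1) (nat_lit 88) (nat_lit 1) (nat_lit 91) (nat_lit 1) (nat_lit 354) (nat_lit 453) (nat_lit 333))))))))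

set_option maxRecDepth 10000000 in
noncomputable def Tp : PT := (PT.nd (nat_lit 11767548) (PT.nd (nat_lit 10285002) (PT.nd (nat_lit 8860800) (PT.nd (nat_lit 7555860) (PT.nd (nat_lit 6488118) (PT.nd (nat_lit 5776212) (PT.nd (nat_lit 5301738) pc0 pc1) (PT.nd (nat_lit 356070) pc2 pc3)) (PT.nd (nat_lit 593112) (PT.nd (nat_lit 296634) pc4 pc5) (PT.nd (nat_lit 237432) pc6 pc7))) (PT.nd (nat_lit 770562) (PT.nd (nat_lit 415038) (PT.nd (nat_lit 236886) pc8 pc9) (PT.nd (nat_lit 177840) pc10 pc11)) (PT.nd (nat_lit 296478) (PT.nd (nat_lit 119184) pc12 pc13) (PT.nd (nat_lit 119028) pc14 pc15)))) (PT.nd (nat_lit 830466) (PT.nd (nat_lit 473928) (PT.nd (nat_lit 237276) (PT.nd (nat_lit 118716) pc16 pc17) (PT.nd (nat_lit 118404) pc18 pc19)) (PT.nd (nat_lit 178464) (PT.nd (nat_lit 60450) pc20 pc21) (PT.nd (nat_lit 60294) pc22 pc23))) (PT.nd (nat_lit 297492) (PT.nd (nat_lit 177528) (PT.nd (nat_lit 60138) pc24 pc25) (PT.nd (nat_lit 59982) pc26 pc27)) (PT.nd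 (nat_lit 176826) (PT.nd (nat_lit 117000) pc28 pc29) (PT.nd (nat_lit 59748) pc30 pc31))))) (PT.nd (nat_lit 888030) (PT.nd (nat_lit 474318) (PT.nd (nat_lit 237744) (PT.nd (nat_lit 119028) (PT.nd (nat_lit 59514) pc32 pc33) (PT.nd (nat_lit 59358) pc34 pc35)) (PT.nd (nat_lit 118404) (PT.nd (nat_lit 59202) pc36 pc37) (PT.nd (nat_lit 59124) pc38 pc39))) (PT.nd (nat_lit 235326) (PT.nd (nat_lit 117780) (PT.nd (nat_lit 58890) pc40 pc41) (PT.nd (nat_lit 58812) pc42 pc43)) (PT.nd (nat_lit 61386) (PT.nd (nat_lit 2730) pc44 pc45) (PT.nd (nat_lit 58578) pc46 pc47)))) (PT.nd (nat_lit 298662) (PT.nd (nat_lit 177216) (PT.nd (nat_lit 60996) (PT.nd (nat_lit 2730) pc48 pc49) (PT.nd (nat_lit 58110) pc50 pc51)) (PT.nd (nat_lit 60762) (PT.nd (nat_lit 2730) pc52 pc53) (PT.nd (nat_lit 57876) pc54 pc55))) (PT.nd (nat_lit 175656) (PT.nd (nat_lit 60450) (PT.nd (nat_lit 57642) pc56 pc57) (PT.nd (nat_lit 57642) pc58 pc59)) (PT.nd (nat_lit 60138) (PT.nd (nat_lit 2730)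 pc60 pc61) (PT.nd (nat_lit 2808) pc62 pc63)))))) (PT.nd (nat_lit 889122) (PT.nd (nat_lit 475488) (PT.nd (nat_lit 238836) (PT.nd (nat_lit 119652) (PT.nd (nat_lit 59904) (PT.nd (nat_lit 57096) pc64 pc65) (PT.nd (nat_lit 56940) pc66 pc67)) (PT.nd (nat_lit 59592) (PT.nd (nat_lit 56784) pc68 pc69) (PT.nd (nat_lit 56784) pc70 pc71))) (PT.nd (nat_lit 118638) (PT.nd (nat_lit 59358) (PT.nd (nat_lit 56550) pc72 pc73) (PT.nd (nat_lit 56472) pc74 pc75)) (PT.nd (nat_lit 59046) (PT.nd (nat_lit 56238) pc76 pc77) (PT.nd (nat_lit 56160) pc78 pc79)))) (PT.nd (nat_lit 234078) (PT.nd (nat_lit 117312) (PT.nd (nat_lit 58734) (PT.nd (nat_lit 55926) pc80 pc81) (PT.nd (nat_lit 55770) pc82 pc83)) (PT.nd (nat_lit 58422) (PT.nd (nat_lit 2730) pc84 pc85) (PT.nd (nat_lit 2808) pc86 pc87))) (PT.nd (nat_lit 63726) (PT.nd (nat_lit 58110) (PT.nd (nat_lit 2730) pc88 pc89) (PT.nd (nat_lit 2808) pc90 pc91)) (PT.nd (nat_lit 57954) (PT.nd (nat_lit 55146) pc92 pc93) (PT.nd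 (nat_lit 55068) pc94 pc95))))) (PT.nd (nat_lit 537264) (PT.nd (nat_lit 182052) (PT.nd (nat_lit 63180) (PT.nd (nat_lit 57642) (PT.nd (nat_lit 2730) pc96 pc97) (PT.nd (nat_lit 2730) pc98 pc99)) (PT.nd (nat_lit 59046) (PT.nd (nat_lit 54678) pc100 pc101) (PT.nd (nat_lit 54600) pc102 pc103))) (PT.nd (nat_lit 172224) (PT.nd (nat_lit 111696) (PT.nd (nat_lit 57486) pc104 pc105) (PT.nd (nat_lit 6474) pc106 pc107)) (PT.nd (nat_lit 65442) (PT.nd (nat_lit 58032) pc108 pc109) (PT.nd (nat_lit 58656) pc110 pc111)))) (PT.nd (nat_lit 525954) (PT.nd (nat_lit 230412) (PT.nd (nat_lit 112164) (PT.nd (nat_lit 53274) pc112 pc113) (PT.nd (nat_lit 58968) pc114 pc115)) (PT.nd (nat_lit 126516) (PT.nd (nat_lit 59436) pc116 pc117) (PT.nd (nat_lit 59904) pc118 pc119))) (PT.nd (nat_lit 355368) (PT.nd (nat_lit 128934) (PT.nd (nat_lit 59904) pc120 pc121) (PT.nd (nat_lit 108498) pc122 pc123)) (PT.nd (nat_lit 236652) (PT.nd (nat_lit 70746) pc124 pc125) (PT.nd (nat_lit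 118794) pc126 pc127)))))))

set_option maxRecDepth 10000000 in
noncomputable def Tx : XT := (XT.nd (nat_lit 18737706) (nat_lit 0) (nat_lit 988) XT.nil (XT.nd (nat_lit 9256806) (nat_lit 0) (nat_lit 0) (XT.nd (nat_lit 4332042) (nat_lit 0) (nat_lit 6764) (XT.nd (nat_lit 3021252) (nat_lit 0) (nat_lit 3572) (XT.nd (nat_lit 2076438) (nat_lit 0) (nat_lit 1444) (XT.nd (nat_lit 1424436) (nat_lit 0) (nat_lit 760) (XT.nd (nat_lit 1007292) (nat_lit 0) (nat_lit 304) (XT.nd (nat_lit 710502) (nat_lit 0) (nat_lit 152) (XT.nd (nat_lit 474084) (nat_lit 0) (nat_lit 152) (XT.nd (nat_lit 296790) (nat_lit 0) (nat_lit 0) xc0 xc1) (XT.nd (nat_lit 118482) (nat_lit 0) (nat_lit 0) xc2 xc3)) (XT.nd (nat_lit 120432) (nat_lit 0) (nat_lit 76) (XT.nd (nat_lit 60294) (nat_lit 0) (nat_lit 0) xc4 xc5) (XT.nd (nat_lit 116610) (nat_lit 0) (nat_lit 0) xc6 xc7))) (XT.nd (nat_lit 237198) (nat_lit 0) (nat_lit 456) (XT.nd (nat_lit 118872) (nat_lit 0) (nat_lit 152) (XT.nd (nat_lit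 59514) (nat_lit 0) (nat_lit 0) xc8 xc9) (XT.nd (nat_lit 59202) (nat_lit 0) (nat_lit 0) xc10 xc11)) (XT.nd (nat_lit 117936) (nat_lit 0) (nat_lit 0) (XT.nd (nat_lit 59046) (nat_lit 0) (nat_lit 0) xc12 xc13) (XT.nd (nat_lit 58734) (nat_lit 0) (nat_lit 380) xc14 xc15)))) (XT.nd (nat_lit 355524) (nat_lit 0) (nat_lit 380) (XT.nd (nat_lit 233298) (nat_lit 0) (nat_lit 152) (XT.nd (nat_lit 116844) (nat_lit 0) (nat_lit 152) (XT.nd (nat_lit 58500) (nat_lit 0) (nat_lit 0) xc16 xc17) (XT.nd (nat_lit 58266) (nat_lit 0) (nat_lit 0) xc18 xc19)) (XT.nd (nat_lit 61152) (nat_lit 0) (nat_lit 0) (XT.nd (nat_lit 3198) (nat_lit 2432) (nat_lit 0) xc20 xc21) (XT.nd (nat_lit 57798) (nat_lit 0) (nat_lit 1824) xc22 xc23))) (XT.nd (nat_lit 175734) (nat_lit 0) (nat_lit 152) (XT.nd (nat_lit 115128) (nat_lit 0) (nat_lit 152) (XT.nd (nat_lit 57642) (nat_lit 0) (nat_lit 0) xc24 xc25) (XT.nd (nat_lit 3198) (nat_lit 2508) (nat_lit 0) xc26 xc27)) (XT.nd (nat_lit 60450) (nat_lit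 0) (nat_lit 0) (XT.nd (nat_lit 57174) (nat_lit 0) (nat_lit 4712) xc28 xc29) (XT.nd (nat_lit 57018) (nat_lit 0) (nat_lit 2508) xc30 xc31))))) (XT.nd (nat_lit 529620) (nat_lit 0) (nat_lit 1216) (XT.nd (nat_lit 292734) (nat_lit 0) (nat_lit 608) (XT.nd (nat_lit 173472) (nat_lit 0) (nat_lit 456) (XT.nd (nat_lit 60060) (nat_lit 0) (nat_lit 76) (XT.nd (nat_lit 56862) (nat_lit 0) (nat_lit 760) xc32 xc33) (XT.nd (nat_lit 56706) (nat_lit 0) (nat_lit 304) xc34 xc35)) (XT.nd (nat_lit 59670) (nat_lit 0) (nat_lit 152) (XT.nd (nat_lit 3198) (nat_lit 5852) (nat_lit 0) xc36 xc37) (XT.nd (nat_lit 3198) (nat_lit 4788) (nat_lit 0) xc38 xc39))) (XT.nd (nat_lit 118716) (nat_lit 0) (nat_lit 380) (XT.nd (nat_lit 59358) (nat_lit 0) (nat_lit 228) (XT.nd (nat_lit 3198) (nat_lit 4256) (nat_lit 0) xc40 xc41) (XT.nd (nat_lit 3198) (nat_lit 4028) (nat_lit 0) xc42 xc43)) (XT.nd (nat_lit 59124) (nat_lit 0) (nat_lit 0) (XT.nd (nat_lit 3198) (nat_lit 4104) (nat_lit 0)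 xc44 xc45) (XT.nd (nat_lit 3198) (nat_lit 4712) (nat_lit 0) xc46 xc47)))) (XT.nd (nat_lit 182520) (nat_lit 0) (nat_lit 228) (XT.nd (nat_lit 117546) (nat_lit 0) (nat_lit 152) (XT.nd (nat_lit 58812) (nat_lit 0) (nat_lit 0) (XT.nd (nat_lit 3198) (nat_lit 5700) (nat_lit 0) xc48 xc49) (XT.nd (nat_lit 3198) (nat_lit 7600) (nat_lit 0) xc50 xc51)) (XT.nd (nat_lit 6396) (nat_lit 532) (nat_lit 0) (XT.nd (nat_lit 3198) (nat_lit 9272) (nat_lit 0) xc52 xc53) (XT.nd (nat_lit 55302) (nat_lit 0) (nat_lit 2356) xc54 xc55))) (XT.nd (nat_lit 116610) (nat_lit 0) (nat_lit 228) (XT.nd (nat_lit 58344) (nat_lit 0) (nat_lit 228) (XT.nd (nat_lit 55146) (nat_lit 0) (nat_lit 5092) xc56 xc57) (XT.nd (nat_lit 54990) (nat_lit 0) (nat_lit 8664) xc58 xc59)) (XT.nd (nat_lit 58110) (nat_lit 0) (nat_lit 152) (XT.nd (nat_lit 54834) (nat_lit 0) (nat_lit 14592) xc60 xc61) (XT.nd (nat_lit 3198) (nat_lit 2660) (nat_lit 0) xc62 xc63)))))) (XT.nd (nat_lit 709800) (nat_lit 0) (nat_lit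 1596) (XT.nd (nat_lit 357552) (nat_lit 0) (nat_lit 608) (XT.nd (nat_lit 179478) (nat_lit 0) (nat_lit 152) (XT.nd (nat_lit 64272) (nat_lit 0) (nat_lit 0) (XT.nd (nat_lit 57798) (nat_lit 0) (nat_lit 1824) (XT.nd (nat_lit 3198) (nat_lit 6384) (nat_lit 0) xc64 xc65) (XT.nd (nat_lit 3198) (nat_lit 11248) (nat_lit 0) xc66 xc67)) (XT.nd (nat_lit 57642) (nat_lit 0) (nat_lit 152) (XT.nd (nat_lit 54444) (nat_lit 0) (nat_lit 6688) xc68 xc69) (XT.nd (nat_lit 54288) (nat_lit 0) (nat_lit 14516) xc70 xc71))) (XT.nd (nat_lit 114582) (nat_lit 0) (nat_lit 304) (XT.nd (nat_lit 57330) (nat_lit 0) (nat_lit 304) (XT.nd (nat_lit 3198) (nat_lit 2508) (nat_lit 0) xc72 xc73) (XT.nd (nat_lit 3198) (nat_lit 8892) (nat_lit 0) xc74 xc75)) (XT.nd (nat_lit 6396) (nat_lit 5244) (nat_lit 0) (XT.nd (nat_lit 3198) (nat_lit 14516) (nat_lit 0) xc76 xc77) (XT.nd (nat_lit 53820) (nat_lit 0) (nat_lit 14744) xc78 xc79)))) (XT.nd (nat_lit 176670) (nat_lit 0) (nat_lit 456) (XT.nd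 (nat_lit 63336) (nat_lit 0) (nat_lit 0) (XT.nd (nat_lit 56862) (nat_lit 0) (nat_lit 760) (XT.nd (nat_lit 3198) (nat_lit 2584) (nat_lit 0) xc80 xc81) (XT.nd (nat_lit 3198) (nat_lit 10184) (nat_lit 0) xc82 xc83)) (XT.nd (nat_lit 56706) (nat_lit 0) (nat_lit 304) (XT.nd (nat_lit 53508) (nat_lit 0) (nat_lit 8740) xc84 xc85) (XT.nd (nat_lit 53352) (nat_lit 0) (nat_lit 22952) xc86 xc87))) (XT.nd (nat_lit 62946) (nat_lit 0) (nat_lit 228) (XT.nd (nat_lit 56472) (nat_lit 0) (nat_lit 5624) (XT.nd (nat_lit 3198) (nat_lit 6688) (nat_lit 0) xc88 xc89) (XT.nd (nat_lit 3198) (nat_lit 15580) (nat_lit 0) xc90 xc91)) (XT.nd (nat_lit 56394) (nat_lit 0) (nat_lit 76) (XT.nd (nat_lit 53118) (nat_lit 0) (nat_lit 18848) xc92 xc93) (XT.nd (nat_lit 3198) (nat_lit 4636) (nat_lit 0) xc94 xc95))))) (XT.nd (nat_lit 299442) (nat_lit 0) (nat_lit 760) (XT.nd (nat_lit 124800) (nat_lit 0) (nat_lit 228) (XT.nd (nat_lit 62478) (nat_lit 0) (nat_lit 0) (XT.nd (nat_lit 6396)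 (nat_lit 4408) (nat_lit 0) (XT.nd (nat_lit 3198) (nat_lit 14136) (nat_lit 0) xc96 xc97) (XT.nd (nat_lit 52806) (nat_lit 0) (nat_lit 19228) xc98 xc99)) (XT.nd (nat_lit 55848) (nat_lit 0) (nat_lit 5776) (XT.nd (nat_lit 3198) (nat_lit 4712) (nat_lit 0) xc100 xc101) (XT.nd (nat_lit 3198) (nat_lit 15580) (nat_lit 0) xc102 xc103))) (XT.nd (nat_lit 112008) (nat_lit 0) (nat_lit 304) (XT.nd (nat_lit 55926) (nat_lit 0) (nat_lit 76) (XT.nd (nat_lit 52728) (nat_lit 0) (nat_lit 22724) xc104 xc105) (XT.nd (nat_lit 3198) (nat_lit 6232) (nat_lit 0) xc106 xc107)) (XT.nd (nat_lit 6396) (nat_lit 6384) (nat_lit 0) (XT.nd (nat_lit 3198) (nat_lit 16036) (nat_lit 0) xc108 xc109) (XT.nd (nat_lit 52962) (nat_lit 0) (nat_lit 22420) xc110 xc111)))) (XT.nd (nat_lit 175500) (nat_lit 0) (nat_lit 532) (XT.nd (nat_lit 62712) (nat_lit 0) (nat_lit 304) (XT.nd (nat_lit 56238) (nat_lit 0) (nat_lit 5776) (XT.nd (nat_lit 3198) (nat_lit 6156) (nat_lit 0) xc112 xc113) (XT.nd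 (nat_lit 3198) (nat_lit 16340) (nat_lit 0) xc114 xc115)) (XT.nd (nat_lit 56316) (nat_lit 0) (nat_lit 0) (XT.nd (nat_lit 53118) (nat_lit 0) (nat_lit 20292) xc116 xc117) (XT.nd (nat_lit 3198) (nat_lit 5092) (nat_lit 0) xc118 xc119))) (XT.nd (nat_lit 62946) (nat_lit 0) (nat_lit 0) (XT.nd (nat_lit 6396) (nat_lit 4104) (nat_lit 0) (XT.nd (nat_lit 3198) (nat_lit 14440) (nat_lit 0) xc120 xc121) (XT.nd (nat_lit 53274) (nat_lit 0) (nat_lit 16492) xc122 xc123)) (XT.nd (nat_lit 56628) (nat_lit 0) (nat_lit 1824) (XT.nd (nat_lit 3198) (nat_lit 3116) (nat_lit 0) xc124 xc125) (XT.nd (nat_lit 3198) (nat_lit 12236) (nat_lit 0) xc126 xc127))))))) (XT.nd (nat_lit 1543386) (nat_lit 0) (nat_lit 6460) (XT.nd (nat_lit 712374) (nat_lit 0) (nat_lit 2736) (XT.nd (nat_lit 354510) (nat_lit 0) (nat_lit 1444) (XT.nd (nat_lit 176904) (nat_lit 0) (nat_lit 532) (XT.nd (nat_lit 113568) (nat_lit 0) (nat_lit 532) (XT.nd (nat_lit 56706) (nat_lit 0) (nat_lit 304) (XT.nd (nat_lit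 53508) (nat_lit 0) (nat_lit 10792) xc128 xc129) (XT.nd (nat_lit 53586) (nat_lit 0) (nat_lit 26068) xc130 xc131)) (XT.nd (nat_lit 56862) (nat_lit 0) (nat_lit 5168) (XT.nd (nat_lit 3198) (nat_lit 7752) (nat_lit 0) xc132 xc133) (XT.nd (nat_lit 3198) (nat_lit 15580) (nat_lit 0) xc134 xc135))) (XT.nd (nat_lit 114036) (nat_lit 0) (nat_lit 380) (XT.nd (nat_lit 56940) (nat_lit 0) (nat_lit 380) (XT.nd (nat_lit 53742) (nat_lit 0) (nat_lit 16264) xc136 xc137) (XT.nd (nat_lit 3198) (nat_lit 2508) (nat_lit 0) xc138 xc139)) (XT.nd (nat_lit 57096) (nat_lit 0) (nat_lit 6916) (XT.nd (nat_lit 3198) (nat_lit 11020) (nat_lit 0) xc140 xc141) (XT.nd (nat_lit 3198) (nat_lit 17632) (nat_lit 0) xc142 xc143)))) (XT.nd (nat_lit 178542) (nat_lit 0) (nat_lit 304) (XT.nd (nat_lit 114660) (nat_lit 0) (nat_lit 304) (XT.nd (nat_lit 57252) (nat_lit 0) (nat_lit 76) (XT.nd (nat_lit 54054) (nat_lit 0) (nat_lit 16796) xc144 xc145) (XT.nd (nat_lit 3198) (nat_lit 2964) (nat_lit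 0) xc146 xc147)) (XT.nd (nat_lit 57408) (nat_lit 0) (nat_lit 5168) (XT.nd (nat_lit 3198) (nat_lit 10184) (nat_lit 0) xc148 xc149) (XT.nd (nat_lit 3198) (nat_lit 16720) (nat_lit 0) xc150 xc151))) (XT.nd (nat_lit 115128) (nat_lit 0) (nat_lit 380) (XT.nd (nat_lit 57486) (nat_lit 0) (nat_lit 304) (XT.nd (nat_lit 54288) (nat_lit 0) (nat_lit 13756) xc152 xc153) (XT.nd (nat_lit 3198) (nat_lit 684) (nat_lit 0) xc154 xc155)) (XT.nd (nat_lit 57720) (nat_lit 0) (nat_lit 1292) (XT.nd (nat_lit 3198) (nat_lit 6612) (nat_lit 0) xc156 xc157) (XT.nd (nat_lit 3198) (nat_lit 13300) (nat_lit 0) xc158 xc159))))) (XT.nd (nat_lit 413166) (nat_lit 0) (nat_lit 1444) (XT.nd (nat_lit 231816) (nat_lit 0) (nat_lit 988) (XT.nd (nat_lit 115752) (nat_lit 0) (nat_lit 380) (XT.nd (nat_lit 57798) (nat_lit 0) (nat_lit 0) (XT.nd (nat_lit 54600) (nat_lit 0) (nat_lit 6460) xc160 xc161) (XT.nd (nat_lit 54678) (nat_lit 0) (nat_lit 13376) xc162 xc163)) (XT.nd (nat_lit 57954)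 (nat_lit 0) (nat_lit 0) (XT.nd (nat_lit 3198) (nat_lit 0) (nat_lit 0) xc164 xc165) (XT.nd (nat_lit 3198) (nat_lit 5168) (nat_lit 0) xc166 xc167))) (XT.nd (nat_lit 64662) (nat_lit 0) (nat_lit 0) (XT.nd (nat_lit 58188) (nat_lit 0) (nat_lit 1900) (XT.nd (nat_lit 3198) (nat_lit 9880) (nat_lit 0) xc168 xc169) (XT.nd (nat_lit 3198) (nat_lit 14744) (nat_lit 0) xc170 xc171)) (XT.nd (nat_lit 58266) (nat_lit 0) (nat_lit 456) (XT.nd (nat_lit 55068) (nat_lit 0) (nat_lit 6004) xc172 xc173) (XT.nd (nat_lit 55146) (nat_lit 0) (nat_lit 10032) xc174 xc175)))) (XT.nd (nat_lit 234468) (nat_lit 0) (nat_lit 1064) (XT.nd (nat_lit 117000) (nat_lit 0) (nat_lit 760) (XT.nd (nat_lit 58422) (nat_lit 0) (nat_lit 304) (XT.nd (nat_lit 55224) (nat_lit 0) (nat_lit 15352) xc176 xc177) (XT.nd (nat_lit 3198) (nat_lit 760) (nat_lit 0) xc178 xc179)) (XT.nd (nat_lit 58656) (nat_lit 0) (nat_lit 304) (XT.nd (nat_lit 3198) (nat_lit 3344) (nat_lit 0) xc180 xc181) (XT.nd (nat_lit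 3198) (nat_lit 6612) (nat_lit 0) xc182 xc183))) (XT.nd (nat_lit 117780) (nat_lit 0) (nat_lit 836) (XT.nd (nat_lit 58812) (nat_lit 0) (nat_lit 380) (XT.nd (nat_lit 3198) (nat_lit 8968) (nat_lit 0) xc184 xc185) (XT.nd (nat_lit 3198) (nat_lit 11780) (nat_lit 0) xc186 xc187)) (XT.nd (nat_lit 59124) (nat_lit 0) (nat_lit 380) (XT.nd (nat_lit 3198) (nat_lit 14212) (nat_lit 0) xc188 xc189) (XT.nd (nat_lit 3198) (nat_lit 15428) (nat_lit 0) xc190 xc191)))))) (XT.nd (nat_lit 1067118) (nat_lit 0) (nat_lit 6460) (XT.nd (nat_lit 529464) (nat_lit 0) (nat_lit 2736) (XT.nd (nat_lit 237198) (nat_lit 0) (nat_lit 1292) (XT.nd (nat_lit 118404) (nat_lit 0) (nat_lit 380) (XT.nd (nat_lit 59124) (nat_lit 0) (nat_lit 0) (XT.nd (nat_lit 55926) (nat_lit 0) (nat_lit 1292) xc192 xc193) (XT.nd (nat_lit 56004) (nat_lit 0) (nat_lit 1748) xc194 xc195)) (XT.nd (nat_lit 59280) (nat_lit 0) (nat_lit 532) (XT.nd (nat_lit 56082) (nat_lit 0) (nat_lit 1900) xc196 xc197) (XT.nd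 (nat_lit 56238) (nat_lit 0) (nat_lit 1368) xc198 xc199))) (XT.nd (nat_lit 172458) (nat_lit 0) (nat_lit 988) (XT.nd (nat_lit 59514) (nat_lit 0) (nat_lit 0) (XT.nd (nat_lit 56316) (nat_lit 0) (nat_lit 456) xc200 xc201) (XT.nd (nat_lit 56394) (nat_lit 0) (nat_lit 456) xc202 xc203)) (XT.nd (nat_lit 59826) (nat_lit 0) (nat_lit 456) (XT.nd (nat_lit 3198) (nat_lit 12312) (nat_lit 0) xc204 xc205) (XT.nd (nat_lit 3198) (nat_lit 9576) (nat_lit 0) xc206 xc207)))) (XT.nd (nat_lit 240786) (nat_lit 0) (nat_lit 1520) (XT.nd (nat_lit 120198) (nat_lit 0) (nat_lit 1064) (XT.nd (nat_lit 59982) (nat_lit 0) (nat_lit 532) (XT.nd (nat_lit 3198) (nat_lit 6840) (nat_lit 0) xc208 xc209) (XT.nd (nat_lit 3198) (nat_lit 3268) (nat_lit 0) xc210 xc211)) (XT.nd (nat_lit 60216) (nat_lit 0) (nat_lit 456) (XT.nd (nat_lit 57018) (nat_lit 0) (nat_lit 11552) xc212 xc213) (XT.nd (nat_lit 57096) (nat_lit 0) (nat_lit 5928) xc214 xc215))) (XT.nd (nat_lit 175188) (nat_lit 0) (nat_lit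 1140) (XT.nd (nat_lit 60372) (nat_lit 0) (nat_lit 608) (XT.nd (nat_lit 57174) (nat_lit 0) (nat_lit 1672) xc216 xc217) (XT.nd (nat_lit 57330) (nat_lit 0) (nat_lit 532) xc218 xc219)) (XT.nd (nat_lit 60762) (nat_lit 0) (nat_lit 1064) (XT.nd (nat_lit 3198) (nat_lit 4180) (nat_lit 0) xc220 xc221) (XT.nd (nat_lit 57642) (nat_lit 0) (nat_lit 5168) xc222 xc223))))) (XT.nd (nat_lit 768768) (nat_lit 0) (nat_lit 7296) (XT.nd (nat_lit 354510) (nat_lit 0) (nat_lit 3116) (XT.nd (nat_lit 176748) (nat_lit 0) (nat_lit 1824) (XT.nd (nat_lit 115518) (nat_lit 0) (nat_lit 1216) (XT.nd (nat_lit 57720) (nat_lit 0) (nat_lit 684) xc224 xc225) (XT.nd (nat_lit 3198) (nat_lit 4636) (nat_lit 0) xc226 xc227)) (XT.nd (nat_lit 61230) (nat_lit 0) (nat_lit 608) (XT.nd (nat_lit 58032) (nat_lit 0) (nat_lit 1900) xc228 xc229) (XT.nd (nat_lit 58188) (nat_lit 0) (nat_lit 76) xc230 xc231))) (XT.nd (nat_lit 178698) (nat_lit 0) (nat_lit 1292) (XT.nd (nat_lit 61542) (nat_lit 0)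 (nat_lit 608) (XT.nd (nat_lit 58344) (nat_lit 0) (nat_lit 2052) xc232 xc233) (XT.nd (nat_lit 58500) (nat_lit 0) (nat_lit 684) xc234 xc235)) (XT.nd (nat_lit 117546) (nat_lit 0) (nat_lit 1444) (XT.nd (nat_lit 58656) (nat_lit 0) (nat_lit 760) xc236 xc237) (XT.nd (nat_lit 58890) (nat_lit 0) (nat_lit 684) xc238 xc239)))) (XT.nd (nat_lit 476580) (nat_lit 0) (nat_lit 5016) (XT.nd (nat_lit 181038) (nat_lit 0) (nat_lit 1596) (XT.nd (nat_lit 62322) (nat_lit 0) (nat_lit 836) (XT.nd (nat_lit 3198) (nat_lit 1596) (nat_lit 0) xc240 xc241) (XT.nd (nat_lit 59280) (nat_lit 0) (nat_lit 0) xc242 xc243)) (XT.nd (nat_lit 175656) (nat_lit 0) (nat_lit 2432) (XT.nd (nat_lit 59514) (nat_lit 0) (nat_lit 760) xc244 xc245) (XT.nd (nat_lit 59826) (nat_lit 0) (nat_lit 988) xc246 xc247))) (XT.nd (nat_lit 355914) (nat_lit 0) (nat_lit 3724) (XT.nd (nat_lit 177372) (nat_lit 0) (nat_lit 2660) (XT.nd (nat_lit 60060) (nat_lit 0) (nat_lit 836) xc248 xc249) (XT.nd (nat_lit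 60450) (nat_lit 0) (nat_lit 0) xc250 xc251)) (XT.nd (nat_lit 237588) (nat_lit 0) (nat_lit 1064) (XT.nd (nat_lit 118482) (nat_lit 0) (nat_lit 1064) xc252 xc253) (XT.nd (nat_lit 119574) (nat_lit 0) (nat_lit 0) xc254 xc255)))))))) XT.nil))

set_option maxRecDepth 10000000 in
noncomputable def Te : XT := (XT.nd (nat_lit 20572812) (nat_lit 0) (nat_lit 2052) XT.nil (XT.nd (nat_lit 6344052) (nat_lit 0) (nat_lit 0) (XT.nd (nat_lit 4086732) (nat_lit 3572) (nat_lit 0) (XT.nd (nat_lit 2843880) (nat_lit 6308) (nat_lit 0) (XT.nd (nat_lit 1958580) (nat_lit 8208) (nat_lit 0) (XT.nd (nat_lit 1364142) (nat_lit 7068) (nat_lit 0) (XT.nd (nat_lit 948480) (nat_lit 6612) (nat_lit 0) (XT.nd (nat_lit 652002) (nat_lit 2812) (nat_lit 0) (XT.nd (nat_lit 415428) (nat_lit 1140) (nat_lit 0) (XT.nd (nat_lit 296166) (nat_lit 0) (nat_lit 0) ec0 ec1) (XT.nd (nat_lit 118560) (nat_lit 1140) (nat_lit 0) ec2 ec3)) (XT.nd (nat_lit 177216) (nat_lit 1824) (nat_lit 0) (XT.nd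 (nat_lit 60138) (nat_lit 988) (nat_lit 0) ec4 ec5) (XT.nd (nat_lit 59670) (nat_lit 912) (nat_lit 0) ec6 ec7))) (XT.nd (nat_lit 236652) (nat_lit 2356) (nat_lit 0) (XT.nd (nat_lit 118638) (nat_lit 1596) (nat_lit 0) (XT.nd (nat_lit 59358) (nat_lit 836) (nat_lit 0) ec8 ec9) (XT.nd (nat_lit 59046) (nat_lit 760) (nat_lit 0) ec10 ec11)) (XT.nd (nat_lit 117546) (nat_lit 760) (nat_lit 0) (XT.nd (nat_lit 58812) (nat_lit 1596) (nat_lit 0) ec12 ec13) (XT.nd (nat_lit 2886) (nat_lit 2356) (nat_lit 0) ec14 ec15)))) (XT.nd (nat_lit 353808) (nat_lit 2964) (nat_lit 0) (XT.nd (nat_lit 177528) (nat_lit 1976) (nat_lit 0) (XT.nd (nat_lit 116610) (nat_lit 684) (nat_lit 0) (XT.nd (nat_lit 58344) (nat_lit 760) (nat_lit 0) ec16 ec17) (XT.nd (nat_lit 2808) (nat_lit 2128) (nat_lit 0) ec18 ec19)) (XT.nd (nat_lit 60762) (nat_lit 1292) (nat_lit 0) (XT.nd (nat_lit 57876) (nat_lit 0) (nat_lit 684) ec20 ec21) (XT.nd (nat_lit 57798) (nat_lit 684) (nat_lit 0) ec22 ec23)))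 (XT.nd (nat_lit 120588) (nat_lit 1748) (nat_lit 0) (XT.nd (nat_lit 60372) (nat_lit 608) (nat_lit 0) (XT.nd (nat_lit 2808) (nat_lit 2584) (nat_lit 0) ec24 ec25) (XT.nd (nat_lit 57330) (nat_lit 0) (nat_lit 6840) ec26 ec27)) (XT.nd (nat_lit 60060) (nat_lit 532) (nat_lit 0) (XT.nd (nat_lit 57174) (nat_lit 0) (nat_lit 3724) ec28 ec29) (XT.nd (nat_lit 57096) (nat_lit 0) (nat_lit 532) ec30 ec31))))) (XT.nd (nat_lit 473460) (nat_lit 3192) (nat_lit 0) (XT.nd (nat_lit 291642) (nat_lit 1824) (nat_lit 0) (XT.nd (nat_lit 173238) (nat_lit 1520) (nat_lit 0) (XT.nd (nat_lit 113724) (nat_lit 532) (nat_lit 0) (XT.nd (nat_lit 56862) (nat_lit 608) (nat_lit 0) ec32 ec33) (XT.nd (nat_lit 2808) (nat_lit 11856) (nat_lit 0) ec34 ec35)) (XT.nd (nat_lit 59280) (nat_lit 456) (nat_lit 0) (XT.nd (nat_lit 2808) (nat_lit 10564) (nat_lit 0) ec36 ec37) (XT.nd (nat_lit 2886) (nat_lit 10260) (nat_lit 0) ec38 ec39))) (XT.nd (nat_lit 64506) (nat_lit 836) (nat_lit 0) (XT.nd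 (nat_lit 58812) (nat_lit 0) (nat_lit 988) (XT.nd (nat_lit 2808) (nat_lit 12008) (nat_lit 0) ec40 ec41) (XT.nd (nat_lit 2808) (nat_lit 13376) (nat_lit 0) ec42 ec43)) (XT.nd (nat_lit 58656) (nat_lit 380) (nat_lit 0) (XT.nd (nat_lit 55770) (nat_lit 0) (nat_lit 3496) ec44 ec45) (XT.nd (nat_lit 55770) (nat_lit 0) (nat_lit 6232) ec46 ec47)))) (XT.nd (nat_lit 232908) (nat_lit 1444) (nat_lit 0) (XT.nd (nat_lit 116688) (nat_lit 836) (nat_lit 0) (XT.nd (nat_lit 58422) (nat_lit 380) (nat_lit 0) (XT.nd (nat_lit 55536) (nat_lit 0) (nat_lit 10488) ec48 ec49) (XT.nd (nat_lit 55380) (nat_lit 0) (nat_lit 16112) ec50 ec51)) (XT.nd (nat_lit 58110) (nat_lit 0) (nat_lit 0) (XT.nd (nat_lit 2808) (nat_lit 3572) (nat_lit 0) ec52 ec53) (XT.nd (nat_lit 2886) (nat_lit 7296) (nat_lit 0) ec54 ec55))) (XT.nd (nat_lit 63570) (nat_lit 1064) (nat_lit 0) (XT.nd (nat_lit 5694) (nat_lit 1216) (nat_lit 0) (XT.nd (nat_lit 2808) (nat_lit 12312) (nat_lit 0) ec56 ec57) (XT.nd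 (nat_lit 54990) (nat_lit 0) (nat_lit 6004) ec58 ec59)) (XT.nd (nat_lit 57720) (nat_lit 304) (nat_lit 0) (XT.nd (nat_lit 54834) (nat_lit 0) (nat_lit 14288) ec60 ec61) (XT.nd (nat_lit 2886) (nat_lit 2280) (nat_lit 0) ec62 ec63)))))) (XT.nd (nat_lit 653718) (nat_lit 2660) (nat_lit 0) (XT.nd (nat_lit 354354) (nat_lit 1520) (nat_lit 0) (XT.nd (nat_lit 177762) (nat_lit 988) (nat_lit 0) (XT.nd (nat_lit 63180) (nat_lit 684) (nat_lit 0) (XT.nd (nat_lit 57486) (nat_lit 0) (nat_lit 4028) (XT.nd (nat_lit 2808) (nat_lit 8664) (nat_lit 0) ec64 ec65) (XT.nd (nat_lit 2808) (nat_lit 13224) (nat_lit 0) ec66 ec67)) (XT.nd (nat_lit 57330) (nat_lit 380) (nat_lit 0) (XT.nd (nat_lit 54444) (nat_lit 0) (nat_lit 12616) ec68 ec69) (XT.nd (nat_lit 2886) (nat_lit 1444) (nat_lit 0) ec70 ec71))) (XT.nd (nat_lit 62790) (nat_lit 684) (nat_lit 0) (XT.nd (nat_lit 57096) (nat_lit 0) (nat_lit 6004) (XT.nd (nat_lit 2808) (nat_lit 9120) (nat_lit 0) ec72 ec73) (XT.nd (nat_lit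 2808) (nat_lit 13832) (nat_lit 0) ec74 ec75)) (XT.nd (nat_lit 56940) (nat_lit 380) (nat_lit 0) (XT.nd (nat_lit 54054) (nat_lit 0) (nat_lit 16340) ec76 ec77) (XT.nd (nat_lit 2886) (nat_lit 4408) (nat_lit 0) ec78 ec79)))) (XT.nd (nat_lit 124722) (nat_lit 912) (nat_lit 0) (XT.nd (nat_lit 62400) (nat_lit 304) (nat_lit 0) (XT.nd (nat_lit 5694) (nat_lit 3496) (nat_lit 0) (XT.nd (nat_lit 2808) (nat_lit 11400) (nat_lit 0) ec80 ec81) (XT.nd (nat_lit 53820) (nat_lit 0) (nat_lit 12996) ec82 ec83)) (XT.nd (nat_lit 56550) (nat_lit 0) (nat_lit 1976) (XT.nd (nat_lit 2808) (nat_lit 2736) (nat_lit 0) ec84 ec85) (XT.nd (nat_lit 2886) (nat_lit 10184) (nat_lit 0) ec86 ec87))) (XT.nd (nat_lit 112710) (nat_lit 304) (nat_lit 0) (XT.nd (nat_lit 56394) (nat_lit 304) (nat_lit 0) (XT.nd (nat_lit 53508) (nat_lit 0) (nat_lit 11780) ec88 ec89) (XT.nd (nat_lit 2808) (nat_lit 2584) (nat_lit 0) ec90 ec91)) (XT.nd (nat_lit 5694) (nat_lit 2888) (nat_lit 0) (XT.nd (nat_lit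 2808) (nat_lit 10184) (nat_lit 0) ec92 ec93) (XT.nd (nat_lit 53352) (nat_lit 0) (nat_lit 13604) ec94 ec95))))) (XT.nd (nat_lit 296088) (nat_lit 1292) (nat_lit 0) (XT.nd (nat_lit 173472) (nat_lit 532) (nat_lit 0) (XT.nd (nat_lit 61698) (nat_lit 228) (nat_lit 0) (XT.nd (nat_lit 56004) (nat_lit 0) (nat_lit 4560) (XT.nd (nat_lit 2808) (nat_lit 3800) (nat_lit 0) ec96 ec97) (XT.nd (nat_lit 2808) (nat_lit 11552) (nat_lit 0) ec98 ec99)) (XT.nd (nat_lit 55926) (nat_lit 228) (nat_lit 0) (XT.nd (nat_lit 53040) (nat_lit 0) (nat_lit 17404) ec100 ec101) (XT.nd (nat_lit 2886) (nat_lit 5928) (nat_lit 0) ec102 ec103))) (XT.nd (nat_lit 61308) (nat_lit 0) (nat_lit 0) (XT.nd (nat_lit 5694) (nat_lit 8588) (nat_lit 0) (XT.nd (nat_lit 2808) (nat_lit 12464) (nat_lit 0) ec104 ec105) (XT.nd (nat_lit 2808) (nat_lit 532) (nat_lit 0) ec106 ec107)) (XT.nd (nat_lit 5694) (nat_lit 2280) (nat_lit 0) (XT.nd (nat_lit 2808) (nat_lit 9272) (nat_lit 0) ec108 ec109) (XT.nd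 (nat_lit 52728) (nat_lit 0) (nat_lit 14440) ec110 ec111)))) (XT.nd (nat_lit 122148) (nat_lit 760) (nat_lit 0) (XT.nd (nat_lit 61074) (nat_lit 0) (nat_lit 0) (XT.nd (nat_lit 55380) (nat_lit 0) (nat_lit 7828) (XT.nd (nat_lit 2808) (nat_lit 4788) (nat_lit 0) ec112 ec113) (XT.nd (nat_lit 2808) (nat_lit 12312) (nat_lit 0) ec114 ec115)) (XT.nd (nat_lit 55302) (nat_lit 0) (nat_lit 2508) (XT.nd (nat_lit 2808) (nat_lit 304) (nat_lit 0) ec116 ec117) (XT.nd (nat_lit 2886) (nat_lit 8512) (nat_lit 0) ec118 ec119))) (XT.nd (nat_lit 110214) (nat_lit 228) (nat_lit 0) (XT.nd (nat_lit 55146) (nat_lit 0) (nat_lit 0) (XT.nd (nat_lit 52260) (nat_lit 0) (nat_lit 16644) ec120 ec121) (XT.nd (nat_lit 2808) (nat_lit 6384) (nat_lit 0) ec122 ec123)) (XT.nd (nat_lit 5694) (nat_lit 10336) (nat_lit 0) (XT.nd (nat_lit 2808) (nat_lit 13604) (nat_lit 0) ec124 ec125) (XT.nd (nat_lit 2886) (nat_lit 2052) (nat_lit 0) ec126 ec127))))))) (XT.nd (nat_lit 956826) (nat_lit 760)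 (nat_lit 0) (XT.nd (nat_lit 481182) (nat_lit 988) (nat_lit 0) (XT.nd (nat_lit 241410) (nat_lit 912) (nat_lit 0) (XT.nd (nat_lit 120900) (nat_lit 456) (nat_lit 0) (XT.nd (nat_lit 60528) (nat_lit 228) (nat_lit 0) (XT.nd (nat_lit 5694) (nat_lit 6080) (nat_lit 0) (XT.nd (nat_lit 2808) (nat_lit 10412) (nat_lit 0) ec128 ec129) (XT.nd (nat_lit 51948) (nat_lit 0) (nat_lit 24168) ec130 ec131)) (XT.nd (nat_lit 5694) (nat_lit 2888) (nat_lit 0) (XT.nd (nat_lit 2808) (nat_lit 8436) (nat_lit 0) ec132 ec133) (XT.nd (nat_lit 51792) (nat_lit 0) (nat_lit 18620) ec134 ec135))) (XT.nd (nat_lit 60294) (nat_lit 228) (nat_lit 0) (XT.nd (nat_lit 5694) (nat_lit 684) (nat_lit 0) (XT.nd (nat_lit 2808) (nat_lit 6992) (nat_lit 0) ec136 ec137) (XT.nd (nat_lit 51714) (nat_lit 0) (nat_lit 13528) ec138 ec139)) (XT.nd (nat_lit 54444) (nat_lit 0) (nat_lit 9880) (XT.nd (nat_lit 2808) (nat_lit 4788) (nat_lit 0) ec140 ec141) (XT.nd (nat_lit 2886) (nat_lit 12616) (nat_lit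 0) ec142 ec143)))) (XT.nd (nat_lit 120120) (nat_lit 456) (nat_lit 0) (XT.nd (nat_lit 60060) (nat_lit 304) (nat_lit 0) (XT.nd (nat_lit 54366) (nat_lit 0) (nat_lit 7676) (XT.nd (nat_lit 2808) (nat_lit 2584) (nat_lit 0) ec144 ec145) (XT.nd (nat_lit 2808) (nat_lit 10868) (nat_lit 0) ec146 ec147)) (XT.nd (nat_lit 54288) (nat_lit 0) (nat_lit 5548) (XT.nd (nat_lit 2808) (nat_lit 1140) (nat_lit 0) ec148 ec149) (XT.nd (nat_lit 2886) (nat_lit 9196) (nat_lit 0) ec150 ec151))) (XT.nd (nat_lit 59826) (nat_lit 304) (nat_lit 0) (XT.nd (nat_lit 54132) (nat_lit 0) (nat_lit 4180) (XT.nd (nat_lit 51246) (nat_lit 0) (nat_lit 26220) ec152 ec153) (XT.nd (nat_lit 2808) (nat_lit 8664) (nat_lit 0) ec154 ec155)) (XT.nd (nat_lit 54054) (nat_lit 0) (nat_lit 3116) (XT.nd (nat_lit 51168) (nat_lit 0) (nat_lit 23408) ec156 ec157) (XT.nd (nat_lit 2886) (nat_lit 7676) (nat_lit 0) ec158 ec159))))) (XT.nd (nat_lit 238134) (nat_lit 380) (nat_lit 0) (XT.nd (nat_lit 119262)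 (nat_lit 152) (nat_lit 0) (XT.nd (nat_lit 59670) (nat_lit 456) (nat_lit 0) (XT.nd (nat_lit 53976) (nat_lit 0) (nat_lit 2052) (XT.nd (nat_lit 51090) (nat_lit 0) (nat_lit 20596) ec160 ec161) (XT.nd (nat_lit 2808) (nat_lit 7144) (nat_lit 0) ec162 ec163)) (XT.nd (nat_lit 53820) (nat_lit 0) (nat_lit 1824) (XT.nd (nat_lit 50934) (nat_lit 0) (nat_lit 19152) ec164 ec165) (XT.nd (nat_lit 2886) (nat_lit 6764) (nat_lit 0) ec166 ec167))) (XT.nd (nat_lit 59436) (nat_lit 152) (nat_lit 0) (XT.nd (nat_lit 53742) (nat_lit 0) (nat_lit 1368) (XT.nd (nat_lit 50856) (nat_lit 0) (nat_lit 18012) ec168 ec169) (XT.nd (nat_lit 2808) (nat_lit 6460) (nat_lit 0) ec170 ec171)) (XT.nd (nat_lit 53664) (nat_lit 0) (nat_lit 1064) (XT.nd (nat_lit 50778) (nat_lit 0) (nat_lit 17480) ec172 ec173) (XT.nd (nat_lit 2886) (nat_lit 6232) (nat_lit 0) ec174 ec175)))) (XT.nd (nat_lit 118638) (nat_lit 152) (nat_lit 0) (XT.nd (nat_lit 59280) (nat_lit 228) (nat_lit 0) (XT.nd (nat_lit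 53586) (nat_lit 0) (nat_lit 912) (XT.nd (nat_lit 50700) (nat_lit 0) (nat_lit 16948) ec176 ec177) (XT.nd (nat_lit 2808) (nat_lit 6384) (nat_lit 0) ec178 ec179)) (XT.nd (nat_lit 53586) (nat_lit 0) (nat_lit 836) (XT.nd (nat_lit 50700) (nat_lit 0) (nat_lit 16644) ec180 ec181) (XT.nd (nat_lit 2886) (nat_lit 6004) (nat_lit 0) ec182 ec183))) (XT.nd (nat_lit 59358) (nat_lit 0) (nat_lit 0) (XT.nd (nat_lit 53664) (nat_lit 0) (nat_lit 532) (XT.nd (nat_lit 50778) (nat_lit 0) (nat_lit 15656) ec184 ec185) (XT.nd (nat_lit 2808) (nat_lit 6156) (nat_lit 0) ec186 ec187)) (XT.nd (nat_lit 53742) (nat_lit 0) (nat_lit 152) (XT.nd (nat_lit 50856) (nat_lit 0) (nat_lit 14592) ec188 ec189) (XT.nd (nat_lit 2886) (nat_lit 5928) (nat_lit 0) ec190 ec191)))))) (XT.nd (nat_lit 529776) (nat_lit 0) (nat_lit 0) (XT.nd (nat_lit 287586) (nat_lit 228) (nat_lit 0) (XT.nd (nat_lit 167544) (nat_lit 152) (nat_lit 0) (XT.nd (nat_lit 107718) (nat_lit 0) (nat_lit 0) (XT.nd (nat_lit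 53820) (nat_lit 152) (nat_lit 0) (XT.nd (nat_lit 50934) (nat_lit 0) (nat_lit 13376) ec192 ec193) (XT.nd (nat_lit 2808) (nat_lit 5624) (nat_lit 0) ec194 ec195)) (XT.nd (nat_lit 5694) (nat_lit 12160) (nat_lit 0) (XT.nd (nat_lit 2808) (nat_lit 12616) (nat_lit 0) ec196 ec197) (XT.nd (nat_lit 2886) (nat_lit 4484) (nat_lit 0) ec198 ec199))) (XT.nd (nat_lit 59904) (nat_lit 152) (nat_lit 0) (XT.nd (nat_lit 5694) (nat_lit 10564) (nat_lit 0) (XT.nd (nat_lit 2808) (nat_lit 11400) (nat_lit 0) ec200 ec201) (XT.nd (nat_lit 2808) (nat_lit 3420) (nat_lit 0) ec202 ec203)) (XT.nd (nat_lit 5694) (nat_lit 8512) (nat_lit 0) (XT.nd (nat_lit 2808) (nat_lit 9880) (nat_lit 0) ec204 ec205) (XT.nd (nat_lit 2886) (nat_lit 1976) (nat_lit 0) ec206 ec207)))) (XT.nd (nat_lit 120666) (nat_lit 0) (nat_lit 0) (XT.nd (nat_lit 60216) (nat_lit 228) (nat_lit 0) (XT.nd (nat_lit 5694) (nat_lit 6004) (nat_lit 0) (XT.nd (nat_lit 2808) (nat_lit 8664) (nat_lit 0) ec208 ec209) (XT.nd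 (nat_lit 2808) (nat_lit 532) (nat_lit 0) ec210 ec211)) (XT.nd (nat_lit 5694) (nat_lit 4104) (nat_lit 0) (XT.nd (nat_lit 2808) (nat_lit 7220) (nat_lit 0) ec212 ec213) (XT.nd (nat_lit 51870) (nat_lit 0) (nat_lit 16948) ec214 ec215))) (XT.nd (nat_lit 60606) (nat_lit 0) (nat_lit 0) (XT.nd (nat_lit 5694) (nat_lit 1748) (nat_lit 0) (XT.nd (nat_lit 2808) (nat_lit 6004) (nat_lit 0) ec216 ec217) (XT.nd (nat_lit 52026) (nat_lit 0) (nat_lit 12160) ec218 ec219)) (XT.nd (nat_lit 55146) (nat_lit 0) (nat_lit 7144) (XT.nd (nat_lit 2808) (nat_lit 4636) (nat_lit 0) ec220 ec221) (XT.nd (nat_lit 2886) (nat_lit 9272) (nat_lit 0) ec222 ec223))))) (XT.nd (nat_lit 297180) (nat_lit 0) (nat_lit 380) (XT.nd (nat_lit 172692) (nat_lit 0) (nat_lit 228) (XT.nd (nat_lit 61074) (nat_lit 0) (nat_lit 0) (XT.nd (nat_lit 55380) (nat_lit 0) (nat_lit 3116) (XT.nd (nat_lit 2808) (nat_lit 1292) (nat_lit 0) ec224 ec225) (XT.nd (nat_lit 2808) (nat_lit 6764) (nat_lit 0) ec226 ec227))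 (XT.nd (nat_lit 55614) (nat_lit 0) (nat_lit 0) (XT.nd (nat_lit 52728) (nat_lit 0) (nat_lit 12160) ec228 ec229) (XT.nd (nat_lit 2886) (nat_lit 4332) (nat_lit 0) ec230 ec231))) (XT.nd (nat_lit 62010) (nat_lit 0) (nat_lit 152) (XT.nd (nat_lit 5694) (nat_lit 5168) (nat_lit 0) (XT.nd (nat_lit 2808) (nat_lit 8056) (nat_lit 0) ec232 ec233) (XT.nd (nat_lit 53430) (nat_lit 0) (nat_lit 13224) ec234 ec235)) (XT.nd (nat_lit 56706) (nat_lit 0) (nat_lit 3952) (XT.nd (nat_lit 2808) (nat_lit 5016) (nat_lit 0) ec236 ec237) (XT.nd (nat_lit 2886) (nat_lit 7828) (nat_lit 0) ec238 ec239)))) (XT.nd (nat_lit 178308) (nat_lit 0) (nat_lit 532) (XT.nd (nat_lit 114582) (nat_lit 0) (nat_lit 380) (XT.nd (nat_lit 57096) (nat_lit 0) (nat_lit 152) (XT.nd (nat_lit 54210) (nat_lit 0) (nat_lit 9044) ec240 ec241) (XT.nd (nat_lit 2808) (nat_lit 2584) (nat_lit 0) ec242 ec243)) (XT.nd (nat_lit 5694) (nat_lit 152) (nat_lit 0) (XT.nd (nat_lit 2808) (nat_lit 5928) (nat_lit 0)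 ec244 ec245) (XT.nd (nat_lit 55146) (nat_lit 0) (nat_lit 2356) ec246 ec247))) (XT.nd (nat_lit 117624) (nat_lit 0) (nat_lit 684) (XT.nd (nat_lit 58500) (nat_lit 0) (nat_lit 228) (XT.nd (nat_lit 55614) (nat_lit 0) (nat_lit 3420) ec248 ec249) (XT.nd (nat_lit 56238) (nat_lit 0) (nat_lit 3496) ec250 ec251)) (XT.nd (nat_lit 59904) (nat_lit 0) (nat_lit 608) (XT.nd (nat_lit 57018) (nat_lit 0) (nat_lit 1520) ec252 ec253) (XT.nd (nat_lit 58110) (nat_lit 0) (nat_lit 912) ec254 ec255)))))))) XT.nil))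

set_option maxRecDepth 10000000 in
noncomputable def Tz : ZL := (ZL.cons (nat_lit 760) (nat_lit 3) (nat_lit 113837968272293282114) (ZL.cons (nat_lit 836) (nat_lit 6) (nat_lit 225563494645438343568) (ZL.cons (nat_lit 912) (nat_lit 6) (nat_lit 223495654014555099048) (ZL.cons (nat_lit 988) (nat_lit 3) (nat_lit 111726329456226079090) (ZL.cons (nat_lit 1140) (nat_lit 6) (nat_lit 221386456571054189636) (ZL.cons (nat_lit 1216) (nat_lit 6) (nat_lit 219364077345816438730) (ZL.cons (nat_lit 1292) (nat_lit 3) (nat_lit 109660962642465601294) (ZL.cons (nat_lit 1368) (nat_lit 6) (nat_lit 217384728146846655362) (ZL.cons (nat_lit 1444) (nat_lit 6) (nat_lit 217301250536073932806) (ZL.cons (nat_lit 1520) (nat_lit 6) (nat_lit 215323639903012240186) (ZL.cons (nat_lit 1596) (nat_lit 3) (nat_lit 107641157176562376886) (ZL.cons (nat_lit 1672) (nat_lit 6) (nat_lit 213388317852164531912) (ZL.cons (nat_lit 1748) (nat_lit 6) (nat_lit 213306477057289313716) (ZL.cons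 (nat_lit 1900) (nat_lit 6) (nat_lit 211372963810412383056) (ZL.cons (nat_lit 1976) (nat_lit 3) (nat_lit 105666224282712325637) (ZL.cons (nat_lit 2052) (nat_lit 6) (nat_lit 209481016372004990446) (ZL.cons (nat_lit 2128) (nat_lit 6) (nat_lit 209400780298597913782) (ZL.cons (nat_lit 2280) (nat_lit 6) (nat_lit 207510714739841718200) (ZL.cons (nat_lit 2356) (nat_lit 3) (nat_lit 103735496955711186659) (ZL.cons (nat_lit 2432) (nat_lit 6) (nat_lit 205661510686976160138) (ZL.cons (nat_lit 2508) (nat_lit 6) (nat_lit 205582847869910398706) (ZL.cons (nat_lit 2584) (nat_lit 6) (nat_lit 203852442961941292320) (ZL.cons (nat_lit 2660) (nat_lit 6) (nat_lit 203735601724633946034) (ZL.cons (nat_lit 2736) (nat_lit 3) (nat_lit 101848329867993764742) (ZL.cons (nat_lit 2812) (nat_lit 6) (nat_lit 201928531065339965716) (ZL.cons (nat_lit 2888) (nat_lit 6) (nat_lit 201851410656451964312) (ZL.cons (nat_lit 2964) (nat_lit 6) (nat_lit 200160927236867950306) (ZL.cons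 (nat_lit 3040) (nat_lit 6) (nat_lit 200046377004213689240) (ZL.cons (nat_lit 3116) (nat_lit 3) (nat_lit 100004099291986052193) (ZL.cons (nat_lit 3192) (nat_lit 6) (nat_lit 198280850922938493182) (ZL.cons (nat_lit 3268) (nat_lit 6) (nat_lit 198205242678930648666) (ZL.cons (nat_lit 3344) (nat_lit 6) (nat_lit 196554140049457248608) (ZL.cons (nat_lit 3420) (nat_lit 6) (nat_lit 196441835899796208348) (ZL.cons (nat_lit 3496) (nat_lit 3) (nat_lit 98202203038014974343) (ZL.cons (nat_lit 3648) (nat_lit 6) (nat_lit 194717286714498534628) (ZL.cons (nat_lit 3724) (nat_lit 6) (nat_lit 194643160985079079222) (ZL.cons (nat_lit 3800) (nat_lit 6) (nat_lit 193030918829239471560) (ZL.cons (nat_lit 3876) (nat_lit 6) (nat_lit 192920816721728647774) (ZL.cons (nat_lit 3952) (nat_lit 3) (nat_lit 96442060408037726015) (ZL.cons (nat_lit 4028) (nat_lit 6) (nat_lit 191382070923279701862) (ZL.cons (nat_lit 4104) (nat_lit 6) (nat_lit 191236697856855771824) (ZL.cons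 (nat_lit 4180) (nat_lit 6) (nat_lit 191164025573111207700) (ZL.cons (nat_lit 4256) (nat_lit 6) (nat_lit 189590143951689912984) (ZL.cons (nat_lit 4332) (nat_lit 6) (nat_lit 189482200709032242608) (ZL.cons (nat_lit 4408) (nat_lit 3) (nat_lit 94723112165470437114) (ZL.cons (nat_lit 4484) (nat_lit 6) (nat_lit 187980509298817280724) (ZL.cons (nat_lit 4560) (nat_lit 6) (nat_lit 187837986684676172844) (ZL.cons (nat_lit 4636) (nat_lit 6) (nat_lit 187766739347671698212) (ZL.cons (nat_lit 4712) (nat_lit 6) (nat_lit 186230738710229525442) (ZL.cons (nat_lit 4788) (nat_lit 6) (nat_lit 186124912001741613306) (ZL.cons (nat_lit 4864) (nat_lit 3) (nat_lit 93044820521414253527) (ZL.cons (nat_lit 4940) (nat_lit 6) (nat_lit 184659826492368987992) (ZL.cons (nat_lit 5016) (nat_lit 6) (nat_lit 184520098439289470460) (ZL.cons (nat_lit 5092) (nat_lit 6) (nat_lit 184450248108892926704) (ZL.cons (nat_lit 5168) (nat_lit 6) (nat_lit 182951669321663327656) (ZL.cons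 (nat_lit 5244) (nat_lit 6) (nat_lit 182847917646675178504) (ZL.cons (nat_lit 5320) (nat_lit 3) (nat_lit 91406669137595870500) (ZL.cons (nat_lit 5396) (nat_lit 6) (nat_lit 181419009578620978562) (ZL.cons (nat_lit 5472) (nat_lit 6) (nat_lit 181282021291288118240) (ZL.cons (nat_lit 5548) (nat_lit 6) (nat_lit 181213540575213075340) (ZL.cons (nat_lit 5624) (nat_lit 6) (nat_lit 179751944965729633334) (ZL.cons (nat_lit 5700) (nat_lit 6) (nat_lit 179650227637309879264) (ZL.cons (nat_lit 5776) (nat_lit 3) (nat_lit 89808163146359136934) (ZL.cons (nat_lit 5852) (nat_lit 6) (nat_lit 178257088640068132228) (ZL.cons (nat_lit 5928) (nat_lit 6) (nat_lit 178122786397584935832) (ZL.cons (nat_lit 6004) (nat_lit 6) (nat_lit 178055648440648619266) (ZL.cons (nat_lit 6080) (nat_lit 6) (nat_lit 176796866096136688844) (ZL.cons (nat_lit 6156) (nat_lit 6) (nat_lit 176630617859473647030) (ZL.cons (nat_lit 6232) (nat_lit 6) (nat_lit 176530894988473888138) (ZL.cons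 (nat_lit 6308) (nat_lit 3) (nat_lit 88248829188064588484) (ZL.cons (nat_lit 6384) (nat_lit 6) (nat_lit 175173136858843420196) (ZL.cons (nat_lit 6460) (nat_lit 6) (nat_lit 175041467993663815886) (ZL.cons (nat_lit 6536) (nat_lit 6) (nat_lit 174975646467255662390) (ZL.cons (nat_lit 6612) (nat_lit 6) (nat_lit 173749771834517537590) (ZL.cons (nat_lit 6688) (nat_lit 6) (nat_lit 173586783367200829932) (ZL.cons (nat_lit 6764) (nat_lit 6) (nat_lit 173489015846612831018) (ZL.cons (nat_lit 6840) (nat_lit 3) (nat_lit 86728215466274694346) (ZL.cons (nat_lit 6916) (nat_lit 6) (nat_lit 172166270644525533024) (ZL.cons (nat_lit 6992) (nat_lit 6) (nat_lit 172037183521800430762) (ZL.cons (nat_lit 7068) (nat_lit 6) (nat_lit 171972652613557143018) (ZL.cons (nat_lit 7144) (nat_lit 6) (nat_lit 170779372761825111322) (ZL.cons (nat_lit 7220) (nat_lit 6) (nat_lit 170619580146808731264) (ZL.cons (nat_lit 7296) (nat_lit 6) (nat_lit 170523729636428340172) (ZL.cons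 (nat_lit 7372) (nat_lit 3) (nat_lit 85245891821124247377) (ZL.cons (nat_lit 7448) (nat_lit 6) (nat_lit 169235649798745578924) (ZL.cons (nat_lit 7524) (nat_lit 6) (nat_lit 169109093796073910036) (ZL.cons (nat_lit 7600) (nat_lit 6) (nat_lit 169045828199756961270) (ZL.cons (nat_lit 7676) (nat_lit 6) (nat_lit 167884849759827419558) (ZL.cons (nat_lit 7752) (nat_lit 6) (nat_lit 167728190333340772442) (ZL.cons (nat_lit 7828) (nat_lit 6) (nat_lit 167634219244732545880) (ZL.cons (nat_lit 7904) (nat_lit 3) (nat_lit 83801449821297721266) (ZL.cons (nat_lit 7980) (nat_lit 6) (nat_lit 166566650304548795070) (ZL.cons (nat_lit 8056) (nat_lit 6) (nat_lit 166380477717459228120) (ZL.cons (nat_lit 8132) (nat_lit 6) (nat_lit 166256403205036023330) (ZL.cons (nat_lit 8208) (nat_lit 6) (nat_lit 166194378110607642186) (ZL.cons (nat_lit 8284) (nat_lit 6) (nat_lit 165065427433677950974) (ZL.cons (nat_lit 8360) (nat_lit 6) (nat_lit 164911839760651826350) (ZL.cons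 (nat_lit 8436) (nat_lit 6) (nat_lit 164819711242408466978) (ZL.cons (nat_lit 8512) (nat_lit 3) (nat_lit 82394502875058594591) (ZL.cons (nat_lit 8588) (nat_lit 6) (nat_lit 163782523776003301284) (ZL.cons (nat_lit 8664) (nat_lit 6) (nat_lit 163600001631797843492) (ZL.cons (nat_lit 8740) (nat_lit 6) (nat_lit 163478359952951564286) (ZL.cons (nat_lit 8816) (nat_lit 6) (nat_lit 163417551036845308262) (ZL.cons (nat_lit 8892) (nat_lit 6) (nat_lit 162320374372149033980) (ZL.cons (nat_lit 8968) (nat_lit 6) (nat_lit 162169798222123421606) (ZL.cons (nat_lit 9044) (nat_lit 6) (nat_lit 162079476145414245748) (ZL.cons (nat_lit 9120) (nat_lit 3) (nat_lit 81024686360799633760) (ZL.cons (nat_lit 9196) (nat_lit 6) (nat_lit 161072456167093770830) (ZL.cons (nat_lit 9272) (nat_lit 6) (nat_lit 160893512888460969072) (ZL.cons (nat_lit 9348) (nat_lit 6) (nat_lit 160774256340572460046) (ZL.cons (nat_lit 9424) (nat_lit 6) (nat_lit 160714639756154561984) (ZL.cons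 (nat_lit 9500) (nat_lit 6) (nat_lit 159649003447911790042) (ZL.cons (nat_lit 9576) (nat_lit 6) (nat_lit 159501379771416091632) (ZL.cons (nat_lit 9652) (nat_lit 6) (nat_lit 159412828715818860402) (ZL.cons (nat_lit 9728) (nat_lit 3) (nat_lit 79691657777607970284) (ZL.cons (nat_lit 9804) (nat_lit 6) (nat_lit 158435781857558022088) (ZL.cons (nat_lit 9880) (nat_lit 6) (nat_lit 158260347270663118404) (ZL.cons (nat_lit 9956) (nat_lit 6) (nat_lit 158143429086458697790) (ZL.cons (nat_lit 10032) (nat_lit 6) (nat_lit 158084981454676444788) (ZL.cons (nat_lit 10108) (nat_lit 6) (nat_lit 157253372344226977460) (ZL.cons (nat_lit 10184) (nat_lit 6) (nat_lit 157050672158901480366) (ZL.cons (nat_lit 10260) (nat_lit 6) (nat_lit 156905943064297854478) (ZL.cons (nat_lit 10336) (nat_lit 6) (nat_lit 156819128303908412092) (ZL.cons (nat_lit 10412) (nat_lit 3) (nat_lit 78395096916364539462) (ZL.cons (nat_lit 10488) (nat_lit 6) (nat_lit 155871880053734408252)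 (ZL.cons (nat_lit 10564) (nat_lit 6) (nat_lit 155699885360700188954) (ZL.cons (nat_lit 10640) (nat_lit 6) (nat_lit 155585259689911541294) (ZL.cons (nat_lit 10716) (nat_lit 6) (nat_lit 155527958090125018742) (ZL.cons (nat_lit 10792) (nat_lit 6) (nat_lit 154723508683748111054) (ZL.cons (nat_lit 10868) (nat_lit 6) (nat_lit 154524783011860368808) (ZL.cons (nat_lit 10944) (nat_lit 6) (nat_lit 154382891742641127738) (ZL.cons (nat_lit 11020) (nat_lit 6) (nat_lit 154297779232455399912) (ZL.cons (nat_lit 11096) (nat_lit 3) (nat_lit 77134706051924105264) (ZL.cons (nat_lit 11172) (nat_lit 6) (nat_lit 153380175193327868614) (ZL.cons (nat_lit 11248) (nat_lit 6) (nat_lit 153211552945255104596) (ZL.cons (nat_lit 11324) (nat_lit 6) (nat_lit 153099174836638783360) (ZL.cons (nat_lit 11400) (nat_lit 6) (nat_lit 153042996797632388702) (ZL.cons (nat_lit 11476) (nat_lit 6) (nat_lit 152265613039291499160) (ZL.cons (nat_lit 11552) (nat_lit 6) (nat_lit 152070783949205477348)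 (ZL.cons (nat_lit 11628) (nat_lit 6) (nat_lit 151931674861735633164) (ZL.cons (nat_lit 11704) (nat_lit 6) (nat_lit 151848231224298645096) (ZL.cons (nat_lit 11780) (nat_lit 3) (nat_lit 75910210156949719911) (ZL.cons (nat_lit 11856) (nat_lit 6) (nat_lit 151180659466553599122) (ZL.cons (nat_lit 11932) (nat_lit 6) (nat_lit 150960137394101638298) (ZL.cons (nat_lit 12008) (nat_lit 6) (nat_lit 150794821464618536320) (ZL.cons (nat_lit 12084) (nat_lit 6) (nat_lit 150684646848328025304) (ZL.cons (nat_lit 12160) (nat_lit 6) (nat_lit 150629570339498226620) (ZL.cons (nat_lit 12236) (nat_lit 6) (nat_lit 149879177732274919272) (ZL.cons (nat_lit 12312) (nat_lit 6) (nat_lit 149688168820425878282) (ZL.cons (nat_lit 12388) (nat_lit 6) (nat_lit 149551787362122109472) (ZL.cons (nat_lit 12464) (nat_lit 6) (nat_lit 149469979874438787840) (ZL.cons (nat_lit 12540) (nat_lit 3) (nat_lit 74721357138004097215) (ZL.cons (nat_lit 12616) (nat_lit 6) (nat_lit 148827481057975584306)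 (ZL.cons (nat_lit 12692) (nat_lit 6) (nat_lit 148611282947728563890) (ZL.cons (nat_lit 12768) (nat_lit 6) (nat_lit 148449208507058856068) (ZL.cons (nat_lit 12844) (nat_lit 6) (nat_lit 148341194177362276642) (ZL.cons (nat_lit 12920) (nat_lit 6) (nat_lit 148287197600078160284) (ZL.cons (nat_lit 12996) (nat_lit 6) (nat_lit 147563741538341221648) (ZL.cons (nat_lit 13072) (nat_lit 6) (nat_lit 147376477899273534400) (ZL.cons (nat_lit 13148) (nat_lit 6) (nat_lit 147242770587211015962) (ZL.cons (nat_lit 13224) (nat_lit 6) (nat_lit 147162567167913641810) (ZL.cons (nat_lit 13300) (nat_lit 3) (nat_lit 73567918094530059431) (ZL.cons (nat_lit 13376) (nat_lit 6) (nat_lit 146545133791711150636) (ZL.cons (nat_lit 13452) (nat_lit 6) (nat_lit 146333174860096424738) (ZL.cons (nat_lit 13528) (nat_lit 6) (nat_lit 146174278349635926874) (ZL.cons (nat_lit 13604) (nat_lit 6) (nat_lit 146068381947972613710) (ZL.cons (nat_lit 13680) (nat_lit 6) (nat_lit 146015444127105832968)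 (ZL.cons (nat_lit 13756) (nat_lit 6) (nat_lit 145555060253820064554) (ZL.cons (nat_lit 13832) (nat_lit 6) (nat_lit 145318890251080790956) (ZL.cons (nat_lit 13908) (nat_lit 6) (nat_lit 145135298448073254442) (ZL.cons (nat_lit 13984) (nat_lit 6) (nat_lit 145004212848011961852) (ZL.cons (nat_lit 14060) (nat_lit 6) (nat_lit 144925582044779242098) (ZL.cons (nat_lit 14136) (nat_lit 3) (nat_lit 72449687601382992152) (ZL.cons (nat_lit 14212) (nat_lit 6) (nat_lit 144333226313556430850) (ZL.cons (nat_lit 14288) (nat_lit 6) (nat_lit 144125423439424346636) (ZL.cons (nat_lit 14364) (nat_lit 6) (nat_lit 143969642546816015396) (ZL.cons (nat_lit 14440) (nat_lit 6) (nat_lit 143865822545185316216) (ZL.cons (nat_lit 14516) (nat_lit 6) (nat_lit 143813922720806119410) (ZL.cons (nat_lit 14592) (nat_lit 6) (nat_lit 143375796512645883884) (ZL.cons (nat_lit 14668) (nat_lit 6) (nat_lit 143144257294274047028) (ZL.cons (nat_lit 14744) (nat_lit 6) (nat_lit 142964265330541168088)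 (ZL.cons (nat_lit 14820) (nat_lit 6) (nat_lit 142835750036363430258) (ZL.cons (nat_lit 14896) (nat_lit 6) (nat_lit 142758661013586254026) (ZL.cons (nat_lit 14972) (nat_lit 3) (nat_lit 71366484015610157507) (ZL.cons (nat_lit 15048) (nat_lit 6) (nat_lit 142446225385682126312) (ZL.cons (nat_lit 15124) (nat_lit 6) (nat_lit 142191415241585041764) (ZL.cons (nat_lit 15200) (nat_lit 6) (nat_lit 141987686933612410182) (ZL.cons (nat_lit 15276) (nat_lit 6) (nat_lit 141834960568310124652) (ZL.cons (nat_lit 15352) (nat_lit 6) (nat_lit 141733176252985909770) (ZL.cons (nat_lit 15428) (nat_lit 6) (nat_lit 141682294072221991332) (ZL.cons (nat_lit 15504) (nat_lit 6) (nat_lit 141266523617807256734) (ZL.cons (nat_lit 15580) (nat_lit 6) (nat_lit 141039524384109377460) (ZL.cons (nat_lit 15656) (nat_lit 6) (nat_lit 140863061674567339288) (ZL.cons (nat_lit 15732) (nat_lit 6) (nat_lit 140737066288118576706) (ZL.cons (nat_lit 15808) (nat_lit 6) (nat_lit 140661488814807619618)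 (ZL.cons (nat_lit 15884) (nat_lit 3) (nat_lit 70318149808204820096) (ZL.cons (nat_lit 15960) (nat_lit 6) (nat_lit 140369219720343132018) (ZL.cons (nat_lit 16036) (nat_lit 6) (nat_lit 140119405853581284420) (ZL.cons (nat_lit 16112) (nat_lit 6) (nat_lit 139919672218313998556) (ZL.cons (nat_lit 16188) (nat_lit 6) (nat_lit 139769940487625483332) (ZL.cons (nat_lit 16264) (nat_lit 6) (nat_lit 139670151943189978544) (ZL.cons (nat_lit 16340) (nat_lit 6) (nat_lit 139620267452244960468) (ZL.cons (nat_lit 16416) (nat_lit 6) (nat_lit 139499151665311309134) (ZL.cons (nat_lit 16492) (nat_lit 6) (nat_lit 139226970511231845532) (ZL.cons (nat_lit 16568) (nat_lit 6) (nat_lit 139004422242900591344) (ZL.cons (nat_lit 16644) (nat_lit 6) (nat_lit 138831419586486828428) (ZL.cons (nat_lit 16720) (nat_lit 6) (nat_lit 138707894697811570998) (ZL.cons (nat_lit 16796) (nat_lit 6) (nat_lit 138633799135742005222) (ZL.cons (nat_lit 16872) (nat_lit 3) (nat_lit 69304551921597483286)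 (ZL.cons (nat_lit 16948) (nat_lit 6) (nat_lit 138361868382417002196) (ZL.cons (nat_lit 17024) (nat_lit 6) (nat_lit 138116952826768132004) (ZL.cons (nat_lit 17100) (nat_lit 6) (nat_lit 137921135537290400764) (ZL.cons (nat_lit 17176) (nat_lit 6) (nat_lit 137774339722889895642) (ZL.cons (nat_lit 17252) (nat_lit 6) (nat_lit 137676507816580577224) (ZL.cons (nat_lit 17328) (nat_lit 6) (nat_lit 137627601452908990874) (ZL.cons (nat_lit 17404) (nat_lit 6) (nat_lit 137523760211399964278) (ZL.cons (nat_lit 17480) (nat_lit 6) (nat_lit 137256915942694607806) (ZL.cons (nat_lit 17556) (nat_lit 6) (nat_lit 137038731365899260562) (ZL.cons (nat_lit 17632) (nat_lit 6) (nat_lit 136869120918434787116) (ZL.cons (nat_lit 17708) (nat_lit 6) (nat_lit 136748018086400221006) (ZL.cons (nat_lit 17784) (nat_lit 6) (nat_lit 136675375378488882014) (ZL.cons (nat_lit 17860) (nat_lit 3) (nat_lit 68325582153682167157) (ZL.cons (nat_lit 17936) (nat_lit 6) (nat_lit 136712317328309744702)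 (ZL.cons (nat_lit 18012) (nat_lit 6) (nat_lit 136423974321313715408) (ZL.cons (nat_lit 18088) (nat_lit 6) (nat_lit 136183861031461881884) (ZL.cons (nat_lit 18164) (nat_lit 6) (nat_lit 135991883296679792434) (ZL.cons (nat_lit 18240) (nat_lit 6) (nat_lit 135847965831581258000) (ZL.cons (nat_lit 18316) (nat_lit 6) (nat_lit 135752052197944671316) (ZL.cons (nat_lit 18392) (nat_lit 6) (nat_lit 135704104782580370974) (ZL.cons (nat_lit 18468) (nat_lit 6) (nat_lit 135617801318852364262) (ZL.cons (nat_lit 18544) (nat_lit 6) (nat_lit 135356189290709857916) (ZL.cons (nat_lit 18620) (nat_lit 6) (nat_lit 135142282842871282186) (ZL.cons (nat_lit 18696) (nat_lit 6) (nat_lit 134975998090455131748) (ZL.cons (nat_lit 18772) (nat_lit 6) (nat_lit 134857269823754576740) (ZL.cons (nat_lit 18848) (nat_lit 6) (nat_lit 134786051482665028706) (ZL.cons (nat_lit 18924) (nat_lit 3) (nat_lit 67381157569212638032) (ZL.cons (nat_lit 19000) (nat_lit 6) (nat_lit 134838080789035079328)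 (ZL.cons (nat_lit 19076) (nat_lit 6) (nat_lit 134555391566489952570) (ZL.cons (nat_lit 19152) (nat_lit 6) (nat_lit 134319986380360704018) (ZL.cons (nat_lit 19228) (nat_lit 6) (nat_lit 134131772914888067300) (ZL.cons (nat_lit 19304) (nat_lit 6) (nat_lit 133990677360869896288) (ZL.cons (nat_lit 19380) (nat_lit 6) (nat_lit 133896644386716379930) (ZL.cons (nat_lit 19456) (nat_lit 6) (nat_lit 133849637116751379596) (ZL.cons (nat_lit 19532) (nat_lit 6) (nat_lit 134084506959105069518) (ZL.cons (nat_lit 19608) (nat_lit 6) (nat_lit 133781153820478942352) (ZL.cons (nat_lit 19684) (nat_lit 6) (nat_lit 133524671439947073388) (ZL.cons (nat_lit 19760) (nat_lit 6) (nat_lit 133314959236183763848) (ZL.cons (nat_lit 19836) (nat_lit 6) (nat_lit 133151934969109106556) (ZL.cons (nat_lit 19912) (nat_lit 6) (nat_lit 133035534707637974194) (ZL.cons (nat_lit 19988) (nat_lit 6) (nat_lit 132965712804609005536) (ZL.cons (nat_lit 20064) (nat_lit 3) (nat_lit 66471220939441878922)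 (ZL.cons (nat_lit 20140) (nat_lit 6) (nat_lit 133033172430031332750) (ZL.cons (nat_lit 20216) (nat_lit 6) (nat_lit 132756026133418463378) (ZL.cons (nat_lit 20292) (nat_lit 6) (nat_lit 132525236735252533426) (ZL.cons (nat_lit 20368) (nat_lit 6) (nat_lit 132340713729887203312) (ZL.cons (nat_lit 20444) (nat_lit 6) (nat_lit 132202384755359584670) (ZL.cons (nat_lit 20520) (nat_lit 6) (nat_lit 132110195565013000008) (ZL.cons (nat_lit 20596) (nat_lit 6) (nat_lit 132064110006223783992) (ZL.cons (nat_lit 20672) (nat_lit 6) (nat_lit 132311154069111654112) (ZL.cons (nat_lit 20748) (nat_lit 6) (nat_lit 132013749031242901990) (ZL.cons (nat_lit 20824) (nat_lit 6) (nat_lit 131762295716995971630) (ZL.cons (nat_lit 20900) (nat_lit 6) (nat_lit 131556695517228021104) (ZL.cons (nat_lit 20976) (nat_lit 6) (nat_lit 131396867804409729640) (ZL.cons (nat_lit 21052) (nat_lit 6) (nat_lit 131282749901006658698) (ZL.cons (nat_lit 21128) (nat_lit 6) (nat_lit 131214297054899826678)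 (ZL.cons (nat_lit 21204) (nat_lit 3) (nat_lit 65595741210917929177) (ZL.cons (nat_lit 21280) (nat_lit 6) (nat_lit 131614815593264643822) (ZL.cons (nat_lit 21356) (nat_lit 6) (nat_lit 131297549044360712532) (ZL.cons (nat_lit 21432) (nat_lit 6) (nat_lit 131025836988857899422) (ZL.cons (nat_lit 21508) (nat_lit 6) (nat_lit 130799572873008948488) (ZL.cons (nat_lit 21584) (nat_lit 6) (nat_lit 130618667965788036612) (ZL.cons (nat_lit 21660) (nat_lit 6) (nat_lit 130483051324094292848) (ZL.cons (nat_lit 21736) (nat_lit 6) (nat_lit 130392669764930974548) (ZL.cons (nat_lit 21812) (nat_lit 6) (nat_lit 130347487844549390220) (ZL.cons (nat_lit 21888) (nat_lit 6) (nat_lit 130607145310031941202) (ZL.cons (nat_lit 21964) (nat_lit 6) (nat_lit 130315571743493948924) (ZL.cons (nat_lit 22040) (nat_lit 6) (nat_lit 130069048886389115240) (ZL.cons (nat_lit 22116) (nat_lit 6) (nat_lit 129867480063087202956) (ZL.cons (nat_lit 22192) (nat_lit 6) (nat_lit 129710786226990838780)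 (ZL.cons (nat_lit 22268) (nat_lit 6) (nat_lit 129598905929536847658) (ZL.cons (nat_lit 22344) (nat_lit 6) (nat_lit 129531795296098777050) (ZL.cons (nat_lit 22420) (nat_lit 3) (nat_lit 64754714004390580523) (ZL.cons (nat_lit 22496) (nat_lit 6) (nat_lit 129942267081694106128) (ZL.cons (nat_lit 22572) (nat_lit 6) (nat_lit 129631221445513781334) (ZL.cons (nat_lit 22648) (nat_lit 6) (nat_lit 129364837077373768482) (ZL.cons (nat_lit 22724) (nat_lit 6) (nat_lit 129143009512815973448) (ZL.cons (nat_lit 22800) (nat_lit 6) (nat_lit 128965651760638608864) (ZL.cons (nat_lit 22876) (nat_lit 6) (nat_lit 128832694268781997330) (ZL.cons (nat_lit 22952) (nat_lit 6) (nat_lit 128744084897053253900) (ZL.cons (nat_lit 23028) (nat_lit 6) (nat_lit 128699788896679151616) (ZL.cons (nat_lit 23104) (nat_lit 6) (nat_lit 129302653622787074830) (ZL.cons (nat_lit 23180) (nat_lit 6) (nat_lit 128972517722251522078) (ZL.cons (nat_lit 23256) (nat_lit 6) (nat_lit 128686661284469176710)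 (ZL.cons (nat_lit 23332) (nat_lit 6) (nat_lit 128444972208876202508) (ZL.cons (nat_lit 23408) (nat_lit 6) (nat_lit 128247355715442955174) (ZL.cons (nat_lit 23484) (nat_lit 6) (nat_lit 128093734307505343232) (ZL.cons (nat_lit 23560) (nat_lit 6) (nat_lit 127984047741373979390) (ZL.cons (nat_lit 23636) (nat_lit 6) (nat_lit 127918253002709204284) (ZL.cons (nat_lit 23712) (nat_lit 3) (nat_lit 63948162144826359002) (ZL.cons (nat_lit 23788) (nat_lit 6) (nat_lit 128339202258521578110) (ZL.cons (nat_lit 23864) (nat_lit 6) (nat_lit 128034255556384004784) (ZL.cons (nat_lit 23940) (nat_lit 6) (nat_lit 127773094411148698066) (ZL.cons (nat_lit 24016) (nat_lit 6) (nat_lit 127555616406680271564) (ZL.cons (nat_lit 24092) (nat_lit 6) (nat_lit 127381736257486776872) (ZL.cons (nat_lit 24168) (nat_lit 6) (nat_lit 127251385775274412622) (ZL.cons (nat_lit 24244) (nat_lit 6) (nat_lit 127164513842207017104) (ZL.cons (nat_lit 24320) (nat_lit 6) (nat_lit 127121086390859858002)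 (ZL.cons (nat_lit 24396) (nat_lit 6) (nat_lit 127731026695318565142) (ZL.cons (nat_lit 24472) (nat_lit 6) (nat_lit 127407364047734689896) (ZL.cons (nat_lit 24548) (nat_lit 6) (nat_lit 127127112638144155220) (ZL.cons (nat_lit 24624) (nat_lit 6) (nat_lit 126890162564033396202) (ZL.cons (nat_lit 24700) (nat_lit 6) (nat_lit 126696420903804722342) (ZL.cons (nat_lit 24776) (nat_lit 6) (nat_lit 126545811680336475342) (ZL.cons (nat_lit 24852) (nat_lit 6) (nat_lit 126438275831188079416) (ZL.cons (nat_lit 24928) (nat_lit 6) (nat_lit 126373771185438299902) (ZL.cons (nat_lit 25004) (nat_lit 3) (nat_lit 63176136223573813540) (ZL.cons (nat_lit 25080) (nat_lit 6) (nat_lit 127147752532421619246) (ZL.cons (nat_lit 25156) (nat_lit 6) (nat_lit 126805740918713918588) (ZL.cons (nat_lit 25232) (nat_lit 6) (nat_lit 126506773563677081992) (ZL.cons (nat_lit 25308) (nat_lit 6) (nat_lit 126250733225211095016) (ZL.cons (nat_lit 25384) (nat_lit 6) (nat_lit 126037519495340088640)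 (ZL.cons (nat_lit 25460) (nat_lit 6) (nat_lit 125867048760836662472) (ZL.cons (nat_lit 25536) (nat_lit 6) (nat_lit 125739254170432383796) (ZL.cons (nat_lit 25612) (nat_lit 6) (nat_lit 125654085608601603874) (ZL.cons (nat_lit 25688) (nat_lit 6) (nat_lit 125611509675908310640) (ZL.cons (nat_lit 25764) (nat_lit 6) (nat_lit 126589151034864898482) (ZL.cons (nat_lit 25840) (nat_lit 6) (nat_lit 126229150238682859186) (ZL.cons (nat_lit 25916) (nat_lit 6) (nat_lit 125911833917522197178) (ZL.cons (nat_lit 25992) (nat_lit 6) (nat_lit 125637077633609908282) (ZL.cons (nat_lit 26068) (nat_lit 6) (nat_lit 125404773639383673948) (ZL.cons (nat_lit 26144) (nat_lit 6) (nat_lit 125214830835237915264) (ZL.cons (nat_lit 26220) (nat_lit 6) (nat_lit 125067174733798457420) (ZL.cons (nat_lit 26296) (nat_lit 6) (nat_lit 124961747430711794748) (ZL.cons (nat_lit 26372) (nat_lit 6) (nat_lit 124898507581937501106) (ZL.cons (nat_lit 26448) (nat_lit 3) (nat_lit 62438715193767440347)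 (ZL.cons (nat_lit 26524) (nat_lit 6) (nat_lit 125677365893649342644) (ZL.cons (nat_lit 26600) (nat_lit 6) (nat_lit 125342060390014341998) (ZL.cons (nat_lit 26676) (nat_lit 6) (nat_lit 125048955139978227690) (ZL.cons (nat_lit 26752) (nat_lit 6) (nat_lit 124797935200305691436) (ZL.cons (nat_lit 26828) (nat_lit 6) (nat_lit 124588902131804704794) (ZL.cons (nat_lit 26904) (nat_lit 6) (nat_lit 124421773960722914434) (ZL.cons (nat_lit 26980) (nat_lit 6) (nat_lit 124296485146601072594) (ZL.cons (nat_lit 27056) (nat_lit 6) (nat_lit 124212986556570896202) (ZL.cons (nat_lit 27132) (nat_lit 6) (nat_lit 124171245446087275382) (ZL.cons (nat_lit 27208) (nat_lit 6) (nat_lit 125150171497595708762) (ZL.cons (nat_lit 27284) (nat_lit 6) (nat_lit 124797229540554493764) (ZL.cons (nat_lit 27360) (nat_lit 6) (nat_lit 124486135108044040818) (ZL.cons (nat_lit 27436) (nat_lit 6) (nat_lit 124216766202247679152) (ZL.cons (nat_lit 27512) (nat_lit 6) (nat_lit 123989017188300390590)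 (ZL.cons (nat_lit 27588) (nat_lit 6) (nat_lit 123802798752863372272) (ZL.cons (nat_lit 27664) (nat_lit 6) (nat_lit 123658037869099197916) (ZL.cons (nat_lit 27740) (nat_lit 6) (nat_lit 123554677768033842356) (ZL.cons (nat_lit 27816) (nat_lit 6) (nat_lit 123492677916294338786) (ZL.cons (nat_lit 27892) (nat_lit 3) (nat_lit 61736007000106669189) (ZL.cons (nat_lit 27968) (nat_lit 6) (nat_lit 124647360307621544350) (ZL.cons (nat_lit 28044) (nat_lit 6) (nat_lit 124277127709986001556) (ZL.cons (nat_lit 28120) (nat_lit 6) (nat_lit 123948396824069334258) (ZL.cons (nat_lit 28196) (nat_lit 6) (nat_lit 123661038735798633954) (ZL.cons (nat_lit 28272) (nat_lit 6) (nat_lit 123414940755727519980) (ZL.cons (nat_lit 28348) (nat_lit 6) (nat_lit 123210006374844199742) (ZL.cons (nat_lit 28424) (nat_lit 6) (nat_lit 123046155226724797428) (ZL.cons (nat_lit 28500) (nat_lit 6) (nat_lit 122923323056017109352) (ZL.cons (nat_lit 28576) (nat_lit 6) (nat_lit 122841461693242426614)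 (ZL.cons (nat_lit 28652) (nat_lit 6) (nat_lit 122800539035905543456) (ZL.cons (nat_lit 28728) (nat_lit 6) (nat_lit 124168735142868036010) (ZL.cons (nat_lit 28804) (nat_lit 6) (nat_lit 123781550936806681652) (ZL.cons (nat_lit 28880) (nat_lit 6) (nat_lit 123435529410295686558) (ZL.cons (nat_lit 28956) (nat_lit 6) (nat_lit 123130534868618771902) (ZL.cons (nat_lit 29032) (nat_lit 6) (nat_lit 122866447706073319290) (ZL.cons (nat_lit 29108) (nat_lit 6) (nat_lit 122643164359066173640) (ZL.cons (nat_lit 29184) (nat_lit 6) (nat_lit 122460597265500469406) (ZL.cons (nat_lit 29260) (nat_lit 6) (nat_lit 122318674830437553372) (ZL.cons (nat_lit 29336) (nat_lit 6) (nat_lit 122217341398020538118) (ZL.cons (nat_lit 29412) (nat_lit 6) (nat_lit 122156557229648475792) (ZL.cons (nat_lit 29488) (nat_lit 3) (nat_lit 61068149244196296521) (ZL.cons (nat_lit 29564) (nat_lit 6) (nat_lit 123310304877183914710) (ZL.cons (nat_lit 29640) (nat_lit 6) (nat_lit 122947331742247108052)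 (ZL.cons (nat_lit 29716) (nat_lit 6) (nat_lit 122625046559975865600) (ZL.cons (nat_lit 29792) (nat_lit 6) (nat_lit 122343322944024198636) (ZL.cons (nat_lit 29868) (nat_lit 6) (nat_lit 122102050414542714348) (ZL.cons (nat_lit 29944) (nat_lit 6) (nat_lit 121901134354853184702) (ZL.cons (nat_lit 30020) (nat_lit 6) (nat_lit 121740495974343966748) (ZL.cons (nat_lit 30096) (nat_lit 6) (nat_lit 121620072277571723536) (ZL.cons (nat_lit 30172) (nat_lit 6) (nat_lit 121539816039557328694) (ZL.cons (nat_lit 30248) (nat_lit 6) (nat_lit 121499695787266266776) (ZL.cons (nat_lit 30324) (nat_lit 6) (nat_lit 122863204728741378074) (ZL.cons (nat_lit 30400) (nat_lit 6) (nat_lit 122483612369857697334) (ZL.cons (nat_lit 30476) (nat_lit 6) (nat_lit 122144375579160643318) (ZL.cons (nat_lit 30552) (nat_lit 6) (nat_lit 121845361322614648558) (ZL.cons (nat_lit 30628) (nat_lit 6) (nat_lit 121586452339726949918) (ZL.cons (nat_lit 30704) (nat_lit 6) (nat_lit 121367547097563081634)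 (ZL.cons (nat_lit 30780) (nat_lit 6) (nat_lit 121188559750930038268) (ZL.cons (nat_lit 30856) (nat_lit 6) (nat_lit 121049420108711493136) (ZL.cons (nat_lit 30932) (nat_lit 6) (nat_lit 120950073606341870336) (ZL.cons (nat_lit 31008) (nat_lit 6) (nat_lit 120890481284408475902) (ZL.cons (nat_lit 31084) (nat_lit 3) (nat_lit 60435309886686648367) (ZL.cons (nat_lit 31160) (nat_lit 6) (nat_lit 122440075158087525654) (ZL.cons (nat_lit 31236) (nat_lit 6) (nat_lit 122044189442393184048) (ZL.cons (nat_lit 31312) (nat_lit 6) (nat_lit 121688333427749255950) (ZL.cons (nat_lit 31388) (nat_lit 6) (nat_lit 121372367562777449626) (ZL.cons (nat_lit 31464) (nat_lit 6) (nat_lit 121096167939295423190) (ZL.cons (nat_lit 31540) (nat_lit 6) (nat_lit 120859626243725340554) (ZL.cons (nat_lit 31616) (nat_lit 6) (nat_lit 120662649714617958550) (ZL.cons (nat_lit 31692) (nat_lit 6) (nat_lit 120505161106275588006) (ZL.cons (nat_lit 31768) (nat_lit 6) (nat_lit 120387098658459663286)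 (ZL.cons (nat_lit 31844) (nat_lit 6) (nat_lit 120308416072171040894) (ZL.cons (nat_lit 31920) (nat_lit 6) (nat_lit 120269082491493529210) (ZL.cons (nat_lit 31996) (nat_lit 6) (nat_lit 122040750232057395156) (ZL.cons (nat_lit 32072) (nat_lit 6) (nat_lit 121628890637136915446) (ZL.cons (nat_lit 32148) (nat_lit 6) (nat_lit 121256741265682326482) (ZL.cons (nat_lit 32224) (nat_lit 6) (nat_lit 120924156176763646076) (ZL.cons (nat_lit 32300) (nat_lit 6) (nat_lit 120631004944855808076) (ZL.cons (nat_lit 32376) (nat_lit 6) (nat_lit 120377172608691397644) (ZL.cons (nat_lit 32452) (nat_lit 6) (nat_lit 120162559626177801288) (ZL.cons (nat_lit 32528) (nat_lit 6) (nat_lit 119987081835361092106) (ZL.cons (nat_lit 32604) (nat_lit 6) (nat_lit 119850670421421341974) (ZL.cons (nat_lit 32680) (nat_lit 6) (nat_lit 119753271889686417662) (ZL.cons (nat_lit 32756) (nat_lit 6) (nat_lit 119694848044653678020) (ZL.cons (nat_lit 32832) (nat_lit 3) (nat_lit 59837687987505672752)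 (ZL.cons (nat_lit 32908) (nat_lit 6) (nat_lit 121665073352640778684) (ZL.cons (nat_lit 32984) (nat_lit 6) (nat_lit 121237553091812320442) (ZL.cons (nat_lit 33060) (nat_lit 6) (nat_lit 120849429841131593374) (ZL.cons (nat_lit 33136) (nat_lit 6) (nat_lit 120500551395402252102) (ZL.cons (nat_lit 33212) (nat_lit 6) (nat_lit 120190780939547540020) (ZL.cons (nat_lit 33288) (nat_lit 6) (nat_lit 119919996994957318024) (ZL.cons (nat_lit 33364) (nat_lit 6) (nat_lit 119688093371849393872) (ZL.cons (nat_lit 33440) (nat_lit 6) (nat_lit 119494979127626470338) (ZL.cons (nat_lit 33516) (nat_lit 6) (nat_lit 119340578531212381568) (ZL.cons (nat_lit 33592) (nat_lit 6) (nat_lit 119224831033353631844) (ZL.cons (nat_lit 33668) (nat_lit 6) (nat_lit 119147691242874590282) (ZL.cons (nat_lit 33744) (nat_lit 6) (nat_lit 119109128908877029808) (ZL.cons (nat_lit 33820) (nat_lit 6) (nat_lit 120870023340715350172) (ZL.cons (nat_lit 33896) (nat_lit 6) (nat_lit 120466239424126644572)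 (ZL.cons (nat_lit 33972) (nat_lit 6) (nat_lit 120101387099171165196) (ZL.cons (nat_lit 34048) (nat_lit 6) (nat_lit 119775323286505792248) (ZL.cons (nat_lit 34124) (nat_lit 6) (nat_lit 119487920117968696170) (ZL.cons (nat_lit 34200) (nat_lit 6) (nat_lit 119239064886434960454) (ZL.cons (nat_lit 34276) (nat_lit 6) (nat_lit 119028660001617709124) (ZL.cons (nat_lit 34352) (nat_lit 6) (nat_lit 118856622951797406002) (ZL.cons (nat_lit 34428) (nat_lit 6) (nat_lit 118722886271464317640) (ZL.cons (nat_lit 34504) (nat_lit 6) (nat_lit 118627397514861450666) (ZL.cons (nat_lit 34580) (nat_lit 6) (nat_lit 118570119235417588272) (ZL.cons (nat_lit 34656) (nat_lit 3) (nat_lit 59275514485531180157) (ZL.cons (nat_lit 34732) (nat_lit 6) (nat_lit 120526157254531848964) (ZL.cons (nat_lit 34808) (nat_lit 6) (nat_lit 120107019743915713430) (ZL.cons (nat_lit 34884) (nat_lit 6) (nat_lit 119726506753052255522) (ZL.cons (nat_lit 34960) (nat_lit 6) (nat_lit 119384469061160744470)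 (ZL.cons (nat_lit 35036) (nat_lit 6) (nat_lit 119080772535812987526) (ZL.cons (nat_lit 35112) (nat_lit 6) (nat_lit 118815298080332377728) (ZL.cons (nat_lit 35188) (nat_lit 6) (nat_lit 118587941587089314834) (ZL.cons (nat_lit 35264) (nat_lit 6) (nat_lit 118398613896674683916) (ZL.cons (nat_lit 35340) (nat_lit 6) (nat_lit 118247240762935381202) (ZL.cons (nat_lit 35416) (nat_lit 6) (nat_lit 118133762823858175590) (ZL.cons (nat_lit 35492) (nat_lit 6) (nat_lit 118058135578290487784) (ZL.cons (nat_lit 35568) (nat_lit 6) (nat_lit 118020329368488957906) (ZL.cons (nat_lit 35644) (nat_lit 6) (nat_lit 120205819983816254658) (ZL.cons (nat_lit 35720) (nat_lit 6) (nat_lit 119771629930035972130) (ZL.cons (nat_lit 35796) (nat_lit 6) (nat_lit 119375763345145084288) (ZL.cons (nat_lit 35872) (nat_lit 6) (nat_lit 119018064987345594704) (ZL.cons (nat_lit 35948) (nat_lit 6) (nat_lit 118698394582771699656) (ZL.cons (nat_lit 36024) (nat_lit 6) (nat_lit 118416626770480428992)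 (ZL.cons (nat_lit 36100) (nat_lit 6) (nat_lit 118172651053290492016) (ZL.cons (nat_lit 36176) (nat_lit 6) (nat_lit 117966371754450049534) (ZL.cons (nat_lit 36252) (nat_lit 6) (nat_lit 117797707980116419024) (ZL.cons (nat_lit 36328) (nat_lit 6) (nat_lit 117666593587632999060) (ZL.cons (nat_lit 36404) (nat_lit 6) (nat_lit 117572977159590972616) (ZL.cons (nat_lit 36480) (nat_lit 6) (nat_lit 117516821983665617326) (ZL.cons (nat_lit 36556) (nat_lit 3) (nat_lit 58749053019109657703) (ZL.cons (nat_lit 36632) (nat_lit 6) (nat_lit 119384770682835011880) (ZL.cons (nat_lit 36708) (nat_lit 6) (nat_lit 119635238576675118692) (ZL.cons (nat_lit 36784) (nat_lit 6) (nat_lit 119908885906109463104) (ZL.cons (nat_lit 36860) (nat_lit 6) (nat_lit 119459938457070212934) (ZL.cons (nat_lit 36936) (nat_lit 6) (nat_lit 119049019329015178098) (ZL.cons (nat_lit 37012) (nat_lit 6) (nat_lit 118675967377188258580) (ZL.cons (nat_lit 37088) (nat_lit 6) (nat_lit 118340636306706385000)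 (ZL.cons (nat_lit 37164) (nat_lit 6) (nat_lit 118042894615188976232) (ZL.cons (nat_lit 37240) (nat_lit 6) (nat_lit 117782625541188378390) (ZL.cons (nat_lit 37316) (nat_lit 6) (nat_lit 117559727018401061826) (ZL.cons (nat_lit 37392) (nat_lit 6) (nat_lit 117374111635641619752) (ZL.cons (nat_lit 37468) (nat_lit 6) (nat_lit 117225706602563871992) (ZL.cons (nat_lit 37544) (nat_lit 6) (nat_lit 117114453721115631196) (ZL.cons (nat_lit 37620) (nat_lit 6) (nat_lit 117040309362715937268) (ZL.cons (nat_lit 37696) (nat_lit 6) (nat_lit 117003244451145809936) (ZL.cons (nat_lit 37772) (nat_lit 3) (nat_lit 58760693927333494616) (ZL.cons (nat_lit 37848) (nat_lit 6) (nat_lit 117532795801187633424) (ZL.cons (nat_lit 37924) (nat_lit 6) (nat_lit 117567024114454083896) (ZL.cons (nat_lit 38000) (nat_lit 6) (nat_lit 117624086217334288282) (ZL.cons (nat_lit 38076) (nat_lit 6) (nat_lit 117704004487123493718) (ZL.cons (nat_lit 38152) (nat_lit 6) (nat_lit 117806810264319656754)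 (ZL.cons (nat_lit 38228) (nat_lit 6) (nat_lit 117932543864913834708) (ZL.cons (nat_lit 38304) (nat_lit 6) (nat_lit 118081254596200378242) (ZL.cons (nat_lit 38380) (nat_lit 6) (nat_lit 118253000776113125214) (ZL.cons (nat_lit 38456) (nat_lit 6) (nat_lit 118447849756095178660) (ZL.cons (nat_lit 38532) (nat_lit 6) (nat_lit 118665877947511237428) (ZL.cons (nat_lit 38608) (nat_lit 6) (nat_lit 118907170851612837224) (ZL.cons (nat_lit 38684) (nat_lit 6) (nat_lit 119171823093068253190) (ZL.cons (nat_lit 38760) (nat_lit 6) (nat_lit 118746146569754250712) (ZL.cons (nat_lit 38836) (nat_lit 6) (nat_lit 118358042074763184200) (ZL.cons (nat_lit 38912) (nat_lit 6) (nat_lit 118007357410253880686) (ZL.cons (nat_lit 38988) (nat_lit 6) (nat_lit 117693955052828493386) (ZL.cons (nat_lit 39064) (nat_lit 6) (nat_lit 117417712099601757440) (ZL.cons (nat_lit 39140) (nat_lit 6) (nat_lit 117178520220003780010) (ZL.cons (nat_lit 39216) (nat_lit 6) (nat_lit 116976285613297463854)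 (ZL.cons (nat_lit 39292) (nat_lit 6) (nat_lit 116810928971793904530) (ZL.cons (nat_lit 39368) (nat_lit 6) (nat_lit 116682385449751335938) (ZL.cons (nat_lit 39444) (nat_lit 6) (nat_lit 116590604637945427658) (ZL.cons (nat_lit 39520) (nat_lit 6) (nat_lit 116535550543900961688) (ZL.cons (nat_lit 39596) (nat_lit 3) (nat_lit 58258600788888568138) (ZL.cons (nat_lit 39672) (nat_lit 6) (nat_lit 116939646840957458466) (ZL.cons (nat_lit 39748) (nat_lit 6) (nat_lit 116962690892929159732) (ZL.cons (nat_lit 39824) (nat_lit 6) (nat_lit 117008788033755688422) (ZL.cons (nat_lit 39900) (nat_lit 6) (nat_lit 117077956340747172590) (ZL.cons (nat_lit 39976) (nat_lit 6) (nat_lit 117170222938729883404) (ZL.cons (nat_lit 40052) (nat_lit 6) (nat_lit 117285624010683421922) (ZL.cons (nat_lit 40128) (nat_lit 6) (nat_lit 117424204811930122872) (ZL.cons (nat_lit 40204) (nat_lit 6) (nat_lit 117586019687882239860) (ZL.cons (nat_lit 40280) (nat_lit 6) (nat_lit 117771132095353871754)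 (ZL.cons (nat_lit 40356) (nat_lit 6) (nat_lit 117979614627445987822) (ZL.cons (nat_lit 40432) (nat_lit 6) (nat_lit 118211549042014310464) (ZL.cons (nat_lit 40508) (nat_lit 6) (nat_lit 118467026293731219414) (ZL.cons (nat_lit 40584) (nat_lit 6) (nat_lit 118064164403481185260) (ZL.cons (nat_lit 40660) (nat_lit 6) (nat_lit 117698427195807734752) (ZL.cons (nat_lit 40736) (nat_lit 6) (nat_lit 117369671244354917518) (ZL.cons (nat_lit 40812) (nat_lit 6) (nat_lit 117077767625220203040) (ZL.cons (nat_lit 40888) (nat_lit 6) (nat_lit 116822601866396087506) (ZL.cons (nat_lit 40964) (nat_lit 6) (nat_lit 116604073902879110484) (ZL.cons (nat_lit 41040) (nat_lit 6) (nat_lit 116422098037428677078) (ZL.cons (nat_lit 41116) (nat_lit 6) (nat_lit 116276602906960296922) (ZL.cons (nat_lit 41192) (nat_lit 6) (nat_lit 116167531454560060846) (ZL.cons (nat_lit 41268) (nat_lit 6) (nat_lit 116094840907109380524) (ZL.cons (nat_lit 41344) (nat_lit 6) (nat_lit 116058502758511216474)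 (ZL.cons (nat_lit 41420) (nat_lit 3) (nat_lit 58190360230155948012) (ZL.cons (nat_lit 41496) (nat_lit 6) (nat_lit 116392356565762953098) (ZL.cons (nat_lit 41572) (nat_lit 6) (nat_lit 116427269445294732582) (ZL.cons (nat_lit 41648) (nat_lit 6) (nat_lit 116485472790232541054) (ZL.cons (nat_lit 41724) (nat_lit 6) (nat_lit 116566989425417530600) (ZL.cons (nat_lit 41800) (nat_lit 6) (nat_lit 116671851318157616896) (ZL.cons (nat_lit 41876) (nat_lit 6) (nat_lit 116800099590763678410) (ZL.cons (nat_lit 41952) (nat_lit 6) (nat_lit 116951784536675952814) (ZL.cons (nat_lit 42028) (nat_lit 6) (nat_lit 117126965640186954724) (ZL.cons (nat_lit 42104) (nat_lit 6) (nat_lit 117325711599768649240) (ZL.cons (nat_lit 42180) (nat_lit 6) (nat_lit 117548100355013029182) (ZL.cons (nat_lit 42256) (nat_lit 6) (nat_lit 117794219117196660978) (ZL.cons (nat_lit 42332) (nat_lit 6) (nat_lit 117413724514264242828) (ZL.cons (nat_lit 42408) (nat_lit 6) (nat_lit 117069916019647278600)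 (ZL.cons (nat_lit 42484) (nat_lit 6) (nat_lit 116762658806485134188) (ZL.cons (nat_lit 42560) (nat_lit 6) (nat_lit 116491832381753040122) (ZL.cons (nat_lit 42636) (nat_lit 6) (nat_lit 116257330539009924996) (ZL.cons (nat_lit 42712) (nat_lit 6) (nat_lit 116059061316748830724) (ZL.cons (nat_lit 42788) (nat_lit 6) (nat_lit 115896946962333576486) (ZL.cons (nat_lit 42864) (nat_lit 6) (nat_lit 115770923901507528846) (ZL.cons (nat_lit 42940) (nat_lit 6) (nat_lit 115680942713462520728) (ZL.cons (nat_lit 43016) (nat_lit 6) (nat_lit 115626968111458142326) (ZL.cons (nat_lit 43092) (nat_lit 3) (nat_lit 57804489464491901844) (ZL.cons (nat_lit 43168) (nat_lit 6) (nat_lit 115855797472435006660) (ZL.cons (nat_lit 43244) (nat_lit 6) (nat_lit 115879302405446141952) (ZL.cons (nat_lit 43320) (nat_lit 6) (nat_lit 115926321489089201218) (ZL.cons (nat_lit 43396) (nat_lit 6) (nat_lit 115996873162220515068) (ZL.cons (nat_lit 43472) (nat_lit 6) (nat_lit 116090985092162880096)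 (ZL.cons (nat_lit 43548) (nat_lit 6) (nat_lit 116208694185555489388) (ZL.cons (nat_lit 43624) (nat_lit 6) (nat_lit 116350046602827124356) (ZL.cons (nat_lit 43700) (nat_lit 6) (nat_lit 116515097776298283682) (ZL.cons (nat_lit 43776) (nat_lit 6) (nat_lit 116703912431919348214) (ZL.cons (nat_lit 43852) (nat_lit 6) (nat_lit 116916564614653306604) (ZL.cons (nat_lit 43928) (nat_lit 6) (nat_lit 117153137717512995700) (ZL.cons (nat_lit 44004) (nat_lit 6) (nat_lit 116794571827637063830) (ZL.cons (nat_lit 44080) (nat_lit 6) (nat_lit 116472262071310772424) (ZL.cons (nat_lit 44156) (nat_lit 6) (nat_lit 116186082052551248424) (ZL.cons (nat_lit 44232) (nat_lit 6) (nat_lit 115935919543900154766) (ZL.cons (nat_lit 44308) (nat_lit 6) (nat_lit 115721676442412922390) (ZL.cons (nat_lit 44384) (nat_lit 6) (nat_lit 115543268731187007286) (ZL.cons (nat_lit 44460) (nat_lit 6) (nat_lit 115400626446414085564) (ZL.cons (nat_lit 44536) (nat_lit 6) (nat_lit 115293693649943265882)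 (ZL.cons (nat_lit 44612) (nat_lit 6) (nat_lit 115222428407344559684) (ZL.cons (nat_lit 44688) (nat_lit 6) (nat_lit 115186802771464006694) (ZL.cons (nat_lit 44764) (nat_lit 3) (nat_lit 57676401598807301788) (ZL.cons (nat_lit 44840) (nat_lit 6) (nat_lit 115364672025174681794) (ZL.cons (nat_lit 44916) (nat_lit 6) (nat_lit 115400283162297096868) (ZL.cons (nat_lit 44992) (nat_lit 6) (nat_lit 115459650574133661512) (ZL.cons (nat_lit 45068) (nat_lit 6) (nat_lit 115542797542022350844) (ZL.cons (nat_lit 45144) (nat_lit 6) (nat_lit 115649756672617238868) (ZL.cons (nat_lit 45220) (nat_lit 6) (nat_lit 115780569910675421614) (ZL.cons (nat_lit 45296) (nat_lit 6) (nat_lit 115935288555505941504) (ZL.cons (nat_lit 45372) (nat_lit 6) (nat_lit 116113973281087163452) (ZL.cons (nat_lit 45448) (nat_lit 6) (nat_lit 116316694159860491858) (ZL.cons (nat_lit 45524) (nat_lit 6) (nat_lit 116543530690209759402) (ZL.cons (nat_lit 45600) (nat_lit 6) (nat_lit 116206463538624500354)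 (ZL.cons (nat_lit 45676) (nat_lit 6) (nat_lit 115905230976700829360) (ZL.cons (nat_lit 45752) (nat_lit 6) (nat_lit 115639714874022305768) (ZL.cons (nat_lit 45828) (nat_lit 6) (nat_lit 115409811106627094860) (ZL.cons (nat_lit 45904) (nat_lit 6) (nat_lit 115215429516175041652) (ZL.cons (nat_lit 45980) (nat_lit 6) (nat_lit 115056493874591459064) (ZL.cons (nat_lit 46056) (nat_lit 6) (nat_lit 114932941854173765300) (ZL.cons (nat_lit 46132) (nat_lit 6) (nat_lit 114844725003149247538) (ZL.cons (nat_lit 46208) (nat_lit 6) (nat_lit 114791808726674366752) (ZL.cons (nat_lit 46284) (nat_lit 3) (nat_lit 57387086136634076200) (ZL.cons (nat_lit 46360) (nat_lit 6) (nat_lit 114883176488644951532) (ZL.cons (nat_lit 46436) (nat_lit 6) (nat_lit 114907151520316309532) (ZL.cons (nat_lit 46512) (nat_lit 6) (nat_lit 114955110985632229984) (ZL.cons (nat_lit 46588) (nat_lit 6) (nat_lit 115027073692226170110) (ZL.cons (nat_lit 46664) (nat_lit 6) (nat_lit 115123067860767382438)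 (ZL.cons (nat_lit 46740) (nat_lit 6) (nat_lit 115243131136027843916) (ZL.cons (nat_lit 46816) (nat_lit 6) (nat_lit 115387310601644911584) (ZL.cons (nat_lit 46892) (nat_lit 6) (nat_lit 115555662798585494096) (ZL.cons (nat_lit 46968) (nat_lit 6) (nat_lit 115748253747318979918) (ZL.cons (nat_lit 47044) (nat_lit 6) (nat_lit 115965158973707617478) (ZL.cons (nat_lit 47120) (nat_lit 6) (nat_lit 115649169016524978842) (ZL.cons (nat_lit 47196) (nat_lit 6) (nat_lit 115368600370682308256) (ZL.cons (nat_lit 47272) (nat_lit 6) (nat_lit 115123343009259667414) (ZL.cons (nat_lit 47348) (nat_lit 6) (nat_lit 114913300752899635674) (ZL.cons (nat_lit 47424) (nat_lit 6) (nat_lit 114738391232089914982) (ZL.cons (nat_lit 47500) (nat_lit 6) (nat_lit 114598545854861560352) (ZL.cons (nat_lit 47576) (nat_lit 6) (nat_lit 114493709779890168508) (ZL.cons (nat_lit 47652) (nat_lit 6) (nat_lit 114423841894989476158) (ZL.cons (nat_lit 47728) (nat_lit 6) (nat_lit 114388914800988934010)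 (ZL.cons (nat_lit 47804) (nat_lit 3) (nat_lit 57217313487038959950) (ZL.cons (nat_lit 47880) (nat_lit 6) (nat_lit 114446733178189199682) (ZL.cons (nat_lit 47956) (nat_lit 6) (nat_lit 114483056538054063060) (ZL.cons (nat_lit 48032) (nat_lit 6) (nat_lit 114543611298127358994) (ZL.cons (nat_lit 48108) (nat_lit 6) (nat_lit 114628421205373822116) (ZL.cons (nat_lit 48184) (nat_lit 6) (nat_lit 114737519518580607898) (ZL.cons (nat_lit 48260) (nat_lit 6) (nat_lit 114870949021399954298) (ZL.cons (nat_lit 48336) (nat_lit 6) (nat_lit 115028762039127084588) (ZL.cons (nat_lit 48412) (nat_lit 6) (nat_lit 115211020459219930974) (ZL.cons (nat_lit 48488) (nat_lit 6) (nat_lit 115417795755568725950) (ZL.cons (nat_lit 48564) (nat_lit 6) (nat_lit 115122469714467087722) (ZL.cons (nat_lit 48640) (nat_lit 6) (nat_lit 114862159809880299886) (ZL.cons (nat_lit 48716) (nat_lit 6) (nat_lit 114636763959492838212) (ZL.cons (nat_lit 48792) (nat_lit 6) (nat_lit 114446193772775138988)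 (ZL.cons (nat_lit 48868) (nat_lit 6) (nat_lit 114290374516320646254) (ZL.cons (nat_lit 48944) (nat_lit 6) (nat_lit 114169245084538593544) (ZL.cons (nat_lit 49020) (nat_lit 6) (nat_lit 114082757975691027112) (ZL.cons (nat_lit 49096) (nat_lit 6) (nat_lit 114030879273264673400) (ZL.cons (nat_lit 49172) (nat_lit 3) (nat_lit 57006794316335172802) (ZL.cons (nat_lit 49248) (nat_lit 6) (nat_lit 114018847579703168458) (ZL.cons (nat_lit 49324) (nat_lit 6) (nat_lit 114043302112007953618) (ZL.cons (nat_lit 49400) (nat_lit 6) (nat_lit 114092220766630192478) (ZL.cons (nat_lit 49476) (nat_lit 6) (nat_lit 114165622727356011408) (ZL.cons (nat_lit 49552) (nat_lit 6) (nat_lit 114263536779268047984) (ZL.cons (nat_lit 49628) (nat_lit 6) (nat_lit 114386001320033718688) (ZL.cons (nat_lit 49704) (nat_lit 6) (nat_lit 114533064374963127710) (ZL.cons (nat_lit 49780) (nat_lit 6) (nat_lit 114704783615842521874) (ZL.cons (nat_lit 49856) (nat_lit 6) (nat_lit 114901226383550677414)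 (ZL.cons (nat_lit 49932) (nat_lit 6) (nat_lit 114626159083704921936) (ZL.cons (nat_lit 50008) (nat_lit 6) (nat_lit 114385710690153313268) (ZL.cons (nat_lit 50084) (nat_lit 6) (nat_lit 114179786909408184110) (ZL.cons (nat_lit 50160) (nat_lit 6) (nat_lit 114008306987045712844) (ZL.cons (nat_lit 50236) (nat_lit 6) (nat_lit 113871203676037522030) (ZL.cons (nat_lit 50312) (nat_lit 6) (nat_lit 113768423210379294732) (ZL.cons (nat_lit 50388) (nat_lit 6) (nat_lit 113699925284006066938) (ZL.cons (nat_lit 50464) (nat_lit 6) (nat_lit 113665683034985927578) (ZL.cons (nat_lit 50540) (nat_lit 3) (nat_lit 56811663463292149883) (ZL.cons (nat_lit 50616) (nat_lit 6) (nat_lit 113635675254777805144) (ZL.cons (nat_lit 50692) (nat_lit 6) (nat_lit 113672725081839965786) (ZL.cons (nat_lit 50768) (nat_lit 6) (nat_lit 113734490937114727642) (ZL.cons (nat_lit 50844) (nat_lit 6) (nat_lit 113820997042506120026) (ZL.cons (nat_lit 50920) (nat_lit 6) (nat_lit 113932277321977041524)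 (ZL.cons (nat_lit 50996) (nat_lit 6) (nat_lit 114068375414852774850) (ZL.cons (nat_lit 51072) (nat_lit 6) (nat_lit 114229344692934447746) (ZL.cons (nat_lit 51148) (nat_lit 6) (nat_lit 114415248281429151064) (ZL.cons (nat_lit 51224) (nat_lit 6) (nat_lit 114160042492618574754) (ZL.cons (nat_lit 51300) (nat_lit 6) (nat_lit 113939066168709298602) (ZL.cons (nat_lit 51376) (nat_lit 6) (nat_lit 113752232652319397402) (ZL.cons (nat_lit 51452) (nat_lit 6) (nat_lit 113599468675403228056) (ZL.cons (nat_lit 51528) (nat_lit 6) (nat_lit 113480714330518862654) (ZL.cons (nat_lit 51604) (nat_lit 6) (nat_lit 113395923047334973994) (ZL.cons (nat_lit 51680) (nat_lit 6) (nat_lit 113345061574367960552) (ZL.cons (nat_lit 51756) (nat_lit 3) (nat_lit 56664054982971074494) (ZL.cons (nat_lit 51832) (nat_lit 6) (nat_lit 113260016112694115620) (ZL.cons (nat_lit 51908) (nat_lit 6) (nat_lit 113284959735644996480) (ZL.cons (nat_lit 51984) (nat_lit 6) (nat_lit 113334856763359680118)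 (ZL.cons (nat_lit 52060) (nat_lit 6) (nat_lit 113409726763300015428) (ZL.cons (nat_lit 52136) (nat_lit 6) (nat_lit 113509599096250292734) (ZL.cons (nat_lit 52212) (nat_lit 6) (nat_lit 113634512927831276854) (ZL.cons (nat_lit 52288) (nat_lit 6) (nat_lit 113784517243859274054) (ZL.cons (nat_lit 52364) (nat_lit 6) (nat_lit 113959670869556256104) (ZL.cons (nat_lit 52440) (nat_lit 6) (nat_lit 113723937150388012310) (ZL.cons (nat_lit 52516) (nat_lit 6) (nat_lit 113522051090833964116) (ZL.cons (nat_lit 52592) (nat_lit 6) (nat_lit 113353933519890364836) (ZL.cons (nat_lit 52668) (nat_lit 6) (nat_lit 113219518509098020902) (ZL.cons (nat_lit 52744) (nat_lit 6) (nat_lit 113118753346687994138) (ZL.cons (nat_lit 52820) (nat_lit 6) (nat_lit 113051598516910319830) (ZL.cons (nat_lit 52896) (nat_lit 6) (nat_lit 113018027684537634184) (ZL.cons (nat_lit 52972) (nat_lit 3) (nat_lit 56458088684223131995) (ZL.cons (nat_lit 53048) (nat_lit 6) (nat_lit 112928772663203639472)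 (ZL.cons (nat_lit 53124) (nat_lit 6) (nat_lit 112966563486807043328) (ZL.cons (nat_lit 53200) (nat_lit 6) (nat_lit 113029564659187300420) (ZL.cons (nat_lit 53276) (nat_lit 6) (nat_lit 113117800886686520652) (ZL.cons (nat_lit 53352) (nat_lit 6) (nat_lit 113231306771746860580) (ZL.cons (nat_lit 53428) (nat_lit 6) (nat_lit 113370126826480108574) (ZL.cons (nat_lit 53504) (nat_lit 6) (nat_lit 113534315490123414928) (ZL.cons (nat_lit 53580) (nat_lit 6) (nat_lit 113317672035310399092) (ZL.cons (nat_lit 53656) (nat_lit 6) (nat_lit 113134501921202652818) (ZL.cons (nat_lit 53732) (nat_lit 6) (nat_lit 112984733316382878950) (ZL.cons (nat_lit 53808) (nat_lit 6) (nat_lit 112868307488064873654) (ZL.cons (nat_lit 53884) (nat_lit 6) (nat_lit 112785178779061061242) (ZL.cons (nat_lit 53960) (nat_lit 6) (nat_lit 112735314589877714730) (ZL.cons (nat_lit 54036) (nat_lit 3) (nat_lit 56359347682965420324) (ZL.cons (nat_lit 54112) (nat_lit 6) (nat_lit 112604024183311015800)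 (ZL.cons (nat_lit 54188) (nat_lit 6) (nat_lit 112629466678720914278) (ZL.cons (nat_lit 54264) (nat_lit 6) (nat_lit 112680361646989891588) (ZL.cons (nat_lit 54340) (nat_lit 6) (nat_lit 112756729046929033602) (ZL.cons (nat_lit 54416) (nat_lit 6) (nat_lit 112858598826538316456) (ZL.cons (nat_lit 54492) (nat_lit 6) (nat_lit 112986010934750920258) (ZL.cons (nat_lit 54568) (nat_lit 6) (nat_lit 113139015337099477406) (ZL.cons (nat_lit 54644) (nat_lit 6) (nat_lit 112941087827732763490) (ZL.cons (nat_lit 54720) (nat_lit 6) (nat_lit 112776266679748842628) (ZL.cons (nat_lit 54796) (nat_lit 6) (nat_lit 112644487257403407398) (ZL.cons (nat_lit 54872) (nat_lit 6) (nat_lit 112545697882491616454) (ZL.cons (nat_lit 54948) (nat_lit 6) (nat_lit 112479859814082131838) (ZL.cons (nat_lit 55024) (nat_lit 6) (nat_lit 112446947233324596890) (ZL.cons (nat_lit 55100) (nat_lit 3) (nat_lit 56155293471811034765) (ZL.cons (nat_lit 55176) (nat_lit 6) (nat_lit 112323434144274592526)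 (ZL.cons (nat_lit 55252) (nat_lit 6) (nat_lit 112361980784350064458) (ZL.cons (nat_lit 55328) (nat_lit 6) (nat_lit 112426241980177926690) (ZL.cons (nat_lit 55404) (nat_lit 6) (nat_lit 112516242932227131326) (ZL.cons (nat_lit 55480) (nat_lit 6) (nat_lit 112632018934988678054) (ZL.cons (nat_lit 55556) (nat_lit 6) (nat_lit 112773615390816591010) (ZL.cons (nat_lit 55632) (nat_lit 6) (nat_lit 112594036847573702506) (ZL.cons (nat_lit 55708) (nat_lit 6) (nat_lit 112447204882064120282) (ZL.cons (nat_lit 55784) (nat_lit 6) (nat_lit 112333061913124899404) (ZL.cons (nat_lit 55860) (nat_lit 6) (nat_lit 112251563178807436256) (ZL.cons (nat_lit 55936) (nat_lit 6) (nat_lit 112202676718823763204) (ZL.cons (nat_lit 56012) (nat_lit 3) (nat_lit 56093191681006551169) (ZL.cons (nat_lit 56088) (nat_lit 6) (nat_lit 112048345870709471668) (ZL.cons (nat_lit 56164) (nat_lit 6) (nat_lit 112074297216027568118) (ZL.cons (nat_lit 56240) (nat_lit 6) (nat_lit 112126210083661924972)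 (ZL.cons (nat_lit 56316) (nat_lit 6) (nat_lit 112204104831599849826) (ZL.cons (nat_lit 56392) (nat_lit 6) (nat_lit 112308012006801318336) (ZL.cons (nat_lit 56468) (nat_lit 6) (nat_lit 112437972357178174218) (ZL.cons (nat_lit 56544) (nat_lit 6) (nat_lit 112276382996409624352) (ZL.cons (nat_lit 56620) (nat_lit 6) (nat_lit 112147187484306256480) (ZL.cons (nat_lit 56696) (nat_lit 6) (nat_lit 112050335155961363398) (ZL.cons (nat_lit 56772) (nat_lit 6) (nat_lit 111985788030069711814) (ZL.cons (nat_lit 56848) (nat_lit 6) (nat_lit 111953520794032912844) (ZL.cons (nat_lit 56924) (nat_lit 3) (nat_lit 55902046990135606222) (ZL.cons (nat_lit 57000) (nat_lit 6) (nat_lit 111817198124936785898) (ZL.cons (nat_lit 57076) (nat_lit 6) (nat_lit 111856515697813767270) (ZL.cons (nat_lit 57152) (nat_lit 6) (nat_lit 111922062117558186746) (ZL.cons (nat_lit 57228) (nat_lit 6) (nat_lit 112013863088648375474) (ZL.cons (nat_lit 57304) (nat_lit 6) (nat_lit 112131954611465153138)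 (ZL.cons (nat_lit 57380) (nat_lit 6) (nat_lit 111988001704102817624) (ZL.cons (nat_lit 57456) (nat_lit 6) (nat_lit 111876096832593777548) (ZL.cons (nat_lit 57532) (nat_lit 6) (nat_lit 111796196112674696030) (ZL.cons (nat_lit 57608) (nat_lit 6) (nat_lit 111748268210729918528) (ZL.cons (nat_lit 57684) (nat_lit 3) (nat_lit 55866147165751890212) (ZL.cons (nat_lit 57760) (nat_lit 6) (nat_lit 111590582687904741026) (ZL.cons (nat_lit 57836) (nat_lit 6) (nat_lit 111617053060129199402) (ZL.cons (nat_lit 57912) (nat_lit 6) (nat_lit 111670004185116243396) (ZL.cons (nat_lit 57988) (nat_lit 6) (nat_lit 111749456828012926746) (ZL.cons (nat_lit 58064) (nat_lit 6) (nat_lit 111855442146718424628) (ZL.cons (nat_lit 58140) (nat_lit 6) (nat_lit 111728779879950416910) (ZL.cons (nat_lit 58216) (nat_lit 6) (nat_lit 111633826616867188398) (ZL.cons (nat_lit 58292) (nat_lit 6) (nat_lit 111570545120894980962) (ZL.cons (nat_lit 58368) (nat_lit 6) (nat_lit 111538910575760864326)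 (ZL.cons (nat_lit 58444) (nat_lit 3) (nat_lit 55697181018066298702) (ZL.cons (nat_lit 58520) (nat_lit 6) (nat_lit 111407728263691482326) (ZL.cons (nat_lit 58596) (nat_lit 6) (nat_lit 111447832188026003324) (ZL.cons (nat_lit 58672) (nat_lit 6) (nat_lit 111514689536165311192) (ZL.cons (nat_lit 58748) (nat_lit 6) (nat_lit 111608326526677303696) (ZL.cons (nat_lit 58824) (nat_lit 6) (nat_lit 111498615868335107542) (ZL.cons (nat_lit 58900) (nat_lit 6) (nat_lit 111420281829198753112) (ZL.cons (nat_lit 58976) (nat_lit 6) (nat_lit 111373293690037206542) (ZL.cons (nat_lit 59052) (nat_lit 3) (nat_lit 55678816512064614005) (ZL.cons (nat_lit 59128) (nat_lit 6) (nat_lit 111228459220345150268) (ZL.cons (nat_lit 59204) (nat_lit 6) (nat_lit 111255459000014097812) (ZL.cons (nat_lit 59280) (nat_lit 6) (nat_lit 111309469147500882684) (ZL.cons (nat_lit 59356) (nat_lit 6) (nat_lit 111390510843255499706) (ZL.cons (nat_lit 59432) (nat_lit 6) (nat_lit 111297419408860177634)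 (ZL.cons (nat_lit 59508) (nat_lit 6) (nat_lit 111235378726534484070) (ZL.cons (nat_lit 59584) (nat_lit 6) (nat_lit 111204364466599075604) (ZL.cons (nat_lit 59660) (nat_lit 3) (nat_lit 55539587814252288607) (ZL.cons (nat_lit 59736) (nat_lit 6) (nat_lit 111092809180614639836) (ZL.cons (nat_lit 59812) (nat_lit 6) (nat_lit 111133715183435851254) (ZL.cons (nat_lit 59888) (nat_lit 6) (nat_lit 111201909678537945280) (ZL.cons (nat_lit 59964) (nat_lit 6) (nat_lit 111125111600953284074) (ZL.cons (nat_lit 60040) (nat_lit 6) (nat_lit 111079044797853728614) (ZL.cons (nat_lit 60116) (nat_lit 3) (nat_lit 55531845601913149340) (ZL.cons (nat_lit 60192) (nat_lit 6) (nat_lit 110959818945584727648) (ZL.cons (nat_lit 60268) (nat_lit 6) (nat_lit 110987358720847054144) (ZL.cons (nat_lit 60344) (nat_lit 6) (nat_lit 111042449071283574716) (ZL.cons (nat_lit 60420) (nat_lit 6) (nat_lit 110981624872925051614) (ZL.cons (nat_lit 60496) (nat_lit 6) (nat_lit 110951218735733474686)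 (ZL.cons (nat_lit 60572) (nat_lit 3) (nat_lit 55428218070945508093) (ZL.cons (nat_lit 60648) (nat_lit 6) (nat_lit 110870342365043280060) (ZL.cons (nat_lit 60724) (nat_lit 6) (nat_lit 110912066487920915710) (ZL.cons (nat_lit 60800) (nat_lit 6) (nat_lit 110866902955470371140) (ZL.cons (nat_lit 60876) (nat_lit 3) (nat_lit 55425925206153112073) (ZL.cons (nat_lit 60952) (nat_lit 6) (nat_lit 110782620227257547130) (ZL.cons (nat_lit 61028) (nat_lit 6) (nat_lit 110810710798025120158) (ZL.cons (nat_lit 61104) (nat_lit 6) (nat_lit 110780900859602005522) (ZL.cons (nat_lit 61180) (nat_lit 3) (nat_lit 55362078953325754004) (ZL.cons (nat_lit 61256) (nat_lit 6) (nat_lit 110738342254266817162) (ZL.cons (nat_lit 61332) (nat_lit 3) (nat_lit 55361792429503924760) (ZL.cons (nat_lit 61408) (nat_lit 6) (nat_lit 110694932476824925034) (ZL.cons (nat_lit 61484) (nat_lit 1) (nat_lit 18446744073709551617) ZL.nil)))))))))))))))))))))))))))))))))))))))))))))))))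)))))))))))))))))))))))))))))))))))))))))))))))))))))))))))))))))))))))))))))))))))))))))))))))))))))))))))))))))))))))))))))))))))))))))))))))))))))))))))))))))))))))))))))))))))))))))))))))))))))))))))))))))))))))))))))))))))))))))))))))))))))))))))))))))))))))))))))))))))))))))))))))))))))))))))))))))))))))))))))))))))))))))))))))))))))))))))))))))))))))))))))))))))))))))))))))))))))))))))))))))))))))))))))))))))))))))))))))))))))))))))))))))))))))))))))))))))))))))))))))))))))))))))))))))))))))))))))))))))))))))))))))))))))))))))))))))))))))))))))))))))))))))))))))))))))))))))))))))))))))))))))))))))))))))))))))))))))))))))))))))))))))))))))))))))))))))))))))))))))))))))))))))))))))))))))))))))))))))))))))))))))))))))))))))))))))))))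

noncomputable def vl : XL := ⟨(nat_lit 0), (nat_lit 0), (nat_lit 536870912), (nat_lit 0), (nat_lit 0), (nat_lit 0), (nat_lit 0), (nat_lit 0), (nat_lit 0), (nat_lit 1), (nat_lit 0), (nat_lit 1), (nat_lit 0), (nat_lit 0), (nat_lit 0), (nat_lit 0)⟩

noncomputable def cp0 : Nat := (nat_lit 23803045773090297982483678448593809385137945603058577211505535558201134984329977031089079056122325699898147471727532938702676529297675367355408202409909555323014369562289965729686245297302139244275729806642293491550240094522331240773853704686498233874834860002775994454877892417884912022354810041798507120210210976914984645587111480414243604081921003564566719515921441433599377183107469362871565551567140654769672136706674248379239225196541234123477665284873219876862272458315693308314790343194931959160195191411961887018967351453262264417468916283607354899377199342849821464212556832039777929119891154563098979456731086266196426733346510948556992011504688111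476887370970620950368485181042843854282075274079525353977697291805449719054909474436515605137563662745033394122564583713758219335573168871180073217877803014882351546215698073988442077370887475259107825745650829991256334256526022153497634979547110746904414243488679593391203918104827496810159299809859463171409531621564106056295180912432159808261627971438929142469744701731406348075266746930942334006023693119247997711929830852899963088818505725845734150681498682059214818111392790483705812348284223754736054064512612416995932240126776746086372551854607461600114159915056588900382405347616788855181731360178572470311995895186788595060490016525372458100631726376833567219704720440937267797077308080793111677646655468257286719653866588933526200525214642528201483871100962056311545065459182996110208442241059323231986442406999038947395505391161430104565223091633875426723091580186569291796495758739787839209239980478585710186824337572413997209146824688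953662829644549773563656021177084460130463874588793698071414836023230868331966821763319446756129882541675884744580165495678033639945382465478964066942229147712715264856790457557782565366328632217194106124162597889149133675200154941529871443913078245616575692947780248909906510197303639846184709109584815666607626769211925710042705250603270432385654145405177873103234172584183692480709056941549133974320404664048197915390679876377442767380804852143650028910093169118660027796345264125529374141040367264621967047744872414333959237811406480160754738151222461024586540425990428838576177087899667103447658771175927606238603423401240284827881043679082854666796553276113463542471194372233923341798756995307174630757851244963043979743907466234069023644147598521119903049127102071642640108665081932472123556206991315359438159912005785352908976893905121282817584701881112214772117979446624960892416113898142804371565614153655456994681954808415708091084413639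055396217201681634031987175041924115203802279492228194650613416935058975560046430534698722016123826267355105006752959432786677768943883774908063747234872294868353120058211936005482860859586988918926521822494172868421727235391215732667539207284019074539975613755645299395612242381136093858652135778631650282753939204801659871364786303567912597446697141451845038109757897868391203260061132330086639079915828173862328052994195996332108183749765760399704578495564970313432363448320664090094760212592362444625595881144792254731299499543585640990485345824179071233537093636194347843043681372548861821531456095688439054437763204790830974588144599108137416427795084850051252500939564141418346300587247271937019736465127771781021053893818300282921362804301307605990501738183748733982014161261077906732306310366932803672474160692922611378797981272119634841224367385334155032110737490122929641989865205275034016993444453631583011953918909579136037289147557748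305073508245746539643362499671871716926926201242395010755005975028511905833114393495800448627811185536156132149338067235114624223838494963384773590373453198663744808221761744394960401779473889211919376993171213408745311261995673434225432198453419746518125197156968770406789533827759192933649679769797533296189155255678824007327792193170775745424162089087669459990102570924484042590790930948053597252921481531013203423766254502857971521975893291534905573746146784026286416890118322866983952459995501788696819688024675302733253923882076650761364116620175569210023478229722695751827919164973321257240538264855203806255793995763358974302923875188593755545403253977274037440361016148565051757690547465386761966464334588077582985251524599196225849315868716960010910173626494154280082890986723912315863200280530556276510547528351004870003979998858249320111210654065753569059577241556297227047661317329508081726606844720739683054843662797360767181097405893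893325400288410065086259065145961914645203280690611177690086562328934855103965401355883103582296674638234971008153734486655930760292704156951432105980279515693683834623097205350628037603218864607707864158239001646331317079461737460311334298917995668116590743082481014253830249031355448254218196146625278958892514758785377183464089176315180181445422386189992374313012302449193350211405704310104239520068010009884338768662877760332290093630330839316539163788767511654232304330888588080901314896572009781219514129763311711745214687145189242276800534722476986009382252565301973373675058200047629831034977646998787130277455407676216348166853448108021544067329789266843651207543646103072735368525339589876787351010629652773547849829787044515341603841497702223480845062745891298413691493526507469722624623561064975703253240146950765243015927188778779269812765923304097107883418876977993689537711234516094892428747556983576502396147406818891140118302818845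562388686765138775362868329521379369991063977878756407192672294260506135033979383959816233281779249164915028084230992731021123235708351655335048237636498655297328112466251434916718989175023361934290533751719768200376855309616911979923261958848711684211780983269071082690595880249622693907532184774956279227923754410381995511450626989312818414771206363941839606503783853591177638394751312190771139454971489222831942731692536093377938153301611293553989562594773876654298333510654582831046301807152544146632339858561666228300050635847475546494810964958439065755546288987201838213168618051923334809007959624233461459434510145362024265560501783171754642733468406672555122524671705317870894297626517465716229405912341181870918553497040441625884808998052484102456008659070691674807920219216449810251046093840312204169693984689393436562603672945962428437500443661987884215931258004354151455386363348157977152581423108709584438969867820226886539382627549268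010841578027070746664106230027549507285151138171549437501983831174614219278431685272803473663870952930919346250164749241425284143884381828693368455422096209116285431189260624728197323429205553703213794854961140335349408627329724925948666003960700447411654559456066487714974403401505971981430471801681938050124254859299891795254118643418564730231169522018491567413033757982896107482116501235079014646003912154572028174710283453886463533510370242380709601568361228172061546484693574300270542053111314070096374198460009453484178794710623540785616589862752553155485239558962116065479310354069243304254175028275568197161052579006435362773355732957426831593255861016536370713550406723048730703141440748364276250367176322389574163394377610213535350056235082756823918520731234545482673624540161673462749421374211790195144394780733790412558648067095189166819108643879412376086166652311077978830150210780282670013330040033428028186077868890863203448191923902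495152579889662370432725904049771487558586504651757671480416314706406531132282843405142164874973444940020134345442009263154709357512164729916698923787168162638972995597717827977389788164131460841029773699640199320576668637954033139901757793074970966700603350647658050253502834841222020275606966539525961033772768733696939575727662954540172886079584559621053065837169137833592662419546975396246528701962274845828073288908431821667870976014114160117632494620533977599463226799112455043709834074036179646239049379774565673650121456455309156965285139616621886917085070443087936640109907406145060540842145358486471259565427339369182660607113736301845872404283230871006212826556936457188461125268131427583218506935503170307733035459875242978895953274977963434068794657590195708652239831416752270196073740954866080555411898278370193968734526212578182789156564692783703848434080264103922575663828055704048344174870696263024902970264661215089974527483717482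006079992849311371982634261147324662334368939549900245767053154816529786708590457515812810784195390089077384066738212959690404797370844513120109480376931058714766405390186296756331275082420945668625691490166563629752418430613814692144522309417112347287507905248522961989806496683024166092055409070256690813974074033721559149714867711789982394535820107955357500941671218559742622349164337953747966166038901190306326388393607413986183446534367780328076275294860513033383755933484514907603735753446078200869590015560744441692931137303679062743001153166241628382744483050539461879224438599448378114581598767559427997084962169398596175934151257564303190840552398229305487368433597317902836938348876578178032380329482962123802392764327662085139844922229428887012628338773768924259671419635612851298945131073394575256594672690823513702757147222458656476160587856858032002001951450952302477821081787792215315878450721562320389808368330932119247357405050090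942003174368418718639694454644909172530626428628629262386147083599970728988709619952862769408133981224256896952222004181125249839699932852448958226688145069101333102398517146527855616554928576496645663077193876944285287242093156591043019908781242252756166971124770801559594865423817497240320788674560987358637249488321247385819799869925157345347166348122153769123698796446974312654480621551575244660967120170356846304826903361789590511090785025906878997812152787653467418004082694301601192663211196592113717805946594200884567836000922825477746079885768291912751580682784227162317063340215001042344797353044158560484957706853353814058063446995687118614423164758819867184020299301634354279165741821351879347260522565692551818577747575141598485528401233159691499780870818515180173119229831766041753703171956880563668585782712567994081793489322037568910465822214582497272106350030326661706702286929740686090585988507414797797911666285997597906989972142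077625212648115266685539116470172378202426898383793226437024933887989147912184299729651453643532658476431544281876297722792523134603778012209829823694958350787632020193362666237401587443753147442967036140542465183243914338039240418164847546781716742822228593238558522540738916604896977445713260386967727802694165409863857770380908313750241807416111718086712237488142940653716138506019417603716753679527179760249651069130762001555609077555205695683714893165751781035729818721663903656008252004404404015482530048825068104350041137688749687301122215691005844121380375798642054836253833414587346825972267821621144942545214295876592336741110368785018776353997640302160321289177555617935188646214801256682314442601890680187833098602017758433008699398820829524364030952970727327068163768548806962731507943857878353216635857707554819375024283505027105803104109462513676647878488060079903401077288166973388227657908493452390491166456339416522186294884510246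781125169926760126015799116226837532750404587695819765961046393197609050750700147120033839900332985895493168808649818127959264256432706077967322645327210613517110784194363230709812433139135562859830351245744202109090328616859811947592178859196276180205239786780859010677236420837801045015101026629765742715136764317721808217940566069076730266017454560678537753100581649145173434770131700827318455485298815358087087499802176633714591053824481081572758723347128994249254508615900699027617666236457134362282969252684626640781666381900575500644281232192857175649237658670312469794893651496450229430133024805403619367385930731452978207944762935032389621706251880356115259121727660272607190027428727465775554032337594160473979065022354797919565343564018710617122498321740568902746479569443467065014831740001742106945059523010898683724892572961473793677805100656264884178227300895049661444444557206848403731150591264923905227492020567752168779155666521123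709678671019329218692771772737819328641178094388086818657407446326325493176460756846746451738361867447053498342470692834785271257684642785918641318572657069094370919900613178711818581015040964527927610583137238027668137209467386554984004143034507714984274974430974547403809817826293756812550802295659701676183831372859361189356777094841768761830842287333852334019981053331232835743468639068374591088883850386707813517969064458884473876031699554759037948553572792929683405186862097045187022158687916246491404085519251051614590860093378320957250562454619341188642014318311240219087211376744250670724325928700928101821017322777635061133433986082751306284004548528829823711636907211741711431311872702997122114447754910657342941192116516823687997491878115789057479040719054238544086912005714746762511170135646224961756266768125326907984423448834711648694781419281860352266014815515214818774823752012890725114103147707734726782238894143770553164560205678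493335228726799798881006134424598526026944662666842482639464299159030294230994371667808817580085379452595006909706346685805335613748889764998801729493239860462624240141194614880885631266596315610206632550984217228440221245814329771682540120970305946570947837319425473955844201255350254558262170994172227080250957388836334711235348498062115915496723757130326193521425364241210435339774156290595892248010250344053043922306314185367932860934921258597692240745541730438700589619138056431500543455138853001771519839715396802667774124950959533309288784941024898245023094959093149397909080127726948679960567127927738056056577184242725908723619784092962851896655366880598372236792492067247092142998374826616448365127390035070688816331183679938598156646169278654124171155512475346746528176362728026463294273390829877588480377204832658556936346042054009168028548345658512732422744736110937279903334633241216794341462019220728930399519692745910438624171636989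125190996791763481796528877081272869736312324288091684455991217795766517959411173055535355916378721662264842315644631597086987271742580468714299140370545556511238060888807650237956641988835133706383514739028280257046903319772197327535269805851080542689628181659531198744646482689183172322394721787831068410481051237531089681780793818483584964402135426107978928507409867799616583691138847080377391766747278012444568575078802680794854788459171133029030316837736236430944324951716128390083709805172202160417957808633031481727800869611039634960813144888693067750075154969144936033540237574901881889925751462238103665343989119885232921740639478077474206357409166999239074731252487748671646561802083383954104751185310929555206800866083416479046368845001094540833993115479165874900627421056719840315319386261592143000073152236833153427123747414485843207788082795986595927656569171026070173962665669841873067508418889822288047007637813547977012475435503290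235051533614189379594653043159714380580819694702687335754949385454079672716336266785098243609886850869727903934718460611349681874397858013453377719668933765102960909558032931052187869683330647686780612255877246359086830223334775254044703614853596858512496441113079923454361967537738410279878219110180744624166873189362325642902033336278130003363885439370662939021440513462982002523153595225532333093189354818750969844177305674056612893988624044795397155967001445558663269473735186377826452026943042486881515304399062272396609334883635772034561388863073683435241046729795072888555565449684680241489142234900474150155781113086015796994165839340680447833127808869107738897730915970166182112621476870907303853379410777513430214331310924755802906330921889756301169737246642044402636873438183734870712172167721386028427436947105530214915630844689364496016326679980637117837923035028462347034114869219431847922914938348475855697078438461764545761022627606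316766020318505588133606860059352151509929381446376755968022389138425296068429578519575505315928966351161833539264850972339584996111027313543147435196209569853517022648966341609334237761480270983906745127604619254653254200563928010986518793691734120374062701943908686531038883945444611288838580073333623223259502823304922067913325946171728866404256983183122382359652304541385509082271407643694920551806949617719135548245016584603696638498134820095117493603466706585368752316260800126526689500515273973972071215997545768109715923316567244032908733279005691681747123036465810099084350148369345748291627507428303138625923074289883197180382264680864582594045481553080442947762441103286689164775293586481499245593561481064324411241814083672304949387974934819595564384203116161091812197512739276071238865512814966736611627970031224870985570287877095312561122783482010003973604898384349766184278900644695047547713485130327122737549020231484534100740124810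191022846506081323781927153606189789744650773634244044117322346762288917379650942050143497521877670314632042533205420598778215392228581484832136279318695932254139251722318072059186855943545621581301369263854999738509895707871575287859607527854598277995170983119253750822630586388831045424076095471773040991527212867630711585370358472120451722463348890020888684601185528815740490445080365413029040217183320804974225935237748449637146314191738816173828397357499963456991644415786845116286873271547117494704338052057649032043933278854100672631180771146642318783228024961867713251489755419136397975976359302992799710968017006618563658776526783970420991739383036685106024553137829760916976987664067345088724486492803221397701597558315102011617237523408923484955969538998820188104288895093312890668991118297631327254733132817824534302047584264596178708839625156483771554905392905737070136894868377990805047676388274612298387174113920257736120984434226213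8359951909216952267332487771521786214173663456571523685666742823295901597560251816616786235363369544491339510986916411601252981569841308019508732344807612628682037512195214113264719140644696749844692753568115024470717337969081387043295277322877819873736206006806490896143315982959578666047079549733948430314093262097805657810879147706847185570949347493237530540234323998637514148251909169809395796372186796748920376538433754870664856577342532528373048888544350677536838729078975977635465624184621495341685399409417627018173554557842926813090093310205157685645207958604805843668344391289695379371137401663366373560678414453872033738930679786715937326203020277508750350447348670734243598426660723835579602672553755441938957826174899603911972891686092220905923861833369412468855232623158842251651438841167872)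

noncomputable def cp1 : Nat := (nat_lit 247350942385889260125939191952081474878853751188189144831107402418573731026523620453912842229424231370593116080594685051683754331252108854308586084018012328759024940538213020601138343296956784421903970632942009885611248356500749844567156828278031597690053401301557648826987538659068208309681019806316478320928030001520163894663286446255004740922261267902888165962231512356317746556863373620584111849914900491669292882017754089682893554426652854738182268413671437740934534493502170748475060663091144726527302544455174664688131569356040513457705068320708397225278504922394691796870005365680517075159899208056961243056617683038357005651394906929667397181839241876621752543942462855384487505701895950245013649542360036292473843161740188657088339058973672046870582622031695408614336630144881361715728858965551640043841124533968548640414767959633805559380654509520260380509416598129605725005593748239034075017361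858944559266818278285856025661323543097993331653297920600116452492987536739113185421415523816038266335259169906729105790457161535526901124666689555666179335374339509725304775963997595121058659806647984623229030525575899247122642765080759998015522192588552825988534103140292611024362390173511821565059696887406042560535415092434382196819522560632584782146425263642382045147184030691089756849461709810248004311424016636573620829467809562758688957992688953717769562724756663170743366407074353764949458241956787958781046973683875986455877602112570495111949853508292733658888451537443033759682737711040411985951032012611729839972057037869820155503327249303917391130829911351321775905865802800915650246925296687755846486710995810592081086308503256037238331871716436998916203056109588441178842831601120593060110815053816675607927631973993078006987265199363285844847089357841239176790791971117261557785508305930336837898598276072681914258071223701512867801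524676471830044836308573570734082864076754404791167896632106560826407603292805611599362631595200048995431677187386478979520248828862363381836882710883515801423698935130108133537136615487808566970293143354191265829731791203065595558890085096504101187213282678642106390437663235369178708709260997581706495979120597852480118568571004619887972404764143309127768100268005486469918522185982890379322232302695780208400558189564886537628769429497080181059962670401942197449669323474712006435264739224333698130293499758033077995913989593632818978941631574682911009162358105721270745046669018929521020456091486001682790542729520282629842324676762299124866853011790078428882883082667091029897755208538359074911306536478720423694260324964507837294400339027201786277400023597347253886152533569889738465255481319535370499646201588547032308268820598584341057143741462316285355002895485592452596982823552384525370246257539079727521267355566805869831446576726919547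528576214937035501556089001292180703067753478214289426283650013222855808296565000672078788298755626122127308107296296111024725311363508967263135797973323672989129445904060636099230182627228701920778493427447404489811740303353896023622261714913268208419437972235512334410334006978737082141060054766144808743650642777826459182853166581562787779589857377331642452462103736232196727558738698385031637262830182979026892378419015366826707190916366066874430840416812948552754382989995721727416665600525330707410335754595714351848836762684113011368975490291316575983653217060654074100979787938532135181152459144909965696731220852543713343082152116850530560458356147366963247483715877893034102530339060415358771642237184642454186849148946797353257707557385199921574078454384403899896152528405444818842425494390735549895994866553926924645215057194018657331610545301346468554959866743458268186780505571991348904936940691623506847419255740357271436883805336105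128413661198900973991129823896509578786416287491744642987670327653094306413664532365814394832694544443216622312007592540832117950889427464386128273720881925697816730069059389488761984066075769611710915056802608773640413254553609319188455393959529887685721214674312919288204576392406746551909668624651050160787771310390814243017520386560686835799203787710553212716790192183171042769549318349162494925090965789025393329329492290659386585291714530385531945264588523508950538966077465371807604708138822194451991237031508266611863028157166313859294904902717039443925239656596635414344168914507210556397053185066767500870492606416835016169594362163857139265037568312186329717407854314220525064888116927089733828660117908625716499183197733133108108993691098379546434680071124698845960424593171616723598001478652308794255600064409403384723737877150209061531608116436421695162632770210064079207319927620409589542223163728401202570017119368536342675363177524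187727338426106059306339179525189696049228114056737897284993639980423383729683647150834203302686308975552522995353059957334154020386687337337020429029498628025497737603060965821957598269316306745426658535148981210185175507904616237447343560062793176107939185724419214240367060994699035764192468878450023152216474221025269058341232243719337464874282795308543414256742677248643833627490920312765071711382751089541319001932663508669786013061754310583427061178862599729722528228790052155413826845475483739281768594303187883312493297754438051287171007422456859350069040896159760457357132752740954204862867878407755238736616565554640502441130326613138626775074020911231753655913734353768467269445666070272085355361004934260725729227830286281958859269725219955435782607393881487676753384034867857561301034062076580002719616160145219909376082139695674349350635800828994832396636127219091521335503509950497612649420232035919219809766048295939001027737925439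214180652351141396886404164421222891067694093282025813348227649634325004158679451103814128328780089847540412303012107619854088784231998082400123821077742589488915473623604338635732723255043290822332958627446150011350722601560353014982403765420256597916464121866672874603785630824792567039295413893435332692149250022198368303160633485746842704268905206471491186908161953611252458447309908876947475641860582941894621585124160448888284073988202615070533135251975144858135792303096286162459831411958578904382681523676842179429512991278010521351335725237970953510783463641766339052915034456483684071328145140383794670831458714881481564650470252827943766754015136728244096587810580526551555040258187944407352130574413936539658662464872625419047956275854834066368611852085239662889138840115521148154829252037232495704162158840037676296049978247897376167134315196711889532226201450582813674798773396406141347668214375238290934622150385073165191639298424383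340978177383730339307023048282203115998633484014122595560365317777990724597703866389048595128994877833459053968344109338253427212626338542339680465720254080588194780504365151876906938593355504790665883401235869649023416665236683550023673515961914305241852588759721959429038296384502648317840956205193395922084399241361847429718646463431330746461674466842501632744779891481697838020521734843553025928592219912761131547891523790661520605547650424381721218580063659010759371476158814835130402616968646653918909098246101894344987602816629459152200939844757169931643338487849382426339835236102738964986169129839567679313658626627361748859442769937153043536580997367220882231635011145069463026467950744886584658292808757716086534416664012205413403085616908473134730859604233401769373650359020144521774728416550335883300346091732294887061108565667222959866570182855079358140254295779322991648446855932408523966257232182796576542644949818415464099169793629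995210111360447156128123913136611806687500141696744338514781880798680049998215370780412283717495224702270868127843351158966313932773554400737156332623921453260595281582513168688065700315469966778470025787177109871320700698690307321392077328064624669458534886259756270941069709375885178798859407107347466874887108232315337088542171092917166342964042402940295703925675406244621173355910947213242525211524434227311706791003406280075080198122922133115241918202411818256829895751809578550006163115163995134649226233042320143620073976051610634642768220336868024100512859845787908436116833742899184537231391025438275065521472399139191684819682366748553476803484656535353317595649758006532913529269576501655316081931072142152635571638362921680049937124413966378302620163660190063826311857440844939745307152915495460282709848450442656587669419805823455677384718096867005918514801451903209317604520680422646796822688791119959981399750929844493730662366239952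339027185448309658371242444203702790329438543447572768165959296311163888636098985990269543868509270577983826890173047102137235773727273150985133952321791495412303040078774936723267127559747990578077960548520801360614728656904090604271829649132193808784060100887666165041229500000469030688585990122562824540657444600678583730972439047507853093656982583558813866254586895587525515865260635385507965100228895556701886655446848296817435263677889775100988036861009206374527273188659386769611734214137646828263287474187146796469651742149284643261206124722045242930291515283366509992917565820004871659666520489223107677272254661669771367749422473638213872178954921641536847418216741027774620640693564343028909016559644215023676794075063987044958922485152379563583528569986253952304569329012210840833167103507459008446837891965485352375902119391501906910869620780978621974149497812372999773720930970883458153954530702498491059274079693741242248443679665210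055466265324309669003477604533041228978720659260984224431213209393175724163129194132503345235646045802897923840736596737677898043337063074084619812127232586322959145446217773859662262260618887683366683425831470544106173465029108619212930285460354067801460184600640581476151539266152251045405952623683115672425636267698338632966533423667051313738708756660514901154498803851858490392359941808693721126638093507284043643787824781660009660978847770268447431589462125927163446046217267972541585000707770772693376277439399755415065415477452971694181151359677582206564281555767665112491659517522815244823953708079014686291841425691185849511719969770632406227237211283566038776411030678339224464303130129531395154774098693753157262544954602849394120591886356960292835221949760322943901933398435002740180214647627196408093963050083882878471930352380416642312406866533901292637467630665362305435688893571900528794836522431949585852730320015285824129303812635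761414608948438753866864854238218859524951174189494303991845738410511644041476170621869937394470001249591720792185917952982861487482432134749154028078906035698661758721895750252275943291666735923970539643423717710866610528205777688365964930349378617641025995358740459155044925787789797449723650899675857796964813985649496429293678611840038258572846256021044624926140724369914004931614059411616267513449251433551101751830821819486246794755750357516822896040482527137532743276432429396189889324465712863743500477713887470368440617404756853851893446558858731152123691658717117426195064188562773988027987080381468205560273950392027218698926005168056115612024987904898632938359826245949724085212128845605283898336715274005700010378166837543746710593038127052963716869049170364233231866755799339472285339777486366565904198749759722293682754484079802782272433888699805040164983670893267294535885851995957137975895382467607881248925900761527789161391614136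006984807664159095417966013214510934255824599341760779439940913463362109201787449902524488302435878136671848651345184805489403756011535132866812406106887755835960848322056449943375138975938194989377930595545514212543261104026315996865912577899101894604157917193659685802469011128456250112514824584829962236906377450831083648229950821092785273685490929946508704088315370746319308820006949078515209937611063780547078827178217177443936951977467394137556018578235169912915607295828181468737171398494006214538727722549337332354533599619247097164878632821540244979604105306852796142072031892348076559837384000033048568461369276459218544674427500643880117014326436633706580413961503056974439765687313459097510793004435841603624637200418090926485756243589845914838951536107192855389849947125323259058078836423277262287494500378681486710418955753054480100218244905628796987883581092054480997171205625210482680500437573176599095281782785568061283178934808436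958486708160078561809992304972864791970440398208748639257254043216265329629860296211536344190296066989447580302671832969187620950083498323181228722140897143886875043857332727368547345041741780421606846993093776080409901907853409613103186361455747137734589538611614794565072374470299418664142621341842007388186201828129901808947277809059287236086187859866421707798038144763216722597203445204798084318844847277914352560658797526344918346563526194394841440670866882306232887452367950279925009939744024998944803272035168259552064447359611436594605526911159930496038688500613206158157313083705154698899528751844563376298776482449800968082147702416364013378371738412884849782880182524910814580344791271434617026911309925907808275997673555800777447749125100850031041155839900562036420016799218346474739551494470100871205705770679938099581269516981038910720289784387307561550065183361507011868327673137043413670924750715595948540145057851397632650650664507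252710835038964856822235086717396399460120874587671193761313365868773813418192180835972748195245421360998508755478264388346057348591615864515392995035091740864520939221885304807101413237575953897167014784126372898476219294107719479294539192904339087270167112462040575255099360565310491290342444258293341665327746345961319657104798162707566061632218529988540609932228118017935284786489257380668925178130566441327184893080160005584510807845878768471265735859138367326714803678103334444324651907665273834308519546387585807515796503598039891259266159250278845171802537137984275913720098303524896502132565140349874124683175933282464071154452727090624382978144436765848596525068208959188924629310332938191920134942097590397200645329427438516425091734041570011390179630436580351404867399556368293812972080569550872923022133213159211777744494610745982075852356166955256830046453040886707335843159884863580248531694589894140640491766211460402853309840858279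008565478649197775333249019918267997272157757692156648498275690880007788680065724933924330268634190519463764299985370891239777798460567041685433206372696971832543081212589612141469468460281905294092077189234312280776414976066135094546132964516663620506702255365381309995366725925919075207171652117457782141910452005754104792689277424995917797440124277187569394571243611497847689180370760244232410632070174673300271283610183129179966093794112771600626209065769575992370446960774631967554762253773445986826791775747194622457621913932368094711390894756994552722805723687215083107458205573821508344919870458235609215461013389354699509801909051241093057740862938237055095193757707657006723749333739569933777812831544971476723126559541627568954177900582719288534755713889119058830404389001634506753368345465896765565514736118059424465549213948008781849721654979226925364126217495473028148855892052059654318470160039585247197858299164259309083318433112473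393079889795668054036963573796183794861747514978717951633878152076185474543773775032197287502088842608002551827397321042743861545156129860832092870867333115602042823120787576783237436485481805318452328395830112142027572113212601550367168946904481516300701823566000011376222399014381478465516640058151372509208817841970246111293069739384207711425556419630200583376990367619781156223574470774169195771829787867660056754973974952376717623447311145993023262353715401099251271533345030277267369361513629501951774894598048867858800473612998066177833761099944421749982895515958125099350825300717249806448196754309277203719974220104550896910345407387384219823012565857651537257256452508561243820470898798922411260950395908573178103360305275627289539948569228955699419290739561448686868317503967695510840324937812353570094999121512656008130222025892907238896152956385961631578538362443579186151083758472625474597367617207791523069657957047728864850634469540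944358363655096946202499113884574407617284557630862837977127433262167360558452458599869070531629964359076931611673077031374286363434959125174561737689277578864857797534794329114082290370251109539284119908905011829781872135618933411599364147815856822416037878320402352679869841694327195285753804151549157813477283015887760823840332971047747422599488593364414308397602151654808255007197225008368146766363813109713520011870397469671427876775095566584926348998473327932725027102719246761606443522196420251118506088199880650974992651522302488268025850391022104650318042986255369161441710283356361086155123303820639934348636043120696104740241406744685082408046769349458876445917966892689210928145489962400085569778246796003716318677497482138808530673264812634383127863038192379295866692389333188059880590681969123111160407609946764072862033865043876678039299482796530694563225086973872132371353136755718505293170664142857329165989433486679230033428848703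778707954403208154501456575257206273911580117917858139048328653340750922697114450938865810451939753621663761305342281510303158412002089326658163269368195503106674843103200131089437912061459606821236416194901196698504502955282963822137121921061134557059998971901666318030865967852678340144762741232350969877172164492170551755325422537963563497203589616706134669951982314249988054145150878808980357676420028573763584582834612755795368784320192935434729969893742419437809282723700916741504099348911489174367349202027703194450407956064750487123232317494365702677604251116588193190571602274368080097523620193631799177469956403085383407839683421422269349947202019851323888885293598124060979245538372960599646946795156946402885649444534984127952436012904635634412905657383471567571115008420436844648346714427942971845230337926496549333482182929185718524015797055605315360339037204405692952559866634260712252965543345036413821779082711474663613043323368905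584326973148286770474754840526885694331975233448375084096347237833024815705008400836307253876688633297768706354847304836984627079870607010370545764042491035817064787120582239236225422958718294904815788484762657911268130833862169145374489939018026125854438129838729066917412869738637121936310078253473477503290675082269344279331581786676298762425995554389148462356673621198079496019464242700368085381587658883828268116217567868870968017459605831219804385164603938134328020284324918910890122547740170955993241608310584099206151553837319670279014208726307438592)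

noncomputable def rc0 : Nat := (nat_lit 227696691083153688879239965456991014313600855059376114708697614890343794040475161782504450094744686718786698683950498096833468279513061677548262137235489538284972293986335042304985844342794690918626006652223670425408069358442999541457963998918534112674698501967585831919660149954634640533094337420597391885772366780484123167431914056034649446515320772860771419488552276583646323630900522673001784817559539811049679325059029186242122358127280911493389355400093007976745888557258065443254476503559324329153039250047327288178928662319961982300501114368386551477689334609702497469221972967064458883563106178779662420679255997957684395782388435299794177530556772829707501933969347959415246275938360685897414079644911298801748069328696176459699928575484279445326733356321806652604364259093352577140425060251752034433587607789641737792457145013958035425536666840276257626662409111424345276734152206283073326328681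423487036975471195409670996979591323837605983695852992058266928359741315578124748551251532280224086766350197586586991264852157547915361800794573406765837744158340395460962222770441333550580057618358181326275183834728616832554353569893083317175447220737030674480073804438985183550846793307613996250785683372326509555553096015434246439921732183335361664095244134186480058163906566929488118722995039794153736379327534549521908900084200540968068632736196070373271646794958463073995335401114888218626599180792585040645804342631554090288569008572977613792146225324507633564205746404269205138473574787962624619058910994621793054918984524747583596459924909828622604500582292620365214694720586448411616508878229839483672131485418385052072373650663143138515895513486795954857836608283459089022188925989771135742788936603782124808385208402271741538619136278260242399755031216473544438116545374233717450779315250050881562200722802788262986057735055522755431182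135765752939980542885449408191119050693447982764805010500411001459759851379155782317355218739578562588711100003047865097746303182228106091387922564956150270261669343338188576558700992562271993716055487645699745479951988873246202323501865383750780247053165384172133029440283675722249409177273131598223505751459809770375591927132698838281324272115341379686728712111021679918669980568572687143370660446122022119042261880670161029086579514173486425743452459477895155996703723368509073919329338218100698576262646755306833519274101357898721769668093199908338452241343400756868043765301145438310437755682051496890573087338710874807718831678472838463180885626561523114285677122070775188449807368098001690225069088600483034009102792540948430240865832875213954369880336795527228932116049729130003477917029977099579709932597286269817543402362185623894943533028694286113957428099762895551283772057038546015250448700843444876260981086137391738122333627090390064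222563094143661811558892698372585181525180248896094552889233188667358443964248331525213199654339372407129076480754340963587871094215365187244649020496843502082076151087879205319908539696480744257451587291178393252796878658512307669169513236026050429426042789526962718501408814599837620528046046815079496621976310941232213240263310017427196928505347177495343700141605460437552682991830828754234274279366220423953640561195889415261733520926657496090467729342381508978944160352160611627110683003242024270026068820588486229956048588977234043615776384534779474277128641332833149252471549309707902112670496118427760967831622480865665119056242653896610074130024178976141185603896044242290117192279788199596223408833366318709953543352037454115325033827409288987335029749216050951721444122371764808282186607506178984618407636320624401667897170013961888044416240394570881379875544541755586374494540520870574871414627471209337262931083819241122235925928855683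290229086524692912705699894701755151316015408561839848861547029591610331392168511967940079635177871173247023316600413044137609683799036899173401314323970459214022319415455757627833205311322786632448418268448841322561799319961424746060784467337014597785134286400020943112584083687854896691856984446796677724703728762394400072319286461739650494766172014583967614260025909656452992631620584694367518927961175528998070992559109426356081800364026372976086979963383061413303816243742691616627919262309385314071536724092534256113678597772773868029975906214243319522546857847017327365384889703331602194911697756837390029600947012425727416727061715988405211377624873903310773945149903787375804510052933087021255256255239852186247054085322088828906953429145845432291968203935217017808191478337598733553454249112352357403919344610178911292509784110625334190029035909437293713576394912373897565596309738978254798487829200353899612638703722134030350430698087136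839582982840050330742076852345408058166339012557487458775342416675646789473077975518561475202978699768519934784615930426428934553617925745861308551395892686967082114272680806150066147722902988790106976742925904598381336796413360167013953414972951195515768483256925781172005975169940645727311050729927172165402917325767449661113480239033027675479530468681704711584814909247697292840816848461819476289781658497265639553760006067047300142275177846944260384109353230646185890746654755641823958479339232724653932357457815895552199864426946077462585429619412569113837045947707061367037180824323259978445903926759569711685852169823742433156567605406543073372347692707752127774410934061042881437905220473775554516630924999962334637048325222336469995380054053530321693747961419776491972773457956261270539095234966366519463833442351931735573690947373223833442267273243977702554930999809701067260957647616695243817103693698465131147173385926803671203958501652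281661173796966795407510648211021610847474281098636958088330717743017929236124523432932619886837727569427254135951728243941193131638950220049584662790638571582486335732352156420782614911316936783057194784347944556976929942417131377561710152684258309743007929605266004822060939031089084598309384796453085896645308099249442346420302867272813795949778927756668629385775112897357629585580116506142407352217825723833875961864757624888429068450579301859669026705761996786382668967340114561223922346102323590225782883816399315070762410170834008856044069610654355980249290687500550829941916161527082880695541224862677737401549428824051649245505887493655942780245339394305884138238070025230360647803941535843255983820517466657103332344099788514023290901878252574204816793600595661271223867069584824207548708119953561193782689211001573404403915375978586876259964356152810026268344703493968867190113964073331644881477793904526523681767690369390767205016905999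607364561764822783819177009414602886766047461581566360748760815310689659006826465047798046557503295063819025755954224572284339397456492296049759365044562768481919844717632445665748776492288844088962296949255842209131706843003891337148476154398140852088477908131075247591023074458573193943215186971774517969114664459706652704549735035140508614506857545798555660487394996694270424347770802903787627207937513202483364066368551010894990833629097509348223921124590257508179505240143107567535552779651918758545315539634332136554970186554886271121129638181738409563158470778978673300533646199041510694376027090560127265788728491972243844832487142674095036430016642786196301891067228046711868893818934011797618037460922281396393609824692972115087550788579982527158738854817355560642660166624143858507173596967860533782703129850606775242002038653363390402211389476027754851668657610280650455968990582202055830937380415508884806814611595579158058170788940353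443571630564491879268244426320668512631679573511746740993256293129065166668917134390555056716882731873176548806852428260011874129540168588644861503875118978904574371262641836096730088698814794746974158179155623994814205424334940804978598658191476884164706177254225963741452305383718163066257054467632846671604759114745894966274752779111977704221971814767505254691445031583959582320893838047999655426528104809966488837750049995620774358708894358874635756285348991777397582923690939506822341810610752819678618978099502895530858809208911891815034999998618813791659621107088771376585596389510105358592405729613990104056225395979541842290401946387604759125845351017810990410292709073471865437183478427978609358207284780378859834177800316743690456876366211146169479677732652234448106437404020776611469231117127496930341958402852004141545916719681714519442900955122905596523906859075966013375859185868443011192114381777147324443605186629012279150973933273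808133027724676215919412938379244425773980170484139931529729351903603646744557703313933537939230859459873708496209042184082446277572441217299377086441209045777142649564124257186196438454526866669481986381147071040399180096168500044866401333872826375727184465275944497490064108006632891698833271625861168519295654123352470790685819022656937930052617778137696480130894152707438345875554243713427789283688943138276210085095741026873302493058855110730500099570937743702107776623912174990030746741628953272620529545634976976981139521050076423924794566719673224018107714770816595733927854876457550843436674148900765622609523867632134500223485984524831401574012322355314370984541807527090885490094632550278945097933727218871268738711138157832236196196753060260751600946725406323147524577405649181492738957203005317247353663099329835801727497327550162545212467135557976685762855795961505519048634440003738475155834119772471223606213322212937871083271877407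841625188323397291711587934857413831249799427162708089500485600137029132216582926942360513869538406430520545662819929149450133491711274424079509144074412567608812597897939969836055255589832006926041315462230528141004350525587071545254189578331779547288928121559030794435321771599460521537415264749210451483844613222326179473644329174611799464235160873194312433729839760713289075544097811336728668454928677166483162951201274542872487903680951667799601424499568844259129800764805714259143955849620460837375781372533448022134066526729081951979294198857238362228689816640871170714945568994502355052895133897713387937640678283657472663392395093639494874968463454261469302513688501372487486249852692809720427819108518208421124863428523305765946612936921066533466269617558268270571172604080910544585516675889207366380346860126915891324414277973862113795227815128098128735354097291319913886191674539480428876353757628679395138617381354047120920661071306844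218864204863519574809572400295805503760533191624192530799184867656767423420543370096236272901824104112533453655104442648250014480397851449491157511709950897293730496586658844727450551864475251881734992779771729676922246973403310972093111208829439424264339297234920213135664172248169082217690386474632448579350687757493373926308005343207326831309870371030969400757297713887133889006285249628149937986837542765491015896264466868514293032831741116361918908620801476299142420678681187346434985023948243033916705074040596677701816822205951498012695897732674566119841666821541329019586931207517815617410798979818984680705985181380521967215560128025126080509964781729262472067475649769809500969275507036617345651792033019636050512024830741506027626240298722522869173026023672251980269912889001231261292112612895143275660471473499662431782864896513223511898335539434175184534907623875250284876219501717292721013547585802167747822059124720079023995880262535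549705756479118149939596207565152086702929012039045851482546611212582826026384527094911696602268895347197341015379524037062621149350138309673287101276527850938038004341984185618383777669002365076149823281426694068461359297524748874380329579285883948053588414557880474603781076440110380818324048514515673452863816991393438004258189309785571245392208561721315487787608404725531599323780233997885688342685854040034914432815438344989105386718877434082109032921842302128774017436723508772575128772828144274331749468406315942997797452084938283843202150412209125799990542479009032379834689399022181380059940480658643967226394281028725403944337094905090841022182704067532212185073940375188743785254675365182159213497789590899879079565845360217015635458688795849892301818242729072976106915392759890049609661915059285388954984785853772606088925018775509817964122151025167526508940005111828794452172875185639330701442123624013453695046507469112327441422341905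063305766624162891483010609541288583316192011999442256234837802929972157540173311993862237320370947950098094734003200635732058896975034218206945062982688667419672883582524473090063158164685477050200188602271170222599636930102892649869931709698082976200064872104406261796112987009035971349505829934996079487128099665617904802035531874255481082909891321410369817071908654245932609906492246694756742421058309125522051935758791713825569606004417975446045419045444439788125730565715061866069211359148424499435182028412331248138353786580583603199842090314250412122982058890850100152748950400076345260505906903068281338599643203856211048097669944880249400877992367013896039636317887628802722798290756757389377384280991257901369417126691320095955673246504485984853336251650185959418384685216552583763968477583770698398114791808803283228194841929595004012793278510299415289288158927317166051236410501615877606767274607910914561289357265885607441960404057163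498099712747181747096802005662154363140812327048793182147504086019468614179533447057844461617704429346883164938501134988671060259037529100082671647192037684879869358941397802676799294564083864035260552010555314423293403591902822464261828124617232518499242616409567531201169688821828363033114865093647299092385125335567207024520331030188258312169400653947180782978463658790121214228843569737363929999361918364935339416102593853646279751560454717623285930745048363381767660615387114421825899011978936225460390998040892427478936413942610651036324510522434150016428844223000448373764078571796797903037472165944991818932623535995811846917183254031286388788171087492420889590498636627312685749530275636562743456249039791692665683807844513823338399450459124596375045144167264251456025392243033607543441451812274881623271218465427866467915130608275295080374678125261025318891925055712784133960092350349441540432559840450155553654761521835604839494121975968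307597114133979014534960299653870248550306446929248516950249152194345544660624724979343164567691088321484600268684913028686814467554848260069826926798857423362635660658192826008781034122150945439325995196473125496083910612130952827670547939869120753735309872973421356056287192412867272841693307844208279461791815576666193451863942831543648129871557254286310746064146271780417842002204177149978868495758015393084662307650186946919101187465766157127662101542275554291152749691592921437866652038750740511783133981674167692665587522435705242638653696436046993210827135973821288143019471296821084563756666863232759839185123929310340744972099475430472577998176442453870312090231001531636734888696769853409818472889829514767419137120168602297606800608677850653086961988431394600398402524017089275043782457664409060875986274784432383501453797557639394319174322575875509621859210679042332790304321117143075300123288832499544491433708915437429381991866526973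998853741552223234932292392416437166937335354673294611650905666393212754347219962122663224828439055581807143879272326700778394031358195643227521934037050801356084779438837505956321456869309242454683594346146658261988312119718176084861298341739633671693512605326409280386015477686998241806443229871999169258894821103171519238921329639107908072557307851578930931957152661746154053049968129682473213707316079772193191133010364117642563241761931922583523172221558448757491977470465939224096824950296006800898239666936740155594073562541460841735204209655003859385693887912151250124114888221618934410282821521541664554047371454612265464784925278085896731102907507574164746321207319868959042356134971395749572701491270108407429219315883457130235054187253470607954401511806934898262953713376109164122112166090826696033330873453685526974971230525262475139045195703350365117129909991974977530309191375038803477850627539347574778285186136374733620518862473925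922800542045720762525958059422105223089898775353158175756890985978249379680438961391672861939916736401577663432797321876350918574299972087213428137953717583248208568317391544352841921650218528478436707228551952357742991149583746332467720273862553438472635650293117220783278876860619715038894068041424238604097448974693031428397915284649714258235401513151867246512606019734240286433782939653537679198327857101308252889835229351395538546290676781210433138470017258118265478517958280051039743854632891709510150963309948651835226336212093973337456582269574226138589319487185469903336501178126488671603419205987187031308717705898951701727477605746459606168706137967079628074379774448455025655605453042267234862673935258122815136126727013886760793713543910921124046573842507025715190010580620463793660408077119634138994005780008672789158029873828814600897995325809303454910252479704215394619294340662803889567831976214689617130616558600661150155570670584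499241736209708495788264472150724723212092710593926319576918971936885501662230432036360103486559504944552709103619313323752151762561490314987156028386490146574439520923631752336146929727444533059264305666396019734844238064629084228850656439189670932630217627672198135796623054287779182851543845181420972858411834757941502774120122626950087067506048349669754583727972338821403026173935713452672965819005780226487015203292719184113795422028482069396781067556617314132909502365899042978551650677693251831054334683269939348277381221000646136463397584145925251941868370946164828694911698807932813083231433138944329167600986327066023535214935925428104126549591540709793870122405749569197264665410798269765938476314598656035498562566584431101775900905435732083146858997675857873252500606724581973249494587418776221021132324469910046796534621522647145992855227879371655953541515691993135131673304280060976922349307173537091620559524697435731739609890429186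055664015197110552019898799798937532177180464289394757796247776646310988201233704784605209123471424309609904741011942928100834403503290215939186969812500114446433177804323153653477708087742747326109733461999194335024018382586731467597756319788100938342530935126537035434061321845493657863758503161170472282350803894109793202988482882526972096837138824177883777725722850842336682982533078670769671436120364078346135284599367503184111616781706757856198234092967997049793636482685737231227488240290963403844899913535888919978155663668720088346505133976677515264)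

noncomputable def rc1 : Nat := (nat_lit 227751769486861358874207217170542774310082192729432288825711929217984377284583730321499866462959647334873325223680205883272458568614817932302368040573418981337368073382983464352892434956494476750030395994879191865006931007362823914122340914233045084340456952425789198669395039716106243729372686558287142556314471270003372850558035275083603759789774134728276246962763402286269803518345552619366154768453106977748041342580039448161744808109439969608286465734573725507764701269829420642604677275012971310188405525470288505607820684073471026959844564477498218719338936394097478075972057590746158187286686455461117462402410567056875418256763631697224749815341694713927640208282320711340537098903321407117045461036440648967658607636139408741494556647989390043898636916992852802094131730578184415453824683572387052159306472000110465526179258605044616427662543044127403394547531551056639616572601689679210256279394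372063300548497107729729405597201184299030751873102911513908166724962760252881326768871007393268959979752271796911946428076881022242341001883706185862141624233657790383740539559056738979840650267561408182145723241621641772787374077541374238605544313505639277610287930647482727980527549273594084094848962473114938508477130650585926549725495286508119122287054139823965665942882537576631404567895436369014819719652971965745465438909851684378738786919070248800062763247919918303006246125659595152440305393160129473414578468354068557955874289312406978415644502103666853905122079236253700829184310121977861301312631620527832732617073299255828148419048168455793914117360601191957250849689748621636351004607891595112810727837062893265393259121159865949055085473152929409841653585354873909113713514939744237173574733777368795685642411009193494765689340747333100420727566913703753000461363879397075560639105929497644465247338545969002167341092822441877870053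691431591415615716755283264837269675366562706024575256643907679305002020749988480196308196170529128677878156572894283319820373344810202791192889016731054908939042593708580056584708294511491422694321104494945801598329326701642238901395280998629289515626879372504934032162939728917948087086699889569893182677283077783102103073861166029874469554060477634160746408398549951037641750134912834281441771915971588815151705145047585128604237629882407272891344572082746852543346417687776585368299853139631751979138312417441582270558103816144168759150627163305831424681538975069334225292706110770948809851066627020201421215363860630653100337779437819119917843215020146986375565809593069555013162036204373441787746676393765005535217912556775585026797554037516228191723115276093569817238443947785783999878803917865123159365905061793988712070281191048741169408624316185162490681071550524634975287023215538702497931050394346820232631232020092647743521820228832830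662300523598974606339809176448995148645360281136818742992289221478798550168414628436267195100098642773570439041496214738789974232129552986952585759613898881813745212738302022376474493827137987313983224711569489813041418954976407416625208267695271991128735443932397230327075466658246126869722134114432838591716117311094430453060313356907306304927861563071860474998157643069850030073440684627168469057008973270654676187377947282379704930263959928860096795241035043285165860288732436233333164774151516564175287892910901746406989689721153642792633286379857317974701008637870234332598372041274839571166408894225640377192380151670934905630392836612723596424675237578135003539254823701641726720942590401044746641863397604071167781026074166437385832095278777613726702908246828422949923019313962031928316628523492604259711702185880440760728007529742444387815581282632260653060335839693116210170356604792078641729148593229963721741710288846985005681348900602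465539866321810769439325203843024013571130262111526049732082238614462811500121889277842543534204210622077883136195794812895531767492999376298110505979728914120774171399227605086942881647135229256432273548837937389536314810585630994966261408964026236276135012451986559487701794278503264907304620407721781267547709396790442182582498653780967959209736147299369780345059634312650382012869607550839406556914822310346704819772954334124388827104409120324210803978719831915862830462861988195238063003818551344061678728031838835154821483345556842136833898329295977491374442221630083812568377708138790666693481477941263983925244213449745113216389645945428583721640066988432954223333370084954241890564545166396787799652547014661368909605550208039656915352161050816758138564927757684555442412484126222875957085332620986983226491077367266807525733427663185092860633833549976960291736625279069065264117062277743065386400015701089386187341188271044245960374806690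008016597465262069454647782797571988210993877401249708106694649952274324915241364054071897012349464467756793248766735091765335027996215208719683719589673918579212134082692325485113200322088472904608992640220492479028544103173245733721926067068719266157135816226867956828897696505624760650726403173210015712666570903469315839958342777234452067326229107280102993271930937545752948436172106842444582590363162866258179721060502456045665115666376813054879955794656876431120457624919058620043889590753112036180648309426261002645480020549514060957012394242938500262262575641643206708565241544990813471824707801642731057086696658116673184033232006984937108760342504321548869061304266877615202634597871514995851564786324622077784891039035940327666971673020467950652771457608231300016234079594481016459392000418629084621753374386967849632041952808371396611086492830858088349571236221544192247481481361899863091149271409899914535312734482942193854124344650211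042190509707406730542466457719850908759908486110437033437139091552195216852656781767590194819661312540977702373552581202335601656633901068340830762954151764493346450358531753720109041879869623761212909558830277616574601968398399355839779669500213988204459874604180080646013213911956592621987773494592689591927296790454853938726247590103578113158056474234053925515623531739809233851323709111961740738616350523792538311269509238569981425636707968474030425912459105465589897551459274362220657778569715801054746903606196856157239183363701246098662341918796159224235631661560889700455128520869225560762725032861478535434631384472921586306295930780211652791599801197361977872274200862349066704072189047193978452372970416196774169986900079386373205979505410512424501269279443186466603695036096741757691545757691690094733304509953148227966993230404254779562037621408625908285854061127529166451175512537697972203406742513213102450903717836488118412093173588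498930753841680052920513345824957692854835586276092682920852471984042706799611346078201458299921832242685343735614377967987425249025591764368860279073977204072128010710026896905830974452356418785668489002093826170994432696292875158500692047184830619877836093754466666399882008800154566844367302386467672061685787487027120055653256997655466961516396743875937311583238207345528938252299463231362594829835998490671320822031220036322865372898971269790748748112219246569393072657647666461674118350722520047987424512166854993600842952242360295098383882093348085393717976348196754296018523870132361186696185229209316814165630308552760577395325994681770926042197151199726672907149994090759436539012139595616207079416421955435777595987839390171520429543909806136407976121698066678601148598889194824794251872172046071062966270755697743514915285321733909803968860376042135600080457462820182624079668783991526440750538341433690615853501095946021209715949096271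792080877455363872451311561194945344561823562055098540201195254260617416168575641203615195353931890445720709407494878128394160510025677462161831470780836047493465382531826973095208104426129773807348936766781917960218824493506743693913499517645348988143810368279418653265855644738192919055599232070002530638960083541982362269483071133991851839255329872614176984095718397650647048104052197061071626613674072574853960768225171914232275317898306909101285544146413282480291560340137458175899016986305489433437923324898751617452395734443735524875325808161014660484704959753153155277623204326357798332346914397799431013054938562939752018913798707757726575394283286563459319379285189007339831141538012502671023296690615773161835009097776670340040496356755828530709517189882069069980439742725799113122419696284235890811738861408446098643076529159956156334692260898381394244122809581184774305565082340814239200390487520658674600773866018394704216108711599448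066235814329093151167100704730206127028877888025542897774370946523108476338650821032468363854998910301724922528989361985722976536212218073869411522378249685444400618684315601797225390573177663105154508534615772391757628058341924903261154352522307781736429645584728716718485133113835161928393939424243426927595088798709045413371084562387759496807700798528939955605726023430992268162510447459770971194033394217270432377489665146318934889235469887824090304739074657343637170592687036680923938008582389309186292984209338172256325787972970903532661246208860000802432771079075124162215968987282151259030502712074455643775503643870289581863488157586641793778264718994405828673247889310866536209868907364807101727966577061216400847039520623921853388548504164430052790587109509208552685866655157789871225785792796307026059094968993531123648284094022549994568024804399144095207075952225977971803699564611158129050551233994561674433942360095159055173380308046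502096484360281309654413817478146454625966569974825502165182380560681148549859250991208337867170525029664127750628199383531581941752312761817013184492211808040830472547028005196224308600843503636442391491702942722239933413180504628741233783022006275986501550420675680141423043805911875585847026615829052132894145261552729037018815794101140873703376553190199619435301904419607562303879518322034760197616119194967151003778070257586107278663357721207403486435271201482938683392461196663610001066428728463945582587881731703025391224642948840197812708774794371755937075118388951600645260343961314854214637847061339634045296170975432944528616364736961254619007365894455821155132411093754260214292826275232432751021933261259777010153649288569970383548230358275600427756445972160826098806207432034547247289291381979369681205213827113206813539014005493088341917074175339028919240455092334593070982029257884573650770794224079372878102841314612049663730081388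041322461176140118378970471700029492023025236555723381571404186810242411979643963197009788220717567654953259832715925486188165854688687704066500591486822517952480837302399025322630501296111178303715954292163361082583401781402166869839813999421587594895900017016782878584172609031782723999603022310608462850719516393143049798436701460738339999126579094564703075296408926914440548026411471499137075645720591972830965623359134599946915307664941721628769072881086821416438734611228078243900480373809411376074269296990733567902979932116547392591602398951775643175131055183615729401361019550957128989060362991432751044140874612254562147830810289391027561180036557811926271739229291808994511278839674099377793552333367481735537442921688405885150790977364826020072159264226206738116782951876363423561679464036547137498111025020768154740044229363316000661847082137910577330969427899411651790113312577333223388207994027486710340492659719982465952337303727020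131714275508237289617780403631613037612055909794128477798673503184931748129208596622329974304062856771341507569736742383348744795614905265429550360410478660302345775105047741499696900173688960571689156325025254919641182162974304751435814748763191033465267414044897540589532792849605000361863017803617884230547018506960395353346830666760232058541268444240579696244351456240624150812887664325404503736164958500938066976416173295098317125144027282459421384798131297670664997576912200733168638953256077505461202683396592462240507810304445775028686573269705210850923926025294659148545090527928026899791625896884672983780912653419578926421123542044231559042698524755313735331787412084116143426969084960988030445036651298681058064914063459058565660473746126111303244748551342215646788743669460426213757678740151109014914156992645794618110570082039507070608076701742390969300573295570991890227155913797841439680858069666796033688395954594779599240770412897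225639995475570639744131061314279895903221026934070294755375910927398190895278218615415046075647094016694469833047230058016024512334073932926465245732990834055571453941855001004676012178802681712779513487464894067204292576670298530500376302600743094886775351343875866512976671439891789147777538402592626219079582629043159797163577044558607090153015424241423931845348589744637110889374709308902588817052183185472429484021839968290179326368773196490976117294861783233950297501818204913081478107856321876814635098380774506777494955730451870170257463719442193621790230814985743256031055097323261869309601971974903914841449402352324145781219554492740759477775955934212670357929249008115416145736286300891412570330586909673429579289002493195973772111122821360801048662199590778871609958759701145039328866702697203265067843084190172332543173368555805961613511442450030958773492003596315189500201518121064322528595801722290310154794734063251823888950989845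509910671792090146083638944300070150769911495834627385483470661989572596617329180980783145158263738857317150178231486191372132081902274346696872572248351696755809539513396168874506249768861928584904150318152728984593919259492219696838888986900075985433396026209547037818425066864386497448997971523550319465227033758704897037180187945168381763919188451693337395947786460861800363852369719583769436156721336429491762016619314338483276112787844490809244608674925494032225597622622938722792999960423473564681419572146480050273939147676306493473573935483997377864094893309825879579641551054473772711972850996561088335964644834258307827303794925539175539744114830540720920081570296979728040664361995221793954447440017060491901742676707069358718819225589029752329089594676338286923431812609387301011954562787873860105358108154600417763667809047146723722032618729176311061985124514806907767663005340106799213599571648799831056923671065248645304377996197608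867713108753850332686807214537807300411170786189419070615581654183300064887269269435800726646137405692898467479995529557426601774044763309942154818759121781558686877376683815061387906441854618797862494764818931059460406927279369367018033116809387161777288689010116211523901233463766147933827703833798362556113072434050295745081929167078612653531617561867598076697671908101099682855513741658205152905092626979097789455481643497591610704869130845897737815766601491686287707987156583198935173317501914244475243398592862082237196676127694588364720249307720351016637652243782925432764768391614328621560701199380436830916323622226822968945654201950148249890302755334467044278134194316016332914961971816607548894516252717178869452787781525129939057595363446601947645270696480742899112657105419135539977613886975962491065466772233397663439109784636522518280262342765998567639357034250359429453401722800799538423689694237492379431597104386938568096835402071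090856110070283544836343740041563995298772754194294136428128195633903482473036171978532663012867997452793205268308670668107166143205920308792804767512008116833992791093213213642924441269888932538447593676077708589605768093661976249509645874289701034395444378362631728620909456455214111494544141146310577558183628496620696545182195046193950193375746743948330792222285434659196324420349586192812992314976329236698374139291301884043226833887161182031792223912866435791338467861554401343030526282594947913007894702664044242787033632052208738884588870796581865371151629349309922792101077174980738044541286126062488007784495719511960940401484452764068199334585155615201691611674620913352937135534184822371559301324835200463966969194410473073727572131789377526485786517154686323751318071262141309109988320361695093669485070956686719274149768428722262138137218954800078745408134052522153697742167598328223357876593423856912239063138066867189379275241156558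748487645511958693594974628570136293477984125980039292034090246527091728662002143647472418134545779878981044164251960960640972036701356515067674947090808776838242274373179209636509028119321690712111005607299897259490247175718597313508399882880912485746247313728803092168752376917783612848886036959862672741586052686203287964881515133701477230009489929379252783665579685894516606429712869649259849101623936216035555615947258937690214225850712547434511633190389972865294244843459358756155008114674769582079513720022149344962334238692449183163237598291149033150670733561115363373607197123692063621250262646094840811763325253769820036643287371176996293594012733304302101086563240046916505517148266389343808546647817415956011065678624554061868874221748307576221726844974618590364884475097257097066432801401001162330780875753915753644483079081311881324197198124544955297642941039231852950085477345348741787428533745821819738520143861367154173801702094520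544827159606926989088129156020479128426503546968729910740200441719001651225296266472892837924878920137575556966814028332648528669018133320936628365358151964585991313033710383653385799696231681940898918065892756335723715655070421556813622601742887302023065608930521456489365845011471276815263185949415832874856092399949913057998713050871216358466436159564014704715797605452517885366920233147033630327693971535699890144478031704708510528195100603588461433041725593982387241753108714342709208326922175115381822979069597981073798612476538985901997688795126444691845684954026321509800101154285184262801752956042689159537305000103813297810502346655824212330102094440930442870306577036363718596581113271572389388072793753169817759549386715166261663487984547804604729790166645403169529093909467000370282225856961021314962615797710142368665254520669777045008123767243488467341310951300791532316995603444332540038753444434380136044945151006750763728821060104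810550173379690947408135528048330501235106053783084845743399307407911472112382271357263254043536469176501254729322900106973913200271245549817922645260805779870342585045201539875955565401426005576851802830359733233672399878627054965517630147361813641583832893671362683235828071153028602567684261899827782408880481807523012982803584694184362964891768894541296900044968739201561270962084987179617653944640042708635092321922331049640950334979387509515648291936536925409269965532443058189424582089008578023375032820927463231496735480560119466775335264448287866880)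

noncomputable def rc2 : Nat := (nat_lit 228406826128253484958849650844223326313839271413420756634217181251539958274321288681533241147178863610113204091078917506150849256132585904820166269882725237570382544219722713780988780211205393556773373451968487646867968530798688322450491395561173711959073816227634737419273015087052914037193338860354866194453782614152817350649272071908294707439051130653125583398153757506895125876690118860497141111595423847622459085943350804399558797856056354970300599786867249908123026570095360440050653301735463580476352941840764376003940709974446898864102780242924938816829367228671653988161113002922102707981502373280164386213646492963565009126913873193411452598535393626747064301814951424404197138339831233377287069198929173819390954789822909755452701458360822716037602059407717032770921906460546273745695235823212451887113603981373259962242982748648963997387288899655943307187367639457111846164886628704154397772197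761114056516603604267904188927534327429218709383930565202308716886339364914199006131545274437216995954808489316114758589955698567970286793048973826509377433724816434679831993483053881816015378306790762500397491503936466486664065273825442017674023745291792886872054353995106180174179994662954567160606061542599054474043891296622099417448218411061494294948004089055006322272363676895604470977970735099894966398709718923158327248238437336026719047789698460198685667401737651588034371236194199635006845527324481111005957804259527340267226719540144945073297618190991343607203645307929385657792297078259839312733973529454165994027901102630105284554420329464406996208313531642781066103156862360091038633538258143071872644381077665315672017555504326451353849617021660616142043329563377200946997460044205286796801693592537638513211714956296266387380468658371983312210962730763389166835797202665431060210892622477905727649480282449425218851420231501514179847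421518783875462164434239557514442351521929570664743343720407178755167117636788924059722592220708834314663491784522533914175193618620480527752405784610338448911134841468214601416447623685884673645605311213247514310014542187501275224053053249035371287363491759486999194803919459615969579746324995716690243557468060757381055949855037983218991974717907562690696039038718193915319862967418051455354715890632184327898507528626775810269637787239904237842756736617979255867080521785552755329055148055933900972152194147453956034847972404567029177017834949316567920773716067145436839418802275322128624536174573231704394509469423621316597395953490754688203070314620589237817270861716889071997696057247020455240672500528365893795326499975702333201104239433238573634542189031714613488063086307622425453832356716908732277288999976036582850576813009711942823569011659603870053956838181498657220276035039960479555366513192059209694437817084113126614363392636912059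500544577113507908725806561886469650772507378779465167252485415376977616685489625946610926881887651907331761061193349320855544002402967621144646335110506289247737426892595132317662415774920105747848402531847531284543172416208965599644094806438221720874820468598923386910655416968451307065845083184387965610073815714307756320462390548522379629193392212392089318543711937440133215418006068647336333424323344467966256564473016379326570454492441630232291065507255708429570805951080241195064836633226082283156294975979263061357700369581418397247651531424964642107463594280104394268770574204988214289752075175711297631213669350802716554675265023272835426675967846989088750504430817295965586640470782120584847231942811357608445143744555264195900493145595558476466856599771280754200283472050105315944125289195164187724245042898689717040453544277192082184625650163418482688419916136812097022863994598694414529563954326565016871412429657611057285470687218523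173150930713974620192235777938907044122846852168683698340461838106939241328528667963658548906995106620884437393931138609106116807008370944828285294862880022987140054497088947512082582741933524386646678713037336748779452181875340808512557520052783600073915007820374256143351050243695801271853303830021273032670996877129191358596952732857224576216865126442781250685589890484198108136958958948432989095810242408959186657837445978494949398140148560375470693977617077358475639214737735142840505983152291967776034710313816199277871405067619259704899994601126256455881971870253177583534266641574975455683590762006321591195592012333125966851501940034861163960105622919830501331671908412863244870714201714885654372178028864406453868807447632546955181297779310994655219680641869728482610517967536112153836707889519814857056620048852712086327383885947167957921088044077600864045210458521661415793659865076757925062237753726790144945233314174261748528840870404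426863173443649996151875129080427337507874727163104379571513483855216192422751262241586678896644481231326645786856187275963393875629665507467553229197151794724728956757361069463194883211886499622107627431668215010741401434046899451739385367914720875446985120523981116047511622806812168236548524757709734230194981622209575958867378770165798495535780401240206274385769822228099290459088446349327570192864041970857727863884370439242661548587888449120778317512058916435118068652924404656141013700110432055005340083441070886617758796086651766574797400654316607335423618955756341369828052525960628075670802852689034006497759909664838568540186880448542694388320397381465341108835758210347313084644106923264457572675218352585941382806799617556024993799740547377392660637212590788703232022439458318043943210201921391408435067800189989077048311153506132979164378796336388462365485414149237594264734121524444023865186303104630670382680020471099800244642193644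607621117338125258731308733753796430339627836016662070659052699937407691067046028796732197098070945530659897331176536219696516498671361705137837503569496616299916979011738166933779846617777352206289660114071646329424803367441139930268419587151618346609825285982307918927021184134561618612760840907135184125479006717052138190881470806119939690184910061725481768204058001968506765330710538301772650574703944367466908370389770344522992551473374368680884313447414085150226560866555713982234285594012826566534649934002479043609674064839993317759234991254085972289131772440671717332996731146082591867413733907683101469383968524792724351964593419626836915869010279829767098844759459504444906318694506405365895758113778028549847352976339609248109489519249193162471903558959537245562405116357099023850923158310671829330630316126166989892679019089724848258959389934776270019827285102828300666656444914364189945433813844266034490324958590215842029986574125156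407299047158384569496746638777968884990937086582640090830456083614158628420118900746314320581839623761930032859211622055458905485998818847361578990190619393167603646734924872533580104142352830497315031272902674384141176297063555833601036528261808138587641749767536691054622436409974478950165785270602822213992462156164132374415062513753307428170229050110948161533546343900175599092696396928650958389568467368252955889156835660777892802736787831592729839363200224297341886149549707922404572702066447121177141208627276568315779996338307342491652187484051824542901700573463082079206333842730961264386063386552197821747047323741616277471794661637789316084284940922515106236648257331721654815425753729600049460170898510470536324566107587853474464184454170323398861070838780878274898426637761637570847886598202219142501878529072730818262530983306905140711289980222861656231866366119332442405420447009783424684402787276472675774601947120305318425357916754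059625752075491466400562961528157707164036018088363973067526902868542318501782387140247750337415220276850441563499113310428593834015426732061615624575021009946379661149968980025190781943609342222396963590626649693914580506576461930735101427153632964223147029574227471698030180334707056565897588186898427460807433477063101194734135361707441346703018887450668102719940170198056244237742858305967889193580304347538513628877230373830609001833512618839171196242878683899587185560484319391198007865603227795927627338904567721574796272023149381655498910603662937449534074717938434166795099634636004944067823136495249668102372464840067449049733401673842937337330465769639021185089387981048112964918487581918522820786576405795036203915135074211686096985722116132288928674482986646020140014352103215712002490458871352632572732793176580723656546443732499750883813756929227530213415296919261132057698542698175336931443204402737223990939828054999435491989992562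027338961621293409122499968862200361714344309223143285054851015539399810290829426505013352437540571523708284555023222055684572955143277959883956032381130452195590645075293908825488241940080266038258366630145959295612216320075247828722487479764880339260778506430688170142822091855201282783588977008823562139696229548980195868375155496423855276584654052331727903866757127676362337681233419981709348917771083390121518911481553944112974857785709940387679753729670504400626422387172244034408384470609647547548376807369900919475723445392123251578143261399318413193370965022715192276926503377516985524541124212009274555254596742060611441167265729060567345610715072744900541367419773895501070768746984622942866739503573900091555743656914029746597378373140709345619938416212059783570421203945117752513742568029158877397881657230782765789950980794120551478333609745979692297570420258560966448385166501734803381837969246414298381634363295206849777719425065819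855094927334276706305232056488936836221411224859949635484829349267501210189417339131588731525772552201743793155186446860666331186611487525940650092504516839816668703509416065525206429976267491527854247693932407629855406190822710687111809676062049434703091556752821106739309221344775521730960891809766301374121165966591898075345483401913618917261573678325580917234641892735752205583315019279993647804259972280625446960811393911562991158504285550544590414027653316340621817052826589848775899726823283473057297509709062559663727057204420619852380642319921004457407691990721187516026002096120837115732362655002250754031981840009682136263483287051923984548929492829574256231341066206344374596528183197797525431545261507140602035748923905683484824584744001867882835445294166353830464653624663531710870967242868386984301733229703810323810121755172306865956543025307686273098838334992352039468066275850109050700430402313463907972430989434808645353274744831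897423350159073495061285314745055392038585044775034990477471912468134060800992134312876621285468494924505879215892456412784488195495511527235369998228488108924630390544199195211174884051640605445258088653214335971205535141524337729200024616556348978743698144738371700286827541985084551463383291141984969370265937002620851737141277847429256442060193967602884279256407942636028895096728501795104614112539983974382781919989047012567884229477014955953396253560761074753846888367795106939660945409207721944011748907555534188224069880300332638995470228878327612379810117484559118635146990748457829580034244680069250849123413075338728044015272723930850736457266568766467102716828463477394869227999463222340804194176942299582737907449233212400838081061985924002251749194850162955471204368394646070748036902849600570761381656498503643055317810438166972047471230353203048132352745155438568003250190967156926854194213537675256613990091364031135059618846017413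865910863445846988913438555951002239886832178155519802606731691070448022207901498782179333431408163926552134335283024575729162526001325350973791907593247310757601245669649087749504318530669888963181925004602925541649540573847690063161122428310679599366731352543687835883725420920373911664247807438063962132036398881210206899828613794764696137990926015205242792298949484518853850616267513407395055334469479997989953218026888920945894306072111865810556620846795357940337966075285194137890882781286914214318560906442041608012481370992233891825481411783008433716630916783595239035168192580753648960572775916149988128232100802837231919323003942533545498187207015285462691226824038136326311012612253175925447123278136363837800397641588520270453232064875600933489676088822569217256957375642546490325123737675547451891216014544141026860999804625178472005162711747566376918492779025250569082592429162992265010208622454450327410601650242805019585591789992985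043853663763261800940190266721628237091457991699070941033349479685796530753605120396029431748941280772568324928886837230158498052605181663912794215923168963719403740402343519268174304032354889016810433424588360441549565030203419911864510978403477246169647647887499288884893854243559881538070339667060640995401566425929882339866882332510899690610902044794466027974011859503757442993887841166442545758555852101240496919494103281178810509130287022392835488763505988038691307262378185708726040070955832171445668783920217694300634621008390430531722400956176673195312843909015005143632736383949491575250719940609765640077229162326721461051031613632302634864524312846787616629171141485373379739700284518850462062781851661345000665405875116978734098773195501822778560844247835802169593805035227571754482287601783716687659961725929941422631111165252069089946442875555550072664638228843699192181485178059275762146942448941940001020349286790177641342673105729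413421505092877559178942164803726382243873337905006327263987594226320474949709143179765710645973744349156980744073300112213055168745922696863768288593258744796561226620612051466414531202894374551915565768956845909491070903053595174092831177627870637025496598679851096291831800445507981678384322207615312885925818897518663902274677479960076973113940463633751199074657714587975685877153333436584258898567345103470552594111119571370757876187872505097949232917519641358534848042501244458058302029103563095256641679696646991035988672835584335790313020531882250975202711241439650790224391672855709869894131023807676901466673982720159053262712494391556473633644885263836166107664280389870908920231376424123967372721409503824557399528652465797129811398882000962493579304843294981781861893549928123163734844981401968459970246019397045284546807556226683094199211267481871507385923661380021327570360575940647588838355268822921254329849501955845481111740112991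822557890791879982109435533642509522607374347242507814814484646365121826236542449981610177341396751381131519790585169716243762995101525028769158435105452865837390614397276959172456646468043778993924608022579142223829893767232404580228563721562882610350262854936364660767410220899753460765859924675149465572511623045390462494412896657520891706170451881247196843563542918594410483109593757911497936848190939197100652061734098913806858086675534830084739161507961684700048505436963648810297292021619483182151244673037944615446314325475745012781007690281200651982244516779331404150005133887325261877686194267216525608582999342122406878093537241038088159778524830664423148882774487630872694073251728321904851035181967727139403703276711607308741062160008794909619449254178834453385034193105560258165713927410612110306280574176411758968907140481167582113519813617768363866870805860133498817504900613976972129152324732232271727669104179695017946216564716381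635173778383739417979128028264852044523765840688413444663547380572642288413039896093741540187863697245543176724194269553906547127544157671896204584693889668702680657177557222001744063290293582975091303904259096745942894704911241959668540641087705639786808198901731396007531213969007354090061046318631598832162933699242012339312524431456850722396172689496513524979619597385743899230195015062356102439334448200153874644358712785534226559491942806998821309327627026616247884664478802197391305203662306218529936130432448822368899375325144309167520159815899074714989635381508126482681425854701390410731728153066696962424259044883220409138025101641989230170794752849717888062632949250061010680219441199617241325310277918293257203306107041531654353561755496569941457774324710419080378514502452284665569134502446565994952771597221697322012611919711463555542229709053196004265969104420734740601067854903970519755168161737846185871368870036940378714375023329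149076544085388742487402237970872614379748208502202293090514507866287252892010807514363182031641038310820576648272860392222729072820991073253187234282238144664505598718886192366018456601670954432190081282912165875474821227246096453741560760099172501873298023200376702184928031303832657293980177382372040105763228843966581301227324807986407875033007391828523636240415267549232200180414524506708947544642740847177627182008879911448932797619358809040166840962155303054019070129902092778066383167275513177080261422108363263679414337092980059560847346371152204737231810376123254567758520023135192966051708133914498916159786073760169749002292248516217717671662040577167978989490220250232125727966572901818249820530483614180358911669885530943875403674214955280058775514886775089925120771392797521845826527616146914421628402258071421075572630188748502393089728254612655072136326804165598831543132736267587458316574772161667955872023275980334606976214497200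356774864217261155283699473544242541923342264638141350411939654516245846377732713883815993506835266030572210235423948323925653152548262325417918539072379647004657474180629234216143060813793615291379118540749075543524948341022474228774686916737546664885978680189616100575435229940934082147811679550527666573525747192742074819239402808544120326036836713164870354700284767425917520282405661012840208661333980268045257386438350562419721891849976340577911941321960391904522946286948058805182988882564310126560456002365577586443095870941391123880970879475543106303440222899122757861840067442439642063393403279083630488559461007873860836232185808846809196093832290548773314838410202538392584753072666255634465604780440774626194880432968228900353275737767446422309654764973299919317743528942143836992866023352785641096780116566949310306056837929968421857835067279543987193864602857500643095682890966564218205059417096301732483391653917599949838883431792964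539990835762568940038417095972103989307542594424700675107231885789343469454284768033882772616973469499135446006052895905985135369956424609111941091491153581975768826453959704570547735229571917792434561325304274193023729483918378375527246089074978165795528306111892185791213266375132437637445053444068505078696463973158235343554331908993848658408909079067220743158537490060013330719256024226188017157663082659364012450710872053905695605225087091376812223284839974056946782761843992866385620047673800210340246231994535215872963958383462913994439026544486645760)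

noncomputable def rc3 : Nat := (nat_lit 229062623711771783131567232292296032885344512922146492232166236152742179951347769840268953249615473998423439731331596024052466668013381229931757736074847129443537909330719957095285560238721458208560370750273780631475250986920813204658565616677401867241652087399900052270448844306145391308312338155075051535668523917528387031167026883510722136101681443455150982206549375407093000520828629283773565638985049478087323104744144820293568423275767026603857918193015188026627218139193239957814943921590170829699054251222058363593641945769257260276967158610326774911580124693882498665232046195332502887091498449724196128617573066105800701776572935739743959304929162714590752595721637622676543965066021739722601811185362089106351648469816244445153253601599687612288239556658657681772355253060425673986889310669780632986743766142381063681164076664995625483634558077241414946601290774389462320814136622139175044049820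870328379986073796381388787501721840494797741466754384138801168577832507788003461256883958381504820513840841760330567227494882946010157084696845165491503777436925769098179116754751399675944266626978838326033836215003053232745093028143498728993211381416789240230195943604134540349733554570844458888614799179467004517260969891956026837754804796796505570922892289392973106476330939177219913497555969096588392323297488599952106607539521564151424189753866085673141117346329709467788846915401473638794376819749980631690696919922267009488426118872066564432806189162333202652727346123629297128672345013125992615074408954448887140775713642245817755829933615787979705392340963751534611620321399076144450759418309928284680762945615029557992982334332302933741853976926722310528560424200056338538840253286049942654187354364662057664036474300299645326977170299818902385709290486017176476903791146610708234618465270362864796720357444453174023517432322550239168511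360009358196265320182009976309910449584599115583798243237133087386592554262519777918601220523188540779314484463703886590412207353685098110357567823607878553273155977032113988884996499246311140066845541173311672450751045798176090365684040008273323274335530652955924299609516500474492334466833459560834999514741164994795560623835839388057227196870720995043135773538331087802536258173534444901207374064885306059086137498587820390634200903478945733854552980053812582934014029127127698191192181494546566262813684510576557351410831923439361728792762443629649498398687818683344174124531054178685363090141900660919451591308291093871820795566570521503810369749516163927448098020771800516339586231081107870681439436475866485246922506783528701184297173793589294580361762330414261437621599007821213423747421292512265706529665577031679347247157672744124423212733879943481393309438630506729165339336456906694218233667807203546112361783669498323597210254958304904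808492622772325072894163826468824700679008886673303987740704566301283772412795009037772043170862235549608774753072523469191703442765127890627438405975967702252457800970994141875294670246984770335185604578245842718399033767032830863698591954487192325303477557029981652350756293793312046531465260535217570984870465229956321589040513967958725781415000470666008351248711576807655298889863582540895637016164650793391806809778249315709639998241883054214500195978724128198414185368394939475142781063781908916620508132316278387061060326212127985708876356771946918244939245077122872816584032644789539824529577122942247129525912299596912162778889922657948610253160150280575077767200983144440577262956053008863324361616222285877148470039853542361583041877727187374304177620401092530476682950529695250357587563850071765397379014562825532513631932687619472299980927413153044214183172305897113985844815040699696244700315293578468755735409771233191397230698556140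586796037404469230595767917251726340599010519857207296068461211764445650464423864906728524787923565148551584142670735783134043122766128923197128541134596823759989789369394919625892812726456609694985515291404527103183495062487373832734788124946169416670866803508762351744381904510146180238864556826370009657739034872522203868075330225866538841810606647341952930906456510797665391221919285888283556375155440392931894768291935875662943215417277640277815399659963335949493629485716125513423252267024720083196284550453467230344915220635130466271512499902111183696207771645051163825014791878612725486364514263755283009767849044829936793171777424781341724160947341885347353230421372941501739592483161827496798017686428967747463353559774976862572711669325104527604941351055318891584776342391502143638165724552881754599990283967587218740342598472216752840222249719872134499847274297758986814248140328427604386398090342896078714415373802681192943514912071174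488472826265954859933844206360928133007364002087639518765351911555666491268262143737043646618363281915929076434811775432556930026023390412332553351532385876770133042347079941335970894367651869287795543036119603378394675779945318286875265366956841902747909411375899956035687090087592030336006766575405636642190551784531454199324649146852528232867518778355660780071657765684275465508124735996193498804004586375822994301981712611043310839322670940858395903768310357789382130412938876521888147695423320428749494069038786382622174039203707835272217934402709987297832451023984881206368774721799680196565943474612343699074514688587325707144563769838681256096496757468064983536017815796814263648884841075194779768607998520155799318584734085489102350946449180455193190518352914012928389550938905550111285816471875661809681972115405943415046566506661450485535712259355830887558165464838835595235556369917198563666380021159747594378497557602560513647047551481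416023228778516889281202319052063030870842492250520029520965743798189897781543720644553906019159755003642432610894986784253994118381647222818289385902032649363078833934702706832006534998164922464963323980215558801159321775247916968292626859485687544196439457507220905729762747423149400470815905407204107843684626033650450461616250391411219221757169234245738786819471285510772035520091264041295797209774804995667011754769530749592425451137198935766508525552121434373517534123979352986459021016566525741974121471419180648615161276066725142714102024012432195535232919426675991720962788403094139498722312559510340884642185835827961496084599065660405247033872659661588484957470381428682924784621505929804834260882318504085890918410566225423141484248375270209108884097553365003768686719727161572014572755598993071590513388940833225190330739443142860678944259146705883613794920532854676138790657760234376867428328268967047416340598454035651691410638151898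455311327912035358270585192726100991439858775262922591594243345724860856922497924406662531129712729968589818632986284956032481407141276668983733552320233949549691522381935425619158945511775805698698046889208926906753644043508527928304221353648107824523923051474402712241100328960104835972077806960502723872076481916321124082046029290729707092458108070222306368527871701772645475416104414818348541621939965809958409109419379838176535464699637316903634459651539908814441750571320474736578016571209696360471966483771395783396634169301550401511704399171947923774202792828244121136405528525078835444377620861144409434958845215861674281107171188292165821925901976297669088629362773791725350360016659945093719884747400508091727295686540970684434558791055869728094691900546468026222696016375466737929014674361188220367426387286357506194865586590729322490091219663683071786332195527182536099881432377457269212920279278461997189016343552315625254566928185406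633928302478190251825903147082523101708244154772221168806931837887083743304071005110915714239476989625363530610805167271222040593098389870617056836986799556775670517691970097310337746985799718547629594689813091770111241628923370009713794702028458972122387380092683435403649008857128097261520183880001359731857730385959559069532731611405601476236862219691357360032678183450128407698326587199648376821171888495132193800032998014040500346091862203228940689977145331512710694826769798489470176383189766723155690086263072274145466120124284753338412434146522805854729343209514546901967912649775222626266811323603596743358513952214995456681585031380111760394799445436369357524369978574083124501624436129352083889271189984590551552118208583216081705071916383561640262291263785252167419358721301475083698746165118249368317233659266499819236331795939850909346719398842475537684517289015236085826347293240003111552888377879042893991927702173253798161092497203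333498558890163123526109692867304552927294700452942694385774652903755362116300289948855771959267574599589306295407761500188265979607087943768970984757689124308251958326604311497561632459761037589696881884856964394038849618250930962869948513367517478330075755441134987571351328949674482938105484930538879194805655879716280811924108137981847512333326140691403699823308804506870549530993869349044347459956921847720915211127775367665492163861728065765581731962059693539390019959956747145393156901684878804809814204437035291782122411237696177805421855820279438667702172850483132897985378535958398311845163963901358194683985506132052651899410436288625688539955948950730413084148661444385031367685070929974990582081437699332916913895549086305196833061487831808775952562429172344265804204542633885049885300350792480505048953559797894805377950431180453129084862834266340332448131635029405200643195582748419319290714608258517062700548465537309775642831353719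584648955462993364197020424579817811142702747131151740691502291203275117792293071829329726469652346499746145761467315770939083081746586960670284525085221263848225974808924264098566382843387253697826330067564814843170091513341033402462997499121180799700782768583554029320710131999299991740000315017108369428589964569619069438598162444413980840041432903861318699424216822944265757751022660237135847607470052239266508904855943305279919301099654800879227978442459002996949631282342632231779044043565550362264723556045442132698671915453225677148582436407110695545191490354927893911311203271027543606685405740742881970649407874640076101405735839697237496502846392202716658647394687836043628764278899919108843313895747250818415158011035024378675583941727147285235717115736419048304941731540742496779155996116204123860379352903572228589382045791468660814000306609607836824695029475373624281976338533863408446080352779905896568988990550766795585838679695623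201454179928547020389149137307153283644872420120431076643971026788738836898812757516119944378192862142045624542173230843586561419943048502412664869808506622495960712584480437077378180145168683165349837934952543870438900577017305857489375489627092349207035520258782873659411411550964336657301175374102364128861701956816780179051816151779919827029730275611054896596617509957157950346000664974640770067460190020025448244192555633596742899282437043774493163184960456790425899201047612145468598013538276246974615475124171577519857172226640126604157566705315251315223398136702938668175295501577532057695087918068404537491459189893129737577828704205549476211691142876990832668149366125024961223179354461215990948976374419815677390417392178530565672668783912663092345724281674308163898568804732854326548665918641559381786298682857006622838138689220493961824233732691684014878048174144968503451580580742730682560678518250308499676550959865941564563693024135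664022653900879689076030481114138034909659913400217649808242855278495106917986125955012495682044778608350687629319915264708454987629210692010989666285099982622495167596753918810322349551597283522624166676432733293674840137409423770956466773960679079863658995738912172835782605998199530904046330476419303963684727718134666989740889803111173056396325848795230211702067270496759305168975499836718023639880587521344751945460830126094888256058749452442045766058999525767475182594406952798553982354985052820172836961586548647841766168874606317277580816921916356677697772771745317833381084739527193757424044532477572368853138624560557409225434049357096510248722577277978401554850051227088155657288991709779189953800105761970630944993049119709871482890370337377393078204762583030721002444019801349065682189618199773429981601156698315461134443359422852788419448788859333707318735641654827682189147484354181097308368307059072641823109663183354405078819588926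468052877334449792448535635715031982977323838139798817949946116829264446405920521979089091572035762017467900528149778039260298358204810479203559229052199009830808715152704802524222963716789414445658644784059572095504159368970520124096830831045617004799599043444147227843624604632350311699514856387351602441637119585347007555633391108297301353244754149316694849100731121015856476932114966640785589246478056764035699785501828395110442418229109291031688540834916543680826165869941650319188615522604969273514267588061938212974975603952297870754441791821351325983172735809543777494081824330111909512767687123826713118196987466082378398058310973818713686909022886999444455450690392732160853842653123609122436272116747182715060003967989832448283468745012716174273606384330315511575412879033473089512084609621072642949100030138924872237606195887541622831722220542316413253319040697764277282691896595461341628855299003909628819865665664641758627969659797521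129605126050693589607065830264989455152095255970522753334008078702254225579512898607083559335438274634534234464424847477164638991062502285786302078733478900551186069874910667102015021580219568883485916300122032661389906150231181138597822751695350028591559841476600238214773615575707656539284725054716202683439598910026045176605626119074478581698297140799012100881985438508913053821264138050592350301161634411706120848668368759812743126557520730072419868742135404916897122397189518866432255343900462347764668589784940143353823461612471371353229961826357988190417545987843280943018453642040751910640052097588313065925617901718458095575893013992990467799672320702770473591331574749736933565624579842766234380374717061787986928719408247467260310331429506652421144163674889518278067194539269353153875480547312208233600947800454506609280751184572889587051836751979362040043249904757172251382001758284592906294780835656004459898286678352955783988556813343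618100210867174641429849948980759499917305633645493032744005286318299783066591991373214985452562164871883108144026699462988678065830051931487906300410788867460452890675542667486390045175857828961659784334280648111653055414936236219240986275217714487249290843676224650346748391551687153424402309982205643905039230841166267265945213028800789402211197655573810414895379341028967121920533793469193386813048139881615960171916782978952215004351413925192336788193575686550574759241207203183063175688006153336580864889117694613173085768658933519022117216228823945096136238530809224657372646297679096863783944751334030883634610976191637582573767594768683099591674988901164460537464504569210892945377043253107795910287049507762974504056022790321524787180465707886237321969984437647942331594559600964980090268913129659584472878424956329981326575497300969596875291601261755279183897358047659954951874114005274858415358920015144869031616282968350303478194303123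753607754231303682173964801341515537519793602977029793573986331414068651581197388747607584609556345517347269062461285840622420935655020906391467291453947863689320233925116474874347528756366215790114183090537705733995268666734358646193934447910021864623788940956568813085799768039630875650741165205123188619705408246915076150490778457667281123408420300562348117189044038590670616509562278618894568751244482865113390708057231063143972670588048506946594328365123712006380488927265102516864446786087055517719325855340828403597713655938820621422163292773169411695950194955622427196930840722355438127574495117638210327599769605412181067380672697229480034249859581178476579288684547647212418820856417345628446506396797822599607642355668274047703787612989052428198270053424576304128614966100203674729692700303279214213279797246603596772030931651109319402755235218993394399127102287625255120769996193715130016990105455440197000294049230295719284456410653393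545616875019877752314862945912607918173655965233081893791259696292984690166578628075909272640420096517180711104665270355507805274431675945187808910304632415977581601878566006214232862426522929012323550886674265873035612432575029148067242945537573138738394918892709059935922339838595427063108030950974129348658454472264955045434494456019570808113850564850085920740689232617478456991447061702595884506546543401668978852402429622063843134514061200732599996115179456952449192770413973105060290431681405411971082268252326499458736200338688964303450313780538213549851751610918481145394798722110298368664846298053704874584272956220587046288933638930935527844828155514652775097512299591765334325510430042622920494071492806692080441193155496890676179923784310551220263767280864544589381063199233719642335289696938945767258900069448200407304791935529317450860317029851306465765991819733060030923058042519393560888333734198177247988090224352251591133574804697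898799333757737239252031081635626131138082463914064604373650568876069506512793738194389421948943125959710341038396983100618834647556613064864953887833603161863267989642699983296791838554847787782146659311077474580246073921708525409708485361173702338875670152347160884957489871583233888384701013269194441979896910052240253904643854245171745804103403553105790751946527752254599565584489559668812660086115361201158981668323880266407740055686020118255858501767812876164155349440268610505686298652969337123353910342612169520200270603747770732437707414724912528774616101381986095161595446964376507096708294809834878781295157515050820976504362790589533362235493331204121736552414319611989085889387026118640716955799357518109919594263184075543655013988007480094063639369012880253639687174922553135392477508382127615070765713260067607751549079451280088530734196804407835217862450450848361462283788980160180646995713859283595599997037239951314639246001430967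543883232688298400256660073995871565083813043973091405929005942011106671549008812633162219899053780802290332387246672587222884242499072936036095993270359462402032690488972981856641754048257282189002882472627199459928903405935094989816381238081987415093261539210837538090643457330426630039089463322245045261376946193664292899822240445443561060201906523773727818198645343483000068879340701155167159279189156636630109733265691289491674002400972450953170304208536416484128872838381107983513386982617679093214581184359501280543154638107155485637414239534269333504)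

noncomputable def rc4 : Nat := (nat_lit 229715369087568001482659291424178345470775484467166005040539130283568159712660281608152464248001005826247913313112908019814979184226024288927757634437388029688982358632707306213906125670003853987596728386939381486411393913534029896164658337910725994575162336635513620169532354890097549377083275166042343107240806752797794505395480688122746251624747395403071519931745648443542878797902924407190040226440007265787134090618901072027291935870594919773055277009218453979646511024857372444272800042113278729284907637871796920789935118577559669082524183545516049719427005673128926123782819686810085944816167668420981766608975665753925053702192660490389236615540209823872462545824524693459198794130578643294769717648435577069817799829502904540038847292106255334922662609632483756722615255204405635488778619063096480338112331162031135810139202882994964272967902321953663331229979815827565262064590765861802028597806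772969873349204993301625483673685215443807698366625628118368725897937891418460304914161921442447486930656496744573239964639320634176790965152405523998016664655120989650092316290312593385178141368550217120643471486764255253512531529714947208977913335798255972736423164089323515182469345808135062557525335607654324339761199341762811841054433314579043604026914635881520921831081150282833745832861494722135064020770486522363640071311074056730677159430424491416366032760179142723405535240847970433803776684251282725929732685755973025848806581877472028289208610085970367374098178476714687457388783279250944082400191126104089507440233032967031890320100569980643154242189717304980237857752248578546594289597015825216383169165905408329002181135457572297678942856130064098870461838224963685352659155633756916526347460498701183152828207390668350001298961371434165217917222156748235184911727137414634595438635059369698153493668649197030193444093584451022420261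915655108140167342320293506847336568456444471300222166881045025079734703061654314337186262509771838722017333304337587384154861598954061557050030977839479666773181409961940739217080315360444140493859652961089453584617979900355182141898195026788271687438480939116708404800016666948674995504803326923687051884650540653476001150152700062722076421310714081551257298825939740641260277751887966122559281286369697860792368594200081140625365021189590042628426753025699139974260226814559935797633613999095995857555535773703024013068905216480021376618928338472146124972770809060495518053595614179805552277584505188914199632396149063203578332578845635357415151532365829984405892390843044224963349560464638357899723780875623066624143723718135843768756373330353120475230926598526445671230791406230256329827635348802990843817190847344809662141501306428409126343143571945866656082049192553050338802683937051468359656702352835431166095530771874531608536489663895697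589535061818551066722754190383803900092621175256613305272799822252195638297661397239999518968922834652629494401465652526246020186514763682153241946485011195135731444223828611096284985895651121635376409099027524329802881069964935655517958856650822405096529803519921218513268122633053756882074852812707881712749938605209207489904786804146562154581137956477672883874282873276222884287661382962426919772888370558057405196972390915782323192649779446829988691619488812467349895134884073587629074300113808894157782137819927799523559896958183419356394078072033495221728221795233956847441763776839712944611413976151796174689898201062441135269125802467377547755616807286484742756911243597338499789788832579539290173078309379848683557734065786152952851062080376755236482997530900889091148470582907279749538072171261269182026087064148396833214991986034966006312059268391558262292663719026432721627245607624927065880775203556864381252418779187938739793957585310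336804503477507236898026264398080544338107240040755486186807100088414383058353696362908768088086825633936708184797333886615739353582526146087441652270412077535667198615576529491134163299358279418898331913998540487977275395958998952435955028446295080901402317788569880091744359968192326736575095905241637535805413677176008498277241015264241357218120792540875861876974058652268533853012104272295225203074439546230711413966354709986402407909604445313451252013649114232768385867168218662410862425097904153137410617513747239645761216860754870037612551774550930561266381817402357075134480544626638107296033526460317705145495259098004988610742085247670032647442009568283964757095593602307974803146214898585046533182333594868084452461660232530121397160835737361944849588668067937516864748565557546706323903911118528297968151674827717750792911692173944994995849451636152789982098791550032881548035180464087065621758070254992714849638133667050396345068693299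113925311419924813779339986633327770843901581324150307766711394311165384509211912121502589761182132381660735065094594741317364680154289791353646263227865232345606535260127149773850336374354046698229721633492991416198475918865589552472026107768633602299584788887759170102221305863552357721728373422904426973887630134101227351219270738406137371143204806194996794921666391781323176023345694714259119128195357432176863231715836670674654850623216743173386603329061068064147506773174016578275031610783709146056463041829058617745510911237133673375688003791541431226287009946037073523100313075459919401883147582239837460092466706368874878322315327671052805360320139405385888120287764469015713319277886816942499965492102867788193159541357670188960258484732720761706246805228256734156074925213783428208492170522251102178510541958303160534060016690819778136073724510705026246673195292586621949022452633770175807898731548547716233181822110324933780502852267019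506695294022044081437095355089457952059821743635205806483931851068321303882984660955352550157312009678905393558341044181681085829482447236085707685309160015058762113213055639095253156795126830819893906842627490181324229516569038491205670123172995982286519551004599835807615561459551679388781190220156163889239263478405458756626661371770757470096845085066678757488998603678452735484370799176813201537381564036995261960049094874200661801910436904267367846487980589225309466734169653994543026104740323924266399710583382912890446908436532921123372275961669681473453345562513625324266577328540142339831994908212844954139500707407621129907488283692876481739606546337843947012940528590969135965718016596506359313824546776746020120067807461874259210652002268450640174511435037457688463988149904169117020235791960632883148639494954809764685508361662191910046338624365798192900979876123132518477873905689685542666264920619454473854987539933332300290252135949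590898462617113829977269647085842133812177128776404744510893824606390249019162005062203555026774034641319425461965370123687416551395451539804606667295374950181450466194480560364780943584569111424211995775080166939582526677488689006539557291987571534895488181073051082732873225386079683323694070242643761884286990623027282053543181529031934769816688849952163926077334227158826165883331813378507989247583835018030844819120384592084780612619230706006250181819128305489088247317288905136837507005550282423127670148524167464436084145530431364400469764309312360031719240773858683875441619526291926240671375469076747831760658160631130700112062210683196095302493440456650663311498699078842610222029481036277506885326567654598247846490329565947613099536734538137806738088082094146307958494218789305948526337071419766338119066689761829871829057446738823158374233020618147914574426487818216990017753247054564325671185139188150233465833042348144054697459040811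078727987627046305101302105324741610638591351834740065238279321213896222991795415736621601518176888886074395685383236675109285802644638480805717478516608704968354294426411332884196200479422124084088326412285615857824737360021530537398160721561185289515598504967169736783559421360819153603663154660895915357086341819581421495414024202294105917549634755452796839215804467152692272492491011046842911276663014475324305018895790626962086763873278341633605191817626336840169891889002154407949097446750227121521713479952952655725810910817425974642362599097882161404348127893012512645090005459097292064900115203387330800489953470751921438002602651431570842847752638497645411972137625107649867256488816266789584448561967080827793315005815297660377961811715909473226214923465316292851753380488836753440456070190521904185627724335496696716334743792630365426604234131966695507798320706739992345987422715547991042406857352760597035344448075477192988467899549023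106687880671046607243968955411282451270337674905360008481989422147380107945611623344653008531263012685779116030098622778812988344560041705650454698939644118798386081351256256612238539070289485557250537674648655009100089523218827672716782581111139126097615246233162609987731677335003679030087009984698898412090173490310243965029140560630316649711427747400482023179861117536029878231472866440079292220180997153201143331632928232525046269336831416651020509300968443982474700941737592071683597681564249503227445408262842396200511487602785077159767427377415755350954195677465795590817504821632306871941973304965820519975951747770833591071341838224813505648518052099343643588621559708151385890888824201396657063560640645435503966367422526882590651577415557442968030063588661056876273271883888383778252589971044201552888267898558221802153670358243804155962197921573765675623215788339513818834284504118134308444804665253696920835768942721422246506464574905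103051339416233639853033734244915542375981512377331390630451411689042443130661040298664482597199808237984213415761675096388862667041629217089027732003886990374233939858279226805632784202972181468679606842653637479003716844498572619364428898799174052961301387285495605330635995032646714479663217263713862960382316016481805392368638513890233416698299320842709949680577712422327242801355850001339108766883031271823356815211274525594510048183902079787601505876412903771475256789083908737327889828898099472785827426863267243345276436395822416467479085046945402189922926312155896199205109667899881300243478634966963813546244250508604840035900787431650229411159262124051893615673905286108674379676270901923813893914832118890187240048636169902664427205107419101816436491291621485208900388166531988691150773284065996817032570512113623273381998597121055478682243275667039880903230991125302908811305809117235367826157301216415026538462552163740584599079138657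735837716870495612172384122854085519139960219814470426461566001124280106492596152792405730881764642384372270626454462236910196280143219615555058858512655521444199880911047954928777485420298403719691567035770661772223485781051592256265443686548531383691237255064692232321887996804110682995563302884942398185631734320810790278661524557814455126586441942758693125426217916808541622963446568214490137392127174663853864221724674235935331541365356072023915421326523527264090157453733723716629134866632068327826925151140215323102102508917995465042357257504108917597056579609406284963483400686664743821216163965755139838107146298740760240846114543657221654540922217860342319106294578411954768307859864041040090707116246814047506746717098179523002487287585785504524807861314448532332820950480350120010497611168521116785183096231872163488699572992287302473612164217776162395468442041908516686288491140777598776478139594831017039634687982731582329699004983229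063124810763859667722732449077173304590787054204077785075343853551076339368195923000287995048135671330354992588653489746579253354929522859756550965776651438381550465417138516107306177615075101071195488265281825744598779448375452018922701283900917263330521842846251419534285925061191728628608363945844010493004704334988361386886883390825498783466859679043597536230175378509299395879254612172338231709793363106143721523655703254271590598605040524278342511534390853945183903992016835958401750559361120463410675518768537303295968735495888087244794275622235185265345647043891568515911991237224586455601906511072003051630377202567844519232438670130955597565519605460090627062205213362245375843190028335541539672940192309745985199484240701107628387880875433838374613468335655608683569921988422398124063495245735064644429166098306800601208241556467787682727316524639813924494585593629332923418219778815660979416502393497271439335786377220423171697776903314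157309953384831637979481343886053986823841885583997769503107707975650117827429743029544846241496168236016139244917420465906865094199738528636569576944276076589978717556801799684643409950424102894988536801534638181832724627850899242330227970039218940133552454476828638880387641829713573552785435125144303780277307200311374064946060289083660388382431898796647139983572473566326146682236143046620420086665631046184897553828925424974668351094236583667266162372113779314774450312842162673991217225812326627323215033816414049487885503584299708120162208172163700777378363714514958056959634040413345735406746487570436816046730599051831174035416157385142695618190869613031480076129079457496357362292831901290248598361301787359186779749732200014707388614693016002471585876146817317032193670313657884766243167429868347559372368576894394422637314742956593451849420409565795845166101571614188121473349609494107634193584784727722911299316266079889321661107179527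117853211171869761129562478695913008220777819283691879404869399417875068592928311946602153673575968975742801736877767399235920559704614097946171642155817024528823138889876247886108424723013872432179297836968935179119014703770609957414582121950563093741891486855137704994297915575516228885902776703145939301084459861169211831594150885649882711037420734876889201684113248822379699212382719585243999868410132395849186781953259546923159484192015135098725360744641895980210189406518818281130032096667598380305280364404384033677614689066439910210340203459528550531503340486716321285444705556350758354587267604498679142974071518086538290167859165465957853230928022985468074338454825722879840182653214181075799254415857268742311348705982503961461644094590456593827870290649638865696254027173075797696048675676981542982816533829387148913610678928746825569415494578524272100517714781622452890550726053279367359398106929711864477595502010903366183897298358680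282290316214014802032739597708893855610796156985585446240592772939693990651714484738450382092056839417856281600750955612531362439899853527252697418093951981190831438618776752251361509542014948650416441269997300008649619686831219840211051756985736468799557823845106337135015220837039380959929142801752925241882264801059101390394127596324099078682520757518405655065252025233291313803647261224281477972480290406680073956690307390367733699791000466256225897695486783455542855677619854370487034079159878876928732965317632773262866177666488381411213583425955868768832530714602504525739660976199192012428495719741037168295080632522396635573232197196389607572782959113240829652175716796085051396124036989941114210892671756815833167679574893795908340609243790405252575785776641693042889733598762215663178825737450465073727564418164630928782716969479943343067957873968823071566875861419780603670206030563796630397031053674542121091289904568087030488584086026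566419547946780132826808549252205497486535398684938027510499358482029034448230388687208741343137581288605447765321156847810400009350249872442506801823571095276275858095975620022830548291841838724838138652097540574668573892979795345484135633656827442218886161461485859846765988366018395029461014371398835529202430153676012115654494063839581104866159881480750063667977880498472692706942118250730734471709450114862577616787646694231030362304289984962112440467772921261716999974600495748544384454727555529549979934499365057837775407586242967815202254851345783956628472249598524313812107011196191511123501612313718781690837728582238548516973267187005401598419395423430242466523161810929340185519653174850835940459854831479247529125107223487784864071884246319526232056195715047007807530596695994783798114338332755927996281325632350408630817831877787699234630698897095362495223914246982701647670498670422210376041734083413343773303020210399388674656446822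695996372376060537041372003260013805060376599830679809726176635795298239672861286296165945315776162122978308472403799105948630550715843191652203715825771906633344546041571600641346196359305979416262402769590838379969345042933409034736365467100495157812711943193369933795675782826585089380564373634179661279562252694644725350490957670128324993948652433023745839243370631428197900196952173614377160421084469029256707159180283498924309338985981906195995552004917415772156930092900644212067343651546936759291161170137271523221786032048919768850401613368232881685047502626044448465241864699042696742187185361358212984856040559509311554891148538740041768799725867022867839789225334897461826856756054020473030567160124690591808381505138528704975556706192780647992833620397019856534114139879849977641426330237956388008612875111300327444056589002848811741927804407150628800321895624464080729454459373367765022618648632703356397431359311017249719829316783717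112764544865037935585517630393209017835504912400017018284040357669244204517470827081400322185159339639502909263666081136103070832752693440821776248793518242841912729036085733799724786272972276394365962850688020228907363093998486919746130535429701486493810045702297128947640537475428105271817843972148457893248567999575916933569194068193301417370962951196618251925498243205272910565703532573945849530442437293873228908929674792764654705246755471665476126756211399756271717903190925964865811027339596159598093473376702373757807767330141282832365246743721710255558555340027688793543160310429648247179701736098692896781191531764929497381388814312148864716341665527469177049896957720378450627551538712396525364550556671581142772515949809545877168658483356412864735908346844363935647905620911201270701884387714663211152333439063645137741546733423405560933270088374137749452611376047392846347971950807855459396733489941920533614255081361957702720298247766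159745207794276995981562929642410363905769406569724200800390211362934328343535951758336358259013406412289849549042533832097267609470553796609475572047919366729007085207864092860622563983694344646756213253420671804400783143740458951869668765296337357414278027360965686143184386772629216141428449836764377774417819385792075171939730514734836879037476538633512539691746390180745356838124477775283220520289770221223743933864864418450174281079809530830094521808213467194380507699075959366383440182121680599737404520273137137383457601995542447926565405550320812032)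

noncomputable def rc5 : Nat := (nat_lit 230365596191701873519823690972594759919469480696931322831114754677819981170696045995503934572442158807448301267461037352371702302253484784309886343504619640841279098489183711938715652442150735082886821530651256001236317615752726765050920759632831600711257449525721232460364007975871917673165047494147047320956880095987311008192353847125382295923294017522184562836978755875358118919820835768369501251606284131878050300738657185942741373404869118562709128958290520173925430437399652183245344872077371260574360768360240184292660592935283187043353160171019231076908941847420974889207738302130240383756737284752066550436679517183399148822769397601758096083380834911904968833964141556505167919552724713164667855124608462854765743080644990559318831194343824961997346569336145306748139934061055170175438518171252276911162092425219141570279369037496575313255420798413733798188447497665191112609948745335865018063456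448586340425626916108274879543205092814298732825020972260953134073211030024072751508302527187334693047619118494175321245885264766678394988053604919084732563431642025041307014034153283277065315783667614546546814307526157806385706332329790534170444973619359049215243364164804830370991647312026883573279723926049907085510220605942726743731784863126914579533548545922514814140868267961792794055466536203646885877895199727591524525187271616928828786476272145910321616017279069716155018163764617438978654551630555678836279784483501836527110048091436211328222108642059055562092494109073182826094561226632522076541659802317217145533683329041248622264187285774321873102121637610757499412160374452100263586268851006323372810417511123425445689132467044155859974592363052332657566282049052457381309448213411710633312531565697452440364516665235240031702175377861770247506972972528745014189333374449859250882706526069070907528979899479970996376720888755072559908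636404770173813513406205549452626867419617744274367329786993256477811712515090964927200267905158099164454212558104768044853561456011377296019449676902668685301343061159918662465104116177141832493628114896119257221242976131778905422116004325165321788165629501232673352668024208947528647380408036279204064778244146760020623844144453262495173142726139021609177866159852911266305469660254062217433323691296367575442384574556485662892804249784194249790316872269021484057873778143936299396798278827852162528460151816569208518738736650121487637105832544143666284058542219874763126219759805151193047290683185147339751188907165890011454503426662042546409369245309134581547291384085119369342813996440819865078007175221623955828092296765570247449873013214952134296919207135382358680123772552530890586749230089539647166622710860324984143427064046052759230452533740467255979131301696638418113879839839878019893112869594654862645149420782035457139728787239346265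806729723506749331034540906272450134640652072698123252580929357722319783339139462058816942751352010751447670575957323722159224221077764608058396089286222347506197535283474899653356721764450008545740328619976920722327076418135521881079286851881562592200061780945803473382856558494062519325606639843018580255310521419151503125489828069614658739044271542811753692175705958667467522966216757819576366113497541110992451650241374063338664555040093314638204298616230841495353646149979482894449359042741046832599664845762643269583872521483742376575000986623752206523704110742406031225791234248123884565215763023937936022070802704924675950866796485426135638113807949879373158187317326554156420410675374934033712767583050594572104557958935406091875061583059815582573864463918672510962536406813114769452863630983381599283132980402499626091389567110838234679481504341155518720439337963696153685489181522582982020123701368624481470296052612546056080634085425383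998406385893282795815959634410483803787793669625639185576146624990030935456553056053767395766867324179975287374109638883383525340004636755110216697039094848679998808869217541379084397528456603988110336822292278747021730569257954831057470126994853305730382204548176708695884810505141386705302480260266650296701717457585548165806734786076140957180636177476843506147951296220227001360902954916040717184506982661942449958237166840951191517381507500747700677188899965163271528598710706673928235665296025040722934200251411667692078093113753924771376657235369677356669834595672182427998138475705255685682332140082168170053925233287282448218249963629234766802112099468115597561742630913993248966976747058095226300853116779299870292806492606617219882353159109952748906935677734079519799415400549881870473448803056324159025757522755078199617822682541171541624323424407083957607749886535253268403593001490654263368157862150999060813662806616628110577950325773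223081288962084972828242802362434220524932369600662163286934562756904520638611261177406425920314401509040485726691935056230923385713557526914580778865526721701530893569183548174959511356624323504979887909064120133633876449333656471679221522745581128613632071695130962581305992908102677906578589083747406568055690147239472842900364770759043894106261153850450625986926809172207097478272654416223851560682528770318023586737619118989582038710151867258667709849245324718882370998511625578821900163644085858532928630705896976956844083846163821590283120072906676935129536894312650424790541208630221879744485220773742418635770409212494578849847712043609465931394720681311711840981794605551854682703782052845899893681870540689202177343456783696768569498625501183030817061952817938747162284736836928446147788648933860330077480217590082919510769478414591951653245348206910429535681821251754013880315140627331549913610182170446767762872845128254166786873432231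255032333221905412275613200449472561066550636954811212839172506265687406397577393801717473272519206120363479254085950337258767567579035427461550550990358030997222956129269175332121886078254045890206222457423373058547836755001493424639618767326787852511625930089312100601745512897109057043258977832015288428656914292281386543650937782244563766116207723749844077043057372101549948158755629224511993999422553381143452954503440742155091257704190335913079233003044731535993062285186571211276295576035826857644588970515739148028636458306701042310109110942901613802590107622408130464702269664122629612965154774480250510219941451285902317745623722209529673787883861462830010667374044603091238790191643400959294337908485333941790127385955040210710150341110039535482379387374534135625354468433904866301757951461958789099129697707295946929660906649939931890644607637574114449550566061863170701679210790605311440196463395921837286949515829983994108677048500423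807604702362730911159927777086777179225982862116664973129490039439861702047426029386552709318921292553914583803040283369018723192523657023483977354508115539912990074698204099361261531199660359274427586759548955144366117921477633491206827322581509400136415826515103741047017657643665450424907041623986256452467046785966074451539968582161549664620278803813435698268191447256032473130002761089566214232645479347368627297918041240799108714588655140225549003237188323435165119716417526725202109342075467272966284204813258027397733852413315221724746104491392289471080114674796281123022570148222591132177454229444193856260292817218636265436455390846775959453545022320625486054033027355347975073720299371163448745139604807564805187196238227948759477030830605592411901879507048857494967594869819619870246376243132969214326659140677804168430714927101682696576104329257601202977411654574681872821309331916811841525190577591558866037599756640141570874850711797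583311989284808428523687747760469310951847323766521445147192332579239362030695107127795991247656742023363411547456093028002199458752067770189181233602070531237642111838351120651776241075686174322252750154111423695209547895388160656025810480531242624761499033686136002381696451880763237895162781763808183361714555409232659670813035776865703465252997101026012865914976379600530877826887608411456524341167448716252043292544443409640533367306107111691852676677797904040094549808119010844660844112014313778694220157013011614346939128997327147563300292308501184483336196795347855873014160253034282874025336262222511615169359775717761466346792423478443027071033668546386520243062274170878627274156574617689743784554537137620396734875799360096119340674582372812532777364161361681046000915676065929359443552830920750946305023370105969563133956492514107029968274850765151909448550356071148135963734525942024560302203433757662416295513184190212308949695924351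044588510560896757485546655522854688461250931070749765106492274172543622517260675056778679059403430889813918111910368685423612607397597476147658400007002867783977534569552098119223944721209213670124113632804927479651910913997546730192832208879135524282156099625669109669211314253518902179000131285322990225693873105622803178617432246027773232650178516558386506822324178794634713447500760537257424123641739965114599995714537803852010145114575701762912571364943853018786474487351725342329138194065913268965944978013635220287848313620472524509888855494148374294462072121318939425661207749580591650352584643832165245580134844717980635859295880587070563026186566385350040129828525705454225706998542566282399831152406359139381439859727747286440667401130089799352387720947771662310164023247661470996711657429569346949417106299836474033608377384809099848878098323372832106418563870786057095703206672859083103067047506210601194316751451443046960432098027822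421756211923032762661753504276662416937634458646332270780348612482150321769150192777302669973803362457494355232219933840245953670162453875606045943418059116770398367188193454000117961182932952142754628190885957469242690639791269573548633427546167259177571523317360602970891309805608823321768777051006688693355714312286057017996226046255933641923576002194778050364787043336766840356825199263984883306219501287896377595330554174131663925190400610191736488571802779557350915395650794596974754087438462370709696929863591647671939042767394046574312948500477838675531629265142583744644201147805964331669016522674122685205822434824529523849012491273819316697470509755597530154932346227197092187291777159834490816168648529022501455547422206507754049279230429822493592692971953846464197259939836646609448664219775607220672578524432575643449072354902702896877128606204924738094244032943384210064991354884991066296153741310496853740456379341776320097594244931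930199069175356220945977540156486398115382893257727569056749877939543509723555848125502123779007850491123158944605195638553049199758667527047073888850808091956453201743932893992707855233959698459750350182046947166405066519408594544758837074020265248752535547758970706408451595095992672909979828933554859871058107787679053640994505158302291649636670237818498012366738280872526007306912014936169673138193290931833735052484437012585807829635478435529186474432100932871222232696734083864269642306277576242301769630369949978292736444183633341007540416976194722063743615838770149698179885492030541226462125993055058744514831110097605388232333564848678771326009005529579899373809907704417448974799048133188701517185598683958044661665762069454371283632685337814838973711701200069700398500833655510636063881628172433447804200805272813924364507839179208211933771380665706608865755881737545393536610081236474244719836712046875475471883321852077423081223173394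128584776674000165127942154815390721570950872078666295504253367139942680340334223186166260792433919560604434320909191878551799308003252290299707264073182525006442720269431827307184365586425575405668025794126642855166530531234550114801009738569541103991645152697829376203471497197324641856026293824740999734366325175577741955482063982609895586019745337516262539309423418411037157357239962656419184249104442156255536630881497456416597143582916762355791876138139538111643778574331595161048629822342934289555932941216359914188165369614718927545064064936675192199596907258015914116400477582547572584929279303698393825223040963896827609657644279796587047223632260922640735437460489935105579893209137436065397830563063423611919880974703179290918753445920279497772150665765312833340866629560613614278345977820643138689859588620999046334870714222318935883738134934127033056470059416031624855201762229710739364147994401586753139220057264885990425681051882724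675072119664379268443442055391557707676685292516468392612009819833914709505032524495598143290752287712577114397141541033417121970115381648739790118882220590208174844230403071661238591984153690093442472971196000597930795101412649924536336353287291572739695001804095753558409626518579095354668310806726570965107113488556928158735557070308602632620400448295773542362905302038544465211652697472022074869237481246456015536142552401505027657299415740053430616974249194995754904336219645438169462014351739435483558947735550311546546709197075435878324937242149332791019155840994101575266179911186743883918800390680273933128225823873595992821336610756672935622806103419255344824200128885082121339308713387301029856295092561962862336957786364095018161716163907099507948246975518939684675849341165682492906621442525534290379234032024704067731791155538937462572099583362869467445309113450431910896839562521714050494075238534239028147386870887781932850648783139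438913427781357670750224391673409109083104397579750323123623702236266693215770250029271103911787012555307067780985534568933445644321414470983905684918501586832817290388198691884560060573708145459123185691893685224744476967473140136690629020009463283456236238070399663664849496868046286069448687122167636628040698903475133475250805881223568984241817599452903206837098055575919316087062690725908589793102570988691995599832939325533315462431492623338856264442283771718386582509954260793157918030899741318026554891029717452426867061303796533724338536857510691481444582628490862137081708685268043071053590012924778788830017571269734541782179075450430296557538865889280503096773592221614667470548921445636502977385069890016112715282439831097930298525334313210231191962558585349177785563120424764128139317373611979939660122029065368473457175480348301473431776518080782739908349524637598071273430283636083497939553772616960293439115725231796737950800790737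019181850335859159565511181815109371425403223915535383790429439079704520753825491555415767639427489266292804923325285272968643980089569097444272247911769285286790985871146133718658763984688414790356562536073591300203234941145009043350546904486979771919731737087409349617588803942050617982632763793297517072177514670990314276360918650980236706036606221635955074322837310899102379991275844722564505712321980703822844245628813814661204682877348640358457437717311653714021013621772490226983675324714033129973718564898142677801459522189289145410961930518908171181327713094714202347416700854376446855415546712004213333431186005733921625086907705440141648106681388334272244000788502779556221560297130085408878302995096634574311523447590058604663557340643972214331321307469773179691229965191601928010037571398884853073011861147508491345261150010386457154301505679951214567503077897988428167744690202887136697489828667032706140342632184087255559563980928078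943126822075256188651305284131316369043830529773475197248145216702378486772007250009343192401296481034039043932274266243749076101011802623866732899650136232726035771317708965045535123869882868262672751324112148815002445079325503579731260313209026507132323270688080560759026028039752721506499187201649876880874114714786772524990086696453975595100953763227809049375996030397018175286973965723588803040927351261398285771759209132723062478851796799730327660621950256825683951677030772588322007619859309138312369308361626199957381780190681945406613770611851126247719272828085814247397393221475874310781965243405740293958863297616136332952018310020567864402396688628846446593787748001482864488698575261411442080641347522383141501039877985286815189894556267995749135634701809899275814385467963468371521201297247867076208550539332927703902934506996295033140254990941837081447352150078111645604361306005120153450692045903620747985595891268748733456064253415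934285530541021801055522352518218846994636647415287714012169575294663182377782559931079166430340694987009579430252437449293137256062299578681099386779423634252203127259539360819404962790979753505346758830133738617881103730178138959371221965992547727967265533320086224605374165043983124936719185695298873507940430684531522672024906911998714532738181721739532582181100753488334157580524853542769724748333662059883844495171356019150324663688948726938351070553084090579063324557955183361524189818331352713269400440008622651725822397290573878039925868054636912944421190127472141149867484903931778516153775082379670573434080774782767522438398730130666292132681359802371987379634904496501937558900660111793714288421930131219488852753407497297361995301629168369509610384423752257057986715748944337279005006036384333039243925139379810854353024278310258559151475843272250521214761194864902324302024156917489686021817499671153126351067367698078554612564180281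808734089453503908834253512776429294317870690258302924765978535165899676930105045287584473311893943019651047608807838157014541615652764533134174612352059952264445153944931929199351407238518972970394868926002529382728186874127698775458767045613962115705399995554853310840123437525431189258406335141031693256225822552162416184137883935326588533485341418218277631857959000919566845653364722273865070071131778531456273520531168187798110665730167061045975166458408014141516438233411793276170834751729674252560702825681074143510055530158761573768917642265976803005760033378864968111895457836362195990085878952141638047649528691297549490634504304850369413344348724523206924430033908276522037737975120304274924433658479473195547746218240238365016343664817291199903945823015897565238718205382035579288466871671182145300087870410917786614721847930465729411058693275222000468711888862186768300874528853266555914443221321702044210811322294467517086212895036987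390751555797842362460178531736208299625952633201026630308819686428211806267654040649040888915127878523387582192795613748971022152863108319319252592006128821532117699075395568151692687063986689934195931865683542064448612134228833055347975371348058877214728984418839385002495576828692968446112014397749171619282286614059927469575869870605074854810559877794191720211725771755521753239674353445624966436156762753914876308200819920529988843269351248485775889245990394434774016962255219362387558741271221735870597862736056410156028875106781505564366213376613810176)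

noncomputable def rc6 : Nat := (nat_lit 231013411134094421730215773171620576279739343951359961854575693041191410024176072221505382211347519001493973479338305744250956253260187178556110847296089680107159545092028588350183848587413211226552633202969388618191980719900677067820153931033995069773526130493777908972336302156980783622587239712681543085391191540431073559494508210650675688080252618434853079695836298811924284390723126617378150772701801192391524193014034300044744820895424685867774624482103530703475761753320364476953279610326361279598244761580632162126882113926265963204474299791820364427852993798733553517486503750497837119060899105392684184327881472859900108789802338786177161149950132125534834675907361301263241913912586681005347241602091983849739050000982349797834391844782141360193946502558139001981173836437013547995499783007788262501607896897438737763753176928898603868346408403839622812328300799877912358941851287184975198849832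293903655846705267684784510773990800039958979894331256937004316064776246971517326002308021893778905937132688639391723596008251136648022754582049942114849121567560236481438172942142552610238941491842512161671321438263238778078506923920155926095335880077479397142052530048058282311445543630241522343690034389493671852912937875195723836359431886825518182540254805559410430348605846006967502949920641017126918497626898588934462976021797080254441358957999712193871835583092520377667548018009235896190322085484965410132956052484955722261526201660869625701197286648659484975233604076304110308241173985048480503106680483916355022165293697083914509698983998611712447079789277825262230818344353309133864423969669214950595433725446889729315664711819552037885776150253989314639455308125119145371239372659769111343919040346235599606800018132759730166848363210707566531812349617505764438225044075893668818723764313862229323263297305459823173905073222427734150101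792986757125592728843907333847479715972621367214684518308517399132618256380480874943160883260827870034887898591976981676114470359819806107206890700497342650023609370718854771258598533233284747853981746586828661404200732916259610701482212897530399148093804522281215413676635316635615878103247797710439581747859984595052999427807069792137346497354092113829183188164932578830164103552488623640223725009010131480381878317385080580359781706863366635823544344027830220235258458322738653522204949259147147727450299017711251302580716118805520092823680784056509460080532385785934931916838027690682292867551098383476315481675147073359350632131897476564046351114949278507471175816594288030671177856843314738315975479819801572563370375662302418766935352657660624000009553104202957442430732462292940664632585198582726009009076980702305559709247986647181247347430594328858912602406237020703992330546805501224267570705247096822111251108311151686790718663915880465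856567379012436205234514512954385235507149281432736176716136580980086982406814958959949437241583282990144971078191298679754946293756018380546507697392669510668674359417326152356066693220749208469039060955091680785063030877839710694246352483531319774862881129667324672905189729695748461080569938030432704303668289308895633089837532026068033632104850347707772591550828475925436291233491601555272094569220213373672182516536136186783356997425620893725664882429513472417096946716929389414706488717654064613535462560125923102844965658614334933763569560686086685665116353471149399767325667208907743780865786003812474699932409097646235533903285451765700438086916230380408179425861294621118640549592479491846338546461553933461314982200092934419895086039007065038558615023918242499310633393559689021019245065591885443675581352330319442403556814693565482700915796555008800037674969489148809792659002493548099638428403398793097802336776032224661272830630299216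719511190813816866521733852828492611900662607270056576166398757266188860503621950955933584362209969042267848287395492997569894066628245377947269141306639186033045564341238494242569014100993338149705797393407083299809126574161770802395981902067305335425260999645569087808879363406381652961163062910027919893506635377142901982333001824965257617035819326796522431481345344255022724399955991211330653945816731100182060374185270980625895770026934440531705223351675406827035383048211077677385180375710557411958626002946357933897591829079695386284815299691424790333531714503542512834709603325063143025003979381952782831864958437330570071516472442103275518282752970056806098032963843283266515109004377823711677227453894323022573073797707105537201162647329273730622250206686440778403857014799841243374602664410730249292862672340126381744727076648592316955064196230613639154571437862128282560195968729237800252819758078838521215351194026865619536260680088235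351257084917900204910239026292130321849530650636669790099158278719674129118728295351424162458844683186129999402300474761772963896972628800808111993438164083011025393895646814905180619448700430034651297742668704390169484942970261652022075161912568216309570937212388792215892755514174061722477147040566688181077457561050926776912821458485548740713163167233907984132516910099009486727275109229115410256297006134419028318390373526060991164648942478198435088673812192717616005315554468268851959028033202208445786245982274934929011035906198070160091402959115270541148940349596529130358371331352715958492092462630913627350855005770042017641913846631086076744548023142411419918064496061847984224088016314575625770485209477559185405572739272140528303905394281931028307334141831684651493666474326420864572815288912859021138393674808261487108561968064283776976732371833996302230453473713345394382313159750697029363858925250588862585037804905062468235295530753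920000741365752931016754624518341253088274235616648993271058960602749571275814219667797405134211207459673399527098461185184080532679440951410100522081579796896436677991345175710625935991681891751776523940366346147561000621750921675700175274291519090069408849941560525750068768650362312263565536585784462511054564634884956865635797188616511679160060940707492447834866730668976960478702736309755579251997520628735172849984556583490844191577167908982296166170808141468642162904670315051658190477705349366004664292182782651689058859434139722959769840343406215485461532509532586285976495434204441157363274831876913161931155319778731690920873397825380736059116050550364722543389093872438263906248539148630472413363213785121644338648306671214973401669219966321742549555547377361062211653492607442932556291646166074582911201595603146514582640133441609658028822796420259818214835599803447571710864410893379551135035093580909585914597743131297975108932467802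821924490159755524438977525637348680794850012429862870691198632337460004568638278041313034241067887187144220804190598117958066385099740635398458837120846813585713128425414263304611267905685923854374884521403008129323422770432138466639809123548310010721137136227629824512975098305603131572843478264486074454124586419139907784784870212911648968170772656886936312580473527171137256199320592895913417603838105703462722547729600802637474173936666357303562399303944587701892731550965105358629268248682898605045898554559805149528440277394855906337981913345757857960709838554425579804296630348425187354688603352132064593789545400987381474046312765236845522526572507157162367594914286096798778115633971797375654910644447359782012854542725885930199613120343190812866285570800062835542199140818728687599957437139182271473777351961452348863188452451513207672110728039571435585370770580682216803106016027896728162111355174880912694794849058317473927106281132559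868633254943503536162384120590882472094085723981330653736743206742500376669487736754513959216063561491144303408516940799830420976893834129948646721117733737000644062282465142389026112099942433550662254020658808230276940363346904763557312553135765348993027171487113403679573897506170780839427237959568842764629197427684253103761446134810222568533259995876930938803948945982103627206746384465968048059794144196771207360429598843036811835041791466580933182866401446361130840466742411364672853825152862972904899261186401854018675983385619359821380255394930707289821505622464014534209927627199531684974504904146293225757119108182255749895621479288113655010059266215606556682291121896004654871740927763569231766211908891906808725927231390610648152162208248498891788233339035936317323914451136271235344300569481379685920784828851536996915972210903631009116080617734865624119569078018608952938764183526589634821301609778903095960451800842270412684773710619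990251176613270326285683987073756871846378302874504128663116534784095914115549683863353021527777688969176470890608564988527440234855624814587705401842573668513655779065925955562246317955510963315638548779646725363722816218970025559414158391428483306562789215817362439177366475035491075438560624282293900831521252254472910722138384750025457018883700338517582988183889967938572777845811335279880838002515815524669692355760423612069581861227970704613548352398689594460245534709716994159771261511828744279752603174759907152113633709529033387657241456415021226059401316419001964740736294360609204851949792509722492080471578715606958241746361793685061646991657280341440707704850711483287726819814879420347069641749678499649804374056680142869682583364781721078864133015485544727330972934834965298968602917560031496823066212889712468720262439594083114460890037671210443585136387803193434757385647579605743466386532660824799234108831092801480662973944255766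658745561319972961539791784146674091735245443766567680099987759654157643954818428973390866847823687840304865419159143234226660142668751457854144413099574982652681994549439285280029506345237444102659941043492701904722625226026638903764623224578806533068080106733275810211167551314141495216945849658915654646862612809542663038866193155829284818235061310383643285452465544031072463920611610943645413431605555114150556554805047215155730969219512299508494617465701354099632940301269139755552434912943617594903422875545079355923260409377400242960118930042367242442531889881461973414416376426956995122276019905584102567053207793289339380187336395992168108047667639521041577372869413811053456533907416997297163526986894288743914696365002629173549466389625686950825375582094204368857119165819230413423560052379713457446732147367259220678227829195292916276102227929558132252817662322613821300162184621704610576149679925347723233799644997851907330917354877405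948409119486758152344955655569110374647056864981428138952053522923463276098278775361311470568061512559127180895511050128853215462661579427239597737741818721570066597576349775672435317663576033421258527038775068618250948848179810021015769988768381506319298419396073945881611922574228399343378269046925080522842025404764679152706727308322347557243307282847306657659382590699287479548669422540642373673891888232395802466533969216296979540742673550633614779190631594805496209577431635704856010197073110726408625575857181970443332009073615927482832153681231221433918246843073679026176812927662594862722586921853500781157754506317048490535260004466310147777492708315633550884330579337168504040331343256302113912984572439295307412290443456055594525661669433293520575526587063275413911164187615840424587063151357062338790942393657406597561209743007221403577791987137117329527204914984667618235456938799728366684601139941175806696300115383455422498297715463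788220777532442909033858694808326217049538686707547463790404997821230132128139486677227810939428711497705194138910239822133794224493365838517525713999950840333408689523344527488435015052921306258117257831005510603115687636596023502646012028030766449962416755385570655941746235466587774829933443378077250184864495841848824623676371349829660241535741873203780266915403757336165169671300491929198071021660315903029422446353184848246908888449613074411370656614541281583040507861021199631781245608333469163783382615261974525207147932310233146971187699775218808429326313646309822911514973300014758097453714410825124632032614301583848175224378923463565816311720806342022327731115218692761328634254003187308794739727803930117060094129015184215383170787294475772116365228281455917678475273293394766663990678509761398478203130595023084769281056481637840909265520481623337374905232946553076285115339828257927250518820985721423252047631419598459588374352743556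176745609936313580069266239953303909588478462910880258209419844406366793132790151954826784663824737734203495024800578883285869203814727791957572872899890348515165452137331370879089474039203117068167084998085028093857629166440302932666261093336725962460117909986103596737682302243983794416796646621101878016988357750582450294412890560062241201507595302872563650556588281622544085257569953756012871938400991324997889179685293207483558346623519138138229043202684636778438344055313245713526665074993431841793296688456820695979063837674599046786168995060071521410750721731807520629605866007921196652123343452125837683164598061920371158793291937796154136289604780845874313636910450926082094930565569273383428507317809717973068982096148533745919859510850724645287225556653484695324377350089571875020365636975988778069907743508356167872915026287805435995429490614401571154568951837207533216325857000985915858658184915235264564608303985458593578862564633505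937218197533380137844640665071735305341907219910025672985722230123428483340254332650866442722254186717084749691756185488589160032018530088409792360812551177500029106062925647499617323515938537972218152070534213648359521940786283947979948481808018991503278824326552266924531126091892186766972494771629204470745644028492947623657957613744866306779329949195997993455155433135832840047135588406012687374896768739401337960491224588257617179992558805650107380871562972695655770427382507468857830818882433424216336308039166901506752637082126477151237734322970252125082052462993566301375400352998609087565024725103542591075493549687291790835260606268810878616296676564374802631848480505303318144385819606914847015081516039312763949582779902545466245833134189693694545723170321095616379893240054485494900708678936525207842450385785863241008990879944337312247990984493068026899480241677967169555870306950062283662868572372125545047701926294047783526861353985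457412644645474560989436443538281593579505716166229773327236207191092592613608407350539784298249024936772549203351556763298523708305420030138328168344911240545262932717584596887351542221385218589968430446495145340586526524620123520424861949532548179936828490881438669294039608876612882098199842836489441708258358505970731936333459362746850665636388501761348690513349642752544601318829537166984568851715230725925396915514939148743012939465027262578666760538215342123952150574956025060690566611260630940974507719045247231769531326366295517546511424071171838889855730686513529874679191996899705208470543428819919780326142503893239265410677498494586502141503152557442863094074407936330134934511043560893096777584025149358948892619619921274084867920182053244826202571583375202573463510323760910773411988709774744197015087613220433554671339818195015418666518106026092053258803102341246705422822116773554161080430756773521415715006249107583165622912060347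368303415750711373791798743396302973691219379826116340349236692975268219710352190306628884754593739349294610900118283175208140532443654669412223213789286072119744335148442954089478295625333098707805094590537072100110750761771590086059150547090439450055175216290794976992911513214256848370116951939892800387664182666762699599884440708997925395979187144436613948603936086480647152086769546731860776865636486046851867691218957808732455138929405648342772096166208636725823335351000736145999975499712319313731408690067041638198256621486503257495732132171306713395830832654665758039702858599679240926776577156409534311295611028964387518635058736295734688923989053241728097344350980272406115854663189717026348210233825012879829559005327860577071087004977399137976765414255109863634571563789121742067831387236770957342685070392218102629315080672922368740006169484601327102376067332453471235053020562379993935157375910464042212811682891102215413623324155964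083640772874517233137885986486559225079119966303799070021130623795501602247845180078543015865106654597585136107759299848998365041340349009180837386575759825330738957209711704648642321802015372838900237408312255063528728639058185742135967375219289525427066578859139756831469956935419567056745391059458302352992906055155961140489695647247101269856877264173878487611010787748770510724725225323198574011457025577711545980632038792649847657202798613658895409270713279590574411395740316120434079747658101570597774161908773975593588586961727499020322189172615182466106255568792450572248299377907268148940014216118434831986719285465839979119772127013287215796504522194201037451872843383716314365257991237827137498981792716011916221075515901985201662183305300806064465878287891375491007282387122372839713515096305977480189258046714023007646920613738455265982393619353933337708106101577227985816374153532304420545731524512877179829621208298885442783428194547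903578565250394813818160483805657040965991202497969073010325764253125316334763749552038507684148427331229364116563620470547787047535738325571347030260597488036430746703141975386663069706104784349540992280344193736907947000672957815621969559741155238628581512275430486821541029882573093480069744654597627070868297742864035331778660197069849911249975925412766608868613338310628797825337708344447683546563748996978412464991221830178613876092578247894592599915418626760065155712389853932722537125462599869909901782759977308812538269571040250433896493000989796489796613111433668840454652516815101744497532975790691860149308381583107299050861690122015537972657075478706099526378501349973853198175990090366115427870491479962146966744023382923151788142459252051423900322581864222716462313229571637891926209375956734892947052240753365523289142689173736774697527605495981300858939466070826423460187961795472470801119329831395167132229643164125562319739303002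304234908378976528617873208130255547690383514707338343369095012836156167942714051799196253511299124815977802711569050202951615861204525000479690340743890070872065166176550130739439267625460108890632589192223686903852757200867344201422823050102195439881853723929297974436256852664737926027443209259737757106103295301242860192360445796372144681715134065535887431777820764994995977227302543119721618204209707892771666852463461910387847400599769035741661889351234714883091221592327541238772560492627000391330460283609448902880176410670844931328725607621469405184)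

noncomputable def rc7 : Nat := (nat_lit 231658947798270324110491456327343600210688262815194023383837564117396979043914116205883080569715753967775080187658520426504155077924420763242196142999103443030524443650095795766193696910385349917246836232512482432243722609557098828083168994839654162954921774677105740600885607043377283280180807262036327995366768995091184988566824565662675803202305319871088906418072444793530174011302590106116436775962474217865765700009535196364520723836302990147339744728506008245430826868086326851364951484064062612878075334718461573118058863275142045175197988214232515365652220255251084741092865635687100732885620260686939878430768692959575897014610749893397556222312495621164536293503678445545889179195962400923076808412191233103759027557034293794952062509398992884964107652029155421726153241841709837154524155054099971954173219322844618115429522179889791467068717406088037342935513304813515153951439792864306144349872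982743478488336930589178330181894650510332685495945209703528178252905457438586952178047795373249137425212771968765221874991679853324681245198812757002489096867081580431161418030826051416596300569003624327812426157517164551301492612405875407255553940139963682693149001390280967118307154283077591880013651994129611061970729795473212650578256932702428296032694962826125579373667931487562344337462633168858085369854277841329489272079551268938364039753137752273880398098672277027618354429959520853985470984465240484546814163200500381926479978829271311218842798885164601560536269448626709884255274853382789342267850530638951230199153652719720021311457530575954354166787531877852597580268660495357942931218771213321276760276400769120818220248274605907980873221348366127306439440992392947974142110754282330283201830493019994310891319612813234379344791770725664214997128679601070021415189110900789232552527647106015292071740677520653744580027294556779102899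594556740341445202300018475559843592045258785051460289669678060168126625611281600534908766224430879871829816735770191836154650250067963268578046066427326729651054190482869239292724691420484859234056431233015516197651488239036643888064997142196932502120757168849484350122482151232363174176667078634268391949469330344904087485294520655416529889260150408069683746153652082265848601305931025151476198487437120867203334805801531795277327134220964974504619417472985442853348095166041542972376227186003638429608429807139352009863165259644604829265460484570229253428494246946443078548291902655112676524576939806299135730494726825155881781333358363618836421565677816405479910604411807978850476524977237048976629629899269988497636591204697479713428979432419896164287252216990628164277763662417127197768678500429760405718431246518473997592782560930483074791863737746633469173625376277454442190112429109728540142114359581593014510251892440496611792041930257260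390579263789562214176818526941567665972635582694157202394217822244000645201557282125435363547956591649741600949413681797590134518829938741429968885398987147979780355982538106044575040892867605341314816039903080486376957712931164072044480537178336023979174160712575927435328218859462681409120346841997659774725312624514961571814332816193161422725485888296212152539987139101377141070157164867647490749106647680592528889463771580632973130375852897446918459134129985277263498223519588083415424799997635875509148041356109434849881780816500437532011283463006123885203191347542237632078147660992339127714879034609287629681949849996769135075793207539604797646789405837244938857588734655745871644808355195243773233989644251189161145763591539285652362076027714805642963597915026809890691329712790348162784028946413305918832041815857716929446051266553107849399271867028768086000904959629460156441777992398343897826359823705269701536096031403754067860002054530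321259682086324768412658937366508750813800070269651346323689204632677142362023154203242815152938703342026322209318221239119689802083839479272586573350290248628169595119075980002498164716523824800316962179496583376594825685779657807329199497071248739803810226860692722297883785635024044159172779796939800042464346156028758330607761767374169035996689742219016426874396322423482684886144957617906635966392009166720196382854257451157387764247618855531775872431113668850375244932490100957856011502343787503319716358436815108183940570964790186189897248363940923939011621175291451056999309539180757211240921278340332349769872729776603875380206033967899633469303780221478299549998874775255646363755154813684393812302127704851414696377261420610151920697705087090914498702837247407997927302619928084012606539112180097522737425115630134918226745848436402058198101593794494827622063251994164004476244906087823968361889390361464285810156045284908735737719631036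842587157942487387213866326389689748700269376292824649385321740720137673403694575216784435347539748996209549420209461278342381180541374093039842316403323806265502037277976605664134797635415211189216466097342565863865031838084265809571842241435897376986323045314079278457618360634616862777972430467409838871167175710790895997186219981641865574838373343443752004671869583821579143922072620265815154838130102862560923328023204361109009221437257362969080338883887603335498026072349442366727189027133303105195791288194625126162412213435259515102211976752307715236034650578070199611664702820647424500151476261216985667910944623646403905690824171313952530639594661260153268723856415875693327388791934156880914768270051316919279291525683596127169536241734903993461802127274162172211031343290550637078216753463628607507421108166973057157016488067690314170186513739021813250449627443897737948369915875392155971811813897157899222706106339174465158682492117133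366414152451196144654088301844904131295250905957416444908219924815189121689449053810173578544749510516029463637239777439103216977621605229590022257716339521177863477704653358971764596100553369137560428420948992650246798528272001727560142277288580982433944255998128567352848410207405825173028555706559140489640527185254442805637280374364454082752080709342660676174153567723314055123328735189557864453567976666094179937638950968109575198773744595038766517349675144502765713228803809234444660992729263655852635067585470937395365346386666196488633906708846788654806526194138944958397923857524442590047741629626702697881816609455673442652049998571755404486173241706013621272126936549613461237275890190183095417300452357805249183946076126017690411698803344119886421962108127870713997859007300951645509916186296426537128891437788084518635608670069209034911920089204615430648819211551965137813764021404711440683380901314512689986505674460196065210930837408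872412630296433218187217558174059411539291909654932298937580703987564317594995637160665511095173604066424080908526646491684419857918977438180834604924152666072586462705757348307338816003190307763083360520592108494524661371504122485792348042169232209184431413934636294772486169605822239742799598051344219749770706207309763718331109002031674265726232558003868934220187964832395200038884011936113506803707284742385409575724506583791381795550886711097003655612072858929706204620953834325884659279924263072797248471071427657943589225584009550069919724647341529246858503350493090121492321721994933384674125498142027090558824628750413913505133309280933639526266192292033001599823773486623222909843408469553248496667788085983551874640511934463922617523558621559820131525882476748194074188977910533078520363133491005440324947634933247918214024550647538037551037338547941764608259358316940776536544909518878216399733193031266787131427173992528939568970081666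755875457370359260600850983867588455516417374178655813109583196842345732265802868307545529013186505370635535174974282186181829882788064006495094730135630857828550846749971570517552614692811468022447854587798615393265708206705950789010933005061684296903110991102325435310306364238944077643537270057475010556126738671096924504533733929693004919115486029217332684436113937031250202401540098843588497332690142942119568306028149308604810037446571437983142272574424359830118749691479869170410052582843173186409076284654998597925628934372957886507082722681372150217272822021112279715810460277960402917833123759988996380055481431601081804706519815896104070410143560153165179592292445333995949276266293493596227135203884717427198216252476642717998473370908486424764331003461550343206213114967054873406238095077371171739941582062805526928480559752954519860487203359692219680904142731495376782716945866027778443916250795497203331514128112884713803199190915746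788729509014131035742751120670314802643931960708589823640900746011592804934611259915646991579090029192340394633774752266236374203410606677604210505017217957711095556339700252903994491499112100679665777900308269402467946698782811521736002258909434305041190472925333655741751393757068396688797060881962896483017422290602921031010182990913494111672827633308151492962828380031750123196690666054515976027268698458833665392688725137930153077592792263179878480754397115766334634364724223067195207397910106855827768371886729190362171541395238087574820949357469796379875847046529193436621683120069731882677124851930192009648180377167022110771235932834107485005156276947634047303920543565646638895837619984493197979433646178267291924926997890704093546597737290729537406621491436128533880902712109265807942235963100544735964229892570979570002835010528768461141421601652225565356462167625861401676451065680222923999243966690999208631731916448811893082185622512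434354047677611188219234735739685618832188643327121447403473453904615462226965063648087821524840079033917971805757171042515423318454448362357857344830580824805975326962635671779701725334712568564917738781838820688764815799308630316787616247745441042366480795437849068379500226792612144380940040771927495509240137576321541389060868102437602685055573952327489213543790009720105702579360790008252258848026852137474509905755114265513432671152681509062000220970131759537093828547740149962342938710938029093540112670996681753027612754537902979537850938431629168021971336151310083990460817250181290080158771563667022984151241158252936303441552265633969112006012209312209661594141946269074882398468634886781066521198961431821498849711174095346697615792590801826604189503593672735033510652996109978141966176227682763295299327115750019332893413150256188531029603111233321371014871342504421665314671704810819847126076822328562568492986891106603597092548125073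718667684318326112733859437615879581106801165889679961668004050940597240505705482415702227859122316256181575963890342131172618166413997654430136659529299447829862397813100003538709028318019701820060448566647050882014861337951934836525770738942088603562088377861404499821019893103328394785892466021246860267943471013966961157266575607306448523060544768062424827304089450637071456037589302783301397610087803464358383296042532127911566481615900155545702595350767854628713979464699444577192014487084416877598165950176294564008776735490527901164390001103015445236380640842277374562732989518800939084138669581149190064686279256023923325273670156553775729735507359200435472569388795740878387478751723799549885467667103779398215345163863312988191606165933217764531654758946303910788054766195137696879418772911524703496281016481335402456486887337189806697412600970689849536394376135593371381938309187050844453020086137720784687986078054444357189786665245513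522007568331416974617560742740711491533438789675573265612068594268762916341841434812970421447340959143920792393256559174655280944924482064230087100006994856660774615366527270348463189245864421302655879296180304990455094832277262447598173041873983361658530687132901146955140305371517662291505779618595080306406777872178495837189880835171810119425946598163013778268436644043844544864086799066633074861991443792962084696293030763756253577493379533451626744929581689169195832971917506240642292292153976874941134719453479420120347428170450248473517680696953154661273614484798455965470892457792030092213642182704765256473365662518923634091603693834652217056876688264062605229305950735389162476187593505111312825797026769444556151315434499610335293560095546974073689972468463156047695593574410342928964780261129423246940481708542044072831828101429650433393917094014575989044473846014998348448784409307236432842057340793740300307182922898192744842665768392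245457527628303116562387714042046193293474592141089956936001725965337915175979705158180300949957746545828490179494969234503568060499643321554175340934766264970476909981502333242291322685119892052007368625336525840363980094871084045162866817675040568506719843365807470777019927740538055676247405784467417169630519871554518920680044811072889259866948783255331352432833302720277274539790512340443914796226414061356264908395513153679682954596241058570770816647007110038068862369324152481112710665791791551482902280184613699978497728609430191840570638033897056934738362875020943524390490858008424636521101443698574012588967052481883977494211920791723626616399224394980109658580894889931979069683740964171023868017250056245031042740135046221166947892290582700436200720886118268171253627238731506562689794032702259831767861577089219498286136212984557975724843138178834893012413184705161183864714436692436135070480560994084493246451245028783942896790626391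410115472284457652820665902634531972335560711253280792022717894506557269208273389888340557075309480143442939288594827028256699798771326939225932166490822462283034818023109385794788893959247570931146760220936505142484107844164483247522419591985768573214181307958556245117972634167989953097871621795075160157908709180789619454901040433068780104010346333669354840567781475436738394991635713136727474597452356141519779021527280840055659456317215958347770492645306007207467443578894439453663286050907174081721359439308643970498581113134782509644335207890156458507031684445314216335011299533039304131084968275029755312772645814731921716603593809819988377719926805477154706073539964792892751165543503532477535320385937930321137831144320567633429778736684156194789877062568693156276202959038590370602636707098138865705706176196985545379444335513244142889637495100538404010510174704151253566738541283128594126211872148399547597416538107248463268408307379926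130596786318318117939179213373744298103848189549126997751232248225894102968033414484711757685155221907295971092909175038433561279908188244269337262328348248657678865017081986794425604191707086803841626381128526614270517852097321311504847261749418440611957109626890758502125411290336276405183673276779568629884452023690448827515870715544844045514280425359754005012391690217277076476751703919412627034352463788167399691510901579666271115216908832263212494572643279322188032545271869345664028479142805458495348300365525564811045248109340671199603521027969637238909018645865115488396985227223279666762904551617714605872987776565297751410599335114230434861147692829595879310854476065097890131166533257790835209379810066813216022614870775386939975969320926341666597894745426859353580984752584233608951621365409169751206725078591822875646144357357317451477894031098367291497365687599961297024120709460159673324497489701815147539469468083817858783336510723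625367422848775336229994522901424759844945955758666000318938017436660286376218597855380232082201430050086926735993908456282939330546496090866278097046318702302198812622068972507438558760084025519809829356347646258965318230484301542032900557943022641076712282804800429787164753936184658234083880001428402684685603433710602416613342203289596304401310453508523982073709909938691302667423892439555785782115153958936614419032146484989893715700169832916858945067849421055744324895319592961615578016406093121655948156449430449139246525775011908808945710971189065059693808082997467831236834703183024578824837266356411802143620952300756427356628090634166247813634658729554476268460985837021127774220732362677630657504510443060657683449848792723619306003435651509687282931704752574505338361688605450036595372569796469211754327314103697244931846981019058529801349269266560064858905421625683878542175423542665392597250897304730725923024913754438444481383560981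795894926113572753036541336370473105611859241785378003572670472284131683875104344046582946826885693148076660432857506918892855954637368491714480706619519484126062376682529934651694638887720670162439311842241725975453721068989358653372497022082539284395045261115757113989666231771747835430662630313863667554993929958897949241035800698966140331401014256887944422221329203761513186786547492936208900833553896382830306784424706685471601296261045442473363672720388388327112416825526739425532089104752113010683440273891706825217128477473189949128279508970543066612163373707577193110749955318549293781640249676251518731238877405737383498483804437592491081679861712746442524467687148173298707688644578990332019484637843498066525670412350920649286392469350633833752609440796857387603752545726549554344450019208042653476952606516977410343482461047693924208340816995236635686912255447990662464958569319759230987584287616457891997558368895897410139987228041516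206171808307885717720527409241446986176571196044111586362993554792950759986460232795724153571849045310125181651128221687476329205754505301498265066294025639515145124303385300407810159166373096746260127597140723222936786816076910161830569102017193124863272987352929152237500397185675794587819239732969301470751582132462267323117932816000440018202742722687687992110946233427276648206027503262728838123481885386681197461342800648238055464201250687124952383820704117989912270210312426947587106775517339883888891840067468362272472986746326644603175917907969932621813937600238428189783038111031222851448541007597782497684548026502915006346396452860211046710853256248703444690888724307992966333812156899824115810878857492261248929428842530037165191357799279589788158690943597960468117484441024900994888692053862124687529186644139079572481715132315531631225916299285432758150304598027887009638313451542937668428031282502866466550101511356349067433924473010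436024308704886610246795474209527065376133087220477842514504732109066466420768882577660440165644938287796169173216078132897569036167745349646135915156492770238848423899219166721252249217785271860268793332559750312104005325163344864696397133757349942515105419796239773078893751739726007961647343661305488023241117456284816099661298999372347306000599935184650045887932555455632294696701911114398610578622075427266422725619843858228879029500783402301809109660379683098008115828357025559862597385995197405393500589466048125055142712762903481436310473233987010560)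

noncomputable def rc8 : Nat := (nat_lit 232302130787621854220889613835639086506726379581026181840886541725134958178459767589752833491029398857160404147927941172010486101235155865582835001634040682147477715022062128624671731599304598872722738827339190074751860834287611721369824236455397377729816014237567956302635371556430102970819201471976589845297383031755845043414442030717999567040296872535641839344985990850042085238757917232834679242984721832739259174355885045923373615783901332971946688720155094957525296558035293786631964501555728372249605821912153598684296823297108850471462537150048401281792064329941374413399398852453055102640238458547726745693150681443566911603697052506578045102320293163207502747144526361315868863153581099161930909362236822892366049601532230119769937424834725276120376037314776825715221538673809809310919538037417862309856966677673198592199021778332337799666415641422617361609589123416610075216096468916624574527914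709818060689859038402419512036332840437454899366241240212890966746320217772441874628530608096670793324733272324709482030925329942588754373019987021326204381713126083530120432090774555303368597016494806282598728343008744097869299500545538393418484491674333847463564574010257745659572101020750875617110964068373858657456231297573852232817827508392661885793593491165227268378147087674604093870004002619290229361598466045938650310191057998542581796204333526426136122887175049041753998172018024642325551559921938531602413988658459032528576493661244627765162796705957604023521068967809078604803929187710227811964425609131213226693283382714245354327666487379887678717026511710461054422278634012440774196153991539516152027675560078716353110789971133776363646522583279435139019050186837351217491458439491017176871769779516116366629919592294416109753092449220509486495311548958705262007527255161976842350818174935101499314163514881105636415169382082009459264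297309025360449527974417900093455481604571200856211664979918109799697739128545928434182431496801648502906006296936421216215192855099923154803394154344582022345545264831513171073892832727307982597158882043412876218239406754456630388744564578754968084027409169286662586811595081127261791621821870939346084290666673083727423941241617656430678826931439179246896999107979719822387289396198532260966878980755118751843431495912084050044340138330283158201395612357409971749912402855832154386346129948791650284638477963712962978915908852077011397723550311316246887951966772430961065050365045219690648456919885819996759230806147837316071018148836934160566203411798082787327707000138279200890383631575428438041840308576081845295540146570210814440252919226489279973064656524764624545091893285842243073028945586221188309014398449601399842696312773327633956139275403040562508178277055567803194665788801698345406206782284395365673414808599587995376406146343043619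516900609958726630307042818330438223317241687245425912319018495781039269436756094165501534526313682654441578450533761085759440917673305792709163630804070697996535841617035690394656218595444241668662297613034610245671295037600771664778546574469749174089307591139447433755826446970067514633101950732093523424538970388974030676950606681107312782392521115352684802753887277229907861790914298731602807321452881087042601808640764656699754821421870332578390257107646459496809090780198713526642821011428062933725751496512988534290987135234704651309814882128672442541671766665181448752503563409140747891455172627745061424047464855532663158217779168402140819670411999447233901420106057661348714294765113078721954211415343288307025580874377931760857260951524482355163477317400664797194666712386501794660287562733269596164308752072463786100080055621080278430680845611335252568885523220313338581981954785157309984232220103447545869899116788501406507073754184628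662699816227482607543961255801443099516098791322006255485560657989599435780435284757878787770744988064915129694062306824534423563059730248324423514381495219312055823422807978657526632280683477391465564641363614703715845662372568484175158193600571472759469291095482583830067955604499447414072988457342275909669287262542156466894201251697094085715331276729170930293888474168742043514525112916078546848911001649944767288309953815062765726827273435683246632490872566686333028979874384536465721654998412976157604553092753232941282034974558998703923935601322616189517452738468632717266538781798766987325646672037538289071635479040267777621386284506875235492573253340385029439863407442983428831154677320192174209518974557437818256596263063137597088024960385929536788157182163989057175715348007408461496747747303874996148743249384752504397339838579790886896054947418764044941945051895665745809187470246158352518423609498819298411329145951079855022008664029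115323002140644563709330102865079432895124695653723579513050018214141613171514805026373352078926690935915715629120511933292771218218269228074782721952407858005241049911757500719325082464134779857364869805677557672081935686382610543198687744409105805364919831891138773627420758429434310616223030524220578647713498548044216003549422866926368803910809849061831537365467901527699469370000428254842663988018033476501448403236290916053302766673187035726059152122150424702215427324253333325809212806094504837952342967134281579854642673979016393103045030842964711641796390183943129119697383249398496011917669627590354125323811823280481959123858563082564930061821046806959781713294403865289436254575815274907329745360596406221678253280511012783424869057700954998896418346904299980256866617883805445933738208127313272343630203059110947912039116607424835242529241182385435374981120372565864611764716291539229458058493875833307003412267397700559620401431767260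334774010352799392704786575155368968767196623683937152714023071153604786174924284233902214175673149636247476163920890050690641111436378849589521621782047707700034385576041444209546142888035460701592168017948597541288191602981643463873419261963508459829756969098471632737023826783617356572700972744533351210146201197727475944955412702789189722022293898397287170333180691628949930877520613676263944334605802224833488175352324226575868655151203014642027980189218291961223055738495547187622345267352463355646609939470428155237026014093544086606644301330108940067707633995111609245012425886532259494199752533196875609957159083311404799288490356365163274694043186529864968579639922487726757498724436178591580002679871834491857823730343042582145780819857897127738962484066557403017230852142446134386002577848046025393246561857561800148947311432067163197394030873536547918742468881818740465287399867866094509244918611565386619044784349708468528414562453515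043310164974276613101903440559700369206047664199824331790950888751090860708987144317686965196636966736636730719576246484979217838655166649225057801690097847061968345656754893620230770750857965581194719714080344654109782585997854645934379043476103595156158721253277218729318979393410992615427392159758105072523098468851636819917637801357860703065345220299870806561540679592374327776091390132991315268686065727302577083535061692029054159866339161183358407774852725819858090305001129311512586164502955462870664538350515775051480856745610621709565874977940889209978055590461122839637323848414077540101154157354013325828788988484706910458706648511511510071474945635399981361626937176806774650830599525260058998797664513181488116440999093993246899569060271742674946538789890083198491437598697703398749842132057186247724261251462818538191274003343546517616660191108038233662426095563861441163097350230328983068378757729171135920842258313912394112147268151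024815732356243478220731245343559608523101967518384083701760141534355036724668313348377939785705432837696035949442244879932102871448488470408263588996915801960309284672699555407999144439042188664732645325977107482037722658686295988135148220909046498695168160782556984915720614261153267702923195385999482031925655235865177358158549538220079847190106538016159325623714159419063824676306938559223132298419903420859449936705387247581227361055358007842524680008816622893359694956484705665077913698805809646992110632920631651108555730690097119537006581693538379704856014357787675992549761625722299927208950657890824428146811672082324685892564453198209554551525047462454784381162676335869314911542374148796375728417293518258307825817038104921357844628606677802326772416438308524926190178584407324163169559869679152032031633091949153360985275431963722790570140394964619237363568185563994542361156459809386880332146064223381691346459588651635460204757582518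597234028077984684133657124173572746568798206862759049895294100838030904813779185682686177436363357279848532674871495888426539843733094336812135979837334301769332913717040504940528920230497551751842543137212788110683410361424501407283863320860218556281436035337655662063634876621160438216477385647238830189959711734768260991232470616227819619442884220454500657078819109470713324861955588645678865747717378580458573583683091341659442653731354642389187227852343486698122488812795277455814049287422158353171627738027243406799415526049719946520193905318450095823939035694893810206732062344197702053092522854844057709622720877180316767275399169073853059401674416108089192077668712313038434385870670706454896813805950737543652511566959169766839069761012716594428422136057942417071161609046912383614089091830026313655319417120678947816768968694607519153492774729182926576545935556533017075920571351511065894388612939715447651643717848678733316459901688686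824625038328223884605077508800874745545295855879755230887308684926602980639167210828142798550874462139523200837087823870686840470375803895603757514554368275602160879511327276959523873122790882380087058873053653657991210098724610203624820925244697799078469013668990050806286520853548360589987486273152892222852885379095807968768614670079294543600551031983326345473622630602975638659346306396595713986032926288656266573028359635751464292770265270931836931423700383694581020195726848646693637229120257032095811375597401719204325695960904281655105037038236083842219633868740063895419149627167470569010817737692257289584425364172346425638181702834264536410469643074419269953857847981393832766480062896729935741256240044115145919340652289720110358449035228397105733972113390096099445226725702881028703680047464087726368815605710609279094452282304739104459220986618602195470624895117381578856906960083087861456356962428232517884455427383189648939157126028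662536980459972232594198963078132550969482551171242407628031220850987645344265541274866589311675994163131414823244907463850115682307919255690286617091061139762522864637443806693258082828190146004268536331819051886026148995123414954218464539853806453005931113832934074965632378048181447289368571287936466635005703605729762822805048764994329144141982190050692366252825634817610063466310214111617614095615810194346431791495435558727080323360902057940752594919616629102842765817950372416703740842706327807748329157759923810928631168051566729908561913070976672091047874622908637642571759296145628472395840781920173822675366978669901258376938247490303056204920412300918594298551002200957812624080348615937570729479682113963005530030989394397786933952464070462764636278051408459751654560809210495628081892954427078623798726949276976670747841107084771009284853446474848041549915356510092946796809606057237319994793626817714658802225666923865085854958850532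503985000609521422083753407645283958444959030827590679107335790147126954606204676198215499717900513089571472098754075690213820581240274082716986607886142154741442879206839379277160400489372430069877531171999768615135437719307003830495735998747870212506513790968610267714741492061683955210091897470152166936878904039645863756366125117937818717733034946846327022806731314712795860878835932364700621517121866197770316569762901314334406396860336769034713263364846589145248882136995912989256285704752174707547776531998912699946743727211200203042722363335742915288842585925643456884425021918287247766001211802667769431401263690878342528175435402547078648782073596073816854408511648409944901249175496703976465626198616631450817719252671985835455280283593238116710687452130562568524294484617536575172634978386222241536239364849517692379353618705089305020308927428310541694973579631033836646778404992254173553140333893075193503703019686979141492339489330675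741538774568957109710833245097161344473180436731683668139861712771193682112505140665994519188525961042337177604584880534164041189553517561975236423076203563499575662476938471805300396511774177822483165189656449426897610731795458764020331301505160293520774414296108656794714849032708379533137543447987393520365519377587074787499701594550716839636762497023840680266452921513986568105350367076426089716054341068579221478360493276605847157672308825654097296029090404050238048478830612304354879853617340849751009224417247678516532468886665207879251091245917341969559513136010988697373058835954941124028467266610971215740149626934045178860571212996030052089699322956102616132974581135604428049466968801969604273218517324436009378011492005819307619519834365239533829960289423473758067386315585977369875905693960940713188709398229837922670895781986638320033593933975783306727440397869500369155605049356629766596317124952121723698113621579688817363033530600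436433478579989821775818658203144164127483181322813172480721941617822325403809169546452655285992852781249811227290194231842196488084477949883339694162195609299668736290492209641838108568148104442107427375592615296193789197575167626842920391312020130738755275821003182685141556051838644782834869047222147352542329292474789552723085609230157146021110746558205715501711229732445967774390409117087193214751523075056211450927555321347265027756011128594344758201579111942850188337144853756011162942489523729892526781346274612617937415055751861588329817585383833555260477561989483279466850269730783298312852798088310823019843288366759717315578541726526531675417057453309914386244933965330631542273524821611583249018422299504464163361255733528906028197835768899160914138712792001462391750652354350854725251338191925697889202700406968735150406716617274461749264324039001257332854827694307782843965441111845612801384352883376577176499767090698917672278241890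863241985315143201788079814548345907572164295918037375471573893395056030094690050999173027101057089408660349009819367781949589803185799620200798353096518282647603725458814554647851177000373491128427848639892906386121419512384444486281138740087926165974533418774638991633532328152626752099074845615336081157797136265364810612898295290913404643176274338052367224156939018537840087688956932071983080478469159746097000242988712683467723028263342699773179505953814334245124520248694676472330337096305625304704718486157492901294148483517200151262546678871782719696185337593314420046697613469204947584123404020831358155529458320931733302948710916679578711563180079324964453653950319109905850473263235109091991933566502185545425718426537223904189958983666610984959995884730500821635011731710301364806646421368170610381717783949651141257585033630120808856266561135104805796230589354921351046672812305117735226134124158757942683858810570542839741621242245969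052738008116997024409197447881520403632524055723475208764851332471910733598170802159716467673902766448457813918208371934013124316770891963110019975783389427553894779733103858459873908122325936539248228287842567776555417937666545137935393630381242222146085144952769460921060831068281434913560017057831408592856669747597682525040551047671024068247783612254236224134555162024030744851573824282626470386537286667195832572014369080573488972585024673912598210948147414165256932896052596521120358339479758665818587409722806803659126479190517452507301118449770286373568146127454176798891470968061506293025397485359041223615218286830977578431803552974215261293713508704007061262890027579769146502705978526648160786086534298526269512811596634689176626183186913003265393806990284939405722400817275581134831667495044369145121817584635518329685872484309726734122669395782211097865285957348322289347990113634940989119258314588457089397833477104391369544401955224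696310581566973700022192788471370674826988438915940461444971659133853993804478485475856131226079275732497032883521231572461206667931727042747194237522095468006554907824643830381107689766452639790370414516146466908879297239501321827215858307766410014478195471952488264151070237087886495823133792800422706827877972870133163827823627251336852505158199830462222294849263809619406719778022734754143969292728082953261267080185750365829933605012067736045328089823352310741201475427682700770553865838334874062278099201747657640703061193447522979522721251028559222140492730910116974214028235311317232484289117652477822530096933585035892332070695691768356921931837196534540303000996454025906654563047803844653317519637135386826661489221849721115617204775743831393857030401733722092165647891669795449169212523154332407659803335131406054403858961690561066978826203884560459343896803104366002817252774218162263505216672450139648234508653152567134105453904311191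413581029187731901794889365718797945700404878595749774925222103260526043937061101925456535142769076426131235170762251823498737141469548534685030976701062699302705757862242992468236760285727723639670499760509583704754570138352108756782553397410666358991758020282797335494153124266675818175604740059085379303757304788999737956880425819085350574217794130266446177701773303794213081351238093682089102043225912238883065186283772607785262214592188310308692139841949801871920817598100555429649528518587755563665720585435749188097047276932396376134923551261698534017589636940176821175603867532112711074729062299073021230934115607492550427391680418389464195133667338643893871404808504724210661618979134372550581947864877536270884385107859472621652394015573784442434971865911967259937543141063509280297203843172824191117718104328050880636503290479917018499561005567645257812809861235051242878094814190435616451748087079717982994306641684428192947856651850625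393489272877581995479830047346929700262340636222508719005313613300811461391654924206999089812919890060073241440934242481571440742477472893381811296844922700574496170844573413998587741010797493345751715377968539215691234851257395358101906199367365826982148368375766921949575006773840287320241701591554280939301623927603317614785303260875568434148986538669849922354541501771889892854526878917937336529734164786693427802037776472908275943882318207159970157946748692803006712121596361401465096233773665560153218946558537325265143153541153363233212807500621938688)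

noncomputable def rc9 : Nat := (nat_lit 232942868062584389232959891038830870237480631746233185473733514960912852439797571770244943969087527371161114883623188266944617475928305407392871817509332190386128482038054064818122006903448803693364665778918819341538719416230637127340463592370915941535227548737846147932464971864882055723522543894237781699038392480322704703056196306859986053125230290691832700360534394410117916683787086420137722547280842583298021212177029890466620541161672019911319457426321274549754147516931380360364663028668024589646366131713362114171510820690618741668730842480119006806163813742956158323265196938974373638701523901764571660401010535453522809524280265676137683850653277260081525966287504567436292750252895554687367414024856592853239278789982782956509899348674949534256638620260465742334541526316782881511742857496297408911418357094009456728117130096724728606556473390832470134559655471913562177059724015126765096852234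980372432182882757560364236922934178449188760161456717853405524804239285513131754046668143530153141431139285052460396860299984069152319765064732418542131305910284695879849096817532993739477759805341078160795692491160397686359985493621542293022931583478823882811626174009902906650023070409784821674671618699375787776046045062104502275870585800992928005528148512020699844321747321629776977893800514362726095354226910149257829169716493673335022566249538761849115160893191984168377057981857611397427125555391827985520476493467892634037754902089644517732374729982655545789038460822887242258235281859605408218927719614225698827741306222320337570351671268845198077003831393649038621381692130820997934169452187844694155039206402786244788372930097776486218707453458105165284470576802002223058346061042326361785445178340362460160937990485449123811895738406009637438085742897138209328826601024811662010748403715199444596836033785428567322602513423123780074528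297533824694707033518494070893671915321111423548108979019423509168686448723455348484341719267685499922217598949714410323966479062048715016002304361831418679198649553010891900448886110292830851069645886103377287630509052263913843989106938208606596213607772496354453780663268159740356775348389451811354139549770215066432315429628584130705046426348516311869287737741920576363401531198105305855296925483946077012581599887090649236326796772797211560547344980354366996451595229635617712022815828834404238273221764704829131088676728296768766537027020007672879191531929381373841546560185681192462977678956591500537169262476282448541661689109369723987195781581727218279381074932469044420971452156777604888089132776990042445719273877835306780621608159477050820480498529188955204325782191264772847233551597507433238055796811758964754022355995416926187693360270918991811288543476522551589627459764965319193057208952230128985352922943566488108245288452940807173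740889537100147739915064769842161118385140165781259827386474830958015906720510027615351927575347617539368812571954121917077595483395978058656195769896928123997204639634812820574889744436460192569077824381984070911467419026977771373601489944894052987816250195391318751582596654426355102681214964480813786298605824257418320541032980478232282368987689640938012601652199259121262139542561247620057303144577623855306615931612924790789921208758471621760728757239648565501619818736743197506842547280836948159332562880056184025028238761298504444307119696327600071056378227825896359665189237265372801835584685127605481128155629775915958406452397911222093138192684495380812850046186947570735696355656847902723267309435683282266209569466806585368948919780457833328283445875254894062135166494648310559765904032265334598626651834874727002494782972487825660065374604298339189410777920834320837349646883900167059413876841069424427515828755194807973778702044134961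015282921176059424211011459863222127901464370493006856260468927236067899236030758373720467608029439658758926873700499872584850833101292794557122328390452694067155196074876873154417421024799266206212632023844925755726892617837290899878921343533374568934490382173891948396365138707844954309014608431745686191295027564589790170722365763240660254553574694630561920826334629163339728407835626828932386076402889618808327828404426885881947023949102955057835643398913889504711493805636576893397957582148606278393943918466178170395176912223627942394057655004087309495674139973194250943642584546521012409355541232375117446902186853515385267147433256211816789936191367533755350285405582126189479723388175557913805452677513593119249187948537614575941938038570178260895227274723315813071946470998966460947709821228861190333211073667152990139480534316738818498928757348888572892302456035530872468431157262592435495986025329971324645430004016469152550151474444423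641344015859712275384511554826682966977394916191385492999700408869430530167776224460080385446571417228612616774418144688669034209845324074691441167630242593300082384416280170971681199168163360578484256198129927489220515696711656324864567744907956874111565503685685239107070122088028650737654810567093697521279211155239605920518437605055002258541729493974396414061936460160513938803127092015599978063265146482663433235128875771105738731761086348598952007631536044848198855935562938692369014556651943110416508418921329715643698267740386036762407587402525030088197542974108943499992057785072304248743667077732159712964901794112982820101141998959433312239820530844196065788848275189424637254372954152558858151624908058453586635772471001555064777131571727029015200046131794903148276849659759113126790553413785991490947485883019882964606589739444619744461107144365436779656432268235432634343889706752406458895414704174656409988684804121304131166949950271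029952040722027775082197918410595154605803287465176499608041407473548049207440670658598989979706911846599647952699252573263650652459257998882754711747826437274479424923416429416808306075918882645724834817732053742822571658643775142110074267114558842646931265259413662615923030898650566895711304399698502399551192015286019108395851046121369532277727265316978119044970087613444711627915573823917423973665481660732134817559368847701457818000931627929499910917639069692158391169620888923079544898120651445750528973002854919225061277444298423786465204994193447894865525790478429131528993875819094746713883236074052234800838291628495138869698875005410743903191948334277149338389560820387099682381432577146341566372865684704173819564436471634150580232565064449294494444203126664743011599215946956123610400271410801682197977753730422183325683908376826850079940758827311563682886569675073531541667981466463146967550090720927009956656888812871764405088484905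372210586916683202795136070269762518459794946965146273756426943922281479059457994841196646666537649940159585798019571394251514939632792837457103731394338396221047413275560351126733561194439732753303844627955395377071585260046541722943150847305227208630704975406558000166481446755129375675633065459888938998893334572543635709570512638657735493424684769646173801401933407714905969944845444112425119949734474395540213356247392100431710297961083206384758816588678480127721911158855695519100425678939361467942584446788549774909422297749479816527439909114675719695725676804912405260488686238696060757357678172851701815798955568586049661292187777257249767093693832828681049973137157834992117741165333703868072020781243079266142102804992899150582415395870878173985688142477038065490217662876515913637023006089277169407146195359672423737480230505802061847612920107964847734640108401547819331465848918239780505759816582101867569624359985594556721110682006405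646506474502057935544776067022594301344362018501903083066332913415685354254927658601589934554939456396405926431432269888059321523110025617594095482384672174062076388559849449239572674853071671899103542184643979808319827341194168035588772913528603612733036729899166153639972900583039517192946284289652824094597857828840031651233162552670457634501201114642529208507484297377768272409104312354280652219382642646110845676326809787213605028237098625476422736295502683033992626104442506122335558975295816711679634204189057197807441136453538928443860343923203990954456795795938002296288383184539039556934685252896167135021859867921891727701749429676497971933676347673969633461335082383657850757548903951145899275388535188617238720616117376142673298371276104265078189770480106682787103119660244390534078770310359411422696262309841812729378413084512361420525782798710663571408499195350431199289214036813885983461880467853782988029126507712745432433252497357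748144989896436162775471812838069575804778858055505614512321272913927233407554934853676758178527812244996852933854842832840398315537918138027585225509223994318312935803408327505295562266726656187386034038402166932173344870981505523759749354254062302636316908780122287536252057926474538855021740077734281554722717168105497607808952948727619885190585670661389989080571972852027768047124531736393693725123601287201216147680799790932415110833649454596061624847040559888599180489307616973862118536435502484281771084336180552501242952221618259049665968673287208779490600662244708592415984212212951703007199523952411237439407934066569259784982478164264536152099635639814736694357396287964360595340661801737060974989897592240836028222932828083122311138584777509070302345939111640993334527398524070370787804871599658575988520183200115426528458880417999222506876923325500215751367769905067841363913921087795467983124882748676395930254100072935993495668558902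202759716504752875121472261897657887768220116998202231319677331049533303253149734960120067818891413330816210322604230954547823696012781193981077284720748816610087684988816959425574683144118426210939353346805489148724949046299779285480913559291544782455509095275942096814280797506558736459357965294189219180657635719826337590143454980809233388967022887285139097008660447380956655917726016272335283190771071980998923688526347574874124445537097923740041087246454241489339239164739025828646885292341900767984664197247844565534904366487993880804959159858903570846005010992348365814703567367406583752657371948687576711261960345738801460468212236372964997078155458135756040533453565844581980239339412754079989537320151176136429309579601935549023757867758397941051988617609485047009924674571285662066049284325946597603964397617402369022003005139048943904091123524299780524914304654396048098294036761288735910174738797045212098345987082975423834223209380849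527346951659908340195311013279865309419885640534157088298780484828864497255678207512331797917742437102954917019283457581170773580280836528497997257064900414388678842160833015791365137439190998309199249936205311724019122374286044087687517526620679749098404620238682697721966205926739543768633770453988844247060443631223368763987669192201221396062049317411966613563916745798367900192034624275864778430377090122210227366208401112116959159144096645488721083726370151311394212601712437632636456291372403234797565864904131527375746567465997158759974960768586647663463960249470405713235764466027403831332276474968990007351965620956311468898476616164821269651541963183995671821148604614596451345348093753667644843849928217254969418443567311578512062905447479687964462483541076943383238007575557134045067166509610119993961878041668586811033645529279911673672107649347943074423094218303983089722879487882880569823036626938519343582294100301677847906449424901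685183492815924493666594880936437300226759160174597186825336969822089946671044318807430883937235165933178581760321581309312696691530700621472752391681444691857128986629550476350617856187203307906119836715422670640438585857993487879852120148756954326709577065980959730697907929367624565829200089362738972713184083429075562790731292273382232111970699903889970690728872732426104863329255328489390264883652783873598464083043862796739916774678591375443971238562915886762347834233174811645870905191236956508183566432450336228199036236007946744654340954586265590839722207630199181769037257472708865941392516448537484653415909034335697680583214876986627779100539435654340126146880306563458623928222213339718079246985088206622189784156030776736291288666138218988878694985042949339438499288525878927986190731862477756971833423689486296092232528761829594716829354326099466412130020297466241930125748403598207095073472916519895861241887888559162942505044510436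277092838306688445330383758029614106903366663132172817066908984732816113766088847281242700037355352352902264195607750960105037550622488932084207856018591673716250118989107036901777317475789597461835592076572792325952326464595602213593625811796439956251139469471200652181415602665987787254119486757026385886483123995989217905299023286718763507529793041529402313344484892957472347012634534748211561837275610923122500222775565301619791674259067684365949427895711606506999461549062333267394282139638809498404247065134710357954193644926954570079548765362395035325617517535537162495260652271338274619912275166158780423773857506577603757075908793510329856928143967287624783162402099562776884997536991863343729054336903684125979509983985376378831329874715674475482565834718342811962836323687826151498787672349755353391330942835287118015577264354452080317167835756861803359614126246774724074554848205217803176516547231045884566127275058232908286769202440206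597219187457927506467404789462329309544813331767660053901490940818510790049633960303753980274357786130330978989959264975785333515356772232517328421277864811524621181762217746746133152986829985043028967795110689923093039805374476699060149520808368383983753453438495619193019446794960377164369585710625356706196141681502110316167635126999581692667118131084644241596554782051241528708801322019536649267016406957314930019458098500330755004710907583108075579215761146271988252878027045158073067551538379147770844587888945086877069899988208505359248300388874202724461904932451962912951603816569560036062721278612266672503621088431145435069530752426740277438232321217320359421027727985654040151374215326964589227591901978434602938280141659185035157495283964588184069360587951953157529264497174468207662240983837405600686958567384456604633148021173744755692960963162290191828553246781382178521009212997099601778284324026557075377409860158751943194028022496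090754951985476206740340717396233391001479880989248553073278489166540543937085930245221824663605236036212817641740422555776461887224643398337200568599082112861915301858257603974563951269865383171394876294000734654622773577505880167760382440035850388102812765896524993402461267097464007205487901825739983494408060494565860750261687668408843569517922733859678382035045882888591366929933648153390119443872948368611014284951370432295544192773414598640002265574739537002694588831694382825146749317730109953768063045172382459203069813423564305974334806664851553438115953098001908553719598819535869403674596373002007996972444225879459387813512091497568354341288796028215910438709787487134325202268811977610515516607958960039338827140938553614774931119897172975766794891863302254636154337060198241463990275141476966149209083507685523182885282318565300335344089152108477283662690617648305755737396125131162866916466192636740294940215789212644896995662267806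877265313252860787539232901689620777108029393368752421317484793229278593776200864596359338716186832060404659900300896728273834359115461006103118771935446186236147847911543906542515849941631409920820210954030204375516855071067109795237256780578267939093642375004408854743082107912096801272059971915194624102394711958169168478104788666828723009929306764184805314564064019205077271131743158839084031504158063588666012832544688562276028562576992428841718517495028842372622234738770488023110376945270578512001915186877958307129458641948494223071919734091736966639498245632223738018678988410603058585843746740873209311554242899750895594440072325658591446024520685293774798369086849500990907623226215829764952581595383157660030705754769906510886172894534882885268270451030484983041280973104384702620477124711410960302006963566140757175503656157699987623528240622236388544347767151694349934414522866047659620060666973709400273471370383955896415036401620582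076056890224326106163893237672308434958910114242489297726431858174379313388900048648293387344782550050408218497042499473376115184529665397742567720937697361901582765824481771460209522822056481800730603060666137641367838082238206232605337667695210259247614822377538450378078321249174394257006345502598054853909373966669993662663299377855307779925717096820854378509075074402606422665014493915908373597298644367900007580580374896931677115787393827080817083477750473671967160953823188322983676625152624370815854573372759973778699176375011045391475560373472483451880488614441623052225515116997038594120352612744369152475375343050146593892811451702013608241011969223391598870620007063517359651704021431693338055006015003552596809750257358994023771752471640945190660207240901604691398577884542302305737368030354948227958783666122003893666153413018488129443552910197502108555436414825166102350777678446020559442550459616312248054041317491778530018578816694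090109537310884089292095486202406277403294440549831842928218925059769559059707193922442461916684966080947560872713308388257510826584687089895464208354462512941838112969512204412843212517176034724566139177075241936858576107466082571674109504572309612356610110342057306864896425875594073598160379869653853708103743213241888555365110488607695864809004391035207358112366746803250157724417494696202756128179513757118551611807929012365005768377359856562256715735730095605050680352328694608126764668301999033667298705788155719648007676202061717693805704607126852749746963914776933145643502957041595641210080171393296130435906132799920887061282140521338021307798035808213552436853111292576979016172416137483850054237399086458557570690563997062350458626317754642635278171807919602242169098222552614228110858755821662880248766262702248976323426360975144572464942310135586878678936182298308492288530124752639897826063162796015654168924537185666545049343917698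601964456153884297576578782626118289787592065062664925625696710693805202216940475213940486832201503312580046744650795152807312574876783777068552539310351654558588252413420937743173832215955111627200694855658369991751991050316146409970467426068816037680615336450140839217926082207277964752116650120224186158715292141351894403358295643000099651022498194401055968643436707056290994465743986314448409822914789429505582697582118299448001976075462012735730471619041348356643830119104710071117229157023607900550160881203032165760179608031814258912995698677244755968)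

noncomputable def rc10 : Nat := (nat_lit 23358103611529683679291481694551754158800164065179706792708837962860453524791582883735668061464168766896893506876687653091320315443163821332974115564058916894350156636720726898415037475914261011583443852490662456068017006602777991297640767352561552447402290406040485396230082855979238449288584105180151312072078953669489964759839204395370394889235589315890368530100290000136493235735847276042446261273978260940794287380009219236473821147188986161375652851967175572012895606666822758461591623408583420763007478666097045719024215638528905705332923115320217712274650047393096725950192237748424075107285291869715912299550213591035793657113010213494119732835489146472311179986850698595955535263779119567457166131469664876281138406998459137925185569824842630853646390382255473474282132245644785347864296452108094277616854146360756132672056901020924184049010039470590874247549293281646322216735742460895738439812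302373660096097539281881141427251616859521785442448527088139683480276117001351548479770579349333609108035147291230934583572869406248931052329857692575167754923570351160849583676149171582128203130663299126009417335436115322403314292653554931689672660412425086363678791350601923319043148588619060410134607452346353700295732500026041030009301191001023009516912833714234541679235188244814505506323381571939961454839929673906776335855302402748747446740616631275915831288152069359222371870564274551029334917704091764272150499778902376031050887708438737175386154782547497649269115874824380043968447255417996753532199817881885715015832524582170959310151662969217876396023707314336005256731460337148344658152146567296484236970022587290043801549677804262761890368924443157631701287068341789521482246522027990815248105486378033692085484143338782095085357035404585587714475598520162484938701303140954049462073893750130666412374907287562612359633286483435981439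350793962240603075338729233078563243162160284381040414110553037390312121272877102077189535047820672822411452695247985014476178064773487305974899191918939515829068580697118211108976068644918499013345539998464025132940689977692162178718307125852754252101630120388308520211758251249232388379105426049482721775343130975531631758358367006597789911220273662269465434116721227574979731268676324087708378471345405766920785371672615443378344735852744177254392921474248310566035415094504165202773189887327323188022015991506841408275213100482555675289983038073519935754484064398344004452134730702666518209707653679901600778277111049733339083083124742250412615170597329748490194257736458285506672315644885028073759121697405823939280536261874854972436740266233011341673934407245631194420723491383249907645469477567102990350411375709982988517826302630725229102660431644160737813926206236677987454335577241561897131429370550926729687155803739745018619520091093939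935900656115431907800999235464512298008145538597009035406599941079323237716747846889803110887969415730337491876214765209965340880281690637488327236542525224244642667459776960308667259061908528346411444035400096785340861024606323630861841178069910817226622623192024374384621975254718742403526198707184752028505025627128635382084359316813502835316639213711957326954196014631909458587785883018544478060144949857919233071488017058171021028280873547991974861775058557012037133507206135604547826014407490100491745088484461026978221834238163015866910582553587351177413774770735613984825928535202002920728889474575971973376773609553545148963358622861453339426684474339082300640585482796473959452952453334127347736328847090242559018463138097180737470572958536177964453996832196743973723887014084949562274486088414241781211882462411104492992888096236207685753811003281542918168176331059778860810653892769930582012977542725945640133207255058272946649109327729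717881348385889252539438079838952144047202631910422978523066215303148304094891756422843305353026993311950062754874027232016735082150306276799675134721819584797587700388408261626718482815717566816069437175175369651300784045265180989742695224695543490235767601548318715934147099558730109543769861713961705551942272341529584840224401599257965300312747327262948946302153004437815866870732775871101784376071031481349508628389791247311146235735454205507094404292715282241170651533214452229078215512482190405223519818746237062193830249607856614378638319517088693642307139471199098727534168453485943993445241102544571340932352211679533153666251699564730254434336094196288326458522589812387569997878022143278326486141351692701056570928566611585930454752774859313152396672329810599843988759487620885305034766698009565420716881582907771571435569888506426300252256519082890716900206070352586245556885258707291415448901203856476661534425746153571656243492507018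257766375119883885951401311594625345364954867200081132567647656626968539254561791446060785801073484671324916424915388244501848319917929165337432463724938365044553985607315852391550885946282312411799632145027059410358179109027109103281906519228241969263328243242844252683310793194454281656541979901332665327882279256162124614821608824866128385787720368229196135454381383420346861572732928685235617964765725874708475441768704971067876553508508596935523813106570303118224496099886009572208048420325732374299906424766405834293283152168668885688580814147084138691214536178779097883078471638534439104734823796092786518428749589542378958312203367645940391191241812645757054694759694011936708630610640647484018005837371141313528934815404402947049983489613617111626144510574251830956939944576257020571795351825908362956279647361834009011044514059281417958375336964936136199351279442508632700667626382223612090435195131883087583895119673610462669998051907262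455097333179089495194760775844376968336099342124627427024652738397768002195268328757609671641260986576131969930211400626260382347646656495639752462189027644183709165190506075381878904882786316573509239851808265049654277838130036883715693679514761312354902920822013523794739512133635282345805972016937590543745913614109145075817146434852486938522168688727233125935213779533636555216835709320840294817946144259815501103408959001917783508912768540826319366848817902713042784488570357818130608989698325249080808956810297974694700276622695972299406104240757057504850017894233455489624040188029428023575397648773834811144313322835806713938433795636330584420969167775688340755251220948368760942356336762358895078540805111469990695415359754168331182206241965132413893955989481871806518846309050802526018061425139579096835889263422945221084434440806755000697950234986472227724223630131640432073703430945957022160413434400800550012228104198650416955748882347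679171310660895236418939007726327993559017026486950397436851179415787601450709838463824953500675723026363573084646047158704914713785972614588376263419592139744936404724194274867662762535876818992233757723605943066782830707815100330736360309233542968505631158555503783469656697146640224204896214657667174546209865923406142292470873666353658488877463890719120383493010997757441805639773875405517538264990212500070918578569883294100963156310483140972423682196874280995737406214098070355195994625277238059837885597975866436634906183304011420864909335830939729415292267542843333938626859353455920118290311866358657283048230344670387627061544666511179691801206019493343045327160865359076187761411730541404196845122440363965938741462630470404027226587131154359144315296579690630962476945748140986082283517939492264710017572992506763391199718758550381819599622477394854611915796450660303024345672721143523920214997118540198489139799581346967257250808885755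235000310431190742515111720506099574329017692085577798853634416586674744215268047003458186276785763036935869442546665263217776664974052579308884193647073889100411330789951867172168961582265428258698687685784843180093113199587075373470961073241366372445878069383192580117081537285757375144627232014168736751353737485071439742547654807575587758846608271617350969787347739215851055873064750435144690545031501462284252356784066989666255947270849188702589550942208379014359093853220420859178300254177695871393719773329742971249530179424752773055788827670557966321196693765357060368667348539815742792059805155032772799007460363680896002013062679497713069057337433582660981633313248924903503711217837345198991265875373072639231828324453232459981586348028162557172852292071776321283261925858772643850837983874886968374573899100946160054620269192951809188064263680090448236989610503267808519955793074419822211411861598491504366406751364076652131719226605442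042664880709379966368677823732754647218260774877104057009568399936254438600282259190564654576960180258371858459980213118533559509507571171857022009868073197304426646284481011615483154628457411867639564387784381363246366773911267013639517337990756001773334712362481360862123770933824404824227707516393688018800426228937029573220417339247756729455195018628267044203955288921804263243707603698675517695603502135746134990002171996600606628199252692468389463036139032580202586283319141910997713431683610319035780292625058124401478140206874072482787980903501777948087801879843190569944033917731616755131503036123624450893811167515296500488091603268858484265820554627977816888724331949288285429849806420408815017679736100155505767634948661387042394130593292488292345905413113195815903425106017698142753913437982176064685623449677313218137180910655602795549988285190991459873792277064314425630913887211523162158772342166645608640032523016874602436094480928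701418072847399457755140754221207529099394240510174138848749966085806856448368130529535108373155832123437284133223063944244701499779828313162075595787538304567545921148363157462244748852578292022048811470821026918287443982483075428287679882589952093717175629133135568436021395959534216794217238369231946855140803732530395152671168000794295958589639321489345924807164526834460004580765077420634262637479680178465227104004365877498351703026780191636971137564152436167815179895863829779333643539566593893865297762644527120172528443193879988860465698186112717766949625922989423326075814288216525420797241769468512319585833531248981300790549305386659466915610323218461451509544674091661220715942308312393263029423194932237126688722027276815008868881101903526410750824938156992825880256475638931783716064089189272868038543363451198679007482294067112835277902472422051662563083132542214709024618866279192743110253065149803427717600919085060256997663374993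519714309793426389341692536509454940663558913944777658804081099248551932030781719119672050560546670774526815619358675179537467313219502418055797188877726525197741322933282900715627165574209850077901994642195448431639785654253217342736633375423036652551238296367204291504409213827872393583024338002847872458642398379133900273384568782916701843395076077469195421659767295495587027477004102994005859978552177627386364910195322606043583986220868919905301531556189057596051655952412124712038373520198903481994537386797342626349874109082845584904128556933466062132503008073932408565343112415678395583438373476772748517966775578819056019719875721999058630380411558173030021573332915194663148883520107867733202715105242834938475013052715995529993129329348187845137833274401147997102505937609297097630731560221857089684342276124744047688761524881616091707268249434510795351663935991466213003406491417500645127570828601859705363676299381869524412024219368349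767671791506710053962335641021438498135483135199083595409333190586043681052618182606524322130272342354897285085993946423581479020469225933253955839112963357212285689481311205476662571194202135724545685595512129199062040320766069662258205879583522050949201673507428698203791893387829963906209092141917010915913442857363759989966852605759416688921332696349655936919673272423329794156418359096086884428650348625662532070271873239018239448760572906576908539793228169274032371696894527392146902323562274572213133700437724821126630822002941101536853966904122413369836024666906132741659302757463818204980276567359480817052593321986409096914878849533916750316086611756916584322176904584271438931823295964225639393393666282312363665817984991729395669992785833179248515158121159985503039756746346377534540200982678648351135924099167157743522446549623838068438668200124990968206997674624442567355589781776817114453345155669516959706995790491252277597524728586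107774991597942738314354949327349977219357579968678164771138575246660070265481410953872245714110386045086360747983947996672016653218712704683769800744262264027058382135478725646473214768145254394804531176688232830699623279529623549207531947882616401841394358854302327736211951861649016239672094565298974120324693600836971962765783520370132265069236304735701124260702481060831642235549359160261711809445278376756409089276688356262949553392786452338532047961867178335621421159655467428458312822317564601646982626595789429201029328719929428552119055394051253412870429351089714382756259021880320113742719972690161860741117690508285779348010307341184006001805700582298713509421847498644157862965630042680507586871080351303341525131406060683756946728687930836567664481895482120756149647899223634847523411870960962362107649175585886778088500909154946783830831518364044536479903176001423925426047181645454894242757868773669814704335974672150528512875844708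306831455050185407282019033532154427370916078011761032816456101703153286476257836597590900410758742552516693827943744894881307949032057441852259486945480808458319850858690978119428389668914902385667101339633011918891481591151999716977986176226290747594551978705305917415592924753718515405938778350671253446787000971570984968146816624764938633799949672681419758110237365174890665552997766400921830656579160094881212782007657467711028191361048490104475326301218428985057317817765746028743664978357044789333784331655324041902162986656563351499304031935722820258724042683108150602222400024100169275113030639216565783255061654432185896707914632244013616247635864948819072120907125022495190523717361403845940419054049098232665128766582144662510427300282845801524330856457807521163070131786068274214011307390441779052416397530834906363547501312988099954272058106620537355140561220350576794365139505528203339690705184633797234992511754929743526544295743348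753132181700959545927064370327860024296046683754523173662434208479718354631395163153194645515982764360492083612129415561144552914463597830436506567836129670472914151345896567697184851090182201559515180847063752458827634438349012105400922737664918274893081062096364404499910665870362726673966575671402821617746900710206038972532058859207894308910875125051474692742827418262029407429400881379756300550489799459822573389070305063277485781424253887353754882832150648225938952038606538959206442956918031862365576743897247944365581287863605762061901497176503461291521678882430124817003460422059552483505817263002822578111722449917036076719400727670017190132602415359502498293666647085197798916998172083870543713925639051706116125259467182879454049213239025267107824618527616328041110019324755643079240019165483446468930091267224465766529781506418646370147185132423325082245970993171325065010428071013520347568482460811477658404012923298960886376008360268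814140267923958081015372123428562765323096820411626369398942457667555768476911686442079843388682648596993366048394172753908208001117568801009862864208943537107701016287595304232781233761036769984559256715780925088523261938170866187190276870490388275491401793900544180691846309497687374658686041012015213240445452406980178447999422043845481820221797686132742026367521359479591640459654016204130207041638404335814306807128623422646720997508352470090377977759804424138280986117288824764856948427771295153341237409665028848987701862215483113850428174816766265019994132954781016800042352095603685481392676784851457784601790256628885114102201062421689987477069638077770386981050536604041538278718858622169245449907649513480123622098878438368486396443567862727300840616675299576638206837776579977621122813334825333903587566100571665590762676444141281284361594390062147645435459941249492826191139178694345583382631816768751352873551134243153256765555334781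349418698099365525342889834928432701203071727303447516793382716395939248670388621167897373194225374432514128545951074357350632531119353784920580181215421530224225468132449346564738120467826626572670789745282970176913556874016712877284683059929414844163065492651215196070952576394771372373152682501040536000491216529809080698666096479180073489710696885715514939600851175707844909309793975565556170199993143609812150447183309347656289815656919693967082672946179692741537605867798113381190819751370190655971515280833166893212539045788763630225115410204925425366908972355807844343385749470311865626450555125869065368809641622865138647496942746241607779921355962109418309331286728837909891587693875388070450201904312002132813425231173808797480905972574870832046923199017114137615170197133621105564771291643633318864892425972773158255441905938793144123551276671101425280212151962929191860627156727198053258750805227889170237156423334868496153837636283957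734829627333345828790828380709165521482971293527854778018709848189375981873470441162786312675095120193267800477178570413366252523529329714306657515702142823590404956169077189535164602452555393014099645683737820707025029368476072779790775383438335224630864718025155194004250314860231514155644160800919642763809358304315166806999896013540511207016929016729847451850325270004684543005632029434729466597315540962827553055947412529571166784294423529946626859210709716097399423530259171737886937927289201501483192406972786946604294832529783377897440489685943008854831602100922520984289400095994126298189859331802180544147650282664918989216051977640065494831523368696770862172559385179775716282942111739751955605998003221374160034540004486653474294300011833096494826470780846289118140667824243854566194521543948464457631161729927036073252191281419935201348209778511696164171647208205718515829594269987710632122511952929303201265884757520052715035163594738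5062720537834824769896453275228302237326295115501064286527739646589367595048172919095267846856360898468705146098040610089630205908359748123020611889219105885851277695226222414898182369661771881132516702628353381361501403488069287487608902757008332363164736694642148909273371017212847023636843428326244087383744514778855443861577563930553826052128770769240968952107888616477825452558689816755031447176188689939132430626187747512974370787812516361124319132951606436124322461361034955940204683264524959180203608802434185396559509830734270653608432065821034938368)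

noncomputable def rc11 : Nat := (nat_lit 23421652680447976050008370757701211766509257770577866521308650228906334136745316998801084916314326305886683126598763401121361649142635729166914857705679539988441695428223328455427945432417188598429788170775178799320696407619632548085870402272646415727294447173981193867235319306970537408098724395542879892595041271658390807377574311425201189664691096375627072763178924255442611794169710584483234372008515250053993277791146629314325765902210959952917528789327842828536086172733078910519509080729372279105728489578174281014159033812519856716272081985660915894260081682573818748550218262381681585416026885543719124242306407658789143105764703605622057103186544118389931306246411398097438902822225925202604772457019723092060016790739137179728447354585130704437639658293764891257537740792249908896005394335595418958239294270542837597857618562724449412584212810020169820846348369208273540068613949559478578358658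292595247246844253356511534066974150898788472869441967742620897456014260622127680672720148717100801835853055756865712940537420068475705757775199337673706158304055205003438299023872602105895934646752096751887904759999204641790618991172078651720660771702663977367609523083354846968403625327206007078208327697734589555152288434137081823450156250935373554291994379237355890548084864827631603145959554037235473077355950534670023574609824788698974558008346429816539813043874238643677450170100427893243838925106387227206494086935132407804608304694009038357104422004779015190431429448350556817564003848538247213271548539264907195736462522741129582459879340854805409470966670993893720733709306915297009679111692781286500848034000817960928543278649302390757703984789996579427871690388399061033825537293626494121706502705162918220453653430130727648579387984788874700871652753650568335364639890263608466958852023408445922741474995423952747668049093227794775322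541071299903618083672657319864531011074479335404535747794540748397828326612384354297132221203585022560288227013362614466526550277303487722831050259863521339918841574311341645189993804468338861670199759064773686487316639023785006960623889671964351357258423009124252469902840358156713507245498343358744671828529294513061257871789667259868159852479815678897714547182764088149617398338212725938635396050687285529034242316538185408722575553509808662776501975128900798501814969352122005096403745448989720519235781901101328185939920775281591836753114399755108131639315585185431070837076189724401294181380755925405344733919273266860286931397607604367292737009503533855113630917442805572426563218743146908993979983157205615833194251088738362965434231674259013458090943462908765796974485412367838730408955004562349271834684778691008623472203027751331707111694896448480774069494230808646554236409627120736646557546402839994929052980166458332463559751143958802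909634743896804083504974379600943606150957278182993268365602739653942442783971022544564933127258030464062871200877341534513930209309977803275048929492025513442290005067779403658789268705951081154266944190474323495897511504462633137718825298721350306553079380544053511507024824309131222233020568178547084850943315742609978053655890676085289250491508813368749177200927951100454291777048219804390326331724508653293642817959231505199874544718686112617190207473231874566729555535034370061756010868562919288590382976777880856187972890318958123218917865260437348632482357116055051614079100556062455045279382168469970783960461080890013222353567495297053394892666044933517173705440996428425758712889413261108964242076661984143104211463745156734232852766699163222401009444868460062641469461640219214194993733276293017714594877965146663586261038843998400156333469461477836657363695577931780259806451646758754992398335799343352982243760183653461132871078794747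115886096040206273831872395839628903987514773262540016955524665328507393241438176789570531799856042521239406096820530697271238147858628595545524321304224373387366794102941429710930550717693416624725577853722147082953642725006829894434465056851458511432696101093998203185051565118065246381650718319704858582421584368790186137604264472579643608468708879042976204987483218772035303237617507580025052958282695135692760675636160014630932774004855083675145634546244265410796307663270753359793856827092748577114774397781584333298479536990647497358316913225716009075555241313847340164716719250124509063991076373894856565135739877953525322511412745892790904807133687929561713259813901442562189486050766800848045482549308930006761805331287893105491404526288923125926605375269213113231170365294058771582216409955805175915443734203107231805103821367954292546230642867214099342392976719052474912667737035269917940806396860737788380283964374453323705087903297269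237466830427532921531514828828685639961195595179092219105647761738764558674632383142924655109151560659910663431925960347354931582904467329168982940212819731261946779375568931658669182980559149039551114773573557691376052410899078791350980410455966476354320162473995269762491186259825049549956736608319552235573262293717636103209263480577526933675669964533883670842900621189317810750687152747772875538250457068188414583825847088782744970377174583242745683259672856198655324098111311981295455333944003234632526605831576283383058631521345681244676424041286096742583881978558303234377462499945579674358113067475502917529197055570933204246718495898319181771048066021745831302406669844061767767355358680502491160789265401082767338876342439319022055526410712248849584996461622981754027164087430066858498331185523150369750461570856177476239846071968898946994368230779869661802220950588334164623019085610526870236345725893834918537988248395258317636939563820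121018168297638576279765781214418935874801769537700985226775987925174145353004767795950683263574759545227816061232141199964844488712360740308218490311910367943967287996556009607396920979699105956914884112404871554545709252852976089945681892365381929560111946472114989945537133075173812144211260067548015704032190998914027013045793474595348974777957892148688012298648457386536918372485943221644610356552766055649645759385349411657337432367927169395809219486882315011831112065791006510273832240819736114175389502234186650239088088240085552326411481625239415862051749877505661442383483433601633832404160148401109583918940086970979820638011246560032801065531265640205272076267541262926316115994664874677527870160729884839477899403373432790900881818293990911512558148592744084449834364056147402761301544364699467125320520869154126406460774344979800772410217115173166465301398493863729217085603876976665979730471083302050670492212952542605985537410412846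154070619288895902710530770737979749977383152950299851982416004023339951374573502090918020874683988505912416300689323369238904037177553163027106651572477739018421834287996001269556596097244988494932685331613055336154285624324818219996404096357298921827390631299732023473366395105107850033372131926449376795818656090695185562325886576364229866454446140017573278980201501779472816690091832968812041466358523706808598601406825848916628974727144243191720738852871936556648153732432071297322337253670057907841587520012845130887688410505422661813019051388780112984523943925741544880950180639935219960863661015165500921025806299931138730167645530010518462150471242320624785121370323918146734230921937283464613158244105238144941742502583486525958516981279179236759426570229755540489551417965994919023188642942142817958000345041589702507974320692473530375492958493703267652579741784402198189981413467740580523505959326461134200403321683425890053652330423667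995884615602518196721114335509401420339916811666172805060301635698973973603804320408381609845737960412409662963421772942875006482531433094476952227995291347748792643763428763135154939533769897934046660725270155260465583274295377741650809395388437498524444423822963234111406477973226509018547812186438317614020599876625481208439018363117466006902395923595217591534967946886802489715318953144943176150057522159359642493635260283618228585182194607917969802915906603571701411543424681499647361000835995360160806272194129421703649269974725947834474747053333836473984281866834631207222158569403938838064942355348431877015957535667131060454741070180831306331160089438829193180870703399148024728040011837503135819231515403117037559074329385969434691081234746618609673529401767017972440180109296004743390532610329898348014184442020255490336901124233556072575249898219843382363979968432590687927412002235718417670856082396302372372690690844373015611475974315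839860059596331126813929313114895171277732316407606260116986143080705795113216024913263852345189645847583323334995243217787329730404124045241574102089046184359484997632649655304102327599899742193398311782465524144735229233647206731280952443854934733413862611834915393312413540408253111485181036274168146735375797671645823637865325503530969486357079137626089222750911293599975743127845953347975899138092308439106794179700928519301965964036908830864584755989224042671809189905659471582343715800857564334937742489977492504583626234141334760096674111679315338557121807270475789804685725709665271897327694531428337479515570272221022922584415509081207293119695375058530787546768608893421198934695418654887999935484854783921820574597510326879398295002244020147051622136039234431872508712859116478913370050233040356293435513035685513157169240258530937631806804913518259295156321203568499146380716166516901000291157003487561931741121385648957424311830849655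611127801993637317488790127392376751127348408465358015620771489052619870371970901477725936900734642554729502431519408978563762675628342670032959317832394977463403553456541940100056635593265589291847297095162727381537614458618606805587149250145067167401039569636131557457138232762585987306809417751798164563071169013906032387445189042346458734636710948865201368453993501985470867616041575701800807549613869372404625000289079864775465591661018642141202618789325286746775713736523457712144453708406903083807777569595262501975096422868313232357790115021340900263204618827627697180233291979110680880484893047497510225405763885491912526934819424338152093730395913375699782090817624286998829888879660724098389086113323083929861329993272272834718605197282355616673206240732629394921807409617349940139743271891494094851136256354218360478099629892804616755566147151577947579550833834103734672985764466298936256259989235467234725718302209850113657951044691001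386404151052438739662037647125993765684157266705714208896469247282070604954319810045187814856547534651388740076397928998680136351036867972832373555833948990854653377802222812897327883646717702478318139930657093028431511865131271170239122929051164113121828591003228311539765613614450615462888085120220952126703870613200086553173175301717436494857794206613539396355763143855103725311538264219995402497686595844584769864311874017960592492656197774208250080605188769285652876457500185766972324849213663506120651483646204299759100683734778638044879093297212572482798720213606200838009004373999061942919481402758944369553797595529713830330857837076005742832973159897320988822123376977547339921034954601674984892714150282525133748175055560572634062329414133758299810585485597501011038999030371378173330078239988027401300288653036107857405399596121685490065638085800807286865384868124503631465569731476256358589395927511515966286037550770720462020626661148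362516502908312407837990405337442876512293343888344129215233203057541950520738772825241036872622880750124241328253983415671378864591214374863585060863274641510054492601427241212883028298739595780471652057663231665100529811907643912977684010668882423502383647313135481682400625864429481295414472540588670436041049116351862084443353915813799899456369552693284232269225844069730612075039172643384474388853588050544072330280093263319052262692539127341214007768860319006846643689409076972865808663880210655316727843512686469434256553875515682450928597799099212721164269859875465237149838621525747031068508108905351568048736361155936194094460936604927911073519914770431672169252285600940774680067337647824260689678979510357692030799766970590939339983875983488556390207458225030599655461187734083902164420737942191609483935324311122043888949746531596570708422302270277005048041669507388703990437676847478438884523294761860818424958547339191202013224866486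889104331126561647231779485167679858408208877905020980708781033910014732463291950909770309636956243982500980778284496651042552701720956858516137042726451356390779435346161767823242797818672786531677712701827094551051846358044792410041585349026193495657099879135871562892707984072869295747784696483581915364681712596223220098210748329513146118185947814769758309210501378952938717067689372308417233323803893130450657889716954785111180276432696590740458601246641601475506882474209166587813896559371982223839076060656735251896411755645328168926319223668716460931351284319704742317664341496015984406026535545047690700360394223401232143906373221021552382981832237826248407954481305679965875730620709920290412415146347310688698611323353883410719124120349421904506907583754179389043336958710501393185070194737913137180791316171970591349329361232490169756460253506014147185086099255648483428833928302717680382508839873145524792934778808072241396460518254304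788034546190205439302168148432507702346247617740679848772900290977578310443548682650192441979287803968730413696370296579136243033437078104571483803851640029237471112420734287616375813773247911905525496013110144394744526972924694544805645962310539347784356428084437093268646903951988869667701665143148943258156637725002620894532554003453361237756342340377740379897566072993131491508271502847823573997152667500227281332731191947141454063295139125211580655111485422140730954010341308192913228932933347838175608725324373597721428151206383447910267613192413183609570503314965473978816562452004774785030195039755730308628222951496478575666577178867562275230012409193472901380602038408553097765339927703118792742066487381636894153676403506511555397040830783178332405037269588102666703216528762346579831199272455257088952100084190163152345141314808703956739903001127828754327567574241599089451442476220142421938777560166469732097069735422626297546277970049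630207704736417632593852082828479638433505738285157788358964669053942044418807898299116169693331174062134861380660376197942177338257475079487570366957232506312803655010190672942565948672017781062603185109910809631759802582468121726144313585271774680879179407375621261419488547692363827161526219501265492249125559266940755225018683179093863059510684169551044822382954425719415029253139393258596661462462994539209219472290590628391551080147982283726505528562745477438032080755206132775277619037115322522830970469241248794499474169541512246327590740921305444204034907187610596609543022234378147074862121581265430409537966512782563535947294022372528571375637866674108415187934349539606886854827192986901479539846399739665229559817494399870440948391513346623008155064293958270266810019797389586098183000721703920150851251946458116542472320878971913459478758458726434850498342993630433336425775081385528231251304609600661068149076081072320085708360411932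649195302322891291515484776292737499876133331946366769730829525535751508999097898540805111325430887927428505225871859599608373049885321114661670198199864457908123316443049809597603337473707515341787486536036156593163044731900089297488924603283045059306464850936861308793195245088907488346398110334303716507876154947580732463590686125924629859094934857259055600800030401452049573306738567533546624115521495704093902313912959114911056988394851962685903753769990473228731167956938370664506224619003705575045969205792021649226236657487110651032631995849565431668681734294134092243699689631254472282183404508016582382371585901487790301905708735050531279756172058433200308727452441842438258375938202544582165254341746822572301566778070149036119298080033419536715971829103367102504737516522993755371517867209281236198644957931475990729581488832457388681776239977111813739511866936152425069327708935833397929262415548706394931216281925839056979001841526175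574751122015912429274161655108930973454006409792026578810131549984061569510302095280061071568031054285354004924010102107849768352759227794081287900432839226041733135223713440774415598976241956356337215789622566902974259846753144303219845580235814714992686409518772988784187953278722368093631123970730943789674817614733017759255225415707890659329518758893405585595249720499863443113371165663558484471470232316604105465755087297349004826300118072003424344232335615884106174202957835302935611903024806614237681724547896478178352133053130922028225628789226220394043409209803475941876073841852162430516015256861404712773582857726545595113985637077698904511720758386139882381206751513655576140301430385319608084208869493039400941769964521723682315381316640972582167914783834676395096736662658241862472016945420064392715784931745969295801104510060182554772314341545919663187863850925978705733154189394252211330442810721378079099593474228875589469997553685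320873183850393446998074487416613421486829712846057047781100288668601468071479023360390541300004708688323817903489269961585565142593693865118239860783199825458797091841921235263450194715893099357700580616913373526570714527896274249129453978646612802753907740145498212270380272450315328305768234222869815151387622569587262765786873380892580653765627697063993739182313848379248593098602533060228248266756370555513853335501538775311344628310300666997287517202714265987795112351457260597481844716858800250818227623678852126132081870814609596465726596893354793351448523827125843669073294033776488401326431891419424346352677205409123977558153923497678416367282556198491889825372313957800976591345733108477545817074723502158821709833400404634217120387537307546619292874697381348754952376667914369389562827292452562846848660764668053595746834236514034458948871120293172374219785202754121284978047768277348565482732232671595265611829675692701342200625889898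0561615572007028527560483161849134747078119785934022028337920980953742483941116724040514234974865924889344268383035454965381101435892865746036257703613877571665453270761735647092606016755023401689171316640289311063163116129526882328770449447697739481672656570910735546496403360908496201725461925272963010602073251893877774115765318108002531149598240257426955103838629825933029617119981838853770113061646157601293101466736997342988596705470654280091106857497919854576096304371773153644977778470844770631868383493136388777459683886690095695168482578935104667648)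

noncomputable def rc12 : Nat := (nat_lit 23484923585043541737821925233589975411886679241970303883910138438652574201324749805195123025549653084167575127599764271459429800255287478594897532778475430313403295562859900048571119674372449334365475127928688092763771208434729791333657317090309253596180567002742503999202250952889030978803027376895260843162222566757134610191918596942455603391857987995074781746146474853229863255411690194919664562693322051636293099385729720583652911230166092648367737321530707353169569905534255520762515670098584919778242571831070621863166787067314470792093661186503317936732708864231475119567550437582144884426886497790221461424855059969397176376462847066992904821059795200990666185513904965478416750136650671121515993596753426962757941455783854106932678327360926357118410636906090055584731205293891065961488397758545175167014788797467708613469414154334260097663513372450820256139954160086194095789671098728745000956622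742591307717682404026781401718579459457861309341659027305493979205738363074580263113407301061929790321692510316140650744737674196120338731631571496282709737517390524814286447134534320905721721804989989594864006532243959444842990440673750915873258305903251687927545015684352786487519680957494691043705277722338921546833081007811101410170632709672443809970668260849657408143016052570541571289222304545749919776009690416397173658653891808562367772914207849860758998619854145000055405946333401305548135443625967297806349588131557419112815060446193243604595551176556481865855100465599991805495580045638369348834591544647339002438827015265852685104791527661636523037760556695065973736698717531705706961194000682189356992703340553133400603801305435821886497210136587655452833476448252100771372593947841244495075453621947854307458206269905682498644989521040211753872525159442141008611226019814402809348018153388629826378592748319629054762517315200902639355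645645345821682544010644353441667216863395695970371894543356427153167542508419748896616559068194294423235567391400106136427719746884994146789443395196281895795213131971521422982560607487658283057252809934219291772993279862887282513498602173169214657899516157922359694253677750772136966373600468264419289633950740651830787225927380848781455653924406898885691209396912324188438721154819928945629016120295903427771013621721460418616610519299475157206623567876937450987270357022132983235911254034059098514757061709946564241281220112745621646909767173049310599298465961826328854483519028880336045242561171734657255356925755897642777468559505240529276164412422871967567257628957801122924220316087698451576978412763549170666861292231869229631843454743104775321366041232096192204282333653889543734820488549620614972830854369071405088404029125211067388050250063077662136331014726589670712237356003525326726681580865049671302214169865003680225134250160045092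346424402617634662697712426821454210810381349009775505194358580397556875112671368116914864755746944267895682760126235116011079757575769047915079629636168341906398704269287001895402005618410121093160127096693173014540316319452851807878872882260132238172823447690161336745185428077041963903833264558329092134260379801471626942972136658406535476865391470542610388193498819277027401748286142171892346522829353294967245083661628759607590588301895178110079598901829221486065582525363547181558065091875293010515735337673236016489752968877561222800807697591409817262337565099577156157533201041918651453914117002441984276986855542340534802698746501578578030571061991790200630383369768040309533283287202215955321919038705647479007951093312527915544533679875650779272251504503964484337835130809566105335549163255497823374612173200794064244634322387145824449722584103507886904072343883037096359846192455507117959241836745435087649470030586561424731026171329799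733495719135626862763979747989523325661902239031806973827988564311718637526223054637036307038345269263687538587422422216381655360584420444751679288907537660126466054195827878239356633713158346222824827616352171658666788814248248755181554755642849892207978703346659540084072633923992963521284785942532656289920911779297231268277689731646307178299145549607379065104552486334374772015925646107860957210087180152675175736363657269874323732527117576303188881663572123885740658959866600457201938020821391007433629970050400261494902798475557471364234345676910087264636724752768523561422274211951943522876980530743221291392389716202139805149082748009627243593251310384604522565210112049238337996087814607748132491016875413170924907226773240481901430158390637843029899331465708348742520654165049355922710408199033039993184696656266549303196498133104969498761158009392983283165828696205270537283299658266120537819320367309326874031771711827410680099943917821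172217715117396050652728866993662607637776499284339237162070269891883399542328815684786281181269091939647574159571829854731645100402525547950866782637964488339645963476474448842675513197522915041902331115811505984254766131249431120112031938238257018892777442139596316800388216673336077396500056304737569651178413881434425792703506446052342098575401124937698199861994796369535895179758434428562674441036138858596211949764730719876486207935599634512345570935894259940454225623091338621129238066876008981224091485517011860007467141692765693907841283743684951694898399484122997478915551598752102014828730232030781886747782407877667529615102822002529255684609988876435062653425191821900683557691271188894127063447202245140342154723409724176135561067869339826032788745764649262382012315754598855135674971728355844782248261692495632387679747968011094143124542110555016589904829123130264859766983909475204614232100258922766646908876358356783423002178799706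113424802853055545514577056329159277594582476265215582181397257531764339646971370010657448805645571175115016237764465943156361880969359896493715768732753012630268785164287308794983337631330934295259776837292617764997120000971503613420874555545765859502122266834516332159876336127531149679018424592972938672568272258410902740632523658424003859038994494758313495504537234679611208602941281006529064232981423990108910142830318412403436980111319198902181237832842260948339431567485423189150356437503616771681213084792453214760533587890976748168221530738412593979501432391205565308800695931406338561897368384427141552646100343218693298714531247790713895088402760834296039268014839100540770956126281302236711413754181936353887441602163461263536528537705231778428982051910510019187909051974049542281387717341233117999669503375552771889470330614046675188775100950373420552956608018625233260886365822525968764238903618080261798567504299062951157168696838898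913414129871227211292985106799488225131650245715184392157018640092166493034339022624292861987818540898024090540641596699181634641044352775563225035267210028004847146289699219144476787608971326679749967408366640095939020851457351170288042310283250857365394235369081023678383426341638471103458955556453329315645688716641561342998089491921809766566212291663678984724006428387149058969138507479076194809685315991590071188967774044626823930093546251307964108840663525155428217445948343228825437492604141606679832875378319624733410823208132371507705053649116251832055752831455956869438000695971808708706357172479900296405873290565379988871350009440874958654173789739047823667010675422239721662552311659912751664696768539692871445918986462421581038249924659126344221477269520943142484479871906715343155949414325960227797025403207211869599421507700674933259671024701366940015078065912129976360246084677094055888533029240961058948438249919226930835118498080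928329739944814373084655670690669406313025836154865447095657686399874065003249035871270271127605104241898429404604555683070827389833006022618264479073741182104986619686092648882797010531630661135415960203900654373716830588057330872560564223113206564870417582878046594611289699792722266783722153658415879449279619149058390006004339137143607095449960742491876534178981173361635979662442376843254260843308150112216897554230141586742335129384631996127577739471996636889667390057820354534397316873886633390367140533766348232320705698680830082258511043887994514231076901574687436604740414321784245589737712918416228471927589275878329961467163820231075034964992089333041818552019618148285163154823542959363972455407844246844719966152669804799603244353366397037744457524043848526883756027135755689024520702135959167722581350594986978862983728466476317386573747278674742554633954827876036515703028837897073519740916894025106015631652190912069368690381486367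596525002143283937986422325437878269933679502038463192141003284543863356328243093006124128238933523209486800257213870007190222239669379144259942898156218535354736034072777264811799174259238680530811173237808068097156353419963680499584530475143388808785804052952553608577207891560298292304541003973851432757402498443023128736889263443106850444300886562858650397150381967172066454438137745743501987076351755029516504946864411436582495287270509888042721417147842960796704045896279480780247643038543003150861575993368574855950791011265123506496275877495596205213171945421573668279889534793378540473636788942293104599118770114943377868971804908264526674292637346233330533550303706827699431816389845011016025483287545202662887089821706320294256816384119285098073751097334127272930140222151631959218530534858636238325398673863478218876790502341921019429743669670861442100847179948680441033354053401376860546774920296809235125068589642636289330540914061907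575648874113653674774027568789302551625049858931053848158652901783654379536285801443746778433703714209694362228395681328953230268614486102904045118565841850046014489780995758601322239687451179048246926500325299662368112997027375665671217309556859975771735292322299914159018940544327755711521234132920869322767201150371225821721939501964250041527889335214478662435008858353814207361456341690979211391346919669559191878263413660459465373299883545098689700646014726997271200516325511227143587166295235320029560907971616415363913150962514403090878969371463296510224695625000591966645619986278747318058970729307352496342369870780880836813320880596982441679534037744927992150496370286329429529478255977164136595566998762062760782784177399124652137104449245061461439093794556484335376715949736409189833645044313400780165227280912039441548743877912119488215139244844773968602915232694865647444720185434970820942060456471359076499378173456797745050134901146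214460061589308112302662576136969427170358022627028859591444419531373283816976814073612880565379963846374787373344716714725040482485846909151914006912121591835351392535174817145386772081793556781937530285469035587816995184962507826419102435216818211090264550219037400667449862537869692319819440616039679349331232870112852287435177560248232941370882525384936365305583272218863057360751556086439708953673297402118428767041815957707990589580088492370800176139382753523207646049622525042528888873731337802373626648039941324895190987028536728371499951333847517916521950852908536683244601548089013115202072939345652751924469981646908414588302141243309987637888137304858095648396118400879467130141247791846141584446665536673215650725425990879048859848589888941090945988304348177086659617383897648070764020207262807238679346022809022571270770032736284195547372103009606114375206705830686320953604646447629374676788883129929121850534301453069549684766002633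899611012813303334304814004206278369412738025386850893795645818677314699104926840619583900363353339308299583293805573464288235072973157653024621510230574120774711551807537565898642041711341777213391977788024259037284703821521869138950435553366165669989572198807414724113646653335152123650580612930810724500959868895096716471047252021296083700715719932112253354892293727195131845469997866807553786186395561867423698381207425886983546996692816097499973593237303434071981678441012643662944249909143745582915781473063381891613477409262641822146212421703167374890246541323685637472825248608339843908897264940178983620238777418539527263997465822413255852301357374903754914422759804526470342058936327030131187424349969568206628808368104690221123816044778408399949392566404931410334436361356015284508595862424534363803349497937525773872048665610506396473669088776927358780039276523223480016178027315846029023274151890493526346268488564659518730672962352974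609024449061701888505502694563183804193279023930272813011458464097636499684608661326944700237130893239565249473373831170840335852723106777910361369636595096292807755556460157662003336878060463032509987133438925279138987194832096257824623245284348626710701033944504322621007936255723490578524528826059941215127695991444366939296368944457860640391840546000708878507686196740537032249863879459629687482838515625936502777264695069112289914369517600514511719131935921931858722688166747547938443895582273906350133314672210445436031771249728815952346296963327479695412249192802425470416041384891068620521389611211657660261902679999743526101187883957915010282845758237103649143331061366719370925969330884592122992842297422062744794708806350998624015477348681993281534453667509126325212174593435164371288112068346187244457314094906507071496735963548724942422620863899100848964027168536287784220356626691366597309465956320562207865506172944575875528925185594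097177640602725114740923925496715748814094579678714985834821168498431287173428190034977955249501860495705665114779607496746048899758476394054654430159220020093473276842474831098244296556749480416357380837726599577903766893484816424838622605671863633348921261668029740908554011503393506018309373834907409868192906354991091473172027412188713004863336197596204311743545580080202839157330073921452488205477466314841779976096410772075432969675777248868415914233027001315745739383738588606360417604622771133634990620323721298324959890934211234764090851461006512302285081142688524625567353510839361601649077837614752741069708249969203523483602765368923036623829534271614335279229125030432883985241630694584774454037015923394404199149569885419599433448427571657368533507515702924846340990196001976519981526907102995245398408594510351308134065625438226128436110941805081819970258092867674835082836063449002401618091775192337333189197144335135813435305417637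272625228085290038630940195297543272582680745601987110616588051496132089285233669940138897746162603703023428286452946754538407284924230985861634340052990078446803664251918338210229573894918037109083936800045391528779108967960394098204746187895219209513473367119081797629519899515799672338066357825810942877925144354606192837816744057935267297504009563803934876343986610448226382739316944258624521258391101926491515437275558595526819706534539914012097115255738384397581554643130205436432435671482751730693714217094758534130012274948558075563402583775036195662559781928377677288787920330220432241391133705050165867311309298618407576450234385581831979223681154934802818546612337239536152971869652630310923536532263942565603309378602999394198640757934206339771319066307443262522415110595515909021885703439764034185333045950513257718223074739987048958743831940408005558843368760806819782752814442614311799671677535280379955419832334797103264643281603916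887179555293862515847889022780539968890100509925595697589016960576029379633660019006503186440094137834600567033612120492747617398322737396198705447395181590136234999471109080956951005911385820439870943019457530007260597227947662861425203857461034847366599658071501905442221326286859003374917575619127192028958174914957735006117150583625518107788952764194586807527763714692372221528106227278094389964578482609276118385503789518057962429336322921152890127751409080453653598749172779424270141859007880444076911898136237588101966066496390805554413167109981789054524030953313428429528525408977827035969402879479102866728717736093820302613052199813416662673701692647681987190898843688399765955279411107274571302024012816975259638739891492865408505240474878350089407597279798990776962173902511054372051161187251677552563859451391141595567853492931455958330291930114177031301487428963650696875223691679536056127629975039278226203687735184351547446810183604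144368392024924270005954738790160781333149938339654702651030420498696424548143793275605189514550263595643029732784795826949411208505011051628640904413734824365912710771418518353504498398792877839684342783016552016857742106756443925068095828461613525300542750744246737427754318717767907119625904158307706741852174631510346630308559900880236955541606964089595272701274310559745217037067641474926558760569591159066323665529681098195519558899196588180431404197377725437379704531733273926308215459481200821043689839825098878635336529849146080024662669265822199614283007251084548192244649321045647499247255549811314297622195008523803123948009477465144958249968341928206358283532479209027866335051987129248762947139025758830293151169514643338413776904775234049279906749602610445109572769497219922703516171474473581984854871186526135632104464125673833446771848532096210218001272633755900559010006569711153889800327219673985000229408763209946933133450641449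005715953006932052752230429193862198479219134371323646251955050639807770214410694260387779130098777894813773307645258643662981776989559250100202730666147465428230566259318678880408803204940894548022979758563462428467328029120107169143587908719630969320306024594450423960644504946983787714554100214710918368343314374337613002125852184196502289952592730146272599350926137477076813674237135691259703573669256373170486906031006661087364196488993288828015729509308260291510483279838817201763416012373206122268936932829717334774295687120258361696901561290182742436189590195481361668419246797713603483036685977920661801253771447251983154998892320645133123627378444240576847950379864220047582838104493931392433509142214597759636844008266544187534775607937029845535977316744612293717287390335232014197060292301534220254365080461372259820557705688747839214742806327805770471929961895632427493822617128137414784682403820385463078121621155070278499494068972513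4398898736370351521014938072618333309277559596960468200821575095049260019019226075746562474561645308206364802391074561565315828017966021070966663867965524465437616282750058190007032889948782207294815623771231296172085279106113063262263306655552957629930711808315850344770244114981985513100740699987351027003591666629517878581409295717399678502868496593480115776028457209279393459540074767159241706010477077191160313271898927948519594723843592141835933482297143109558954199454760675056872866417136086030464318662835554341167295015797781884479749531961187631104)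

noncomputable def rc13 : Nat := (nat_lit 23547906069137387558537222833206140550031659826224454889988963338204721092094713491921251250683357196046907011131121859434797867349007049226091867118079356048572748535929649356261993384408338316935605887109271604423425357542201182382487958546209910680217305732797469067119251949238085446718150636025688774525805496159219585503210761035490613623132750239594565035305085559571309021456578798083858033707642801500357813341424634343018184416412612424888578848166336335138597286317656076936946071592057568631877305693358759990806152882803970686368085704963899244994043445421216673076140846041984269994475766605904206197338827522913968942020800361531876724831767806927578787873537775432198685709459290398029701929864512995967849402834506305055395947963415366760736267401797455182369118979647627864275553713146246985635531567029191020726950087707261171476781095466919693942283543632619504031336111829912530742670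098950613635741911729647082234417789663409235337919816456117286389802624610045696124938118221702925879308232515793281461452002719606699200220235660673009358889661663131571410771458956965342974792067786143574896930625415899287975698250870528676969626526058929130791910721061958629986421496071195822740919979191486669546266667936743183577274837733213516665869561252417502501816068773767266001723690617059048264188273841624024525627617841857789632953264623385338692501028879515727707512944724063953288925984523050812325447806249244588471927583282940041546072515371699834291110136575658127371708577924557868917974211268794390116527781086482050740157278658073322504661624026576901039144272111296584342358592238363217770869918090167863840571489890782087338883074323885463511255527761090904049607613778838004435762412532488977995898995689177398924097203082943808330326408279604920072875479177187867396996150402761523599840316272485128111621056783368953342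773963934083221809573410472879429661563573216862143713949131862600943767359044460874125464090660955821761876956873168405971036107062158567571414619033814267490178877979434673203449251077036164830004580693930828867116602326455897469406868420144138219058614265693655216568819995441600055022485768547100224504190646923208379559847097299777686063848303154001834357777052875609204337303108203796065651839236266086846744475934791754776685813587734240185676011337619456304757786954918046798351063010764762300317047503939385446610195460033295157430566002504994761023547010236482736109928252824603753751285539948319340596071354656513067521798861923340663412847933353114515785313029697674067573693075396380411538939789390345376277786365106115909662611565528103935185712663668324667896606816131499474054973838061802055878462791416534812764375152960894434624598501142306124978032271414084488549561247608657699517828641470717505586320973694185924303601694988229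611786848884888721528653605502578004073529545399430120965503872895737357200205600105836495799966201774005746538840936321578938600316305590864236607473155326227044399781319814740170465747496272113424680163131810436348062100827006185272584662917636404326350292755782379446863043255660448371796187082227068152204739169942303083435789150467790237629271242062453796391967481771170908005606951274345654339649646421765483895121700170621073871747875350270257809270854328627527685578755767396280944328636729362080631572496044146269070150694537237863501752798419669632068582429883761586855913713994524524444481259065764858667782748163959160608119919269616318841971375831048495860361314528486847700187528761505970605142308929273593594527105481390451987509401824813580035601816533715681026703941809517639269578672317927949044522233091823889298255580543393025975947422477440719140430590849182638183594516775812710560794223149813655267927706125773412792598331461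959075305626546402601719284854225687021330033526409271437145990004648344076879908418115285963433472285042997493422394158377316405790186643657806784323492976893446003181694658490070028450388558607500942236079962230870788077655127226580585033888989640541785802986958954893715969829831450732661576587773252118788947927744432060187642726372362805826949181501530796723462501070421334654150272203850508624271139288132035306280023382940560706125970504022012507074239229989108313598777880728671276790187559549930002286220114461266582520432963843959675435811752910483524437066631135343818292629607712363509553778403251662232816012455833180817252785600820449875207335675459693342718947956016175515160951956742969521512531690555230482141753817066150565258983404843976762714186052156187546621982455771615339066085405359006544660238945919940950729818064619892088795955554164659435938006671648084176088349788499536916696563002822396506231152781707279543810096406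597716384395874511807802255049912457937959239404554471605563905184553214763955107499551470734139868597707191802167174083256556777594918950000044777288196229096556770236963569718171927814656417173275931142082365764795880156011882778634818547637815412913272764828577857356591618278688183512586699408089483485276540584712486997472593052868287543117039732570230642396456818364246560240296491686576152009407234319850972664646585691130671265367795621965788034076260793304740186868787289800173492809371585315766652842691526511281149866635137739724780317878761486142237003443698981993504162111571853485088853187900463543711294275093199745872268514223223686289182600782570066650259542509137257690976550074309982614280820134480508158884770819723745485947188707239887744521758894327130529239897447581191004060053383289489818950018470493288209424478752118058206760911514947038127737332056580025255267893211183570850790961611121055695440359418075123476661053577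052543996264549814054005380557434866255379962534511468586470359655544124694663982278406708936574654534469826977776549925042209901177838851518335111757529065020628450101929576136996720987729253957758541816547235247486974822670839922850574893356673762101285118341288144765694006433009823638206693748265340984008988678505916072670820812933585291920520835235068054424273269365447967944978644861645270672601200162735717559828697736813177119256205484426833920363279511481735964344024931389002333125480918745882671352845113804991952067795659219483099190462087482717743268809585984050315154591599792471297610755725063813394669427769015954355552684055786946421439262035036153668598357283106853414590267140309823615454620039377805867242554750114249581136363791704762083259593160142752925953174709722455140399522059657447205626745633643390697287522552505903421746941560985412593891937494163468960512476729840928453899822642172274671568578874650981275854004845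199771700801043118209953930377755695526252566718146659286543870072541311598411829749711185557937468642214358971881370863311671282448214967813952220612194397178130885719619365835550562804097320054190545590105148151173961861600764294233862196889793874861655908699892771882594035613899833908782395629674141166458356718598084149921157346007163134036040917690400907855930949297350643140888795635135080889840700450011663416738704789158781934338099695639378307631231270780940655030151621095508173639088397197678619780945123605230427437531700449012952961789177585302461990188914727185860180210284676296566620915004935970844837479030522378005872133476166799790555271338233668892762180787144477191678496814248022003938446025858028877680889676857131766270618423171709071566283078153998728137212227104747465530639046214864838039526846962696410385380094138802397729387795664088541392162532660726694203787607393014795885315332044189163258967438239677967513031981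468685568310234097262924347573222474642531744753170877978469920699869143498225380103256375968558693331782444583296074108477955190000798648176070939284438448893016362335966724346146545871778655499960293538676456492982354492465569782498032280972527560610360413156123319246083220740554711423882011577073367457327508175390945104998144171985093021030471418555218207765987294626158103704880576921469333026715557073157673714451449903246036176848860979429537548529938689209674869429353314689697462709757362065969536410904250613559554762100250762849409761778550014363956736304561728602193654868875898515087506433163235797991447353730516053775581416416482654531840745405527701684962548399405652413356868820888691554305248136275466376141439535479538597303192533818677945930876408123627258025626887490609595232709052741168551557479223037022682588614719074341371671325098980979488188896418287248471442836984108696036594370549684610350098827754977491228738130407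727467018685075060248238177956984842208551960430302898880323413405230029911803236498207799160891670739908002618687112763622706110330610778183588541961739882893880222601221951821498299540131257457640438919865662544348619307900910497132902579597393787372049017096473042782364752913084480997313439325591856746392028784873785253683237571623972923581857454421875563585195723666001161354371772486188304250661065262838604959005631090172914692455741499238217754699842633241549919637759634331894552720207290775558726149613680948213699179151085413734398068971918158506285076114599521835359168657213631397770261243873821000696124061810374564369832786302908909374096292076191710659254620469943522460239759743050050206752515778674300851216334188855249000997729119749243120919116531339365065450541166460685452870988319661784735822220486334557021906254206764139915588260966661702178391703180192185572147591768876118616375682569889912340502552165064694296365654328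372917202985579375954077467124151547135444509647409418145543034211918474715559136469008349415356150935054143218446036081740127400996939029371993619959790014042302112379378197288345347259075598645658693492263553293602255295932600222883100557626831944257377462428667631027617735379281857101118633383839749934685897179258867057352440854356544649911400476820539405023220656966107650018113531531104901186986068081669961158696069627432766652908873088553061886110399817973326696925919087503472103430742388428121016985702678862891580297972850526688557834009780746145518681059822946932538662763175985689855255313121944981721211933430782145824879758702070862305100452225994497294661619483501490657157891754189913881162851814429787713045366694356091838184685378671390100210081893532375632450872660284813385346379414531429585348347553963431903588483612734892039319664956044792293441199151640614631053608897872330832316651544824165735276991584387772550276077597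741984011631898458779730038766804666282815540146364061549356392315208848630835279729884279202982116375406516954136965009765192617111087893858732632528635703602341029267867622779455161194493361788084818200700986597057564245494772182973935996407481731252159618729018356851434984951601254103236281188776609395289055190924059861368301151069060041826622929936906436048492659316253324949687021006907239283854731616563256603675606469959987120398395775344538714742297036547229346957304563551885670028642550277698601444187602183101332244902170966760832340810470533404020603855991668326262780440058360349458730215998303195515522756443178922660798225580875966284570217442983570528358163864994774084999629804771641179675714594303249547446822399948159503996086604676787694756380297951201144952175542763706234295617005361302853657706475929870675646907391256378914394827605032247149124574002512799191769458520323906003504625411327730585821765953069417621218133021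465431237969818138552578133334240439451442226378133226187979293993967861405905894711775273510870604129719626807940442234697289966847952872321793434837070223491916402198700185139461449509735930671660570843663988102695270154000434207353671408298919648527150176098256549109863385432642470833084535622473080535483741913017556533162645669608487612173758855310234453446226047686648193015451262593339962444175892306194572760068179612686746811981206492953886571258465499185945222159135630442541095915108467667505899526010002653162746500940776611938767976870548502801480019599129460285846043423885871339742041386929563939471107196298626478623529508045930445207585847569153199118872740316412763454015012209116517273824433824772834360705524682776770007151171346183157419493521813053107293445691381602190481405782703903734392612575279077537792896422488258420213788147268805663702697913544592626228470492706116249003514640800255735926138045980054247351724689396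473374281359159467541934282210954491547905799321763141546053604277285880918835030330574654433109102152287342914429640704249896810778541623316340633424053173706894481392127198371911184924188364524528386273051144103348276921977539502510648810865606916807076011482708835831568461203739956702147818745098260126939721167502939139109171236111493389938793133325127046479561743084190511670894241714210258966817531708121850995411627188477216178368838716187372953531173265825688995339278871544754848151104392241735341168106506839131416899136033165132279130866787630063778003109524372348999482415324608091636271416799177442843743824708776109398376737922075424623326809154280133439089950209330204900765939672345423181214462110866052346114564027588597374852307883552250262696840448303859569223316569303020531596144252191612217961881234486593823799084085006629407617918408505982817207442561514175755094012757758508061553870511098995890725415639499049271598494719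849023594080030758478949311731929602680228065223189939913500175562175251179105349589853542189655939983668244791343702452183911151305796324698132675368060367853028925534419984659294143148332300608762529173423957695749120787751807813225706062431948021684005178774742527519523866629140340236607420207465363590019896300741186209023360009602310332384670641107588475128755976153934902602015875134064902493356102238615605256978336203796761825286234471858833760814722566338187906179674140001769638577841039385814396297422746807268782765197910707496520595233734212298740389184311472625937570513812124380338717761774561983017600548113313174999535432203748669995130566308417281864190977410032112522940239211642405867197316338843174523737462717694300366061315405909792112481252124652870743195556147021369112451771160217676939923587354166894810680343480562568315494123582818029507912380315992377981914734275801487179412258452995998005377465238652870578399024957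933500304415532260347746024956389860663476178815836553022997899318825311620387366199745985410072011107488037737686812126531867709704862633417918359679888744510963903181225553853438941928764844200203649954959099406412315038782087994180569104798282610223766573873807330165414884215356231074481278588750719402528446263154783602049764789369628471371712741723703110418347173607215372326876308604568209472889004624922235863726781889075858973977908385169401614953907313145997085883257498753882352573102920638956649305105765940090294603283860149346292769130669537564422029366326534418930187155768696355614404907361148858525018296550857171175198444115946636831591648020692304215371999088788413515885100153015313946099309531952674334649298800755175142010003061494743873647347414808720310862132840064070625154678477522624821580158541601887521913786112807100117090626608530103963154836735294458929123080531025940542378973061447694850845729242320404641923926307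579107678947566788150145845504784339967459374635451499291994668533862371213832271823996938356516832626529882895547270023708321196016951487379458998570557641057193030564320486624771122995133469533382205565051799181284146180656287909014481898082616554139986926600769478118414781341454367475694604888408146549166855518439624011471582591512566400315718256990346639278485401619098877152332552048237236771614620359200642907167500306481650220961206372653782889489250478009355487963780014680514861587705202088137088498479544432773383921438700541434926226626617615646610486554670231533985197900168800445370909634010047033427792897894470599381238169938067347713699865034501957191434376075326143705473331237800588441221322527373866316987326229617450146395941359514145899078883392791489984521410012041191659275952375959987076167469288181413518903395510964448042393457862299174739345170859779626602708005557058636458893269016159443799703909734902194045391958357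023270734900630040425802060604828420361581966106553437785363822924429688213861095744493868931233002196434356162738012441075907900956747837335673602245800684857480187462845909088545771647685950687499585066800053941245276049064412897310918716882015531028712527004926775216129626807552552969140155498757289620070459567351192644951765468878340760878696334914597152055931523358575455350569545316269150737449274389649240739637101107997237325204026585989813606452478235362423602526899277338431738049930128744336763081483924396911074337834862997469544212444174550561266906454284741514599216849324811467917225057352519370451703425390391527608085878937929804027689733465215870953469007876441654872634479252581009856784467497463207567335622899301250315123853291012831341506976559346519518304782869847887422942971757018447468353099317406682442366251179673146828100644404418024760765755166640629917660846672057343902599725426819777867796339079824174071054754133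424028473830335545586364950073869161053921657816669734563933175556515703388108542794195977696310789951921665304539492761225015534299442987788509112134803172635149928989689925881072361715829361113411866445294091157718912117261093327220358631005066025742630087961196606056602296094860191910839062944255259109177903394228312291470774352000753644062340314371372291846140644048492549134638451797397537589265619024788294372836875793554852222517836880758097859489742300931201476244328282854576504359840701267573960366688220375175573152831650395935783149102873446589992739463208433814643336045069713744265610232447747351400823476050456073016900578795150094931394103278581525336699772413205954741811433001708203188779196827273676512153995405285408176180718991251784927466926613201947241636549510831525733546443436978788069711905922808811242215495590795516944863935823420577373841460401825792741326265305682225435647493427332848618577138676149877976507917091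4111331620407585111634438957143843543629761315989140941112446592751355313406293893599511251154387421604531556926193996902144516466586936412975105679557914659981400628840233539628719419002473661732113134572964871938744811646051264088247132575215438530555978598886040883481140481093104299533098987112855070147196672639660030472433536575807553072975228109548216713175192566062082890743818223222696830191146385242095587349117872989724371471664998396498797329921030861580552650988515569125011814687862040604674332105187351181548298397734053252534225147244237029376)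

noncomputable def rc14 : Nat := (nat_lit 23610590467558183443047548963128939022678324434977232962226670998606542862264134629065348240405560170015452617724325277908248823819353163558192796155571280764214035259461952755044066337060374160399922257622129396862010271080105244720734659981536566092054034928483647391175332362727183963597279348461401907982194917602613795176917778705414792339519826079141244733360229160540073840023696305275793681917934238523547137361039203960613237895980285139071594741901004820540635946531476160813261434137989868045839434195453275642739711725445417579561679084464748141565686946090389930785054324627046410801733117705612708775102456608432747310082086566104555115256217298993869479553516869024552547895649739524703391974466804687013388063586219382313614420892747981805397535446377305641555566411067870735777989564882537375683313581256259845708566375178392179714422992879768266275711314292177263993558667808156237562642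424164674023689867112092054045281229546313043441358423183441864127579986281446111797846426569721382811106929759664716559387586070087575784479960194453898526343328985790461383162546367422228257170293708292372546388528649866818915462744227012069231145665102052743874901418670213252163686993831059828132080107585304389924878917447571991495883284011235516794864097030555793969538465638987668337414312061089560632197341097712453094978008558341571309140554883075008853310147861576585377111731545421863641600010934453834723623609530803548237890242035070740863604775202940684389274814446705426125970040542882210235852244124166674184988400725884662383169752736451786029972925263345731270189344474476596364519306235936943477093581784333621167812819470620545538315734345573210129971661629642286413960247026645822273844703849400364422904699349355250565557787955512471933069963759449376231554013634084484020852231353629577882578656235140469682684045686250961084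413350238295965024546152960319231552938262228045313470184556397980623372370581944073218756251490164463234510925194500355196346043421850674275970171220901594333705483775292146886764179230984075393906354911886892403100301041444056983334757116367744229265398837797747406520091227653806451085889225967308347991976724010359223021343441958355921788268118895109172046225937281725517100019415172891081781009055603549651724081625599434841090867230645378244501707729084540394616224485663809197170973003867200455184332707095972952113107289310411457318028996400857569510132308034797558269051890420743792495716307647755305577318312466651973004096191393584480186360301404704346266040811935721584210531076805961856311247245716741715990417164184589825380568396174174305474887467578331115768438215279075327784302152360640597186705743100992127640556210412329888516239161596782787145072018898956257966735242738619805187255969803879065096003692352125481730056492094393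423114936920302791216793831737098543563261643715284321449910215835011264955116736508620547762824712171834557670947277654258732883705814914812778258155171657193115119534968912492900712721256536888578425441210068081751626925852567693828348479221742514823092377624469648911585264813504759303495461887493744091906153131682458521930062651122291710829943797112317308747487450505511327423457561616535387926054158475707866768926345692147727976256642632700818273952819151019132319090812347264483973118120438613977978889199009068148739940019221094755223338604477669803675578423533359996703340615212891830777079928863816824861606525864378032778473400650451358101650382886185922533478021735786179365030565648311611160867670021452375735964171746559824823519846299824793344949291901511685379355075848263666710375936961312283138617980758317294085851449410351978030219458595822377569181203130544490734084765480091379624023916140736269238711176913356267055487261968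602373474845930175848077238396892968956665224572348637338420947749392127792020822093552356287848323190664084616032307757197904123082993910962944932109823050811544184883448529506578194038496351812503916900546200082684142117619016357514253662549414306252058526891640874552237087506455884270451009897777843341408354401405712411666758026913652263623195196834737111386802590294252266706298349144476638612035843524544370562689062019362577560408762368260090351790506684095935380255163318914701673939089400439246814264155864271842695312296523358329040676278412258573317999223858322166651554569644974100101567949338958172025852992394152327862121363106380523310218557851365320895899066374750694534652255815961675799409862249049169044897169296006865571854473888248532484444642123073899185815690153713270795638296937242845352350611125232333734067701526601662142849847096083748907847966921305517838476965743005483795516437113799396948727139240075014360313675553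715282758888006525755052279307840620584702541983452103231201727512698898171350729874870755449886179021794580190793998815358425767164005614996528400867198052236698152190672610542006267323179171587892476960737814418563962283066996285132244756498536630893046800927426131626614145862470812046803927134200080382964496949686337539142923522802981283060829693826794955818164310768031775229002135782932927627345653959326823437707400670985424962606573545986629532935850553177348020388485242105012040143615700268790858228428217829169985384510995138264733818799044485394403416414010188660325661200493307816257299866679622627477713047949717836903229796034804931888188556890298535578986555754937043606481033857321142411357519767351132549583468039790783133567610149860699524746048448944287487033725299988827836636894176792008692062873979238668950117523223974960353245428665141194588145278100667452592795996189780000515764356989898603277536875561276002767723427123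661997461744957689663419025950603527361389740033607873857829829267299847924220838915691404911110744995064919357503153719856348775725403788110489598236838605155205331425764983130031744347113515922789821874779991634244483583392087857774674581837996253665160042108595873715278107160553770705986896762429443508534695854643057316682007813134195448665847314794299755420691483885921840846696563569957848555557319667013950886132601707593185503295736488595312324360875110103416187268629243716508217029366362537626029073232408721452507196130625962910458852527592548575796396762665012289927782026871464084161593509220641303725195159112625362465943012284373814566048354224325821266067369622062208513932721066885493586704429903607196535441379295229898395193842478291575991372987738245996803058564116009387982507329139066644550789595621396694409349510740790170538436494776140244785848175419310865143315468537945032839355427152351062471570262253850205684778269324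369941441490389845561463567429768670141679692230282764426631917953296307463380958706597541937059657836929167738813120617455687406246628255647393757298694637990403167867495194170670382759360954089597511735732661432325045383439091662962718199475950661058819043310066966829364728293371853714156326839611208025019179622824955713759905758270929405847564414163191691835518887875279422520752931456998869612627197914896428833336465650644025341773287802894142379245959731804591976087646589977726566057758196961493538276370138947061074123812544323237482777933590893089716117343260299525880659846749520488115822027235468814567054776859021665910221610347654368376426044296557726581555556871803486016087832120078831546378184374445445495902555288767129905485669671039307005322751370652331092461084201865038115879492178560759678032771589218859853990765866452100560796539087328249580385803280829630550476582885177369892932468145222972211717330996817502528871418860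454215706321015206660007929722931700538133120148533313965658874649498983282136925887950494386486435010343531346617047290282890976770849051602398490432828790879164301505101237227065294361960762766212402089986453611493937853429238108321690506496193242777049751656931276604377555199128897647428884367623696897067739651845385127033813949211161690042233674859458187961241678845433653980295212202910992711334304512709261321066214070691656837130928688331499490579310532769479279110878649981912388419937554050346206901065027791755121927971196560274326941253852004442602093075918043430742096955495204518967420206393639519062021309004982317941554824692960776939623472878837327125730279017829059727253471541930139763825544256138709631875053312909822802168162912150446928282220525277892777355981768293626463206241176701688287509623810937730442982772159395865934180075939319179361794632064952626937884986930576230970044202842907102360710125649399404184082981268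516373044908911420677770297255099405204468772463345480566881347047264715870529079411511882086886128653849625158079456769504762983759085392380517242937792327429714885464381346237095277608633524130206905776542325706882210826969136123483676199095533540486792059602204421401144894964855750862072105739468951214051997586187149377799911578338373982867189580705975303118839395848812746005086428158137323577664294505647464532362542326205831628518994613503120030851537548387212884458654387249002069388738662510540394523125142308129169164401377191872330745957143473162371938081113030834763374640618475932747416730280455391487754746961189939648121725480769824168756220845368939051116562263861475697666038559444763505395994726372042366882042869356928262321960190317571194312223922387219560659325640278355770982323159818842255202184425298244843213221433863325804790451301244570357553732602560947094499772872439682975300860129672920049975198635489860277973767238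983723598740532542699330301709975301599585294894262887295266922557353177701897480327134040877523786325868550516150337196049785902639189451016578092560392150462509701881683432258084344238768874617837498544144167802287616409143992093556649777580582619629768969608710579827914918845897498220586143383167260370178208787295281834066171512273177434766683459401466518129420539323323625618802423796678163053228237087622282721436761255580902779613092863987492014486922212071449273922970519003524438064080334932422167477791177398841882951727105580622548332654467773162905147167985962365726934894638359525884752451236610699740861051873213699852713775474088951037988559397234266726333472213506651259510781866772204933277874706260026701357253853866677897780187064288042752819086244234370122491853520756295096818666151162439806358457658883202810618281989591006960114050231638282187556246671304496201490161900700746075875844183863023710880100841224175849435133135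044897209143523087671174761080056288548434632366971334888916828705048129236122373234620722307242507125983235677812957156656989323321203110183846264545931444932530754460020109670926130990885636761121869955971479024401713747850849480477618422547852070785138785488094820553357201877002212365651389375764065708624997816352011430239597353750891130380897112865617473990610517488864008148791137108806268133227486037424838329860701162156670306822263237307895807215684823076686385176478518170383364044284078740198189318935962320749325965762174995371725648930742458875279980442275382884442815729362076372182804011745746263181892915389926733767959055177182546797063402097413058102954106810799630697438454229420183046295444598235127457731404775828742219367230786218010737939179331371623227756698351360624201422175027701829469909337344079800496796482403762265089872177047116782367999933805817546665767966402193806404238724281551960492052809219835762545909668499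342296479535707392205492036900111028787137866887442619875939997574030051990572072737958066868193741255331516678705849658644149380370155479792647957287906938698056795851332215263777773283748855990484128637086450851828101666880808559701269909324019548400046149516623904278148205634653692285090169218175976429255076449445109924311951292788962291258566332013469864583402882904890022101541824621863313121472569740131637387630533739762581505072311635883424238014665380339525909065523728425481366661106895316761953782676260318713235616447500120647179594081099585101561602955544782291296718105650906091622557521154327679632177340845198507185459615896897407048516454174034136088695388084795785059964209857485829745798080883911185003017413439177646675517378708737337316683556719925480381825067852398867778951223771692838285995172930486126848539234910603686152731822223678774473014415103198817492013195137629674082618541867568030956564407431761351226309192085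116100269098899476288927978141545197352046103553537459063308644658239791654942331943814494272916047718884683466940032363505832665402866874546881348101490818486488674335241314634370856686474893999843577416262683590332934842414063378002063194688434703299587566378367686327188609966877255994768521407583174560669029857864245681338328763995126154437167996625863789855989492100233856490662831466640545688112747772824133726398894989625195739539864535332072976903427806112029928874102213390828978937675463575128512220336067170839343781893232956105083656846364140132496648124282660762741920291896766955228438743962390973549388641644194815031724370032057349103332467196440660840944383493172231899156405091000102225104305854738727516766626153148489035037850200894765651804267901827250195049013980126975735655303893628779926030145586919829158738044711701247414145459708419898159000963438156066495236102515229773275780505402212244275552372159197963952879087133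411796539604132481663701818375370457115577404429193300788272120529025654838001251617118119780444816173160211548637046888422625158014405469481444254813208385449277186600736653988150668527173763603783610602395505593990273071474625995317209231202380667850378723900284925878980335601068472742838552500404693378536870562627928643216270183208246441500040543774381546722437432736553852963652076363672526286052323315961466629649699747647525968242277384269492595656379528950482710893469204111531994719411859716324071289246926515424952572711922670400073757163790754675153078296221015353721556284095484103621946164168875676326380205674067708400724842738842460069880904037217633532644845364835505240323577453733538785503750945319030529367809885667237218709096907556460973389031756749235727976848208874929438292282686601334820283472055765087262294191365286767521628824738962027219683308995632804940886311380942346994639819317228075139052075538310033396366946978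787876355605167552676446813840281752356301320387927096301774048837888226290647560274111666085820214958004875268855151402476327197468276795282108698029189834229027540199429257007468994013333493772583807816340597751203870908233260428338896463996456360933836389701973411877850735747891686892637473239658783808431637187847749049400209300882679682326520030997969044857446730197261670589704476041149247471062501811866645203589250540684003637945476288135186161793580193969203834730184097978181784105369598591114307334690739093796523902299426516225763569044534983510993228371788613474222099532017032638161363234976812939843204893305811217266025868657805321954449299572275019309013925112523806265949490249646188616020167698367050226395271657347030767376937595188670364680472664461420201300362648193616595329048826897608098367562666056156575166563666736695200753007367249901563675107304065665439296718178086834983425002252655858188679673448674383766788639580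582105724463556726701687588064153545871593573749516702270866836973204702821724947612040456244685553575748183336492134382133402217260720291511816473719815206546094547200266690478800330193969809723592308271916428604302239136302551939251536593273446991001513644109054035303438179188340678734973901818616686936182969601757193439937612876117328543490599988516069542820912693184406883200690410418438035401826252387439522337338731636346439685930699246924003046663330304407371806359284453163405924008942947060790288789366535409453845458723643035962290917622629105446797790592714515271016331867616704892437440918993445327234514137564307084335252882755352778415698653181860289133912413237167298801391835343132321040915749305581479209310933599923626576836566203144905482563977819692529487931792689767875335224592540540085671601262058759433387202309912665408769622614214451886152528161422042825858851314987708913162384136996395807473332184818909664813594418614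608091987510035294317844130269309212011705275430468394793420122748543976457027486298002105144459744130901602000127057107302762326840693289419707104246506523878844573674082726857420675162551239312490992193521604997386835509266520933727733621672834323300146600713114200304128483065647833530464425982084296647560089080384471671058357895872951464123541775003255605704565480650200864287496871868836084043497796157289419453319703054140561111329154800903318843052954826972776665519171131926055797288114255602948085045203534423623020100693992877114935047123028868818364295082423132058222925718513803000123973671461900934765920429082618268393684796714718667454568913666481990155540168835984290900723759814580825751905808460373404341893337226607097847644663254596666675913346935971434882266602470819923243036390172429176709473887469887132990409007640529164904323754713697339850846181197333907893800348935328798306943543554630484373773418285546673783682561493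875748380861747671113144789456223923857785708376903887726448838030543495955086595302778068403658326530937336176518065486116962659224302936152582391308246125787029522982269684446837189845808436435318396679682767999180452763372451022427927820251769010155806571192211067479475651488100860571893647420104121742563831792475663113615309425137451288294643785238713907971107563596872031207726049885470118696095823629908003394592367211805387439227928311340439170753352176185010769927265928654902505001605561741342843719053813047024173184407624818249745502392105312133482193990364695878930519623041388140117962854169086496469116120167186532054200784921453894087302796193510847878891328152751437538681297339702919011452163755868544558329420452240173493991939762591866188783245002569214347280227269295451945465478869263288809348158243651861918478629380361960354034456755022920408640632607141112409051159276618423427175719445070351080805620295755032567537295122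8088794706881067803238441400973578559726306928282330467784659928593666549275804927071542099354939317582500884938207846443218644305886640478843948749130453793723206070628031010236683079063708027178341095112540225915684455504600974281992250825002166121070553976150470887036465271213642680644923657247288579624119439811460399428108493964767502557084472403180748976560659524877455048500090183952291722629251656482955179261406870448335864200604499569835165270052910274762854598364031420898134694255422221917852658129899503595101631377318655698746522947334403260416)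

noncomputable def rc15 : Nat := (nat_lit 23672967686505114731021138881570135977111022011097554851049770882736776162825153737545287164723084652837042366850593337549888910632501412784291708922763258933556329813396753453007605517416716773491733308415013580953955120971395506401051440531515587639431404104325807731970156462703537533942081185846587526570835054569071608462501823301214097994122379862801378322523140992516757092671773038419531101070731670070379762525575881301782646116569179540493201523698555911999311148123211010828934364265248378908563852160178685484242550007338711858239118362720098940990706335823397789634592725274909236815377911665036613065314379655688850156918731939367606941961709552464463688351605509283805464720686208866386477649513993696875441087020750100187061928330604923810828931730964135342282952341267788546464946802613298257272267663427603783298156707825516062665392961011322134427297747954845241275014363488242931705562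649358772591937192185141258516299695574039824762152776795445323711054189893189971823478256675158291630647310217965603796779566084217370044089862501634486384318652199585975268897354767442577387120884902149362605523617594963570539077118635833505494377647432342803581282199612059044779845594887090219201404577551568534841904538053328149215625319322413652424115973956085753965070975263987845865163175735960518854520350926800504394221835054700195153648130314735819377572906212316962887411972277171859473467876657729648074210329665901132432770220931861971635154939587670237154544147530350653140685423860335123217096690445275630973207532326284146256603519751374607533685316935923330596072150308115998859911259310222277029389461244308798180030209009817173298544189817370390545346694641246594138050205139631019815786810773000074789900896353475366807025191021646717042653284277527487799016569245879311357658640637278699947983254733957345628143819383909585808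321058964546465683874837121820122402774127533176224311157817504242106328408428384944669396426579119479486836957548669322696558605694830538602555948745364975534579591644820854974022766485369576969507435256978264775761076317465459858262771184677838881137304652859172558996847944374479352721536757878953635171138204730688608856994714522918048894555566239713453538595257893239672412441731370362745420922743728550150110339278572636893000105490993796552997598084915198803037360238977595098624099808914677133394642558843273046047121143576922552250152614817994222062788064152579787075376677513629568311840636717397490810306437587618884471070133769559677070347087873317710952611137350040921610190388370537344638809199718668797713546156138598544111660508245800486612357927153037239521096088463303634978919509481442171774586671621255868953371371490623267725576488957464688464482621694328821158559392454941486665449033597672816198806424883452318676019589804066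401992047481259907418507661508386035956377877540160710400381279470642637321154352713995138607796590310589374526841352446378905974542483469805322951419487001774866816414236872244170077718280167748578848932220596966383278629727781112614660814770464908382269242221546608104458123702026777126374955461983709245067826428256635623605002180482440607750148640024820557959864302167122085490116635302891767501784501234205324174183269394059206523387726552570128046448175526116611028662471039984284556729639885775131783617587671807276830499093143777800933418075684591059172687665271808757129576783356574639983469702813240159618726815883370793479661560916892635178768087748341064566874502822546657095362178835932400015358023916505791374101260140353403469670017687161974333152463361037711411565113678130010367181324691395316885517275023762400730207755737197288726200942914192116424658280126898266166202813493447669124461840172457783237955120623632577689361456922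149691261627912860168341531357037516271067421090363881323394603389138316641073842251588020361454327048257085597541888281909905536200600393155514362908587734895222873201089776828454111836857342385886822034119249759905361007438726014602338742485000854915039525980169723623895068881071105895077920927288622006890185179080808225435448933177256775833283790357636380488848594965493548054342606882883912360211061723984233371963261694927596982270530263989838405734212296613135327850327221704052274754603381104953206830430029273507920101585770351650406887083890363678119143091186252235855405095991986952055211580298854812478323086961561418784650385926817201587168792240400494487042378592414447466420888377592039557144949322254515864020819019198615958630690947594447164419497040988513262736179454428349570078736701668921269851129015108042528134951182026710228134621119112662261329190817112117925287776089585795824333198070144302510630465736648856809233718680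105068699462618626236353922227330848428702558681669270303533118422344876288471720071359324241279251075636003558629356758657104759479154714811058212009860916460453861068822672479926542150231948623889058214065962347654850761844519333120597981404393333396798982642810358456541021673251318292016424569790578507712074276327813767075964002619036157949325886595688952118803575326394375933302403769830895114292022434616991777885562665082512627204962098795750578288632393590792603609695896259484080169451667829181590271438344838054960141655503131436380925250275656369721278684463687467594165173632926554401469938715332143160486301373155503500506916731517549573546688941570327818267048053907523650910995814825434776428838603035112507014565892966937565404104738454199035993641298978447274934551717517727424651320416059324619902875736149371355136163124167336824609775941084838330103435171781644090677334553427634064991850983797779937892489978347937791159305329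664792825753720771049664881255088130279291107529608541537662686613010372379206610010677888163172294602495618433603040835054798241590756197903568696780378715103440861948556212859347968603388661768344015997291707833907223192267734616655573485663027939205726488110407229878671091274265797428353324430615776323349888321312196469523000336312247166562722985355811004411225407609683504214593917550655488636096247078930483347127787741604862286450255546644681948630997624368521024397414225408260398029869678402332939020499688761901322095256036101351185192942508661518155063485653060904280699298697770479588450461398024071706080570321953196001740956019641502375542868019908290978759202595022269391189855502746531206512327369206366115105550551846462963474491330167691343292402114614504539278573780900118579777490859035616564805295045683489331142026050855113554220925672540912696024475075605946532587594718404887305097437902544621329350822301784967806614169641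175412878788424428697040217046945442897036158212128718398309939476056592464570552439489164634891046992741400224762220239638820298589915736687156858122130965379305121638106363303083889059420631928304254645106341520450748617691858643338085429595995701762832836781499580493200645376883613498236409712018051048064218219517504081451320233599885436595168930952035458154710335728866563509417510995744712725801515388134726969744200962687487453849948238807926953645220965813727423990683622844729697790033083673590346487272050230469309609724811486234933630847814544290624497185230244547374103689130710480868620688567171932063359786058012643829364973509998003690935339554668748142635692797612420402637087706712578915578238970159782475826363188937489183590820683224897715601464935554127164055968346050931091212919038702291567182639139525295647116105995276261624428299126094228071671247797929075340023668621221316863706049335637243422592883444888584804771114134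223967592044357713226981670281301833269581939909139822895660398972974514415745242383366928866996542175796497440534078622846485989808410189849014884213908276404178868801368444779174204654237014781780084734965378935700263566176900410685487123077512124885321910986506230866565722608973983326641397064264119582193286681275373128956263236337658558602196430315332025007047932571606716755712182563805485140927298904908787323069757356565145487963783970182970877942126378218624722279922633615282578355014301636283899864795149590660368456811255247551363772444284507295572863579551821865861887326729183083183334909571067171178425297815559757612838197595600517553373311299902105751496557465138608899373501452672086633615723166372630845643258435523111867234283641677465095301435915030400092322038725420087699447912952741808609975259400928856270454396768757489036420869831217776121900960926492943726630509523655235562285088191764851703441514854656021268053428792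128470876660375990375662196037039653354093236105641479675265736640084229872242259724287629585793477239656386375851066449065708200251335914943376658222381832788066448787872008805243440192549401083039107719849464795553801894933531375935423542499317670881692603171566544072274583826727850176837569510500700107992173306538276436752465872402821796435799266134384870272355317491190739618380739485482788197333262066610164828016652816107531566865573412343921520943366004495295597046851770460966922987458269114322896597963962037628018898327106033385435838650656246546169056881918593127539151711994485831349313043928106775983306113139257552528126392151283140437150958146827373778401950933092816821170729587222925155589123224404523095579274162985400553137126235449370397723445017135872830454295833655062780872197317124615916007367180556534736369897526384550060814780283228760836196812179246919617876257832674754525615517387241038067125885373981477140693157937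030218760889156476847639911576666384152945937760478756445188006354757927204141953890327744723152075396068445700985219870364494226627387629785485840777323171984399801583275543543637748219159300496769541680849141626513989874876694522493857004148048404180267079015692335412898514729350109934961400747382525759746556514935643366117987106850406544457211005031566212941147517233383885576723922271714694768977085300724710436813694460198246601742585366889508329113004471546845067940487469708795817046733062432056296763691370996955197231920388971826423569515455607852757720267371430858616920108067003037725236968630897744320110006063361765196096265785285493614928289280180279734703352795223308181692308120266290933582142713299798797257134122954126229554802435612016763392519093679213757092051987051108613204396731671256433489320048768294361377516736714260829111269311651003911919905696842296608330028236333937772064462743138431245373682725180822956150532824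805854672435671764366531546712937162847500701263266631070685278398852278786646466049741771573264342474030284926177830259653235879745169124372967612210884892359111951674826418453822298764606556364864223010397417054364096303824714619042603638384910716894247004502757308973643060651561571039530222614830588984046075006254140664630292601530285121280341807629906054033238526904557524640580443994098835965606695609048232639918108999854701289341958344286542167990840064114671801523508743891504742009658161372654995660538872851968029565076128514753009546437748636820982666949972526318494456419258741109442774206321569680234080194412594493962510519465579043565895694500947980521855247387815148950891408375879184237168585050385560487804595076387762184644164222503830560231154100791639860564363549996033531521169670255477604580861007824320336570431852123972735440561164137901982856471413668337916244597019364533910970101713103497302931041332868355987091512434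686063666242418898521915022683724899705989906705393967359480436091845694039518950292810659356660876198397827161360544124628460003930789033893384202877425053422401757882392562593726228122322951702281243582831783521996694663939528406378201730838339330558260521733742518548569466597274875628854261743187630010687986224516423758137326514900357587373188355942645873158519695565083855378992848526145545311547638538590993323808816344352678304272476435289929024997763289157900010169553199447683230409078637841738176120004882254160286362319366832280895417191856916312800606129798166574317067958378837237740710063201214480511837175782654441619438926090263885750229871920340368869882376783824776325254609857591004951047184001847961142556412212186194892585125350547406523557867250724805675074284957090599468432667091780821975375265836980372590221456213863471557263290450273176375276532969723894339148790296884114041595786123648964459961488176223595182961261691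656278089627006332977204677116896217729145041275397681426649025127693722881035007281529612342306627745557001621632845154458779503335736506164857571943411327618130307781784905653435369873135774636164245147671250117375668424812208874089651377154190191681608510118773194348724159010480428468530742209620160377510521812984908198030245523798560719394120159281723451988879194047643004621699483398094462791894784004714217062303907576817730466383664646814962607789343247803556672265697835601567780439220800831564146927977078492713741337106170616823647573515425406244593949485632090856771434776042533531942527821773220273572573662015056847566633482002797065239492472321484147550959261132569685985489143706782734100438909270646617306254224852932626154073745398436002383859035465649727615318655071979611891330570159150421157132740619844710130417606026574936866778267765006322110699825457163889102077627283331474968042310791026456951450585986426500177060680265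806548784474770768720388235373801319109178927105963119396096578110454976079944509172560881758227810314872389326765419125568198206541575888411510549239134100525891479781467174808498999055563460052383523391667936397115704258850246284402278028251166752542908395558359817247858632843416069045864904278365347900573400488072979390757735409387660713768914412630312206408343699678758251910604919279356314060687006819247237052075310859283774358425922782360934960853167850365221700172286512630373490773191433652069458941587227854712400256477268117138739661113990382966702440076011015335308167572415012259041059816623257651319552794261240000073325993898266660712876759738167883145420050360598584969332372820751861540198569561116774974059412176731352214194012921519731427733425933625697559933749533069770908417353617878241342042663099578056050374727677631745582651823896948705224368866990940430123551072075231401583480676918163379534518514697931317823256270858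220942180496920274301484445233660252267472022254240675372682698771596462960086041846189170737851168166402395197835179776389457811818051881270074223715312228900177393329817535987590219290744324107700463862739588687385954108824854872662883604709483090330618519847028879728576796663606839034492772098516835363692693505160933502133528349747722657941303465735403356552183314997570745395299843897407946043771512894781662616290405350939289776274373171800609304040140435302846952340703111679278761332955806924906305203957928394121360164450288196060932565885218704095658060666920400790780597368895100018365229628422617444612721376941039561532714307878600798164773762127803936742253557687253246455916296236836362291978539021720814450807475376026457736621584566018099841569820283503476427481114195465218761266370093924600984155200966603120256639162179585142052310716605121997171747817325470109393854815947650473161639389697055929533706473291050775916116193777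716818614066177952803837666552196456653250781516126037904789378175186020370438323139293250462070460388897339836373865924075515453792172512037593349117594625109166303211988307946805917858485855342173350313981170839228659898940453771894730489275447193530547554861489281815983504816708080851061975627739280219464962109173327453327031752934614685645343105825525827207513849315536758960272653051838100447434978006677257805111268071317420279906848045919327743666926419876374834327984047821146633832318304304181587448623791161032734781304586075996450116798634045121217353551606985499898332500296920119362382672313954127579614456360163709313525157997930901107044725434794030158114149567781664550679821494703377955124379284336530585245009729711066969967794694580413654691887390440145808519090270190274475455030173725844777267394476853367693245428181268551216222932299872339899261074090996054970398374254304296403757320335676751235069242684230308920374696758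773945088551055662072771976535649664137612187567651081188877824841017472608521577844227397880606367893450076606640524632417404338336860430629153128931456400361301649023165843770462795528000767552239887726437061637810367811475336608549123514543717825832044839728695256526104966341601246205166692639292983324251216246437319452063525584443640408947719700952792848003213018524832422912059935500466860155182592417521935803559593351098352517302510414854657349957679945997094755664030275835024314451736174536736534613637656349054375815400680901833552156275372721869144974325406505381892202732018449434328271587902499722845318977086837383752461850744753189221917028218725953027990406538821444861951841908101838492843077044183782941688407569292208495043974002155019670508493543122197854067436964264265325029721832927853126200309248931293602507353117542036505745343161726698603933443089686682554028752338386694058604589691699134451913925304509354235767250528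556897026302349688739687397933991829151944498098040631876091198448613433162970299004647423843763369831326948406734656682111697627138069199485009489950653964979675190374788395139823595810616259830295038920793817288134599103413848525134249159725363231716968736409096040551367617654008309161404756059254268682569080503789277271246352367291739081625402894161627833275184171190624973536119446908538527104668603536253256074184404678959186978407555147945707288832422362634493824766765225193261513435091307282792989514500209801168345568833499155357290943946558769010301070969775945774992163247884981125941362112579964404469996751760777468791575073581390394719464958723967064688108339146336300040205884294467372254561538740995504853442777035398948023943752171050337761587234284210908626088676410660414974627612351875228293562164940950041508997924083217351346762318012071489563234233664154661915682206417699222711976174407267194871222598617041207870118431078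7555387478356618957494483010165295672094164580578260906362370712345629208942623402345262496223165270027319559515753181682474689823283637872327779115768058830183575887795928274903610955292000378524996531039853466744174423161255622952169403713855021901742873447792002139193461256322663807345493211220106828788021596525660914931354643499786762374309375313132197447671385078748639504576406791721399966978585582305242466654255553208324059307440066465121076486359964559605656640371626497313841637622042584694733099806308826793351495076621002005166107428865689255936)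

noncomputable def rc16 : Nat := (nat_lit 23735029451579015870730847837946401555517596750627177881114711559800004823275089821039149740501407433996841125977669354368707021004757857407360744105745198306297771888093365478962975891576844273718028402642745997160906277026081627631929919872802802880875964327041329218596786269860501518995545380003427139437264561728206744681913485658596798524502352685739248142484439733942911747546345939458412947048022473164499978132229958491457738252866035683932816145022950770408421641314132013474213690257187395232866832601970292145279653355084914678996794930045412021562612540183099063886386717617644878034401950411049129837433150582993828044663762109007744158317525851167102679401149465696405627882645613269565882726541382117075137881035022648922191675417298361884481342877479732906830133760553543524669373827281287748429638178931142354579610128357500553295508319588640305755056339415481675802042752354284562830374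616846649093967327918742353744439539423202587591885232669561689117941398028586121977276969187701439151800366350655670117722058240978015791172979730083226751793641545361023061267823981622087727271425691292780796012724208402692188221393403092639254017825268077694714607031416662692750687347474926291197565304284968906929226351008916683393005182898114271556327019217357204075667867258613837629908858247914601755593040146606488225807113904972163912596333858578448635445944093733702853597659610027595750604464714703257329553645134625098235541159642634498104009844019632688305434906637877851338952402238431575128220279218945933591123576668009144577504948704501630329897731441712744851173290970089936230383922452331531914978963425949171106181902791261967567343415675899025354056718521233392288172866590946344266785175855441901855635752021947375841701800827600313639378384719186804288552401655696757281304943711008495568695156167830591970845728429086542312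500669186705731916464346915208689620534405053010847405256833178487986064302189021744544411559906020121238283508998083043566316464716335336836719707116640270014679996894645058470681532607820775111484109310365103617077938189034463210752086491105779771961308913542177239436552861793684170593812967420457833318715827279941174091252469409776983036871410645092171982532983598006370196670115849471078599359441916323796351014115416208413493861837242508612740069338450400454361850135819324584583122328600736399452719710036843251887280417717680399771489646123261830401010886618640882338001051482062114176316206530791906993900148036357503077361933097786324319970793770856980951906569267962840976398277837083150058127566696020522052983734974564663336315334956912621560057032439039313799926902416809201431768256249066369929778320656810215319014620638203463571996202191513818145668413500399044718996460770050242210025503570093456879900324730893875703404549544218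984809443999412536890127967155131688036960676901188116338050662290809173823509813339008976033498646386589517674411025599349948419760247719130870169489339319030968006365162721292235185102212991010228541271228783468740248712162420991064226073264258894476291650421344698187114290239317450369221045334422278692991161999284292343719116276610054736440947823828526794083638804103845296367935824142252620768321606845110571020193356703862044584031849890013384091783687945325183300610150862328362462446673368984561252397616205732051512797277558627220080012677442070677661348407421009573069247953946456212605063471116373085014716473651743007296483423625310742215290365828413457553269807436150378937103965246032565536016028945254129254286062148936963766663663251734038724854701487124234244206817157583500778113641276916888512716685572442438307913766691840336413886017017635986836995748736338860108105768578647553930160901632655591986817170607603825932679499554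960102413633441009024145088467624943998546348379705603782039636734405260205952594160199604015495137120714607192401856188115639997328840931826813381085281373232340345026185830490332224387899427050100561573526259259133845980290072779428792827219091161541768581372605638554772234821088853892191168537415802191324431982082106183842844623365719103039449068736259624814957435749237496679588374003092828906505091245162720307943999550622123180476086893324239996914439679844112280398393942753068809385870870210231024282779503144160382843906846844512200888456886512983753014963520247224461737293532502175828045823787219570299004008376813841470421985743931755819768848326136009549432860727897701957838594944160719452294730157896097121738441684020753058979666709745192781247203206159221415101892155427532617412574309995899005504913454966488320696722229282074447539710190610522842804028558339027796413537813126653431086455433800081052317299804331903217607017543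454644691918195494225919557390606320165963814432618473586758945763578177346075626544595773626700009031856390053837475892963420455242088892551871828851793062586931100942621130956877158815989960640888696363312951697395281493919935262359157624162995371125721279123568752718067790924390634953132109716050615785402332680492197402265418457306999944985576299311837864556369070291014662631007298822206258285642608075199986138188656012949869943178159016624319793439869029608207526901544505424451064888999170264348140959910089430913381499253141975804112933522305071630264548928885930800299570577629294939418582881898077287643061141981861388319773605330862839824372310403983667790117387176637476982208618082266621734490339187462173164100371078996516905710104897460185891621919428134611443762172351344793784395937666093382536928652880462513157654534312222798035963281685649564684301605588923609613592419079919037307668700849347688774997432827048975460190877209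538586523001149949249665302140247185224842269687005170023640141683654562569206304462508059337540978840146834154441747622289103708065713854371484213550437659331920472742941403892598809583445069802756209598805158343155505063166407046876644902587808235331739081918361182767666213836972634008874475177163690103447348236095434933890176371994550136711028605598485279143998424609015337658745579525366657834082967198485994205493526305686210785868892158666200577542950815417768418585263290919065086504503531368228869013062713862416639743410262343039290949934693659717996402351754698427573926984995461612406101618021253549147273497599198652953310771697088566479548625127940740539108879877719743004433971376315068012967054299509596301365929298982978916227747736949822872401757115853862376153120799765086232036980373894429395094309288854621765512323805889669558065069468176860651042653580322155307342962254065224625751901990710968929773964663775001640476953014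492195482522298947219102226757883620962600842482106742236247007146270502348773404838780946742572475008746207218727037659731836329862345749722970171463234854891616316388575541731805535291251378663373297282159447522491475049807358836297030277857125904560804202007384783281679622277663353899211845588004137132726547118159239406817632476317311869894966262124841413107381179406805257430445002357656429829248152090220761636557406232607509045630566524583640261332358996874852304274652151900718305007511502476756165467320550287101558601598541180724664236625883807655589063448530088051185194365330282293991093699722533991180201701744171810624524014164171181711217423372189234782518207243108614836700326204847738102573568165422925344620737982061693191086014505431321268619134433797079868425510085082150711666484741095166932304979061864431419343400224932403966282352456698775011019799103570195786880641839872639548861562706778966672955133823003400788291302740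817642149171411417668127931274454969799688286422353327037510561491191384323829175568267361529033977717750462013540719384983777351983619621963806607339739933442166271103232136079956648428799447421184988932846717458099748433095223991307311366816569887351638758121447732447826587899858761615688526620212547677140356783846245127702815724104174630331633431401516478987084464255486302195738918550373840311185078312855112939253346438836116657831323289401606484386296997668418487837700004725762951330731459214232900228329658908862570814342026685576169632370337136716207644447186702801868746373225190957360741927396120044210508815384601811186321302712991710108367399487950412737048204284787642133652590350974903251809638885124436035677800853761800510644967232801958948243770967429772552457329747917605019802223231403901483485009466107363011748730478111539135665158017612830510582045774870308895061460428854065982123480012312159997831742247181192109987527093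879346031981680892639458233939543267507971725280172224134862886602429485464368060164677233440642538563921111330393055978661566057300728619959759037796347805051733617310627266983109703177658406732912528463043025942747492229710732877326554228957370271268575327899086042121155208454691126954890386914239477345090198833503029119808499750712061253590083841886586207413908515793745881050278042540265071572776986650201497669450665604479961672313025741274131982915656808688087268206501099571954401675459013816760445159175484794690069478072525156431633959798278707228386475720377686255511639654340054445333914958241101406250132694405368986335088338617266961186170586067654977545729758058989487519861335682476008823760769775331853573058902681002443775949407797272015025062618793029011912805815463084400098935507928375713750892381079972505650590167842205963261550287253080729170345018517461616746020533225134098075395011714669519610291088645829287285806556682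028005084993813854944933610746074707568118338946564114904261882537691261319025696590996343319025911463534392382210245115688184958666135124337142456406220630774346798764214092265216566987593502585796457232027593553055381474714256940312586974465097486286192531317367842807715974323574071078385426135836759847293168739155705705442662961694005706396090117853148439369908002010262628033760200652303424918317178765281187843121522621372796233384342810533149432914552292583830360363685392830178307781536321979132352005108773095863679290717276560135307988503560699027467021304994769820973600722820521771477727535696421970077411506264040748361155736680056101314236329675569255573374030174457075880595972093616889436020038523900444990238443296255270278769427798583400638127331193900254088581914275911842106318016741243436222824079975651385454563335395309476988483930212304501546134109201529247664201207047953750255269893168267740209685579036889604527593128280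058537950428284157733610258240686014688594604900336449571515501916042593798103443021856354774586298066507597343482199607041655906319469670293364340168357447545324853767722720255322146737285584297576314653297743517700288086029778527638370266900791422902653836517930063459035976011210780808304167914031945818742594877007225187938958619769893443630360581354038399763749842301382124954809493672011692604919271015237027902867600641597443140895616026140650473764741983941107786008016914502715414214868132358041893264668908033411110722124931578704578882525897950030601005406680001371170182677255420345441423909881223167628123282407576370859496074296146660814310613368176853635007007467984229257131121945608965364717631623836188775017876503508603717725237288549278056595036794526151507821697026027387941636817703000147384329693710350264619239225208061715230210771672748139532720385955646630403996519892229670002060501592875849093640171376627863885772395378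977953205332526400338878077716440089418488082699810438086153060822319351816097523849000060638925779658474786464410784881490616554093841560096213082576287019950952617671046949941057763606284007053579785718100533930082800909131751238474355952195427263035496234141628684162902134028446440908242839035631550755697236266278678291698882966661199023293277718992871898499531274588315136245775928312328858631586174594065412356470719062754685354013252517642878740708344975551667535565531407682468869454783884334243248079046123976502565949209793084187895153320117481552948360807338457124016277675215806399158989535206877922897757393139216896688675710512474196886326443286371462244232050817641715290010780574553390474777261890315067374257170138842070285308012500397466501810723084314012737789850771477729058891789819707903780901503752542642095138499250878464454393556134600143610536226790896581233842510309625743043846913188734430159960537306609642877533074871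138489052279544909043506969456879665539181576833809402377213609634970955502063151190818190424083491428249831512786867981161610101960366890588643946477783714642356389444782757604067196707297575872781476612497284218475128735644361235803960989659046947781541456891922959453503664772726218044143206113684908937604759723866009352871837544662626968174745768174183733135896295397371475328219900725974119365134436430704743739386486761503273355780094584798310660742412730503954076786614874710261125735621041861378822954762008105850994741102513778764187683294956298973302683969945018402137367295834967574981255642078930757868670766824000135165787983005000508833106093336515418196196503318795179840221745882294255169367701853558427860759462455668835371428874257086464890150768219408853348014690133442120564119683044732279855670916065595246563503591010045247819588955922457790631091978685178081662085816823088630375787233742553979855439154995106476663523768869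935690723743736885445182648793426836025827515501393163067190481471660724714407828647303468965704874241596501046086355156880508060100730603747655742175388265108111751087702766028690217345901049299721172395086474574036797095618862528460745713712631066589027018751248545880033026934991981984557373677306857365864384999298010249048680575623049650519612556081088306401075077635814341020775438776611779419920644732661472418866017693415740215785102684844339857087012817289641807561129290312892876081418965894136165960768438633803435515791408030200127669190051486832401149712135861389548222663969121233470363058254881704799947212716721310937195891740820865616216886047545577750673441497198745415852347312548230190847253667723243149283675082176263204522186811847803486205260871944922271935487477893695532644417113612321934823117294575240867077296530637297716570446411379399520076537438897723925857424518912021651384249983876273304989897714382884567347631280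757658382656555502465179608741170970820597990535514560496404812317906593395914656402501761132577736936348123240051103170790263222489141318577486435728615707013794436765929610899636913871089799666616866481666922039588825378755062847805026796310502016352853065879779003697791445734465406837161054316455280758465257733294633695086601597213407277687673975467888655414741416988798900605951700227967555291754460052395312212848377439889270029621450533516040833079168647840939447625405382199856876657515150791855944230963737673570963833614999179045115903087029583082973665712607471041184825173533916197601170146720560719681774911675387900741848494242658063586325669061086320117346093795682820186513005905481993601883521435350250834681669932630924878535493761411638951509258302132767854042402941754925666641896884256207547892948598313386254830799250409411541969538961410604094324299588638380652902093403926423012729181649949850287931785001561086652476647049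308745029248977366876685111812375589146781196444769705148332834221564478615129838464481160042508478440139500651791005828542254903967128192984867767129709919535425765491034371033994908589448256460689559498616535493992739952689338530717825989552466394041456119574374875162222091191892492542700608523167405936311007705348499394847262112778805061701720544936189770704717788857619981256668654033357279436058227509623319019177768127229356454442109903177363423524763302010156544112395387065926075095392909030490192700258589632093808500444793385299622687247880809598912172156305189285392090060900049835344998026468412848657611471289942475551300114242358551308499351796290811864866013500593754058916701815181289767875895344843809855446161231629991103851990972339388284485188881490240617559930251658233080155044972561560151440657918711673533996575804764793130976101510039745265130575721014209355431311512365964002996731611786724479248380717405059377454333792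846809297333934258424610113487549952394754435420440591747010038526889925641869598076955491706955272964561939448531095996013827536104557764520452886068313356174024432280169694345288756658271432237683606714714902383139486603883918782443466084457847250737701608286451259260674221716812495956507310353775102140117182350627073748346294628778092037523595193954702033936856070533834473407255941882568931391447497042395296822356014549974126236988216957880375566714966421875300870668023173898786541353227892164780307631872659887493168835900608393108282071665112165224855343941008624383899353464762082416070233926394408350850507657195625486653976797129685224940439173896712646762681581717140773064454917702050176100594508392331677194927494890611640186204414313540816486543355161276687884157755299187106676009108745406786415954356036840337982800007860910664763261134495575781158325461582200750718260628629321318026729012541226865484531415798767874987108051948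731503952039852607830362041356777323504995650641740273357616875941897484698539709604569699738912104808364739126023510225809986765244120226213728681204764855708763324756599046108615869851133774780736544153070295969606289717605785665300655886216567131648416500220987776545005053088911882748473062868029332864729990969702503056181222000990815937441177267537236935465691335101701578561270585437060911795720702586722767921467104568536231341212793938874702206799077295314741888347222316669895072229973228592177218965001041763199190400537077431260041981299271213706934574640276111626757956735681233775964746384008008374379775978580294757342371654778869407803964581691197421356709729789157278036818307101525811294362457038342200657695021784286042988841159423543527619761304620031241376255159151244999728329597442365656815424619514942749390896502431177564255976643287714541515774090777338978616321156622002273228199355398464485414993547684772084746264351595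4448408781101869659801838332739153464300320565863295931409266148825479716474872653392648216662389628053140028658686560964271263299126218084341113720910018104849802938543872195601463123188691942964255824096831372518369270566643147849000553043633087693889472505023612381274345896201173434033868833553383208452908019933257315836812557645375040985245506139295510732976697813651121606397699345809022825715740304302985156373536288320693680869140605346228752586636071164248011958302364311217050234180827647469879906996925657256178620276555786279479830682135395565568)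

noncomputable def rc17 : Nat := (nat_lit 23796766785095446575457436686600310957479218353016124355925111146064429401205571214579622610613976768852977463062895901890758731966731258266130673933198842524365716756706279143415588600723669991725148905625148073311352538122569180405527519909083261345072494636975852762664872551195657699281771888589461800694479405273530852702645360538925198932082366160619495834357121221124336645762978677594107424287708034030466350383414568574544293222298438199877322673975139500419340909722407084245284774598601156926747582429272933131031998158541997485758294819964223560491879802152695583637932819315753345255605260313060296982547273548289096102684747293897107893202830213865316577966385454866219102009439486941007539142685370982431043204425686152943141272834544952689337842227025177200018808134209856568673800820711195794765056973812575953245284574633058992121952157519408984765299784744468312313142576048305153807056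387316000328180374907121846332016329633302834883370391059057137461724613533383097085355274452649377951477058804698114574519291148438080670500884814439307933624921791200328447297046002773443364743465348838211874257224501062842706066145070196379909412393235025178114040294580406971198406210969956789850214497586766054627905618463000907337712042314731132115258044953205542432838724617309668192475855503700126516962275540995831581612989151774535520072712674603554032986961775776741311835089513159644198161952730965666743054695798125177871238565190561800617797208059057505164148242527697967563012047212988641673096011835679650900017075200599718102786961779664710058893303648156112285282292276329535843378065474491300981071167729347247431177107764161572409734557233115152265893638753520663684449182961600420455915084067671958298029470831831204005963738378583150520200859846584651735359809836062745586124498898249980650571141748562188649550403489881257934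031311792351151284127796240408241575360551892310273458676855595411436244704621059010056243706411722438291802734904569147142259989361632953254966879622717892673030761568864201471506722499624010837843674544565621301599039054738737033840368734743153899179328801674777544782899625003607419009464603284153787224866066320368421113241491546908833619038937859457054629273557414551371700384166239176137813600004339766038135478168065223522540080877613702021900243891068804163626128071413165708573039232699995735781264316127513966916050472571459125740137681574297734059239174261483524129458529767033585400218768963587816669929281490595551737302461883286472841934401279738856501563809255980212288958381136887924332825168666623725965132768429988635033074754443783973097867166162920415957115246606904870301670307462943924703950742649255707386441298239487289347057337873551267809925614902992664104024835651318462183038977486533988461004755197408903459720907004354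583943563093135787609650884465958069011209235768948940383798344893899756942923682217457510646559374970411991970477143869562312803292904770839996603578431476375928840151237766844713634581213527504376015176622594062240078263223160087314840366653769827813723168380583671460544562839448053607220678979620383600828233015999158450335771215585839781834835654011333517910173211331674227280041040337692804584517020891091896036128394745318655045480781541569801207889095471954995209619567458460667625001664357588787055349439652672480643116235473926340089554640570238668413804627488793523506820888087770632776591916120482718350312772585847430908929390880240266486327885847073888591166316317055993156817153341491554070123538744409980261296134245401525927203889440541568652058141248338215619070385072015673938015470274812619324111891656312274149391081095084449543036397572963413771708249477014202542103703896945529935118904517545878648175896040599992765998703770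520938999260545759895861327927047314732874901210723497760094147497632271432300645897701772962089982849529920741877750857473912396716962013431226217712593684109171271992582205928725098781855742632202537502327622834608227551991121305976014645719512847291558773857329738667623511554594807278952820830480453146386917272432564013991962873504592842496473556763961015627470303256580307095095683451055022331067005211702203348322478161436037280563645100508333865575916065108093777417557911619592143184791545783073248631043213532767981213958528443179546990314199574475854658067489696448153616430114088102973953663157245309072426887552568510237086863649871794463236913158350636115640197587099452509099469222291559754402083669965108385622813434542467321958231453097219031980566511537899321863350398836884071537432067434019911159305016587748409754759336804964329765117742333052250573620138678421088448039435270954138291656242046786840408330369085449188014271128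689751580189990592935916228975182434146324663966904493208082679712349873335580057045854053094444139166918547933338116120890954918373487872413366141582597258808374845491370958481328357786196089946104275758945003246014829744184599129817362359071818648507217270178314873454056911158491503384286469218091370458158792411401678318010245014512776002535772991491596393647800373691292371367062322601661866777493110859643450294174560791003545057448338271749236204602499049351738954325189469883316546379451911977783718863084810934824181183766248653409974096862699894392035551897089741542449810887137687921996954142059269335149478621758187444393873652795949380071718090998974246520315019122592317132410722740670025428023949923988643727346664190826393511312206866854524204204072351384219292070110675829284057424248844109567136831051016123915270258814964028421723565393430509089386951505739346489176072454080996747462334151197950324455062879382456278042212713795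344714720313706184320941499869954099622389773857998749397791189360593667412270137690012326142692527488850278969798476560563946559004013256917321458793812301723892474760864965518452574373290535578504124617349056749307288592513828990379314140715038577018651117532514097695160678065573521426964571143084941476341378013767879644875318811153859085331692752987669717642149290576921415727274199111777205817331272885752967319607782238616125185184816541898580467088016651349172247374195560934570735681747442338978432003481459089609368697607343429417260898421810032786174481426705750925477063100555249043763061928371212269896623694518952569464093457498316179673949077170256404711593571463904918372220743094437839837077213399306622153086035597027132229465269101704949696129486984565753530719078732622414046623736996876474491682255801000430011198973154820565200513619926798204790006585053110266174117894823918040164562747294448302081537002722453562987458530003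704536225241319781591705283639594004777394839166490464947882246395336222355097184381586692450836372549146932183213751134046963402100859829939275079780213352463918976629412015508485512950661371330958871342529917370914416178058985518860242566551118474605710612511573729064266776940884102440597937184007894556657639292516500401261413550822924042459535578243251385972830219014605172871482821297278365916539666483335584135693572597720549557909426092991578498064858280638298342692992501883058371317900189736704583749857732116341996848765823298699495362779783495595455876239839358288730383381806064926163459558896446208119084924708884698020623645021082759346131281373127783980310816281258510090822440691722628141701409552561987477415542664615310904042278684401412399615807974918211568918408771163909073380302604213717518295396259706798187296750714287303655495999483664206512086088345232267417560989428207790099002278362356310802737447506200798688047838713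891617555301598564312396742760603227350321931425306151653150672838576960599881796186727466324769781803491666171842642241184491894759533434505962814181099367203924939769189104762602874965013475858606697585309702312189488067634281604270308216991040912340766224373150143839826215774761867832246435072715715178717569799300128289485789190306147840763569699422526719147098289230674271670397066255754275367903618381284201969479921299048010005526308498790673147383235767588432437350254660724997065147980704309167245451021105880951846654369543482263954037044815933954075167747101507363969255299833943162250131846776042336313717333114003120792618018831503314039504418486397930295360342420161287232894117151628514225287652599369690735674797373549464604095378199835228541731612362051587866784217136981948724728400593658986086872080250264729199058557782406514971694498569945111838506224687913878126280487195998846961353713986112229743719971438388502236789019118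097142851309573965231375051617840598718657605227223784118552642092914231687204240645996192719215064262671038376585267452088036433181767294242042913280118923856293479412713738893615122157609691341166912647021593828716328420299459099110410435652085916730189564654880340291344938886618517640470441332370605333969310957726108996188782089416294806338460523413551952534867348050347721053285528442680185620465223515051444709084224036562875926086189085517046940034937959173014703873525826938790688575404958673934975381570631695691014660419622418923066781008502914379244826961271244220817024025341873684208672311638233765413545290054722495143320066144252726610252968027875003688793939948522499320973769244278503237150326851069515588351009014790923290946993448714727446608404667889386948046999451402465059111450039238299064982585505992561066603278852064150988915212949962896102129750901223298795831941089602936791295490752027494358358972665603458570538770641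736354341556080254497571146992082328303467038736412698262750923835627725665905073690441719190774859848912551210680953495353306440827035519006900287397732171843434239956119169041421396707691949283594020499726665128266019969354262591346130062945569632133686029029382019430261542421298048488501276958237295593162312834692231043357680080131430346763053522526337139082214488948940370530786992476857623899076589978756477727148624227374377664138094984854253180994153248926407903053355286639684094957528609609438352832792506973849707267055559654373828395496703622186342898327000744948288068016664304284005690757546613025283308663802729736212275992623305261966966975695769887154811315846043324131859336610519558706295789770561602796099648299758958773889821009616851654649444294496416146559242822690638844370375754387552712474265720838222426292278684015392043840204229404419729051048374198397791884502377213768089601216712980767101580360435723088011810671649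494074682492623718034692171610204906613790070088011717044973117148710306841119795547102742744042853573655154245140984694423690396003934911917801791314413418264777030215953137212528771019296061574334135831753753799970226656907700391107008554644530173031490313166826755548584775255364777089642471661710272105104487273886985627287456353466174247459664456675132934454907551726365548415121022905973909830051019550075564417466313426104120961081197722810230738009015267053628469698150556122396926795229622029803819028633633627833697206335165536689828088668170982135699358266788702901829287939893724244622921174143749795911983225190470299804087191047682090054160112640909263401228679025279671945764296153307785091910402232649920454274903428098758631564912004273431236132008314003304796796013617909264956103453131048359057115433469083372778159383455945702608397457190162366385557400167896220842100962727371099651095127524589592123747283150812220666726037155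662409838512099244575418710381478414172607935128570634364791635518213514924680165904724334518439061915870676242387530803794722760998225996546430690260360215123507525787264359434075785748347645481894042256187830556635954262521132712921981628620334707023033090144974936561361022125858077161519791412422421581388340059533558784119913944368676238156204474805678596427986814097561261941498159291325648996835284524476256002561142814729403200150516393533383747200660050962394118058167360197910180480218173651098075386872573276488717698197866721439935178350367677060157312551333279238377873907402004525668546176800814802628737851125850440734645677725147330350895286230704047036920275695351899035272555069076765597400288513306182287790953780165260538452792663135482071792722456230738162026826094121281334925464588254882080142708125891955097596264675025309949498881377326384428458057510551248840762104487667202136215861003469880150565149454659713482221688475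027826535827719217649424477990920897554562186276546275578561458150144898808755894355956814130802442968490234768679171494003488870037484814746983218551008496898447302635464135211744517670652805271991795051951799225628375865334879964316984675206758101993857805360208139907278344563850251547733876674260400043592685952452136990927525498045974340251745768238523830371952062657980486676397969668584233999395798486892521459640700248532076710466929975159760596151699407788536182242763526816533112966310458869997638209117106235836048130989025190866081729812141772906977760845301051817336060347422027709758427505991783173691781930464953606733525689067905049906697605658101506247898490135105613256663590793503162505750724699754810802407243896089594051348054728420499485279901567754773060640347045479377464819174020536366033230227025496355122148993341674113145999225528730061158048982351795259960889895227236606522677275129848222574221271278255377964780747903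717326459396550394700058755196497324787171661953114918914454232640637620946523726106117462574237580645485246024671605214951832421442909645521025204511103850033167137199978621405936349056827860481900243757666696638861964252599043135392960356394862217347717588161025284912325106253916610580042747638993368872959189781816405414097144005548030163800102685729334890017704531497793375909862753992600369513394279536154277984434642167183400245163984691482350784604202611534161557885135537059839776652382467267834286817943066627343643421927167691839862269113575002341745373348756411963688999050576104465194478827140548802736996718827305007778969406356735853268408318128229441934794655048228831627743208648181604385315807009494656691189281304826060684153411180716326970308271348260724771765516508457449422431992793335743490576328230656357920606981436854785760120226979762260659576927075347915370424724543927779633295295023594125933283807767082110661164241301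319862888025947856217285804846165804794290769950437831593576347025001832656683908863538256844471596053530851068554940799892245468757723292153621202753857168689904117437436140153280161960238606524062574908581449474235423294978336918461423241219756893321883689168099085792455946126637475063710272393461518586524546440117723610455634422102886884236427325543902762000395596738664656377512929267350220690024675201063626785340849241890965759291075961082349700430040139592251391652412324551768939161584242028806006934188470599509423899325527328759698795824772990773585808753762266702119845227936596766575519126545209095205136035468850572098501304104264230265048889924109289798304871302707227660067367651059082151825988508424712440230575082694639739380922203039809341499135520338322265413534474956110532275809336721292609825935325176246082539110713739881239042996875198016298629066742153700286777142420950544248750910089711762422752924081282544721438463794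110203456791588575135618242708877430372086097954241907726140831822706824770185674105631178290754519049603478095692551797195286933463870122141866722254535624125242274186723434269648322133531427358184585321065663246395267349058489821611530991208689191285114934147913771759706860908779804770612419082673297230743562697776114407145567878691554447757428934830779532064385853474097033321315640942609307966218337419526246302496319818845993278065432891339769439167150427316653755263803753947707621138532721961413600431932571697795715395271333572053609956306754940446038053893494544262792053757936246453220521218182566078430931697907784201884327694112546442280722731629851250078541379876808643681341887012380143404184681621653517489774322271174256037458633918743103809155097902636699612428119576313058672897316288827094005887311190316908673071149499625685866522146549586213437336344897313929253216707134096558219432776969184624809924464930061615948253732287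751103526554685761829962676471738138901415986271396924173943887624704457969376538881841213352001783202403040000288764935391814185283516005356882023705383361969620934860528564213583273861697662121783697177913122847306448504922722331013905391449073487330556294683083386585217066586961259274419071969825288679794163637010391554413216766167351770010169272313002065823462935770813808231983546128429107380748306663328567846696738578709636118645186759977208681882389104988046516146775663763979022707093927004930351046366150755498531056892243060395680585017573166171059127661109049862923111832716363965102621367881934855214598898480164640274587221468466744592070713865901592327920487979271970293348783072894777731838703428345208214293547355531575939568566236104986301119518935466743536710879104479565294875757883390635150328581050281257537964890129869697513508317987557357454285854821118806590310933971068800934417300300830434915423764189352430739223395155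539991615075568181902494510263372177505434849387202404232164813382919071145197274531676568354845075523138416838621872462558046712796056112723255888952886759361070988955463641033323343029789172322032964933919206533648401326250407810163119128837993250889101052395447507169548375155119833207400829768986872577182218789937633120161619781008924279518827221846898642001635326498767036797993305949382115956542269332189968799114970810648030832367802244994052592279399457029289043591754045478554452036237255058776475884701647119681508090671802088474348644684044494691691175587293812657655245518491230926559877422531295147705913557545101890390108978602105604950688996236625800945544842948238148998948541910167537139922887163890011546429299877331393445022979460083523042972153340893522059542968666767186242653854119091858498275289415877448532459929793207951045777494675337595445400066621312441007567384381285092620004916163442073824721373360024044257235764284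4166507498497131908634356726459424030123224683454126918923076222301604611439796488711617220924993164608851163744207443849616739018062856907800208318716907417527195402617133499809700981093541684612811709075706135285232611654669964764895590270758217629931780627857501258204435403904552208004637808834328004953951979840923492668648713233633035216562262202850813811994459505682968087268884566261650075699877467248043429023726225311736058909067304678193682330151893784964044049344286300283053200073498046293917214828600474039447717601102221403034255432953106530304)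

noncomputable def rc18 : Nat := (nat_lit 23858171660249653929563230348001738570891642407393377962080446119759379647178301044380443090498220130605587298143687387999859095142466821142220612863773203322919829708142720063375695335102639628563803151575842695716459132957822361886015483624101417645619569921125954288471393049483358718777065713816702800065220042896346736433611742872523198761660028314303131315095936799975935064211869377661283235846194741178436524419509139399928420308573570531899418950857361615584797646604946749670278635174140932552995571509916305244916845820073484427681975634954323577979673929115423191551394705463294712797860645076555279082879022193913905386046031382730848849320852775906678287960544794906758134919847200549962986319112390054980633847933108600084774140737812780060300730587537339026151917350360550596684604657362694133592219795081158263403376262595359294987332763549537507005312484281092996304369276706216923443997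405251032667464705799259395367723833295089665578424211890028239510751621696177328648145339258438940928540201719943200472161116663109724748776775236203524943788055568150455862613762842978472771808482608248956953186305932554991200910040870624951983848270817676722904279876339844419332870137021159784520410835956494358375907261472983405035952765726092162728853815910537354747911925548754010117772795363016645053904489517201271254183616940275597366273950066836952699860363044700761333446433535173547449227359563071928255937903872700811337674678751150434692746486319538808429491727255392612522446595247042899331027829323881703725721809357849188140013852436246767400194322880849978849527405928623392467872799164672927592650232828344400686893901574622934500639784602995373140642307022408331761200220006981027750051978955852305086810536381296386878454210585489453655885958528927803463777419483446632809150854947174063048916010655458381949018522233773958149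696633905357368812546177485001352145708736437686406403640490055766609021963812040025626989762689585996584363007143477933916879598168483822134274756438988950524346828306505208727108532094189128886517779251687740083305975380758741492654507098178076606027603904265435734227768465464856281021094245895702940277582924418412634226435539115281397006514403611775769178196209729226103353044498271797294996201386049097797026879507805894954793933963206744597733432769796706677592838709298791353243526644099719257672694732224654774794949914735015915130530417429446590762419348633815028501419167509787766349228481770263151766817902625934518078270029015508658392567547689781437596229136500815394893194853296137796471958422215862357520927339648064566614929360210655848801678727394482898143213162198449870438843692812844235079803020713312378359823722308081877333432761293023766894124563771558128384814293322423126031224465715035609308013123807194393078379251479917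384318137246424818934710370272309733596752815237720654812142989063773949541610962066890496517861857414878382638719194240067021290679839243720951764060907673144828683190829926842433581040717752773264767271848968124451879799292327756296892245035587838508375040925894486529974942519427357012753740631456357779735939509853081586042488948244273947112778136555833636013633051483453961517361262204156389440530017946223136936663807550995945061232322433300450078267331146878253191158120010755624684043242472921714905892117224767597200470894852503207841405551923729528604224355100931443144402773176922536439314719020607831594213921404891493273798159896978873151755471757212124519174670734423171445956979550389166766796302774134214424064648380480096146137116991540143926527104077065373001773900948557196180722581627775875276612849910309542376690050786915249942532186946086291991620949848721618693504444753712121130024423740498982969484394582524890522982826393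700335619906698002131818853693396221591211373467028152257671330707604519066658877406916143554317256339528585564162006480956576553970853114461340587864966586964848426146668955601773477114350519942274821357221510584886808625693376574635089466020977131948606302681949664175761092494795877059679878725928520989487465466454381031423555197135879012027504903856700732961980113834733381013267280298531316947037170313734991147575926933810912431281847598177705139145268776290059250658608052806891003735762960096214259020841078236048229301988335541258695773854276277406027074152016602911877087579676711886869947608642927974138817862250434265379997278589248726589351923001888741382196928845029541914692726217537334795539300409713681265759174123332016809150988892917885554668793034097929014142416270875286499593625652434745365615207452224483069338640281336164515150012119981528601909397749234342225255096651713131768382079036751237885004275532260380537877114837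622824242344438133741963768277110618127586248031055504929804938338273711436817473640322505005762628846517983568076076135763576559617585222290417760361584303283159541778553795760598047181842096115151336935410758039186583489088118685287858655022027358045794486831499081369365112747839606698946666789261392542613019034468248244487139558535538051369400424441057730386181377442363102790397408946287642097879423312637693075543935353937312793148674819682654943155977035453497144624712078732684764276980862043227871977262570512398626047636751009812774768682111580583736507543113805736390118887767839064592286346669386161671874150606770655801622779988060475176755622981175152914185284472359551852699954100000986929196714941383557016527040863715912484654344902778046548008475299068709993550379949201315261393802954312050548857074751229667240998370771603260482979768013207594587797923932738834083793358892430126559108600209212584387617529753502161003039712792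206828111785368052347943562271938588031707400330491077273782788110610392568353236427875578313531521298678825118541610806811528902814472510417173452205373023047092732071108649567993164677429773707453936391545900708859669734009933672932887065722837691763060341218437199019864351862446311415117689493384254136385499744493349744974459262869717755676663527829224439119980033661100335525725431187462344615600565122821602854587233433707689102293585223154944326000533056352826201578701168335202779013554439534530107657422358993483810566665937401998494041891140730309170215665364094224794092226451526709440673123731334584821521433503841549496754956742554126222860655736961686342702792239157732335096551567524357351535403658698085469476811259822467287581566527216262652294242544731741630540063506513481051837300395365622103122782969505633426791394707419224240943108279463001681598054016246022780136018808459754297542542811896750780835684001228638265748112141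068569158096130628272861559749660569554188147290455797427561945496787671812815720126612723811315358118887575454455639837965683073240609108644138322857365974781359882586621713168138618593736086320305875343141521480354338731442857754275645741022417037657933015251744525653332435438612830913959437843812686375939922959702448638939267235995683256787218881725897167424006024359847110173952529541704997541424876272917544621817438578670892652718521304503403147821745845063226306789878572834324476637997589425282444252507117061307999528739103525647880356737434797848721276549930563056523581155778347506376217795085049107955054798254454966163421297121542228787136965087829177222019251063798150377118684913286753005530950726079681812495790489263418155678191407006811874635601089833143172754315502483435512930644384862185863549885121789227787203868251029199438495937043527470154370989456857993699466682897062064935481103181434877085790760148246556988488125846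912236221920546574599454822595324336267115768254772816049643078114213142604586256739922143967603749448612581510987511003096878275087108967382630438798887359742623035927962823923307435203036255012560928137061063564580602065867942917047518944703087349906385212616222227238785717168977059950928316095024080563028221227135618849292123666214225089476020738279041183900267876868364815239614626520642329047388475117705785122640661935041480314387044565660313892687170332149698816408440412385894343788906070195981232421045327995685569623556644704310288695717333304752782734594116335796699962549034066845313372260812742514551619358642013926759630230944157782877443459035514464558492337391477045342595431392130852159738955665923870299526745751908465391645235779151904248659579736447140583513756804692128736602468947007515889198921925461743503034478994054941973763676390619605782079490078771060408129805383689365877609608207091420734532723632791614604229017554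130635104837821122486520222572626223079619429336276417440663199068419978365667928736327937850923153701382418937904206437650814804760411020672358388685051596491831188506571756196622982591511498087582207058609498332613271519497161935984712622590386596342151778637786548705215509789195371520832192875519101940378408289439346424483737146738421424001539481125773358075953286654233019034736756335947515888918672420134019307013187512636033062575247552914712407619855831111217315358225903034920338198663328833966498410019617596785422202826138693892430666433627666444777453413943042349500744513944396140622192752464000125644251984697387996502195915580423724058422409321343905393380871198066076947254144919083736627710750950116713557661982659066333118706039026237327984015256957101820982061442424004752943967381844917136904853097776355168221086867971128863164048880184455828321897822024412020891032045347224995032065008710588582562880044299592666213688814510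559941472024441339576678280402986113909021434502520315947502688820678119036503653932971843293160078189520008520165319574819616817285995785997731125422983945135650364020034690043157180825289958270430610500309877716589210460695588622695827903353693981130111145956994989626835402683866214301344478511781435912912107668766873179738331059073809534810449183571828251762748221327888041308673354285784639391367034714093565288795598007808308358900819815934451916417777309423856581139394626353974004382402247427760344998472859110241404441777119980077094425097299049232771265038458399767477913121350060764723789203000716705972870318465876963159788222971866392468178803291325437476022692890884555108472921783115586927778098261381446387962355387186247679334392170334485795234491206861424133057593539506106713576611776741031568855856803670932177617790836875573690165011616573122553525760558196224049313587386429061438751762121042530071740068606857647810650488940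255126725861425894965600026017806677985789760006079920863403105336309865353653441035186199192095628156216524823486996586016386809774320727866017203366390174005826218354683462536207794105297610430517314533111472596805600595717971945072413007807719864103265025340585093163799854420688947431446512034003220781663188574205932397708977390337881613818054389093226576779845092115496138959028392044629249506284422165999455422946488879970479550703000289654957136143682282161346957325015370065356556449768530717532704160088736519985770890232883582129874419882622707747291607978307655378389352282925458895945671471197778969144796244805174375334701289479235901406015069678035105725169233943961085410299374576724204008345003244059392528801727458215340062537347135578441191488661351868388272991328230586071626298125422082411712756373579024438065450568954552240970757067677877247067816571007733088367622858872680264115342221899497638194962226570143735524330669610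769009146151031399875011123374560200163667536402709174647831848498928315074464114376735813516473359370529008787316254968412925583793273192143549680406049917281214608342385764185385690525761872051708623584459929148879672825425972168977316145913188826949220064133455556462049668212495585094312820002896226495247800842261755200068587102872758467586818321665544993241224274921910564780326387675716353360340228523609837762830383637565502053422303988746576224399970619423077973567133572892991607106592620472360147950277098788818097267370148122619954722521278618415152375928829052124509414961986534411876710945570038936776705134432612927552291381017174441696909707129580401871860388025336955425832030268576807474999291168514019402816028151716237939873406752966329251443344845786133191703116258853732292217834385037722635889321325920437197982431968113473571750482898791020921383136644155255886608398463066156522353742300574252172877613127283018168609881217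971869726715607624825438432840085919176585730881996968148052032446935455578739817993155782145104434674419904284607876515022566945075428733867514721729418537615034149934131220022187897375980708424906162633592029436056898235049459627955430256588822441879150081127963447681030554498176200689711125248990596391751574477659446947761723564028432509650441645804340890113901586018285434052446914280193275938331810973753604322457989332409661105611682453217141090992928439275674100941688055017030052507542298874439017323320711867148307786776212066779128132090179732373210785068407967480039936802038711141386612424012406209997428825842652380516299276532690907116467889611967186005652730124828683186916954169269352458289816566255735108521117494326103846331664789806269998391316851168122100022354377595892785888342380003705046262767680700120211968886955054338725424404188913501900623058389587730343926044498056776955116989175243937474318730844857990284255093745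109548725419972105431328333574323553002262712372478683516665470233386545910070858724896337000954996142373923279808588427180314716788032484879575581249204681752526366690820807004983672623088693888582686705251003595790554692297492874005806880141384338941741315669152980119921803267038772709417600938804246375533446631042928498822545690846553002413261622463288445969456373348949045090377747989301280207925757236753006923100734958440118188790473904869789130978960846838691437081837769592528889345078607031093220139659978603318129092040829983598746610474440894972970594208066852248762445888348126164442818266145894618110812565365158602178923441874160042797881077785433350658846080478114985233397995936553164623083042876140589567278232429695642053124546453938096248093617931993669411580183213160232348453112154224327798783619518084654826203646698621088005546121768654888922788264391538490471459575276054979064405597406701313961446046119976938239372773386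423944350738940019209861183857845319671894746495344276237620361943635658876713493226708091495797695665942786644834418281808814679694283707145955755893824315685707596904557324536670210341048397020296073186554283146658420405168956133769572195098672704756145791953588009723575447790134840495351197913087045231529652767414545362006979073622286687887700628080628522319376748401522624833291099971125464828643417452587607992937068926810879522791900465317313395863687479447478101446173455616083832570604775042475035859996594915405437316286382969056971415015142118224918502146005630266350575499899778239728672609315886488655645539632442370292173150297441108387505872969102096339274441360719330131318987342865590625562889210360479958685496161618272154688559451363022510975818232633275533361412471018045619826349815910729155540841743006876438826716111826790360518468346559409623981334693225265621610720639165498189803695790676479724741824893043801073091156731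234103440704803671924650387676509472262011755703321257727676646987112867088106852758979286326327191853242841814445849919579100244190695006053331994395358838822169452362048771538796598369250353424005960700401286254377415424473680275466128360576923883993808213651793274715185354121662873127417180704764825661045566959673290149959974360101310348917662471775232672063840626873529291366296228301450048420423439645026350920086179186404783071264703103815032504800175488199154868306681054052015169017487159407163964186941983869992995512080683305683528853038975245282616493631358466079719345023190421681442546378201282905088773664980037348859565841531345733148333332788638937405550236050905275509894443662377783306020171619849340987610993650611650359285861730077386510216373344009101324478392732967698553188299926531916578882170896197466650121377293091039729754968604942885798235040723866925985131607338712236838645856444727241352239554282941175497621624019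583164034252359662345225395124317881142381612291690605089745030407022517923117872638780236995711759265409863102551341268526458366397857851894037903826417887048688470899191472340254602122493492480868103009421008383190320317896672994753770272582959433805291111516313927325813411675021479427711356891443396641522442823585629432408636612206477825076626483342351337200943286489081976652790244380205106754919830484943891590667700768008785389428017055428593484424111893540656374769458719594173944061455196262234498024131098211005685416128239421070429065244837673171644274379964520951686724356021482896236637456356050462899695125027839086872549511836808178796687797155171726629389696557774667205151578943563402664516051362767211699733794425072064891795045252615284041708994365387563510614078987969774211957867259245665860936179129000077342142373038544526502031094931070899674900548972533889960169664538893036823503750851767409220453810613100794466216503011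693263183116631144450394720994326795041096244800288456871652496100130355855889105121242184955270152938009985755323690444232521389800506473486678241301533081888264702116760723592753004022187151157969706049238770035656509160397550167595112548367712975518498500657389719461801606158975360893276436053950855449922586867877721965749937515045121744400442744502448895158415976703039580806856546302652425141739493428632230789293724263882200838012738808926795918621872922071041137575610747022056381849903488823672107151125274328259563603120208255398352667433693336168252350322820091928641149663196139228383675424906300650184967641745760166788459935819411797700967870749394632406946629642384612030607682913237783395723368680411981614707119030084868052155808548761155031831511052968490099224737961190282325653012567653433834504259288977775153262816968926183219570917203580466425503915527359258842427738128996488018718632369289178109438142680102684130964206741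9772888392257863059856567310008620797390236340956053145653175118358698995120292709633088484837554221287919213936999007670688777720068240634148726095225478852512018715348487070416477490558630129454196764219489760672237615979318271402443542374177680932347324682724797941164804192152828315733981567148192864165590712511940510170691760821061419025041231862958868609091781113016495827962335335069282974383554857358143016463216750937270329312681843678814078619117728017005622444277049527910307960464835504816158998112550675050204250123755082019716148988474403323904)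

noncomputable def rc19 : Nat := (nat_lit 23919236763670928017754276759014245112578527573104340198656524542696784925436004727231731782404101387564080019663714627106190087103519390532296769752889460077750759213742504409453721036690141446877358521815863303606816532215850239902550779718886927533436594124371083353816392507617322944593947897012068716987378212209361873479980778606501082076728180835494178720035715691593373485773699457587166589541727775802390731179130436110324810451892017779685287462051291387893508471519535820605225070456732706679651703861264888770683504965309052936564215847511975590072427292702105098938439195894180878148769672290507500092131802872351337489929827463217174600857564645383173517188048431550305573307932284260684325404918599413401663884347037691304212324926630684598251897272049886083130628689050965440545513623010646844692224325231003583019767455780565257462150590963907081085820583538374005059414062298675864887093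701818953607496657506342772027770321192392050550598954741811105240832431467459043069103056284747865049109638391234207410755869614199330907154128879523366471297574665980101630183428256824500333156301928427775385162901931203848775104145638208317521187912914237080175572266281207978161140173309776206753243572823172233011022163825858018535727375980012442938869757779388730949255980068941062804519789519615322750326393307615441666841803066948940270875782636197102722693111424115931714695922414089619020535547484559790888744659463840967539531108659677021175234802170770017854715798378575123274290618494164846342538060895495546235171979822553589605056286699792261233022620586652412877016962379508503247071235408549366153944151544516235497066714926151350498459536731935520562269950441287184245877182593628718232126094922462227139383806203563163961714751710446295391517726083164148779759106913632352484134917231978761485880345011159230348345334503240422001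832347836573401929373524834669378246989798498048581691209569095295910655942904648026827450822525313638027594688027536944141705044239383965731757657165535079244825955653163516050276676225265795108068162963401784893581314883790448685908086233148400270043635337444536246605232300199101787685823777947909488796064181845366276741327802819693334464316574336224853923159780445883157099950791270809427115287521527031607490510654434700492068814887573825592615256022953580559241104616588861298964545272707546721317568145972348808883189063789181840641286878994135703148292470269744359872863993699077204315741524521350369490231395295116084811261229854484566704035824850634273654130890171793726309953506152715308512140265757624564424970994548352261812131464427419722246179780748746494578141248777258124552440723535657746444622870212936214488766252019322080780261662706838750493383720917151191908483443583151118592530927155042108738077850807879347554249623898316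918146120027901563984534180006440404125145620020321300900776780280314699456887507067828033617205876621929847045209563655369028798950407466585478536926615093644268316221784947337041534315770320733217314056885849913215562497249120137279936229093049150194673687941080371675027917547216653337098738326039519221608953177147488205952524030506863963336073191215578347841010051715214709046442453543650322851564062090566160210933672223143931964459084044553116423462124504879335553706454569549939912440125372066658998126576485295710520987053653861669097314913678675914983155751949671051468047286426717577885871647287324908282278559349171992530032423807383194976374647798068392889076829544263830509990201180333837814051508769818900964899255491284298028506835315013997115835984410744215636345079388543871521908565954962533581274818647378097220611227793114446002319301807997071786484948723191416803339410791886139268408988500017916776299774260467430354614029677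221270526321685390411098914840847480697563113814552253358638191486108036038858084394961838456439898175458408850249281739294849468628362253310503437456473013528350895660901071842521353161385172701381643288110006052285747688904060072609245694298971746573888392388925916904940790693328151293383386328501088941925155972763471772271994524971178003708170190612393516961214923280956917177951202736505853952010090187441379245230430378261633445509997960975817941164738037182339441518654979584168829810304794522334415341886389131018653871115578034726100858571196221098155382087940513154953938997740054577382176398659278038121427681001942690014230662810843515281755117632846464147008912671606842127760293783020645033753996113068138280691124055801731548274942893036109019639277740021897461078372592443326379373175438531538140544600676684846361595533263346300023641290489236068204116701224851789691300062699113833125337048418960944839277061185686809508009930101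081710318756479755269979593089549754504476666045954649400788252642923286439024298210744477727387970202483604763267579254476526204452336776813807613300128718083954538423651510665453128055452207347878981908274641875385839742360117950852803417597835830581782701870123850956291592586223343020062046057292674206859650667360990258068573235901103559402087413427358699799033541215632861111382180312720437998233457944252499751632391222271775300104626557787665441408201896612846177678942494725580811666947009985761496291643092654168953597612814033104015057542739348098370817042157482936532195331739361115978013082214335257289017008487838573483248772492051766896543936489199194049539207964748878595718042918325149197941927775106635492603290710153282612244660731998767478248375815095563400210859117710096358947399487776735398165636405065589891034691445614935942303669183452203387022448813939517418122635981524167220487070829414740870670930277030908949419107927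257957544670005004745632796148837026701253324127946232567249264876854577142638986822392852501744706620787139238468012723062023545731447092950180670293067940210388565199006772243981130754157855554286947095710230019615259501857652247004522425040740387237133806971075055727727259526412495539146176591210774656004386039428160482969296424254183147320483017266056253789260019836544780203445875741274387343721923254078655937883738503537220306531400158782609896460856279666224756351512200480893446419863594327603417493545329363320381432611335978856896820553387275177789766879545309769038104637166055396482407029176995499195454293898868964198341069812169357146546099780598452267719956880996780369172389905079070606731023016621794838650388886250666668498071986404939703137229612312235958390161203290912509871738894613815761791214886158889792416468689859326391754849328622464670857205290566945209219608898885570448019038648430141901720286671569314531816472914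897884559758244773209360029088890218522981989117313696473075252804882822674559933167743902474662680190501810233183145922348737392293442494320881670476802800237554165139344349559844399319866314652733035200285316526349463369673248095631149246071209972326885376621620756820178292233969156244292818476026038114429442529745598159756226491394521985949668121194896919132742327706819903081748311091216778400522052909377465088400835725174453415698925506554966368635857458402996120453755385702124799707254939687521347963347879725159855711471226525710913313434654387524458054433729105127138247543105726952570424576037380954812961984741085057747279389891414951760191983571469446373030653856733686669946578719389107619082590288383312785405609135192634978636388564233688761158015789293735298544651002727134469305717165628995795979624598002049392734354679146620198067493522199837876306628421594513970946316722475549149171880551873522895970044939086545488772952777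544506840956758997052039980979136813388177943278859992171286956361987389645097026473520348094916585068111332677814862728178634652402619749758603097265147715901830744183683081990657459797065238955347581449249561752093134994301473127452247183796863410355238321917795444105926369172061396710989820189212244975423625752598736796653986814789435461057340301437252851802772645427848770539569400563644925519841777150526257941832242495277167316117743447006201092918142848007579381349339433385652228431409639700197039343672093042704650241265657671656914626108991334201043506876131927676314139881149355736506425684274554620565736328306179906281170092514942589985018798687213641109632652860965000777244869228012245306801199718758450979363328974566962321580381951969051062363872009382826230927269782199636089437536248457062370235761230971386327056547678796062571071508662384098520323117566645407477918568496455054298543602006773162679844942147394157867063856322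247451564984198118874269284005444676716616028943334394827661992882482306354453191459293789664022061893021474656662766446001609527831849699166829029855524350732891316777600988339767664997637917041643713584220730307204915735129735312748463194217657919928356695920138118225068334346981327983469438868213232360293396634274959038780884147300838092268941430489994349304274758315833334405776458040809192317380976685156345101416248238382370439919540780703866334864662257303011915531862922186650121606927648980284881599588305086202652253347786650284263412019873833405486027501426977481499212658500062022318018772001170108418390861874232756883670803994293496229481280394751244669864648951130076529342978932148924128173042071040659539894408896128206734089075870139502651151439473323925213101636877934961201009902161697212306680453410369971113378306880941927280404366571056270484053921676411793291042190070090648552192269523653263044014803049875982658914237722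716841120026746291330490243668829867131966308457364818123402953629500573523459677469107553125714808260997309418969017075169645330194966464045089534034308465994654123336406249841346809808187412637669568989977217123198989615310209508474098183866224702530834166882736467400397264219426210341478794642181783855335652943644941941769260368583295145859439214775596374540243988255739392464326316839667402318682159429466434382514285365465602772596742290411326682276941204930538955349570743409220548807707516739164909987375494571662612698344096660183945356908054790410641015025801521690680707225736190889184004836472905815076845444997683381395942228906431896597762511707063328502698532671901458150330606319962066667368528554023969514065934748026537507046182385863276795267382720705002498451941448211919683013155688041028125908302630879927784521516221998368292393836330512573379620050563830189796557059760174064815287682531644142208020121756413954308515855908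109114971535240479537370327699140736977040294220123319140870910704556516822228544444334233592037259458602446176775799362430557776979166751627091945134084774113347788929731810890298785711300687575491318836688375469115899423446826920845951590545215282161171313918493050034461794189808499749501948630255503578646050721938818289519717978770413224406003195669244542865906573531482755929794303899932363981212306011446430148225510618161049746888194067194576367198798551564416054217077191344912283386069781151801257652950623821793070688170826389158634520046489445699964099014560036896905684982840516997032670374302288444583631907300983009831647836610851647213279439355117637702415915418222837445186199476276297069709646318959547907631366541292896542896226879252978730457702423036524416748074419384684357162414174424032483304661387570141242522559751533819695089533414918715939409286152772249534970820584815763508345266182905741740850152638845312091984710114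852557413997326411290165898295841731380455672717526120754348780871109193144387785869769210557004228817610526040704430718987243593708949787795055888490731907306452560710137589915848232117521196552973750019312861463700306277328518383743402669574771462989954271744562871015233226820404513200772568523749519212685277247924360587073419440492173359629707189185972406914511532567421419082247016291669039149933098160416092667536248752557137053343220384813574892222733434034189280960710429742791095450556416869156472803926898249877034137050242040981847736143810580212495719446454819149736229932960733556499800921350715242919603671595973393323313584621068746611763778158613561564639863029489990331771930606589084835776787144151096014049043121549896581096383161591703393303026036059632414114475292387892958951672232588543950100307802802166408876226263995036231683720199213141730543956360762103761918624101897576494460776885332843800692737587179957685987877850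779269160485970444761769111248664612031270920603773072933105898854793477784553105084220052593893210321700717477722083232788106351930246125601994533281806968526911646245709133952575977459706497300296713097079106549673330088404716335320238198676249007748872779180503898454554464077486860150863101778083004408712980320164608962186400788084374780339941289614142926525681784588143619681881766409083592559467710946436716664185571199381376519927415686458146570140454365268512077899358154463185313880747603611495475814012699954937169352265262902494494559691529673740894106642383075000700178647860120009821764591369699498111422036282572210612258549810227420540696890650634790105920758528315099286300332415764100933289132229851662541349638526501670194497549362383213828297203311261375953084249303949369113746276641520279556847127548052813403075807628785831371295823304836606074042260850670247952830855959269235375873567494557264024516545087771460316989955905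367692854368838603721738091255743605435283952158289573537600353046230569709477526145673863150702453180486447277374779908871174936061299460544913076038937603890695927379312126718297815349342446912637085778179725734670654395637667588641609815633675777529837515934385196229446791170383086232557246766353392623148520836726267415499228354682979463485849579252970619577869068557720815005143277563934429735907204719743192763722463486113005079519037578139156368130556748385696566121179131877922848803831672110280535019821131415106444379898050033461568369919527832292113405610160450636566034979082671560219259646187281732147404026481983131895286574166511947102058902413104344111160158791450037205344888194351521179683628894747287013310078238169929593311342331101144892406908313688129174914062866238041073345209793270161924767172585588041276279421044629932111843269831236845502238089226751428442462310720767461442572407461783221753010459962794846177413744990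900112621143919354897834100325962240627642865101947547432611108294176245603971998453938503084776916981362315234581068221005599583135080515457228211465583480421625361438694758129066466014914494477552332858307415714223150975929447223049449076693859834729442474589594560151962043050247634882182959574106421512756106376099139379380139150141296569620790579983995191970908507261929288890882815081813426758589306243624093368263452717544582719544763270032101155771326997552319160356658178975040152707442051879166844753528117221761644498041548698930182155709073873766117260832227238513683622245117731298999214322758594935526017260521327470131966637302107755412793440242129358147800473917865314609434992003717833598382137039430599768799436678996204135249844472106067684801145496202522293312325667429339996585138248068381247135458632456420130124753580970125195195042209716325968830040294664636396067432961331521141814708570201070340460778087414874459648605378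992725970386866095992283118581491440271608840246165979459953296474662732296821196505152244648618668907985433421749306170012386393464552980354293421533056211749226544216859775712415806651639557488889493827841031233122277740169312174720874731268800828932588244017789938199169715689870979336389725376757149475521038250019462969029219118567510894037566920977937449925312952979613456934080805448014987246036273348722486567082767603035705859364041781581930812292688232499657048995329478415442790455874626078564692275955115203170590418013246162725967575498039445436398547502105885862522604439982048157983324933457616699835442831304666656112437470419056470468638005636017833799669242659665368302907792574143558097069440054455917503704925597672194718161052328030361161222398422552629533897191233320264422752827191633392692640404204061268325261730203480973565228815206854307320855457234387898333884650561470894844587323721752256425022793939238291693442114068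401387414471731349232985880779700697631228342219429237208243824369959004118025898681569479283962749959266851389286262402602871896560061851909959655248935190371571736405378231930263876293935476538411450395187074950821147936140409219451125600503671205875989702050775179215086237359858833802526170453253207410591428309442818460929975509760597235486519107897527389057112100008085408321823799268336590972375855616727389540082307637115695589006060576503880905728413731590489704256737635751006567583020918598706285857028941895303724709677083954526216559007823730637513732724640882259397083488084052869983008682795904657661703362631731761692830175007700177328343527247664512571023707483095757211785462826075406567144232490511449391623181468515512639611172587171422450042252594502157059404546678607788259361750845544388908741009829812594307715800944122099711710277564175846908327523378866939054464925645782768084873029208452272331613124233428553978295648489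101876037959715808691808971753196041697530802389739460418394535346445775797198992130851175544165353682909041407901826486925110548393165027807453637882664842015878979042354791372836071343453265464652488655360695607953978286374604807163422934010433327562842803410503919462367915166919456301666925931203095440867234122084070330159796723634552485866394450406341567564395320250521456536509079662708381455732092104670459323908186145796500784244118798426307480456534810635218816550197612709458524095529290943200272908174629631957965726615232740769627943535819972473519657118171601788069154620968172726343233391798207740770586381272258952297953705846632701423735618842542691294573871104180292956920662481517232439177742521249809209038401917874551008260297277479257373506147884804258555620507211452616161813509032694853394579905400722337502482577396873385428312259303810304892131524680400568178453174190501845766767726741562960840999466919923636686162753679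1132179085522906947068502731596032279947448087803667647952324738397733987675259995412255864476741198099906930935132150706676783369976571673016527669819808939757168275291196816197006255994429038867579179422735080642269205804262178019897570865040174320146740088460009782831506954955599840863536504477356201335214975945849260691853823323784209271045366980385339408277633710804444278057276154539155617019241760750562473857540104938702410022011131565976095712007364174872294493787116696140593157065625439772413080240795589464203169841817860650723520952952430788608)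

noncomputable def rc20 : Nat := (nat_lit 23979954702041995024060318343761358914248841265947604527537523904091023817540013359630508497338835282212721524648163293989383202326541387840617951812822964150949423060118889623396588934299665798281560878617852565344739108231477825934181155110695156409544338262248813669405745103760921393461659710380052141552518263743727011398212437631049460070684357291620177667038494381607562896973233219436550674448004781883677321076102624147804770028210888375687228130352340076364988736075787360902552044915671436239635348815237845812153725842285970845713136361096434593853329502688256776766743424505074176495380616374821775819966786045901376951193155523184100307567867168126129398112312704596947956164653487654613025163842625668375928123578242977654370739459055515973118531915772369203404137474356292792974824350959761550362840026290846455070143295716039491160864046405858481546168923094106179764902647348740874154132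761764073971990969961285373876901705041271763745363523200571892358336728606003280429346884239834102687935627094127461406541310641487394870009809104067041857591305608222632127549104120957656017182935658454885803482519629608224721604836796574817056446421395540814707059258455939208903029096547902395333485147108906490786399633145352842534088959056312439960112472588451897144979123356269637362367889965127671590519497170917824567934067578835167647328316944247190149675947532629643490328793145533872073412224402805294288031956980489227742302931130754889822307011027267041253755583240091877312782246701710190927466375431250670412221556801749831843095530825305613030433024218028017570760066809544130125418701417118604240341059766013434871605280833145513681608391541546862414955641743045160879424844909772458342724116821410976384483021780105898673425114488016863150900084601967974494923739303798049373862223779017544335593399031182581885111418240760516776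885776503364256166310408437204707870771722850106177659703230989589065200592165832513316876305688912912699946088722755796178726518695593620006848065382077261359310870761465241692291490347541364368251020118255312580412799070967096197331833283303405197003178599107452101968440161062315533424961201076669421657762039105094472956076777729462725498094836662836289098650116035958347967978032227434063944152323555647565851456093903735430499597933150358963011598644327821669558561417838328202594671246552566479839702652434741806728996866333585848487445537356770043433103990128560500176289052799038015735444820042667317691108094744870099972659680654046162408164216955550506011355661336274316418553492508804315286470559289737338203217645528928920234280699864958725600345154773833934111826841531649507607987597094054223653275993417585703768259138490048352141134514001444045959936505038849244917163460906120302597117446170104402053623563953530332335861621924370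158839171669725122674767945352053810747835761450684163595940738117019212967472212126710649700763246468562843755572814299428267408485438373948016616812302594114200762289361263440882816810956317034916642898814800406151603071501734949277299855685195855654594299569720800840412099367817036280764153570756320963824858386418204114871759181698582280620777775816916151514198833149930012953540648178549285926094688907847269157809108638069908641131794697844886681499262700044781702709568793353548500448397103561927234171629239027420196234084125118814616690483828593306647721923277154897618857761670664578220271587848227554525295968894082258189288013354507172655802744351621067496032635198889635409395562326286455781036734170118168935301176570436181424803955371104519465819134762282568423510826479846523402892555383401164254915666897084576846454002070706930725973785036083112567619192262938705863593020408453410078396550810754474237277702702750379967599528450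299817087881882350338159872949327075725479802699695616476213175088713903184009904501692188499814489396337992118444576977434632381234963010609165992335196242671705689908819128957825076303854933921962590175905127628296255088711257733469451333692963383742253158446523470501550474446521549700976595010680639052083889589094280770208212386649559028131363479171592159985408994225836647639412767139673745895826103151575070673673996481694270612519340057240152800594522737132095934669320958362980460393462051383762613435012235102307066156228274420042873474777264322104107920998316946410875304772546439631839777877601933904950987855059290396538091291789117402123520409701598845478685365148293777922565780868399181791215852728941430373577207840367715320023144351646074829568625677007133983403770483414798972793337298798453731381265336658004947170004687543213971746191123344332460514027623300501520924553958974166562634492306775610664426750368238074119233163693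026727794781630204251788653354228361185024537606439055713471907036194965289951782620549049872767040906860329187404699499900190050264064977195944030921934465872563446341647443046470071863778501488610859937309282810019287713233989313289228372261678955657954606672523784144434127905298826162782738609088482568418584553224920285445950802177180233670245431898160808890055726790149369511354779339282934196486269602685046746466034505054323318840993603027206691933300780336929660280799365961362910833271830074776670745386800254392034321518642572431738358669656293871756706213564376160537989903492071132683808897237428649247838338921642622048115963135634395581627937698640746903760297445668858264474099456030105501613566309952785775613711341268672781194340343895646812252876689880300309696359142771738030795578451777614504535637888303565395351648787271725751604608263507937084169819709558439475328022992357253827395832550159221423550951643841957698025284465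184918445481470217435852899459779269887970420386763642194255846932591732748799178244710912229130089269085693604874194376350123912026142523515365617264758187002039555314912526089560862339491720843989094221047628264933109715420794190603042183759069300036147358519388264396058005277080423822547346977172087694847601653748255007381026279217468654022712435152556529796288539779179148141958293836079187787274977067768418750306416445533980543753497487947195446505531740461629012630983745799795746622583680218378125167009318152119559983038238054057502683134327124104114946532186823847586041129052633864683739201164270293397300758891285260974116250699672135786681042524716427789986618636353880474075172301068686150974796282959311582824364063498482333433850499839847710371348875892358336981304431184593702071841647413371640821877616068856483043338722043540972380706646194039342650651689425568300179230330364602332454715948795329807893643199428733643057524554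407663992947350472550659070451415352722087546471284943486226195070263550337184302360407618630393312635826221689392400214534402222129090454307161769551312308778070996964699155366655408256928627209060200489775131197505614970765081635991300582641013528095201072227437786445363471908652660263406265036663670922858460024517555638766313442268521722831772942572176681896780539230287776771591498092475506732770537259977646219553405016337722555419313301767701911574875511073493622948541934186385811108091814614494390431642298208121851576909165658074793836691403920456392785429970765045677799306382617112072833639922026152655288034840224818635932539810269404705982391932257965883278999949730836520907767045898410467783814766742791798704684585275787633754637907380966625281644536831475882516408257878864473706077040209587607943670893827396483591720106505091628504255287385007589586168347237314251766441763139652234290390705191556391917708661560448286911088338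883831283450216696068209849882469545630918051445941336565388027776506564295532900033937146261357292808841432222078853721229138673754258248028895592309971533355992545301874189347724847601028396665801631055339860154306158125807946976754866847367759896791374561980007858974368448927679493431259338691526357144745298535648985826783785807608481992279241385845357164328730126939840306360651380492391753878265355328300339284116351570708430214245345646953059304845447760608814841692714405741848210980215848274576151937313436903099128862922909265768721142463583437673390774936485496961201746141854876812811431561505517489768949101892391834622796716925614026662702848355703466772297376151078159446842606028679844640229735429151029591631779932291445453436823932339834856489236935535810410553826980184749709628285922253072855010234768743484844588812263855324474003615237615592588623590169360260724234256602530426777582726441870744969847413265172032355230232405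575434844269672341190004599843720408512771585692160487935629440102475094702023172896598177718597080167964641346168317964994578013805460731772477066219644482561632598542406387476623492680478247104377823721287333688069656043455406867831115093842367848609029518734566394912744435285472813632113350164585324777300898387316225807359040242095286472604924747601115103278794801678800047996245289315209047432341829757884458126504308525801142095038868136504564823325063449348226652575944466365020221023609919309658981560214834302893654341147863060722250538431096930831157499268793936147931815276524146587565764913703470932542546918737151353095764203553380381314947956822463693851343845030273028752284876934335364592249938710587996721653475534293644862708387174733300194888197018283728551977550701223329186871288438721153949749443609878888986233714019861674858117441039699360041327341099526716736397306171946245689539916592417243288651435679448433553041355361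948852887846020902317256840602561950237092558971622721636064110621424696322846141101158944025526848074228060128646707588653839929824299985153982601504198724352471446702335897858184752197438389114177528350696559508911130146451801839414351076162383496745984023167272075321946156644547595117067233738226446953749100321554504623005053209751447496644291754707833628530410299140463068711943707997207650425088963413911216821154192775904234747357352151098635928758890771294045967671152739435805126672129585649856294171258426663448647194652793187438609413396643794832091057428435835132427917578185751696191619644706413316113039343780232311565123003203787293041581523713582752839807248766444239990884647276201528557369415118772815777515341238621014740873703016689537854687992035535133582262708465610493572667263857171325419200571592179706172696640659891232828111470149082035765759800492496731807150301524989468280656491052393574983284691576469179305454603969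611837766825669747516880969442702485395060802010302262643840308442297562981705112557326919640291398442631607735453154909810586436895438387741021782202490179629832789288913395895075140145223335343676466456880043286609461805176728023727661666146274413272107086123619373669923826132749191456363820590292023171235928494563415844047227567150707240189918549620217431035542928694799907244860583852366475312376386890905767106549367787999359052948851649344965205735455517820516375369377213473118093018232534738675168273307344873998855818362972843937094612837092707174027421681717898679824780885834043971548242284269692221968729749916567781782100863441695770578565194204396276326959821305502868040913855834591039688359114230109469795925690235058140336594424759428496762748770671731092733508033128753351500427286371921885672796735300037576685255823448651432731588959239024002141623443699285013685904672616382603793089653342027737347630451897941519842038952383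287033842481298980688961533195585214920105206551414947323945122734039600775630462445499475546592720853020843348547614881106306404829813610137403083629992731649719642515564678815033590518926860303158208796380976948296126663998239771500749988943985665011308242380429615132799574487822709002922814360858988860861812906625773925280596126164423739745803739742605311226639133697880911093765486802157471650537292912092131143410480019788593595624285051212489017658980538941652206208132472145123131709802957142303389965699908460450588278380182454660786159009476702467835076809711773036757600880632214483176229771814687581516863890489468739787151800026968348789907341217786583764981049850793367233965473242686007770496927635337206741198148753076192537555144654621893236602613981146610922485721068521463946036028801502965023399008906131510415378603938733054544866674661870357575065278469325842107292899403853724266676341665454136293889475120596356116540929800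237217250723980767365143719838070976331428501324970378310956038505767954119694258946600929204217816720413050156735787032397858111966722582218753179851882484312630433723491558387910105525082456670937241680781264296022738518287319614007837538205246522892645223208136482262273243789757269671397385218634842026991956793242000608964421415339643731036674770197930461137863124948458252257547647152109222722987710041761547698236786711517790346581595467383535210344257827480563485184912418362222110020649974824703222204894458995980937130585239077749736094853007925027220677571294611607842506737315671916796166263984792744709805707382573902764604800651633526261953375078902061638610852041237011801518482818067024607412673535082523340789739820790853812180895577421131243135454246656642297861057066685702935844453261437228087520762899345023993004560211755870224159386649405403662634755386930421282599899077136880028705623586729666909927487852725656054979148495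904474687355569933471753053580999453711215713221966223842220523259214398800179581131450633794491204366794574745276853976629404120635320113098512408359876513585162251327298591456481841218238396591060769332354603350900185090805128460675879803399164172833990412480316207499129614615517595965906096641105253104287466344620098846276586453135861345642034662220082854578997398789899536988456705012050938377902804464095280686551088491363576013708357506252161344408642470739937947515817651269494943955975915898502102638503560701310303120894062939474192110762311886191102272608135860925983419159400710700473953445697378011313550423738322470160203506226383476298210924419022585502932766102719670746019907470760909670275152967200883933226467349430067086470575344806452618039034730613047777811466048817756234186511215880350824148254843454079449168905686791899800076126710437754358496814293872996711017858897291917628296225139538055980537724097900006365925952893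950329084968502029119452566242713014088530553249622918366983475708300568737383318723709806918436107058481107271675685911093412265592918232210460006410742993192153192441679293150731901021723266101531922418292796061812954234283027917059426736709767938824672658977101680008694960930494207644816830683527139795819239335980591106171405733808250295261671736878147454555002955841045159074608987767312140148006926736952782516166563489019574718756741752647967486027017235557810313601119631718389003577600281513775342845681340254348173067516356161586911685847356877485561035556434983585156998088827139336236719566822556784556080896593563015147095575059492264901480781570137374708430903746394611787111840693359416030498017091496172080514465274613260118443668113810281649728866187894753915234505427802401463459545735481129985077286160409157472955853474010688160515386700940657783850023682195140583594214462231484558249081026652082303343402604405275868517153372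809153688960155125455547250822160969484380625849867734042787447404873655850949585855799815237856957883865335827995168766367406053878974696403564495585840083037581859159365940183714615494638696816788479903110767419708937974724522095331696406036180115250899466866073022825625996203264426029616120091199948464650057569774939545354760881623192345107463351700482571186940072799785067024941261677454914059524158111705160248049570310797126602494727434158844183087486437654419513659839599195150624551511543390017553446820301300222829045594822040107049515807216450509696910427649665906435030161851806755813650235994964648210411617328674946727657593487728589850916642795569544286211521751394967280263455979203473983863383003000821077548612853179313305555940930733465858154437458246203654095698121321433152183430688343155765558994274845142266343874605612812270702955118132376266524890078371793819368817648355626364046122508434857755080371900367057988112820073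059399482081234501901226611030644882603390217077229981688574681200480700936578891419273469193262814334833043395388014003644309548179904502449824220081855675311891195932741146969515065761396173860306182526226743877071714749906388861430647560215729926354975778956539719168493456439789505210383685183748396845157184691136845388421347324075026991454964482169298347364926725808655819602776431008132501822880309676518293478998071846118276539836632474765974532078722887417371687795962820495275893402933653406092245097557831702111586577013563338996368198895736935190175955959770056611727178354979200442563245797094724116251484648957520810596460306408449167416270074841073904059840468068213573668660479199466634805762171489158917683864310271347113935062763720299579264666602750231379631043501379011681039378211424909820174393606848878286133023668586262016542923431187648824704498509014867068997971248520157965751677457003811983205898306835271783315626862030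728701156315150519457159078432175407650377967168202865429520609627758317585003739713316458895531901864796085136320807574227600685998656263597141702292899399034172376164946342585317203362077494732689264883493346992699266786605021951074317093948156914570125876069435510303289172760232543850674316679060692746850212643936600677185696455825317322247475063219147891688855297414836476183592271619252158345652782203169954746053828039170824008529075864896729150748431841271586978460888187365638734733213898786579837686317122633903165102341457840781007637175369589018948453375221233420672842329580296646205758695051084323300263750983129186870110497612313210052355458506706567263321771131427964148229299939716587374933390241015940343410187970622844249909487008742569775002266806015267483080190699839207711535346375182162505439467408545203511460015865224852643451725637280421264362349711747201713270715982268618049306083970446951115278045056097952399303435095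3607295846858331612459451702478424431042771604903742300563645096031250988173176333156909349000168875934963844939038626209865065505150098820264649737637442334049813560086251603212807745232216831821143060123493687665606200437071521848030353803419561026822192150980714458545221704296491162104686663711181579139811683556397884528926647111142473269363897573497253896571258093289519642190633606812384640633590559913107584170413377149772533362722513730176669675158406060844671286392481223439033712978644093429347163791983121344938367355453876761157666611671754342400)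

noncomputable def rc21 : Nat := (nat_lit 24040319090403916302924433304253246743546845942281589109529157474068167343631757122621148923530944630585211062258635440148737138760408062507115421863758214321072366732976984083273575071665718475149670765754497066143225105558827634708802124374757931411184470579781021284675171902163530578876138853399502313460597450263650842780163157830208674350870707120863198741939955532936393865804395150594325921965465112006654185640244023885387569477809450856274414795928570749810404939965311143002798257424475013313785414180303713151253684084969752482179169668782467376264404260293829087300547288477579416144380724150521024076327870323049398567079252681912651757516726159169125298167655811181791748603623641635939611472781430741572684456041505113761608713288625079129976550398419286532277037633047337619935824081861346858425261937113871179872199829928660844121542074619326574571350299131864772420047064683972075500680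344004523022902789936207861888847479335120585128271892958741434399914449898918296022588402109760044880637445794546159127505790255811418678432276533446758540852191427145210455866347483488566236147047171358432886049238137432260184853635757373846443893154762862574731471666070307783923439105349079924945983111922482680846049036539416872772258913694426935453451753550234342631434196071660410430181692911734403609150236469746950857561249191673718492732613301675662607023559514273936507488259866360942935480374343987978490198562914073721537391924604261713217712878101320281846336777131010368346425149053128551496012206741881666408751926677182782766341815061382545474689523310547021739736450742779443653987250988119187431662121122297767922559892717330774861763125875209368777279076499000386994446169342993510091654494819119229931390421574214783415930958902541870635610809787382350474022210600160128727885850923161984925933320692706762539330475859135532997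248470852997819358311424467062064020269133065915573542805675469873958083896324800313019252779311419019100003295728512947795142258330457207141990031145464011229159973093201423374340758785173491329535040751351635677282364570089983652470223129893177628266120746149534679393154285830611509469688330062308744834514631345654483644721833200544161054553244685558328113598946293695999414344800168189616831000675161839408677196155936838743169405609983340959988590032578918048936812925615651289745837814635620318487509031131730266527773108111763096071795127253596519885210085257397084278726696404862752264128249921796311507641971019564418026540068100464868783608483981467087435428435153254345257076235410463113777131395700668561510232039286641327185968448340643672165245056546232227732663554336684328214124993712457542284169586134939656436289083963806955832054739117079396747110879381654955684879069611468705302567682587148005453170344067562914833765942145007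573912872318091178612714801459880676139246107182263464435754652827776161367474093490117019993570557864605747588054112906289848374523134528195422994091378653093086941767914823804654802979983817947963082775312432809586855831799237522129240924298101213244182111372749898676433580108429184880101942829077143867180266411520213603860150534654614446064774966081888570031084334821723538605326845503747328987774293477389181054984853045419161619970431219670004934189825295859656560214190385961894515632312328560903260909644111892515641885944664352003332004179949092976682210679339278177008187843874291094651120351216729802483431284121986693807690660942229997179917810761466730848366244702332630728510603060173757369299715073676725587715808023523740182649177065121488420550464513704209692932812101027933305578162740210523327510015111830904524288048839185534475912448268672461593750798776154328969850289394996064175352922248811481634152819023658238394594076142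427248845217503564100850216007944276298315389163927673113708830464716715987410166815919166439924063503355656202585768827155399561093603443889482935705461348072758605000386816504689225738170777984088017648611712830929335582716728960432571062682305599376582702762575500596879926948870384684113800666912929118456437449621444458326391999292632024100883912389993297265136646936175491832152485253951815838215516902818620934452136427128613296542448358651848419605678102822104014990517523636570562899263363305460695528053412847939282674009474872804415324597974674026032517165400126429581599237556520619318185904091993604161157216368980284000525567189883489244870342109613675849541082624598785014437701521619765152569402386482629799294895697308978976793313067137099758350590112192102908876937142810907360065472925572003475528141970815550875730722980664116705354944881161269026593292600798223330157396269267997577593188491757080645324590131580632534296908086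924772913463712680618354646478409228749428557568961966307494141615386471043027383345026075359771546813447109009857292917684487666559539932577222374480160706677488272808068798366329163079538188555088563867972001193972368316974095061238554881188691447476578104954313759793667532871894938959483893927309498006660838089923413922027814646263164852682157035288601399163646408631314665767299477368389223767655065317336981172482345883599704244783704359915704449201043971434993302546817286107185378801698695426810910245424168793231680765755301741071469769989227297587718828327669061997461683006123127597549819009827133592672953449345072606829024256944530130494471932232747837323190307376407461852427075500101025296162460306683163269668797158716475795139910782203085966741101782814250450184392656347816629829196389805945027322327548113513529183090611067563377546087765476426428696015988113471854318370251682103851767748322585752064021640225869372740163110975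844507535435027831524739892345062632846714696380815465494383415542809597712218368558314209362818316481321093516836796332564023660355139490187950827636740846328631934201058886991812100038248382814646813556302126002551289059420593519530017059366792666862751726591967772524479768344871805850559495625979698560700888242797531207816601807061133911920683669881565291069294445010730207779866845980813997399401609677323446734748581418706738180110395786791041396124447325216057465725198191807821840132334161435816611732983641172058098593160294766380104519902540357548270733907757266742850994652208758679915351590749386335189463028674906546267811655377799614881585890752584290557750810042429825301161058458005816441166599074585872758162071876203086890249479467845314460889906467633314175855092044686036951916776190261415028336548756047001864328483489224641663225852150486852659970587503344786385199018660451567073450231773659137467971106009840515460559989127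108020577023721554313125557075667802572264257675861587264605642031959690680103710430829606377854495811943912357277969713146936442926718144697092443750761365098278809565425598995234182343353405804139277590232584706632157515212140124783971191585788802694010761039726769038789230629961184662785975948280186257310747880619751240000421704370962818731203721263421758293716082858708259886345554334747675113554442017155567252646895116300498248383849306386771469066564270023183282734392799548047875816169057357851859527202320062977685747378067092750815567068714230554515902804040291751038640058785433087740056475984463651688159466477455157900832853862410070764474647326323000416440651256618457779640790102109989627678041624803844267912039555892468681936253369632779766759630696582468154131674259583627786964626370226702107423064658190181280264458122959559977607623985605961830106889965048192160695261652241062733783733871075354499243096482226270718222851188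318213434867366464737150730123707591742280465163102219734178053646495135667075361550818572533617920687740856900489693692097799148387521744666994570492032184392208185516516892176336655470957106551195981879769456170328366452463874822416861827395801876588227650423774537437553914613995254829118606552423427457500212185622603101572580327986336888955707425291935654604608913493446355329583698141978339400019055382280377351415931053103870493857808109097290400498686586114519942520088118164173309602961245234685156145320335931522234974411790566419608152152208977225638576025155194121457612736272401747993192388739317707625862938768217753263957047747236482988129790681715096597486816714631670823640748449678600755096894112493003094325665519229295733012758894487215650467439181093432424697603084344739765854740788306633695918177832891210434194612681034268055907396092794345732875388225400573111703681002260663838510615185765374246393840360649963791002950887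970474126010767429934993307104676731840205974386365193127272057632979329516807012094031291584005502739752049956120555480964320258441584319054340603421436712273807948023795003828992119494510484133201190750406920391351833932493295582470550818530427115515749743817667499970932005063084867683897849760294703020970441381827423291336016118724298095788997867659183884853049554253501565461318793356365363408931996137015877577805688999793347473476084240754425097420286335908529608942837116682169407871182979032789603944919077572238582408928228859347935952409170955682110111611805380409161830691509060019917646870492448023910303259769023394666212313939130370404340847341891097357056960153007149430616006769150278588545234176046244777381950516439487029599581420955248790794821415161964103521118061506742285702467365675032457889732285481641708211472907827185969225310062661143376201195478105022445811613121818469882990787851853969802908724361493850946645086461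358160707532080390098092294792259108913839981288476133011173372901278900180385623429077479993076881592093293495250500385842892870870298933370054293812844436317634110771754026653900721937354562876048969085525562042351095283069998354340667401665169843713625550861335928130092114295290850722821458938044378824191253926903827610232422869087148861209120570932486605323832557884349212732738072995249084930453479863541200145877063589050897256267643040240649263475809041135505788649167397038699482598082133572742058926966612524991216215608064810982338701037230370529973821388325879852251503996935887735260778931094314875058285509071421404997948407146359904786688119919331053691582926677107275378052858671616634071838373050889452920870623830336607169681081420425672804265303242411222071390121985988062138794490169765195579251217362034307712879938943499176550784882300422535479202685771694486881372942415841905748593186975723076613895882152517754032175872898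397165522395916156551758391092119501967194192805486223548399782181619054562885227491004297358591628425366939273140720049214734440214366925585332140352753798259742847888472454324173622238845702552995803736136410976399719580292802799274125379533019352569317988427606757149741845858732952167219061558677213682469648891716421035366441383121283743228951170737323876306665430338778345289904092021126937350160262445308289004050808548864332478206709274591805064415299253458155262501525738261519714400971489149577453140357485700429833497900946075906799245230750833706205454503941929542897096413233731125658780562656055127453125405047028515175145886916719719073973611065225379684566722971863541629713708633386587257297412564548357650137653641920328251066339176081811888615256511869505940232288185100351013929251779879406920537596654312806800437707575707751021520728510465993535297789493928089891863936612558462217699199540295036391228491955459933230348578704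506792551248943814366502866772825169339521680169851064457858250237879116206509897661757888904465841335707920613296070034960000951585647426169237943957934738187383543890580478947688552782772195995077990455850762253291947212310941269675866477118110387931020966727233699828145177258186214087673800993488999651328790844880214696593623103671764349818565924829394362455648805677481745983527306973324167745690466262434472348771103016308677146390945523826467000125745308035996862052227303777874190658279203914102504984574227310239229845144682419703657666410619417674074309255420017023019219780540269602455354920506436053994158979514691650511454405691025016933991545461513042166728230248416730066699579992241952073926606574757454035566837296078744205794087293172513546516099468341397418306914507034572239278485362307870323557816970582977961663863914074350969913989566303635989154861039464524206456608653845179792783519168818979587811043976764198028256278442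537721808471080072703673735876903641766109885170039803626471037490036386234605285795906682861403023513881544198498535517705886066130272345199875914517919251543840019063349416619588523969574972876732371802426568282263482470965466931674730342883597998340607998146475883779849460073170394439695268099505419340947520310059486192101989341726929440234151468618413743694669539253052130665809758051866308933938909071904681420225563046658960652113797943874056150697273335337567153141952852375740423815461321459808582305310190274293646282375164224180768630919889753577607883339354340333714472543642157004495973680311108626640375837611931393020188708501971534689827518877123011126084421168799800021128322320991430759800362927480774839525439205952045075521839938359607536061218976964948005574586383098294993833890141123373975460773335105747990185092229014570688728276795711320279980441217917075067015615309133489472253687882694923740431900670026772178781091793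983128270536138168897628040995162207581812996484887150482069012065717361254360011705039742383223958211394342878206044255755602890370591458804397707900249830809652182204667691808527038859130459182510710203134555112899515531603182904738296979957166480045984526932126096234620740086063718361452783561121973697013147396838753014097868203082583774220606854529570280362670857951996305110196847279518690188904589261146027264036476750177814526066912462967433599521604056854887246375602157615066193708107624782335448403465435850218216311715497054023641388388027164064074293076748669856833322580002855915446506020027702471679852294613745636963907377364357193121564094307034949150418372099166124429184118325398400627208804691991459508252709534734986449296082802858559841169647272924672947702938313109416366790876535533942260778758788899334714262156219752252111749861659230112794369085726436518823563850556598701256485642619009573084639275835101875208300236108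296215367826837136203938282102772118353318852209026136642817905159768100002240586100682732386823938281678970361487686790377095248784529865931696953967680321362460923504605414628204635140607751652216831992318412420454813739753207786242991878423440774772841175527129971308541117720906761076230687209331686780230118677608687607479432957750976214155425696045700235051045710059856530157590797835983467140491233836588106850753736200033789158133406050932406828858722970454545005770572490901985458768811435411997172883805582619000007909210937379315961939682345793541095368561932158493569503246894740613901877620575757437492198430542825824849564234720224767496009817149089116076113695123163849004053494600123257942434422456458068996091984713992782867310748418392366842503785660980856754212222879122333003280145308842184019541968347697619450631332278255449298263315103586181941727153998920515713052600978482737801946240399700457166918221856069003168294319012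048924492584904022814394045359414930231699149711680565380629811895569329120421038237408211733289343772902853307789296371129175266724364222999520241347617049875826018655764354677903162656768853845367530789612140216315051978444898164888153979457885404960719658962741053830940526041638728917104300834322362869784148063596774163792471689706730303067406663227432972872106710440872535473369346053866323561092810566067969887931772750140712443149625860689098177270026606819045331847833406824034610338504735520882044643274213366398818431294683251454868057779673504395547627802778095788375991497593006648467695991270653445641167705286396950982482687158343859876806016819960247551848404116225226472480833703807887455981777436269113442532765048029850902814536719939173448758067407975193168679757136610344754366660961672356733147051686758012672649330024134342220414452571295549703796608092060211451083000323461282092061815752637248238412741104145429376230734616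879966064232214242410956227503807008840356710520526336597042036610475074051868153566953047963603870440977583256235479645973243342795005080716783619948163517074280258436074918534298353761345358650454170799853236052890835580814059829834813747130802776191323311656804919354741608463302190460426212961691732456293142896561203532217208081798188611870966609880552881867162867836740246357037211278321298929616754330561988196204376530255401789105473374087331741911816026757268636042073518256894671577815609117842279204458628210912697308326285164484710027674988846033565148588944012290746678346466674592739148402303367357478367648128017246954360775942723225814811974884090357337253311578930142714716038355872632354639950107805437860191491969153373959752816734330139194189998416841546429342928374562494640078547594594722153626250367720025861071229474831696854766173375765891866409111944388124728820117664603125689280096857452619202676513231110094484982435543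997124055309764114896633225809152432530004989765564659049142084368545642873407479445721417176998391190331019916029703627523809915268084983954638407439335763740533237927004629489884595567725435377711439772366826062944629943765938261525232703868879530876506925131192068174810737250433411243333977244085498098688359054697721679523311597423036190021701398503198690871160805108977597597395343927312297201029279896104103952844130275499911438273425319822691349245060106771778257303373365181483837162548079188135781520026158646539534317218272044273351172779071526373812420232906478684292275898969353259962107613934303192704926955729350007323009625889265010285760520163841874716514355690866904919103269181477662902525985596724786831618639292466635288552474282842472319783023727660601600839907575940311010074968890784321820804590828594868029551919542890484865993756784723449982068201735777070995472100994978504721581484896745591054706924314065817474243207519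5163031023934119389962485464974724822921263928384635666256215593482819927589500129092851146657033421754852484550379305389884293367145323010029862746735714291886370640991487483949526941814355137199073001599836394956797418877656541901527839536208550839196178857508015322003101974529400339621699351702564321001528723414000225027550449144949394722966823759944044909204164050380159753581936843403443174408168673750230885570736968171205805016706316913204265713765018607783021903454304543083996793922563909741211341236345007388998660185699317311812227544198821183488)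

noncomputable def rc22 : Nat := (nat_lit 24100324010070798199769222210290172035374908683463441490149528272525678402216100118125949352888806549636050682190647773685995285731495101235092538936338113813492120313181613842547094573612138909755868894253249639825946213584827577016932866853093288602347398577773181964397355751994216940185892402061620876934609078157983269341834255245605415750889795885759593258061941791600472782319253999244822400005680991684416424155628550660754131241989889425174404916803655698709007465112894969688751400370349391521199311020602494296443683789387824944907663746637211812782536279484364131842224118255746944221559415953986445560447118038339395278059872419292285674736058180628830892864637918005031187696941491979867866877328221554401936578651366913493203564657578800365988838992363306265683781040902714403930923601179433579024546036158781229762422477523325498759837702160544921117869148975107155598876028278870843714555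538730144217689858782663310550324039489746769170614771066424233032555090689724901571387259697641489380873150179211116605415174858233819333742092289412931654289077006609783632087252310505910993398509099429254731296137158854900863809051984584793202284290188197995368891689037775200057898034005885061838732579821218877274341142056626530483885997874046825829618311785562410718006454732502863983148655304463047991640092334966036200244238882245669065110611628011107226822607917721357518791160659058183417599917411316601474386399280883148465230371363056840773782498930435284322354372021213481193501108380874213905107620484152909508195386271548780585752484376528517406630721073781085958372407196113043521480368128713696722464817738451036205155617929453970542002679560966113173063160562416185049318210637414387488369226688801400338630565356926819763124502131424389777646527671465621747066459185111703731395434012352989635089825329460219004676655934558869509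905635313371523464547884850477499235390748810342396942303537786323152833119536369986760521986887844828463393426389430624323685741297065234098844930581694443539262405057832886961003535974357719033824251688410690616881930410482822839377582513290346016234852809953569838830134420199161565421498392809989545879897688675780299432948480280479763131123503100604584434850005606778072990117677153959253123853335462621828115380968991615597539074215009530617427873809622569380028247791961916970168161643665737095586320544349726330520252659459152571871148361942082136834497360152386214429856035827123620164569320469020282676691454615010365777940864999646893250494840502375376877265890560542901557693544134730841882942679968135730030930969010823389944767769132102537698494913372515139791688375981053954419313889885267972217449646981348832338466140049422321286396068658102891878398071265418559859985490297029679575412084491678038600281293750139984084488591334981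994353412582081864083384605035342638438096326695979718368771921173303715454293464512033189190348099368320949000751040943670718471047176311822448568477256308287172492179830095405125399797451248735212817229242884704564179638809724177114799877798499590396506774886661360359009810307666090926466769139045460905992076556818983110629444961934268943132467404252275567710084479617395220531634999386017535381477760428092789317148874112127428869243881444289853741821262342769177855995580733153011802431009186694082845756495661371919729708957415976860027325078225771743809313250196742079792717290970014860872588931178387994378580915950294155487112087897075076299634492780249990205225269502684393438780996604977827523863874835886023044518479061771007338315930780478527803333879454544610483859370812509877545847799594058067437225176902789657884754146911786058196629828638245450252666894854078207521048440383816057367523329044348791325629260084181673261701935007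928590636965547569076493661622062828065005442575085946089210263529392607742057478563805466292673955272471830675681435079992573139860902242322927543301126527203063017626187841800537232054451147682659408268338892540182689321149615983285703244432824804274536214151289724191159859994050755836861483526019500195505636960697800220591088589638310227439693368339106788385423939327034113303319179506287541938151611791138093681698872331631907516356844716309658669300201459214943595011775136192260427202890617854701500515164248029758857070407549567952313271938651753937556517549498820753591180143916953168574115075384332528563765145295913408124942387327862249951136906922096812867582552442335553630739429128059154512038634615964278496670872273471063993055318210169971152838699341316598927911942885676571923626057044910242319411179206993381303320030083486380587725074763055784695691085891408475936349139745128645329633257163535990625073301066859228461827059374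798004382470444021076913469004539481336491819078506800120975511602747758180889396443156229753690943000518479279955675239901393630168984120322005177084596375524956910694527057566178529172567940304764055548606690885918083864858484203222568056206945150088209831637438602791731611556395523448380526929839781061121647087059640901032913752226858179318813527911037954946184531022099222880547861616156184101637441080733475433598042676889121117861722747349633323090473232284050079304588701559454984298326695268311036632254653396886237114396461145725473641057335644865678270936488747444983937497669827113100411079474761103453976942119634942876261493134231020059696787126233540821903938436676057734305902741715778794670550508237666886392234204848292136520470232513683032033589300158601588185356135967473624505997550898067827248478514663757537594915381633162908522994749023851485102505915545889961885952297216983353053003826397835765234734097402113744805578540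243382944136359907253960098249218830132237120860690112434073311082811269110461773184915997294632267001255330968771927301762378100230468601547874833798469245295600928543853891719378645932917415447286442492566024828119768318108021540213871832749091224367228762493140438244197150208056532746751612329887305594364775244862796165753586491744796690299087004999443478949008382938037645317639332688781965869796550810708918830835881052049927873967974401007980082966480426712192151780997952971887450578418807428223927237075046641282756678572027779579259928348225912544316774557382453032001063833348949406247127314353702782034599875164344887103348528690568712224078961208157603448939603775294526995202564556449251914467161413141662224000055976806037406767639616453546628222328039732023942973862736667532869145355348980824540945968912660751382414809568938975065717698328394341905354550981184101578975972360603862900432893325708158843033700423462724553463493715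832218243607059419482472135586913750158376806537411141611294645471460820577608597351899778132171526803361565885636564093637582715105196199951502894847269632903939859509207460488556426958734443563928720633380654577707197677363343794543924404463233155128249558971122375979290825230914748404426846822876928479109068624222775649798261864234345088373451798328281022456981448534993252063203630281770206622848653899035503555737942282301166927379883416915228627857839083497818018044413636667279447479230497638232793716670308779276807118534196144053120948177038488528981086955267328795639459983643888470581411386869834558405297064917813680392685682427875390579036177229516344241200495413801118285394341238363556328532533984781578720832002559009303543211823962106071814361047783733216486493730781382941289627619573535854098049825002958754706884531459705440743558638258343718999482959809414112015287989656917654810592412636762123738617846853169739069327956087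488679269383984235867898220768098461660435079094394987677686005768325458613576857704763632859693171905300473641295635169583677621844131930110579931149979148559471406875422201302546013014233880238486670601355192477898296233388460986910693296282095057988771361071422365722918798612664060678006708844360257743807670083787657970978298746975611213938051029833916171405198401973677505260273137028561279383799673362160362362118808320912382235574935261729016800134551732174681286016965149309306288917963034690378800301268036936584174231018337453574831763452860785670152008343220524224680586760990265728857189219243726171306428076088067770448500525196077022882698840071363220446925346574939064590843334228996410805514828282022492629075448784217500180937390605800711582079692733042074821565585830336475163156803125466467086214937478313828541088042469066524963586810286726195153307339532594399567792914408557601092649632924932536780608060825596747370382734641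647101311203790484308212037249675935565623775323535925426295960349237712493706494510280985942933553830427110268489109040349263579308676627703520193000959172646827858574169923154946151595039259927671413443327498624216247966509498998262876251649593363278170129188642416412362462978292205532027836654214835049978775011489916929339854591534365081489637644476139124964889843213659140221441843953157963913711742341870971852439530033537816582814874662975038431718811144978940328306239277327273855831892991654086864044999624805748183791457854542046239619780486305476494460334719181444061177309007889357160406519693946590742087380911905598315601592110883850590404646182261333390505398493039231488939790639817922165494465070186013689855129085968086672820100361633688029517147493262848470418646239505430623641782504263629181646682707773367385584140071781227330053208660180797137305509251533417766899628453253886395771570536887613168911692184958025149508723210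545314457815499506209244236830101925017452379886705149927558719624909868278480791940497182565418002624194268088320844763290498145641647746762014444728910866344820881237660872080805443933996143703402575167128147075689966550399161072692171700406899605071564360257263415810666492001297690742597455657140627860840309577277719651976679153315523433516508072589616685833638311774168431881335042840293457761511309033149437452283546556939031302218952022072405427335928627237879177840591873828027556534840388229448582355385825432921233780426932483427795617704360543792451318484562691679596332047282862997249180902333643691713764539247316884135705864803824382372644984318155483493653540762479263906900258436299194220402781678992103909127784694894644290418402970626296888304142474118338621254571035502578342469465797672180494994764403174604914997984913703976414009706100623894226927741260923892584629587291560787201500786181591431654972451776118488314336786915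086186820493206846665881094579441219111811914599223529367818200903845815946728333541121865509182923540465065132217948528669861886935441699452165495916941449714239927652914138603530841542571841254770609828484649526822130018416350537751876896777214351767645198741122351156819935063132927531664955955128498176289424581476662318238452495477628045227563760557756934107735436949794890895652087616906609990022859316147502602978909907557852483246225975412998330624895531091194854426098373527201574960816337033997678636727618175721058339327514149975004488391530777865056020878851419710197759680824591661826493248463902606940013980479794077671016588321065397048464291395455733003713560336194519840867048923178138633958323493929165183713709276930545135038778290323424421559260310085346102946962739977569624383082029657247309193271421570162723798675886734713967926454879994543908038680064862346292795072911137137993267722829676903524222464226734902913496454991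242886873428168511814617371686740017633113996778670481977040549778693697594727834025020956757831263238993503950514758765629620134596936928982657321994859430332467199853491148234056487179590689790655974793453983237576825844986650061802338678781634044240150472444164161925432361919711441399098476479427025790997262717697481194433555708419724981288477772270728196666304914778038460423762239756246720418599213042433606543374888234268454823694785584624880711812544329073512840668183087177344821857881445791775146832247903991165468730260300778728664115593332370352143030966547077319233079039088826355812969533984860679709168976755912419452219575444815115457748023083375201907406174552090813097169898708810883644513149355832496623884688259933617424636059976079478502530647709649371920314312563450300352065997186729393017896394308047717772721579258727066182530396828234267240669403041784930612753629506209403398676748885610511558957289560344742369258741880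914546224242287496124968541669639337178561852750048756274806687567504892954554343368379652210044162258859909752417509531114708816696177841937975051570645562740589974057036060215329881145298865094359684044485056352764935113149626489511322039915804366348317729263819635662090711973502997931330341755395310131370983763367078632560440517822876547839726111029280793986598057276626306935855990409554833539711984224725685220458768940332567548293069547162580370404113505621244548037927610255871470769325511670985627935453838007110688697165025071324430882461178899721455818886929720510025305569950872760995311603490252251879745779618482117316793912293234744122883914397420315374123699449398656175967591618161075572711836130792504906138384903046888924033209951064359294590927460039038729238560251627725376640310799232291348524694276510773186449759409104447996188104572861551819798160173806806919415183840906499792447674077248595338104556827051390051613526412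245061302705409103713454603716198499579462346673683346890206727472538849522349532013700495039713028568864017353471302760781460496933777399467729791681882970766641540734092327124954452954029207435955607928614955072899236641917743504817228852230090041451174667252216412340864734868471165725202535470121149822582433582413059468661150921886782224252790508708014052519570828015720063059012803266055670161263112980952607983662349599230556627040189141707532795263083411418698673942018452136075322544845956476188308158881506721256690267503438655424452531639529434984818800560552372283611607657090179225250423314039827601098055469808175671838378046720959334010350521866698981916887182676637886348310525925663121946486772682646042118763131004725350143807004334955337427757643742454515735514150986763436751752783717655028394371351444051349011160700150411234043853301087712523398366283111336533340161618258347845903720426919586971194802547422434592187258052857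158404333527829450958874926849506494267667382992849199645952391771385023221102340829789169063576426000020545869440356175616792807150047721265521538943500247092930081058609284051200024463699945077749017939497404430578591005152484585098802690876346161439613237349812625548505359106342433165326842166449862291810043330528496644825008767218901914126244998511980934557099874032215170330987743435286681757877248237808613365961468002884333958525230157504245835742320505755960011693328869054640082036006114346388683342041950832050644424987090829914640318303535765815975046828904919947580776193669592087858811251211245996758474963542746227408148105038159418063858180262713073539526103844904221181589853926552470516134523258001968805812747468535054201086022539261268944518196960723867075545855170609112101799718896236766615050050766159149501533623173470997288673049804213487857464502525521390605729405304903708528827943023843114459524903896611970184191021701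269718211008034705800626102444672138226313683910664397055191609997094237974583613708640568983330128405123270010257023034091557763519861345189532574527534964418234322948729522996300532634996227597256822054760782238592656522667582612946940774371371462422049116417948783146734928437613962474559301968088699817657315794532855129367890115899926758755594056632665706117406010268283360799668775862224103562692182428278243407255083535419768601408706018456996070400310144143612037613699223952061109514844083756466795047596099837045771835520186086708717480425027128424157539885248210680717114900536109455603456936094589327830923867196450761515565936910614131850474069893372801381527604543007413722139261805149079541076988732877945391325635909989591921578953841428608417030693413230058584270651530617214256351094287691440859736992793654625046838342169084516430109374459117273599584940663323649142036916949026051119069326660254546978491277124395290758815105891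105954655563077620308280993863765268396289237321978200268575306348270897367548886738447506052782715313009702888281696783679194380270788875157640931819030834698192374784084238244187547162566067648863818419393072699281610061396555860640624858831581495152316382636650872916818415727386647242810298362536768424054875760687872566467544812546979730225404974009659828838327753357350499558807182681160443297426282989459005850215978460231015457686781428059041906520631469615747876738223220043997291795642239907152484470351383411412907974869445288459004888238960676928600873787291736339015006826368210449765506709197612634794975720606778808566960588646462909238650658806948958092266940254150166506289799525262620276342627962079862193567176504878008940079744539461645130399446833092546697466399283036667686711098615869458118966242120526299051164001316055809431912756759388134327015126529498077025023369018386710928212311661161048458285361998921369150940937698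645426188431096900185872625739629093260792481803384910369553370821644100027366439572449730723543970842776686895509208951337806811753664257363044128547967246515577644964322339712357387809611972897412564032504063641953256505447802216717952554704822034758698589524004653506863010171450881214126606196055900291423790102548682062075714912966740154261437234319513725118130492594598430441536557276624366873433405580529576023266685583567981050799426927707676336337945868196087546107944433595293145747584206929828484043951268597038601449667704521059363826461814270074209966519848115395365974738265576279442912113052933402041048381436178984696175863298287732840051017023540850949330975699620718565130926346779439706540149531417488376325782826354009784278971744935692527698588964607956275103100105856290136849364507027999233491898226806341044504157056982418136236408296122547123813190088255322920216295638184134020827581542736222341253339941086142677828699913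7852810951818099194572096603786764286636422084569113694672906226522416042824039743448188516107872705622696179526443804994626452542966809096397626452303194967409257269804243440151163307922199455396558253738198642888853870470319436051931332463809479565486086085430759258256071225076560248092677637577069085934886549609450504431933569115455932372668114823564161956173013768307117590055390791002441101033885221741109624256406433190990962744003065619269247898375145816102315978746178772540579918974611773210063912259290911868220137512303615116218803891930400817152)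

noncomputable def rc23 : Nat := (nat_lit 24159963068473452677218966471861570879056334067115763636922888521695920624837931150835371969842356207917815264598886609866316168218427612774621189442763246466184316507853664403714219908446588604250968816564303355606591057998397869381512601708751212473802654603341923709654078258438953025490148150330392749370234681509999526526019795053513504722548901700926299736778711280285618453724890713754885863138790373809658714581325481402977634037913680346589926418569203520672706167622688501723776866240908252073719320056567105419038260776285325058594960926196472167861765290661119541414896157940783137467581928483652839795097489437358964335980220325275241257903368150801580432332748039655835491125757861097613726522883485124472392378280193565838376550887238273674957947471444326347437817139913882190981831967673502728666466374432275567156309950910079784461729779112666464920073119325209729913192083176255489889404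523668431342353609697423580098515179414153971416603500345224419554270552733097824774253041190830466577175787081188262833481001883853566884922173616960447764007323519058570598019677723056961635922381194690362036645120225026264696538436406164562473438722082183235988549614494513873433422154086161684583600012528505279428752275027315841123398353845649948235573955857818302957449764946646836652065739352924337125497931435437973360989150012849047546923742558236503149500367960491986775676990237241017060164995246625891160223437268985439301831667915792849310436281106104788631403824361546863269602167067861767797876135260095819446080760482306106669876498810761545047248608939189288948540899873039227473806448142564599057603395073169962280508854159208644239641394563937518776259906632237569996333019183353085169870503337031639633136988217446349629557931262360442872970371057199218978065264811789247091221692418712652240210218082305779596442680710528675916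191430465047322806590760842379637837315143031334139843531446862849349005789974096544210274586720346423208908321188282185807063254892160795917867545780702199487908343224671992886508827153726999922177317751250157953815867709593970646315647697369876415308363177250918003557523142541501354316346812296537385627728201101724779876737082185016410836912876065892023262102405911698678640129328779455959297510878025299369442186035883535714798302938827609432344977181121473309990861877681713411553590879868630596302720106016461678137188340570771930623199142761789455387901168369641954234005803325374714798337575573026257957900427807906628216087806836856513292344645772658254838858020471691066193708289664968197540541179188314185994769315766901910466173122601529306989501899766428509870976276999543569380923015667788705990744793201364295058473438413886074598741760805294063201201607535606782146255622886340442186112038928889701582791084857497302615209959773556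344054465150798769344313698770333116854343182739710396496703572234385592513896729441220318612802020812352254481086670177002980078495840873917889005035475842021387558819171219465415429298696993720273033989578652998818478307377435275996179951512460603816597537893923038949548212574807023846684670891097529834125681418453321355667909574965814946157136235868420511287870952220812585333049692105093036076263526161845698618220385962601843973154504369684055166142459413817030984995352309239767721263944103454815245180088606286470355687108017755935397592479007812474371183678301067832712237456920470809824312526442648610471577191820405640229799034726113686541795746504276485238735550087214887287665161176378708080837853286162470813308013647264679112937980085741662081923147105784023609231618394001048951642301669881458054391913854173642343158481061732455046945040198778119135442027363812513489415973685420106478451528079580200919437776690528982792339918317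620902994362831752481645899746910034800828890083607879645339122499383789071289729399679771209937080125012497200191167375649399344302711359710651710950973808144253512673276102061552754591087441113800161761203236914285433561717203764983682351882300000061606520652482890466919169113282317365103426785768851970108169315514797621096283123677166666744909726083419111171079888039596076242558439725997385589312198648278773558051246766807299936627473692230519274735654966985488172013301334942044898475398105983543717967089333978546290040584332374790029271660697138324136561337073087604567243154690005745165285069814747476808882713996046385731224200725204140410519511557169701237742944540351012697458852381406122953855895595590703409688754053416990222309289194243387314498374441395510777402192002348312062370255080955352393888672459993799121136046960132712488519338106241132753529711948199211395976440658657805375061063129208182629411153435827832312706316637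918746383558290560821872339858533765089920089937691223959113237290058936222238713321612219651993736686372934453959113405970436093011320038376175804241606865686458811893371861179915229414821419862171110429139174006361317893936581347056822201855957898342506471382016229407724627862922706026447930743443584160281955331036276467168222685744449200196015047939641143522318478493753589198796254780411410888907696194106578100100219232966470966451221358855268683256201802320528321497118602781502410289914965480571716959966543011784911046293091146284058483623761896730987651833714775522216052775148104496653057078275195304243767267341644050826271352448880664833558456305997142482634351370590814673857588975222275915021836066458707359583241413052250577484884825445894953595620652058289038053486899779143308239427999548641362486174177874506489701173714363126361410255772012918413974191581652682522442243904892564286731170048839631344934928006641222290606224385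731736332525661651158637770380256349299209875453746418085663398552149820678429470471899941941284881460726402997435118545645866197386039593604217094961165243804879245380674695956931431923217513886955061877759782551437651336789387655940591024185461742851219046591190342082210260497810198853693117471621077771537069650964389877727830035690398281592582525878757585470125178425012781333958467636551553396450366452209940064090953752845702438152884655971768362760614591399116126995978416854489254117754501151639539151070029410897690959149797483143273685784788240599738261692669572147593800000738457328145488235617770265781296845215486606467537685004677543891668446832021886812706180148927714425744731171770229385027914660084331402242868090946909521195637583790902242730050633037518833479429037865463660427169251311360824392955053298845845569032685539013035433550923413247156971222760740261738667801844373433237290712122162556793500844414298810009483417976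142116648299998829883109698472799271645169359185680798602690165327952886112736747968465859716460250797175295433003681991815878346047022843775821049205383481157555582381675521810215070193057395371105379559272488670916539683896533227487262287189652813415049800524872194296934529730675739045716728939484338090100719542963313136773078083929338855124032734703686025327034965668775397276539892890125804888607315424459563072136850662664501353448022866088738630151615499956885588550732094510733862335375674410810928325381242266452300165705825032550125502483532444191012302523026077199096262400093086957721646588117122145559706621692921474556980361055857766016202445905363564740012123941080641544300762471563813680428499995335401663518146634319351234075796489390163540814579251495429700458251115027059766388843845125048841288735995973107559242725474114301625901398999046784316700526289483321042307999685204869175962776102568753711178149070868949035726911017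011708479934150293901644925217047307916457137396754412459381117829311689570550363267894385809473885457370348228308502216232652933595989866596709064613888609470332583191766883975790506983703670818969057561293773203132445946396331341224851243444440297273533429234600434383945728579563738849951440375495784518206196421784980352654185618593657072177982421157821375740014931775891279041455585639971955273329917839589666942151310042803889043593617613941212297603652764229582705063743607140597595317787580750380891003993868564758000153026935418255681948956101012155488213648992579007911094860953222724653494290877477529915594414479115015578927259337219676716835678270557951202209705216405373337068216213916227217649475228061684634125444978170715978615056147962990151526458466266997733267833056846121061935464763727272956974590273950597630429129811637270487743023567570214626501958682185068005718759887844445613977699451682947723722853720736531039800577095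401708210884898219277824331713616529562842548593840975731061290281463016449770512865317659720053450859093229229096063249414294087017665136191627698345231805471737129009074010477070418267056838280869365904851369936642829887164488907934653511426843857721733075589881860419546597060225527198287162189157764965759147563387500276537215458409013255326808281718356083880979377773847175671832495802451936186279755168013771765343291536202108702950471774269021451246184155901023483475602784555254322643028439874272597025819814326093030623617233473774845460467788654847125186419661326431863113271913653886385441570848569265622010452823618212986472830669835274854512956075333766955796348379172333179960575967934919581891461151490598669067339694372341664528926052633359044238323531186161181920379396608258122232660048902860306280024047610339132428138569301862633911854689756391273204675331892151398998931225800310861595329560994966906269326253209923239990404352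488359771572558209082022558620385436969778202276280821948581287306297031151546182492487938720823102786370481169053026808196419909966522206557745540082644897803687034284759028448036733318998610416270129331473518929609458851190454758668271941138687697881796771872788711787069856640735712843289867920549950472570657102549456624877701508058665427000946897442944041644513942609197247157147280144842932958654462442658545992602466477183340321505262921455547719477007522381946490013318775269783216996515738425608038743833648984366068106201884965312997034321619791810462952947059271660666776515319805723553905124502682533237681497358923407329590447232925678412233740849537531103314839038162221752913174746743985390659307230656611669168715127808960925839618191559091420132660315689598690258065000328424241476991903392768793746380635568364225268633649510091770679501121429052078844577058792160609668198727073480156210460581524823336355125261637154615990020750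201363078798713228252273831812238830145778391041174876226147745385681366553624985384711162918895012026342796707464822612109861812430847441407688846716870994645198586481053122161240277532556379325389076673902767505611941193915435778184319310893103953290007927127248345705877769217898389111995528742356736435093683422380428327902967638005756149057989774131000169281477414127424803347675713768624013494993731679705185324897009339301528557449047036294982371415457100132588385314283657558375502035987242444901709671251302093274341485469172507807202795006537770536688120983071679817929037485114020284193555716304623339397090281351373773375799218446573393169540022309633602589960293920482639489815105407277468619476599766333537456815664989424158213392666840511256985316844700178801905026778304543784478456687863597316254195822495493948977336094490819565470513657985078595066817997932275643948332383423209366905737859140583661368242113450955578725314406457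030958174834720494930746792400765732805477708466840697578767581670481317907355666524573050167448906494380622622519145206861006168859984188412112793542899981158486008222184284725557260432175034849849851941654627127207784745424645771462526077653307407374045892801115088134615888069163523476651879425396190446898870933848047996179558077172646945822869902055197774162686190558070374012415554846074700549838618731845906288471398288714311589786298945771264438422192677570475363088547444256218048786255740727209183507961152412899015038052882630659410687416863120094334121465313597258898814556929632747764660954729528255412511515100636423542483173512745189657388551866069852987340413488657294504083830915593552433400208073780831317209925767981305346544968867898859047719096545939323911096141239915861003611061266763042403520730490202303938873455488331613637394155720663293949569892187066321023358891255414059880796228442173558895033714298640170125140304942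781667085230087095225515100265950506540534607199489850718275705942058077832513963969824740265725654629594256049397705861407089420451787237188089617710342577452646453757720980422460164080894942493970962991737282528589796601132435346971849314988984477530397151854536742298973467657461536038715506814675380198523702238637774200956491623862535029764689222857935013962801094482791418912480903148885262588915801253576178688969796367606806508326035848660139667004425656134208803555181089850569486139116274575387376654495394931817717729119570217341895092670050518707827540825700315789465749821114835879763588548321185101068337796534061720104000937414476619856667755983743174434465400332849182579756633760604740086473680610653255546461472555637219079936299848530261523622616354613864307850067017799724317303694958447250536048148590663434298252215120843476191109502389892599194383250531242565106583665563542768749367316084146707281428099676757863145930733924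172938608092648317688338275003681295924979649457540127488094437694822747924512943265115330778076862312471709369203521748306176698770073198778504457872167752527359158023632495575417904840409507153734561785282582398541908502424573391829238936015405769091204719242530181860630265606813169454082337249722317796288968132627542937831708971213144194900318284065115362083362588914913204190398965174980750086720235535634799678790332590304853258500496702047235902405761602466619063442121134672866266692267652133389046964679846173926883043467636841818105995435773765607578655141467145267384239407081883904772898651845058829152383083521675663510049088941321913918035847068804553792113049986454566970513996893861970181595130686315662513208212548405027896450862179661192276327396503448053502894464700888204483403962115833726362764314527033134618586294773823238885298372249509657794527901985243400419459925002165499619016272708629577667622779500294332179458032798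395929939653811562440339178990354842280270331048554392663860314412050340028527617684565194979559131071558478423048449799646330079436905714042544739652997147227113865827423249425924674650925594289970580942888889003454268179706533266374566504223032653010866111233996028312163538873544007484660732855653316015675944674178354112292479641070195291847290656704605119160817682093719940879174533311611822504638140249576560581765739119537662326026873601036364367513817155721076235342816816200868430204552994560949167137206548066153387375256296203488972642722084497825963164140975620275853518504679403652456074049616048927188579826611833286226371204792552036071526571385057078751607232693793847051983404001121943989243699343310881036708430001269839133860949471883452461351013985677170381934535242574288960196627209169702806512413188123367246935480460773773677841306766593370152046666467242076692529704283342562664731519321932945926844604699182210452073364011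937873953674503770400741745597956154499442980135899639957390388934284764410249471980108644741444239146318784551102577671331383972668724820868112533304431424183206100203022319376965790124346690516912234576985602291219868861731163481887655192456299108732213236620313353107975335175383242252721545460350422477362708684623940192141278611467056144284741693256351826642183384505283338379007607486278452304184618608718139926419426266655250498793632022390054115798464606443515944700816152632663703121804025538834457171415717428773847752907560470469779809758656771871255155898688651583748772020623819339194211970558074899724315096886950586662350670154875421226735679919845759749172200858385822641601849926705661971956710594589239180512748529356209712469495832878593426460030312611255025007602061545469256258292926755060200109138124960647058261897187037362472653350652155596295022587519098316373895087119712801245313028844978689656570589438204309146045259411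938138868186025049548601628488954323961422043503076003974626006899621692271837021585778531802009271334378729943113162829116741940683272174152250951176250023266297233449009401395688321396013519626354545361475198162316894145194147123622175694945510595094003839401660174012138023552927627090223243912952170247448909632658836620880925002851335303092415150095046049981514555305558593464857422887736218680151885477870940804100556650297915572977737660127691328386720207748004659621113302126717504379283530396361880815499227783566060059183879511305982863345462559922506456704731977969076674602812497220469827150071992404051919243966734228898536104369315605825541922750016336110501894132826830922406891325630550143456066024515336798544343135067619370264752693708082596047140571556007732743320699778147625228973814669643105316738412949869690303564533166435795842780715764582256921768913347998712850692406278053533738985195757153997659359999478036156890251033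485111932840895154285319378142248234310523921007642249289630571755042159353766910554427203832387786767514496157897227606620309375710415159370195733237086461709003801828426706554074646511316897646239743416868805415402947740920020603116766479703032626333906853261172207243427034976862128005356643325028908757624795231680996605823464956970871886403470688204708894647426486431115754383634643257936290595795359697833917553650155961600279654777560389171535765734456007911777565850878531776133884320023503921122676579508335745242163377495110839725195493935353760902611744240448898373666019285135690767890557739826883437961905773745371020656974280758009647730317563467045862472675712856393565771018548739889863406651667596084535221221991662525612647987740916519177474051239482579019813423992608909476420426439705935024493287696706324948897523513021958151651558981130493811732374766382642959322299343322347906651157106734824138003531638257406669380265466399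0493720284944780021800089521772580085163627104123678388048851993524343040732916049756688035108045230836912262430175026383906674095413747641535173997237684946717317700503343587183706306471097787883256743279658594616439073497936467232136906104756462408248488486447609756939329893801538548551303389697324529869454678901222164244977886248145209461466198881980825404208472143237200443988206134851454779261254204269533770605227818880022044976322993689117554958304452482693471374181448516303332541837766648655527319024187291768679123396512613027582822586478277689344)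

noncomputable def rc24 : Nat := (nat_lit 24219230240524965345710100661501233098509174001581755468585238475295704691108923525614544263306183914380029408437141405242375121609557234921094716138336124563506113146499002706540704467695315377181198844878073276485254969171594470721221304773326425141132324928579126467539716793898675436771075527515533641709542106999281389447120975218494864571231653059349698515019839367678090046471109350602543654224800957119087490008759060204643279113129988711359904444063022900790563950763929739547728662694482406656082885962622228882279503207047655151123156339955317081635867390548456272544442923204090100250639532806436276060400657250055170773379755455792033272336034673793728691821876492464000780044624158518639676604002851366085612074133649425210486082419353121314224492924840467211291976956712369314860608061657894479968011373073710380730937996970600869626418827322504093365176673438868350058525241526858246215818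929460996473583765461818448642293066598461329236636037275151023710469104042245378220524819528251569821491682936278919866992459547604798118878597598769097699154761272790544544337318119577832751105176332611086971397387057812461006942097375140273842074016140502724100540343946851269189392466815908453007071840957518202158140454525119710348092062860437851090622029614966004031300003329233115735238413341064931172757509371528046759800336332404459569310542787339211870309501503398551984853296142208842664433594979645408075593285895913424490702107172192847995217746498872273811983217003941049970469851751456213668300534211051279821133140685964262580700705442455400005040384975936391701671498089575034678408106507738780427352316047702709651343196845930619798580627750374365167840908324702652680772260248879619832781685842848178848105979588338665908622359690971043607691650717067738786392930899261112498782000494044850287690789496173736544824098399614994097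337135726871547486385291583917546270286526403056513546478340618907334475132612848856154733985711844157358730785653336305587725700429193746594134741960075081107792731668810479398577731572222231492626334634116790288223887460618041872002577855841305354746487066580528203699512120596956579084803534941852145488252402843345735713432557198200164072857307127325023384014614400855709366961532412906176534947986007893675245581005608774605260759380563263763194989412906994752393819094154110782027168834444908722435413316481470937668140438444883023425466561196817706621197146934159002163382868077715837932117631912798347137205878373847697264649648115006612219929174076007285588859531908009809124100896178558745729011744082958101374164068180248216573360613083471426534272753107338751218840542593495903168914538381655670550801743145970460358535035121946641058713924054768132307237316919771770031553576897772838564032046010519436922912346275778832754131547504321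950276412055003722282079201735800522387579775843518398127420499399317174713659150963339338619517266022892096587460160961448511206861255439031756372427848499119957900429043482930484256746488256914339487071172607739500155690268833009677842485649193046552928411068071684810525775001613316233453028127075723483237707786906384688214897178406470463157698926890309468827172186862685742139955787697197800943908425567594093956132310893587997449825462027907884631200663855474842097723673047988711788489237092848926700950767286615383380743497394019723148928169962609233677442684131504113549286680824344562568573298002996673968384824754938102530148793114056918783408985278464284458179770838406436145781498889489313450967115976094446307602167093957964175373401011063104962777378953282268204966200738263133482776107842301053938902196046386395232008466493381571154918582057616698406172670893382936908936876163717460024092185372708292307511434315299366532567031377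627166714974032319111694221082864436028856668921445691956969394011323859678772065413637784069540868485729317219216211087346528125474887312214035446762763614823757667571216765842426377526063764348158239823612133802929716190036846067085480728775344010756165245900302683499904601623883549905613591433200659312977719999866604231719627001857150234973253801215484296452624665229432177251778349055011798437607051617632154105093649683027670073379260662282772307854852205042423468692911542972799534407003806502963986909205468224919717480781385789501659136886164564801102231588607805951189897810386068686884870040625198998671181025702101343840895353431823202982691494302852353997097005182847481638862691276786438880383583671886098544836217326243246430159511433930204808190237022743520726558041241982824488464919641432438002485884382573677105758450994812153238500225762040062686044321324909314846659243544758503240264751485926279754560159420665333296799688955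493515920309716995040317955999521849563991397061269946113220881725150054643274556821975856251699268904371635110143209056605693445383049863968148770535551989157470173600380908106152699370393281091724805508901366209389180418689294205956669617172191843206241669181450426859832318783248152788594666094086292881456150079415891513235060567314295613708153694981770052110196847586429405959198041354743003330756001914127617030294337421502188605463172269573853899674078361375164301444168854509079132797508865394379964925287498777270712141538827598209311932826835539113893009054164039659871582831964549850542157450517024044481852951160911591642659953666319757619160024256436891337740924886194594020855009916465901991840738495363952156118009971806095586434980025949484582909126085307715113058900974709647292975351568536088298648755996955198047326537846685657536012520974011929102921792422760157122766867862270378988267255828303959644169080807788372232860149214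790079107203849740064191568580693627028198391604186780184860250946339686814841598599934292113670779401809467950554750521004060645102047801831398520321528758114749927536979598978460892068069914632754651835842430380259037319953154825136573251693854102807630019925706717924644585220352474582719191256520003088229069933543691536720852183571022948471246184358826313428015803696827353446317114900394202327397335033635353151727603393927984298021125074433307073277400571327709458768497588525686137024021449482683303380842942666425394983688889669377680554529739608093776354192867876121823130963911118124003632117511101818002859165651349882548095824664654001578149822036564605898884125649308162055760542842937428024207432568851685620564362532990992611658713630880133564763635129347208093441600628790985004019865414375274164774006648353748714850267665641133614709256989308350398677456659862554459542713682979420515880196671618656167867106943100248484001147870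997903784588738980151194438175456034668506886107693585613517094078980500912269395164642714812302267625109195258421437287115467675359650423459771276138583605650177276896342168622328542923336499411335091091260572060026181541131639893790520457335625855016877286933486187349067745382504388601523772630845945751517100189374383406638721656221586557189930820419676196138924311951800130041387439622421364987405078925434610299260995811103547913245212733773280125647462071583111495466290792445614300931635655331328790756703999870062152658449494936657550247761117655613283103665126933303664857964862406686137049364479850866387474941146835147621847925645612901285654728488775949998389607201760014188757659965043486937631977051481385020702140811150092443041703710241132222287669918234843296690202430128419812217272390124366567899178541675863384923705341061246117970256669427434584212392655012068576473651822405347560787255088801363328739675432139562674853593414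043472670484911852116082684668855985049975946005079106928003781346454596180794350679388532418777006847408915656125085391307415964344633269287111852605170234885269665899332530007291079178470395796165251537621666457343350474376458538943003295470286315272472272570839956397421592955725211639504197956885417410493745446465558765197124630989924238037713694070433738813649366420857840083901841534412488773852327895258410500844570355713084046145330223206503260283173549335253568877537312076477314992343836946977361995553353521073875890294990610521727787507442147594791963344823936532997550985265919132656966321299320441352371774813491571373909496708383720018736105989223460351705894629357300547264662274056390361674022803432210361750619459776627457169925603926143778133989468462160457294697340817457493006592524038957730264930662843531243477597972599492493169079759731241223984727250775888512497720786775774138796243079647776179509869030480691614253638306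619917949062951353352334007609977576172147746599116790951600742983841241966693491937385493543813037969838925172472941861039067885131637020860075990004780641238980396982466925404142529237866041462010897277270556974924628015106356555188131199640522112110308036446776865075679052088740099966535009673160259875602496755186940367718345529877474411484617077378485759077547816397819880069653089492735333106069366795829828162321900000799682522632055159543788801562321118519601509401107549208350367755951084615438265353505739051833856635964981528295533695561005284809146765976705493898588612958769397760151353782070784940315977817683788624177383353283793323080339425557260344622934778630464329708009881739843330884790588397493776119560093684623254406547742246642094903584187777643486401934631700985107745644933074055392197100487167755837689591590478618650646286803535458690836869010086544316372623893428682920495594604711528727265802780225355940414866057639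865657999622788164177233546620231933309573719620901772460958496715130382745886756778256687262968855854295309733568909135239436556137377737053847015809082738917158935511377457331755771364820431363589479651518471054785822797667086014720314144989693275379810251748577726842708043717605084072797735653160644061554183097309464696336852413663782525680737725940143999352909562931415514449096050460261879197621625222583701082801843512813760509888840901932895085888201277641366688913381111555967814990253102772341532684630901770504990221740179146868758511880265078003564566013479071917812534919893773748500902752629538348730305063966928144059402196701483770256263854309224296923883903375965038121104206249215655878231082959603844959605813740776591907379240993487348683962410921159358709625572915210273130470562955700427729159580154206389990804098137627333551625214194309590486504539284606167070728690132171248313830532939814481028656321802927718248058317096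162278687166354787137419083867263931157615417667179287320455456607942795738417266018239893344779985645330368586959376947006337653627479703121022160884093834199877828726158968791652253901144379029104790277552580524958478990874720939177390525580257554829919243307594611383578523618915018469991197524171530108458096286911518722631767134958210944593166400341534887466144320615166105324194462070984111785027211834851637673267718808882235390259357735853077138869906089786057782458121030599614790837390187090645316503392830509621530178469256663172480999737444071692818844429335620056521345720433518737983536294388861746853324659791068124828410441435356524825212033921134575997072620064572502526475673425890986710580067264811904197470711199573470591686186428723541965364226404772144567793102630984928402165242811613811752081374844657908793503225413217303312586168762293147436417110664008491096517946092315856100577962612723622597924174330514481546433110429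563068075000070534556048196133578026076677636966136623022208679480720465193063020717947166375528367568324546246631250390016694469292882764337176058986777944049292487747239172049341488579847813038484277481561366657528920792219632203037586350460318993728229736626260832431715546846607422432963869631644372793284525223196853141706470862286556600461839599996310776314701818288992360318388865235704966428712123353644842291136526933655666366900056633825110111007827588372853306131268252981629601005292875163049351933072019828963674506083309013389054269282435364379676077785899222397806583961261712100513062857837675461575131040251953772502048386172580531135020373628820490862175148804949796844131843607949245566409149850771224297757776985162244819977013610871412417032572481268580241721648564945952033483099732175462423647236914158085279757126753335219637678157496917061068960580347563572096223643334641247404832584209945290374172062446046723582514649255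193431320145485293844261888015592283070390250660546135088896798726967896753043015509184358317498481680909060783960057240595397378899186902778332002346114543302426245430505565990309939404428012921524131465821940008271507585371877688927253072798692767630310308871987663195164875258818743136567192728213574137958460544116289340885646072640366620794645620081589879846990890060323408816049811545019278540667130802771152150907563977138067903067056423313409912358778125289126741117428272077777101148914615646537713866897017689399043408124904799299596216902394237557178609754546584210740452218379787833272757742212029495009259840149841423751807806300373815595770603267463884396311262505104878202398858933898703213550423262032086176403925838092261548435662513952169604842686569762593257558137615278115564826136882772136333926096974382638485328502461735268942242615621123487397724939574305959856373575276159168630089358746614563279496527599329707339392954878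277123552984762633696267157894208977258834250963173348294246920766922593404078705840559765063798838521487204587858111568210910519098882528858527710657175513664490409619453761709792447594825459041761744688408956839933320628448182955593607026602124036994274500499249540711251768765414663161179264675254722939198832633541703574301334503338312737388493719050593556139903163368220277478247774912735047142529309856946300817355344455711943441410909600217313368971541248553778445970455258148559406772051466442742389773978280889200968006176401383259389094650974028158751476122201676508168331113390007091454372424206448004452215833799006751563388192393904619881049599950243053607518009375649968840980257475257148861846751445160711746113325431812798562383422936343982786322072607355563620571441161057507442617077907303070345463028797004407707591876068499592569772132300037222041124522366455366951127818645284913707459448271807726677569818379838165992997749589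253244766932405072569832937833587234408932765540969453129751745252194654510505035533018572743392821517695227645960130315663074328141472305582638705471732738745708687433883841703883579782753858436017765322336695852081682579907922520701275193289496980710804549017676294879445336265358678655538192229240411028014692253541493191046241714307433994446405484211678079539557890130900575862274460067295626229900262980130756982186923854332811192716916494011003660481473288853676075791501887385403797319564385537327030280618344019594273987150871712779305441633916139935142322062854892720087910447731717457931479354393473674736623619163211083668852563010110217663898503497365269222850634991777453998066409967623747843373693532579355013590706229642935023573573992937770445048437657909208677918989316930458727353408532516681961551557419973036646320729766701962633197575554795558362879099131391986413274125968167821073082187905657127590093650122673804594098831822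256727302847242286403454856544713885123248726283962835946095554631790316143778472507578377208953069038846666027206813516856883790425692478069771921838315805650452709963332839845535247931794336703259325350825583161497922598964109304886052989717390142623714662320990618534255529497891077712712199538630438546913112156747489706593446934157992948710121202973755147674854436131030245418240390322311601541348708707309628225719931504891114085006737914055007170205805012891451145720674304558057768824949897793483898736790180207196713113097607363552265574365842739220242574671490167931018689865198456837168194473942554246857342343618911839954307213614260329815077340194019803342721052254413109302760652873227127748427620811326703984456698808539189796692068693597630603577160849522053676559183988047436443406219498197955610516821232062785480048492025627569633010430086969040778232481759570634518204283282436426510438103886016065482680061190694159095460193682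594256238286398368733958046352186750118249110880347998832288740956628573164455771470560606139122939598216339126696300144644204412768646346549680062340895351875405024510671459618623287893251264290575904858105794379818291504053080949462517618598614182548742970630986207231618117318086710034883432777374517015099651280739080197878602660311723001683054509716266554600531762110669163520042838344952479786443212620664525636089403274675398500769804520121338022194672582648916213790399845739373512418745968425452946494335819330399845596965692188042158115123012172544614380696649498598642891699935469950993680949589585192613598368014082196760807899960689166938594713023897857947476564137939573894382976666895206591681683873152489998099544580503170578888529424724418625427227353618685448194030608554718167699654414739849564295919142318044751465831506386815809505360573464530279493969495721326225737152135701974757856941516744229496537029526995174433500622973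057588499586721852412568540781089952982672894077356706477748305254134600435502906340923425416913978091382574351627406575397293096199924766719474665418310403588684987237697285492658346952714889371921765742834586387870263058024396087260496188535120096866514581028304650212608571592279422120753093194893771976285304429611549290104928969425279980194810398751430520670099125392102105423154783137570080975208574962228208622039629335029261143683049817700042905096148540324752110402232079076949339189101754826456864661966279185767256486957923548806972390988989472149071625295125796157736635787659765680390535826841942859493223314701854959646701230781542824982813611207212861101360444686225144003302040537407885748605946030774772050963159442146142779074682373349880597540413271070432552329783884347030735978195081952883944159008842534637736500267236398673247930749441857706450304423280469887575923063327164824053174587233821806655107978734847615742380791370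4620006472804366155024617774487859909099215789207814254377057243629468706307671060280132167751833701257136062278492128214287435071219157299292126122557380899253499680634901378576032403408225143510573804785463227859878423585982862787020039953389457667480349318026965122830733170510380462553709442321890185684888882018771009664605320828497546617992171539077368121344881139260241599782257813517772897722335472194188380893216741622907706597413362928114167642055492650824976884287734766995472365289879868354942904017093143131360984262691715021197846178295399317504)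

noncomputable def rc25 : Nat := (nat_lit 24278120251968630179506465625447704821466250716992616220661817561558988152076372429426963212306255865647530950563718664255672483139490269332317773304482644858635887375124452881426285246008005242976961904848689984494406257336824599374573637772911198110608998353541055737049220413947507722076038777319971894749115377011392682969304709376032847232975171060028959775959253799245966882055294078623780008844546595768648947514676573389809273412261774197725690327519847465527009421486272920527354913515269778373045236491278156591546389002596340640096191812932104570370547562882310405211401786935033039511984137984144324384851393063282820471154636933895338339621048255181626725878032628532084690026435874132347713182216698414924566307084756847783045647240463884398206757526298405708846705833173055239660230264466585055952015320396243616183849674580511084110737570321244739086507046658077205039607402341342723726690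588299171285244838434537702861245012949341971733849910697684167576879598101481679992310615174822845483037354788837502969025627767917989490785111688812823231651789175157007889844536936336258843664475020358393603737267666475539032785063768064196021236040855073135215597624326005706402087366951507107563986281641564592207745695765546761516472322762788302938603200736845638544350647188780964682526596336920979342262938485991451028846769959302492680351604666204797318352645061129659618768032317801374159087022491837264204203416791013341995700977131515042680544559707321001308651205719555841217798985803756572638666538470337125774959672710132275789879570494008557610789365628049374658197436421273557764120922114238852265853880166553764077510365647768837545644745496119555062081715402763549382463668435650877633621551405677698178828032119036731476829939707221907321710158734118215261885150366119854493011495369382220401421396336325843499127574599409729746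588028249410139112911446844071082423681880682183972929760321374555138844160506676534043510242192924536057887862954364260411638755663284146595013319215868373866624566581359562045151915695325470552089770795811602534709439999217677018401361402177088251647578907038125346874297598961944202247482138954728418300033398007559013848332803571251906537951585742640772662465295063961381672835951316235611107170663770830186848906679214915525394228924188788549825025096153224717464312588492981617749745763700362153234912527470560406095502605007014983428021010421191691848002335917145295193337105457151799663958459598375887654420218345479594599749961603444383385458531878224487643105314032294231790874529759724483916072919756191497420179656291796878228818644140699221431347916582192964078070117439594682797237811609311292520443267367176433651070891060808193909771205783397765531940871051520407199899237636803116313977458840869410216794588388477502172830725008736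773843587803067634088887366782248969647906186966478033399701120647483094755837509266529114992533718906699947298593258543439224346571170602066887659828468897823366833337109735561807731239816158729076303234612016461640330046308767792789209560453148383764712685182743287662562638366823974939111339997841265679409768600242157067849556045186739559207112879190089752736679399802844785425514513362532493595710391233446937405072263373379105231668753924863284383231063370269364367410639821590397537763552632036661881428129780476846283621664396960830354666764150696478795065361294758973636426962870230021529644051803504390867465556983312147347984140106120414377074001680284808711860482018956595612734274050682665747020565569960999007893107123451952190961772559731087932681574734102107464287627850551109372691515106639527296994943515646778719372891495122014862554668887301859281281174724232495456080476572270287716776883616214686574845215662296768933302363779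716771595374930177258407312492994772254873742838126892431797665290925663209202269084041192677969181135718596663984510994038636272453224283000701423635894391483452254273336419364997568094504851372038973114970048518278570143844768614839940243353794577388820577803872098764551346716559045322044127195395102306810590909087026096636212504537070221924373854246696430293410065590078868602326521795277488459002482130293395271767621993344530000297053563812234227576188134636308556356213379692530634093204545551410601067147911011657029037815608387870945190181167490875803069162312814922863404537480845460385617646300547503596823090485251349962118504421238601254337663366503194893339320907381862204159735089166770906272535321606285161751223904590103919914190658442352153742970840396421148963613895990645073303439283063357116943775536543690934235536056024923974366863860909190889190243293564376822394580582930693487390831978710120667956320554428011025019347509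645974685574732182717930165485027407692161639829801038506960648401384009107851541115226464671644972259394859031662325559882637679176758975466224583592915809704229005208612394668284608334041117810737281885235117024375567874170390783995130041013167150958560684971309271259735977402882115131639986580325047553060170375848949918384420505520469326998750772704410136731355794715340632889405965758034878612465117341780123594283722768346759743780907131920756611495141147997526659417539164856817862115185187665014652536090440054224179610754166628272354780930978660092701716065580002219242472047863292821630171667446631584177284496075144910295417907175127525180483877908085141900821410889600253409394524683607324015795683980045929600626712465521007008258037499343758065825895854187843672397843395305741497864832614736690152428759099092956168733447365720951288157729826260831399874648804067624220487414624006917157079815013939662924551703378529891552939764523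160154620687813786626818288095944720348343635219104418230022852095879665340503049139158832401144742655331264959554643574928034143747798291858951524873294427286087276911742579677469091513936463133174409817439336558171175701314146898950820044874645617483240475642498765838689172715992303114292234499737910994790557640054647332990470697814083172715973796822884996197984432746718991889062794714950997891848311308013726809922905168680530294389570893270916838307247533427870710527071339176429463369313222976310291133799009545964551519273400256245526525065551634044749494681516682115322549247470345789568830268605781910521012555333009205666333815349401501936887589785580073640032494769480818930385241831950312943473392827204251005753970256258936195251637316503502622348693306205854781677320162161388820252443014244164260045445524787476664305461254279295438155771754601632165580116574871870537181045715027363059326769889834851749024131997432612562056869886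714661629038990039652022311160883196830088308988550883357512926898307348721988265921891358742442575876733549538034669970671026703418305882724589666484258396770298629076931045223255638951792683238050407415148514983513000739565799151866418109602540591474183410443298296671536071827268548807125857935828671596094915952241709929962933890519867923292497560859402642811752105326608036011818528792914386058680363583838258907966345402707644814301335935582797955752818601741447467199497697152240371826210853190868435174102758331655595440634876416877614427903737887327746303465491323242147451640394759424446762841270466084436328192332847485280958525344425530142509865169712994379701237748123072067608359001325196912150121724297886537831538594031160838303624895657850745963316351055127628248156333762467063722955235772335460410650718900613937079527803685976621311271932413669213997719083520968189837595768717191825303671295479920010077252043852609421725489982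031971279650144461003877024280895678291212863134945496974332414325257415434239147238098827698621727416775825540104264392526083119932375223858831786429488668617291785045173254069510249521990513399785602947505251636368165202796526027230583177966116964920229557322920827214980158333986081401931885107148110279549341651317394207357288703006673078574113931423612784553651468569465543571415379251742481466395315812510040529973505378563028508589142286992877601025263412120375634110537647554899218465969883092297415548916147624884652738208665161835787501398307906370175466142973807392709707623104213578400583825265247216275089397777293831587917307842517938933367209542206840005243860429965477315858939965428717375940256814773538639481770323927040163315166218691645665469347690147237447628296019704436102255201447340226714102585974854176072166656360377648448588112697732168157162689620664664087158634969175982045922480311963405612577751804197945061590805068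508399394916770765006411833884063857029945377746771086873112322348687907086625801294434564921624570360371689747090279516511444465605993091459546223554405477021243089313914109105965879841390157732010359706020841132975938642309042577086767514504658177401669053635003111681431794592369488972410583913429533370129902728460390340442886699987218969403303298156237715015232542098008595483588438161911345077492177906025452605351409728175733820336578953078456110639304043245797913634712878224357940135664364359742518938123308136009027539785424526349372710610466759788973464486868384458150150330285568297462755210860457570946696202198050687644380076503541847794218920891724645040711139634183435163994752836196313775646522670806798599191941594592363368898505667875203090981525324009576655900263899878215056584892838512271882251679716223145111078716180152098957439051868899384584869475954361987165228351956891795536488100258236412005027391116866087108900803305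101614830131378273120664391555395890728901117963807652935110359382240962345278103175182473810858071776301741328583815072838384515372420519726900282796284919548624356490650991817936434575540072782955091851636349680396162332089932821372247597243253925375933336378523194146994723229840589336352738547261383012862032237150662320313103657343819841028778597545415190856546379989539961054072491605366882861394356655659166874872046610335661569584923779788146535792388432043973870115938995551857732216230671478209441440304559275325886311833979063453349031588783686558306788761048159670392627571345916017763992473436707669176466036005466865529969548883279868495853944707830215009116623998568833938557542841953069139552837897319614010169341422705044686452359519164709308892995700737590028874255296072137382982600245005260906075315402740589962864927174370700476276017642498566132182936697651889204417650594765702381511284731110121319732794288616609176374439758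738011130993255477990460333081658445528472535202349466962439951766345144976704741290841363853256713051989860121937116920262008903993431536236593802552648279467543331165953892461766099803990935728290341459743836905153517002082821462093846324446228890311995266471096418106447971262652808816753727573407991458252234036049580160006687204715543377003552654832177116482511487892212162340526902997638541989723099441524737521168836675021721462903875681015896938185845579426725065336191547080263504857853949104271105525321474494054125093993171336845372775216553671628816420324078704771751896092056370975053011861786213594512406748651905498219816226930080236228471970656014791845636171883132797516348818527916237861205341594680408377762960031061917294064216594970230731788451599963710557582787804838931593635706935097267320117069154412431147382078328409643815873807266121114416366829725223028265360899020744162360754594391507650434616066653624563743061892710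463383086420320961614433349917395260563122530694122822513024938953214245625859644445402046356065204399663476248302009710044798705759724617053182224918468498001493695702461137720075156518236242299851756436120944010543190992586513438816201879808858151086335986196036378825596977882570941591553190928283205215339185343748039636733813802308289265332629526858938392348096109301694610028163669561032859878839275693056667133871255554865240873418450066729619946923008327086957433666021663879398267990132667195324053116362017758296156305684255952861615124901964882484057058283916057662274615519227132419217050731001459467324498551776406703457516588561557785362761574293903727531663694825978886312787916323844419241534739205578956767202741701134853373560289997151042138248001987703649876546500980077055355533096756373966601390594656251870585338514031348102930385797580839054630712664083907660760746792727120510700570666940490695190029645707568666499936391339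819983185090645320791641052741374051524835976945790803940779447279995526037887462153213842752927533385784497680828869514507370342512889966895498471449606042864290102488072440432184341827787142451776061240551499899811741828384396152548441613320033697845298798529830938350272082485020961402371398221770665116103931440800215954517092128870991764956121296658436547510381370572753842525064576805931127916572148524891229308163665806305533836647725557042511405375451592890588491799884058931786862339514077520731297044045130056567731246298013907171661533144825268297232659767340340168850629434453065860598994192621137242100745137480501095739028031923945857945786473621966378982896853697097648993603585741652248218165078811392273743364212830697625181508719634167234798842364935832500082324797661069248008289406363183476681321807787411328469727722821213872173627062917398637459084868706146887017391928792405022532151447766543774412150423014229161722169037039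755861056579612338303247239220926140483447233079586945212677031677538149648270591282376670338944297619705541459351065429205777826857590427954208050570725434145532314527760519931154684328740869930370062969749869343249288678570917698850214543006245223394913915206290295397929029276518226873371054895201044153676005957660573449767618863294606772896823077327247313297187736420322227674856427923255604726934757661495559037072409459363822543590905534465098273864835203565364996630054293423006012288941141599227381820938816202458918850379386421809309708987413591975982867596888774741023755945800918242103303990455172933744440991169351125740674548727262121504990068949771450811638630671868321190380546543350165796421754960241461050210926803958736712694205059558925823057304945304569518640831847515912413666343633166150219636704286008552818582216451403724391376873891217415563767118534824829713836508198998672883311472373175496458820089993978705847477144159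477401945056716669426374545682461808830493218188937815338865857967786247104097446288575422548127994673034329566805013428243174626968359587339241420994499631968915253675260637424213621778260805378904530232591146699973517277857207290154031838764603608750327575989395722925009797131994086812244710857314855924417410591301665386403368525370875603393218009013938336227504635991240552588520165709675036033376549498908699443459366119939080041501531142462771455343158989919744825514849980036233551590033572157333999517639470497616650904310390707078982247811018563354924424065940467980445698159877419588371668946094290287528939707887241934824682903272007199432699295534516194241071869924247537779161508346735910833820490045634793626969720940758419695955358630092545079115234243142501057687213440538112417412986281043709970605098011158863605024097867063169716274283013553874393621674245566397912186526260402160094513804243440432149577526340568116345819491507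276143407913844805887250396766346313150392328418459475810505951682907314199239122926267446436529977658909242888296079369134057676022774501753393154387822791911271141080102936340034245930216033406635240537789931072899487812381016825455782700122492417936087842342001054456943149926360888260215732689259533941778618676370657190222305714571166604583521921376682999859450348207731396920082016556251766612349611485892276094319606156974030949869301019401009090697444436474228132447957228950717175618004515257795041901715929896566116048864865406130238524519652969694431585628308126500400493380284927155684643055148820948192269548121168887185135730712393117244519102064954079155602507146144787056516214591464201794685661283609607729832051550267924680894330307284914277312633538039134856087056197331734722259447359430607210475224738540684870129330910972497813111282599349068577792121557462705965664526552675848341031190624911401245403525915860297318804626085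324446999909942841866411711749263684552734837654013950581424650491380428525919939504829210182363182161198465870532470968033622053666429303752871963866181433284519605319283733144604730590866493872347064431332383699811866653869348346320338845007164699014828925672362425407549549382745411355001436909161728096722369000975175629937024256337800879013886633068476272205837132169784073360277580399534239878950592074592373320521778192152494833554605345310429239102996995020910422935401199219387705002177547317842064794952344250887553277330278071298600371474287075423125237963427395960625910781606801097911657531037096027458985936625413101607108008938981526057550148215740173144511067023439989601387005095438056139668369113054208895160377867557892718446994440789873016001550448292438979202014300504091027508175823681083923364997940946688340870391713025979865103656852912965142018618263280523781184894452268023812279630545881815196990894641260240732918682567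052020167431065467978503559258163253806985931924484647868658096263561916195044509609243145115127133224159846816159423745911275600298233471182776000806037970983977568929262108720544693566848152394174403084971259331641090513652849077790091314958132151596899722982396301106864390594811147900510774460544718631804630007505468613852289959217781170291350756222117816202013432627667552875719689668479450591289044858967725352260583892013754017039883797534168214182245691870954939112413365016522835417433845016851984534587805984699764917423235566098353898334625265524543929689530590683283885625945821451715456442159240560848319536047623727204447189353749779938851777851591138361898644529976281426775620481741672594638537890963123242923255416277600840251713173877503105299183812536578308140298102986098088484054122715728785969120139269239631769876873837165139635273864997559810207998346073492160767637411747716282093153972471230481788698398296754489535060165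1340055337445308536274162226542392272857057285741244328137080543622531176643355232096050725553665630789420894079030003648275424250462003961845839200525006632100252234751893158210496776672187098326078453341199142194222933450294306044508839885542928300846836228907544607257893517658765669087524898644558369772675817733404406464175185747070504133238227016674224325088465801338646399166470928421297356031923277924487458925059359190278077617401814566612811448876563699159999786975039889884594944454843559421451542341670633375104139546448270489989232040863680430080)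

noncomputable def rc26 : Nat := (nat_lit 24336627784263684108778203864697236450069616790659753799400246713879915688069873958525148677337407607556031108162056107499468107898509218043364034573390796017027227690081875545771337143401640419092207728251655543472292174803862135610873859234897263415231959073825677928093861982920597115004298234663465173928571694277854093379096959712829792521543050385837716181256434785186688339154159542520292430653760553208430191220594278797600338136371715805790086800351219685547021488740174734012596948231647134559796307407828624597267243165934921070552392893419703771786651284452973430057050774233073836469299448393529421046784878333518629755547271403294154538460710071045612144271719747937222949726350930149010961924207642371263368487627451807952200493066609297588278538906711021164292899222373563860466937364292079507010741558507514330938113352860676657076164192019944295581617721905577933694068698750408048277213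831052473881775509906552796738730014295485783835218365087752826193793867799564238784744588519740710452993567091171861394895397457622223065482010120548361331957403935973463035936706880677493418178683847633376811086093848563089673427909143062481209934356892689767479028191294823253063878655915459916693978902258058860715006981987634264845720260450007156017189043946958624685725283973272533430931627989753745130588058726363015144837319632494981719948929358333890211341088133299181974903777614833251482563234567106740193753818636377387265000439995610480966377532696178427317240036072039088767432694631208751479146495681379940133326296311013169235770330437845244353921123239009094292810055668509534602863602077305157008875990240749122347451504321566395497460981780751850696930273984819587625430585145946568880844351229039671843649540710635367491469394210600937413939587159481124874018943891627525054222252002393124835331131067301759682199746972988855016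036509721561593429807399978028966239477514225125021800244777877583679049126693444522612385259462108920393384376668659300780832882537916284402973953468775883837772569142791152744193183457538561096290874370184012712440365439441234186254309621239201565164458743759707795310132988616405943603623141375420684473200116690781404211987972902383873492220996119506456997221904161242546339694973422718597705302818828685595313577883498558591240163168425648577402447868216356758824030408656007848556729287391223923376923041793455235207033515209879382689965382890721189513323808056855838742374341050339190057441070932802054283688133938911885530669137288073873836051425048108552449470894441061806720395370779923267548487829167281373718097473153957836262821817609896484118594512826585512734815398511347246784233015309729505473205134271957538867567340460897879942455940277406742640949444833958826203108164135305533764429029767898642470296209043766340033322158745983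010615934021684098821487136657900968433907832817490613347592306027407873918927075468973782127642356152172584714717315109675146103408792189894073567467807259905259741763028075929284177725650019654875222759202146507721849934021658249115830951885963778103902214529158892925656525690457577976525331128512397053256425310422965347499720468595188978065854655389797628426192835497305756238235266949655463180432613803833230088549666198304554581536438541363031137273934734504398055940743079738727179617133973415022565410236392308658926448434564699670357973199387114139423159650824353107244826288308254600715192659910113940977462282486613463987862306296928703458537498195962132664842104070130056500623679552423401524495132501860080908711116528475316819599356727843301474578341664722920775582318576821881842845038514695822583537163787675912268832352315838451855727063135728933288711568935193652197560069395874229828419451875138243285912696443610909140965762213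240706714133235128283875710594548529445025276275796034397586601895411482126865962168954497731277043182030939866413705771689920171391153201185465813160102442386924106929367258454773329778864287326977727815607410943166593897890764743175479983112801434576036850890903203277347343151799911811126677781893883694959463051591445718888428044430349194663112277294628762255078904592695725301445580391431514791762310268338380589416609120693963591648833586786262743812145555790480906348277565672786858394603875787397525567043849281221607603034095074840461326980130312446866387688033031289031378928777052364141998957214086805229651468967051288638988876137334458017204284622685211805908299480804536465774549250965786135192765885225725432942219207997269394873117839128605641274094271527319559875032203567043584929199584504625107304088060884884936227877168638541725778214183483507441370150823620153754126665204448396343563367708440663184284620999158797260127069498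863654608619751424106353683196511618480204032531456665045887380654368593748023294291135211973385547424413774491699736967455640271012559372730283190825044477578021477280372195421622711103830150622445229037021016352683494123703907822588687813172758969469521320259369308399839518523317568464119661049647391038098978791864210404117523958961932024846215292058221521176302923724677983987526767267120842168857871391474467090028718349357318254412021886041240514227006021124531502484076767829477599632004313820977801357913199914062869220755268839890741102387137401485877960884636468428777692639908389755874697951291727706468356476537413270096453186359729541830541203593030656010440696617314346238090234748975592075246220977402002134391029666808475438859547942014396945822854881810071309646994998172747536473240985563149456062642233443428652489165874024205181057735555745477174917052533617599065529969063196641702444222484348811410202383524112148760584277877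391655435628068503643586590683016514024570136828604371027227971874346729924797246166752320832561455842496994058207179358825069461325274267740304523057161837414827211734157379913533387922520899804889851853237592606344139661042249947634466805264550022757508654025185114156419565268596883715906847914635610074557743650492643187781396371810637640973113152803885879693967050514366979762000677190537030156652325318589651557400496054881029414296675873366896813721262530313952798326224016347991533244468864778524012101627359779056302284385071838187871477161369137206328750927231812002645328132210479820080390085006133764453850579233134375125700874146156810515726041685069502197280016241203770030059088317570695752711639649150391091321852261537558266055622626383544130006794330502759322242245384477458770315946162445888361034117925188577955833770647981436749985654040997089440019153750765431313743432821416216342755190193157582847175449227183817663815457433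756597682974882344500067006147982724727636992775310499943078452294470217630552918086357024917199608719448800412988199036028396267168346236201916600382665371079073817759910873340333979999248047703701500611809721761873985427915860463122700368176346976629044426371683214460902784195171222298745691204939955743938561831199064626322783289269631200910726281380131238845650986280646430959164183737162545362008604443516463714934340460795348088447835242925611988432893037127893311091686434912750186399250670974275620026966249954290663299082649997643388002652188606316644942467460228441617617558474345423729796549460974302785783960555071576967726229686925720975389268967979845199598650982476833585115415977483270510670601136455629148468086622346196917010915263969672651620228212697244514223985847002910722302899364787272586269586567599050622535846020367576099097048586519426239761273971989150831731948319278074041559574515155901785507318033006133845741755101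723479077521070431504131948856202997977981930170714823130826895779699500179274429016990587559311888945442796620379099313932741701323220268708685025031367329064186635966530485229847164056998828416690218200526305663330123298953672517104999251558056666208196935030974709703035813338362466548945669541869182547221090724623341273334450113106648358763220039395896281208146662636482543485525340593973243423242787426128336652430821105275935529662071637593766105424813771074222974375293443537564727159102094008580323133438019785413196677437410825629137738305871748184638482878689788588864972435380491151076289945902469992903014146060122601952533276971752600816389706279063745333190542209055100088411035149221267628616974496005818215987379999696336857690178928096851318136795893441891391414676980577615464786970486850922810898038303877209784999290878136359103404023235702459189340644936805857455555928029937172474413350794825729114149470108266793822840290236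395979525622040768315020681902976538546271620239577233609075596933618874691334585122640229065681677989308915151534210177203414887046392163056170576540511052936610019339263202518477384325793049200601396227314730001762134183407520468784388556083978780041944949828642028648715780339609575010135136878736708904122715252673660491820632766949059332099306588234540741497598502753878037272825264891090476956059934799911770043600072037551333527914518219555666859478634263852157759253913224649412767498219847614253626459982210062940805313047119767147700094449329431808541849101490924541101446375339171092375840651476471543680639657977060362250465453293417820877052909616393534225483223249827063617516516753709714975017438204681953191398219812237614099475052751243833875567283978311788167583048693921468410774712275898203537944041918098944414170200212126888239946216234990168583970313895032561109267617962441128256597692756643457657665398941373278754974448032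382110986470759893377407673207241243562716584642023436507533767634913125112952751231542383474991892791428091254997584032293829384107166369319665654288097144331914418867861700464627510737642308837641704163079738279876686907478262767871978808447385437916338195649349378292080989810222375526779906587727268760585936597239959662644150203597869105707832581420780408674533689520976547953012514840898376079628041749570831944844473785077087190515400372141668711369282263033987188316702037089094703894807503232806370776645784356536045932084370037776248858115825378009955668435910263833354341318949011213237255525746051582649762256252448567029103834900942967281668422782953906983686226522715586671854452383105852185015328405866446554530422595090124530011219119667849306823994408082674122295878115477104650955041894324813670136387829446709505317830477863967316445114764924301457449441630782657392184916547454131808177609974402397605136618296506331319631042398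832856496477477547520338193954085194418957297833111502952769133937528457538268635781500259961084803486200980892062004178692303199488455682620044128161273527578926532802410536722623191153413760090753276188523034375718929600639464451072501698789607915698550501334295570647805732844538504347770143729680426775646998425124668047887142686145054974219485142240570307733144915566790714610377560815445520180234459845139018704961031588998189802430514612275447146554036712692354543227848030290129425147903630737570466847967154536260251399226826405887865274194902443211255562882054730992010320567687061691993793323905172832118364832570401062123168318189245574912170146107351492528563719379563185237644510519845511178151951052667943192218896364327466026792371439762223957658061623954072404487012949023424116623259588740218995993362841901941667785237873322036330739377339050981613106042812222920167554250724585263159988934225345719435782404763025677069147350596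413755198791627173091477767492874106544287459242585279739675360084977137563370751486882757551602098479276491511078310806713549919756955238280143299782846313542583222420273721794619894411503452639341128125068972011236195475960598225698805749033554180165384712558152599084153415989453320740706030199310412780877234395394597587681794183551685853988141510461396316271100371969149138664349953970673721100412584308407865490237349152713794928574313753596003370399680277554684787016307288063776456575972277677050431456161339331012016714325541262638739506912399862930308191692218053964836918112889727929139189991504792514947980112071012646313104224473110678987133181008572967317198391927708099489433133221874702676305465066881563970801427335552424100836813051768135145630192054148309630967674059329467667135727750287093959635246377683349278788986028426257566730897512017882674501752764241564056755975875955836112561090077902973079990748471085075778882058594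015447659266277356039541010580044384586524518104026800248251393900540242310795532298949534282463373126326455320954800900576527135230340420194575051789446391104500850126009692596035990977353482994792957024714773309203438024630626148935611380282339093606317028170504735021416943078163242306857678199908863290995952443232390622215095402575188627549431900514260709884943559539605105467198542439052462012606096254958875756347266082628506700184613183798739181505160980496534341662788077161407235910685480142836693404386315664852151041402832737292841939322673796264046075415186405996268188430268995511308551618209397305804534471335592532659779550575537709768602925125011139517146092860063638084220902246828550602772348345646275166582150741179533845404249820632938292014469095198179884389389204550010429945246401936128532555816559261203956514614900775966230509905977362281359918250766977301665546210345038511744895695470900556770110172924459916883694694277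959503542279494602157701783868895671799490079995149173850869239957722011023836756776124367656855936538024927333324800039754548113608593371344835300695205400951822712757751870758276623771734663552052767198144896329907286263694789173510292591535135339175453923275650799323501415509694539877204969913102740454321755444359865521564063427372373167075755130727323129006520046684474937056714276686878507764564558434273893408678893341302832978713741576919585426331592231330800746957990045081034029689276066359862017704491210794051686457721042216811257402798728387522213304757095800264119702053059150062792728555016383178126892630339521657848659850100838662576503615979153988556027886247544638554778056104508500193216841466940637325096029644627340966151746245877022089546205363302082765489884984240975038528377893620533928735829636331233242477139086188533359344301466665506983187247672546932373069054169599038300529348552214535182152750090563903556866470574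842519823999062415934566308875167591892686383735364128823219751387372587736833461291486049130163862563306111643334295013678198486551216910942021537851456444961426432924777952240075381641830332019263151420270305741774728962868168630383562513852723796208023803828044069785240111687983013832598436953547119593828162094347975897302717040449040014735826703734787983543346679997984063835889429980733528021199423894188917695902032051282173906155784465408939131235042919234449475902799945522797543644105095544481217508181106301833422944342640271987157649525536187716463431246547294445032703164628363364162066458920125582722450712723540125982538036021422165325041708552621721059701957808052322374472337666138219261832560443892006354047469901160795433969740206448649834912660772052985901067174030923625388981371081865617366509852875780590986534226739001724580810127152790705746835906660104233052976335265498892910687239499151382589484489505002632237947801444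046956773045746265464870612278308997814542168480775055416497075571280508294694859981599818830897600287122132878340977901693868701555116563212607110000768675326145429196081003921050501941678882830500120402729210076511852875142856468554602160713488067881130884551279319386216832754614023898673178694630028656141957284841979458096667237670936821589631798873385614977252634118792682015954941025647519107760624007221103862165849060920279388454193788322694575550626945113166818834238698403453820893504795374047680038351365112105664273430348545554156508899143015980439211704277050266137848840801428833335969070962321035040307980779239074974489954914774660714706976864165528254478521668296315686530233376195168177643304609405892501059026916362295803791654849036352280011106980713906351967908177008790283898749101768299610037114646448311397333691426073513725390516413463455649585890027027925241516456362189634317636122068892410082685335917288467863929260835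979978982717662656251567899356277958453680322084341638604137339379436882957526250922323936401138231217648989218411296213505379334405251402757519842414795151566394700176552751933511720081709590547168549464029571720117260857343665818934014242278417842717739627108033489432087197505759810494644311078198739868678729267685788693808699761147942350939560875586646751503826795291319446176823820335872374150478661182965064670679343080097022918877506434602421319400493224028282573185365685336623263328555491888223282518827606265066747665090659014608850187059725368083282084914108564098069195620010847065749214875680612368150266382431647135245865174318356444967697804716336125575953782122415740899964206682319430537059231511239613259947251387495580624253522309617697062649482757016983681790243255860610906764307717401970840404860912206639815163018797710512530929925804453110309178454377527330806300383084655626351727517747623702157877435474161426529315918277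131700778668642689479931285683164613293944106435991142015236100544559675795019084776914654737083817726926006277967721176849656198778832508309736569419593595205565577836692423439727485696958881807883535283099918680549727252287519731715822920271103363975320238782603484590888651372045880571896367486340263927987502574828169302425194026650280715539333589917212411997119143719872365175924804920088569635112307766804910798911725362523980588003068675694963674498947253850072225950984627575670095000375836002025549260181816747766215207403263056120925353578146439075523610842209505983822972484733107998450124273034260045871991126500443264092810676523533187893917176993284521499673975062638216871149926528130064650200426524543931903782917386614928874349229801892573557144585178068993501710099554108657419602660277650144851654457598044757444296305218676685030193139401790531148365385328855607404016308969100207431011792945451593329829695558391904373662355405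8109171798176758493184403273903891295272889497034011421529650145917732066079115697278345930741634836916835060229290198275381791676425615928173382955743229834913641261403612681038777583747070607690118714783804417966203030966837701449012728414687753372155012711514349754418777300982900764879705670945238578442614189880157685900874873458687302481838099778738710850562981559938860761761074382318516639296961770546924975424421735096431248618783411104888541169724437291956770806329451655246361177488622700797255782701827974512556561374378425907446868599470410432512)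

noncomputable def rc27 : Nat := (nat_lit 24394747347812860764283992401651110619688287209644441497859655357874636951052002562271518142612861458342446517330802218668511440152296511409909067099303996772060263657147658997633318493338314477172057416215678143499483005348784055211244869409553037063265666760092128158149430501469258708799298412669412532216896994187610674778173760031534403784688900462013019944832329983537020202638914705570484238135275835370680296301930889912253801477762223459271878782983412366373154035676040776490781567536305242106326300757890088444504515627752797442988272311160179305999443444914490635137010106690786441262438968139523307517559069786927197668758525017140980531665866100473924279636659821535040973682763008472581356282433958335216527668467534325971087161684413418323632116313145552174455345369314688769012957006486658719387191027748937698612582634077098751946644165155482433655011446268568251182181853135985386507256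019476848595169221091483919166702884990451845312994584495694149811561085262030628116724118040122892284935048714645440570126118972540631954651036847505638876431333941126985685327661200816281642864260124375714868797582156100074557158371577226269798098047679546413528434221594930564978047025962562970216104848067972156341390045819569716742152390532605865260816633376644994716230608594640959532593638159484350821866346189934216911678322874671429792540722482128375730600216084087803184141099975107699737608585868756850553763852622328771696350788373845676399479888299753439316209140497513124104626261982371889921748286839043218760379688437742486161336200372107680672582190060697060220937752175974766797102278456922034094873595338086400454955265313827941185074677135014816996342837415934988899715302158193791004188406367127889698518399231075650345727212561640734098986090824177781699278851832062176101709964463254167058910767412225794992308937694332029143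859471877430500452682773514041799610519335924659227056827599308410099269090187958015105726331626564759106187205875473124908722737752384387577525531529418173478156298018491556586560189803717474866795955620630885451275677164236762066610051194926072376703857553180573622169166835104877690703781931110241512261971871150512550520975380409742794564805393001585158337139137762117388979195571168777691229562085190122342827981302418051233496586172568893367722785802844660128795839900482981445021181251837070420527861448027349358385913343154829219650177605825337182821166827276536269212240815200485700006470132602823824380498335571569199755176928121369449340936620800628699004013541905234362171670665107774270559227901904275074486583572863987561729214778671094547252874672778909272046396544095774792138724387378410152186115138483792024558394019532104711504410930625429063726308908505790428195461967800662034640551680516807376542251870174963364170937009782632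721322096999849086918335691938980040728318929408320992961287951322932135758904678126870556182201125795780511456294851312374031164326603110140463275661090802528044340664332573325314917617433792096156739465116877604319832497070643390721523199562074215705667437075834174767549190525339977354789343966746215022804812822594391716589941812724227875643581765547209849398531889401938635462877674170435426045705563042970490130423562749218945012119808438791896149614370813490330181449049419204458639739062408632226625622393023901976643591938551249930814842091649510977766961501855998178586881664552115571463604813951006438389129535639421049925370242455294889894315349108071549489319508241002256386119923321371494768318833388681711494884322524450681111093959086345276787159083819058412098945925676062148189925482501048008524780671325677366745158892944036865893382026312199094811338785598228197655951447706702126640186389734914370971158749573896006848553836744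523199431092622168564906802460517727260254779419901824858060984767700664910713832595887020857812927929799068508982953823147122471593743908105534277537105925748775157765996035028832329186865805031396680414292780176189515776984838999393587743565187382783511902235749127388509453995115739302427490894959677838824502061718269889463960876627379097489918666904117278731405138073833954792739853135599165060751658138683847394858086890525272302503172256774485567470169583414583971408757983663273289896656092391133020787872128154262078168401740302181180896490454567955199014907814691931054500217505054739023229888323867116692486776278130693551651829738042313867778889716544408805105114892846543894282792687449143253087010676434473895417187008757863820863119605104942184500941865494746286681271940662525387659536298008799297863312760386626977549500948459670422051425787586572451015446743036496261876785268540229574177490010226376390918086938760429244712127886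051194373248597168612867441216211923864426146538655208966641591679577963124127285009633741669470734311183721758090920108790756763281747971104963150049665402141432703555163803162002001976930413461317821125670748077527267686145654858601644163280587453903078658029461903343098375786281028904975195950727346931695334993732427114943632367439185640715319490785968079636955334284298947171291009128430873218570429252816924490019241153634656411590937483500482224470391831899165150977796297334481984125990391394579043878798605044127673890422740569579982799484544895659345495301768075329380409837834780646768065072531430479547481956765063893005433677479464063376701555357954613990042086790821158690453839155484292714296219957644365078704267503094387380895349058760188450622136962302070428126385217542396553897141383788697134186123296166321072049542591599354390752053470790748084157974900717665021900675916009651400808136174269622897513279649544366677174709300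986623218884482207004063180583112397403787635542305760375935571497861036021549869776647039446207706931267505283642519309311219399075641722348092018859419870186001585812576474118835562494141620210333183246328520399243316512447240914187364650406329445600533021568305234352840621676579902068302822464574125908250444782268474683903796243518141335595418861863168595211727282386189937169187152472449655947402757976000928751099472445490064535925661307816452500162457346271001781509052547952558817090113297484876887383670333719979290142114101003068468487823841726228636847329434948261828796005052206095323232576075295131713050073683703012035727923895304938063252199163514947994985093174750879970404976385744592019638810456547139139378393070308899185591810259019341419126132524950132779014425929858265489321541751372192956285508340534439741580431973690222325385636857862192636369488267316042433586134619069527194756971628155150109783057539063287916307907357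808194739254089667416455132305756535325340405891301592172798510631114186163958289056788579985953727344436748399946337968018475849137623481717281264557746690208648673562872174806585290705784387306276041544575217062150097598785251096213649880559492440999440599512785551977308167004364599973584864450193403741292191494466926856848944880133326922584480607001856686822945303144722661896914531389216879655398560252649431204884507243907548475415775100092819854287120105341789334011708261499549060083342193844491276903991489708845677524065247332549262110728987663534137450843534083041368214991703319298145607840754952144348332710456579651974502109103367464211108708870429685772448348812409130698751699970470251203193757829618105158363890609429355542455332994600735344371571752134436595513469209194495235360740063460467428919044984672237515251827721194917733343833725105699635879789986590429170627372895058434258660605698020088677742894390478014186559303513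627405284446074416226790678279675366994342128894133301150343264388022421791817651963183742390321051938075931297320205570664962755570088309675368696171203959947913525545862838983613639009195150506954347860125862813315817543553388136697702354547915901446116251326838377618116447617358811764265218103762966775802478184807164864769508013979966626144673935536822105828780208617692181041062447914939271931586827239367830315916712682129418889109812134338524964334361719593626876718400735331121423512167950201438606248511680216478496979271895934817771513193898495709351578721653127073281681120679761920925090941445822063459186744502694406492296767968869925262977106194915305217361192623778729641898792560633645568069148421842223279402214693500226917882626084073128023015206523490674226412710020883743255567740918526509944947334334736938175886540843987659126754084401279280360203997732597087005815704821514629677665967459217547826220616145110228217463835312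394904003173386170645441512293538987022486921971004699126403342359375593662389314223591105009094660109519814988969735700320373567553679604903813693646992673920350823222930262278151131267666882578995159603785181082210792098140606902023847574460261938059495307727518163016808447649364183824670790610938583215670844097647682892730290153832340751315376393902426782676036194097352399470410146064990504453333632136321705993598965281589300389494292851217963171906136851695472829481055412397905155257696383977989620062635984802803523291867732582682275401170341618773766521783849520563750273922193713917301483331511950698286305704233072052517735572384188694661407120204583394178980554522845449998003350065873743251455369150369010304237001641435271261385104238864770620045760747843193931842650574866117757261865187440807919732868275291994298285812092993303661269375974040678391534862412992741349292118538209891382849964915698627224521202143881065817144259911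808825373577724958458447619697082248407894069406141573070593037883038436967147015967889709016647809781693727174793150708877718306124261410531021918553165293923464348080196612476840571597083466622156211519096788467386826521840515136659527548691917250498100580898720496464979311465657875948300518024904466884748991469388827253771156029242799268868614851011655716643578724217988967099829585423207015580432279662004058331391991772027077416340039403025290763544466483868893743517286221306256346667068582181847377089313044678165524485160285866715252432031243896042263481738016422559903685787671702655520748210664148411841413824340361861517709640375360173081532606570167688408686656070309468022592577509898901585177018668416193401157793305006337623885862998378543777146191245870372421869431065697295473897704005021975192466977825724693800098876321886510283516426367834405228648926802307114555226952093167324412511787751543981402585043036036750805092246253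381959386558757444435586313187646345923380906691787297111281898032026951273719755005346633281460543610007406679144860693884444583915877670245782543023126325942955450853274371490136456152807166858230814049344471943243118633751332841674985159578205222839232692022284608366929910125955436697775214346278359792987364882425330184163506715107430518321545631657736051525504193185754122798366586235161265147671103398443059307687932668535075983166133137685213477376456959021809292714225971848062632337033201734992350501270050462550833155805978588570590170810925345856483468517361484155970504158331444352567386547225350027328154249912332245046650387212061347399619507495591891116415071652846407789234275247815747159074423579666221457546127146003367475200251413288267825384594783110657772075944644301578727197861554516981031661740851648760851186957578512152891657451057979108864843546262974941326467382615239326453502184983774863730049266343651174592039885418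640421285985743991247274466786524647357518804067452187672589272915309521210099868301899450614161001850398714237104349598994418952047988049935951236045798020837119389530053922251877061979695284611404674960261241042437837933040190871894218427249480956884348775546670629423350845791292753055508434379513869713382703892818486684909432860275094244460511772984622341801992058055312416503933384945893762926992764023931281094386152227995987688125831354282905851170691918232552470061793048468465971380149520365291795550223506764392535302188007051348015367933744821058234233979882237280734452224188683245717683181981479104886431099038518650153433054794999825768050630702352862498739788115378043395544188653766478359062973521941087221611682958323827968861893334594882179582245420663699749495524787367023659759818628719189075461127159770920753650061323383802154523655908175853802280010517392725873957399225381841439877639839138949367528011563472778147218787906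219819535656732277080764609761794930404818475284938121558190948055126482889326821351347601611855570558018208197353939405330390254608519991450364684021520053898815921464903724029427149159518992329646649846762827332378048928807294032766089359845401648863529529331813984853000838170323423547926603849393110066075950539737176844864310925592160377131378980273217400404671657506290442623441620543852161480652089032781171297997880946530746999533821894666571820506275326187531235020101644167440160481887088351415468504174321731342495607038130279315339525645251624791501537927775505171211747712562476879460013598460611302810778444575515334614736428147850002536435007905265067589746854381166583241704708279767788864236469130959635637159437485908539267967010929153408211785255675083931136197289240885268835697981860458921239959103581190822714670549613827482778293357195107767633202700639844024158356775342304027838058313921066301727552304945911835063324625600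335026981733223218971168673301088068997391307811562098321080412322791369561233289913490358781948919132752144897353442073245389838416318607502603265009886888503177174335520057504158947269127609145647574181826640026825682844486367633914787859791607425245800559484071983200235612849770463574757793833709792175799941409010670422929726951973124960659319481514387743243234025874331267926908909534937373167262485773157508264682256269854735414721000213916058822809207207488209494041901537598955435301446872614110012818784370299838959210274455111252039340353809207614901184228824013033711882704209593540109157127909784934664392853760553323971306880383066213583266574491155053287800281693805421941670298763375620689457481462784625907833679985550523412408247410377460265038493892754114933687310684884433982655734212452901080854114512342720098648691276491853424922960593429400063995312405181453093359716518013311923745938700201390043174282336314470659010352654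521396467881194659988489794979437794719334597327443471081875050388065352587612246448885983710761232089328155379511301984505605099287337462185819514374350159609854225397528298890235393420426752948273760835871842718200952331033117020762900792618329244405449367123651378089209707867942525661254597220410040413159495643042763322123984275346725845032060692130240577158532599252289948425391610911951710089242130393732962897822989779892360447050422355302946734573488593585360545613168273078689941398496817334630077298682104661980762415100045704248059902002982292846122610616671649572497314948084248708883240103681074631722759230097032884595963837669862581758739886568126415504813447004324222479737163990531059137910894956139540301009386182334091549712356142081920688450046248445720682320190456778659037282085068149819647757391219084919001354764949386996076381479263341995366946789640891821809185635092423687725679868490527214714430154422684430375064837048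468411476748645083740566833083523946219304578878693467681378078204280355930450173045833463232953023606940866306013772518074497205994765468757604591214421832281299962796800463958101765535488142456535153361513834173238608448959148389677614188967789609334943957470452719374634797014467927200052695989594829268734390968144931415998299422823949330318308615693315608777609093064975071092943764427677531052944750806279564358765855197944749730830129800906486182009015838729657760633073270369755887341197433857991527971451594323920152371705251086271372294554370483905751996397187656235878662434388120418803189224801474953877908975011195121278350692420602083864019665903043538760528017603353354712767315094133462492956377518849324514174553031571654149623777007347071232532228222546365456368029267753053105965741456001437198171679236293536153121660762095003699614608538812419858614131632018808940464660480784261553365409059944467502768593033423264999135998613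194429421682512773946777772442693814303506760718129034369212005551629966765044341984340170600844829315107458507239235269441212385860969020505866201075360561775532779594398780369883608067641705734656647159845769610577227324779712683084775660385645893322142206829801506316981772900597262261013626882799101944369673345130552584759304564911030006241298867465111250394775522233232639739619532960247939186163374783109169295480185656062129209839529002831167330169126169699648148176275966125259564612511102190979761711163949101918445003913104191987634293471361872948936182863712420311639822652972373482485523460192716121484420977036102792202783114738897856262234156205544923978218246352476753681355600116964573288267305804568037042947117323849238895622369514056104904833362475696023507301425975788491244970561189685245596179290101126578144537633504586036343577354862057166543920757174517924203393675000681299490028891892342235252567156152127124718004984588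644214339367656506833970295265066822932887926462344351488704927875582533503631262881101884964597929720841526219332554574898387877714325391889872275664846741309270006908674377205221167427182409530327642596196085204319250727473762878768055275310319725479402567969652453357971610030812115884778330089554962059377221710491233205944774156089919294384034740911234777357567286863432012821595378655022597184534014194970272936319811473850778369089201011518695051715166343447564106090333734916513255689149889830627123459649564725078753294425875133568601764240771810279540347990525530203957251882917664233809363610028923837112117357049099631133097009613996145275459098909125008106479215147415178566041238339720633159106701754500934405200601528595164220892903174880133883240203020347987551468416898837239034438778975780558134746077500520495858032566425222491159932805917220207644277880753797810128492497635478936115233036075049120088496515102857910835325815964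2615934787892191140914783842105499536574691069866077903982756520380398658167354041805975324688860108234166188691487739380300322793785956702441489996974816885041878042416526909253323966657495794652742553221561678159621330179891723553953394959019413214887284888461380185290946095792296504059609977399379545559129578251834659537987202591678748935606914942512669747217785484136234897879745574371462053060554960420000883188739122607382321574863581932438954237595395399355044209176151608953783108879821433721488186068623263041903404460475017930801035765892773838848)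

noncomputable def rc28 : Nat := (nat_lit 24452474625260203918528713191697523474809712910568099729200181340249498123765234015091593717216910060099122719467897877268755397660240162556427297789813377976014797347031688788473063499490606059478703689600717131003082263020162256722124375712852741905569834880721213163618231531182280393162568956552301783663134863185190156946975151422977670618325922609908545846001592874019168913954805309366565106268891507147486570788989270220881349748842657585526772542676729564026663063175301714014901676870250506021349684758172891186428133581118749466937813612747951572594748214597453949938032569429201918973896095694138298525848078830374501930270849489601655204179711490697195412070018824820646917476447168168425485484386719759027079294062449165929830690174824384906130763913209992261986697354341318317360502201360970107626727027547395637068865190269546147682787458245798406434494396669077128281678497056436253557555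747822385184982341722125363980000380491440083435079093510082827191962279493306796395388174147757251178865687336939997109652513391331232625755126090992348142028161159586361488348739168031423363368989051385576421486548822167886282608279164094751506039087577837746027904646020375762187617262025495186048445031704570785058749364465552384590523727314151420821225180486992568144697745477204004649467459991658099047085223360047924150088495656411743574206312485676304946710328525965660575691969248929392632668038851705570800359890551662521788378357013165782097920941542305128333430896230920901603905361082050052497920645166624289142968890706606550125847570164317247783692840029281257099671594699913943044815871910015724698236572988054138920358721455472241302621280234957781967377523273987440716496572120896863521161631318250505269032558547613340104337651998160590182732694829710352581489301427539593804105672643783750870018323302191740360427377632550098099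663215473433128751748732424030650826599831528599665625962628257819739612598540909918976491773700868477270020865874019590531353449583308765851021245534177297391620189737498177526499165125056797465000327168749485885025405576999056573742393476881297596886029909527875214268344035047342641389209569006886935439194969873215962760390553507046920954285788935099104947722247703925603736765630500453338109248791393959292919576379244944452174599743143389840787273583533994794990679839366223608390505000377191707388040934325586509082391348468455451127291867116318409983635375517702940611945845372914081503466119018079616016337410498854176522117831213994485895924568067852241969251405987453273966097961633530156581313851345534878121476655570036762675942690991647692062080186788376184504557451669835625109491588584152924279654006576025399315370632740714373975641389547962934185565539884057068836183038746602749270283603336445373821404531281946506170344642767056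298030189170480384301339801278953661671488965268138361498755783144815940497245128410751638967706312076093954765944270224047274970169705284668352708026400595018566356921919556905826478310239567913055158057460593584378058018436227261788304170586824050084172689123948450920684562655640052186299920957667855705222106170051526405842428789997645416500809615981410026510025267492371514598059713748225440227099291137593853427571705489154354419581882976329127081505737700261396578763729434906700673234867934243025848200057356547199594102186158203662902062297859871696042206209124705068071273212651120894901867506421326826856563311610793842596055261262728204994411238079481602993862101664993022201637938243895025456878353102501723455627710709616558424443630727060139884135976588309847830161222800376992924438514373667403491708436673445341080301416905239939116152553821043369461173482985040043750194897347407229392084146362643049982809891212077638522085888750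187827469453556471831178515735969575746337748631437969043378225794675714677001624036373294177438121210129351875987319744448158427332681290907996996991276632312700792577962947189400684722073532313878654813357449637596968874115592427186758573335453876434953403490846940155383779511134493615035900728814894732162425629843254140249233805759086149199462436025431869337765384761844610428427802246841503007290152729104103665504234006318510415141684264508404106976311133200759786926270873967923947581004445331726731217542989227840684590003713558821841393997775253175264032725011326798431764324026217874424675189632636054251272830418023845526210945652588163560851593319856162967823563719895135691033223347853269874166973526381120637798849479792961897702501081999822271856794159869569194261870124173720203551590747227489688491575609303816156386992126399722335827438241108700240616751016656681890615259005733639249205169578826620792778683149105283061720260106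188644804510828083030781459509857198597882887290198708715075306524705478218583396222032191959077334179836352789669418029501157080225590998080247824056298631482271036770834557417410153668539908344895998363931174623311547303937978707164088948624127660295858352367687685716083444714796932204921367327930648367675439270987738661845016508037574605626331904461386487064646326426116559752792915399182276559045495324522064660676632188736657918189464768793215254471143139296233892691941058110531853854368585377151951082697740156500449631791492633314200930093167386230013428404520199928793456022215506871864831809927306100149156835969363747568335517810345381413977778751256861564112083223697834376582133965192457528733850332701151787879082716004096035426713245410453252453820741233010116282941462864351205857442073590532469720557851912611874693407291710809081023532727259687118723078584864511434982470698073178277650679754052627676269629781473770882444715519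612749281495965337116999124023044260952850498593590112848465250378222921684916633483643913192862543886036471161813897307284979948406569351336940699438512764844929319974243678106891439460612584366779245406526883761216720449931918976518896485661222762513755723936363500791802906003608205944287878109336423500169876761053235160412654090848430322604722177053498938369758633645211389027454840219838039414306578006522395771661062793782968335985124847896499637535996234663408816523457616841017896622471318657622894473983860164081902054142767421655941679439877884078417129773874389574351095344542456309852570849003358868339850599666949482453225418096628877939456376262474367436453943928286012162267727519892448563905247943165115250331369362965834403831711942848446369458812247616734608422118288312675227282868497682753712370353215563333049940342096307289518651780897456488028475747888184415004424994983013026530514846084968360190182070684343029287584230035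903568147016849442643015125148549215577436886857478619349022245388083736805323450853824946071717138104698815517477415904067323129840221351831006197813354332845498975465076145830427078229214510923738464448061631572716600837921580385960335134888794428913711951753394318031038589760807681430630322996253025017905249772927149066123037660482065146753545581850768799466993413157661540327267868830688237839851836351666522160301691845433484068812214515788791886109289991665703339700307935419429997910466578755868223469700963606365666532906344415457612975915796641732748574120149021236462803768794084696667167875283937065068645066505244702444781962283696400523084326191754200389237768322142873592253199055012189826694299872546174027772739821147536786995498307693466840376309021920785017533371995594450129921360552100751506292763918621193476173733350279973467654901013610535966810745866488146891619530013572673110952575677553556050233635989098164712543777314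668490044643558712395161482528445060449058100426811823446178169400772730892949716892879389430708168337216741522235807550318152302122144704784151930584002279712493144737528333840993136889025245905094504479442820528409489645469214549520572898186985871643961012918137679722005632341506414555462589433514989374614175598803073030086777513341742311088775187220719288171938363726569844731173758726240707523117018802120234248313890486572343152381348048499040254048180998302200919084745920108415109392327658545966704201521704071078180644186935426647716260121331409026193800280285063840242451334579048023910989853432365845705685937810083044063479789072809180235505509122504859320813611091092202840775571220465349675422634470261536344737517576045983947126043765322028993338234331514733736242948204805383683330818350136349842771544460128301489330621696776666300126432094929211084879849136132654384527466408846112162425045383290793014041945056790980145151002174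558319200334760158457327062059208204097276391596349675925308674290787344761856582392579410790034291504131295346980209643538444845534656921866779037957275367053817506451722421924462432130405457376557502665967866505840999648022791004116033953894148536992229295025076427537815772900116195530958275160151178818081377099700138994345369696766597217296764314691489850199767002789086499571968975229744565929672540786887043612522575225149254081246841255197568728800795633916076035174998929110802298788973852693008011420718318235058361781571269585650986464929241312631079293835016839090969293431183869537751483067881935700378148341781448850958626567947602876434901645885530091669423294052921180462471491817896815453891640709989162502186776133885482342166823099272461751640733318535137793597537100349286437150832323234933727143864000888761406890553243278938775099322132402616724518845822738761806762001545975766662560100200188586601137808777076122616335297597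031613056297047267538765250531506707278033046335083678809771621565843456670791779328529292497560309971082685175112388569034853150399333896085897791765435737976920000939614692347175914191144504892797541994040323251188873995906045808073247481558092636011381692510472925938241420116730952635126877709262076521639499972095209134739344716617747220566833502896923434735507554571886505105916172475839478333083587540439298669543095552023085232760057499232594765917736597928566515845031038765327318749971384605170523343298445591214573262432404423878915536869369181261472821949378747430113118095786924011347044344145468261970202968178011848274561423838672390916134964910766027725275466861826241241788201933393015012720711677379995361188520160586697205185138841767919955673325549895674495009168267447807409790907078222702124751782894547079526124845238038085942518313041025880059880118769686028169666936037591990699449630269693152473662371671442737942580918541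478332921479449139549488892963461698447541413283423143148115854404181997104986300019653680664946976988587817129067524813057012113918775706044937665068007135494630793955703281371369318722825133275076165310387833715473719247232901333923301435139958022382605057160875677686558214471789845969505105268741574021726891058446845820853682304525542146018914793830434911696863462038485689678900276498003984565218793794193816257022044661762835099310701189558302086444943716269555005440659409833473780423304889636882014249566063551120058790274405819648167112281904052634642906934254223198891524735831620311603316796232817902094374099156865139736015448648804952399013063289596572234215470905165061894480852239911914134397976024902938673477138365417723539858752576616288920166790370676477014005252917589309489734976575405409719773777150553567864849923546286068181534503044292646103315086259858733462279239842712341852578642817724837559773290876907963754902239924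725726549675521954595231989202458882048032208852264912783219329187347291158182541275765855142339482847132805041263133640984031552037581874635093567640789797559454982214919926922756567625286955748296654915084213109384281725919375666230442327377489444485627398784427518699445026300570989764834123839952637148986071427095110329153299254471942440252756846611208886772593232700404495024096569997841238056761163573572430445280183693181999042088267482541646532889436770598346798456963548296999825978980975810775397615433272397782609914614778600821517032276293917614114457452344052061923729572503720141986541841962447171805261368889117355331291347178892611015407599765383926477311577705268575255432176299685092626761036756035634287010830101054303243658009353582286555246380163840838982065349420995331167503991938641760123117136862959172348375204022233838367090172305859036584348769612934346240893455887673626025315455087471093639343914079250502227116964977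083931236137252312116377257962502214353763184624649818927034336797651992627085117518164073808672430013831733401312801380416632675613387670391315264809967364600975259331383055566848584620810653150166994005080311675233773374380080400596329417363766763223771757393161630897892631245855870375595501882169921248465372224670635100743020624897538130922847044519567378515547738609471566758220530617988637903958165595377627541673119179235311317984585573316308380557498572290831256650954970983934202795849092660321295963885974706391877530890388889455243689364467080992083106472584953456289189340806501097439676761196808891802684703758888702669928151948160502638297273771096853077191038090043496778343217393341480978212981370116588430383993624322931528939512662383635651873119815124606654628027418040421528149461194536584968074136285642163027019240671080144883094300591236458851479759116003690983792221680255674507326680389536231136667470198228807910240749530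747245864610508805682220980139803432286087607730167965202056857129036601868262613281273480989858081353210141006777774742071299713088792235842430232455265901172835996788474260088320576260301673092514731099740259774175378648708380377399272077175479505389274420801908313932141852125704194072644744719329338710979254716681276058600737605888571604108334030391732563494294000247803205247165318706271706101855683272707892756502114563552561952011702352962653136548010319020318869687080211563672682007540001746305914498071768604338171991218160304379842350519600370949742686115278688506765945662060443031871732166210442137906104989671331827994793154129049038931082675452698190151558689503609398184101787345746152473046771227518261060087160083127143006625936791982376021294707283598700118006351565631696431149442367830046382078967169741470123791761280471047228132520833895601066695688560344621279775264979482824936653719323529716087689549779292719101611633731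237544877404879051960717548286909074584476142908646733913833383467614003540380136840139421899380415222749789325401971129685743499674798249256255587527534678213489632006517710029513002143800843583011918455976068771390823915819626490573241975198349288656894972099097883634006260831758708355228293427459471159475345210715668058226764918485662541805282077049355481681749752059740974737774432123857190472429947069489212965830568845216192334299859760435379862706057526090607178399761704479379371681181585337874638145875912888172113349314317244532657941644293606977765953868374530703363939485870110644158688179816297562416211690442712658190728027840309991406433351156925215500046597179503415133011419906210931162407167572200276460715706446496361773590507537781803818490015619834138336915293365102084673205726051095338869855098065244624339565913744211621224598962938315670167382711131851539801374954265866228490260000079185324860025777346327852468267933535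874872301362292210023305004124144692448398227214486614268122144679303528902726931006673413702424067980524723859320501519808500675089895116394949173127918772574057337399498644654514045521936132275469180139751654549605809865365717605685417470175686494848751814266946223554448941689784807245781677922194053238286754595779763185926975700324135777534878928916566772694386835743433399927769882055937205394949551413517698047944985751407467046055232529750513461534178108758170953000365645206241553534396831388409553262751058791346210793361917840794538251940445318913097352640587548562609641422814175621474306273529192111489559942618497218044592044744744448869409572341109328651287047991758169448417568613228085349095829758964485867251396383826470301433281320252931835226672374628615026134612756210009083527694239489756435358067282541715102297353229888200576183458661075032842063397294873411731595432627139421018596057395063052347057161098332800933138767644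859889610425721377797268879890569397576365184380529890727832992418752077667556641564098137006411496743464344893186820423160406278774867624659604098982501796471793994009937878783618085045996235256140920473199270322009124244325266975511163552360869836597358659762016270223338341119913310223562593515662131067482256755236832304002550020900158326212273661821043456911679675124214723987470430449849879751299941801793623628122034415298744842513841856012308816004107414944070219910300278705356787943182005812446919594758248958365573676287110474684154584729770824275767674650623065338262273217263410569149120435614791392334006094596436664111256735636216797396808671007019815930589901103201765779264234200715416993450980218454467898433952487086503058267450077730410596080987711185162994866516800065490556947754705166935227611863346970531284599337246312565340105105302818030926206597560195535770280690220466117103489789910856999732175992733927299790780004116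098847682500736951771740253258121234431566782112312330760905441128978693974033219734426666859890516631747216242845240828270541606734803728942596556271438771124219344090597256072836722142436274685352044768987411221773868809909270740044115197349141785488243725635768782172584100162887564067387004322851539583229705277762618831276718850048727616596569054949674245572462789212262903039815985040071533157188085036403073332657956169909919392399850221554261090155035642057681658691758952104689300139368364675408298377622884057874802272287766776909171096773193081375273132425235213588466696383638362024910089130266892705313578263757962812195166250653116813436498572237969306783407264014650763967401356926475822719583859993572198568376700784958093963573605960022370696312842046512528347969093238090634025917293094101229993300775626411107814467111940086862678450952935738914481326445023329632224184486346421545770665087520704874790378483305000773096109648616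7586533642786885260479803492807930825633523169922427601651437360127049749777343509835875183435343788096807234726785332820998003609806402183683593969780358747819960872192238521244954564805836525486930439049673658522277038019928693808922647484200303029193183578978288461393860978145006400640879960197645072918294351911784120891750969970153436023881265793851183019657076500862242817704420124182526282113593415070569188116478287809648003857611872546698164207192519802037361245949441025605199935355473885559949171268439898968408871240942573427813413783553185939456)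

noncomputable def rc29 : Nat := (nat_lit 24509806519828941378420959153300294067861172622070438637237415424567780657674065488682207313987645406935012624695804859929066994748096564303603090904189134154302762130431346902384384537165128207866226419597982305368293872008359429881729609047010883455840464586754976041486584221546592640704980053356799472870812685376141475280547028170682592209384819625650959349963653968506845883344046049315779588068696039552362092660276951641362383234743559919812691800202206694311899923398567528100923813611342089332881430680948965591174188912368823160097930797270970946352080290000913573613771068407380885120879231464753299232804963099947521739431117859768432054366377446551530016862025317081791303312078728202925724008681457548243904813572631299487157999834506474418030319277639808177009554350298238916916938568506902603524773077139543620776905360546481328372778694501222318781771730743251877021543172154823759504506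240863653259176394067338091053339857424533154749880775143382983668901999866900130825196060654929791537465985937056869594852560513906329796008878851752757296396292595051471462163780756356531791142102472744180505170606971961806168163432428509584642831874507845243478900752094146999643181742679689184933397099111816288822525069592954124874119949607201949847407583284244046347240807079158741075956416128920903885426783321595713846040585902002148605344867137345981666875292883905206636143165460470861930216635772189349479101165976775052849542654105856519004664409457189316374590391706753429869867869117995274585570173549711443933530793155475312293654568633867201286475370622604533071716145164460375646546615792439411789717890544704020824767603256252598225184640151139016053101233773591893391085501136281028754851779541281410089977176537498248184885010159610876786225022241934520910397698481450513028168931869557014590717437822295146131304255951751851144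512688917393175257854509906479705798510626756069831804162960010906330140563070959001269680970945738204436659200505191755545554105993507956670657684781409144504030324080020190994215165234725003369542136892226060854944056209610207424115654815247920007786642927031108045311413762409380609115149419741074277905442164920281464023163338949481382482291157338254777800406237385853921032976690002031374488248776328382423033523810042480486185685897989241462196367772066248540566413285645179739433026189856989948198568654298648966575819946058490334389493517768607226861463185285447744892438548257124509369345088759474579650053953644996754750952638285265001306852809775530734509111015718860913647212110745489450956358538220023381799003039893016517002381712782503115466690589357813661299363382353121913951810409482505274632103893772891042673303859066666972195474669448031885763067045029686983728567741014213617169816489302971423629536554664372649710114501507998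731769782461440001548215181053262616030354793490680220928350062458375844138458647783545253617217818978466783300980125627081774073152010564800493545816581128497539722116869084867470171721708212720917823339083989275048901880658733912111271168492911413968723603158609686888092749802337783327456640984765966454671482064686702945090157688901716423835550401888037987243815836045162875941596378038665336174053471115514358048706806783893717990937206077992857133536826453104277510135101065819904385683483765336189253939821654344136146388586936818705060916656382610346323040789835868115630371121579847310464607559160725979168450968483821895349656054304818497151130413594563505944317196053591927704948808797896905503921958056003707137093271093558194664633349970081126333726999528192459784454348395041027663316901537571990322293851476778559110935349342509278079103629980309092147033397279017113587715111676070488513488762995279014260784903818932068551748432677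928213842717149966066877148394828402133134670921765421515601976100988655191779752550775837860659351774195098078838486056518931544825273853742727587631385590605737404869607178140497103149226092711875777163395942373700409229716707602260477755704282927543110207497542977548325029804875510029493172879303541371616866083799206737595553928836375752785817077689623892373859660344802812915926074923156475858639175227114056622724229687995235351922232166176416048040059880079366337447285912327340754521716317838619611949070026347575263945684104483202567229494446889926891158356854518761692068176983883288325763805402683101000150715897829334918404061547758476486685163680433025436741747252216114891015446536473920548601433495221358619278922975457100248941041127022868636836727003832068165340944173671053480888490253280912273706552335600645838193727125230458376142631495716454506045097163165440720688773820966178914543892171390124240186329815526995426781976755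808192008647801532422483139264893554739676028529526678858621755523283476610610224711170138364401544090257210924991276493703097301835860274530637293165233696499842886798748764707045656996964362177445989959640498161759955361138660006009143615806061062158502944179585479444865205578106177384489116747053158531483756986435024665285527534974988725927458116210596562988300774510267247008262512719210835797340141595771455561471249121454278913966666390462171073945794809693806146814189032548940468431162225295840614006782733440406094757487978451254081815433747542182021235430617529183310912105741905241699531885543943015127609043698323440057905012338134397810668751413502684729458660569209393311806158734929447266153297570813617684935618001061050727814005280914474187771586172663379271043513588283227262953287384158274739350339690568538290164917370083072831177496515826128655843638256712194978298255568652164244635050377713007030724692788244468044574276815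241565547078632280646991640669754109487523595379552624113578553051611808185436551890912752427853395488751458080804874349785385182200360444992151538751182010777672759515158469098872643836854513237320628355019468239821532341869712803635643821165570701876265815354829031128637869249438573902689326612564263876607397458204882007736366016432879039895468069191745791957677607627995686262869706612427133789761770544002876939969309399449818847728815665718255191064899191665390910369072542058378228261703522289973058247702116131269242651005235403404881409351923786288352860267461829031074412009086168911556851679475420161994441289781988413274659454423453980496012393286048291899678747358982894670869156317832987746040558224627885974252614594338366857134997427038358318250097981683495451238474552564224649101254844631425240774587129534370300689095849363279403357203897308854628368593628507349568046058020992384240537834393247136560040860930079399721503875785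515059447433047384372620951648299586633018156232847661912156326320300079336322297344715465448542105078250157181322980024605061947906607157574226924089768335837824174425527943451117250500293025846930120928766601069378621553042829563709676468523795939645548814260976985426696458810559264274641022473467663435864842380875052914528079339960856989650655237461981235621919902703058562371014305205099346378958702794581046452381011608273561678104226088187867801390445700387391051000423656059468879806893586155586615297894830163158536288974028868776492943793857569556539711034426172134359092882972414148934941118329375658265272416386589216991406766563723388916327136491477451185856187546263606626228489793508218559063178906436839147601195249518962041268272299424236178240449408083920469129438376808443922150621210957546719202446641082671416585370820862564689223244800245863795911722898798610818222713591449053006342858713433076695697775702641209045878293019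878986235803185445409515374167779553476317513524020237028180800200551584081947686569769602823970982947737239519089948990796207412988693777308287534018612661581085931450371964913884666802836406037544342170378406589488307244023715257446116143042042526281881147008487620325038504239961763428544877231711176203627550261663875870852352129807776067186096147506433616693676332844928742334413771961067723525823064535391113097750151878180381771576026257501169772759376281051955116074970426006402833704112631657487690236112514448479366756504508043236514902006844481783981660020580136328999435939561878018457653098446896683002175594009242942432923101802665525566437405566208833968754397696858283080264061650388286356532808852318473005188945747777605746064421993205464765078472797042509589578385804575813106382074782123727253135787575632041372811017096785057839786428145718709593656660297369667855297111620102605365158254378893353465591891903917003087873959953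228620156023693398777155353748239381648142619622262515111274843523749869454033686524161465548166242540425330557871452515210642200825103092494312918187764641537718297326721452565559870779184771136282161097488691757221808668845372773093725301161059713923178108053925228513323006537919641848403260678478488028069352385182200092311803444694510424978528154986026082553764946592931213089128072997026972624948247962552849873023415907926145122577624350195585533035062196282876081598360229147237986720867671343112123410280003753984662260918432980508919207997071003788607162217714721698719295323667877470065899403217683971611389823709337286255912535331557035435402611673774392842162896440032494629546514310412134109646486606766024882521337313218859315878791352931860131256956802814375782430539062984521107620484529979802201815838962401350448919757165017908173136996464064284510409624188886086829172814539190119117396460507570686765884179369638556023103034551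835084155646508831685560687504638062895390758842311450938067191784742287535352531717737010539900370608897285130010793503483580830339635587785156271286639949854473624203069938607875862389430427894773872538341718979302475084323682759964524155731688237750530427540399502225294823119307137647697478549813984542014369331741050721648709323984258425470114807206399269511787440656560334943808879364219856430624568653879298782812786466484416369164524495417457282752956889280581168900150553297526857669019041099473821881589357200205230506354752947596486543400113405777886467664658490935356417817960137511406478868809317231770886061521414829464367634906935439106445406499672702791452363047856407416639658252426006635428489687685718367917920976007804005332551753106038019092286323367573658468432068067282142984891419394303772074217602047097949770479082626866766864673502974786075096564758516913540172491064371617923631211845760524339702378934515665084963274124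812234030933755807765884676079411876268776698718330338847586692581598751606286237182469082621350696619749755140580948530338040456689602397204063607636415324395477944021764584948204311607473864393448646599497526883747825496593361182395179665786981259293920162039322126759841103987861311083975490004809363599221590657004488752236609088837624981443629481972019026637079271372510126830956681626000361158560845822357562946460224105998606023799880415728027830983944435830300785424784290528418474932069491369475209291421426006248270264493820413892276728172548159707620144471210055194118226231847778618744023730131620941362105405827419616804139123682879855906603278297765269039148055634063151657062927088937937131709869119359496303387934655978628673380407361153622719311856781953006024028303993963602520453837442334140344001605005266027005484297249815016060046128041510736232172621599029045980563913971194628163613753060738901113302498514128443549301917052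043344373512439917541441031089202441247727895580879585042881709697682505180285152609624297438523392306195130234665968809985589861685196940489195523930024736750202280349055670751784076103804490176636427375505250119643307860407736839553459961150190800356048570231730863514758245918553181199656564543712133127193376564909531662196330324934291573365071789527048164000439416647155508890079780789975789054567747692350206425070765567030745730450717227337707902848036087099863386076431791252140324535990601042207859175348707092399943737301821483921108035802656606596311042492565070497492339494385910285717095560576911975024442895906351375488318593863527819922621445518890493822001106732870067967642653600971320917163945790849991646463173848435780894265364095947777609625600110325291160856751387916177943045577985386418048855879845308515916647330745330440511188344004429276577830598792733410660109293294902483977612101370403378033306688340761525973344713717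964036116704716374622053599319455490752959150270337328734478719963448347073709192720741232977673050627152248348035601889525679771250970824818142476788751677533968391516958881229814065068941082868293099344600309194734998007652544897103386118579851252242643272218478829825347941187896130595326308947215412007184369487042360184906685827556875936079814716392127291436044831586903065249592742900254609551104804102439986585509116005234927801166328654848442718816020806811960200535185634988566803797890289678207405390549090147015306983327838019986967411494723810088672329398062142879637191073184816656065211579461412828589745168363486629283341595181072858850497605893892209777534978241657342537492794694394395311092496775114173726036392006203809488933788013995026760345727006967280859020933164343182849196693075754918813838895555733970540319963144258361912113745536206781608945579648539729485588583324576925420218661490044899852040399104129533452069380215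110635665182675982962631285334379493631845612971006576853702257231302191224006633119582459162851338324668187289719348395909463707816826980476547643341911901264193279214372633276810849924435964591155752482765734206317978623567987470715933393725275500018587014931541760146401007607622485422192776674826347630582926238434612071381181815974776187330555987024229401950085156413623595867176562053687325858802773662445905387960940941210524141993559944517203855567737109662905892002548824148063003496266909215501658185206464431467740882819172194433285625855400089299233199053994969019771803969654096849492958052428671360259916597740637951112442738645962880987862110406380603107280146762751906048106344560606745287083803301144837686888026040669065380098525398813087411041347662182514736743259221883762017238320662072297367557630701951519752555990186132378707192188110949468166181532985706000205498910315389697251102150484470266783380780871871626997677915895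674994198203553613640710201390876663135075277396543566326137123213752524938595047562244960449177796151277777140387973402879342701067678177867187083779175694440241544300248403655367288204917388016746735534006006047488325746603752452684466738640297407933748218687228670369142597666424765499635815515122005545659168811016739204267431980447418230913623401040965093213398896645210419348459368568096371427640953694782258583437023723739935641147954570833431925559646854321003520003063245119610819319072587039846474296054454064759551277119490435372579467739509159188823697901677182120400633289129421600423331151085100702480350536350257897807383175736370597176492993460397492463441542710891259430269725038232871104169978895893851420681260003557773998091759666176170525545697204322647870104749281145622281549075365446141537800191521489118729810063699389339374386181196132296455854014265277347715324141618894127619196558880315510091149054261470933920677432629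199446885451529591689271188205105909534364829604626743215573613019112513903839946736125873323924699592252838793096633916184807951081166427686259634992218809196651699927886272653236755255924696406152134297546557736328487658327611795823222822440433105206993436569118071031477948323801111219391703927925175149802532980208521441851790620933813003717849873465730777104353915917743919786184955726209837947365399164574424189034979901976608604571810995539667468254723183419372043677337355483551610232385710590916799421141652561642236086839142674478529620832678000987615666654599724514311380673980252150668581722286839297807629715105306030338117555783412912344581899104064518928725981588265314551163627128524678236605156431394854713124213742658006981643152274533971220003932994174037536883098316027303798754521084428042047921190741528253617018178335013801462816061878375237773542788364139208770207248690259638022188266909086669947682646856596600957191420332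668767452149496803503221673863142715306024233901759301485949257466695724259578661779285551120738118232252478036119865612938509199155009430192079867770099517321223272515966678619357401896644886122102798702515799805506720451394230644860469734174227609172856877557564895900361754973990224248516828976859204375376291717290150315324510901724892550265239699384266346493623971746621490325125849744911804102759393623350633331094567601536568190261046362594471386615539721853418086177444149622645122997171357895763672997010653453311878436389484840602772291095340887139550616979715180019956578490761736934118776179877813417494472531962489752447538180383743898515816778638115265331880628704890131025171846806098627991103224883865462851044071299106805265501277962526270881660638310850183064401211500137745144305081661776596637700009753605040757707606177069439289681926991440893535570564618455933145431247335306474527964904441636193819236786795896883876652117367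160198001373209896692585993408414455072600360572682363136874207962841501705857202066403704175138892544344337318433210516213497816818094801701529157398499035775721551205884103692724387390542253431879280567074053372422314577201301697044847422923305104622492046261232783081800429796955851901252333915545761498606993786324444500670461576109347992382382067724964212245997701202360243625821265302149420659877559746792410429949574747939919061507209795096227914508917493021470321762528337969568358664154212287956685495455368406156317223527374067262552619121167763203568595392203576590140595807728303330634926743734277230998988803299267733798604229082207534017716075832386963218809884235025363765636214954028126917866859886910387232635450456651753556223354557168337726953036915927278009122344433310711829507353288782654051430908292964841568294437123791636646244263114981903462034871273336285462957125381712794549261838785815708315443165297603217212091392569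4742230956929250850124049116910813201481705121042447045047515425881261065617556193480041440917193886319598133486253909280299944979171583132603057062670978589968252738877914146301731492467929249049586196920684153199331789350046068471517229863846174797009493844999288794179020306515903397520600165918356654035938481093694818619426037828251177299663689127864339967853014506701479144306847059140289479749053806120881431971800785645357141795657946295744360973679701810957730968237569901425882560757670177181895351815899334222933855072888313613121360651183017951232)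

noncomputable def rc30 : Nat := (nat_lit 24566738276379050453990100718052114042439270257657510071764184061048722095615364352957531780674897274260421870239942804456423572651085969545604634504893690021614906088972788615018397876599538686564301177645057899672109903145827478775384832598228488684634170091280350898341186482745060534273968328522014108869168510492900103138401293022276606399658006184781778970122009859754634856195150954324085897091703942301933588914698102961935426809708038092510786250274817916468745799308066985031146645454792399100769547635438681943563857252996462986825249172586192327276032578013782397370779631640178965007233952860627803694890786693527631413491309282437614027825653397781046037454386752228369228556095931940109630091664384782723237918253627817713954405391295680426135921809090973996288957195853395657876659559934514535802728686701400753573164871725150341729428265619603462347451564265972061774363796526954686278694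646205664712000005830667600327541176952355029722505719742637938314776264032744963074999165177202232172159973001956343743620559379034601373716672894697333959578992974986595583875194519401483576199203243776012596838585811457983067923027649532362994517291632865599429357483349851030932668433938438775110678519914223249112528639896255400419366586448936294521178389441207570516740373861247413084851546888629595188841953295103637205811000634069582616990114046967001384321886776875116147029818104409729615315296791140329817826719322046139106762253123923680160151674053587967082738567541210330096227683088932534160179910414885932201743123211657034147120685582681307466539065274618701295120618393913437038365231521874393229792817556343643326800309339285984035694961088582397857202356645991969376492115523806869871367072363221989685851088942617027045829096625156121145157641624614040103110646037355325116060518099503324028977593294280990242915349230642319613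472326112950076566042717695486681807424818731846084696599368562983201176979676588219736121829163416482486525528287756521767410496450491245240991904062348910499544380345010914384367249368990685408769562657640096698859639007582178908587746975091284096534441969596281000931871178631716690417323145390998005382775886860856541382440081758481293884325112424767306692098334378294763573046461712854910117873741820116306877294937012190004250200791415438710750868461444506210933996185379630636552820950480770296182022219969403324711711369105314646876026240749401253592253087626200849538285098922167563014025368464876351033967822876198387523168660588615853747922313898739778528783531733812726661634897906794997993859140786264881919973344101868569916236120695118642586158703358382112166378182234197180522960809483690919800596040357348687432224744341190551264142439790638048038444738335764885266961508029079943861172152804664507505828349587621408352624537713245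122885322186191421807419012245851683870955005163229227163682913811454336056392994763652592117070021039519942016056871011729973041289450452423592094894764039846875112556414925586552294456975709274897969061586895583490158753592602161901638408138209582452187754535388308865646403358334504378006029783744311372672194179311741716500658312993257134458607136409920975069287153139464220297388720004051118733516505118468259103093318825090379491072915286676804066201799946798244665664618950936331359445812989746376100102193452207765083682938186557380349516652279054395337350586582859503046522516564515356963185896057646460394081134292830191094124696083061254284089655341674317299510032579713358502280238062304231511176806759348217913919285438129178085242364975850446161183492378564027474607988941934994421089602894140357501359233978967367557840462637381102357202690429573441274474891161255826523646258453315805125809359391772692139562263558796928068173977177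431934721267650412040866142840084580966388492205816520092641562459283876052953254124073608407551783383677581313835534031510567065425519293149107907643505341659649380564957588271926268717897917729301544831140793810030213979793829272159755528698942594182052724212484734768689616520651424122817371526818509905916661113672584188274312309720729833007405987878832907256396256670333787860137296096871862287816467423277842089162768486006500490177653284923912360781283862761326710658464340036862784736612902951890720259723813526258533390728239367088452451717209667767044972654433723050647600623348289791123106196225039688753455100227475680404684325495842990477395219178690217607651733798037066454720526371948225842257121552595775483336644887362392546917932008732058086211951186599344501924227045736284140457266865493354841994116720072023551901778973701508513507096163126961372824225379509719682706506534757198138312673085311214401665743097537014223745285480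530446027632287090035132931661711274763301211950448219841854733193506255236949808908822835042770447929678426145044353607137932885416898001024161644555029421822138131489231512276536910481740996789500678948383644906296996163301331667227325638956311606283058004562468507653011283324268567728041891709724190561449681905456049434597368247485723664944026327896703447833888979914708233195353305240308931860253899277491573080616959030101379173230097444861603355223424940634851520216020043181558711040094505571963285270562534466585878195249732190964022762377828788422828691688755801061037500103019892276508672822700181502856421217196641748573814409513130244684226129676821524172717944941525119578200641664343291407764362284248475506000236140032744917287166654981437216428033916487455495676221069001872143674496811715384183167558794444274905056485819218616984440917492768752080223833050358251848158956590242316096778808237000437914897429258962766362444507604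345164739773673555530247425062320852042575881344216529119641158809976119040656862379686625075238977955383381614389577073362414804424313357008431534325579495525110516447334344881791074404483926071733235081700346652454443389201730837207806974419773021096503826268064619206974917890764589723523874345601401569079383870811904387404416768916193173461574278695903834790220293894562762910535677796693827214649119545051312584281224278234304257525176997125254527557680505742531986053146111327401746708625983688903225508291916720598896817547070131913264680242097095999020516157949207126768385548496796902689227370041236396729504875514604373988962886737882169180003564476119029024342162437433714969183651408384529781318486033241944619688203297291617307976400777392425488782262117479144134733798656217785185210073737330777362698546686430728499008373315146233476492019745067676428784456189030188241941276897502330732629390584963342922806334724033625791146663452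202126275126003097827048822213567857302980203647648947866880978663048579783680822676084622338188938497799662493455624904301110945991523292906770484524162779147766462815071345682582641063293111274366576083236899708406844386020930844719812403998205502073280507363409976067985377356018963573415175889258827798612280423057664625429372671440561327026522416915337192328984862824334435262723464828521203964779798068290781610246743721144816526037015199513138514511171756248151350110438407627403145640134476984584466302096837941141074231956426320241432460133087145743220141669025573884261414735289870806260574170658477881254655449982741318908931749398820685911099819086574664085373585309867211835307747049595396708762967338657383674065674832876699841799069714342985726120472472965988660651846106925936859984799581943245563231688453880188104582910327067794379828615639545524683487063211689926438089685963495336928537667431080294634542457069717386919758835919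413545073045781544898118462772951098117549076953478192452407162791524768203132852569153261472629626603670979733226089048341458790605614855401453980233236248562618560813123077648583730281340425847846126682867841246645565671301724444393015938102110628128025868949527737435363569763186125085030525296750041339176379258426845599539110716340572546298379047138449170029851201190000979433426059749206342765663227028024761540708503054578590295367368035041933459613543498096619573027198472413056808555869541399840716919389077986440300430488439641191089867635453461438995389134528770203643158511616409753608393786423807978607279832842310762648330775580404700304635545090587943384358926857337931319727633180561858849614467972990280008911344051350727661140670395394535454298763303729019635357419511078897489690951144150123062920516535312493217456664927580291422205670691233859008276511704685622449936311620891406654578531620549717147472779558062449475973170213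131305924444025024165642111680022280945921155856116461751329291420561541016424808302604744466433782686855741922334955690385654064136047933167967055267549340398466308564021466323621404806136298221621636490209622742315125393890751317073672108048076523996840873722039380629804125626438039906953647207187059914162895937219222448236332370065268988998444887894822931045485707473338454031806816844596345602936815929826525773828109070062895131077882066155488905963796807041299437030031700177430999445756495096547738845737988116438791452857411784778372994493854955937051937928260232706652421288385794756840018066005507826616281673114604512977717457143403381326237206605150333987919246488491568115293831472996794786209608474666756572636446656941986863144269174766914661259183875520099252939149734980843085304959298193955726820950988973959109637770742612764820118374218491507090620005529971796268524789422795570698285010048551815183806642539712876194953535632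323945383617227546473209750604478288953345779677359879772907758828890841665043534644250653931854817859115665062307509516943139030894883705342042838892892973179565287547213622337882090494956318983887695912203400729999968229625123384631267017127639177296800125976849982337786870416468198798643077668046274995601652445065023804998841012346159581639277511268723194021367919612232261774394525704073684804153569406311787685050193998117089734238684908067305019546418382909861904754923383534296498576139509383039879534447754371733681472922670336817270798713166930827593037692215423564105516270433085629534317197298471380112300668007713352690022703604233669963533837064859819755590123155181344998299432731675167437922681657987080121883879849902091618089078872147089562534922405654649797746363650785179124709516855304928003370936345957973222979118548521855528410979451699043967515903156541358713616954288609453616121588083976415206306709347053779284166418412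864840328909789432612243198617615466905358249646554368364854878950124947454485230240815287719524259902183004506708083564225875651963379772753894296436856710636718310013747584934050719833489482841845338058385880676446875885931645340869833405202257998760658691850229592346798700826558434816049704797202903287237757044867987879916847680187471511967527894138174949283164441787758316747994745328134080694378619185440172422492638244316412226764621949828690187937164234099072443403333853251987391513286044182148730579821568319091045709774928517724284768635276889608529320851325595801898110601014903901498157630677743298836929207806421321511947536143668143747190738861604572015844274215823693956645431011744886102807417412456349546211306602037909732017654847585532406544434422698894537853730830160462436780512328287164999334872485366697967482529311810557736888984109370124381394130722586857957593765066662391821058111365643808607742240285581772386856208514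745186100958154151877593626828901006292051354394164416599076245186645881451703917985490448747482909034895984222471634515931731481563506262744517108731452908971404817847965341304397744823379121127292295159786907556552864369116649181948267272832489055057586822649864986821029024067621628836086566221785225570095156155513583951905654653711720112004771178503612186462224065114740038107696135345542274131452664370319186801505226011566421618457754234115506991989950352465817018760169404073384952101129610415793192879382486541730534219167316523711584009837513575005294366390156158604537607453586764069246544451740375074106849157082056517022032143682535963656048937001303955742256079987487955667403783208793529002797860102551121146390195252158637319572558470106207133240460256893911777394905778650513748030500736280732127969159788262154535161224787269113531667083903651762954792446459153604170483911653138212558129849195933430198504490585062401858708974311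998089556026306413990468204359312354318582270076749653297600027648908123533640702756247352849585692283729290761316265450492529022034330194671365105273817893350197009594099014854475164667300312044783275265388410198546246033174840146022946775530301959167908475761595134759465979627986434606628547463857240638988077266214710023053412372775197031412886175081570672264204171978585606674403984868623669158865581529508067733466143746984988708443370977064566444217530799454818102670969554261179893416720459003367029973824137695350359892796083394262498866880694614566908404912005960065243362273333324957550562915988445539088481460092522277437709281557128392710778127136259774936034234942731415282643314179862335709925179809458139806179239114162534586887774612781963185873599682799706921802762380060186340505807074696468208500402272474222038621856901137297222187252353215931717974446504344995671543275428726492746870582265258585458520487948295933000174827578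434217725794964892838291356291554176636075148808571617997926507087649618822623595017030869196816698992303883176619426944975262073067626039990104105729229215403773542530692578777091507395382999656506010106494232215685145465767373639728508676782201795402606373439679748438326863582046689537833472394480697779500065823518397706235247110458698063049883371462345630002213040230869265638647860785447748097101694736548676143929498866887650549002906394745535487017029612835914414802556891203848109068701222474945690536696361659515236806611937507851516728050901726453324025134356922905722306939868388549785514048344638715233884599097430774481064403264496896344369332324629255008717687968956322842956949006177328318026088141898750684668785502407732865052568491957017187154044010729933145338460044091050179209643454287002413706872433771088497121746587957980883873097221426839474232415436694679411382303995473210026062847844981944362144901565975443317344519573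734014499020964189013593462047567300636910020571856563959237152240738954944748287152632772281270075608953155769555262967463790461346179358254493796402519314141859490155812056490490704410337422706563172300317591233897583702692843572763812367878119128653146112693635051204642551771229260984342577319574707985396823435377264578648005113733579188237800488840775619472894040154531993411475596175657336671396189893662403492463784701389686562788448049469501104556090883917563552318258979702836142691273970618909777599319355551755947711393177779903348927880972635772803458434077020300120644340989941982787420226767201694475391165669812371106832905204584941211595804967551814315984563477211915852496757872901614257640152965750414959293998157096118392865668310611911606865647649428346316634275352048588012365314597672771400516816582991293607335390452209687343042266535089945809805817276095732313874587185467750516109577708125043902082925820119717062042821969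805494226451024537017973152922760998094984390241987300554825167035803739602672556456127880177083506780785324924849833334523503756141065445418149773910778175168419541796270109937027878000170407508803082187261898457464009458902912448449243984301359081931544592199098668339431496656278873007142351444987589080098241165299728732445884849459435444284683404249010592513258470432915870978767051889493744576365313554201310373956785905287958924613441753807764440487007207747769306942305931877250185335243578442686989551225644498908158399556869663387157513024266593027989765543190309171584842606566227961010159028727205397072872976047085930778295565153407425309357155966283333394477436695642153324111417008696202947599971843086584039091886108227147017572705200989867288880695605387049502911478218017476484777694744006299479833864409310640247179890692731527869046312125780176650701915214187481624743661905696690340427592819918596499439915175606496237931735027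753949065583781306997010222078310348024802732574331396524419304311919855008156927345921068227370301387788093693099291547433315692315243029245459045474422857446753508289684544053683721242227188395508233013985810932942952836426297150888051274976658664563007216599788847941520706984016452927478481729320437824350694418639436181075675161842458757846728298851688545039407061843151233682042487229548902836946901448261868627415679648749679938578791279108610027923669300436876991438153015020869362175502058460302080948025755849440752659680639793986253806287779117784955583243192461779226659575630697725041293245164179054331294527804114674162481191619091397071701904059475165600664229313645091313608031243201820000141874347911821479165360523763421308723529429657889196746373366040575254031939680238113039278955538721939887026960232607165364411110822547432534805036786002833316043437431410641411453587574000658421386953743973419463254392317740029630714052262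916139454649144595214652737062362986987078039440147756922274327545075536496425189006672533466279085946407672036404307198897274966581202369238648140943724745281934974075650701371002269987223588512778742665136013389747704629221621946892513709611933245713325060592259186539967611545418883107793966224924737354825113108375803672811851994576109701327933070621771096571043837080897308878746184250200679379281180444978900517690294111982605971791146978859303108120425231860975175298178142760962070547497932398682466201061065396547616735485703226884350677591917760105888560243704763150910479115053926365754124534432095329362630257780407113490659407818333835742467863377107881385329692263062434127494234966701332454626453634386201284678558240349303080898657315878593203927804681323264211060337096527387167865864757951987091685756960516819331947098440918458760719946985318298845513761312324257586991939944438706267333930263731368023303026554710631709018531451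3212450796005386431217243250085136031311507347083059949099756573784904326197933308961635508602729145911677850980392492841526400443042004649829314501448456468544288913193077860727136061155900032388533650758180898506421950418557565160813291892855464840910910209426375095326152283606983386189697985872987504858521214999626606770756640008440501982086520734004242449399255682199171889075510215500031722188138015756334700328358621390509935819998410030588218193336590583542357444871017971256835996393708191008863257218416914362084906849410723630390503344683924586496)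

noncomputable def rc31 : Nat := (nat_lit 24623265751942537354507511300693587280835486464956923209795498151520127008027834940922875240647328370982409295540898162978247055215418717917097419398249931990844370741615917459312846661589253233677756591766053322745466243091274712097420840959837231649484980240859893829474894620683282032276658840664058746318325968525781122788921561478552794219141009997568528262565223502687987639262465448049599229575341714686379313315381716346393162357981500729404881565888399569439201565618055311310157154269677343723914849416375593404371020093596823058518786189707409409907141456113894096946647019639161338052393453701304500798102660225924760010613211107404590361675038510122308840690969914251578833201796825531220684185970664102010170293331418171139174920824918075945316042595174124018686996019091689526295346355020225550257468268173600247341477806940840896605261132490020351254075147437884927969013293075511019819140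283580446730115507350211636701120574424656396784220393210949271873949574650850884307213068357511315954771895789081834050809821042229518534606208972910104355044578432356839628037713193462682758891004620551178516238207553067097124611832255501267639252757443543765076094034092554222412874361193985002980588105061585677834476311537459475973367232588288065544241637581597793910906561311301481134588137281112753604673549806447248188962244006300389048031569492257350807245588586521701193842508611171307284771605069165183171523408712843391790200809358183631048029522469126109413543963090892468967504836322298715199617874379666253638523464815260232945809917678269290904972373037159334835162739312871178107949647723269019718854489913481085002876910174376307036633401120234111735585451105205373138476868191795105078295636639216326084937265391173557361882578283913984137369795746407226681849940386035061501635856837517062819490807257854982762943889422885184400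774779268041195513442546144256063074622070995567346389508141914824624591026144867642634831480153078000959838217604569838469555176702671921028506579540469977098253731339151002597606744528324828951485784774749543089420706195374095784316467307931593902371009929845790892654021722640692222755601637770641914334192979259835057593143210035847886881394377527078734709184533816710853262350771762222402582021600025232900182273440995818410367763618963731454031740931588792744640582779678680831259357618985818401921287153042897082066806460618218568980120901361481700592103510889661074132287653289118304513436865404325392228470131716983422523927408326343192202497671128545038493667932246627717760139550712423839982241909701273599718054388312262631442711589562422208895794745096316450816670337822217724116007895201996699992228564438170483731139874493023806813834074905291486693737422725069136963738874095987793423297129713758963154225134806582231782493907611098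613034718573359857512114329288011803304905960552446328185763434474268542468816940162491442284057809980289561305142089149732619954305595349164548482906056865803926629313992861462238080325519796595126070235307322913655414078490645029038910666983167254835948966040809141417968361828073246382089331131222140600180060610117312895288625889464447155184761242212919043954016012583861785889724061225480114231730419191159525351164802909115165574693232087907169435301145933858593397482304428664159298130224590835562753159189042602064965464230097420136654832054208543384054567014650858809703692496935727775856120634096397296805353663058204050643936171454267463953627636977430586776594250764031780516372580835025515159141307178597657180862439878017549886917487256002581447962370793073435667014976374154893576306736333514581865816998252113743749693705415638670648786428741387545922758827039182829908021722839860100997785608919752797844981091868943605978429450462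722229429614849724045033071675145099540659435258337246784237889191436735788480730648928081764733893459042643798274122244169096522638778494061691947475067077216379748353097271688963078633759744327140689447336089756572476000245007693698891115959423639833672258824032285178702211286746813379843463171129130151510889835415495184727321153380569550020777272888904097195291767268703227849786001648160631991678165420673290486706759165594517934494993089830604415481036979673885008321366967421771385203648540328444102029393143042191406704811856617678460115322334143349757601374300264006561180316174193912486076599523547087037929915102750487497873268371449261516149259847530408293529268451975741964794343075269995140554858605743647269932806072037861139399683972258156286576082219924936719978192824921972394794175485370242385647390028788484130181130638077393464716064801869037226645342262897400913047007006292830501913254933842072400565909022582472934610670358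284316558335445343009699424720816787900702679568429136631068508141230918923654139698847266531364490264903078263333888321115331122251119147984210859760109996762178787305843053608449316978896372649470673246149985498788648932467711996940380508611258831553819295782868051486371877167746273674191067702524504710556568285559961025226374120205899422203700931475643928576864553033573062543469293500808821085652352760780253120861860418622749514314691935896675559997327217942651448911858538434725063414089316690280841514758423543240745806207117362361441127715614515816719995524305658992397967377474173842817146176902513009770988434680828051463640643185631877271610691462468630378735565156620244459555175029098331459888276638520485717847771799521494070513376221659382354977783212051574998682423110440901748038007711801395483772808432648421021799948974419704018732323652690120740037795712344032953810999456605956266140053404636579618232772598113931179590279772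553732993308809989558513709150591672148826478029335500969289682640940430362792170959158769027457825494206439224713001825741705966970524866767331044164475324633996335461427413321523858868158821898796911964006825237440713150532573809509334708332596167659717253756487734513718735944901329939160918892881840006131821080666176187971110866918554032554728987023511232317673988407983086629020613512991047602824214498005849800149102518347341744639051422304397052098773120686460795405861596535483235381613313811643485856235059201099457366532546496611894829629563535116295295162593996205022181296695601098359309972649931661747387706560695172173228764223717642661214397168904056709539372195820870790434655779388878118976496687049917157325303298616194715291559867997565866881714879847318307071461448824403824954222734935164492756940728272709232915915014100097971149199377745796698381867007201262910745814240910970743498067216964612232940093072617240510182799400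186861775813337191293006273727702600925462067491921706897100705437369976942663760986626936705284694741653619983986767110451962194787014299336472991494132146667337656408972384663818402376738115542663936422575468869429823881921793573916057148394680127448806468532990896549774649446416163201610125684642097690637231027907365204067071201349576127811125770219441381960962634828608967955396516474250256853003229503052840143092328792676525193407053428242405676027752452127589587084715415976149798418160558088775484076499496549381267334623733402461463613693536928927534133048313576330287728725858362348385569614618957625699899876972655692429046483776187271689045256410523838821915624466742043585233389989989390598610086384966171757020866986541496010473245309327388352296688589615863973032608255258174642524349720648777460286273779110347740225744989405010567352052181170136735252839896365207531070814413820011480242062187440104287406339040833312727078044746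358041480826966599994256316713273692759451515709677281249778745660814539351951171532521951481151512827551153896723475215927619602460429556199641741697425969951521455549884608453558037843953239776270897865612026529365753384250346083908002589086339204762834162864352368731457709955286504249068095800570868995858126341380965155404934767574357823418290110814268728034031006789812223376483470344080963472585427080313454706508129408933513799349560587410836408433201239396822387914782535827725880946631888004688645154513527546265426166664215179773253184873773631355590636212858594439020610644817677656034919524682062938549995625200047237508303852494185663412610012769406592367897040938682346999403527018953364051745040161138658794135310506173991034601224783785853685769239628067600821462250980579378072612780979488083497792812705150738495243598808686590303875496121887311983200193391729963955622081236411502581765562127367349738456341949852427468845810774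174012897134062722776844322558607771997478900668580101314430826518815167973313517890193386738658880092925158456062141448039183507374893584933462434460828026149424053137266451327798268270638999289814006143359173034416805320792071832416760735516967436229230015455465266579987766411609005525991629326288323869586907999183750021941891294112760691283220160543050068325124604000713662575710071849017343903332234172762073635148995216495696393130048081420627038847447031686235150552798939676773276523962794812840672690004325340717312483429949209931604031251984167792335191711658487152073132505810287719204387525020088874166273876896562639758314575908908164467874438328008748276083045551526691297387163748935919796303115953341307111547692177195410649927797846398082848184873523812331058902703448262829048942014123878988169276344729368205903704872665951256534764979791461123771247089517242973187132322278467434017954812427064070839553590813431658385193829958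729794929212820123604921393222227072093237540117307281595208503222181270724303586433981457204353852719412365886440752188012749036946736098140972943184190942718895061831011774282547181004486000838322307784869182137563590938936666864175395336017320176035992122745029462396223915766973106501129339446513149527534422378208828529532773672914489205153378178506587557235692312455550370187209623674498888712038588164754769533796001531154893089476732428907159092033497912390135789872440151310434724418228777488060376751228881433698822249016622114383849309938644960909116020976346897165826351161715938403054778659451207189257126203567913373158786398366244127595343407828684871833744200114539311670900382022006586969098092888823501352556487364349780757566565820618362671535234103074308968554279398347174216782143269589085065517056417380979043847377825627091063133763727599415105749099659820664246308242901363413945119539239339306324459419892204977175873570590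492971907167987883486510691070113987789980747840252480545504079169252928953714775902601358011464653573418436300346115295874549386802802391230246079454229868931693740120330217717850540825480900488305766871848984978694457819918867445211719231240288856810220332033453128441328829246992630306074919810576708997921325436830885789148029635826667607536627964941730342852651848867612048945959385493716340526457684415879209917163142599320774530150345338361050167364067616646034305399394780004662036029286148074745703644197575788315427711866372706585195246858855703554773803438317031820907661836883790352942596349822263238005324313951740533801882164969937835034083541783730023361698194945344921222642663736807963382012511006183700097526362463704306416958830877985988199153348063021693739829250803368658206959723994655600234175290737134168683096559713534588375745441307940314385329284141585145566127215099255704781992051146540401667565289639582582505972824617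401217328633038892312907956944515107501478281138366825676892427290568433136310707332841242555049612162189180568188524426468725462997005047405376929566563985083101138582425216693755932674679911683111574712373252469579130607540977983237870296696899927093306719096047152497902124023240351560410718846881619871956456115984538531376644756375311727174911530240090779023444285029312896296984667118229765580528618095120728812303006650132842955897675180122149273950474916374031905947721857186232384522363242738668542677516486064325594682457483980016605839403857061741897861504441658713299433122511325080495995654609106124671876633560579917952652283559800147750104765038257733923907588519981490437747157311722179562094973275741917859861175572287418324188716245851841376008310989342844882073249672145975498333684088630987813614247211346907608973043093079680164806849703591937173379670393867044178847921066330305093778635532910134692504461534609786027927156471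788679198188608834949285623073589013094228031948035453113767418983267099199177702597683709508810012822871465893604896947372388040332917512295081351360584996891719140701761882530639856053760297756477954401131193603961194428379644784965703466108624022129499208181351940722497763376567785575103186995755839198890768171025315866883715784976759782748632036950954227892615835700180455588522839573649789468863431165787087322957518570564464131208190030887714380999097557863133140832655127114959999749673464247383260740994571824063845322085348572064965369403244377900588035132128117032123631967172396400933264102133281652575998159421670423869817275801437534884993079610370521973507168617534674681272223405570386930938489702448114973241225359758666954483740073528355193441159272660048686903911402120505202557054012196216707109321556608145369260992434444717400934315600574955464711958885461270160321450326625901389343899400805429225238933253613377088491613750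812741464313901554409352178432670569473778588601143060626065150200140797662961605872140185749341874311042095406581763134121360825101205627844135344411797663638927732515385804767979907846482594673854556251880429104514030923371989780389687769281009417799156166236201838452601298034037360840169756701066641457592023598555982460946952435057380141575924309553830281196786396066273220338654610333813700828522049712814757743848073065812648467478634308332976619319220733827068420585526913688686589829962117335697379093550975026734497098952840531250474566077647533404944559112489895473999880601147335566603713290217227556122110719589952612909606939450118773843607968961063663768669408205535919505338962562150828929699889091460044282033605352510744771369619707646410567646925559881111404939012456146671716112498058309156328594893538769362107847571800233196188373351905564065572376110707976222306938820722942723646101548069575325163724967417215879228065514726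144465648110307683272943894646651497155415832064686273573455975320288497002244032232493562847229985543095216632130159324724104787735995341717708695226978922407228296738954779966123198482916845298899833207914454414783214879471507380755099858170619047563147487880484108668315305984432220991935149402740297692043169115119180485222076422617170389045629445478879985715929352459376246415745863189626667406415613496410383485977605433055432569057853218320205454137903367546650823382858112194740246488874963101376719310028576642911236820736085359647788907234939761290264118766021856874368737619891429696322478487808684354522666075518880192491895753660939047409364641351427546781397550445898187917988248103280384162815278867972786386990026616367835101711743481061512822637126393237863023859861337121316472571040883701611156416566161712432951074368494916804825468213607523890651561475568283546175653515982288656717742126817770499397324473444260534690734030857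768517702299468394829158801677134689389067722359551408181541506103065641483462266300652111028790868641638037610653485620065410719600648585089344886403293135198400716937589206734882220238572232474521026394946491289542507426658438538326306334928763546589633071059599594729388016677259409277374580877620771977759621234251046605758366952383936917208864638136940940870389590835490211095425406950790141924766471340683156395566923888938165569402245523419929613523887001855432046213160372859230884970009781994605155443719186508195210826751878676512070043684311809629319402800300871545217887030000767891583048431866429561315733634642074224299214062013478498005530193538120362104021295880918332687486028920796351812895958831681709920229819542496707136374481251300177244596770339607662048092863716285632607624331275665375912153782042331016161374599966956676482518569066092422033244980712694127892831804706660073164920237305208229014553496560249706924987181197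431118465142198597844329736737269957908064741889792255663859412095238059210506114257614370046390100676407199675591543985465173237371239987338807844027268476088858118850676972791348652207627057635863441994433696013512141400843884440236810805649742645690475720737144766676787569258613334923136892826967889845794113495669093728544152426805942083606456651993806706501847888504380182257048868270636640591887494220253623757103789159394710587687589636160733212394954020658066591508947906056836291781791687510112314014615144225785467142899792267136704868018832873822466996096329981403162766447131065928837790441979831807374587049632859593524957197887176293523254998850501702555653015320779825814135157324348835267150933851728493032900740440135973943753299568156036448536347363721101784047716529692933046808007652926512008714796540189000783554522764655032859141937685013063744916193364967686289241919739689605465212459848820701431128793787505696233972519930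168831345061859910732988367137636618407068545477650236512868837516218585816698604737688684295335579379082953576638708876258435131571537662678695276818189311806753696342071075800648303660682898894681094980607309589940692862269405709556164626321079353146787336146782463687856034518584824905107929672096510304897556487472637832172885708296643330610829289268754724895878767436459326712000618179963857664615259349851517056471198600519724778940984214011607031943489491829588301969856437393455719697623940269857849467396180086631649338100892316529698511812097419917166503751984111938526656390994497410652063613773691256335146068590996681130199445040677835307150819310283904285723550984716208675228843472757474465246244684466667690830961551266951739180029207816794678270269718449714108246302723833049065516406153029576744703071206878843578107931713478289098714177560306463295790097429358263069477170655446622093975851529506290908411038095978109452982811864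1770421732083196817075710205196406598061446542116788078232983988417489852755593835646712580820659547094107255645241470003238840977851811975421329581952705485289419787580147963066200372227566554327311055027395882225019123865886505980229919128953394325009057296532779527773276796404858932873772202087451527870569665399698039064292654649798696048317328309858513533122867915232128471330440148726044350696521095818672522372241339232012097742877423770240420832334735773176883350564856970121438500540703773088386927262272729981052005977531965053033589764107351883776)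

noncomputable def rc32 : Nat := (nat_lit 24679385466609749265721699496719032532811103250744663436330360141043156078835800210155459165235750841946158226743888681890574868645465450900631338279686048140098976242243527818156024866395436632804378121746457972554774111877654443989458833465439217431661689869571636618430954675867350433926914880960529010617598045320302918341996071327557922183274446639890402942228163058179169058361574832634065123565106749180095462258587006239024948326768812185570871019982201317485003224039502405631440949661451235242203809278532936767883060840693609671993046529838747840523352613069548166102001212051075147984828185543763533805561548253141160828577873693482820301868360292081914160353751249239207002862325709274938032735771498153051564994815212760031737883104828183662871941501635016613396594882725734592563883375560912965864636330285025274168219246103768617101136668990083449441377726172607665424734537408087804708141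043982820578404080209106537305837375515494489808223329336057133517844237304419979118072281457042402578987371049948450133483549271295223971729079377681733371858843028926974444268775332440420809871354062539488477783199577237196923976193519687702200894513023528079070701299344268275336170917568513979094740301433967871970742386260092435456431938856020372863212632498751913535146298358581927351072478676058286803115609742076569123347530439072802579751925895559599386172590929363065651636829486312765185557588911101419682474437995702419694478980571312802400305525016393904109824029337818958458781961753273286525126613362514671590197920964710621347299688697023132772471321646534023864497146227736536047760761128546660671735402492940841572706462270490885878960408549787917070300601507278089155586196735154223506741762712657831362182850401261852848785677419390429078703175625741038643532928150838747742562158902830671374452660758635972494021037281862201164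595221795305846315077616333344335666951926244317087046171306176604708107942406146921398472366570432094415776310093361700434065347031021976385079034023135079730373185125184422945312328724766389204405623833490460002292542993034352214772536845505800562781121656172168569266215480941663600295102193463857292194009123000850771916787821828816962870267797210057447663357731689382125480508829523665348359027349305267204458908279845567826608662332750164156220045762768189740898758470824804480110746512076955774405700352821247985407652924378930934927495122719584889839721702958815354077253745089978203379473889860628915618024802039332481199848852423932560566749658898967499716594071878608004049232666762593499738625208334177524604568436587423850361773227543838404900271964954120041527996479016218315856953804611797357352816946670111503739677892679393885661815070931322884972004530157832178936488847859570884002334740883405793728501499678715750318742638164042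283570381501103304570600742005841362882246801232633525421003877943837596257790483088291777247259993422347255651681615366051008070468060620048414285372692553773859578118645771356788825410620478965680050611944841771528141930927526369342272998741862202909382976182556009405487297784399697138444815303535699492278519029382563615156194836284606518394132748720216782383928878037159285834694386217313700448096892544200014373408860302845550361647406923268092768969886739147466620312077616190774693172038299490846999649819713817373992283540491578269158200987175722292551881754233502483982070884825183118825171066324879527364629312956463465266654660944964235584285023510974331612218067949094500329411892362010174639895722490830518042011646082168229260775489320302780929935724327750926248048435695677009675664757722622376605126884619282187043246086492703740470333079965065751195549114529222739928234006402595515012091762853732410246425255382984286446567234186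721433905815173683387906529557507064971420706716528887567688948435586741859478351964758505108488095498173988702652966351859724527428447892861621262921385457574540904317028776398929267358818063932484569109873537377121310364063304004755651043575192917641436282788588816172347211202260946681760132378048078057400278926778941843437722608791134403378133802919075697264479846379765398264689558905169194186116438002212723163639293273554440476723966499502998021245300496501057153176224177082633505012236022247838411751352779067318653251801187107656769318982970120226171741244892832989874843444144345610475951528235623680094613450295970276612842851554018862518074498513708589721802735650206485125675653211153649592597338654966786860111022236571538775572783243928677776054866933435755454729956551900161686290603169296180018290803959262304163052769490093333200795900688354969120155940282878609817317095483294804230501109236842309646110195582515003100673779134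702908178209642059281844738127583163710079922540557268922404624437602794984581533681158367861115754312553850886603652015760168833414237992456612151397787733284646510644151948946234721467893407083235482382346040080524054406334648137485545324850518556803607208733527364068276440167090159029071106461730874183683980468196866320356640194511841252186878734925906630027120388026251017292086466163788641979111988792315841227189525037971346249937602562077788752424445568979849507978621187820899929809991890040130409147049404084875278251384869641642603903813120389806223007999329448355945031738043003452393265561853811281769062848486860778906696432194939167862887065767982008069291825581122168974247773252774064723170893492196229963185050471019994637758097049235924867309152181917106738718713803512269491240531804096178307896007357465145776152465177798074663765758986213435221275772078636372066979095740260779267691893022549092837604772307155416607258831626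534738044008537856706946470559827582097344535612360617757942145933829445158149014942474978568390556271712047865748316939758233953308697319404538942681444681706024597690278877484501453061948955721908141472531114876524998379840049687500974647049553106271041612763036082178847562783152888004643242200158827075007202651805984679563752589967087877700393923965852146645279823276390958384122580071143168982552386474809278263006299905024480244644445976945233534256319361565581853962986290597918335228185354116520522931116639888110971458359291494401778092771521395729759361515558792874465009050867553616009483289593558795678769744672674353421250954837169226852367597544835061546255418396161117035152067508922369620586176207753668561116723313671011024405960978113740049519354007322989220729492220540901734713333799017934390290519316293817191155725146934569311947294552825140747426822006131048758395419667255720270281051593366486217152338938775294684110386784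191458018629903872983195789842206180032765753956577751483632334243995324408162191970468520712131217026705266317915341099189224501523808127873167282232166676809990766062068677096376841780206964503894505674227751277108240693997294999023893110148975240229832392479453502872256640342521261608192798374158740835208752845376873089316189520815408692049616265385086886476812172158021864846201048094206419608234299784037093017270203081390481386061683136185269993183516522390861810443446773398705777095554713192478771800533057866322803069772216090858887450427573251412219666361535896802364561361462998710083696766172630049749575922280114424423949484989879452733205924278289522660412399427662928352146796217019637799313448670409955215568127738125740027299357929643724583404711730521149608686347771752117590362504121480134610529590173762633575970995404079672545554470524877797604842137548532959674267004455172565262699137576007057782800709064390400990167458528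078377589000135243345567273094696261646476229751420607903141326409382943450073443751401251012434261577591657385035543158119108412047484665188329910487018645977899741836075171284257099410382397873760098537666563394181535313862310269926800556963706655782048112934214113674758741523573021849095302549173023537308573110444385025943427501907992392199722482686922174690381480623917127174995974411833373940823801870698986831249482698436063057927600615209617066549138313687086294862007235916353855157619331786125377756390131874991353051815053713443709671450418747265907604624277636587204787284627230144092058141013163322910321627956886620757424257351124743733467662284068558620895357502888356879446968815226681405752526176078262042991329382303800469035505122212181933327088587051298372958000033971934438517469539423797230107833614987422389398940669872777013341716445761223474512649354978075380767338264809761329503316932287513432139546192400886059806842502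195429148903600929427482066582267243869867199675543444790119140744781257476792275916501934328206926891691742172716629758261348455977909867041927354850225268146266681610008901166374004695598558502826389240054573656405210400297818701831678170040277045876828649324818760125564131893429240423631441262387050099275269101134586543674958854818572931471689075936984458562190166305744877166750222627177220982469244271368917497020203114848638226101791224658067962710988776378240744953368973287283417382783817460059237175017540278094890431727413901731006556291374665223594172852788633657911700529410678002834084612568712070786439003604775854301638402584535336680360813331857151074768992560196222329406127943120714851498454987297772941315656935443122113974593166895493523459843183347435577781344562696841408974571329265893138350146312574540736236605080509875808521250642414353810252004695487443685142379872077742759517618840118269219469031086685429239774381721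776382177019570184848582656373938698843080436698066157669631043143250422533765392653638904527214575132506171962844775914601071371386408134298548545800945583021146947137032907473422478546652589492244640868856376920790160692276968469512844037584927045915883983573038820019557573811889123713384448529203154180370278079829641314403873129400700003557010814418432197112652536036309781030082126524888535458903677481656477732335723200293998651398947458489486993003133952653477645983796239678096782034437755075169869815302673447904707734163154051071640704834284848143144663948519240452016840097198081662930234950343239999808665650329796176967032652515153107959552260245478373627022415436400429888921209197665799905288398228674450004524757695222726494083478922612570183498766754619018005259100081140466551708613205046825942308853620457890545224166669589861797964255979173760121446328877715781205543041151139716618224137558519704571845768635468619378220668894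214039446819384493107557480898820314751816398302381030957265538035006923416734007620256398097074633268187636076477899807675664343030192702207971452368466853253625462552502332732268510379605906211387594172239875021575044280435057303340883769668343146815268054024097589737406021915826900455224054323468946562105730282599814591470373769124217238693145306837684465011956435286202519300888737715239013726625715654642134953070664662595321176375819233380121876423917270301431072644841461004749362825031531569996524658873427510305391017639719450138523344237519682838847376713405882618488902890131486498664716653406368010410986233158375243899103526890465079573067865575232564630796119340163277656890336761569955962782885782053625033337868336648748621239609608940097543761921839246730045047401313996648427909630813559915041940471632596732556322578159812608676226701529197062957324252893042536513694824462476841935972080904916328394991221343152319381040063370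048302663844533602473819716269427945849500456220980023547580326640430857492877998890439873451755476399959870580120117194468891891840004649286018331412130062708963206052351041174380779101475752592434965732361508914916145225746147186493394987901271240025013415526972130725933835585670870885230850928914312389339531389311649971765446566626536240538167819091102410294652409981597097246153264132217649155422201707384278507187272833009690470533297712847606937249898172470996038381156371389782449598074463798922665965809780267876804283469056472901808954512222769503500375909704633557118234759243773233414251267571946699492974407952311285099301579897864632851101922580436090828780690320023438245100401488543462540345369502305317512028795356178108200115863190579468744262399895606973894701483404019308914117492472799574892064678209094149525763874687601698260341096138376156138300554282703712050259752257963351870093072790148427802694351917644439594686690660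791350284156328051869138298737779414667702885202293355751188067733063524953643214068844611586259683551161525348786522364345719658274290399239694522431591072590844242316453635030826242762491387415999871512961161432181248640711367806911959607720857167618530632147998445367688934056091297736472427938352340797016549083013757318817197414668437417905386762824949588566187805979077121762360450361925606519432329882440255151799018821098659689902511403719823131284813522106153700187427502802758865626223593760474412969749645556071843074272646038328666247896384772145127808184629989136647948181770254378951334054638950623657276241028742556124323603355591685492959407018545922404356976189481057792183331100148054938808166386135184394008355543839776355973115628088935524382290419818284447566273195790772013136980119885472207941780856355243482924524357827513953003911408028575977285910081300034158478803744899536548751413304567774068282506911742692798654178671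923946714703165399412651496445930519465265094657795330410467115421675217763732312049928332111113486929047885312417122988014518726228628950519567379674460539635827478600923231272363512016524222430987539438834173430321949927434753973472183333359031284965876207527222051803475975447223943382312680189430465402278710769295670077393816715614679175242854726263602334652425486589931920280993404854854871924652041550991162901835397443513821284843537983624094515656203240370841454123382556668792171490184659724620399602797392880641937418171443252244466929494945450482693717420603248820544528257608322292997116651900507412095035456399794767650110097037562454567269272270452835400369999349445924705243156800957448917982173318769531314003682608497706758734570602297800589176365310355110774209606322810099987981909222782610228450120636945665114800801656121365268524684511685944921434179857812772651134226397446934730517740463066870478373390406830373709384060147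755069438687530679732288100895395258348122588937051307475012066454777667922991167421459603625381282043705237867456940415512762843429506173187887637866287562816751753599348176365928056179650884937618785907034645228451092510200844582203953123851965414766386364189527948415846893254404729686115177886926028656911530270174944675338236723500280961171223294981303649551446615243870657973171935454045159484664559045906064686995653193993440147033888037062389821654800529777313701891229948842954739132260209715283193469366438136472105644605923096254201725060188119376439973728849232008485677761706829085828277321925416725870720122208720713175588263282606321800797052142326372891938489012808760205340742995363664058859705075777335387775263273499077537782654745891051550191405941107668382936314914865247949356722378832228843231639073553147967835259546636031410435185893777259733507922919043245859883682109583731344244598556575840481871302861495618520810785215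181547331700430519321652374864425703133986265792075947886793517667575056416232675082531924243473759617985760201896953779336424273853399512645144177566794598421057676380121444470663329458954220024239611650484072538032349691025617057663555845270452261757211238040419028995464629065894493650766805662413341814134176583249015616208676218207796015864067677235537175923218381101315620430849592921258799034649381212130270686788673901943906796131090783165110898611355955409435298320448209137008603063058673650589770801739093479595302554416217843495234329927718376001628003391796988276033459760859915188388884402210187138979581237472855197301798163895164039573287363136631578637881879926046660120532707943078301967701809665129622445921580599486226830583839956794071496382092821452929840264516398440864057085179050409404267301454464185860418346289559263638877192733308515203353232364080025550482273575575905142018975700973367025456058989133130861527593566598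273677179450840976513110320506524383633235673612484923942193035120229690580214158492901669698280006322785857065560303519602572471817453773786132987920435855566956732290444101517853439776400779474152156371159557308811843366959286087814041164918163560534928995845296360764809408647084917480880509157740497076957433877984229441395845043567299904828584118200151976756014057378627991667581547896895119960364604154015739343967693653637644920063551690429765550155323013154374749153970092746261923607623443933955219014738046023827391272392266950148932724069467168407753085409253639334994769212199966970733806566656110858437919342480175753913386981556205521994183245314695466550967048709639684932037701662645522627323124552968560180547024820726020901856072639792983660123238297477760970892822305785374766631118200886839311591578666307363156907220950133317017594241774146988541895032967957814655645831784960044362211919196808849797537739823482331704236632284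735797759801497380679078927397750782723776460617426250501687281321043630084598005931015032528769814860646575327553577194483131714990045886131062393305531439898472284547946101254240773827958122574009923800420361166787850477451683302596159646232527043277614956895868325243448659307678245199523162981504474941177293338964301513734117497148589504579340082586051198089021603200573025824949335135770697883934987693454426987402501229611902229737511867598323380216135617701128987506600041734623719436357148794907532773940038537757891213250033124954145681434679620501965238642948414859925998382164727952637321516305481091329945359209158201838453113563208467570711394714062937839886713725845870356944752916260525443820571485084595422586155573879560272945379477017087564355941420850910042287407506963538716498124060927785754861340833122459074552808284954435348616062048283076167150683078220110482743927475406759311420839760437085770536679052822210506052839013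0058045166000315011718592181757176227122756844060742996455369363087397822189316372743838880994293395094791327724628455711162885044023394443466652684894027561330060166807574685968569464074486442577865253833692434614626015266457170738361900188860880133387684452213995500530413764189216845767409810539216508770988507168030966824875893036537787253039308471542161148265063666200349414833902655295161107224333869480994088116535986552592070922673854450118888993749398223640155309530292993355128113300523861391045382345610791748009110308315932044565264203614804508672)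

noncomputable def rc33 : Nat := (nat_lit 24735094238588926012593919195208147487885375118818914483110740241857373102652362045391284222942423137059311608059468505168375433125210885430858608401801232875902494053821302060113834329695678442190397063294200988561124835650074984456715682827803159769005340130155764882698753865906820830968101980631647832092803000152016389466328644625500474092226126790288816596223151235631774655686337362058411184991490049166929288201775408968289355442665285473818226841367143774093453449350217074847506066309114472652730254445517466468813156935604051345770506832070839722527850492239469179687000536568051707515989920805696124305661768303835700565139490692966739718183924187662175254394246285538448750570189595024501364954236003629247384316174018865708833905897367204687058262203169540861433663014488136171572885896555164004384112453396854864041476795963380555938065450952026038050941659812960572500559374823903407501736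185894455926681827828585602566132354309799333165329792060011645249298753673911318542141552381603826633525916990672910579045716153552690112466668955566617933537433950972530477596399759512105865980664798462322903052557589924712264276508075999801552219258855282598853410314029261102436239017351182156505969688740604256053541509243438219681952256063258478214642526364238204514718403069108975684946170981024800431142401663657362082946780956275868895799268895371776956272475666317074336640707435376494945824195678795878104697368387598645587760211257049511194985350829273365888845153744303375968273771104041198595103201261172983997205703786982015550332724930391739113082991135132177590586580280091565024692529668775584648671099581059208108630850325603723833187171643699891620305610958844117884283160112059306011081505381667560792763197399307800698726519936328584484708935784123917679079197111726155778550830593033683789859827607268191425807122370151286780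152467647183004483630857357073408286407675440479116789663210656082640760329280561159936263159520004899543167718738647897952024882886236338183688271088351580142369893513010813353713661548780856697029314335419126582973179120306559555889008509650410118721328267864210639043766323536917870870926099758170649597912059785248011856857100461988797240476414330912776810026800548646991852218598289037932223230269578020840055818956488653762876942949708018105996267040194219744966932347471200643526473922433369813029349975803307799591398959363281897894163157468291100916235810572127074504666901892952102045609148600168279054272952028262984232467676229912486685301179007842888288308266709102989775520853835907491130653647872042369426032496450783729440033902720178627740002359734725388615253356988973846525548131953537049964620158854703230826882059858434105714374146231628535500289548559245259698282355238452537024625753907972752126735556680586983144657672691954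752857621493703550155608900129218070306775347821428942628365001322285580829656500067207878829875562612212730810729629611102472531136350896726313579797332367298912944590406063609923018262722870192077849342744740448981174030335389602362226171491326820841943797223551233441033400697873708214106005476614480874365064277782645918285316658156278777958985737733164245246210373623219672755873869838503163726283018297902689237841901536682670719091636606687443084041681294855275438298999572172741666560052533070741033575459571435184883676268411301136897549029131657598365321706065407410097978793853213518115245914490996569673122085254371334308215211685053056045835614736696324748371587789303410253033906041535877164223718464245418684914894679735325770755738519992157407845438440389989615252840544481884242549439073554989599486655392692464521505719401865733161054530134646855495986674345826818678050557199134890493694069162350684741925574035727143688380533610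512841366119890097399112982389650957878641628749174464298767032765309430641366453236581439483269454444321662231200759254083211795088942746438612827372088192569781673006905938948876198406607576961171091505680260877364041325455360931918845539395952988768572121467431291928820457639240674655190966862465105016078777131039081424301752038656068683579920378771055321271679019218317104276954931834916249492509096578902539332932949229065938658529171453038553194526458852350895053896607746537180760470813882219445199123703150826661186302815716631385929490490271703944392523965659663541434416891450721055639705318506676750087049260641683501616959436216385713926503756831218632971740785431422052506488811692708973382866011790862571649918319773313310810899369109837954643468007112469884596042459317161672359800147865230879425560006440940338472373787715020906153160811643642169516263277021006407920731992762040958954222316372840120257001711936853634267536317752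418772733842610605930633917952518969604922811405673789728499363998042338372968364715083420330268630897555252299535305995733415402038668733733702042902949862802549773760306096582195759826931630674542665853514898121018517550790461623744734356006279317610793918572441921424036706099469903576419246887845002315221647422102526905834123224371933746487428279530854341425674267724864383362749092031276507171138275108954131900193266350866978601306175431058342706117886259972972252822879005215541382684547548373928176859430318788331249329775443805128717100742245685935006904089615976045735713275274095420486286787840775523873661656555464050244113032661313862677507402091123175365591373435376846726944566607027208535536100493426072572922783028628195885926972521995543578260739388148767675338403486785756130103406207658000271961616014521990937608213969567434935063580082899483239663612721909152133550350995049761264942023203591921980976604829593900102773792543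921418065235114139688640416442122289106769409328202581334822764963432500415867945110381412832878008984754041230301210761985408878423199808240012382107774258948891547362360433863573272325504329082233295862744615001135072260156035301498240376542025659791646412186667287460378563082479256703929541389343533269214925002219836830316063348574684270426890520647149118690816195361125245844730990887694747564186058294189462158512416044888828407398820261507053313525197514485813579230309628616245983141195857890438268152367684217942951299127801052135133572523797095351078346364176633905291503445648368407132814514038379467083145871488148156465047025282794376675401513672824409658781058052655155504025818794440735213057441393653965866246487262541904795627585483406636861185208523966288913884011552114815482925203723249570416215884003767629604997824789737616713431519671188953222620145058281367479877339640614134766821437523829093462215038507316519163929842438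334097817738373033930702304828220311599863348401412259556036531777799072459770386638904859512899487783345905396834410933825342721262633854233968046572025408058819478050436515187690693859335550479066588340123586964902341666523668355002367351596191430524185258875972195942903829638450264831784095620519339592208439924136184742971864646343133074646167446684250163274477989148169783802052173484355302592859221991276113154789152379066152060554765042438172121858006365901075937147615881483513040261696864665391890909824610189434498760281662945915220093984475716993164333848784938242633983523610273896498616912983956767931365862662736174885944276993715304353658099736722088223163501114506946302646795074488658465829280875771608653441666401220541340308561690847313473085960423340176937365035902014452177472841655033588330034609173229488706110856566722295986657018285507935814025429577932299164844685593240852396625723218279657654264494981841546409916979362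999521011136044715612812391313661180668750014169674433851478188079868004999821537078041228371749522470227086812784335115896631393277355440073715633262392145326059528158251316868806570031546996677847002578717710987132070069869030732139207732806462466945853488625975627094106970937588517879885940710734746687488710823231533708854217109291716634296404240294029570392567540624462117335591094721324252521152443422731170679100340628007508019812292213311524191820241181825682989575180957855000616311516399513464922623304232014362007397605161063464276822033686802410051285984578790843611683374289918453723139102543827506552147239913919168481968236674855347680348465653535331759564975800653291352926957650165531608193107214215263557163836292168004993712441396637830262016366019006382631185744084493974530715291549546028270984845044265658766941980582345567738471809686700591851480145190320931760452068042264679682268879111995998139975092984449373066236623995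233902718544830965837124244420370279032943854344757276816595929631116388863609898599026954386850927057798382689017304710213723577372727315098513395232179149541230304007877493672326712755974799057807796054852080136061472865690409060427182964913219380878406010088766616504122950000046903068858599012256282454065744460067858373097243904750785309365698258355881386625458689558752551586526063538550796510022889555670188665544684829681743526367788977510098803686100920637452727318865938676961173421413764682826328747418714679646965174214928464326120612472204524293029151528336650999291756582000487165966652048922310767727225466166977136774942247363821387217895492164153684741821674102777462064069356434302890901655964421502367679407506398704495892248515237956358352856998625395230456932901221084083316710350745900844683789196548535237590211939150190691086962078097862197414949781237299977372093097088345815395453070249849105927407969374124224844367966521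005546626532430966900347760453304122897872065926098422443121320939317572416312919413250334523564604580289792384073659673767789804333706307408461981212723258632295914544621777385966226226061888768336668342583147054410617346502910861921293028546035406780146018460064058147615153926615225104540595262368311567242563626769833863296653342366705131373870875666051490115449880385185849039235994180869372112663809350728404364378782478166000966097884777026844743158946212592716344604621726797254158500070777077269337627743939975541506541547745297169418115135967758220656428155576766511249165951752281524482395370807901468629184142569118584951171996977063240622723721128356603877641103067833922446430313012953139515477409869375315726254495460284939412059188635696029283522194976032294390193339843500274018021464762719640809396305008388287847193035238041664231240686653390129263746763066536230543568889357190052879483652243194958585273032001528582412930381263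576141460894843875386686485423821885952495117418949430399184573841051164404147617062186993739447000124959172079218591795298286148748243213474915402807890603569866175872189575025227594329166673592397053964342371771086661052820577768836596493034937861764102599535874045915504492578778979744972365089967585779696481398564949642929367861184003825857284625602104462492614072436991400493161405941161626751344925143355110175183082181948624679475575035751682289604048252713753274327643242939618988932446571286374350047771388747036844061740475685385189344655885873115212369165871711742619506418856277398802798708038146820556027395039202721869892600516805611561202498790489863293835982624594972408521212884560528389833671527400570001037816683754374671059303812705296371686904917036423323186675579933947228533977748636656590419874975972229368275448407980278227243388869980504016498367089326729453588585199595713797589538246760788124892590076152778916139161413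600698480766415909541796601321451093425582459934176077943994091346336210920178744990252448830243587813667184865134518480548940375601153513286681240610688775583596084832205644994337513897593819498937793059554551421254326110402631599686591257789910189460415791719365968580246901112845625011251482458482996223690637745083108364822995082109278527368549092994650870408831537074631930882000694907851520993761106378054707882717821717744393695197746739413755601857823516991291560729582818146873717139849400621453872772254933733235453359961924709716487863282154024497960410530685279614207203189234807655983738400003304856846136927645921854467442750064388011701432643663370658041396150305697443976568731345909751079300443584160362463720041809092648575624358984591483895153610719285538984994712532325905807883642327726228749450037868148671041895575305448010021824490562879698788358109205448099717120562521048268050043757317659909528178278556806128317893480843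695848670816007856180999230497286479197044039820874863925725404321626532962986029621153634419029606698944758030267183296918762095008349832318122872214089714388687504385733272736854734504174178042160684699309377608040990190785340961310318636145574713773458953861161479456507237447029941866414262134184200738818620182812990180894727780905928723608618785986642170779803814476321672259720344520479808431884484727791435256065879752634491834656352619439484144067086688230623288745236795027992500993974402499894480327203516825955206444735961143659460552691115993049603868850061320615815731308370515469889952875184456337629877648244980096808214770241636401337837173841288484978288018252491081458034479127143461702691130992590780827599767355580077744774912510085003104115583990056203642001679921834647473955149447010087120570577067993809958126951698103891072028978438730756155006518336150701186832767313704341367092475071559594854014505785139763265065066450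725271083503896485682223508671739639946012087458767119376131336586877381341819218083597274819524542136099850875547826438834605734859161586451539299503509174086452093922188530480710141323757595389716701478412637289847621929410771947929453919290433908727016711246204057525509936056531049129034244425829334166532774634596131965710479816270756606163221852998854060993222811801793528478648925738066892517813056644132718489308016000558451080784587876847126573585913836732671480367810333444432465190766527383430851954638758580751579650359803989125926615925027884517180253713798427591372009830352489650213256514034987412468317593328246407115445272709062438297814443676584859652506820895918892462931033293819192013494209759039720064532942743851642509173404157001139017963043658035140486739955636829381297208056955087292302213321315921177774449461074598207585235616695525683004645304088670733584315988486358024853169458989414064049176621146040285330984085827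900856547864919777533324901991826799727215775769215664849827569088000778868006572493392433026863419051946376429998537089123977779846056704168543320637269697183254308121258961214146946846028190529409207718923431228077641497606613509454613296451666362050670225536538130999536672592591907520717165211745778214191045200575410479268927742499591779744012427718756939457124361149784768918037076024423241063207017467330027128361018312917996609379411277160062620906576957599237044696077463196755476225377344598682679177574719462245762191393236809471139089475699455272280572368721508310745820557382150834491987045823560921546101338935469950980190905124109305774086293823705509519375770765700672374933373956993377781283154497147672312655954162756895417790058271928853475571388911905883040438900163450675336834546589676556551473611805942446554921394800878184972165497922692536412621749547302814885589205205965431847016003958524719785829916425930908331843311247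339307988979566805403696357379618379486174751497871795163387815207618547454377377503219728750208884260800255182739732104274386154515612986083209287086733311560204282312078757678323743648548180531845232839583011214202757211321260155036716894690448151630070182356600001137622239901438147846551664005815137250920881784197024611129306973938420771142555641963020058337699036761978115622357447077416919577182978786766005675497397495237671762344731114599302326235371540109925127153334503027726736936151362950195177489459804886785880047361299806617783376109994442174998289551595812509935082530071724980644819675430927720371997422010455089691034540738738421982301256585765153725725645250856124382047089879892241126095039590857317810336030527562728953994856922895569941929073956144868686831750396769551084032493781235357009499912151265600813022202589290723889615295638596163157853836244357918615108375847262547459736761720779152306965795704772886485063446954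094435836365509694620249911388457440761728455763086283797712743326216736055845245859986907053162996435907693161167307703137428636343495912517456173768927757886485779753479432911408229037025110953928411990890501182978187213561893341159936414781585682241603787832040235267986984169432719528575380415154915781347728301588776082384033297104774742259948859336441430839760215165480825500719722500836814676636381310971352001187039746967142787677509556658492634899847332793272502710271924676160644352219642025111850608819988065097499265152230248826802585039102210465031804298625536916144171028335636108615512330382063993434863604312069610474024140674468508240804676934945887644591796689268921092814548996240008556977824679600371631867749748213880853067326481263438312786303819237929586669238933318805988059068196912311116040760994676407286203386504387667803929948279653069456322508697387213237135313675571850529317066414285732916598943348667923003342884870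377870795440320815450145657525720627391158011791785813904832865334075092269711445093886581045193975362166376130534228151030315841200208932665816326936819550310667484310320013108943791206145960682123641619490119669850450295528296382213712192106113455705999897190166631803086596785267834014476274123235096987717216449217055175532542253796356349720358961670613466995198231424998805414515087880898035767642002857376358458283461275579536878432019293543472996989374241943780928272370091674150409934891148917436734920202770319445040795606475048712323231749436570267760425111658819319057160227436808009752362019363179917746995640308538340783968342142226934994720201985132388888529359812406097924553837296059964694679515694640288564944453498412795243601290463563441290565738347156757111500842043684464834671442794297184523033792649654933348218292918571852401579705560531536033903720440569295255986663426071225296554334503641382177908271147466361304332336890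5584326973148286770474754840526885694331975233448375084096347237833024815705008400836307253876688633297768706354847304836984627079870607010370545764042491035817064787120582239236225422958718294904815788484762657911268130833862169145374489939018026125854438129838729066917412869738637121936310078253473477503290675082269344279331581786676298762425995554389148462356673621198079496019464242700368085381587658883828268116217567868870968017459605831219804385164603938134328020284324918910890122547740170955993241608310584099206151553837319670279014208726307438592)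

end Vale.Agent.Lib.P154.PChain.BA.S9
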